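import Crest.Agent.R249.Bia1_104
import Crest.Agent.R249.D1Def_104

-- ▼ part R249/Bia2_104
section

/-!
# R249, D1 (helper104): second Bianchi identity in coordinates, index free

`covR g x V W X Y = (∇_V R)(W, X) Y`; `covR_second` : the cyclic sum over `V, W, X` vanishes;
`covR_skew` : `⟨(∇_V R)(W,X)Y, Z⟩ = -⟨(∇_V R)(W,X)Z, Y⟩`.
-/

set_option autoImplicit false
set_option maxSynthPendingDepth 3

open scoped ContDiff Topology
open Filter Set
open Crest.GeometryTopology.CoordMetric Crest.GeometryTopology.ChartCurvature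
open Crest.Agent.R202.Tens Crest.Agent.R247.Bo84

noncomputable section

namespace Crest.Agent.R249.Bia2_104

open Crest.Agent.R249.Bia1_104

variable {n : ℕ}

local notation "𝔼" => EuclideanSpace ℝ (Fin n)

variable {g : MetricField n} {U : Set (EuclideanSpace ℝ (Fin n))} {x : EuclideanSpace ℝ (Fin n)}

/-- `(∇_V R)(W, X) Y`. -/
def covR (g : MetricField n) (x V W X Y : EuclideanSpace ℝ (Fin n)) : EuclideanSpace ℝ (Fin n) :=
  fderiv ℝ (fun y => curv (Gam g) y W X Y) x V + Gam g x V (curv (Gam g) x W X Y)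
    - curv (Gam g) x (Gam g x V W) X Y - curv (Gam g) x W (Gam g x V X) Y
    - curv (Gam g) x W X (Gam g x V Y)

lemma differentiableAt_fderiv_Gam (hg : IsRiemannianOn g U) (hx : x ∈ U) :
    DifferentiableAt ℝ (fderiv ℝ (Gam g)) x :=
  ((contDiffAt_Gam hg hx).fderiv_right (m := 1)
    (by norm_cast)).differentiableAt (by norm_num)

lemma differentiableAt_curv (hg : IsRiemannianOn g U) (hx : x ∈ U) (W X Y : 𝔼) :
    DifferentiableAt ℝ (fun y => curv (Gam g) y W X Y) x := by
  have h1 := differentiableAt_fderiv_Gam hg hx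
  have h2 := differentiableAt_Gam hg hx
  have c : ∀ V : 𝔼, DifferentiableAt ℝ (fun _ : 𝔼 => V) x := fun V => differentiableAt_const V
  unfold curv
  exact ((((h1.clm_apply (c W)).clm_apply (c X)).clm_apply (c Y)).sub
    (((h1.clm_apply (c X)).clm_apply (c W)).clm_apply (c Y))).add
    ((h2.clm_apply (c W)).clm_apply ((h2.clm_apply (c X)).clm_apply (c Y))) |>.sub
    ((h2.clm_apply (c X)).clm_apply ((h2.clm_apply (c W)).clm_apply (c Y)))

/-- the derivative of the curvature. -/
lemma fderiv_curv (hg : IsRiemannianOn g U) (hx : x ∈ U) (V W X Y : 𝔼) :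
    fderiv ℝ (fun y => curv (Gam g) y W X Y) x V =
      fderiv ℝ (fderiv ℝ (Gam g)) x V W X Y - fderiv ℝ (fderiv ℝ (Gam g)) x V X W Y
      + (fderiv ℝ (Gam g) x V W (Gam g x X Y) + Gam g x W (fderiv ℝ (Gam g) x V X Y))
      - (fderiv ℝ (Gam g) x V X (Gam g x W Y) + Gam g x X (fderiv ℝ (Gam g) x V W Y)) := by
  have h1 := differentiableAt_fderiv_Gam hg hx
  have h2 := differentiableAt_Gam hg hx
  have c : ∀ V : 𝔼, DifferentiableAt ℝ (fun _ : 𝔼 => V) x := fun V => differentiableAt_const V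
  have k1 : ∀ W X : 𝔼, DifferentiableAt ℝ (fun y => fderiv ℝ (Gam g) y W X Y) x := fun W X =>
    ((h1.clm_apply (c W)).clm_apply (c X)).clm_apply (c Y)
  have k2 : ∀ W X : 𝔼, DifferentiableAt ℝ (fun y => Gam g y W (Gam g y X Y)) x := fun W X =>
    (h2.clm_apply (c W)).clm_apply ((h2.clm_apply (c X)).clm_apply (c Y))
  have e1 : ∀ W X : 𝔼, fderiv ℝ (fun y => fderiv ℝ (Gam g) y W X Y) x V =
      fderiv ℝ (fderiv ℝ (Gam g)) x V W X Y := by
    intro W X
    rw [fderiv_clm_apply ((h1.clm_apply (c W)).clm_apply (c X)) (c Y)]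
    simp only [add_apply, ContinuousLinearMap.comp_apply, ContinuousLinearMap.flip_apply,
      fderiv_fun_const, Pi.zero_apply, zero_apply, map_zero, zero_add]
    rw [fderiv_clm_apply (h1.clm_apply (c W)) (c X)]
    simp only [add_apply, ContinuousLinearMap.comp_apply, ContinuousLinearMap.flip_apply,
      fderiv_fun_const, Pi.zero_apply, zero_apply, map_zero, zero_add]
    rw [fderiv_clm_apply h1 (c W)]
    simp only [add_apply, ContinuousLinearMap.comp_apply, ContinuousLinearMap.flip_apply,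
      fderiv_fun_const, Pi.zero_apply, zero_apply, map_zero, zero_add]
  have e2 : ∀ W X : 𝔼, fderiv ℝ (fun y => Gam g y W (Gam g y X Y)) x V =
      fderiv ℝ (Gam g) x V W (Gam g x X Y) + Gam g x W (fderiv ℝ (Gam g) x V X Y) := by
    intro W X
    have := fderiv_apply2 (G := Gam g) (Φ := fun z => z) (u := fun _ => W)
      (v := fun y => Gam g y X Y) (y := x) h2 differentiableAt_id (c W)
      ((h2.clm_apply (c X)).clm_apply (c Y)) V
    rw [fderiv_Gam_const hg hx] at this
    simpa using this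
  have e0 : (fun y => curv (Gam g) y W X Y) = fun y =>
      fderiv ℝ (Gam g) y W X Y - fderiv ℝ (Gam g) y X W Y + Gam g y W (Gam g y X Y)
        - Gam g y X (Gam g y W Y) := rfl
  have e3 := ((((k1 W X).hasFDerivAt.fun_sub (k1 X W).hasFDerivAt).fun_add
    (k2 W X).hasFDerivAt).fun_sub (k2 X W).hasFDerivAt).fderiv
  rw [e0, e3]
  simp only [add_apply, sub_apply]
  rw [e1, e1, e2, e2]

lemma fderiv2_Gam_symm (hg : IsRiemannianOn g U) (hx : x ∈ U) (V W : 𝔼) :
    fderiv ℝ (fderiv ℝ (Gam g)) x V W = fderiv ℝ (fderiv ℝ (Gam g)) x W V := by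
  have h := ((contDiffAt_Gam hg hx).of_le (m := 2)
    (WithTop.coe_le_coe.2 le_top)).isSymmSndFDerivAt (by simp)
  exact h.eq V W

/-- **second Bianchi identity.** -/
theorem covR_second (hg : IsRiemannianOn g U) (hx : x ∈ U) (V W X Y : 𝔼) :
    covR g x V W X Y + covR g x W X V Y + covR g x X V W Y = 0 := by
  simp only [covR, fderiv_curv hg hx]
  simp only [curv]
  rw [fderiv2_Gam_symm hg hx W V, fderiv2_Gam_symm hg hx X V, fderiv2_Gam_symm hg hx X W,
    Gam_symm hg hx W V, Gam_symm hg hx X V, Gam_symm hg hx X W]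
  simp only [map_add, map_sub]
  abel

/-- the covariant derivative of the curvature is skew in the last two arguments. -/
theorem covR_skew (hg : IsRiemannianOn g U) (hx : x ∈ U) (V W X Y Z : 𝔼) :
    bil (g x) (covR g x V W X Y) Z = - bil (g x) (covR g x V W X Z) Y := by
  have hU := hg.isOpen.mem_nhds hx
  have h0 : (fun y => bil (g y) (curv (Gam g) y W X Y) Z) =ᶠ[𝓝 x]
      fun y => - bil (g y) (curv (Gam g) y W X Z) Y := by
    filter_upwards [hU] with y hy using curv_skew hg hy W X Y Z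
  have h1 := congrArg (fun L : 𝔼 →L[ℝ] ℝ => L V) h0.fderiv_eq
  have d : ∀ Y Z : 𝔼, DifferentiableAt ℝ (fun y => bil (g y) (curv (Gam g) y W X Y) Z) x := by
    intro Y Z
    have : DifferentiableAt ℝ (fun y => Gf g y (curv (Gam g) y W X Y) Z) x :=
      ((differentiableAt_Gf hg hx).clm_apply (differentiableAt_curv hg hx W X Y)).clm_apply
        (differentiableAt_const _)
    exact this
  have h2 : fderiv ℝ (fun y => - bil (g y) (curv (Gam g) y W X Z) Y) x V =
      - fderiv ℝ (fun y => bil (g y) (curv (Gam g) y W X Z) Y) x V := by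
    rw [fderiv_fun_neg]
    rfl
  rw [h2, fderiv_bil hg hx (differentiableAt_curv hg hx W X Y) (differentiableAt_const Z),
    fderiv_bil hg hx (differentiableAt_curv hg hx W X Z) (differentiableAt_const Y)] at h1
  simp only [cov_apply, fderiv_fun_const, Pi.zero_apply, zero_apply, zero_add] at h1
  have s1 := curv_skew hg hx W X Y (Gam g x V Z)
  have s2 := curv_skew hg hx W X Z (Gam g x V Y)
  have s3 := curv_skew hg hx (Gam g x V W) X Y Z
  have s4 := curv_skew hg hx W (Gam g x V X) Y Z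
  simp only [covR, map_add, map_sub, add_apply, sub_apply] at h1 ⊢
  linarith

end Crest.Agent.R249.Bia2_104
end
end

-- ▼ part R249/Bia3_104

/-!
# R249, D1 (helper104): contracted Bianchi identity and the divergence of `Ric(∇f)`

* `ricF g x X Y = Ric(X, Y)`, `ricE g x` : the Ricci endomorphism;
* `contracted` : `2 Σ_a (∇_{e_a} Ric)(V, e_a) = ds(V)`;
* `divg_ricE` : `div (Ric ∇f) = ½ ⟨ds, df⟩ + tr (Ric ∘ Hess f)`.
-/

set_option autoImplicit false
set_option maxSynthPendingDepth 3

open scoped ContDiff Topology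
open Filter Set
open Crest.GeometryTopology.CoordMetric Crest.GeometryTopology.ChartCurvature
  Crest.GeometryTopology.RicciEnergy
open Crest.Agent.R202.Tens Crest.Agent.R247.Bo84

noncomputable section

namespace Crest.Agent.R249.Bia3_104

open Crest.Agent.R249.Bia1_104 Crest.Agent.R249.Bia2_104

variable {n : ℕ}

local notation "𝔼" => EuclideanSpace ℝ (Fin n)

variable {g : MetricField n} {U : Set (EuclideanSpace ℝ (Fin n))} {x : EuclideanSpace ℝ (Fin n)}

/-! ### linear traces -/

/-- trace of a map `𝔼 → 𝔼` (meaningful for linear maps) -/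
def trF (T : EuclideanSpace ℝ (Fin n) → EuclideanSpace ℝ (Fin n)) : ℝ :=
  ∑ k, T (EuclideanSpace.single k 1) k

lemma trF_eq_trL (T : 𝔼 →L[ℝ] 𝔼) : trF (fun X => T X) = trL T := (trL_apply T).symm

/-- a linear map as a continuous linear map -/
def mkL (T : EuclideanSpace ℝ (Fin n) → EuclideanSpace ℝ (Fin n))
    (h1 : ∀ X Y, T (X + Y) = T X + T Y) (h2 : ∀ (c : ℝ) X, T (c • X) = c • T X) :
    EuclideanSpace ℝ (Fin n) →L[ℝ] EuclideanSpace ℝ (Fin n) :=
  LinearMap.toContinuousLinearMap ⟨⟨T, h1⟩, h2⟩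

@[simp] lemma mkL_apply {T : 𝔼 → 𝔼} (h1 : ∀ X Y, T (X + Y) = T X + T Y)
    (h2 : ∀ (c : ℝ) X, T (c • X) = c • T X) (X : 𝔼) : mkL T h1 h2 X = T X := rfl

/-- trace in a frame. -/
lemma trF_frame (hg : IsRiemannianOn g U) (hx : x ∈ U) {ξ : Fin n → 𝔼} (h : IsFrame (g x) ξ)
    {T : 𝔼 → 𝔼} (h1 : ∀ X Y, T (X + Y) = T X + T Y) (h2 : ∀ (c : ℝ) X, T (c • X) = c • T X) :
    trF T = ∑ a, bil (g x) (T (ξ a)) (ξ a) := by
  have := h.trL_eq hg hx (mkL T h1 h2)
  rw [← trF_eq_trL] at this
  exact this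

lemma trF_comm {T : 𝔼 → 𝔼} (h1 : ∀ X Y, T (X + Y) = T X + T Y)
    (h2 : ∀ (c : ℝ) X, T (c • X) = c • T X) (S : 𝔼 →L[ℝ] 𝔼) :
    trF (fun X => S (T X)) = trF (fun X => T (S X)) := by
  have := trL_comp_comm S (mkL T h1 h2)
  rw [← trF_eq_trL, ← trF_eq_trL] at this
  exact this

lemma trF_add (S T : 𝔼 → 𝔼) : trF (fun X => S X + T X) = trF S + trF T := by
  simp [trF, Finset.sum_add_distrib]

lemma trF_sub (S T : 𝔼 → 𝔼) : trF (fun X => S X - T X) = trF S - trF T := by
  simp [trF, Finset.sum_sub_distrib]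

/-! ### linearity of `curv` and `covR` -/

lemma curv_add1 (g : MetricField n) (x W W' X Y : 𝔼) :
    curv (Gam g) x (W + W') X Y = curv (Gam g) x W X Y + curv (Gam g) x W' X Y := by
  simp only [curv, map_add, add_apply]; abel

lemma curv_smul1 (g : MetricField n) (c : ℝ) (x W X Y : 𝔼) :
    curv (Gam g) x (c • W) X Y = c • curv (Gam g) x W X Y := by
  simp only [curv, map_smul, smul_apply, smul_sub, smul_add]

lemma curv_add2 (g : MetricField n) (x W X X' Y : 𝔼) :
    curv (Gam g) x W (X + X') Y = curv (Gam g) x W X Y + curv (Gam g) x W X' Y := by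
  simp only [curv, map_add, add_apply]; abel

lemma curv_smul2 (g : MetricField n) (c : ℝ) (x W X Y : 𝔼) :
    curv (Gam g) x W (c • X) Y = c • curv (Gam g) x W X Y := by
  simp only [curv, map_smul, smul_apply, smul_sub, smul_add]

lemma curv_add3 (g : MetricField n) (x W X Y Y' : 𝔼) :
    curv (Gam g) x W X (Y + Y') = curv (Gam g) x W X Y + curv (Gam g) x W X Y' := by
  simp only [curv, map_add]; abel

lemma curv_smul3 (g : MetricField n) (c : ℝ) (x W X Y : 𝔼) :
    curv (Gam g) x W X (c • Y) = c • curv (Gam g) x W X Y := by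
  simp only [curv, map_smul, smul_sub, smul_add]

lemma covR_swap (g : MetricField n) (x V W X Y : 𝔼) :
    covR g x V W X Y = - covR g x V X W Y := by
  have e : (fun y => curv (Gam g) y W X Y) = fun y => - curv (Gam g) y X W Y := by
    funext y; exact curv_swap g y W X Y
  have e2 : fderiv ℝ (fun y => curv (Gam g) y W X Y) x V =
      - fderiv ℝ (fun y => curv (Gam g) y X W Y) x V := by
    rw [e, fderiv_fun_neg]; rfl
  simp only [covR]
  rw [e2, curv_swap g x W X Y, curv_swap g x (Gam g x V W) X Y,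
    curv_swap g x W (Gam g x V X) Y, curv_swap g x W X (Gam g x V Y), map_neg]
  abel

lemma fderiv_curv_add1 (hg : IsRiemannianOn g U) (hx : x ∈ U) (V W W' X Y : 𝔼) :
    fderiv ℝ (fun y => curv (Gam g) y (W + W') X Y) x V =
      fderiv ℝ (fun y => curv (Gam g) y W X Y) x V +
        fderiv ℝ (fun y => curv (Gam g) y W' X Y) x V := by
  simp only [curv_add1]
  rw [fderiv_fun_add (differentiableAt_curv hg hx W X Y) (differentiableAt_curv hg hx W' X Y)]
  rfl

lemma fderiv_curv_smul1 (hg : IsRiemannianOn g U) (hx : x ∈ U) (c : ℝ) (V W X Y : 𝔼) :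
    fderiv ℝ (fun y => curv (Gam g) y (c • W) X Y) x V =
      c • fderiv ℝ (fun y => curv (Gam g) y W X Y) x V := by
  simp only [curv_smul1]
  rw [fderiv_fun_const_smul (differentiableAt_curv hg hx W X Y)]
  rfl

lemma covR_add2 (hg : IsRiemannianOn g U) (hx : x ∈ U) (V W W' X Y : 𝔼) :
    covR g x V (W + W') X Y = covR g x V W X Y + covR g x V W' X Y := by
  simp only [covR]
  rw [fderiv_curv_add1 hg hx]
  simp only [map_add, curv_add1]
  abel

lemma covR_smul2 (hg : IsRiemannianOn g U) (hx : x ∈ U) (c : ℝ) (V W X Y : 𝔼) :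
    covR g x V (c • W) X Y = c • covR g x V W X Y := by
  simp only [covR]
  rw [fderiv_curv_smul1 hg hx]
  simp only [map_smul, curv_smul1, smul_sub, smul_add]

lemma covR_add1 (g : MetricField n) (x V V' W X Y : 𝔼) :
    covR g x (V + V') W X Y = covR g x V W X Y + covR g x V' W X Y := by
  simp only [covR, map_add, add_apply, curv_add1, curv_add2, curv_add3]
  abel

lemma covR_smul1 (g : MetricField n) (c : ℝ) (x V W X Y : 𝔼) :
    covR g x (c • V) W X Y = c • covR g x V W X Y := by
  simp only [covR, map_smul, smul_apply, curv_smul1, curv_smul2, curv_smul3, smul_sub, smul_add]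

/-! ### the Ricci form -/

/-- the Ricci form -/
def ricF (g : MetricField n) (x X Y : EuclideanSpace ℝ (Fin n)) : ℝ :=
  trF (fun W => curv (Gam g) x W X Y)

lemma ricF_eq (hg : IsRiemannianOn g U) (hx : x ∈ U) (X Y : 𝔼) :
    ricF g x X Y = ∑ i, ∑ j, ricci g x i j * Y i * X j := (ricci_form hg hx X Y).symm

lemma ricF_frame (hg : IsRiemannianOn g U) (hx : x ∈ U) {ξ : Fin n → 𝔼} (h : IsFrame (g x) ξ)
    (X Y : 𝔼) : ricF g x X Y = ∑ a, bil (g x) (curv (Gam g) x (ξ a) X Y) (ξ a) :=
  trF_frame hg hx h (fun W W' => curv_add1 g x W W' X Y) (fun c W => curv_smul1 g c x W X Y)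

lemma ricF_symm (hg : IsRiemannianOn g U) (hx : x ∈ U) (X Y : 𝔼) :
    ricF g x X Y = ricF g x Y X := by
  obtain ⟨ξ, h⟩ := exists_frame hg hx
  rw [ricF_frame hg hx h, ricF_frame hg hx h]
  exact Finset.sum_congr rfl fun a _ => curv_pair hg hx _ _ _ _

lemma ricci_symm (hg : IsRiemannianOn g U) (hx : x ∈ U) (i j : Fin n) :
    ricci g x i j = ricci g x j i := by
  have h := ricF_symm hg hx (EuclideanSpace.single i 1) (EuclideanSpace.single j 1)
  rw [ricF_eq hg hx, ricF_eq hg hx] at h
  have key : ∀ a b : Fin n, ∑ i, ∑ j, ricci g x i j *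
      (EuclideanSpace.single b (1:ℝ) : 𝔼) i * (EuclideanSpace.single a (1:ℝ) : 𝔼) j =
      ricci g x b a := by
    intro a b
    rw [Finset.sum_eq_single b, Finset.sum_eq_single a]
    · simp
    · intro c _ hc; simp [hc]
    · simp
    · intro c _ hc
      refine Finset.sum_eq_zero fun d _ => ?_
      simp [hc]
    · simp
  rw [key, key] at h
  exact h.symm

/-- `(∇_V Ric)(X, Y)` -/
def covRic (g : MetricField n) (x V X Y : EuclideanSpace ℝ (Fin n)) : ℝ :=
  fderiv ℝ (fun y => ricF g y X Y) x V - ricF g x (Gam g x V X) Y - ricF g x X (Gam g x V Y)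


lemma fderiv_ricF (hg : IsRiemannianOn g U) (hx : x ∈ U) (V X Y : 𝔼) :
    fderiv ℝ (fun y => ricF g y X Y) x V =
      trF (fun W => fderiv ℝ (fun y => curv (Gam g) y W X Y) x V) := by
  have h1 : ∀ k : Fin n, HasFDerivAt
      (fun y => curv (Gam g) y (EuclideanSpace.single k (1:ℝ)) X Y k)
      ((EuclideanSpace.proj k : 𝔼 →L[ℝ] ℝ).comp
        (fderiv ℝ (fun y => curv (Gam g) y (EuclideanSpace.single k (1:ℝ)) X Y) x)) x := fun k =>
    (EuclideanSpace.proj k : 𝔼 →L[ℝ] ℝ).hasFDerivAt.comp x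
      (differentiableAt_curv hg hx (EuclideanSpace.single k 1) X Y).hasFDerivAt
  have h2 := (HasFDerivAt.fun_sum (u := Finset.univ) fun k _ => h1 k).fderiv
  unfold ricF trF
  rw [h2]
  simp only [sum_apply, ContinuousLinearMap.comp_apply]
  rfl

/-- the trace of `(∇_V R)(·, X)Y` is `(∇_V Ric)(X, Y)`. -/
lemma trF_covR (hg : IsRiemannianOn g U) (hx : x ∈ U) (V X Y : 𝔼) :
    trF (fun W => covR g x V W X Y) = covRic g x V X Y := by
  have h1 := trF_comm (T := fun W => curv (Gam g) x W X Y) (fun W W' => curv_add1 g x W W' X Y)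
    (fun c W => curv_smul1 g c x W X Y) (Gam g x V)
  have e : (fun W => covR g x V W X Y) = fun W =>
      ((((fderiv ℝ (fun y => curv (Gam g) y W X Y) x V) + Gam g x V (curv (Gam g) x W X Y))
        - curv (Gam g) x (Gam g x V W) X Y) - curv (Gam g) x W (Gam g x V X) Y)
        - curv (Gam g) x W X (Gam g x V Y) := rfl
  rw [e, trF_sub, trF_sub, trF_sub, trF_add, ← fderiv_ricF hg hx]
  simp only [covRic, ricF]
  rw [h1]
  ring


/-- **contracted Bianchi identity.** -/
theorem contracted (hg : IsRiemannianOn g U) (hx : x ∈ U) {ξ : Fin n → 𝔼}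
    (h : IsFrame (g x) ξ) (V : 𝔼) :
    2 * ∑ a, covRic g x (ξ a) V (ξ a) = ∑ b, covRic g x V (ξ b) (ξ b) := by
  -- first trace
  have B1 : ∀ X Y : 𝔼, ∑ a, bil (g x) (covR g x (ξ a) X V Y) (ξ a) =
      covRic g x X V Y - covRic g x V X Y := by
    intro X Y
    have h1 : trF (fun W => covR g x V W X Y + covR g x W X V Y + covR g x X V W Y) = 0 := by
      have : (fun W => covR g x V W X Y + covR g x W X V Y + covR g x X V W Y) =
          fun _ => (0 : 𝔼) := by
        funext W; exact covR_second hg hx V W X Y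
      rw [this]; simp [trF]
    rw [trF_add, trF_add, trF_covR hg hx] at h1
    have h3 : trF (fun W => covR g x X V W Y) = - covRic g x X V Y := by
      rw [← trF_covR hg hx]
      have : (fun W => covR g x X V W Y) = fun W => - covR g x X W V Y := by
        funext W; exact covR_swap g x X V W Y
      rw [this]
      simp [trF]
    have h2 := trF_frame hg hx h (T := fun W => covR g x W X V Y)
      (fun W W' => covR_add1 g x W W' X V Y) (fun c W => covR_smul1 g c x W X V Y)
    rw [h3, h2] at h1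
    linarith
  -- second trace
  have B2 : ∑ b, ∑ a, bil (g x) (covR g x (ξ a) (ξ b) V (ξ b)) (ξ a) =
      ∑ b, (covRic g x (ξ b) V (ξ b) - covRic g x V (ξ b) (ξ b)) :=
    Finset.sum_congr rfl fun b _ => B1 (ξ b) (ξ b)
  have B3 : ∑ b, ∑ a, bil (g x) (covR g x (ξ a) (ξ b) V (ξ b)) (ξ a) =
      - ∑ a, covRic g x (ξ a) V (ξ a) := by
    rw [Finset.sum_comm, ← Finset.sum_neg_distrib]
    refine Finset.sum_congr rfl fun a _ => ?_
    rw [← trF_covR hg hx, trF_frame hg hx h (T := fun W => covR g x (ξ a) W V (ξ a))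
      (fun W W' => covR_add2 hg hx (ξ a) W W' V (ξ a)) (fun c W => covR_smul2 hg hx c (ξ a) W V (ξ a)),
      ← Finset.sum_neg_distrib]
    exact Finset.sum_congr rfl fun b _ => covR_skew hg hx _ _ _ _ _
  rw [B3, Finset.sum_sub_distrib] at B2
  linarith

/-! ### the Ricci endomorphism -/

/-- the Ricci endomorphism -/
def ricE (g : MetricField n) (x : EuclideanSpace ℝ (Fin n)) :
    EuclideanSpace ℝ (Fin n) →L[ℝ] EuclideanSpace ℝ (Fin n) :=
  ∑ i, ∑ k, (∑ j, inverseField g x i j * ricci g x j k) •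
    (EuclideanSpace.proj k : EuclideanSpace ℝ (Fin n) →L[ℝ] ℝ).smulRight
      (EuclideanSpace.single i (1:ℝ))

lemma ricE_apply (g : MetricField n) (x X : 𝔼) (i : Fin n) :
    ricE g x X i = ∑ k, (∑ j, inverseField g x i j * ricci g x j k) * X k := by
  simp only [ricE, sum_apply, smul_apply, ContinuousLinearMap.smulRight_apply, prj_apply,
    PiLp.smul_apply, smul_eq_mul, WithLp.ofLp_sum, Finset.sum_apply, PiLp.single_apply]
  rw [Finset.sum_eq_single i]
  · refine Finset.sum_congr rfl fun k _ => ?_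
    simp
  · intro b _ hb
    refine Finset.sum_eq_zero fun k _ => ?_
    simp [hb.symm]
  · simp

lemma trL_ricE (g : MetricField n) (x : 𝔼) (hg : IsRiemannianOn g U) (hx : x ∈ U) :
    trL (ricE g x) = scalarCurv g x := by
  rw [trL_apply, scalarCurv]
  refine Finset.sum_congr rfl fun k _ => ?_
  rw [ricE_apply, Finset.sum_eq_single k]
  · simp only [PiLp.single_apply, if_true, mul_one]
    refine Finset.sum_congr rfl fun j _ => ?_
    rw [ricci_symm hg hx j k]
  · intro b _ hb; simp [hb]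
  · simp

lemma bil_ricE (hg : IsRiemannianOn g U) (hx : x ∈ U) (X Y : 𝔼) :
    bil (g x) (ricE g x X) Y = ricF g x X Y := by
  rw [ricF_eq hg hx, bil_apply]
  have h1 : ∀ a : Fin n, ∑ b, g x b a * ricE g x X b = ∑ k, ricci g x a k * X k := by
    intro a
    simp only [ricE_apply, Finset.mul_sum]
    rw [Finset.sum_comm]
    refine Finset.sum_congr rfl fun k _ => ?_
    have h2 : ∀ b : Fin n, g x b a * ((∑ j, inverseField g x b j * ricci g x j k) * X k) =
        ∑ j, g x a b * inverseField g x b j * (ricci g x j k * X k) := by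
      intro b
      rw [metric_symm hg hx b a, Finset.sum_mul, Finset.mul_sum]
      refine Finset.sum_congr rfl fun j _ => by ring
    simp only [h2]
    rw [Finset.sum_comm]
    have h3 : ∀ j : Fin n, ∑ b, g x a b * inverseField g x b j * (ricci g x j k * X k) =
        (if a = j then 1 else 0) * (ricci g x j k * X k) := by
      intro j
      rw [← Finset.sum_mul, mul_inv_apply hg hx]
    simp only [h3]
    simp
  calc ∑ i, ∑ j, g x i j * ricE g x X i * Y j
      = ∑ j, (∑ i, g x i j * ricE g x X i) * Y j := by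
        rw [Finset.sum_comm]
        refine Finset.sum_congr rfl fun j _ => ?_
        rw [Finset.sum_mul]
    _ = ∑ j, (∑ k, ricci g x j k * X k) * Y j := by simp only [h1]
    _ = ∑ i, ∑ j, ricci g x i j * Y i * X j := by
        refine Finset.sum_congr rfl fun i _ => ?_
        rw [Finset.sum_mul]
        refine Finset.sum_congr rfl fun j _ => by ring

end Crest.Agent.R249.Bia3_104
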