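import Crest.Agent.R249.B2Defs_474
import Crest.Agent.R202.LinODE
import Crest.Agent.R226.NearDiagFinal_996
import Crest.Agent.R226.GeoBasic_616
import Crest.Agent.R226.TangentTools_415

-- ▼ part R249/B2Jac_474
section

set_option autoImplicit false
set_option maxSynthPendingDepth 3
set_option linter.unusedSectionVars false

open Set Filter Topology
open scoped ContDiff
open Crest.Agent.R244.CF (IsLC curv cov hasDerivAt_apply2 fderiv_apply2_const)
open Crest.Agent.R249.B2Defs_474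

noncomputable section

namespace Crest.Agent.R249.B2Jac_474

section ODE

variable {F : Type*} [NormedAddCommGroup F] [NormedSpace ℝ F]

/-- uniqueness for linear ODEs on `[0,1]` -/
theorem lin_unique {A : ℝ → F →L[ℝ] F} (hA : ContinuousOn A (Icc (0 : ℝ) 1)) {x y : ℝ → F}
    (hx : ∀ t ∈ Icc (0 : ℝ) 1, HasDerivAt x (A t (x t)) t)
    (hy : ∀ t ∈ Icc (0 : ℝ) 1, HasDerivAt y (A t (y t)) t) (h0 : x 0 = y 0) :
    ∀ t ∈ Icc (0 : ℝ) 1, x t = y t := by
  obtain ⟨K, hK⟩ : ∃ K : ℝ, ∀ t ∈ Icc (0 : ℝ) 1, ‖A t‖ ≤ K := by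
    obtain ⟨K, hK⟩ := isCompact_Icc.bddAbove_image (f := fun t => ‖A t‖) hA.norm
    exact ⟨K, fun t ht => hK ⟨t, ht, rfl⟩⟩
  have hK0 : 0 ≤ K := (norm_nonneg _).trans (hK 0 ⟨le_rfl, zero_le_one⟩)
  have h := ODE_solution_unique_of_mem_Icc_right (v := fun t z => A t z) (s := fun _ => univ)
    (K := K.toNNReal) (f := x) (g := y) (a := 0) (b := 1)
    (fun t ht => ((A t).lipschitz.weaken (by
      rw [← NNReal.coe_le_coe, Real.coe_toNNReal _ hK0]
      exact hK t ⟨ht.1, ht.2.le⟩)).lipschitzOnWith)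
    (fun t ht => (hx t ht).continuousAt.continuousWithinAt)
    (fun t ht => (hx t ⟨ht.1, ht.2.le⟩).hasDerivWithinAt) (fun _ _ => trivial)
    (fun t ht => (hy t ht).continuousAt.continuousWithinAt)
    (fun t ht => (hy t ⟨ht.1, ht.2.le⟩).hasDerivWithinAt) (fun _ _ => trivial) h0
  exact fun t ht => h ht

end ODE

variable {E : Type*} [NormedAddCommGroup E] [NormedSpace ℝ E] [FiniteDimensional ℝ E]
variable {U : Set E} {g : E → E →L[ℝ] E →L[ℝ] ℝ} {Γ : E → E →L[ℝ] E →L[ℝ] E}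

/-- parallel frames along the segment `[0,1] v` -/
theorem exists_frame (h : IsLC U g Γ) {v : E} (hv : ∀ t ∈ Icc (0 : ℝ) 1, t • v ∈ U) :
    ∃ P : ℝ → E →L[ℝ] E, P 0 = ContinuousLinearMap.id ℝ E ∧
      ∀ t ∈ Icc (0 : ℝ) 1, HasDerivAt P (-(Γ (t • v) v).comp (P t)) t := by
  have : CompleteSpace E := FiniteDimensional.complete ℝ E
  let c : ℝ → ℝ := fun t => (projIcc (0 : ℝ) 1 zero_le_one t : ℝ)
  have hc : Continuous c := continuous_subtype_val.comp continuous_projIcc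
  have hcv : ∀ t, c t • v ∈ U := fun t => hv _ (projIcc (0 : ℝ) 1 zero_le_one t).2
  have hΓ : Continuous fun t => Γ (c t • v) v := by
    have h1 : Continuous fun t => Γ (c t • v) :=
      h.Γ_smooth.continuousOn.comp_continuous (hc.smul continuous_const) hcv
    exact h1.clm_apply continuous_const
  let A : Unit → ℝ → (E →L[ℝ] E) →L[ℝ] (E →L[ℝ] E) := fun _ t =>
    -(ContinuousLinearMap.compL ℝ E E E (Γ (c t • v) v))
  have hA : Continuous (Function.uncurry A) := by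
    have h2 : Continuous fun p : Unit × ℝ => Γ (c p.2 • v) v := hΓ.comp continuous_snd
    exact ((ContinuousLinearMap.compL ℝ E E E).continuous.comp h2).neg
  obtain ⟨S, -, hS0, hS⟩ := Crest.Agent.R202.LinODE.exists_flow hA 0
    (x0 := fun _ => ContinuousLinearMap.id ℝ E) continuous_const
  refine ⟨S (), hS0 (), fun t ht => ?_⟩
  have h3 := hS () t
  have h4 : c t = t := by
    show ((projIcc (0 : ℝ) 1 zero_le_one t : Icc (0:ℝ) 1) : ℝ) = t
    rw [projIcc_of_mem _ ht]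
  have h5 : A () t (S () t) = -(Γ (t • v) v).comp (S () t) := by
    show -((Γ (c t • v) v).comp (S () t)) = _
    rw [h4]
  rw [h5] at h3
  exact h3

/-- derivative of the curvature along a curve -/
theorem hasDerivAt_curv (h : IsLC U g Γ) {c A B C : ℝ → E} {c' A' B' C' : E} {t : ℝ}
    (hx : c t ∈ U) (hc : HasDerivAt c c' t) (hA : HasDerivAt A A' t) (hB : HasDerivAt B B' t)
    (hC : HasDerivAt C C' t) :
    HasDerivAt (fun s => curv Γ (c s) (A s) (B s) (C s))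
      (fderiv ℝ (fun y => curv Γ y (A t) (B t) (C t)) (c t) c' + curv Γ (c t) A' (B t) (C t)
        + curv Γ (c t) (A t) B' (C t) + curv Γ (c t) (A t) (B t) C') t := by
  have hG := h.Γ_differentiableAt hx
  have hDG : DifferentiableAt ℝ (fderiv ℝ Γ) (c t) :=
    ((h.Γ_contDiffAt hx).fderiv_right (m := ∞) (by simp)).differentiableAt (by simp)
  -- general formula, for a curve `c` with velocity `c'`
  have key : ∀ {c A B C : ℝ → E} {c' A' B' C' : E} {t : ℝ}, DifferentiableAt ℝ Γ (c t) →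
      DifferentiableAt ℝ (fderiv ℝ Γ) (c t) → HasDerivAt c c' t → HasDerivAt A A' t →
      HasDerivAt B B' t → HasDerivAt C C' t →
      HasDerivAt (fun s => curv Γ (c s) (A s) (B s) (C s))
        (fderiv ℝ (fderiv ℝ Γ) (c t) c' (A t) (B t) (C t) + fderiv ℝ Γ (c t) A' (B t) (C t)
          + fderiv ℝ Γ (c t) (A t) B' (C t) + fderiv ℝ Γ (c t) (A t) (B t) C'
        - (fderiv ℝ (fderiv ℝ Γ) (c t) c' (B t) (A t) (C t) + fderiv ℝ Γ (c t) B' (A t) (C t)
          + fderiv ℝ Γ (c t) (B t) A' (C t) + fderiv ℝ Γ (c t) (B t) (A t) C')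
        + (fderiv ℝ Γ (c t) c' (A t) (Γ (c t) (B t) (C t)) + Γ (c t) A' (Γ (c t) (B t) (C t))
          + Γ (c t) (A t) (fderiv ℝ Γ (c t) c' (B t) (C t) + Γ (c t) B' (C t)
            + Γ (c t) (B t) C'))
        - (fderiv ℝ Γ (c t) c' (B t) (Γ (c t) (A t) (C t)) + Γ (c t) B' (Γ (c t) (A t) (C t))
          + Γ (c t) (B t) (fderiv ℝ Γ (c t) c' (A t) (C t) + Γ (c t) A' (C t)
            + Γ (c t) (A t) C'))) t := by
    intro c A B C c' A' B' C' t hG hDG hc hA hB hC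
    have g1 : HasDerivAt (fun s => Γ (c s)) (fderiv ℝ Γ (c t) c') t :=
      hG.hasFDerivAt.comp_hasDerivAt t hc
    have g2 : HasDerivAt (fun s => fderiv ℝ Γ (c s)) (fderiv ℝ (fderiv ℝ Γ) (c t) c') t :=
      hDG.hasFDerivAt.comp_hasDerivAt t hc
    have a1 := hasDerivAt_apply2 (g2.clm_apply hA) hB hC
    have a2 := hasDerivAt_apply2 (g2.clm_apply hB) hA hC
    have a3 := hasDerivAt_apply2 g1 hA (hasDerivAt_apply2 g1 hB hC)
    have a4 := hasDerivAt_apply2 g1 hB (hasDerivAt_apply2 g1 hA hC)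
    refine (((a1.sub a2).add a3).sub a4).congr_deriv ?_
    simp only [add_apply]
  have k0 := key hG hDG hc hA hB hC
  have k1 : ∀ W, fderiv ℝ (fun y => curv Γ y (A t) (B t) (C t)) (c t) W
      = fderiv ℝ (fderiv ℝ Γ) (c t) W (A t) (B t) (C t)
        - fderiv ℝ (fderiv ℝ Γ) (c t) W (B t) (A t) (C t)
        + (fderiv ℝ Γ (c t) W (A t) (Γ (c t) (B t) (C t))
          + Γ (c t) (A t) (fderiv ℝ Γ (c t) W (B t) (C t)))
        - (fderiv ℝ Γ (c t) W (B t) (Γ (c t) (A t) (C t))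
          + Γ (c t) (B t) (fderiv ℝ Γ (c t) W (A t) (C t))) := by
    intro W
    have hl : HasDerivAt (fun s : ℝ => c t + s • W) W 0 := by
      simpa using ((hasDerivAt_id (0 : ℝ)).smul_const W).const_add (c t)
    have hct : c t + (0 : ℝ) • W = c t := by simp
    have hd : DifferentiableAt ℝ (fun y => curv Γ y (A t) (B t) (C t)) (c t) := by
      unfold curv
      have hAt : ∀ X Y : E, DifferentiableAt ℝ (fun y => Γ y X Y) (c t) := fun X Y =>
        (hG.clm_apply (differentiableAt_const _)).clm_apply (differentiableAt_const _)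
      have hDt : ∀ X Y Z : E, DifferentiableAt ℝ (fun y => fderiv ℝ Γ y X Y Z) (c t) :=
        fun X Y Z => ((hDG.clm_apply (differentiableAt_const _)).clm_apply
          (differentiableAt_const _)).clm_apply (differentiableAt_const _)
      exact (((hDt _ _ _).sub (hDt _ _ _)).add
        ((hG.clm_apply (differentiableAt_const _)).clm_apply (hAt _ _))).sub
        ((hG.clm_apply (differentiableAt_const _)).clm_apply (hAt _ _))
    have k2 := key (c := fun s : ℝ => c t + s • W) (A := fun _ => A t) (B := fun _ => B t)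
      (C := fun _ => C t) (t := 0) (by rw [hct]; exact hG) (by rw [hct]; exact hDG) hl
      (hasDerivAt_const _ _) (hasDerivAt_const _ _) (hasDerivAt_const _ _)
    have hd' : DifferentiableAt ℝ (fun y => curv Γ y (A t) (B t) (C t)) (c t + (0 : ℝ) • W) := by
      rw [hct]; exact hd
    have k3 := hd'.hasFDerivAt.comp_hasDerivAt (0 : ℝ) hl
    have k4 := k3.unique k2
    rw [hct] at k4
    rw [k4]
    simp only [map_zero, add_zero, zero_apply]
  refine k0.congr_deriv ?_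
  rw [k1]
  simp only [curv, map_add]
  abel

theorem fderiv_rad (h : IsLC U g Γ) (hrad : ∀ x ∈ U, Γ x x x = 0) {x : E} (hx : x ∈ U) (w : E) :
    fderiv ℝ Γ x w x x + (2 : ℝ) • Γ x w x = 0 := by
  have hid : HasFDerivAt (fun y : E => y) (ContinuousLinearMap.id ℝ E) x := hasFDerivAt_id x
  have e := Crest.Agent.R244.CF.hasFDerivAt_apply2 (h.Γ_differentiableAt hx).hasFDerivAt hid hid w
  have e1 : (fun y => Γ y y y) =ᶠ[𝓝 x] fun _ => (0 : E) := by
    filter_upwards [h.isOpen.mem_nhds hx] with y hy using hrad y hy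
  rw [e1.fderiv_eq] at e
  simp only [fderiv_fun_const, Pi.zero_apply, zero_apply, ContinuousLinearMap.coe_id', id_eq] at e
  rw [two_smul, ← add_assoc]
  rw [h.Γ_symm x hx x w] at e
  exact e.symm

theorem gamma_zero (h : IsLC U g Γ) (h0 : (0 : E) ∈ U) (hrad : ∀ x ∈ U, Γ x x x = 0) (u v : E) :
    Γ 0 u v = 0 := by
  have hdiag : ∀ w, Γ 0 w w = 0 := by
    intro w
    have hc : Tendsto (fun s : ℝ => Γ (s • w) w w) (𝓝[≠] 0) (𝓝 (Γ 0 w w)) := by
      have h1 : ContinuousAt Γ (0 : E) := (h.Γ_contDiffAt h0).continuousAt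
      have h2 : Tendsto (fun s : ℝ => s • w) (𝓝[≠] 0) (𝓝 (0 : E)) := by
        have : Tendsto (fun s : ℝ => s • w) (𝓝 0) (𝓝 ((0 : ℝ) • w)) :=
          (continuous_id.smul continuous_const).tendsto 0
        rw [zero_smul] at this
        exact this.mono_left nhdsWithin_le_nhds
      have h3 := h1.tendsto.comp h2
      exact (((ContinuousLinearMap.apply ℝ E w).continuous.comp
        (ContinuousLinearMap.apply ℝ (E →L[ℝ] E) w).continuous).tendsto _).comp h3
    have hz : (fun s : ℝ => Γ (s • w) w w) =ᶠ[𝓝[≠] 0] fun _ => (0 : E) := by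
      have h4 : ∀ᶠ s : ℝ in 𝓝 0, s • w ∈ U := by
        have : Tendsto (fun s : ℝ => s • w) (𝓝 0) (𝓝 (0 : E)) := by
          have h7 : Continuous fun s : ℝ => s • w := continuous_id.smul continuous_const
          have h8 := h7.tendsto 0
          rwa [zero_smul] at h8
        exact this.eventually (h.isOpen.mem_nhds h0)
      filter_upwards [h4.filter_mono nhdsWithin_le_nhds, self_mem_nhdsWithin] with s hs hs0
      have h5 := hrad _ hs
      simp only [map_smul, smul_apply, smul_smul] at h5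
      have hs0' : s ≠ 0 := hs0
      rcases smul_eq_zero.1 h5 with h6 | h6
      · exact absurd h6 (mul_ne_zero hs0' hs0')
      · exact h6
    exact tendsto_nhds_unique (hc.congr' hz) tendsto_const_nhds
  have h1 := hdiag (u + v)
  rw [map_add, map_add, add_apply, add_apply, hdiag u, hdiag v, h.Γ_symm 0 h0 v u, zero_add,
    add_zero, ← two_smul ℝ] at h1
  exact (smul_eq_zero.1 h1).resolve_left two_ne_zero

/-- radial identities along `t v` -/
theorem rad_facts (h : IsLC U g Γ) (h0 : (0 : E) ∈ U) (hrad : ∀ x ∈ U, Γ x x x = 0) {v : E}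
    {t : ℝ} (hv : t • v ∈ U) :
    Γ (t • v) v v = 0 ∧
      ∀ w, t • fderiv ℝ Γ (t • v) w v v = -((2 : ℝ) • Γ (t • v) w v) := by
  by_cases ht : t = 0
  · subst ht
    simp only [zero_smul]
    refine ⟨gamma_zero h h0 hrad _ _, fun w => ?_⟩
    rw [gamma_zero h h0 hrad, smul_zero, neg_zero]
  · have h1 := hrad _ hv
    simp only [map_smul, smul_apply, smul_smul] at h1
    refine ⟨(smul_eq_zero.1 h1).resolve_left (mul_ne_zero ht ht), fun w => ?_⟩
    have h2 := fderiv_rad h hrad hv w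
    simp only [map_smul, smul_apply] at h2
    have h3 : t • (t • fderiv ℝ Γ (t • v) w v v + (2 : ℝ) • Γ (t • v) w v) = 0 := by
      rw [smul_add, smul_comm t (2 : ℝ)]
      exact h2
    have h4 := (smul_eq_zero.1 h3).resolve_left ht
    exact eq_neg_of_add_eq_zero_left h4

/-- **Step (1)**. -/
theorem normal_metric (h : IsLC U g Γ) (h0 : (0 : E) ∈ U) (hrad : ∀ x ∈ U, Γ x x x = 0)
    (hnab : ∀ x ∈ U, ∀ W X Y Z, nab Γ x W X Y Z = 0) {v : E}
    (hv : ∀ t ∈ Icc (0 : ℝ) 1, t • v ∈ U) {J J' : E → ℝ → E}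
    (J0 : ∀ u, J u 0 = 0) (J1 : ∀ u, J' u 0 = u) (dJ : ∀ u t, HasDerivAt (J u) (J' u t) t)
    (dJ' : ∀ u t, HasDerivAt (J' u) (-curv Γ 0 (J u t) v v) t) (u u' : E) {t : ℝ}
    (ht : t ∈ Icc (0 : ℝ) 1) :
    g (t • v) (t • u) (t • u') = g 0 (J u t) (J u' t) := by
  obtain ⟨P, hP0, hP⟩ := exists_frame h hv
  have dl : ∀ s : ℝ, HasDerivAt (fun s : ℝ => s • v) v s := fun s => by
    simpa using (hasDerivAt_id s).smul_const v
  have ddl : ∀ s : ℝ, deriv (fun s : ℝ => s • v) s = v := fun s => (dl s).deriv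
  have dPu : ∀ w, ∀ s ∈ Icc (0 : ℝ) 1, HasDerivAt (fun s => P s w) (-Γ (s • v) v (P s w)) s := by
    intro w s hs
    have := (hP s hs).clm_apply (hasDerivAt_const s w)
    simpa using this
  -- the system matrix of the parallel transport
  have hΓc : ContinuousOn (fun s : ℝ => Γ (s • v) v) (Icc 0 1) := by
    have h1 : ContinuousOn (fun s : ℝ => Γ (s • v)) (Icc 0 1) :=
      h.Γ_smooth.continuousOn.comp (continuous_id.smul continuous_const).continuousOn hv
    exact h1.clm_apply continuousOn_const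
  have par_unique : ∀ {V W : ℝ → E}, (∀ s ∈ Icc (0 : ℝ) 1, HasDerivAt V (-Γ (s • v) v (V s)) s) →
      (∀ s ∈ Icc (0 : ℝ) 1, HasDerivAt W (-Γ (s • v) v (W s)) s) → V 0 = W 0 →
      ∀ s ∈ Icc (0 : ℝ) 1, V s = W s := by
    intro V W hV hW h0'
    refine lin_unique (A := fun s => -(Γ (s • v) v)) hΓc.neg ?_ ?_ h0'
    · intro s hs; simpa using hV s hs
    · intro s hs; simpa using hW s hs
  -- `P v = v`
  have hPv : ∀ s ∈ Icc (0 : ℝ) 1, P s v = v := by
    refine par_unique (V := fun s => P s v) (W := fun _ => v) (dPu v) ?_ (by simp [hP0])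
    intro s hs
    rw [(rad_facts h h0 hrad (hv s hs)).1, neg_zero]
    exact hasDerivAt_const _ _
  -- curvature is parallel along the frame
  have hPR : ∀ a b c : E, ∀ s ∈ Icc (0 : ℝ) 1,
      curv Γ (s • v) (P s a) (P s b) (P s c) = P s (curv Γ 0 a b c) := by
    intro a b c
    refine par_unique (V := fun s => curv Γ (s • v) (P s a) (P s b) (P s c))
      (W := fun s => P s (curv Γ 0 a b c)) ?_ (dPu _) (by simp [hP0])
    intro s hs
    have h1 := hasDerivAt_curv h (c := fun s : ℝ => s • v) (hv s hs) (dl s) (dPu a s hs)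
      (dPu b s hs) (dPu c s hs)
    refine h1.congr_deriv ?_
    have h2 := hnab _ (hv s hs) v (P s a) (P s b) (P s c)
    unfold nab at h2
    have e1 : curv Γ (s • v) (-Γ (s • v) v (P s a)) (P s b) (P s c)
        = -curv Γ (s • v) (Γ (s • v) v (P s a)) (P s b) (P s c) := by
      simp only [curv, map_neg, neg_apply]; abel
    have e2 : curv Γ (s • v) (P s a) (-Γ (s • v) v (P s b)) (P s c)
        = -curv Γ (s • v) (P s a) (Γ (s • v) v (P s b)) (P s c) := by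
      simp only [curv, map_neg, neg_apply]; abel
    have e3 : curv Γ (s • v) (P s a) (P s b) (-Γ (s • v) v (P s c))
        = -curv Γ (s • v) (P s a) (P s b) (Γ (s • v) v (P s c)) := by
      simp only [curv, map_neg, neg_apply]; abel
    rw [e1, e2, e3, eq_neg_iff_add_eq_zero]
    rw [← h2]
    abel
  -- metric is preserved
  have hPg : ∀ a b : E, ∀ s ∈ Icc (0 : ℝ) 1, g (s • v) (P s a) (P s b) = g 0 a b := by
    intro a b
    have hd : ∀ s ∈ Icc (0 : ℝ) 1, HasDerivAt (fun s => g (s • v) (P s a) (P s b)) 0 s := by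
      intro s hs
      have h1 := h.hasDerivAt_g (c := fun s : ℝ => s • v) (V := fun s => P s a)
        (W := fun s => P s b) (hv s hs) (dl s).differentiableAt (dPu a s hs).differentiableAt
        (dPu b s hs).differentiableAt
      have c1 : ∀ w, cov Γ (fun s : ℝ => s • v) (fun s => P s w) s = 0 := by
        intro w
        unfold cov
        rw [ddl, (dPu w s hs).deriv]
        simp
      rw [c1, c1, map_zero, zero_apply, map_zero, add_zero] at h1
      exact h1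
    intro s hs
    have h2 := constant_of_has_deriv_right_zero (f := fun s => g (s • v) (P s a) (P s b))
      (a := 0) (b := 1) (fun s hs => (hd s hs).continuousAt.continuousWithinAt)
      (fun s hs => (hd s ⟨hs.1, hs.2.le⟩).hasDerivWithinAt) s hs
    rw [h2]
    simp [hP0]
  -- the two solutions of the Jacobi system
  let B : ℝ → (E × E) →L[ℝ] (E × E) := fun s =>
    (ContinuousLinearMap.snd ℝ E E - (Γ (s • v) v).comp (ContinuousLinearMap.fst ℝ E E)).prod
      (-((fderiv ℝ Γ (s • v)).flip v).flip v ∘L ContinuousLinearMap.fst ℝ E E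
        + ((fderiv ℝ Γ (s • v) v).flip v) ∘L ContinuousLinearMap.fst ℝ E E
        - ((Γ (s • v)).flip (Γ (s • v) v v)) ∘L ContinuousLinearMap.fst ℝ E E
        + (Γ (s • v) v ∘L (Γ (s • v)).flip v) ∘L ContinuousLinearMap.fst ℝ E E
        - (Γ (s • v) v).comp (ContinuousLinearMap.snd ℝ E E))
  have hB : ∀ s (p : E × E), B s p = (p.2 - Γ (s • v) v p.1,
      -curv Γ (s • v) p.1 v v - Γ (s • v) v p.2) := by
    intro s p
    have : (B s p).2 = -curv Γ (s • v) p.1 v v - Γ (s • v) v p.2 := by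
      simp only [B, ContinuousLinearMap.prod_apply, add_apply, sub_apply, neg_apply,
        ContinuousLinearMap.comp_apply, ContinuousLinearMap.flip_apply,
        ContinuousLinearMap.coe_fst', ContinuousLinearMap.coe_snd', curv]
      abel
    refine Prod.ext ?_ this
    simp [B]
  have c1 : ContinuousOn (fun s : ℝ => Γ (s • v)) (Icc 0 1) :=
    h.Γ_smooth.continuousOn.comp (continuous_id.smul continuous_const).continuousOn hv
  have c2 : ContinuousOn (fun s : ℝ => fderiv ℝ Γ (s • v)) (Icc 0 1) := by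
    have h1 : ContinuousOn (fderiv ℝ Γ) U := fun x hx =>
      ((h.Γ_contDiffAt hx).fderiv_right (m := ∞) (by simp)).continuousAt.continuousWithinAt
    exact h1.comp (continuous_id.smul continuous_const).continuousOn hv
  have hBc : ContinuousOn B (Icc 0 1) := by
    rw [continuousOn_clm_apply]
    intro p
    simp only [hB, curv]
    have k1 : ∀ a : E, ContinuousOn (fun s : ℝ => Γ (s • v) v a) (Icc 0 1) := fun a =>
      hΓc.clm_apply continuousOn_const
    have k2 : ∀ a b c : E, ContinuousOn (fun s : ℝ => fderiv ℝ Γ (s • v) a b c) (Icc 0 1) :=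
      fun a b c => ((c2.clm_apply continuousOn_const).clm_apply continuousOn_const).clm_apply
        continuousOn_const
    have k3 : ∀ a b : E, ContinuousOn (fun s : ℝ => Γ (s • v) a b) (Icc 0 1) := fun a b =>
      (c1.clm_apply continuousOn_const).clm_apply continuousOn_const
    refine (continuousOn_const.sub (k1 _)).prodMk ?_
    refine ContinuousOn.sub (ContinuousOn.neg ?_) (k1 _)
    refine ((((k2 _ _ _).sub (k2 _ _ _)).add ?_).sub ?_)
    · exact (c1.clm_apply continuousOn_const).clm_apply (k1 v)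
    · exact hΓc.clm_apply (k3 _ _)
  have hX1 : ∀ w, ∀ s ∈ Icc (0 : ℝ) 1,
      HasDerivAt (fun s : ℝ => ((s • w, w + Γ (s • v) v (s • w)) : E × E))
        (B s (s • w, w + Γ (s • v) v (s • w))) s := by
    intro w s hs
    have dw : HasDerivAt (fun s : ℝ => s • w) w s := by simpa using (hasDerivAt_id s).smul_const w
    have g1 : HasDerivAt (fun s : ℝ => Γ (s • v)) (fderiv ℝ Γ (s • v) v) s :=
      (h.Γ_differentiableAt (hv s hs)).hasFDerivAt.comp_hasDerivAt s (dl s)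
    have d2 := (hasDerivAt_apply2 g1 (hasDerivAt_const s v) dw).const_add w
    refine (dw.prodMk d2).congr_deriv ?_
    obtain ⟨r1, r2⟩ := rad_facts h h0 hrad (hv s hs)
    have r3 := r2 w
    rw [hB]
    refine Prod.ext ?_ ?_
    · show w = w + Γ (s • v) v (s • w) - Γ (s • v) v (s • w)
      abel
    · show fderiv ℝ Γ (s • v) v v (s • w) + Γ (s • v) 0 (s • w) + Γ (s • v) v w
        = -curv Γ (s • v) (s • w) v v - Γ (s • v) v (w + Γ (s • v) v (s • w))
      have e1 : curv Γ (s • v) (s • w) v v = s • fderiv ℝ Γ (s • v) w v v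
          - s • fderiv ℝ Γ (s • v) v v w - s • Γ (s • v) v (Γ (s • v) v w) := by
        unfold curv
        rw [r1, h.Γ_symm _ (hv s hs) (s • w) v, h.fderiv_Γ_symm (hv s hs) v (s • w) v]
        simp only [map_smul, smul_apply, map_zero, add_zero]
      rw [e1, r3]
      rw [h.Γ_symm _ (hv s hs) w v]
      simp only [map_smul, map_add, map_zero, zero_apply, smul_zero, add_zero, two_smul]
      abel
  have hX2 : ∀ w, ∀ s ∈ Icc (0 : ℝ) 1,
      HasDerivAt (fun s : ℝ => ((P s (J w s), P s (J' w s)) : E × E))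
        (B s (P s (J w s), P s (J' w s))) s := by
    intro w s hs
    have d1 := (hP s hs).clm_apply (dJ w s)
    have d2 := (hP s hs).clm_apply (dJ' w s)
    refine (d1.prodMk d2).congr_deriv ?_
    rw [hB]
    have e1 : curv Γ (s • v) (P s (J w s)) v v = P s (curv Γ 0 (J w s) v v) := by
      rw [← hPR _ _ _ s hs, hPv s hs]
    refine Prod.ext ?_ ?_
    · simp only [neg_apply, ContinuousLinearMap.comp_apply]
      abel
    · simp only [neg_apply, ContinuousLinearMap.comp_apply, e1, map_neg]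
      abel
  have hEq : ∀ w, ∀ s ∈ Icc (0 : ℝ) 1, s • w = P s (J w s) := by
    intro w s hs
    have h1 := lin_unique hBc (hX1 w) (hX2 w) (by simp [J0, J1, hP0]) s hs
    exact congrArg Prod.fst h1
  rw [hEq u t ht, hEq u' t ht, hPg _ _ t ht]

end Crest.Agent.R249.B2Jac_474
end
end

-- ▼ part R249/B2Geo_474
section

set_option autoImplicit false
set_option maxSynthPendingDepth 3
set_option linter.unusedSectionVars false

open Bundle Set Filter Topology MeasureTheory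
open scoped ContDiff Manifold
open Crest.Agent.R244 (spray)
open Crest.Agent.R244.CF (IsLC curv cov LocIsoAt)
open Crest.Agent.R226 Crest.Agent.R226.ChartMet842 Crest.Agent.R226.LocalNearThm996
open Crest.Agent.R226.GeoLoc577 Crest.Agent.R226.GeoBasic616
open Crest.GeometryTopology.MTW

noncomputable section

namespace Crest.Agent.R249.B2Geo_474

variable {n : ℕ} {M : Type*} [MetricSpace M] [ChartedSpace (EuclideanSpace ℝ (Fin n)) M]
  [IsManifold (𝓡 n) ∞ M]
  [RiemannianBundle (fun p : M => TangentSpace (𝓡 n) p)]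
  [IsContMDiffRiemannianBundle (𝓡 n) ∞ (EuclideanSpace ℝ (Fin n)) (fun p : M => TangentSpace (𝓡 n) p)]

local notation "𝔼" => EuclideanSpace ℝ (Fin n)

theorem locIso_chart (x₀ x₁ : M) {y : 𝔼} (hy : y ∈ (chartAt 𝔼 x₀).target)
    (hy1 : (chartAt 𝔼 x₀).symm y ∈ (chartAt 𝔼 x₁).source) :
    LocIsoAt (chartAt 𝔼 x₀).target (gm (n := n) x₀) (chartAt 𝔼 x₁).target (gm x₁)
      ((chartAt 𝔼 x₁) ∘ (chartAt 𝔼 x₀).symm) y := by
  have h := Crest.Agent.R244.locIsoAt_transition (gR n M) x₀ x₁ hy hy1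
  have e : ∀ x : M, Crest.Agent.R244.CF.gB
      (Crest.GeometryTopology.Geodesic.metricInChart (gR n M) x) = gm x := fun x => by
    funext a; exact Crest.Agent.R244.gB_eq_gC _ _ _
  rw [e, e] at h
  exact h

/-- the curve `γ` in the chart at `y₀` -/
def cc (γ : ℝ → M) (y₀ : M) (t : ℝ) : 𝔼 := chartAt 𝔼 y₀ (γ t)

/-- covariant acceleration of `γ` in the chart at `y₀` -/
def geoc (γ : ℝ → M) (y₀ : M) (t : ℝ) : 𝔼 := cov (Gm (n := n) y₀) (cc γ y₀) (deriv (cc γ y₀)) t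

theorem contDiffAt_cc {γ : ℝ → M} {y₀ : M} {t : ℝ} (hγ : ContMDiffAt 𝓘(ℝ, ℝ) (𝓡 n) ∞ γ t)
    (ht : γ t ∈ (chartAt 𝔼 y₀).source) : ContDiffAt ℝ ∞ (cc (n := n) γ y₀) t := by
  rw [← contMDiffAt_iff_contDiffAt]
  have h1 : ContMDiffAt (𝓡 n) 𝓘(ℝ, 𝔼) ∞ (chartAt 𝔼 y₀) (γ t) :=
    contMDiffOn_chart.contMDiffAt ((chartAt 𝔼 y₀).open_source.mem_nhds ht)
  exact h1.comp t hγ



theorem diff_facts {c : ℝ → 𝔼} {t : ℝ} (h : ContDiffAt ℝ ∞ c t) :
    (∀ᶠ s in 𝓝 t, DifferentiableAt ℝ c s) ∧ DifferentiableAt ℝ (deriv c) t := by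
  have h2 : ContDiffAt ℝ 2 c t := h.of_le Crest.Agent.R244.CF.two_le_infty
  constructor
  · have h3 := h2.eventually (by simp)
    filter_upwards [h3] with s hs using hs.differentiableAt (by norm_num)
  · have h4 : ContDiffAt ℝ 1 (deriv c) t := by
      have h5 : ContDiffAt ℝ 1 (fun s => fderiv ℝ c s 1) t :=
        (h2.fderiv_right (m := 1) (by norm_num)).clm_apply contDiffAt_const
      exact h5
    exact h4.differentiableAt (by norm_num)

/-- change of chart for the covariant acceleration -/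
theorem geoc_change {γ : ℝ → M} {y₀ y₁ : M} {t : ℝ} (hγ : ContMDiffAt 𝓘(ℝ, ℝ) (𝓡 n) ∞ γ t)
    (h0 : γ t ∈ (chartAt 𝔼 y₀).source) (h1 : γ t ∈ (chartAt 𝔼 y₁).source)
    (h : geoc (n := n) γ y₀ t = 0) : geoc (n := n) γ y₁ t = 0 := by
  have hmem : cc γ y₀ t ∈ (chartAt 𝔼 y₀).target := (chartAt 𝔼 y₀).map_source h0
  have hL : LocIsoAt (chartAt 𝔼 y₀).target (gm (n := n) y₀) (chartAt 𝔼 y₁).target (gm y₁)
      ((chartAt 𝔼 y₁) ∘ (chartAt 𝔼 y₀).symm) (cc γ y₀ t) :=
    locIso_chart y₀ y₁ hmem (by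
      show (chartAt 𝔼 y₀).symm (chartAt 𝔼 y₀ (γ t)) ∈ _
      rw [(chartAt 𝔼 y₀).left_inv h0]; exact h1)
  obtain ⟨d1, d2⟩ := diff_facts (contDiffAt_cc (n := n) hγ h0)
  have h2 := hL.geodesic (isLC_gm y₀) (isLC_gm y₁) d1 d2
  have h3 : cov (Gm (n := n) y₀) (cc γ y₀) (deriv (cc γ y₀)) t = 0 := h
  rw [h3, map_zero] at h2
  have h4 : (fun s => ((chartAt 𝔼 y₁) ∘ (chartAt 𝔼 y₀).symm) (cc γ y₀ s)) =ᶠ[𝓝 t] cc γ y₁ := by
    have h5 : ∀ᶠ s in 𝓝 t, γ s ∈ (chartAt 𝔼 y₀).source :=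
      hγ.continuousAt.eventually ((chartAt 𝔼 y₀).open_source.mem_nhds h0)
    filter_upwards [h5] with s hs
    show chartAt 𝔼 y₁ ((chartAt 𝔼 y₀).symm (chartAt 𝔼 y₀ (γ s))) = chartAt 𝔼 y₁ (γ s)
    rw [(chartAt 𝔼 y₀).left_inv hs]
  rw [← h2]
  exact (Crest.Agent.R244.CF.cov_congr h4 h4.deriv).symm


theorem geoc_shift (γ : ℝ → M) (y₀ : M) (t₀ s : ℝ) :
    geoc (n := n) (fun s => γ (t₀ + s)) y₀ s = geoc γ y₀ (t₀ + s) := by
  unfold geoc cov
  have h1 : deriv (cc (n := n) (fun s => γ (t₀ + s)) y₀) = fun s => deriv (cc γ y₀) (t₀ + s) := by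
    funext s
    exact deriv_comp_const_add (f := cc γ y₀) t₀ s
  rw [h1]
  have h2 : deriv (fun s => deriv (cc (n := n) γ y₀) (t₀ + s)) s
      = deriv (deriv (cc γ y₀)) (t₀ + s) := deriv_comp_const_add (f := deriv (cc γ y₀)) t₀ s
  rw [h2]
  rfl

section ray

variable [IsRiemannianManifold (𝓡 n) M]

/-- the global exponential map is the local one near the base point -/
theorem ex_eq_eloc (G : GeoData n M) (x₀ : M) (L : LG (n := n) x₀) {x : M} (hx : x ∈ Wd x₀ L)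
    {v : TangentSpace (𝓡 n) x} (hv : ‖v‖ < L.r') (hv' : ‖v‖ < G.r₀) :
    G.ex x v = eloc x₀ L x v := by
  have D : DistFacts x₀ L := Crest.Agent.R226.NearDiagFinal996.distFacts x₀ L
  set a := chartAt 𝔼 x₀ x with ha
  have haW : a ∈ L.W := L.W'_sub hx.2
  have hsx : (chartAt 𝔼 x₀).symm a = x := (chartAt 𝔼 x₀).left_inv hx.1
  have hdist : dist x (G.ex x v) = ‖v‖ := by
    have := G.dist_eq x v 0 1 (by simpa using hv')
    simpa [G.ex_zero] using this
  obtain ⟨w, hw, -, hyw⟩ := D.surj a haW (G.ex x v) (by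
    rw [hsx, hdist]; exact hv.trans_le (r'_le_ρ x₀ L))
  -- first variation
  have key : ∀ ξ : TangentSpace (𝓡 n) x, ‖ξ‖ < G.r₀ →
      gm x₀ a w (dC x₀ x ξ) = gm x₀ a (dC x₀ x v) (dC x₀ x ξ) := by
    intro ξ hξ
    have h1 := G.hasDerivAt_cost x v ξ hv'
    have hray := contMDiff_ray G x ξ
    have hmd : MDifferentiableAt 𝓘(ℝ, ℝ) (𝓡 n) (fun t : ℝ => G.ex x (t • ξ)) 0 :=
      (hray 0).mdifferentiableAt (by simp)
    have h0 : G.ex x ((0 : ℝ) • ξ) = x := by rw [zero_smul, G.ex_zero]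
    have hsrc : G.ex x ((0 : ℝ) • ξ) ∈ (chartAt 𝔼 x₀).source := by rw [h0]; exact hx.1
    have h2 := hasDerivAt_chart (n := n) x₀ hmd hsrc
    have h3 : (dC x₀ (G.ex x ((0 : ℝ) • ξ)) (curveVel n (fun t : ℝ => G.ex x (t • ξ)) 0) : 𝔼)
        = dC x₀ x ξ := by
      rw [G.vel_zero x ξ]
      exact dC_congr x₀ h0 _
    rw [h3] at h2
    have h4 := D.cost a haW w hw (dC x₀ x ξ) (fun s => chartAt 𝔼 x₀ (G.ex x (s • ξ))) 0
      (by rw [h0]) h2
    have h5 : (fun s : ℝ => halfDistSq ((chartAt 𝔼 x₀).symm (chartAt 𝔼 x₀ (G.ex x (s • ξ))))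
        ((chartAt 𝔼 x₀).symm (L.Ex (a, w)))) =ᶠ[𝓝 0]
        fun s : ℝ => halfDistSq (G.ex x (s • ξ)) (G.ex x v) := by
      have : ∀ᶠ s : ℝ in 𝓝 0, G.ex x (s • ξ) ∈ (chartAt 𝔼 x₀).source :=
        (hray 0).continuousAt.eventually ((chartAt 𝔼 x₀).open_source.mem_nhds hsrc)
      filter_upwards [this] with s hs
      rw [(chartAt 𝔼 x₀).left_inv hs, ← hyw]
    have h6 := (h4.congr_of_eventuallyEq h5.symm).unique h1
    have h7 : (inner ℝ v ξ : ℝ) = gm x₀ a (dC x₀ x v) (dC x₀ x ξ) := inner_eq_gm x₀ hx.1 v ξ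
    rw [h7] at h6
    linarith
  have hLC := isLC_gm (n := n) x₀
  have haU : a ∈ (chartAt 𝔼 x₀).target := (chartAt 𝔼 x₀).map_source hx.1
  have hwv : w = dC x₀ x v := by
    apply hLC.eq_of_forall haU
    intro u
    -- choose `ξ` small with `dC ξ` proportional to `u`
    obtain ⟨ξ₀, hd⟩ : ∃ ξ₀ : TangentSpace (𝓡 n) x, (dC x₀ x ξ₀ : 𝔼) = u :=
      ⟨(dS x₀ a u : 𝔼), dC_dS' x₀ hx.1 u⟩
    obtain ⟨c, hc, hcs⟩ : ∃ c : ℝ, 0 < c ∧ ‖c • ξ₀‖ < G.r₀ := by
      have hN0 : 0 ≤ ‖ξ₀‖ := norm_nonneg _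
      have hr := G.r₀_pos
      refine ⟨G.r₀ / (‖ξ₀‖ + 1) / 2, by positivity, ?_⟩
      rw [norm_smul, Real.norm_eq_abs, abs_of_pos (by positivity)]
      have h2 : G.r₀ / (‖ξ₀‖ + 1) / 2 * ‖ξ₀‖ = G.r₀ * (‖ξ₀‖ / (‖ξ₀‖ + 1)) / 2 := by field_simp
      rw [h2]
      have h3 : ‖ξ₀‖ / (‖ξ₀‖ + 1) ≤ 1 := by rw [div_le_one (by positivity)]; linarith
      nlinarith
    have h2 := key (c • ξ₀) hcs
    have h3 : (dC x₀ x (c • ξ₀) : 𝔼) = c • u := by
      rw [dC_smul, hd]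
    rw [h3, map_smul, map_smul, smul_eq_mul, smul_eq_mul] at h2
    exact mul_left_cancel₀ hc.ne' h2
  rw [hyw, hwv]
  rfl

/-- zero covariant acceleration at `0` -/
theorem geoc_ray_zero (G : GeoData n M) (x : M) (v : TangentSpace (𝓡 n) x) :
    geoc (n := n) (fun t : ℝ => G.ex x (t • v)) x 0 = 0 := by
  obtain ⟨L⟩ : Nonempty (LG (n := n) x) :=
    exists_locGeo (isLC_gm (n := n) x) (mem_chart_target 𝔼 x)
  have hx : x ∈ Wd x L := ⟨mem_chart_source _ _, L.mem_W'⟩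
  -- a small multiple of `v`
  obtain ⟨c, hc, hcs⟩ : ∃ c : ℝ, 0 < c ∧ ‖c • v‖ < min L.r' G.r₀ := by
    have hr : 0 < min L.r' G.r₀ := lt_min L.r'_pos G.r₀_pos
    refine ⟨min L.r' G.r₀ / (‖v‖ + 1) / 2, by positivity, ?_⟩
    rw [norm_smul, Real.norm_eq_abs, abs_of_pos (by positivity)]
    have h2 : min L.r' G.r₀ / (‖v‖ + 1) / 2 * ‖v‖ = min L.r' G.r₀ * (‖v‖ / (‖v‖ + 1)) / 2 := by
      field_simp
    rw [h2]
    have h3 : ‖v‖ / (‖v‖ + 1) ≤ 1 := by rw [div_le_one (by positivity)]; linarith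
    nlinarith
  set w : TangentSpace (𝓡 n) x := c • v with hw
  set a := chartAt 𝔼 x x with ha
  set b : 𝔼 := dC x x w with hb
  have haW : a ∈ L.W := L.W'_sub hx.2
  have hg : gm x a b b < L.ρ ^ 2 :=
    gm_lt x hx.1 ((hcs.trans_le (min_le_left _ _)).trans_le (r'_le_ρ x L))
  -- in the chart the ray of `w` is `Ex (a, s • b)`
  have e1 : cc (n := n) (fun t : ℝ => G.ex x (t • w)) x =ᶠ[𝓝 0] fun s => L.Ex (a, s • b) := by
    have h1 : ∀ᶠ s : ℝ in 𝓝 0, |s| < 1 := by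
      have : Tendsto (fun s : ℝ => |s|) (𝓝 0) (𝓝 |(0 : ℝ)|) := continuous_abs.tendsto 0
      rw [abs_zero] at this
      exact this.eventually (gt_mem_nhds one_pos)
    filter_upwards [h1] with s hs
    have hsw : ‖s • w‖ < min L.r' G.r₀ := by
      rw [norm_smul, Real.norm_eq_abs]
      have := norm_nonneg w
      nlinarith [abs_nonneg s]
    have h2 := ex_eq_eloc G x L hx (hsw.trans_le (min_le_left _ _))
      (hsw.trans_le (min_le_right _ _))
    show chartAt 𝔼 x (G.ex x (s • w)) = _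
    rw [h2]
    unfold eloc
    have hmem : L.Ex (chartAt 𝔼 x x, dC x x (s • w)) ∈ (chartAt 𝔼 x).target :=
      L.Ex_mem _ haW _ (gm_lt x hx.1 ((hsw.trans_le (min_le_left _ _)).trans_le (r'_le_ρ x L)))
    rw [(chartAt 𝔼 x).right_inv hmem, dC_smul]
  have h1' : ∀ᶠ s : ℝ in 𝓝 0, |s| < 1 := by
    have : Tendsto (fun s : ℝ => |s|) (𝓝 0) (𝓝 |(0 : ℝ)|) := continuous_abs.tendsto 0
    rw [abs_zero] at this
    exact this.eventually (gt_mem_nhds one_pos)
  have e2 : deriv (cc (n := n) (fun t : ℝ => G.ex x (t • w)) x) =ᶠ[𝓝 0] fun s => L.vel s (a, b) := by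
    refine e1.deriv.trans ?_
    filter_upwards [h1'] with s hs
    exact (L.hasDerivAt_Ex a haW b hg s hs.le).deriv
  have hzero : geoc (n := n) (fun t : ℝ => G.ex x (t • w)) x 0 = 0 := by
    unfold geoc cov
    rw [e2.deriv_eq, (L.hasDerivAt_vel a haW b hg 0 (by simp)).deriv, e2.self_of_nhds,
      e1.self_of_nhds]
    exact neg_add_cancel _
  -- reparametrise
  have hsc : (fun t : ℝ => G.ex x (t • v)) = fun t : ℝ => G.ex x ((c⁻¹ * t) • w) := by
    funext t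
    rw [hw, smul_smul]
    congr 2
    field_simp
  have hcc : cc (n := n) (fun t : ℝ => G.ex x (t • v)) x
      = fun t => cc (fun t : ℝ => G.ex x (t • w)) x (c⁻¹ * t) := by
    rw [hsc]; rfl
  have hdd : deriv (cc (n := n) (fun t : ℝ => G.ex x (t • v)) x)
      = fun t => c⁻¹ • deriv (cc (fun t : ℝ => G.ex x (t • w)) x) (c⁻¹ * t) := by
    rw [hcc]
    funext t
    exact deriv_comp_mul_left c⁻¹ (cc (fun t : ℝ => G.ex x (t • w)) x) t
  have hd2 : deriv (deriv (cc (n := n) (fun t : ℝ => G.ex x (t • v)) x)) 0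
      = (c⁻¹ * c⁻¹) • deriv (deriv (cc (fun t : ℝ => G.ex x (t • w)) x)) 0 := by
    rw [hdd]
    have hdiff : DifferentiableAt ℝ
        (fun t => deriv (cc (n := n) (fun t : ℝ => G.ex x (t • w)) x) (c⁻¹ * t)) 0 := by
      have h1 : DifferentiableAt ℝ (deriv (cc (n := n) (fun t : ℝ => G.ex x (t • w)) x))
          (c⁻¹ * 0) := by
        rw [mul_zero]
        exact (diff_facts (contDiffAt_cc (n := n) (contMDiff_ray G x w 0)
          (by rw [zero_smul, G.ex_zero]; exact mem_chart_source _ _))).2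
      exact h1.comp (0 : ℝ) ((differentiableAt_id).const_mul _)
    rw [deriv_fun_const_smul _ hdiff]
    rw [deriv_comp_mul_left c⁻¹ (deriv (cc (fun t : ℝ => G.ex x (t • w)) x)) 0, mul_zero,
      smul_smul]
  unfold geoc cov at hzero ⊢
  rw [hd2, hdd, hcc]
  simp only [mul_zero, map_smul, smul_apply, smul_smul]
  rw [← smul_add, hzero, smul_zero]

/-- **radial curves satisfy the geodesic equation in every chart** -/
theorem geoc_ray (G : GeoData n M) (x : M) (v : TangentSpace (𝓡 n) x) (t : ℝ) (y₀ : M)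
    (hy : G.ex x (t • v) ∈ (chartAt 𝔼 y₀).source) :
    geoc (n := n) (fun t : ℝ => G.ex x (t • v)) y₀ t = 0 := by
  set x' := G.ex x (t • v) with hx'
  set v' : TangentSpace (𝓡 n) x' := curveVel n (fun t : ℝ => G.ex x (t • v)) t with hv'
  have h1 : (fun s : ℝ => G.ex x ((t + s) • v)) = fun s : ℝ => G.ex x' (s • v') := by
    funext s
    exact (G.flow x v t s).symm
  have h2 := geoc_ray_zero G x' v'
  rw [← h1] at h2
  have h3 := geoc_shift (n := n) (fun s : ℝ => G.ex x (s • v)) x' t 0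
  simp only [add_zero] at h3
  have h4 : geoc (n := n) (fun t : ℝ => G.ex x (t • v)) x' t = 0 := by
    rw [← h3]; exact h2
  exact geoc_change (n := n) (contMDiff_ray G x v t) (mem_chart_source _ _) hy h4

end ray

end Crest.Agent.R249.B2Geo_474
end
end

-- ▼ part R249/B2Iso_474

set_option autoImplicit false
set_option maxSynthPendingDepth 3
set_option linter.unusedSectionVars false

open Bundle Set Filter Topology MeasureTheory
open scoped ContDiff Manifold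
open Crest.Agent.R244 (spray contDiffOn_spray)
open Crest.Agent.R244.CF (IsLC curv cov LocIsoAt)
open Crest.Agent.R226 Crest.Agent.R226.ChartMet842 Crest.Agent.R226.LocalNearThm996
open Crest.Agent.R226.GeoLoc577 Crest.Agent.R226.GeoBasic616
open Crest.GeometryTopology.MTW
open Crest.Agent.R249.B2Defs_474 Crest.Agent.R249.B2Jac_474 Crest.Agent.R249.B2Geo_474

noncomputable section

namespace Crest.Agent.R249.B2Iso_474

section nab

variable {E : Type*} [NormedAddCommGroup E] [NormedSpace ℝ E] [FiniteDimensional ℝ E]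
variable {U : Set E} {g : E → E →L[ℝ] E →L[ℝ] ℝ} {Γ : E → E →L[ℝ] E →L[ℝ] E}
  {U' : Set E} {g' : E → E →L[ℝ] E →L[ℝ] ℝ} {Γ' : E → E →L[ℝ] E →L[ℝ] E}

theorem curv_add1 (Γ : E → E →L[ℝ] E →L[ℝ] E) (x a a' b c : E) :
    curv Γ x (a + a') b c = curv Γ x a b c + curv Γ x a' b c := by
  simp only [curv, map_add, add_apply]; abel

theorem curv_add2 (Γ : E → E →L[ℝ] E →L[ℝ] E) (x a b b' c : E) :
    curv Γ x a (b + b') c = curv Γ x a b c + curv Γ x a b' c := by
  simp only [curv, map_add, add_apply]; abel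

theorem curv_add3 (Γ : E → E →L[ℝ] E →L[ℝ] E) (x a b c c' : E) :
    curv Γ x a b (c + c') = curv Γ x a b c + curv Γ x a b c' := by
  simp only [curv, map_add]; abel

theorem differentiableAt_curv (h : IsLC U g Γ) {x : E} (hx : x ∈ U) (a b c : E) :
    DifferentiableAt ℝ (fun y => curv Γ y a b c) x := by
  have hG := h.Γ_differentiableAt hx
  have hDG : DifferentiableAt ℝ (fderiv ℝ Γ) x :=
    ((h.Γ_contDiffAt hx).fderiv_right (m := ∞) (by simp)).differentiableAt (by simp)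
  unfold curv
  have hAt : ∀ X Y : E, DifferentiableAt ℝ (fun y => Γ y X Y) x := fun X Y =>
    (hG.clm_apply (differentiableAt_const _)).clm_apply (differentiableAt_const _)
  have hDt : ∀ X Y Z : E, DifferentiableAt ℝ (fun y => fderiv ℝ Γ y X Y Z) x :=
    fun X Y Z => ((hDG.clm_apply (differentiableAt_const _)).clm_apply
      (differentiableAt_const _)).clm_apply (differentiableAt_const _)
  exact (((hDt _ _ _).sub (hDt _ _ _)).add
    ((hG.clm_apply (differentiableAt_const _)).clm_apply (hAt _ _))).sub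
    ((hG.clm_apply (differentiableAt_const _)).clm_apply (hAt _ _))

/-- tensoriality of `∇R` -/
theorem nab_transform {φ : E → E} {x : E} (h : LocIsoAt U g U' g' φ x)
    (hLC : IsLC U g Γ) (hLC' : IsLC U' g' Γ') (W X Y Z : E) :
    fderiv ℝ φ x (nab Γ x W X Y Z)
      = nab Γ' (φ x) (fderiv ℝ φ x W) (fderiv ℝ φ x X) (fderiv ℝ φ x Y) (fderiv ℝ φ x Z) := by
  have e1 : (fun y => fderiv ℝ φ y (curv Γ y X Y Z)) =ᶠ[𝓝 x]
      fun y => curv Γ' (φ y) (fderiv ℝ φ y X) (fderiv ℝ φ y Y) (fderiv ℝ φ y Z) := by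
    filter_upwards [h.eventually hLC.isOpen hLC'.isOpen] with y hy using hy.curv hLC hLC' X Y Z
  -- restrict to the line through `x` in direction `W`
  have hl : HasDerivAt (fun s : ℝ => x + s • W) W 0 := by
    simpa using ((hasDerivAt_id (0 : ℝ)).smul_const W).const_add x
  have hx0 : x + (0 : ℝ) • W = x := by simp
  have hlt : Tendsto (fun s : ℝ => x + s • W) (𝓝 0) (𝓝 x) := by
    have := hl.continuousAt.tendsto
    rwa [hx0] at this
  have e2 : (fun s : ℝ => fderiv ℝ φ (x + s • W) (curv Γ (x + s • W) X Y Z)) =ᶠ[𝓝 0]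
      fun s => curv Γ' (φ (x + s • W)) (fderiv ℝ φ (x + s • W) X) (fderiv ℝ φ (x + s • W) Y)
        (fderiv ℝ φ (x + s • W) Z) := hlt.eventually e1
  have dφ : HasDerivAt (fun s : ℝ => φ (x + s • W)) (fderiv ℝ φ x W) 0 := by
    have := h.hasFDerivAt
    rw [← hx0] at this
    have h2 := this.comp_hasDerivAt (0 : ℝ) hl
    rw [hx0] at h2
    exact h2
  have ddφ : HasDerivAt (fun s : ℝ => fderiv ℝ φ (x + s • W)) (fderiv ℝ (fderiv ℝ φ) x W) 0 := by
    have := h.d_hasFDerivAt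
    rw [← hx0] at this
    have h2 := this.comp_hasDerivAt (0 : ℝ) hl
    rw [hx0] at h2
    exact h2
  have dR : HasDerivAt (fun s : ℝ => curv Γ (x + s • W) X Y Z)
      (fderiv ℝ (fun y => curv Γ y X Y Z) x W) 0 := by
    have := (differentiableAt_curv hLC h.mem X Y Z).hasFDerivAt
    rw [← hx0] at this
    have h2 := this.comp_hasDerivAt (0 : ℝ) hl
    rw [hx0] at h2
    exact h2
  have ddX : ∀ X : E, HasDerivAt (fun s : ℝ => fderiv ℝ φ (x + s • W) X)
      (fderiv ℝ (fderiv ℝ φ) x W X) 0 := fun X => by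
    simpa using ddφ.clm_apply (hasDerivAt_const (0 : ℝ) X)
  have dL := ddφ.clm_apply dR
  have dRt := hasDerivAt_curv hLC' (c := fun s : ℝ => φ (x + s • W)) (t := 0)
    (by simp only [hx0]; exact h.mem') dφ (ddX X) (ddX Y) (ddX Z)
  have key := dL.unique (dRt.congr_of_eventuallyEq e2)
  simp only [hx0] at key
  have gW : ∀ A : E, fderiv ℝ φ x (Γ x W A)
      = Γ' (φ x) (fderiv ℝ φ x W) (fderiv ℝ φ x A) + fderiv ℝ (fderiv ℝ φ) x W A :=
    fun A => h.gamma hLC hLC' W A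
  have cR : ∀ A B C : E, fderiv ℝ φ x (curv Γ x A B C)
      = curv Γ' (φ x) (fderiv ℝ φ x A) (fderiv ℝ φ x B) (fderiv ℝ φ x C) :=
    fun A B C => h.curv hLC hLC' A B C
  unfold nab
  rw [map_sub, map_sub, map_sub, map_add, gW, cR, cR, cR, cR, gW, gW, gW, curv_add1, curv_add2,
    curv_add3]
  have key' : fderiv ℝ φ x (fderiv ℝ (fun y => curv Γ y X Y Z) x W) =
      fderiv ℝ (fun y => curv Γ' y (fderiv ℝ φ x X) (fderiv ℝ φ x Y) (fderiv ℝ φ x Z)) (φ x)
          (fderiv ℝ φ x W)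
        + curv Γ' (φ x) (fderiv ℝ (fderiv ℝ φ) x W X) (fderiv ℝ φ x Y) (fderiv ℝ φ x Z)
        + curv Γ' (φ x) (fderiv ℝ φ x X) (fderiv ℝ (fderiv ℝ φ) x W Y) (fderiv ℝ φ x Z)
        + curv Γ' (φ x) (fderiv ℝ φ x X) (fderiv ℝ φ x Y) (fderiv ℝ (fderiv ℝ φ) x W Z)
        - fderiv ℝ (fderiv ℝ φ) x W (curv Γ x X Y Z) := by
    rw [← key]; abel
  rw [key']
  abel

end nab

section LC

variable {n : ℕ}
local notation "𝔼" => EuclideanSpace ℝ (Fin n)

/-- Levi-Civita data of a smooth metric. -/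
theorem exists_isLC {U : Set 𝔼} (hU : IsOpen U) {g : 𝔼 → 𝔼 →L[ℝ] 𝔼 →L[ℝ] ℝ}
    (hg : ContDiffOn ℝ ∞ g U) (hs : ∀ x ∈ U, ∀ u v, g x u v = g x v u)
    (hp : ∀ x ∈ U, ∀ u, u ≠ 0 → 0 < g x u u) :
    ∃ Γ : 𝔼 → 𝔼 →L[ℝ] 𝔼 →L[ℝ] 𝔼, IsLC U g Γ := by
  let m : Crest.GeometryTopology.CoordMetric.MetricField n := fun y => Matrix.of fun i j =>
    g y (EuclideanSpace.single i 1) (EuclideanSpace.single j 1)
  have hexp : ∀ w : 𝔼, w = ∑ i, w i • EuclideanSpace.single i (1 : ℝ) := by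
    intro w
    have := (EuclideanSpace.basisFun (Fin n) ℝ).sum_repr w
    simpa using this.symm
  have hB : Crest.Agent.R244.CF.gB m = g := by
    funext y
    ext u v
    rw [Crest.Agent.R244.CF.gB_apply]
    conv_rhs => rw [hexp u, hexp v]
    simp only [map_sum, map_smul, sum_apply, smul_apply, smul_eq_mul, Finset.mul_sum]
    rw [Finset.sum_comm]
    refine Finset.sum_congr rfl fun i _ => Finset.sum_congr rfl fun j _ => ?_
    show g y (EuclideanSpace.single j 1) (EuclideanSpace.single i 1) * u j * v i = _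
    ring
  have hR : Crest.GeometryTopology.CoordMetric.IsRiemannianOn m U := by
    refine ⟨hU, fun i j => ?_, fun y hy => ?_⟩
    · exact (hg.clm_apply contDiffOn_const).clm_apply contDiffOn_const
    · refine Matrix.PosDef.of_dotProduct_mulVec_pos ?_ ?_
      · ext i j
        simp only [Matrix.conjTranspose_apply, star_trivial]
        exact hs y hy _ _
      · intro v hv
        have hv' : (WithLp.toLp 2 v : 𝔼) ≠ 0 := by
          intro h0
          apply hv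
          have := congrArg WithLp.ofLp h0
          simpa using this
        have h1 := hp y hy _ hv'
        rw [← hB, Crest.Agent.R244.CF.gB_apply] at h1
        refine h1.trans_eq ?_
        simp only [dotProduct, Matrix.mulVec, star_trivial, Finset.mul_sum]
        refine Finset.sum_congr rfl fun i _ => Finset.sum_congr rfl fun j _ => ?_
        ring
  have h := Crest.Agent.R244.CF.isLC_of_isRiemannianOn hR
  rw [hB] at h
  exact ⟨_, h⟩

end LC

variable {n : ℕ} {M : Type*} [MetricSpace M] [ChartedSpace (EuclideanSpace ℝ (Fin n)) M]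
  [IsManifold (𝓡 n) ∞ M]
  [RiemannianBundle (fun p : M => TangentSpace (𝓡 n) p)]
  [IsContMDiffRiemannianBundle (𝓡 n) ∞ (EuclideanSpace ℝ (Fin n)) (fun p : M => TangentSpace (𝓡 n) p)]

local notation "𝔼" => EuclideanSpace ℝ (Fin n)

theorem dC_self (p : M) (u : 𝔼) : (dC p p u : 𝔼) = u := by
  unfold dC
  rw [mfderiv_chartAt_eq_tangentCoordChange (mem_chart_source _ p)]
  exact tangentCoordChange_self (mem_extChartAt_source p)

/-- `F` is a local isometry at `x` from `(R^n, g)` to `M`. -/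
def IsoM (g : 𝔼 → 𝔼 →L[ℝ] 𝔼 →L[ℝ] ℝ) (F : 𝔼 → M) (x : 𝔼) : Prop :=
  (∀ᶠ z in 𝓝 x, ContMDiffAt 𝓘(ℝ, 𝔼) (𝓡 n) ∞ F z) ∧
    ∀ᶠ z in 𝓝 x, ∀ u v : 𝔼, g z u v =
      inner ℝ (mfderiv 𝓘(ℝ, 𝔼) (𝓡 n) F z u) (mfderiv 𝓘(ℝ, 𝔼) (𝓡 n) F z v)

/-- `F` in the chart at `y₀` -/
def FC (F : 𝔼 → M) (y₀ : M) (z : 𝔼) : 𝔼 := chartAt 𝔼 y₀ (F z)

theorem contDiffAt_FC {F : 𝔼 → M} {y₀ : M} {z : 𝔼} (hF : ContMDiffAt 𝓘(ℝ, 𝔼) (𝓡 n) ∞ F z)
    (hz : F z ∈ (chartAt 𝔼 y₀).source) : ContDiffAt ℝ ∞ (FC (n := n) F y₀) z := by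
  rw [← contMDiffAt_iff_contDiffAt]
  have h1 : ContMDiffAt (𝓡 n) 𝓘(ℝ, 𝔼) ∞ (chartAt 𝔼 y₀) (F z) :=
    contMDiffOn_chart.contMDiffAt ((chartAt 𝔼 y₀).open_source.mem_nhds hz)
  exact h1.comp z hF

theorem fderiv_FC {F : 𝔼 → M} {y₀ : M} {z : 𝔼} (hF : MDifferentiableAt 𝓘(ℝ, 𝔼) (𝓡 n) F z)
    (hz : F z ∈ (chartAt 𝔼 y₀).source) (u : 𝔼) :
    fderiv ℝ (FC (n := n) F y₀) z u = dC y₀ (F z) (mfderiv 𝓘(ℝ, 𝔼) (𝓡 n) F z u) := by
  have h2 : HasMFDerivAt (𝓡 n) 𝓘(ℝ, 𝔼) (chartAt 𝔼 y₀) (F z) (dC y₀ (F z)) :=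
    ((mdifferentiable_chart' y₀).mdifferentiableAt hz).hasMFDerivAt
  have h3 := h2.comp z hF.hasMFDerivAt
  have h4 : HasFDerivAt (FC (n := n) F y₀)
      ((dC y₀ (F z)).comp (mfderiv 𝓘(ℝ, 𝔼) (𝓡 n) F z) : 𝔼 →L[ℝ] 𝔼) z := h3.hasFDerivAt
  rw [h4.fderiv]
  rfl

theorem IsoM.locIso {U : Set 𝔼} {g : 𝔼 → 𝔼 →L[ℝ] 𝔼 →L[ℝ] ℝ} {Γ : 𝔼 → 𝔼 →L[ℝ] 𝔼 →L[ℝ] 𝔼}
    {F : 𝔼 → M} {x : 𝔼} (h : IsoM g F x) (hLC : IsLC U g Γ) (hx : x ∈ U) {y₀ : M}
    (hy : F x ∈ (chartAt 𝔼 y₀).source) :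
    LocIsoAt U g (chartAt 𝔼 y₀).target (gm (n := n) y₀) (FC F y₀) x := by
  have hsrc : ∀ᶠ z in 𝓝 x, F z ∈ (chartAt 𝔼 y₀).source :=
    h.1.self_of_nhds.continuousAt.eventually ((chartAt 𝔼 y₀).open_source.mem_nhds hy)
  have hiso : ∀ᶠ z in 𝓝 x, ∀ u v, g z u v = gm y₀ (FC F y₀ z) (fderiv ℝ (FC (n := n) F y₀) z u)
      (fderiv ℝ (FC (n := n) F y₀) z v) := by
    filter_upwards [hsrc, h.1, h.2] with z h1 h2 h3 u v
    rw [h3 u v, fderiv_FC (h2.mdifferentiableAt (by simp)) h1,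
      fderiv_FC (h2.mdifferentiableAt (by simp)) h1]
    exact inner_eq_gm y₀ h1 _ _
  refine ⟨hx, (chartAt 𝔼 y₀).map_source hy, ?_, ?_, hiso⟩
  · filter_upwards [hsrc, h.1] with z h1 h2 using contDiffAt_FC h2 h1
  · filter_upwards [hiso, hLC.isOpen.mem_nhds hx] with z h1 h2
    have hinj : Function.Injective (fderiv ℝ (FC (n := n) F y₀) z : 𝔼 →ₗ[ℝ] 𝔼) := by
      rw [← LinearMap.ker_eq_bot, LinearMap.ker_eq_bot']
      intro u hu
      by_contra hne
      have h3 := hLC.g_pos z h2 u hne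
      rw [h1 u u] at h3
      have h4 : fderiv ℝ (FC (n := n) F y₀) z u = 0 := hu
      rw [h4, map_zero] at h3
      exact lt_irrefl _ h3
    exact (LinearMap.injective_iff_surjective (f := (fderiv ℝ (FC (n := n) F y₀) z :
      𝔼 →ₗ[ℝ] 𝔼))).1 hinj

/-- composition of a local isometry with a local isometry of `R^n` -/
theorem IsoM.comp {U U' : Set 𝔼} {g g' : 𝔼 → 𝔼 →L[ℝ] 𝔼 →L[ℝ] ℝ} {F : 𝔼 → M} {κ : 𝔼 → 𝔼} {x : 𝔼}
    (h : IsoM g' F (κ x)) (hκ : LocIsoAt U g U' g' κ x) : IsoM g (fun z => F (κ z)) x := by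
  have hc : ContinuousAt κ x := hκ.smooth.continuousAt
  have h1 := hc.eventually h.1
  have h2 := hc.eventually h.2
  constructor
  · filter_upwards [h1, hκ.smooth'] with z hz hz'
    exact hz.comp z hz'.contMDiffAt
  · filter_upwards [h1, h2, hκ.smooth', hκ.iso] with z hz1 hz2 hz3 hz4 u v
    have hd : HasMFDerivAt 𝓘(ℝ, 𝔼) (𝓡 n) (fun z => F (κ z)) z
        ((mfderiv 𝓘(ℝ, 𝔼) (𝓡 n) F (κ z)).comp (fderiv ℝ κ z)) :=
      (hz1.mdifferentiableAt (by simp)).hasMFDerivAt.comp z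
        ((hz3.differentiableAt (by simp)).hasFDerivAt.hasMFDerivAt)
    rw [hd.mfderiv, hz4 u v, hz2]
    rfl

section ray

variable [IsRiemannianManifold (𝓡 n) M]

/-- forward uniqueness of geodesics in a chart -/
theorem geo_unique_chart {γ σ : ℝ → M} {t₀ t₁ : ℝ} (ht : t₀ < t₁)
    (hγ : ∀ t ∈ Icc t₀ t₁, ContMDiffAt 𝓘(ℝ, ℝ) (𝓡 n) ∞ γ t)
    (hσ : ∀ t ∈ Icc t₀ t₁, ContMDiffAt 𝓘(ℝ, ℝ) (𝓡 n) ∞ σ t)
    (gγ : ∀ t ∈ Icc t₀ t₁, geoc (n := n) γ (γ t) t = 0)
    (gσ : ∀ t ∈ Icc t₀ t₁, geoc (n := n) σ (σ t) t = 0)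
    (h0 : γ t₀ = σ t₀) (h1 : deriv (cc (n := n) γ (γ t₀)) t₀ = deriv (cc σ (γ t₀)) t₀) :
    ∃ δ > 0, ∀ t ∈ Icc t₀ (t₀ + δ), γ t = σ t := by
  set y₀ := γ t₀ with hy₀
  have ht0 : t₀ ∈ Icc t₀ t₁ := ⟨le_rfl, ht.le⟩
  have hsγ : ∀ᶠ t in 𝓝 t₀, γ t ∈ (chartAt 𝔼 y₀).source :=
    (hγ t₀ ht0).continuousAt.eventually
      ((chartAt 𝔼 y₀).open_source.mem_nhds (mem_chart_source _ _))
  have hsσ : ∀ᶠ t in 𝓝 t₀, σ t ∈ (chartAt 𝔼 y₀).source :=
    (hσ t₀ ht0).continuousAt.eventually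
      ((chartAt 𝔼 y₀).open_source.mem_nhds (by rw [← h0]; exact mem_chart_source _ _))
  set c1 := cc (n := n) γ y₀ with hc1
  set c2 := cc (n := n) σ y₀ with hc2
  have hLC := isLC_gm (n := n) y₀
  -- Lipschitz neighbourhood of the spray
  have hmem : ((c1 t₀, deriv c1 t₀) : 𝔼 × 𝔼) ∈ (chartAt 𝔼 y₀).target ×ˢ (univ : Set 𝔼) :=
    ⟨(chartAt 𝔼 y₀).map_source (mem_chart_source _ _), trivial⟩
  have hspray : ContDiffAt ℝ 1 (spray (Gm (n := n) y₀)) (c1 t₀, deriv c1 t₀) :=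
    ((contDiffOn_spray hLC.Γ_smooth).contDiffAt
      ((hLC.isOpen.prod isOpen_univ).mem_nhds hmem)).of_le (by
        exact le_trans (by norm_num) Crest.Agent.R244.CF.two_le_infty)
  obtain ⟨K, S, hS, hK⟩ := hspray.exists_lipschitzOnWith
  -- the two lifted curves
  have dγ : ∀ t ∈ Icc t₀ t₁, γ t ∈ (chartAt 𝔼 y₀).source →
      HasDerivAt (fun s => ((c1 s, deriv c1 s) : 𝔼 × 𝔼))
        (spray (Gm (n := n) y₀) (c1 t, deriv c1 t)) t := by
    intro t ht' hs
    have hcd := contDiffAt_cc (n := n) (hγ t ht') hs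
    obtain ⟨a1, a2⟩ := diff_facts hcd
    have a3 := geoc_change (n := n) (hγ t ht') (mem_chart_source _ _) hs (gγ t ht')
    have a4 : deriv (deriv c1) t = -Gm y₀ (c1 t) (deriv c1 t) (deriv c1 t) :=
      eq_neg_of_add_eq_zero_left a3
    refine (a1.self_of_nhds.hasDerivAt.prodMk a2.hasDerivAt).congr_deriv ?_
    rw [a4]; rfl
  have dσ : ∀ t ∈ Icc t₀ t₁, σ t ∈ (chartAt 𝔼 y₀).source →
      HasDerivAt (fun s => ((c2 s, deriv c2 s) : 𝔼 × 𝔼))
        (spray (Gm (n := n) y₀) (c2 t, deriv c2 t)) t := by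
    intro t ht' hs
    have hcd := contDiffAt_cc (n := n) (hσ t ht') hs
    obtain ⟨a1, a2⟩ := diff_facts hcd
    have a3 := geoc_change (n := n) (hσ t ht') (mem_chart_source _ _) hs (gσ t ht')
    have a4 : deriv (deriv c2) t = -Gm y₀ (c2 t) (deriv c2 t) (deriv c2 t) :=
      eq_neg_of_add_eq_zero_left a3
    refine (a1.self_of_nhds.hasDerivAt.prodMk a2.hasDerivAt).congr_deriv ?_
    rw [a4]; rfl
  have hX0 : ((c1 t₀, deriv c1 t₀) : 𝔼 × 𝔼) = (c2 t₀, deriv c2 t₀) := by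
    rw [h1]
    have : c1 t₀ = c2 t₀ := congrArg (chartAt 𝔼 y₀) h0
    rw [this]
  have hS1 : ∀ᶠ t in 𝓝 t₀, ((c1 t, deriv c1 t) : 𝔼 × 𝔼) ∈ S :=
    (dγ t₀ ht0 (mem_chart_source _ _)).continuousAt.eventually hS
  have hS2 : ∀ᶠ t in 𝓝 t₀, ((c2 t, deriv c2 t) : 𝔼 × 𝔼) ∈ S := by
    refine (dσ t₀ ht0 (by rw [← h0]; exact mem_chart_source _ _)).continuousAt.eventually ?_
    show ∀ᶠ p in 𝓝 ((c2 t₀, deriv c2 t₀) : 𝔼 × 𝔼), p ∈ S
    rw [← hX0]; exact hS
  obtain ⟨δ, hδ, hδs⟩ := Metric.eventually_nhds_iff_ball.1 (hsγ.and (hsσ.and (hS1.and hS2)))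
  set δ' := min (δ / 2) (t₁ - t₀) with hδ'
  have hδ'0 : 0 < δ' := lt_min (by positivity) (by linarith)
  have hin : ∀ t ∈ Icc t₀ (t₀ + δ'), t ∈ Icc t₀ t₁ ∧ t ∈ Metric.ball t₀ δ := by
    intro t ht'
    have := min_le_left (δ / 2) (t₁ - t₀)
    have := min_le_right (δ / 2) (t₁ - t₀)
    refine ⟨⟨ht'.1, by linarith [ht'.2]⟩, ?_⟩
    rw [Metric.mem_ball, Real.dist_eq, abs_of_nonneg (by linarith [ht'.1])]
    linarith [ht'.2]
  have huniq := ODE_solution_unique_of_mem_Icc_right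
    (v := fun _ z => spray (Gm (n := n) y₀) z) (s := fun _ => S) (K := K)
    (f := fun s => ((c1 s, deriv c1 s) : 𝔼 × 𝔼)) (g := fun s => ((c2 s, deriv c2 s) : 𝔼 × 𝔼))
    (a := t₀) (b := t₀ + δ') (fun t _ => hK)
    (fun t ht' => (dγ t (hin t ht').1 (hδs t (hin t ht').2).1).continuousAt.continuousWithinAt)
    (fun t ht' => by
      have h2 := hin t ⟨ht'.1, ht'.2.le⟩
      exact (dγ t h2.1 (hδs t h2.2).1).hasDerivWithinAt)
    (fun t ht' => (hδs t (hin t ⟨ht'.1, ht'.2.le⟩).2).2.2.1)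
    (fun t ht' => (dσ t (hin t ht').1 (hδs t (hin t ht').2).2.1).continuousAt.continuousWithinAt)
    (fun t ht' => by
      have h2 := hin t ⟨ht'.1, ht'.2.le⟩
      exact (dσ t h2.1 (hδs t h2.2).2.1).hasDerivWithinAt)
    (fun t ht' => (hδs t (hin t ⟨ht'.1, ht'.2.le⟩).2).2.2.2) hX0
  refine ⟨δ', hδ'0, fun t ht' => ?_⟩
  have h2 := huniq ht'
  have h3 : c1 t = c2 t := congrArg Prod.fst h2
  have h4 := hin t ht'
  exact (chartAt 𝔼 y₀).injOn (hδs t h4.2).1 (hδs t h4.2).2.1 h3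

/-- a smooth curve with zero covariant acceleration is radial -/
theorem eq_ray (G : GeoData n M) {γ : ℝ → M}
    (hγ : ∀ t ∈ Icc (0 : ℝ) 1, ContMDiffAt 𝓘(ℝ, ℝ) (𝓡 n) ∞ γ t)
    (gγ : ∀ t ∈ Icc (0 : ℝ) 1, geoc (n := n) γ (γ t) t = 0) :
    ∀ t ∈ Icc (0 : ℝ) 1, γ t = G.ex (γ 0) (t • curveVel n γ 0) := by
  set x := γ 0 with hx
  set v : TangentSpace (𝓡 n) x := curveVel n γ 0 with hv
  set σ : ℝ → M := fun t => G.ex x (t • v) with hσd
  have hσ : ∀ t, ContMDiffAt 𝓘(ℝ, ℝ) (𝓡 n) ∞ σ t := fun t => contMDiff_ray G x v t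
  have gσ : ∀ t, geoc (n := n) σ (σ t) t = 0 := fun t => geoc_ray G x v t _ (mem_chart_source _ _)
  let s : Set ℝ := {t | ∀ r ∈ Icc (0 : ℝ) t, γ r = σ r}
  have h01 : (0 : ℝ) ∈ Icc (0 : ℝ) 1 := ⟨le_rfl, zero_le_one⟩
  have hbase : γ 0 = σ 0 := by
    show x = G.ex x ((0 : ℝ) • v)
    rw [zero_smul, G.ex_zero]
  have hclosed : IsClosed (s ∩ Icc 0 1) := by
    have hcont : ContinuousOn γ (Icc 0 1) := fun t ht => (hγ t ht).continuousAt.continuousWithinAt
    have hcontσ : Continuous σ := (contMDiff_ray G x v).continuous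
    rw [← isSeqClosed_iff_isClosed]
    intro u t hu ht
    have ht1 : t ∈ Icc (0 : ℝ) 1 := isClosed_Icc.mem_of_tendsto ht
      (Eventually.of_forall fun k => (hu k).2)
    refine ⟨fun r hr => ?_, ht1⟩
    rcases hr.2.lt_or_eq with hlt | heq
    · obtain ⟨k, hk⟩ := (ht.eventually (lt_mem_nhds hlt)).exists
      exact (hu k).1 r ⟨hr.1, hk.le⟩
    · rw [heq]
      have h1 : Tendsto (fun k => γ (u k)) atTop (𝓝 (γ t)) :=
        ((hcont t ht1).tendsto.comp (tendsto_nhdsWithin_iff.2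
          ⟨ht, Eventually.of_forall fun k => (hu k).2⟩))
      have h2 : Tendsto (fun k => σ (u k)) atTop (𝓝 (σ t)) := (hcontσ.tendsto t).comp ht
      refine tendsto_nhds_unique h1 (h2.congr fun k => ?_)
      exact ((hu k).1 (u k) ⟨(hu k).2.1, le_rfl⟩).symm
  have hsub : Icc (0 : ℝ) 1 ⊆ s := by
    refine hclosed.Icc_subset_of_forall_exists_gt ?_ ?_
    · intro r hr
      have : r = 0 := le_antisymm hr.2 hr.1
      rw [this]; exact hbase
    · intro t ht t' ht'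
      have htt : t ∈ Icc (0 : ℝ) 1 := ⟨ht.2.1, ht.2.2.le⟩
      have hteq : γ t = σ t := ht.1 t ⟨htt.1, le_rfl⟩
      -- equality of velocities in the chart
      have hvel : deriv (cc (n := n) γ (γ t)) t = deriv (cc σ (γ t)) t := by
        have hsσ : σ t ∈ (chartAt 𝔼 (γ t)).source := by rw [← hteq]; exact mem_chart_source _ _
        rcases htt.1.lt_or_eq with hpos | hz
        · have d1 : DifferentiableAt ℝ (cc (n := n) γ (γ t)) t :=
            (contDiffAt_cc (n := n) (hγ t htt) (mem_chart_source _ _)).differentiableAt (by simp)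
          have d2 : DifferentiableAt ℝ (cc (n := n) σ (γ t)) t :=
            (contDiffAt_cc (n := n) (hσ t) hsσ).differentiableAt (by simp)
          have h1 := d1.hasDerivAt.hasDerivWithinAt (s := Icc 0 t)
          have h2 := d2.hasDerivAt.hasDerivWithinAt (s := Icc 0 t)
          have h3 : HasDerivWithinAt (cc (n := n) γ (γ t)) (deriv (cc σ (γ t)) t) (Icc 0 t) t := by
            refine h2.congr (fun r hr => ?_) ?_
            · show chartAt 𝔼 (γ t) (γ r) = chartAt 𝔼 (γ t) (σ r)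
              rw [ht.1 r hr]
            · show chartAt 𝔼 (γ t) (γ t) = chartAt 𝔼 (γ t) (σ t)
              rw [← hteq]
          exact (uniqueDiffOn_Icc hpos t ⟨hpos.le, le_rfl⟩).eq_deriv _ h1 h3
        · subst hz
          have e1 := hasDerivAt_chart (n := n) x ((hγ 0 h01).mdifferentiableAt (by simp))
            (by rw [← hx]; exact mem_chart_source _ _)
          have e2 := hasDerivAt_chart (n := n) x (mdifferentiableAt_ray G x v 0)
            (by rw [zero_smul, G.ex_zero]; exact mem_chart_source _ _)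
          have e3 : deriv (cc (n := n) γ x) 0 = dC x (γ 0) (curveVel n γ 0) := e1.deriv
          have e4 : deriv (cc (n := n) σ x) 0
              = dC x (G.ex x ((0 : ℝ) • v)) (curveVel n (fun t : ℝ => G.ex x (t • v)) 0) := e2.deriv
          show deriv (cc (n := n) γ x) 0 = deriv (cc (n := n) σ x) 0
          rw [e3, e4, G.vel_zero x v]
          exact dC_congr x (by rw [zero_smul, G.ex_zero]) _
      obtain ⟨δ, hδ, hδe⟩ := geo_unique_chart (n := n) (γ := γ) (σ := σ) ht.2.2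
        (fun r hr => hγ r ⟨htt.1.trans hr.1, hr.2⟩) (fun r _ => hσ r)
        (fun r hr => gγ r ⟨htt.1.trans hr.1, hr.2⟩) (fun r _ => gσ r) hteq hvel
      refine ⟨min t' (t + δ), ?_, lt_min ht' (by linarith), min_le_left _ _⟩
      intro r hr
      rcases le_total r t with h5 | h5
      · exact ht.1 r ⟨hr.1, h5⟩
      · exact hδe r ⟨h5, hr.2.trans (min_le_right _ _)⟩
  intro t ht
  exact hsub ht t ⟨ht.1, le_rfl⟩

/-- **naturality of the exponential map**: a local isometry along the segment `[0,1] w`, for a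
metric whose rays are geodesics, is given by the exponential map. -/
theorem nat_exp (G : GeoData n M) {U : Set 𝔼} {g : 𝔼 → 𝔼 →L[ℝ] 𝔼 →L[ℝ] ℝ}
    {Γ : 𝔼 → 𝔼 →L[ℝ] 𝔼 →L[ℝ] 𝔼} (hLC : IsLC U g Γ) (hU0 : (0 : 𝔼) ∈ U)
    (hrad : ∀ x ∈ U, Γ x x x = 0) {H : 𝔼 → M} {w : 𝔼} (hw : ∀ t ∈ Icc (0 : ℝ) 1, t • w ∈ U)
    (hH : ∀ t ∈ Icc (0 : ℝ) 1, IsoM g H (t • w)) :
    H w = G.ex (H 0) (mfderiv 𝓘(ℝ, 𝔼) (𝓡 n) H 0 w) := by
  have hl : ∀ t : ℝ, HasDerivAt (fun s : ℝ => s • w) w t := fun t => by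
    simpa using (hasDerivAt_id t).smul_const w
  have hlc : ∀ t : ℝ, ContMDiffAt 𝓘(ℝ, ℝ) 𝓘(ℝ, 𝔼) ∞ (fun s : ℝ => s • w) t := fun t =>
    (contDiff_id.smul contDiff_const : ContDiff ℝ ∞ fun s : ℝ => s • w).contMDiff t
  have h1 : ∀ t ∈ Icc (0 : ℝ) 1, ContMDiffAt 𝓘(ℝ, ℝ) (𝓡 n) ∞ (fun t : ℝ => H (t • w)) t := by
    intro t ht
    exact ((hH t ht).1.self_of_nhds).comp t (hlc t)
  have h2 : ∀ t ∈ Icc (0 : ℝ) 1, geoc (n := n) (fun t : ℝ => H (t • w)) (H (t • w)) t = 0 := by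
    intro t ht
    have hL := (hH t ht).locIso hLC (hw t ht) (y₀ := H (t • w)) (mem_chart_source _ _)
    have h3 := hL.geodesic (c := fun s : ℝ => s • w) hLC (isLC_gm _)
      (Eventually.of_forall fun s => (hl s).differentiableAt) (by
        have : deriv (fun s : ℝ => s • w) = fun _ => w := by funext s; exact (hl s).deriv
        rw [this]; exact differentiableAt_const _)
    have h4 : cov Γ (fun s : ℝ => s • w) (deriv fun s : ℝ => s • w) t = 0 := by
      have : deriv (fun s : ℝ => s • w) = fun _ => w := by funext s; exact (hl s).deriv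
      unfold cov
      rw [this, (rad_facts hLC hU0 hrad (hw t ht)).1]
      simp
    rw [h4, map_zero] at h3
    exact h3
  have h5 := eq_ray G h1 h2 1 ⟨zero_le_one, le_rfl⟩
  have h0 : H ((0 : ℝ) • w) = H 0 := by rw [zero_smul]
  have h6 : H ((1 : ℝ) • w) = H w := by rw [one_smul]
  -- the initial velocity
  have hd : (curveVel n (fun t : ℝ => H (t • w)) 0 : 𝔼)
      = mfderiv 𝓘(ℝ, 𝔼) (𝓡 n) H ((0 : ℝ) • w) w := by
    have ha : HasMFDerivAt 𝓘(ℝ, ℝ) 𝓘(ℝ, 𝔼) (fun s : ℝ => s • w) 0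
        (ContinuousLinearMap.toSpanSingleton ℝ w) := (hl 0).hasFDerivAt.hasMFDerivAt
    have hb := (((hH 0 ⟨le_rfl, zero_le_one⟩).1.self_of_nhds).mdifferentiableAt
      (by simp)).hasMFDerivAt
    have hc := (hb.comp (0 : ℝ) ha).mfderiv
    have hc' : mfderiv 𝓘(ℝ, ℝ) (𝓡 n) (fun t : ℝ => H (t • w)) 0
      = (mfderiv 𝓘(ℝ, 𝔼) (𝓡 n) H ((0 : ℝ) • w)).comp (ContinuousLinearMap.toSpanSingleton ℝ w) :=
      hc
    unfold curveVel
    rw [hc']
    show mfderiv 𝓘(ℝ, 𝔼) (𝓡 n) H ((0 : ℝ) • w) (ContinuousLinearMap.toSpanSingleton ℝ w (1 : ℝ)) = _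
    rw [ContinuousLinearMap.toSpanSingleton_apply, one_smul]
  have key : ∀ (z : 𝔼), z = 0 →
      G.ex (H z) ((1 : ℝ) • (mfderiv 𝓘(ℝ, 𝔼) (𝓡 n) H z w : TangentSpace (𝓡 n) (H z)))
        = G.ex (H 0) (mfderiv 𝓘(ℝ, 𝔼) (𝓡 n) H 0 w) := by
    intro z hz
    subst hz
    rw [one_smul]
  rw [← h6, h5, ← key ((0 : ℝ) • w) (zero_smul _ _)]
  congr 2

end ray

end Crest.Agent.R249.B2Iso_474
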