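import Mathlib
import Crest.Agent.R247.Dir5_593

-- ▼ part R202/SpDefs
section

/-!
# Row 202, PART SP: abstract spectral library (forms with compact resolvent)

`PCO R`: `R` is a compact symmetric positive definite operator on a real Hilbert space.
`EigSeq R`: sorted spectral data of such an operator.  `PCO.exists_eigSeq`.
-/

set_option autoImplicit false

open Filter Topology Module
open scoped InnerProductSpace NNReal ENNReal

noncomputable section

namespace Crest.Agent.R202.Sp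

variable {H : Type*} [NormedAddCommGroup H] [InnerProductSpace ℝ H]

/-- compact, symmetric, positive definite operators -/
structure PCO (R : H →L[ℝ] H) : Prop where
  cpt : IsCompactOperator R
  symm : ∀ x y, ⟪R x, y⟫_ℝ = ⟪x, R y⟫_ℝ
  pos : ∀ x, x ≠ 0 → 0 < ⟪R x, x⟫_ℝ

/-- sorted spectral data: `τ` decreases to `0`, `e` is a Hilbert basis of eigenvectors -/
structure EigSeq (R : H →L[ℝ] H) where
  τ : ℕ → ℝ
  anti : Antitone τ
  pos : ∀ k, 0 < τ k
  lim : Tendsto τ atTop (𝓝 0)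
  e : HilbertBasis ℕ ℝ H
  eig : ∀ k, R (e k) = τ k • e k

/-- the top eigenvalue of a compact symmetric positive definite operator -/
theorem PCO.hasEigenvalue_norm {E : Type*} [NormedAddCommGroup E] [InnerProductSpace ℝ E]
    [CompleteSpace E] [Nontrivial E] {T : E →L[ℝ] E} (hc : IsCompactOperator T)
    (hs : ∀ x y, ⟪T x, y⟫_ℝ = ⟪x, T y⟫_ℝ) (hp : ∀ x, x ≠ 0 → 0 < ⟪T x, x⟫_ℝ) :
    ∃ x : E, ‖x‖ = 1 ∧ T x = ‖T‖ • x := by
  have hT0 : T ≠ 0 := by
    obtain ⟨x, hx⟩ := exists_ne (0 : E)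
    intro h
    have := hp x hx
    rw [h] at this
    simp at this
  have hsym : (T : E →ₗ[ℝ] E).IsSymmetric := fun x y => hs x y
  have hsa : IsSelfAdjoint T := (ContinuousLinearMap.isSelfAdjoint_iff_isSymmetric).2 hsym
  have hsr : spectralRadius ℝ T = ‖T‖₊ := T.spectralRadius_eq_nnnorm hsa
  have hne : (spectrum ℝ T).Nonempty := by
    by_contra hcon
    rw [Set.not_nonempty_iff_eq_empty] at hcon
    have : spectralRadius ℝ T = 0 := by
      unfold spectralRadius
      rw [hcon]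
      simp
    rw [this] at hsr
    have h0 : ‖T‖₊ = 0 := by exact_mod_cast hsr.symm
    exact hT0 (by simpa using h0)
  obtain ⟨μ, hμ, hμn⟩ := spectrum.exists_nnnorm_eq_spectralRadius_of_nonempty hne
  rw [hsr] at hμn
  have hμn' : ‖μ‖ = ‖T‖ := by
    have : ‖μ‖₊ = ‖T‖₊ := by exact_mod_cast hμn
    exact congrArg NNReal.toReal this
  have hTn : 0 < ‖T‖ := norm_pos_iff.2 hT0
  have hμ0 : μ ≠ 0 := by
    intro h
    rw [h, norm_zero] at hμn'
    linarith
  have hev := (hc.hasEigenvalue_iff_mem_spectrum hμ0).2 hμ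
  obtain ⟨v, hv⟩ := hev.exists_hasEigenvector
  have hv0 : v ≠ 0 := hv.2
  have hTv : T v = μ • v := hv.apply_eq_smul
  have hμpos : 0 < μ := by
    have h1 := hp v hv0
    rw [hTv, inner_smul_left, real_inner_self_eq_norm_sq] at h1
    have h2 : 0 < ‖v‖ ^ 2 := by positivity
    simp at h1
    by_contra hcon
    push Not at hcon
    nlinarith
  have hμT : μ = ‖T‖ := by rw [← hμn', Real.norm_of_nonneg hμpos.le]
  refine ⟨(‖v‖)⁻¹ • v, ?_, ?_⟩
  · rw [norm_smul, norm_inv, norm_norm, inv_mul_cancel₀ (norm_ne_zero_iff.2 hv0)]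
  · rw [map_smul, hTv, hμT, smul_comm]

/-- the step of the recursion: a top eigenvector in an invariant closed subspace -/
theorem PCO.exists_top [CompleteSpace H] {R : H →L[ℝ] H} (h : PCO R) (K : Submodule ℝ H)
    (hK : IsClosed (K : Set H)) (hinv : ∀ x ∈ K, R x ∈ K) (hne : K ≠ ⊥) :
    ∃ (x : H) (t : ℝ), x ∈ K ∧ ‖x‖ = 1 ∧ 0 < t ∧ R x = t • x ∧
      ∀ y ∈ K, ‖R y‖ ≤ t * ‖y‖ := by
  haveI : CompleteSpace K := hK.completeSpace_coe
  haveI : Nontrivial K := (Submodule.nontrivial_iff_ne_bot).2 hne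
  set T : K →L[ℝ] K := R.restrict hinv with hT
  have hTc : IsCompactOperator T := by
    have := (h.cpt).restrict (V := K) hinv hK
    exact this
  have hTapp : ∀ x : K, ((T x : K) : H) = R x := fun x => rfl
  obtain ⟨x, hx1, hx2⟩ := PCO.hasEigenvalue_norm (T := T) hTc
    (fun x y => by
      rw [Submodule.coe_inner, Submodule.coe_inner, hTapp, hTapp]
      exact h.symm _ _)
    (fun x hx => by
      rw [Submodule.coe_inner, hTapp]
      exact h.pos _ (by simpa using hx))
  have hx0 : (x : H) ≠ 0 := by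
    intro h0
    have : x = 0 := by exact_mod_cast h0
    rw [this, norm_zero] at hx1
    exact zero_ne_one hx1
  have hRx : R (x : H) = ‖T‖ • (x : H) := by
    rw [← hTapp, hx2]; rfl
  have hpos : 0 < ‖T‖ := by
    have h1 := h.pos _ hx0
    rw [hRx, inner_smul_left, real_inner_self_eq_norm_sq] at h1
    have h2 : 0 < ‖(x : H)‖ ^ 2 := by positivity
    simp at h1
    rcases (norm_nonneg T).lt_or_eq with h3 | h3
    · exact h3
    · rw [← h3] at h1; simp at h1
  refine ⟨x, ‖T‖, x.2, by simpa using hx1, hpos, hRx, fun y hy => ?_⟩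
  have := T.le_opNorm ⟨y, hy⟩
  simpa [hTapp] using this

section build

variable [CompleteSpace H] {R : H →L[ℝ] H} (h : PCO R) (hinf : ¬ FiniteDimensional ℝ H)

/-- orthogonal complement of a finite set of eigenvectors is invariant -/
theorem PCO.invariant {R : H →L[ℝ] H} (h : PCO R) {s : Set H}
    (hs : ∀ x ∈ s, ∃ t : ℝ, R x = t • x) :
    ∀ x ∈ (Submodule.span ℝ s)ᗮ, R x ∈ (Submodule.span ℝ s)ᗮ := by
  intro x hx
  rw [Submodule.mem_orthogonal] at hx ⊢
  intro u hu
  induction hu using Submodule.span_induction with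
  | mem y hy =>
    obtain ⟨t, ht⟩ := hs y hy
    rw [← h.symm, ht, inner_smul_left, hx y (Submodule.subset_span hy), mul_zero]
  | zero => simp
  | add y z _ _ hy hz => rw [inner_add_left, hy, hz, add_zero]
  | smul c y _ hy => rw [inner_smul_left, hy, mul_zero]

theorem orth_ne_bot {s : Set H} (hfin : s.Finite) (hinf : ¬ FiniteDimensional ℝ H) :
    (Submodule.span ℝ s)ᗮ ≠ ⊥ := by
  intro hb
  haveI : FiniteDimensional ℝ (Submodule.span ℝ s) := FiniteDimensional.span_of_finite ℝ hfin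
  have htop : Submodule.span ℝ s = ⊤ := (Submodule.orthogonal_eq_bot_iff).1 hb
  apply hinf
  rw [htop] at this
  exact (LinearEquiv.ofTop (⊤ : Submodule ℝ H) rfl).finiteDimensional

/-- one step: given finitely many eigenvectors, choose the next -/
def PCO.next (h : PCO R) (hinf : ¬ FiniteDimensional ℝ H) (l : List (H × ℝ)) : H × ℝ := by
  classical
  exact if hl : ∀ p ∈ l, R p.1 = p.2 • p.1 then
    let K := (Submodule.span ℝ {x | ∃ p ∈ l, x = p.1})ᗮ
    have hne : K ≠ ⊥ := orth_ne_bot (by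
      have : {x | ∃ p ∈ l, x = p.1} = (fun p : H × ℝ => p.1) '' {p | p ∈ l} := by
        ext x; constructor
        · rintro ⟨p, hp, rfl⟩; exact ⟨p, hp, rfl⟩
        · rintro ⟨p, hp, rfl⟩; exact ⟨p, hp, rfl⟩
      rw [this]
      exact (List.finite_toSet l).image _) hinf
    have hex := h.exists_top K (Submodule.isClosed_orthogonal _)
      (h.invariant (by rintro x ⟨p, hp, rfl⟩; exact ⟨p.2, hl p hp⟩)) hne
    (hex.choose, hex.choose_spec.choose)
  else (0, 0)

theorem PCO.next_spec (h : PCO R) (hinf : ¬ FiniteDimensional ℝ H) (l : List (H × ℝ))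
    (hl : ∀ p ∈ l, R p.1 = p.2 • p.1) :
    (∀ p ∈ l, ⟪p.1, (h.next hinf l).1⟫_ℝ = 0) ∧ ‖(h.next hinf l).1‖ = 1 ∧
      0 < (h.next hinf l).2 ∧ R (h.next hinf l).1 = (h.next hinf l).2 • (h.next hinf l).1 ∧
      ∀ y, (∀ p ∈ l, ⟪p.1, y⟫_ℝ = 0) → ‖R y‖ ≤ (h.next hinf l).2 * ‖y‖ := by
  classical
  have hne : (Submodule.span ℝ {x | ∃ p ∈ l, x = p.1})ᗮ ≠ ⊥ := orth_ne_bot (by
      have : {x | ∃ p ∈ l, x = p.1} = (fun p : H × ℝ => p.1) '' {p | p ∈ l} := by
        ext x; constructor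
        · rintro ⟨p, hp, rfl⟩; exact ⟨p, hp, rfl⟩
        · rintro ⟨p, hp, rfl⟩; exact ⟨p, hp, rfl⟩
      rw [this]
      exact (List.finite_toSet l).image _) hinf
  have hex := h.exists_top (Submodule.span ℝ {x | ∃ p ∈ l, x = p.1})ᗮ
      (Submodule.isClosed_orthogonal _)
      (h.invariant (by rintro x ⟨p, hp, rfl⟩; exact ⟨p.2, hl p hp⟩)) hne
  have hn : h.next hinf l = (hex.choose, hex.choose_spec.choose) := by
    unfold PCO.next
    rw [dif_pos hl]
  obtain ⟨h1, h2, h3, h4, h5⟩ := hex.choose_spec.choose_spec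
  rw [hn]
  refine ⟨fun p hp => ?_, h2, h3, h4, fun y hy => h5 y ?_⟩
  · exact (Submodule.mem_orthogonal _ _).1 h1 _ (Submodule.subset_span ⟨p, hp, rfl⟩)
  · rw [Submodule.mem_orthogonal]
    intro u hu
    induction hu using Submodule.span_induction with
    | mem z hz => obtain ⟨p, hp, rfl⟩ := hz; exact hy p hp
    | zero => simp
    | add y z _ _ hy hz => rw [inner_add_left, hy, hz, add_zero]
    | smul c y _ hy => rw [inner_smul_left, hy, mul_zero]

/-- the list of the first `n` eigenpairs -/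
def PCO.lst (h : PCO R) (hinf : ¬ FiniteDimensional ℝ H) : ℕ → List (H × ℝ)
  | 0 => []
  | n + 1 => h.next hinf (PCO.lst h hinf n) :: PCO.lst h hinf n

theorem PCO.lst_spec (h : PCO R) (hinf : ¬ FiniteDimensional ℝ H) (n : ℕ) :
    ∀ p ∈ h.lst hinf n, R p.1 = p.2 • p.1 := by
  induction n with
  | zero => intro p hp; simp [PCO.lst] at hp
  | succ n ih =>
    intro p hp
    simp only [PCO.lst, List.mem_cons] at hp
    rcases hp with rfl | hp
    · exact (h.next_spec hinf _ ih).2.2.2.1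
    · exact ih p hp

theorem PCO.mem_lst (h : PCO R) (hinf : ¬ FiniteDimensional ℝ H) {m n : ℕ} (hmn : m < n) :
    h.next hinf (h.lst hinf m) ∈ h.lst hinf n := by
  induction n with
  | zero => omega
  | succ n ih =>
    simp only [PCO.lst, List.mem_cons]
    rcases Nat.lt_succ_iff_lt_or_eq.1 hmn with h1 | h1
    · exact Or.inr (ih h1)
    · exact Or.inl (by rw [h1])

theorem PCO.lst_mem (h : PCO R) (hinf : ¬ FiniteDimensional ℝ H) {n : ℕ} {p : H × ℝ}
    (hp : p ∈ h.lst hinf n) : ∃ m < n, p = h.next hinf (h.lst hinf m) := by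
  induction n with
  | zero => simp [PCO.lst] at hp
  | succ n ih =>
    simp only [PCO.lst, List.mem_cons] at hp
    rcases hp with rfl | hp
    · exact ⟨n, Nat.lt_succ_self n, rfl⟩
    · obtain ⟨m, hm, rfl⟩ := ih hp
      exact ⟨m, by omega, rfl⟩

/-- **Spectral theorem, sorted form.** -/
theorem PCO.exists_eigSeq (h : PCO R) (hinf : ¬ FiniteDimensional ℝ H) :
    Nonempty (EigSeq R) := by
  classical
  set f : ℕ → H × ℝ := fun n => h.next hinf (h.lst hinf n) with hf
  have hs := fun n => h.next_spec hinf (h.lst hinf n) (h.lst_spec hinf n)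
  have horth : ∀ m n, m < n → ⟪(f m).1, (f n).1⟫_ℝ = 0 := fun m n hmn =>
    (hs n).1 _ (h.mem_lst hinf hmn)
  have hnorm : ∀ n, ‖(f n).1‖ = 1 := fun n => (hs n).2.1
  have hpos : ∀ n, 0 < (f n).2 := fun n => (hs n).2.2.1
  have heig : ∀ n, R (f n).1 = (f n).2 • (f n).1 := fun n => (hs n).2.2.2.1
  have hbd : ∀ n y, (∀ m < n, ⟪(f m).1, y⟫_ℝ = 0) → ‖R y‖ ≤ (f n).2 * ‖y‖ := by
    intro n y hy
    refine (hs n).2.2.2.2 y fun p hp => ?_
    obtain ⟨m, hm, rfl⟩ := h.lst_mem hinf hp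
    exact hy m hm
  have hon : Orthonormal ℝ (fun n => (f n).1) := by
    refine ⟨hnorm, fun m n hmn => ?_⟩
    rcases lt_or_gt_of_ne hmn with h1 | h1
    · exact horth m n h1
    · show ⟪(f m).1, (f n).1⟫_ℝ = 0
      rw [real_inner_comm]; exact horth n m h1
  have hanti : Antitone (fun n => (f n).2) := by
    refine antitone_nat_of_succ_le fun n => ?_
    have h1 := hbd n (f (n + 1)).1 (fun m hm => horth m (n + 1) (by omega))
    rw [heig, norm_smul, hnorm, mul_one, mul_one, Real.norm_of_nonneg (hpos _).le] at h1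
    exact h1
  have hlim : Tendsto (fun n => (f n).2) atTop (𝓝 0) := by
    have hbdd : BddBelow (Set.range fun n => (f n).2) := ⟨0, by
      rintro _ ⟨n, rfl⟩; exact (hpos n).le⟩
    have hconv := tendsto_atTop_ciInf hanti hbdd
    set L := ⨅ n, (f n).2 with hL
    have hL0 : 0 ≤ L := le_ciInf fun n => (hpos n).le
    rcases hL0.lt_or_eq with hL1 | hL1
    swap
    · rw [← hL1] at hconv; exact hconv
    exfalso
    -- compactness
    obtain ⟨K, hK, hK'⟩ := h.cpt.image_closedBall_subset_compact 1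
    obtain ⟨y, -, ψ, hψ, hψy⟩ := hK.tendsto_subseq (x := fun n => R (f n).1)
      (fun n => hK' ⟨(f n).1, by simp [hnorm], rfl⟩)
    have hcau := hψy.cauchySeq
    rw [Metric.cauchySeq_iff'] at hcau
    obtain ⟨N, hN⟩ := hcau L hL1
    have h1 := hN (N + 1) (by omega)
    have hlt : ψ N < ψ (N + 1) := hψ (Nat.lt_succ_self N)
    have h2 : ‖R (f (ψ (N + 1))).1 - R (f (ψ N)).1‖ ^ 2 = (f (ψ (N + 1))).2 ^ 2 + (f (ψ N)).2 ^ 2 := by
      rw [heig, heig, @norm_sub_sq_real, norm_smul, norm_smul, hnorm, hnorm, inner_smul_left,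
        inner_smul_right, real_inner_comm, horth _ _ hlt]
      simp
    have h3 : L ≤ (f (ψ N)).2 := ciInf_le hbdd _
    have h4 : dist (R (f (ψ (N + 1))).1) (R (f (ψ N)).1) < L := h1
    rw [dist_eq_norm] at h4
    have h5 : ‖R (f (ψ (N + 1))).1 - R (f (ψ N)).1‖ ^ 2 < L ^ 2 := by
      apply pow_lt_pow_left₀ h4 (norm_nonneg _) (by norm_num)
    have h6 : L ^ 2 ≤ (f (ψ N)).2 ^ 2 := pow_le_pow_left₀ hL0 h3 2
    have h7 := sq_nonneg (f (ψ (N + 1))).2
    linarith
  have hcomp : (Submodule.span ℝ (Set.range fun n => (f n).1))ᗮ = ⊥ := by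
    rw [Submodule.eq_bot_iff]
    intro y hy
    rw [Submodule.mem_orthogonal] at hy
    have hy' : ∀ m, ⟪(f m).1, y⟫_ℝ = 0 := fun m => hy _ (Submodule.subset_span ⟨m, rfl⟩)
    have h1 : ∀ n, ‖R y‖ ≤ (f n).2 * ‖y‖ := fun n => hbd n y fun m _ => hy' m
    have h2 : ‖R y‖ ≤ 0 * ‖y‖ := le_of_tendsto_of_tendsto tendsto_const_nhds
      (hlim.mul_const ‖y‖) (Filter.Eventually.of_forall h1)
    have h3 : R y = 0 := by
      rw [zero_mul] at h2
      exact norm_le_zero_iff.1 h2
    by_contra hy0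
    have := h.pos y hy0
    rw [h3, inner_zero_left] at this
    exact lt_irrefl _ this
  refine ⟨⟨fun n => (f n).2, hanti, hpos, hlim, HilbertBasis.mkOfOrthogonalEqBot hon hcomp, ?_⟩⟩
  intro k
  rw [HilbertBasis.coe_mkOfOrthogonalEqBot]
  exact heig k

end build

end Crest.Agent.R202.Sp
end
end

-- ▼ part R202/SpForm
section

/-!
# Row 202, PART SP: forms with compact resolvent, eigenbasis, min-max, continuity
-/

set_option autoImplicit false
set_option linter.style.haveILetI false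

open Filter Topology Module
open scoped InnerProductSpace NNReal ENNReal

noncomputable section

namespace Crest.Agent.R202.Sp

variable {H : Type*} [NormedAddCommGroup H] [InnerProductSpace ℝ H]
variable {V : Type*} [NormedAddCommGroup V] [InnerProductSpace ℝ V]

/-- a nonnegative symmetric bounded form on `V`, coercive relative to `j : V → H` -/
structure CForm (j : V →L[ℝ] H) where
  a : V →L[ℝ] V →L[ℝ] ℝ
  symm : ∀ u v, a u v = a v u
  nonneg : ∀ v, 0 ≤ a v v
  c : ℝ
  c_pos : 0 < c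
  coer : ∀ v, c * ‖v‖ ^ 2 ≤ a v v + ‖j v‖ ^ 2

/-- sorted spectral data of a form -/
structure FormSeq {j : V →L[ℝ] H} (A : CForm j) where
  lam : ℕ → ℝ
  mono : Monotone lam
  nonneg : ∀ k, 0 ≤ lam k
  lim : Tendsto lam atTop atTop
  e : HilbertBasis ℕ ℝ H
  ev : ℕ → V
  j_ev : ∀ k, j (ev k) = e k
  eig : ∀ k v, A.a (ev k) v = lam k * ⟪e k, j v⟫_ℝ

namespace CForm

variable {j : V →L[ℝ] H} (A : CForm j)

/-- the Gram form `<ju,jv>` -/
def gram (j : V →L[ℝ] H) : V →L[ℝ] V →L[ℝ] ℝ :=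
  LinearMap.mkContinuous₂ (LinearMap.mk₂ ℝ (fun u v => ⟪j u, j v⟫_ℝ)
    (fun u u' v => by simp [inner_add_left]) (fun c u v => by simp [inner_smul_left])
    (fun u v v' => by simp [inner_add_right]) (fun c u v => by simp [inner_smul_right]))
    (‖j‖ ^ 2) (fun u v => by
      simp only [LinearMap.mk₂_apply]
      calc ‖⟪j u, j v⟫_ℝ‖ ≤ ‖j u‖ * ‖j v‖ := norm_inner_le_norm _ _
        _ ≤ (‖j‖ * ‖u‖) * (‖j‖ * ‖v‖) := by gcongr <;> exact j.le_opNorm _
        _ = ‖j‖ ^ 2 * ‖u‖ * ‖v‖ := by ring)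

theorem gram_apply (j : V →L[ℝ] H) (u v : V) : gram j u v = ⟪j u, j v⟫_ℝ := rfl

/-- the shifted form `B(u,v) = a(u,v) + <ju,jv>` -/
def B : V →L[ℝ] V →L[ℝ] ℝ := A.a + gram j

theorem B_apply (u v : V) : A.B u v = A.a u v + ⟪j u, j v⟫_ℝ := rfl

theorem B_symm (u v : V) : A.B u v = A.B v u := by
  rw [B_apply, B_apply, A.symm, real_inner_comm]

theorem B_self (v : V) : A.B v v = A.a v v + ‖j v‖ ^ 2 := by
  rw [B_apply, real_inner_self_eq_norm_sq]

theorem B_nonneg (v : V) : 0 ≤ A.B v v := by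
  rw [B_self]; have := A.nonneg v; positivity

theorem coer' (v : V) : A.c * ‖v‖ ^ 2 ≤ A.B v v := by
  rw [B_self]; exact A.coer v

theorem coercive : IsCoercive A.B :=
  ⟨A.c, A.c_pos, fun v => by have := A.coer' v; nlinarith [this]⟩

variable [CompleteSpace H] [CompleteSpace V]

/-- the solution operator `T : H → V`, `B(T f, v) = <f, j v>` -/
def T : H →L[ℝ] V :=
  (A.coercive.continuousLinearEquivOfBilin.symm : V →L[ℝ] V).comp (ContinuousLinearMap.adjoint j)

theorem B_T (f : H) (v : V) : A.B (A.T f) v = ⟪f, j v⟫_ℝ := by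
  rw [← A.coercive.continuousLinearEquivOfBilin_apply]
  simp only [T, ContinuousLinearMap.comp_apply, ContinuousLinearEquiv.coe_coe,
    ContinuousLinearEquiv.apply_symm_apply]
  rw [ContinuousLinearMap.adjoint_inner_left]

/-- the resolvent on `H` -/
def R : H →L[ℝ] H := j.comp A.T

theorem R_apply (f : H) : A.R f = j (A.T f) := rfl

theorem inner_R (f g : H) : ⟪A.R f, g⟫_ℝ = A.B (A.T f) (A.T g) := by
  rw [A.B_symm, B_T, R_apply, real_inner_comm]

theorem pco (hc : IsCompactOperator j) (hd : DenseRange j) : PCO A.R where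
  cpt := hc.comp_clm A.T
  symm x y := by rw [inner_R, real_inner_comm, inner_R, B_symm]
  pos x hx := by
    rw [inner_R]
    have hT : A.T x ≠ 0 := by
      intro h0
      apply hx
      have h1 : ∀ v, ⟪x, j v⟫_ℝ = 0 := fun v => by rw [← A.B_T, h0]; simp
      have h2 : ∀ y, ⟪x, y⟫_ℝ = 0 := by
        intro y
        have : IsClosed {y : H | ⟪x, y⟫_ℝ = 0} :=
          isClosed_eq (by fun_prop) continuous_const
        exact hd.induction_on y this h1
      exact inner_self_eq_zero.1 (h2 x)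
    have h3 := A.coer' (A.T x)
    have h4 : 0 < A.c * ‖A.T x‖ ^ 2 := by
      have := A.c_pos
      have : 0 < ‖A.T x‖ := norm_pos_iff.2 hT
      positivity
    linarith

/-- **existence of the sorted eigenbasis of a form** -/
theorem exists_formSeq (hc : IsCompactOperator j) (hd : DenseRange j)
    (hinf : ¬ FiniteDimensional ℝ H) : Nonempty (FormSeq A) := by
  obtain ⟨E⟩ := (A.pco hc hd).exists_eigSeq hinf
  have hR : ∀ k, ⟪A.R (E.e k), E.e k⟫_ℝ = E.τ k := by
    intro k
    rw [E.eig, inner_smul_left, real_inner_self_eq_norm_sq, E.e.orthonormal.1 k]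
    simp
  have hτ1 : ∀ k, E.τ k ≤ 1 := by
    intro k
    have h1 : A.B (A.T (E.e k)) (A.T (E.e k)) = E.τ k := by rw [← inner_R, hR]
    have h2 : ‖A.R (E.e k)‖ ^ 2 ≤ E.τ k := by
      rw [← h1, B_self, R_apply]
      linarith [A.nonneg (A.T (E.e k))]
    rw [E.eig, norm_smul, E.e.orthonormal.1 k, mul_one, Real.norm_of_nonneg (E.pos k).le] at h2
    nlinarith [E.pos k]
  refine ⟨⟨fun k => (E.τ k)⁻¹ - 1, ?_, ?_, ?_, E.e, fun k => (E.τ k)⁻¹ • A.T (E.e k), ?_, ?_⟩⟩
  · intro k l hkl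
    have := inv_anti₀ (E.pos l) (E.anti hkl)
    simp only
    linarith
  · intro k
    have := one_le_inv_iff₀.2 ⟨E.pos k, hτ1 k⟩
    linarith
  · have h1 : Tendsto (fun k => (E.τ k)⁻¹) atTop atTop := by
      refine Filter.Tendsto.comp tendsto_inv_nhdsGT_zero (tendsto_nhdsWithin_iff.2 ⟨E.lim, ?_⟩)
      exact Filter.Eventually.of_forall fun k => E.pos k
    exact tendsto_atTop_add_const_right _ _ h1
  · intro k
    rw [map_smul]
    have := E.eig k
    rw [R_apply] at this
    rw [this, smul_smul, inv_mul_cancel₀ (E.pos k).ne', one_smul]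
  · intro k v
    have h1 := A.B_T (E.e k) v
    have h2 : A.B ((E.τ k)⁻¹ • A.T (E.e k)) v = (E.τ k)⁻¹ * ⟪E.e k, j v⟫_ℝ := by
      rw [map_smul, _root_.smul_apply, h1, smul_eq_mul]
    rw [B_apply] at h2
    have h3 : j ((E.τ k)⁻¹ • A.T (E.e k)) = E.e k := by
      rw [map_smul]
      have := E.eig k
      rw [R_apply] at this
      rw [this, smul_smul, inv_mul_cancel₀ (E.pos k).ne', one_smul]
    rw [h3] at h2
    linarith

end CForm

/-! ### Parseval -/

theorem hasSum_sq_repr (e : HilbertBasis ℕ ℝ H) (x : H) :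
    HasSum (fun k => ⟪e k, x⟫_ℝ ^ 2) (‖x‖ ^ 2) := by
  have h := e.hasSum_inner_mul_inner x x
  rw [real_inner_self_eq_norm_sq] at h
  refine h.congr_fun ?_ |> fun h => h
  intro k
  rw [real_inner_comm x (e k)]
  ring

namespace FormSeq

variable {j : V →L[ℝ] H} {A : CForm j} (S : FormSeq A)

theorem a_ev_ev (k l : ℕ) : A.a (S.ev k) (S.ev l) = if k = l then S.lam k else 0 := by
  rw [S.eig, S.j_ev]
  have := S.e.orthonormal
  rw [orthonormal_iff_ite] at this
  rw [this]
  split_ifs <;> simp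

/-- partial sums of the expansion in `V` -/
def psum (v : V) (n : ℕ) : V := ∑ k ∈ Finset.range n, ⟪S.e k, j v⟫_ℝ • S.ev k

theorem j_psum (v : V) (n : ℕ) :
    j (S.psum v n) = ∑ k ∈ Finset.range n, ⟪S.e k, j v⟫_ℝ • S.e k := by
  simp [psum, map_sum, S.j_ev]

theorem B_ev (k : ℕ) (v : V) : A.B (S.ev k) v = (S.lam k + 1) * ⟪S.e k, j v⟫_ℝ := by
  rw [A.B_apply, S.eig, S.j_ev]; ring

theorem inner_e_psum (v : V) (n k : ℕ) :
    ⟪S.e k, j (S.psum v n)⟫_ℝ = if k < n then ⟪S.e k, j v⟫_ℝ else 0 := by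
  rw [j_psum, inner_sum]
  have := S.e.orthonormal
  rw [orthonormal_iff_ite] at this
  simp_rw [inner_smul_right, this]
  simp

theorem B_psum (v w : V) (n : ℕ) :
    A.B (S.psum v n) w = ∑ k ∈ Finset.range n, (S.lam k + 1) * (⟪S.e k, j v⟫_ℝ * ⟪S.e k, j w⟫_ℝ) := by
  simp only [psum, map_sum, map_smul, _root_.sum_apply, _root_.smul_apply,
    smul_eq_mul]
  refine Finset.sum_congr rfl fun k _ => ?_
  rw [B_ev]; ring

theorem B_sub_psum (v : V) (n : ℕ) :
    A.B (v - S.psum v n) (v - S.psum v n)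
      = A.B v v - ∑ k ∈ Finset.range n, (S.lam k + 1) * ⟪S.e k, j v⟫_ℝ ^ 2 := by
  have h1 : A.B (S.psum v n) v = ∑ k ∈ Finset.range n, (S.lam k + 1) * ⟪S.e k, j v⟫_ℝ ^ 2 := by
    rw [B_psum]; refine Finset.sum_congr rfl fun k _ => by ring
  have h2 : A.B (S.psum v n) (S.psum v n)
      = ∑ k ∈ Finset.range n, (S.lam k + 1) * ⟪S.e k, j v⟫_ℝ ^ 2 := by
    rw [B_psum]; refine Finset.sum_congr rfl fun k hk => ?_
    rw [inner_e_psum, if_pos (Finset.mem_range.1 hk)]; ring
  have h3 : A.B (v - S.psum v n) (v - S.psum v n)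
      = A.B v v - A.B v (S.psum v n) - A.B (S.psum v n) v + A.B (S.psum v n) (S.psum v n) := by
    simp only [map_sub, _root_.sub_apply]; ring
  rw [h3, A.B_symm v (S.psum v n), h1, h2]; ring

theorem sum_le_B (v : V) (n : ℕ) :
    ∑ k ∈ Finset.range n, (S.lam k + 1) * ⟪S.e k, j v⟫_ℝ ^ 2 ≤ A.B v v := by
  have h1 := S.B_sub_psum v n
  have h2 := A.B_nonneg (v - S.psum v n)
  linarith

theorem summable_B (v : V) : Summable fun k => (S.lam k + 1) * ⟪S.e k, j v⟫_ℝ ^ 2 := by
  refine summable_of_sum_range_le (c := A.B v v) (fun k => ?_) (fun n => S.sum_le_B v n)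
  have := S.nonneg k
  positivity

variable [CompleteSpace V]

theorem tendsto_psum (hj : Function.Injective j) (v : V) :
    Tendsto (S.psum v) atTop (𝓝 v) := by
  -- Cauchy in V
  have hcau : CauchySeq (S.psum v) := by
    rw [Metric.cauchySeq_iff']
    intro ε hε
    have hsum := (S.summable_B v).hasSum.tendsto_sum_nat.cauchySeq
    rw [Metric.cauchySeq_iff'] at hsum
    obtain ⟨N, hN⟩ := hsum (A.c * ε ^ 2) (by have := A.c_pos; positivity)
    refine ⟨N, fun n hn => ?_⟩
    have h1 := hN n hn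
    have h2 : S.psum v n - S.psum v N = S.psum (v - S.psum v N) n := by
      rw [psum, psum, psum, sub_eq_iff_eq_add]
      have hsplit : ∑ k ∈ Finset.range N, ⟪S.e k, j v⟫_ℝ • S.ev k
          = ∑ k ∈ Finset.range n, (if k < N then ⟪S.e k, j v⟫_ℝ else 0) • S.ev k := by
        rw [← Finset.sum_subset (Finset.range_subset_range.2 hn)]
        · refine Finset.sum_congr rfl fun k hk => ?_
          rw [if_pos (Finset.mem_range.1 hk)]
        · intro k _ hk
          rw [if_neg (by simpa using hk), zero_smul]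
      have hrw : ∀ k, ⟪S.e k, j (v - ∑ k ∈ Finset.range N, ⟪S.e k, j v⟫_ℝ • S.ev k)⟫_ℝ
          = ⟪S.e k, j v⟫_ℝ - (if k < N then ⟪S.e k, j v⟫_ℝ else 0) := by
        intro k
        have := S.inner_e_psum v N k
        rw [psum] at this
        rw [map_sub, inner_sub_right, this]
      rw [hsplit, ← Finset.sum_add_distrib]
      refine Finset.sum_congr rfl fun k _ => ?_
      rw [← hsplit, hrw, ← add_smul]
      congr 1
      ring
    have h3 : A.c * ‖S.psum v n - S.psum v N‖ ^ 2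
        ≤ ∑ k ∈ Finset.range n, (S.lam k + 1) * ⟪S.e k, j v⟫_ℝ ^ 2
          - ∑ k ∈ Finset.range N, (S.lam k + 1) * ⟪S.e k, j v⟫_ℝ ^ 2 := by
      have h4 := A.coer' (S.psum v n - S.psum v N)
      have h5 : A.B (S.psum v n - S.psum v N) (S.psum v n - S.psum v N)
          = A.B (S.psum v n) (S.psum v n) - A.B (S.psum v N) (S.psum v n)
            - A.B (S.psum v N) (S.psum v n) + A.B (S.psum v N) (S.psum v N) := by
        simp only [map_sub, _root_.sub_apply]
        rw [A.B_symm (S.psum v n) (S.psum v N)]; ring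
      have h6 : A.B (S.psum v N) (S.psum v n)
          = ∑ k ∈ Finset.range N, (S.lam k + 1) * ⟪S.e k, j v⟫_ℝ ^ 2 := by
        rw [B_psum]; refine Finset.sum_congr rfl fun k hk => ?_
        rw [inner_e_psum, if_pos (lt_of_lt_of_le (Finset.mem_range.1 hk) hn)]; ring
      have h7 : ∀ m, A.B (S.psum v m) (S.psum v m)
          = ∑ k ∈ Finset.range m, (S.lam k + 1) * ⟪S.e k, j v⟫_ℝ ^ 2 := by
        intro m
        rw [B_psum]; refine Finset.sum_congr rfl fun k hk => ?_
        rw [inner_e_psum, if_pos (Finset.mem_range.1 hk)]; ring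
      rw [h5, h6, h7, h7] at h4
      linarith
    rw [Real.dist_eq] at h1
    have h8 : A.c * ‖S.psum v n - S.psum v N‖ ^ 2 < A.c * ε ^ 2 :=
      lt_of_le_of_lt (h3.trans (le_abs_self _)) h1
    have h9 : ‖S.psum v n - S.psum v N‖ ^ 2 < ε ^ 2 := lt_of_mul_lt_mul_left h8 A.c_pos.le
    rw [dist_eq_norm]
    exact lt_of_pow_lt_pow_left₀ 2 hε.le h9
  obtain ⟨w, hw⟩ := cauchySeq_tendsto_of_complete hcau
  have h1 : Tendsto (fun n => j (S.psum v n)) atTop (𝓝 (j w)) := (j.continuous.tendsto _).comp hw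
  have h2 : Tendsto (fun n => j (S.psum v n)) atTop (𝓝 (j v)) := by
    have := (S.e.hasSum_repr (j v)).tendsto_sum_nat
    refine this.congr fun n => ?_
    rw [j_psum]
    refine Finset.sum_congr rfl fun k _ => ?_
    rw [S.e.repr_apply_apply]
  have h3 : w = v := hj (tendsto_nhds_unique h1 h2)
  rw [h3] at hw
  exact hw

theorem hasSum_B (hj : Function.Injective j) (v : V) :
    HasSum (fun k => (S.lam k + 1) * ⟪S.e k, j v⟫_ℝ ^ 2) (A.B v v) := by
  have h1 := (S.summable_B v).hasSum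
  have h2 : Tendsto (fun n => A.B (S.psum v n) v) atTop (𝓝 (A.B v v)) := by
    have h3 : Continuous fun u : V => A.B u v := by fun_prop
    exact (h3.tendsto v).comp (S.tendsto_psum hj v)
  have h3 : Tendsto (fun n => ∑ k ∈ Finset.range n, (S.lam k + 1) * ⟪S.e k, j v⟫_ℝ ^ 2) atTop
      (𝓝 (A.B v v)) := by
    refine h2.congr fun n => ?_
    rw [B_psum]; refine Finset.sum_congr rfl fun k _ => by ring
  have h4 := tendsto_nhds_unique h1.tendsto_sum_nat h3
  rw [h4] at h1
  exact h1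

/-- **form Parseval** -/
theorem hasSum_a (hj : Function.Injective j) (v : V) :
    HasSum (fun k => S.lam k * ⟪S.e k, j v⟫_ℝ ^ 2) (A.a v v) := by
  have h1 := (S.hasSum_B hj v).sub (hasSum_sq_repr S.e (j v))
  have h2 : A.B v v - ‖j v‖ ^ 2 = A.a v v := by rw [A.B_self]; ring
  rw [h2] at h1
  refine h1.congr_fun ?_ |> fun h => h
  intro k
  ring

end FormSeq

end Crest.Agent.R202.Sp
end
end

-- ▼ part R249/Tv3_57

/-!
# R249 (C-TV), part 3: the abstract quadratic form of `D* D + Q` on sections.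

`S : GradS X F μ` a gradient structure, `κ` a finite index type,
`AD S κ` : bounded measurable connection `w`, potential `q`, projection `p` by test functions.
* `mulF hw : Lp ℝ 2 μ →L Lp G 2 μ`, `u ↦ u • w`;
* `HE`, `WE` : the Hilbert spaces `L²(E)`, `W^{1,2}(E)` (graph norm);
* `jj : WE →L HE`, compact if the scalar embedding is approximated by compact operators;
* `form` : `CForm jj`.
(helper57)
-/

set_option autoImplicit false
set_option linter.unusedSectionVars false
open MeasureTheory Set Filter Topology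
open scoped ENNReal NNReal RealInnerProductSpace

noncomputable section
namespace Crest.Agent.R249.Tv57

open Crest.Agent.R247.Dir593

section mul
variable {X : Type*} [MeasurableSpace X] {μ : Measure X} {G : Type*} [NormedAddCommGroup G]
  [InnerProductSpace ℝ G]

/-- bounded measurable functions -/
structure BM (μ : Measure X) (w : X → G) : Prop where
  meas : AEStronglyMeasurable w μ
  bd : ∃ C : ℝ, 0 ≤ C ∧ ∀ᵐ x ∂μ, ‖w x‖ ≤ C

lemma BM.memLp {w : X → G} (hw : BM μ w) (u : Lp ℝ 2 μ) : MemLp (fun x => u x • w x) 2 μ := by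
  obtain ⟨C, hC0, hC⟩ := hw.bd
  refine (Lp.memLp u).of_le_mul (c := C) ((Lp.aestronglyMeasurable u).smul hw.meas) ?_
  filter_upwards [hC] with x hx
  rw [norm_smul, mul_comm]
  exact mul_le_mul_of_nonneg_right hx (norm_nonneg _)

/-- multiplication `u ↦ u • w` -/
def mulF {w : X → G} (hw : BM μ w) : Lp ℝ 2 μ →L[ℝ] Lp G 2 μ :=
  LinearMap.mkContinuousOfExistsBound
    { toFun := fun u => (hw.memLp u).toLp _
      map_add' := fun u v => by
        ext1
        filter_upwards [(hw.memLp (u + v)).coeFn_toLp, (hw.memLp u).coeFn_toLp,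
          (hw.memLp v).coeFn_toLp, Lp.coeFn_add u v,
          Lp.coeFn_add ((hw.memLp u).toLp _) ((hw.memLp v).toLp _)] with x e1 e2 e3 e4 e5
        rw [e1, e5, Pi.add_apply, e2, e3, e4, Pi.add_apply, add_smul]
      map_smul' := fun c u => by
        ext1
        filter_upwards [(hw.memLp (c • u)).coeFn_toLp, (hw.memLp u).coeFn_toLp,
          Lp.coeFn_smul c u, Lp.coeFn_smul c ((hw.memLp u).toLp _)] with x e1 e2 e3 e4
        simp only [RingHom.id_apply]
        rw [e1, e4, Pi.smul_apply, e2, e3, Pi.smul_apply, smul_eq_mul, mul_smul] }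
    (by
      obtain ⟨C, hC0, hC⟩ := hw.bd
      refine ⟨C, fun u => ?_⟩
      refine norm_le_of_ae hC0 ?_
      filter_upwards [(hw.memLp u).coeFn_toLp, hC] with x e1 e2
      simp only [LinearMap.coe_mk, AddHom.coe_mk]
      rw [e1, norm_smul, mul_comm]
      exact mul_le_mul_of_nonneg_right e2 (norm_nonneg _))

lemma coe_mulF {w : X → G} (hw : BM μ w) (u : Lp ℝ 2 μ) :
    (mulF hw u : X → G) =ᵐ[μ] fun x => u x • w x := (hw.memLp u).coeFn_toLp

end mul

section gram
variable {V H : Type*} [NormedAddCommGroup V] [InnerProductSpace ℝ V] [NormedAddCommGroup H]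
  [InnerProductSpace ℝ H]

/-- the form `⟪A u, B v⟫` -/
def gram2 (A B : V →L[ℝ] H) : V →L[ℝ] V →L[ℝ] ℝ :=
  LinearMap.mkContinuous₂ (LinearMap.mk₂ ℝ (fun u v => ⟪A u, B v⟫)
    (fun u u' v => by simp [inner_add_left]) (fun c u v => by simp [inner_smul_left])
    (fun u v v' => by simp [inner_add_right]) (fun c u v => by simp [inner_smul_right]))
    (‖A‖ * ‖B‖) (fun u v => by
      simp only [LinearMap.mk₂_apply]
      calc ‖⟪A u, B v⟫‖ ≤ ‖A u‖ * ‖B v‖ := norm_inner_le_norm _ _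
        _ ≤ (‖A‖ * ‖u‖) * (‖B‖ * ‖v‖) := by gcongr <;> exact ContinuousLinearMap.le_opNorm _ _
        _ = ‖A‖ * ‖B‖ * ‖u‖ * ‖v‖ := by ring)

lemma gram2_apply (A B : V →L[ℝ] H) (u v : V) : gram2 A B u v = ⟪A u, B v⟫ := rfl

end gram

/-! ### the spaces -/

section spaces
variable {X : Type*} [MetricSpace X] [MeasurableSpace X] [BorelSpace X] {F : Type*}
  [NormedAddCommGroup F] [InnerProductSpace ℝ F] {μ : Measure X} [IsFiniteMeasureOnCompacts μ]

/-- abstract data of a trivialised bundle with connection -/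
structure AD (S : GradS X F μ) (κ : Type) [Fintype κ] where
  w : κ → κ → X → F
  q : κ → κ → X → ℝ
  p : κ → κ → X → ℝ
  hw : ∀ a b, BM μ (w a b)
  hq : ∀ a b, BM μ (q a b)
  hp : ∀ a b, BM μ (p a b)
  hT : ∀ a b, GradS.IsT (p a b)
  skew : ∀ a b x, w a b x = - w b a x
  symmq : ∀ a b x, q a b x = q b a x
  symmp : ∀ a b x, p a b x = p b a x
  idem : ∀ a b x, ∑ c, p a c x * p c b x = p a b x
  par : ∀ a b, ∀ᵐ x ∂μ, S.G (p a b) x + ∑ c, (p c b x • w a c x - p a c x • w c b x) = 0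
  comm : ∀ a b x, ∑ c, q a c x * p c b x = ∑ c, p a c x * q c b x

variable (μ F) in
/-- the ambient spaces -/
abbrev HH (κ : Type) [Fintype κ] := PiLp 2 (fun _ : κ => Lp ℝ 2 μ)
variable (μ F) in
abbrev GG (κ : Type) [Fintype κ] := PiLp 2 (fun _ : κ => Lp F 2 μ)

section mat
variable {κ : Type} [Fintype κ] {G : Type*} [NormedAddCommGroup G] [InnerProductSpace ℝ G]

/-- matrix multiplier `(m u)_a = ∑_b u_b • m_ab` -/
def matF {m : κ → κ → X → G} (hm : ∀ a b, BM μ (m a b)) :
    HH μ κ →L[ℝ] PiLp 2 (fun _ : κ => Lp G 2 μ) :=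
  ((PiLp.continuousLinearEquiv 2 ℝ (fun _ : κ => Lp G 2 μ)).symm :
      (∀ _ : κ, Lp G 2 μ) →L[ℝ] PiLp 2 (fun _ : κ => Lp G 2 μ)).comp
    (ContinuousLinearMap.pi fun a => ∑ b, (mulF (hm a b)).comp (PiLp.proj 2 _ b))

lemma matF_apply {m : κ → κ → X → G} (hm : ∀ a b, BM μ (m a b)) (u : HH μ κ) (a : κ) :
    matF hm u a = ∑ b, mulF (hm a b) (u b) := by
  simp [matF]

lemma coe_matF {m : κ → κ → X → G} (hm : ∀ a b, BM μ (m a b)) (u : HH μ κ) :
    ∀ᵐ x ∂μ, ∀ a, (matF hm u a : Lp G 2 μ) x = ∑ b, u b x • m a b x := by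
  rw [ae_all_iff]
  intro a
  have h1 : ∀ᵐ x ∂μ, ∀ b, (mulF (hm a b) (u b) : Lp G 2 μ) x = u b x • m a b x :=
    ae_all_iff.2 fun b => coe_mulF (hm a b) (u b)
  filter_upwards [h1, Lp.coeFn_fun_finsetSum Finset.univ (fun b => mulF (hm a b) (u b))]
    with x e1 e2
  rw [matF_apply, e2]
  exact Finset.sum_congr rfl fun b _ => e1 b

end mat

namespace AD

variable {S : GradS X F μ} {κ : Type} [Fintype κ] (A : AD S κ)

/-- the projection on `L²` -/
def P : HH μ κ →L[ℝ] HH μ κ := matF A.hp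

lemma coe_P (u : HH μ κ) : ∀ᵐ x ∂μ, ∀ a, (A.P u a : Lp ℝ 2 μ) x = ∑ b, A.p a b x * u b x := by
  filter_upwards [coe_matF A.hp u] with x hx a
  rw [P, hx a]
  exact Finset.sum_congr rfl fun b _ => by rw [smul_eq_mul, mul_comm]

lemma P_P (u : HH μ κ) : A.P (A.P u) = A.P u := by
  ext a
  filter_upwards [A.coe_P (A.P u), A.coe_P u] with x e1 e2
  rw [e1 a, e2 a]
  simp only [e2]
  simp only [Finset.mul_sum]
  rw [Finset.sum_comm]
  refine Finset.sum_congr rfl fun b _ => ?_
  rw [← A.idem a b x, Finset.sum_mul]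
  exact Finset.sum_congr rfl fun c _ => by ring

lemma inner_P (u v : HH μ κ) : ⟪A.P u, v⟫ = ⟪u, A.P v⟫ := by
  have h : ∀ u v : HH μ κ, ⟪A.P u, v⟫ = ∫ x, ∑ a, ∑ b, A.p a b x * u b x * v a x ∂μ := by
    intro u v
    rw [PiLp.inner_apply]
    simp only [L2.inner_def]
    rw [← integral_finsetSum]
    · refine integral_congr_ae ?_
      filter_upwards [A.coe_P u] with x e1
      refine Finset.sum_congr rfl fun a _ => ?_
      rw [e1 a]
      simp only [Real.inner_apply]
      rw [Finset.sum_mul]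
    · intro a _
      exact L2.integrable_inner _ _
  rw [h u v, real_inner_comm, h v u]
  refine integral_congr_ae (Filter.Eventually.of_forall fun x => ?_)
  simp only
  rw [Finset.sum_comm]
  refine Finset.sum_congr rfl fun a _ => Finset.sum_congr rfl fun b _ => ?_
  rw [A.symmp b a x]
  ring

/-- `L²(E)` -/
def HE : Submodule ℝ (HH μ κ) where
  carrier := {u | A.P u = u}
  zero_mem' := map_zero _
  add_mem' := fun {u v} hu hv => by
    rw [mem_ofPred_eq] at *
    rw [map_add, hu, hv]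
  smul_mem' := fun c u hu => by
    rw [mem_ofPred_eq] at *
    rw [map_smul, hu]

lemma mem_HE {u : HH μ κ} : u ∈ A.HE ↔ A.P u = u := Iff.rfl

lemma isClosed_HE : IsClosed (A.HE : Set (HH μ κ)) :=
  isClosed_eq A.P.continuous continuous_id

instance : CompleteSpace A.HE := A.isClosed_HE.completeSpace_coe

/-- the graph space -/
abbrev Amb (_A : AD S κ) := WithLp 2 (HH μ κ × GG F μ κ)

/-- `W^{1,2}(E)` -/
def WE : Submodule ℝ A.Amb where
  carrier := {w | (∀ a, (w.fst a, w.snd a) ∈ S.graphC) ∧ A.P w.fst = w.fst}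
  zero_mem' := ⟨fun _ => S.graphC.zero_mem, map_zero _⟩
  add_mem' := fun {u v} hu hv =>
    ⟨fun a => S.graphC.add_mem (hu.1 a) (hv.1 a), by
      have : (u + v).fst = u.fst + v.fst := rfl
      rw [this, map_add, hu.2, hv.2]⟩
  smul_mem' := fun c u hu =>
    ⟨fun a => S.graphC.smul_mem c (hu.1 a), by
      have : (c • u).fst = c • u.fst := rfl
      rw [this, map_smul, hu.2]⟩

lemma mem_WE {w : A.Amb} : w ∈ A.WE ↔ (∀ a, (w.fst a, w.snd a) ∈ S.graphC) ∧ A.P w.fst = w.fst :=
  Iff.rfl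

/-- the first component -/
def f1 : A.Amb →L[ℝ] HH μ κ := WithLp.fstL 2 ℝ _ _
/-- the second component -/
def f2 : A.Amb →L[ℝ] GG F μ κ := WithLp.sndL 2 ℝ _ _

@[simp] lemma f1_apply (w : A.Amb) : A.f1 w = w.fst := rfl
@[simp] lemma f2_apply (w : A.Amb) : A.f2 w = w.snd := rfl

lemma isClosed_WE : IsClosed (A.WE : Set A.Amb) := by
  have h1 : ∀ a, Continuous fun w : A.Amb => (w.fst a, w.snd a) := fun a =>
    ((PiLp.proj (𝕜 := ℝ) 2 (fun _ : κ => Lp ℝ 2 μ) a).continuous.comp A.f1.continuous).prodMk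
      ((PiLp.proj (𝕜 := ℝ) 2 (fun _ : κ => Lp F 2 μ) a).continuous.comp A.f2.continuous)
  have h2 : IsClosed {w : A.Amb | ∀ a, (w.fst a, w.snd a) ∈ S.graphC} := by
    simp only [ofPred_forall]
    exact isClosed_iInter fun a => S.isClosed_graphC.preimage (h1 a)
  have h3 : IsClosed {w : A.Amb | A.P w.fst = w.fst} :=
    isClosed_eq (A.P.continuous.comp A.f1.continuous) A.f1.continuous
  exact h2.inter h3

instance [CompleteSpace F] : CompleteSpace A.WE := A.isClosed_WE.completeSpace_coe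

/-- the embedding -/
def jj : A.WE →L[ℝ] A.HE :=
  (A.f1.comp A.WE.subtypeL).codRestrict A.HE fun w => w.2.2

lemma coe_jj (w : A.WE) : (A.jj w : HH μ κ) = (w : A.Amb).fst := rfl

lemma jj_injective : Function.Injective A.jj := by
  intro w w' h
  have h1 : (w : A.Amb).fst = (w' : A.Amb).fst := congrArg Subtype.val h
  have h2 : (w : A.Amb).snd = (w' : A.Amb).snd := by
    ext1 a
    have e1 := S.D_eq (w.2.1 a)
    have e2 := S.D_eq (w'.2.1 a)
    rw [← e1, ← e2, h1]
  apply Subtype.ext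
  have h3 : ((w : A.Amb).fst, (w : A.Amb).snd) = ((w' : A.Amb).fst, (w' : A.Amb).snd) := by
    rw [h1, h2]
  exact WithLp.ofLp_injective 2 h3

/-- the covariant derivative on the graph space -/
def cvL : A.Amb →L[ℝ] GG F μ κ := A.f2 + (matF A.hw).comp A.f1

/-- the potential -/
def qL : HH μ κ →L[ℝ] HH μ κ := matF A.hq

lemma cvL_apply (w : A.Amb) : A.cvL w = w.snd + matF A.hw w.fst := rfl

end AD

end spaces

end Crest.Agent.R249.Tv57
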