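import Mathlib
import Crest.Prelude.Def_CoordMetric

-- ▼ part R249/EVBasic_330
section

/-! (copy of Crest/Agent/R202/EllBasic in the namespace R249.EV, to avoid the name clash with R202/Ell1..Ell7; helper330)
Row 202: elliptic regularity, part 1: test functions, weak derivatives, L² pairing,
difference quotients. -/

set_option autoImplicit false
open MeasureTheory Filter Topology Set
open scoped ENNReal NNReal ContDiff RealInnerProductSpace

namespace Crest.Agent.R249.EV

variable {V : Type*} [NormedAddCommGroup V] [InnerProductSpace ℝ V] [FiniteDimensional ℝ V]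
  [MeasurableSpace V] [BorelSpace V]

/-- smooth compactly supported functions -/
def Test (φ : V → ℝ) : Prop := ContDiff ℝ ∞ φ ∧ HasCompactSupport φ

/-- directional derivative -/
noncomputable def dd (e : V) (φ : V → ℝ) (x : V) : ℝ := fderiv ℝ φ x e

/-- `v` is a weak derivative of `u` in direction `e` (on the whole space) -/
def WD (e : V) (u v : V → ℝ) : Prop :=
  ∀ φ : V → ℝ, Test φ → ∫ x, u x * dd e φ x = - ∫ x, v x * φ x

/-- the L² norm -/
noncomputable def nn (f : V → ℝ) : ℝ := Real.sqrt (∫ x, f x ^ 2)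

omit [MeasurableSpace V] [BorelSpace V] in
omit [FiniteDimensional ℝ V] in
theorem Test.dd {φ : V → ℝ} (h : Test φ) (e : V) : Test (EV.dd e φ) := by
  refine ⟨?_, ?_⟩
  · have := h.1.fderiv_right (m := ∞) (by simp)
    exact this.clm_apply contDiff_const
  · have h1 := h.2.fderiv (𝕜 := ℝ)
    have : EV.dd e φ = (fun L : V →L[ℝ] ℝ => L e) ∘ (fderiv ℝ φ) := rfl
    rw [this]
    exact h1.comp_left (by simp)

omit [MeasurableSpace V] [BorelSpace V] in
omit [FiniteDimensional ℝ V] in
theorem Test.continuous {φ : V → ℝ} (h : Test φ) : Continuous φ := h.1.continuous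

theorem Test.memLp {φ : V → ℝ} (h : Test φ) (p : ℝ≥0∞) : MemLp φ p (volume : Measure V) :=
  h.continuous.memLp_of_hasCompactSupport h.2

theorem Test.integrable {φ : V → ℝ} (h : Test φ) : Integrable φ (volume : Measure V) :=
  h.continuous.integrable_of_hasCompactSupport h.2

omit [MeasurableSpace V] [BorelSpace V] [FiniteDimensional ℝ V] in
theorem Test.add {φ ψ : V → ℝ} (h : Test φ) (h' : Test ψ) : Test (fun x => φ x + ψ x) :=
  ⟨h.1.add h'.1, h.2.add h'.2⟩

omit [MeasurableSpace V] [BorelSpace V] [FiniteDimensional ℝ V] in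
theorem Test.const_mul {φ : V → ℝ} (h : Test φ) (c : ℝ) : Test (fun x => c * φ x) :=
  ⟨contDiff_const.mul h.1, h.2.mul_left⟩

omit [MeasurableSpace V] [BorelSpace V] [FiniteDimensional ℝ V] in
theorem Test.smooth_mul {φ a : V → ℝ} (h : Test φ) (ha : ContDiff ℝ ∞ a) :
    Test (fun x => a x * φ x) :=
  ⟨ha.mul h.1, h.2.mul_left⟩

omit [MeasurableSpace V] [BorelSpace V] [FiniteDimensional ℝ V] in
theorem Test.comp_add {φ : V → ℝ} (h : Test φ) (a : V) : Test (fun x => φ (x + a)) := by
  refine ⟨h.1.comp (contDiff_id.add contDiff_const), ?_⟩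
  exact h.2.comp_homeomorph (Homeomorph.addRight a)

omit [MeasurableSpace V] [BorelSpace V] [FiniteDimensional ℝ V] in
theorem dd_comp_add (e : V) (φ : V → ℝ) (a : V) (x : V) :
    dd e (fun x => φ (x + a)) x = dd e φ (x + a) := by
  unfold dd
  rw [fderiv_comp_add_right]

omit [MeasurableSpace V] [BorelSpace V] [FiniteDimensional ℝ V] in
theorem dd_mul (e : V) {f g : V → ℝ} (hf : Differentiable ℝ f) (hg : Differentiable ℝ g) (x : V) :
    dd e (fun x => f x * g x) x = dd e f x * g x + f x * dd e g x := by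
  unfold dd
  rw [fderiv_fun_mul (hf x) (hg x)]
  simp; ring

/-! ### L² pairing -/

theorem nn_eq_norm {f : V → ℝ} (hf : MemLp f 2 (volume : Measure V)) : nn f = ‖hf.toLp f‖ := by
  have h1 : ‖hf.toLp f‖ ^ 2 = ∫ x, f x ^ 2 := by
    rw [← real_inner_self_eq_norm_sq, L2.inner_def]
    apply integral_congr_ae
    filter_upwards [hf.coeFn_toLp] with x hx
    rw [hx]; simp [pow_two]
  rw [nn, ← h1, Real.sqrt_sq (norm_nonneg _)]

theorem nn_nonneg (f : V → ℝ) : 0 ≤ nn f := Real.sqrt_nonneg _

theorem nn_sq {f : V → ℝ} : nn f ^ 2 = ∫ x, f x ^ 2 := by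
  rw [nn, Real.sq_sqrt (integral_nonneg fun x => sq_nonneg _)]

theorem integral_mul_eq_inner {f g : V → ℝ} (hf : MemLp f 2 (volume : Measure V))
    (hg : MemLp g 2 (volume : Measure V)) :
    ∫ x, f x * g x = ⟪hf.toLp f, hg.toLp g⟫ := by
  rw [L2.inner_def]
  apply integral_congr_ae
  filter_upwards [hf.coeFn_toLp, hg.coeFn_toLp] with x hx hy
  rw [hx, hy]; simp [mul_comm]

theorem abs_integral_mul_le {f g : V → ℝ} (hf : MemLp f 2 (volume : Measure V))
    (hg : MemLp g 2 (volume : Measure V)) : |∫ x, f x * g x| ≤ nn f * nn g := by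
  rw [integral_mul_eq_inner hf hg, nn_eq_norm hf, nn_eq_norm hg]
  exact abs_real_inner_le_norm _ _

theorem nn_add_le {f g : V → ℝ} (hf : MemLp f 2 (volume : Measure V))
    (hg : MemLp g 2 (volume : Measure V)) : nn (fun x => f x + g x) ≤ nn f + nn g := by
  have h := hf.add hg
  have h0 : nn (fun x => f x + g x) = nn (f + g) := rfl
  rw [h0, nn_eq_norm h, nn_eq_norm hf, nn_eq_norm hg, MemLp.toLp_add]
  exact norm_add_le _ _

theorem nn_const_mul (c : ℝ) (f : V → ℝ) : nn (fun x => c * f x) = |c| * nn f := by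
  unfold nn
  simp_rw [mul_pow]
  rw [integral_const_mul, Real.sqrt_mul (sq_nonneg c), Real.sqrt_sq_eq_abs]

theorem nn_comp_add (f : V → ℝ) (a : V) : nn (fun x => f (x + a)) = nn f := by
  unfold nn
  rw [integral_add_right_eq_self (fun x => f x ^ 2) a]

theorem memLp_comp_add {f : V → ℝ} {p : ℝ≥0∞} (hf : MemLp f p (volume : Measure V)) (a : V) :
    MemLp (fun x => f (x + a)) p (volume : Measure V) :=
  hf.comp_measurePreserving (measurePreserving_add_right volume a)

theorem integrable_mul {f g : V → ℝ} (hf : MemLp f 2 (volume : Measure V))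
    (hg : MemLp g 2 (volume : Measure V)) : Integrable (fun x => f x * g x) volume :=
  hf.integrable_mul hg

/-- bounded times L² -/
theorem nn_bdd_mul_le {a f : V → ℝ} {C : ℝ} (hC : 0 ≤ C) (ha : ∀ x, |a x| ≤ C)
    (hf : MemLp f 2 (volume : Measure V)) : nn (fun x => a x * f x) ≤ C * nn f := by
  unfold nn
  have h0 : C * Real.sqrt (∫ x, f x ^ 2) = Real.sqrt (∫ x, C ^ 2 * f x ^ 2) := by
    rw [integral_const_mul, Real.sqrt_mul (sq_nonneg C), Real.sqrt_sq hC]
  rw [h0]
  apply Real.sqrt_le_sqrt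
  apply integral_mono_of_nonneg
  · exact Eventually.of_forall fun x => sq_nonneg _
  · exact (hf.integrable_sq).const_mul _
  · refine Eventually.of_forall fun x => ?_
    simp only [mul_pow]
    apply mul_le_mul_of_nonneg_right _ (sq_nonneg _)
    rw [← sq_abs]
    exact pow_le_pow_left₀ (abs_nonneg _) (ha x) 2

theorem memLp_bdd_mul {a f : V → ℝ} {C : ℝ} (ha : ∀ x, |a x| ≤ C) (hac : Continuous a)
    (hf : MemLp f 2 (volume : Measure V)) : MemLp (fun x => a x * f x) 2 (volume : Measure V) := by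
  refine MemLp.of_le_mul (c := C) hf (hac.aestronglyMeasurable.mul hf.1) ?_
  refine Eventually.of_forall fun x => ?_
  rw [norm_mul, Real.norm_eq_abs]
  exact mul_le_mul_of_nonneg_right (ha x) (norm_nonneg _)

/-! ### duality with test functions -/

theorem nn_le_of_test {g : V → ℝ} (hg : MemLp g 2 (volume : Measure V)) {M : ℝ} (hM : 0 ≤ M)
    (h : ∀ φ : V → ℝ, Test φ → |∫ x, g x * φ x| ≤ M * nn φ) : nn g ≤ M := by
  -- |<g, f>| ≤ M ‖f‖ for all f in L², by density
  have key : ∀ f : Lp ℝ 2 (volume : Measure V), |⟪hg.toLp g, f⟫| ≤ M * ‖f‖ := by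
    intro f
    have hd := Lp.dense_hasCompactSupport_contDiff (F := ℝ) (E := V) (μ := volume) (p := 2)
      (by norm_num)
    have hcl : IsClosed {f : Lp ℝ 2 (volume : Measure V) | |⟪hg.toLp g, f⟫| ≤ M * ‖f‖} :=
      isClosed_le (by fun_prop) (by fun_prop)
    have hsub : {f : Lp ℝ 2 (volume : Measure V) | ∃ (g : V → ℝ), f =ᵐ[volume] g ∧
        HasCompactSupport g ∧ ContDiff ℝ ∞ g} ⊆
        {f : Lp ℝ 2 (volume : Measure V) | |⟪hg.toLp g, f⟫| ≤ M * ‖f‖} := by
      rintro f ⟨φ, hφ, hφc, hφs⟩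
      have hT : Test φ := ⟨hφs, hφc⟩
      have hm := hT.memLp (2 : ℝ≥0∞)
      have : f = hm.toLp φ := by
        apply Lp.ext
        exact hφ.trans hm.coeFn_toLp.symm
      have h1 := h φ hT
      rw [integral_mul_eq_inner hg hm, nn_eq_norm hm, ← this] at h1
      exact h1
    have := closure_minimal hsub hcl (hd f)
    exact this
  have h2 := key (hg.toLp g)
  rw [real_inner_self_eq_norm_sq, abs_of_nonneg (sq_nonneg _), pow_two] at h2
  rw [nn_eq_norm hg]
  by_contra hlt
  push Not at hlt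
  have h3 : 0 < ‖hg.toLp g‖ := lt_of_le_of_lt hM hlt
  exact absurd (le_of_mul_le_mul_right h2 h3) (not_le.mpr hlt)

/-- The submodule of test functions. -/
def testSub (V : Type*) [NormedAddCommGroup V] [InnerProductSpace ℝ V] : Submodule ℝ (V → ℝ) where
  carrier := {φ | Test φ}
  add_mem' := fun ha hb => Test.add ha hb
  zero_mem' := ⟨contDiff_const, HasCompactSupport.zero⟩
  smul_mem' := fun c _ h => h.const_mul c

/-- Riesz representation for functionals on test functions bounded in L². -/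
theorem exists_repr (Λ : testSub V →ₗ[ℝ] ℝ) {C : ℝ} (hC : 0 ≤ C)
    (h : ∀ φ : testSub V, |Λ φ| ≤ C * nn (φ : V → ℝ)) :
    ∃ v : V → ℝ, MemLp v 2 (volume : Measure V) ∧
      ∀ φ : testSub V, Λ φ = ∫ x, v x * (φ : V → ℝ) x := by
  classical
  let ι : testSub V →ₗ[ℝ] Lp ℝ 2 (volume : Measure V) :=
    { toFun := fun φ => (Test.memLp φ.2 (2 : ℝ≥0∞)).toLp (φ : V → ℝ)
      map_add' := by
        intro a b
        rw [← MemLp.toLp_add]
        rfl
      map_smul' := by
        intro c a
        rw [RingHom.id_apply, ← MemLp.toLp_const_smul]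
        rfl }
  have hι : ∀ φ : testSub V, ‖ι φ‖ = nn (φ : V → ℝ) := fun φ =>
    (nn_eq_norm (Test.memLp φ.2 (2 : ℝ≥0∞))).symm
  have hker : LinearMap.ker ι ≤ LinearMap.ker Λ := by
    intro φ hφ
    rw [LinearMap.mem_ker] at hφ ⊢
    have h1 := h φ
    rw [← hι φ, hφ, norm_zero, mul_zero] at h1
    exact abs_eq_zero.mp (le_antisymm h1 (abs_nonneg _))
  -- factor through the range
  obtain ⟨g, hg⟩ : ∃ g : LinearMap.range ι →ₗ[ℝ] ℝ, ∀ φ, g (ι.rangeRestrict φ) = Λ φ := by
    refine ⟨(LinearMap.ker ι).liftQ Λ hker ∘ₗ (ι.quotKerEquivRange.symm : _ →ₗ[ℝ] _), ?_⟩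
    intro φ
    simp only [LinearMap.comp_apply]
    have : (ι.quotKerEquivRange.symm : _ →ₗ[ℝ] _) (ι.rangeRestrict φ) =
        (LinearMap.ker ι).mkQ φ := by
      simp only [LinearEquiv.coe_coe]
      rw [LinearEquiv.symm_apply_eq]
      rfl
    rw [this]
    simp
  have hgb : ∀ y : LinearMap.range ι, ‖g y‖ ≤ C * ‖y‖ := by
    rintro ⟨y, φ, rfl⟩
    have := hg φ
    have h2 : g ⟨ι φ, ⟨φ, rfl⟩⟩ = Λ φ := this
    rw [h2, Real.norm_eq_abs]
    have h3 : ‖(⟨ι φ, ⟨φ, rfl⟩⟩ : LinearMap.range ι)‖ = nn (φ : V → ℝ) := hι φ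
    rw [h3]
    exact h φ
  let G : StrongDual ℝ (LinearMap.range ι) := g.mkContinuous C hgb
  obtain ⟨G', hG', -⟩ := exists_extension_norm_eq (LinearMap.range ι) G
  let v' := (InnerProductSpace.toDual ℝ (Lp ℝ 2 (volume : Measure V))).symm G'
  refine ⟨v', Lp.memLp v', ?_⟩
  intro φ
  have h4 : G' (ι φ) = Λ φ := by
    have := hG' ⟨ι φ, ⟨φ, rfl⟩⟩
    rw [this]
    exact hg φ
  have h5 : ⟪v', ι φ⟫ = Λ φ := by
    rw [← h4]
    exact InnerProductSpace.toDual_symm_apply
  rw [← h5]
  have hm := Test.memLp φ.2 (2 : ℝ≥0∞)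
  have h6 := integral_mul_eq_inner (Lp.memLp v') hm
  rw [h6]
  congr 1
  exact (Lp.toLp_coeFn v' (Lp.memLp v')).symm

end Crest.Agent.R249.EV
end

-- ▼ part R249/EVDQ_330
section

/-! (copy of Crest/Agent/R202/EllDQ in the namespace R249.EV, to avoid the name clash with R202/Ell1..Ell7; helper330)
Row 202: elliptic regularity, part 2: convolution with test functions, difference quotients,
extension of weak equations to compactly supported H¹ test functions. -/

set_option autoImplicit false
open MeasureTheory Filter Topology Set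
open scoped ENNReal NNReal ContDiff RealInnerProductSpace Convolution

namespace Crest.Agent.R249.EV

variable {V : Type*} [NormedAddCommGroup V] [InnerProductSpace ℝ V] [FiniteDimensional ℝ V]
  [MeasurableSpace V] [BorelSpace V]

/-- convolution of `u` with a test function -/
noncomputable def cv (u ρ : V → ℝ) (y : V) : ℝ := ∫ x, u x * ρ (y - x)

theorem cv_eq (u ρ : V → ℝ) : cv u ρ = (u ⋆[ContinuousLinearMap.mul ℝ ℝ, volume] ρ) := by
  ext y; rfl

theorem contDiff_cv {u ρ : V → ℝ} (hu : LocallyIntegrable u volume) (hρ : Test ρ) :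
    ContDiff ℝ ∞ (cv u ρ) := by
  rw [cv_eq]
  exact hρ.2.contDiff_convolution_right _ hu hρ.1

theorem dd_cv {u ρ : V → ℝ} (hu : LocallyIntegrable u volume) (hρ : Test ρ) (e y : V) :
    dd e (cv u ρ) y = cv u (dd e ρ) y := by
  unfold dd
  rw [cv_eq, (hρ.2.hasFDerivAt_convolution_right _ hu (hρ.1.of_le (by simp)) y).fderiv,
    convolution_precompR_apply _ hu (hρ.2.fderiv (𝕜 := ℝ)) (hρ.1.continuous_fderiv (by simp))]
  rfl

omit [MeasurableSpace V] [BorelSpace V] [FiniteDimensional ℝ V] in
theorem Test.reflect {φ : V → ℝ} (h : Test φ) (a : V) : Test (fun x => φ (a - x)) := by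
  refine ⟨h.1.comp (contDiff_const.sub contDiff_id), ?_⟩
  exact h.2.comp_homeomorph (Homeomorph.subLeft a)

omit [MeasurableSpace V] [BorelSpace V] [FiniteDimensional ℝ V] in
theorem dd_reflect {φ : V → ℝ} (h : Test φ) (e a x : V) :
    dd e (fun x => φ (a - x)) x = - dd e φ (a - x) := by
  unfold dd
  have h1 : HasFDerivAt φ (fderiv ℝ φ (a - x)) (a - x) :=
    (h.1.differentiable (by simp) (a - x)).hasFDerivAt
  have h2 : HasFDerivAt (fun x : V => a - x) (-(ContinuousLinearMap.id ℝ V)) x := by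
    have h0 := (hasFDerivAt_id (𝕜 := ℝ) x).const_sub a
    exact h0
  have h3 := h1.comp x h2
  have h4 : fderiv ℝ (fun x => φ (a - x)) x =
    (fderiv ℝ φ (a - x)).comp (-(ContinuousLinearMap.id ℝ V)) := h3.fderiv
  rw [h4]
  simp

theorem dd_cv_WD {u v ρ : V → ℝ} (hu : LocallyIntegrable u volume) (hρ : Test ρ) {e : V}
    (h : WD e u v) (y : V) : dd e (cv u ρ) y = cv v ρ y := by
  rw [dd_cv hu hρ]
  have h1 := h _ (hρ.reflect y)
  simp_rw [dd_reflect hρ] at h1
  simp only [mul_neg, integral_neg, neg_inj] at h1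
  exact h1

theorem hasCompactSupport_cv {u ρ : V → ℝ} (hu : HasCompactSupport u) (hρ : HasCompactSupport ρ) :
    HasCompactSupport (cv u ρ) := by
  rw [cv_eq]
  exact HasCompactSupport.convolution _ hu hρ

/-- The pairing of `u` with a translated test function is differentiable. -/
theorem hasDerivAt_pair {u φ : V → ℝ} (hu : LocallyIntegrable u volume) (hφ : Test φ) (e : V)
    (s : ℝ) : HasDerivAt (fun s : ℝ => ∫ x, u x * φ (x + s • e))
      (∫ x, u x * dd e φ (x + s • e)) s := by
  -- F s = cv u φˇ (-(s e))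
  set ρ : V → ℝ := fun x => φ (0 - x) with hρdef
  have hρ : Test ρ := hφ.reflect 0
  have hF : (fun s : ℝ => ∫ x, u x * φ (x + s • e)) = fun s : ℝ => cv u ρ (-(s • e)) := by
    ext s
    unfold cv
    congr 1; ext x
    simp only [hρdef]
    congr 2
    abel
  rw [hF]
  have h1 : HasFDerivAt (cv u ρ) (fderiv ℝ (cv u ρ) (-(s • e))) (-(s • e)) :=
    ((contDiff_cv hu hρ).differentiable (by simp) _).hasFDerivAt
  have h2 : HasDerivAt (fun s : ℝ => -(s • e)) (-e) s := by
    have h0 := ((hasDerivAt_id s).smul_const e).fun_neg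
    simpa using h0
  have h3 := h1.comp_hasDerivAt s h2
  have h4 : fderiv ℝ (cv u ρ) (-(s • e)) (-e) = ∫ x, u x * dd e φ (x + s • e) := by
    rw [map_neg]
    have := dd_cv hu hρ e (-(s • e))
    unfold dd at this
    rw [this]
    unfold cv
    rw [← integral_neg]
    congr 1; ext x
    have h5 := dd_reflect hφ e 0 (-(s • e) - x)
    have h6 : (fderiv ℝ ρ (-(s • e) - x)) e = dd e ρ (-(s • e) - x) := rfl
    show -(u x * (fderiv ℝ ρ (-(s • e) - x)) e) = _
    rw [h6, hρdef, h5]
    have : (0 : V) - (-(s • e) - x) = x + s • e := by abel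
    rw [this]
    ring
  rw [← h4]
  exact h3

theorem integral_shift (f g : V → ℝ) (a : V) :
    ∫ x, f (x + a) * g x = ∫ x, f x * g (x - a) := by
  have := integral_sub_right_eq_self (μ := (volume : Measure V)) (fun x => f (x + a) * g x) a
  rw [← this]
  simp

/-- pairing of the difference with a test function -/
theorem pair_diff {ψ φ : V → ℝ} (hψ : MemLp ψ 2 (volume : Measure V)) (hφ : Test φ) (e : V)
    (h : ℝ) : ∫ x, (ψ (x + h • e) - ψ x) * φ x =
      (∫ x, ψ x * φ (x + (-h) • e)) - ∫ x, ψ x * φ (x + (0 : ℝ) • e) := by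
  have h1 : Integrable (fun x => ψ (x + h • e) * φ x) volume :=
    (memLp_comp_add hψ _).integrable_mul (hφ.memLp 2)
  have h2 : Integrable (fun x => ψ x * φ x) volume := hψ.integrable_mul (hφ.memLp 2)
  simp_rw [sub_mul]
  rw [integral_sub h1 h2, integral_shift]
  simp [sub_eq_add_neg]

/-- **Difference quotient bound.** -/
theorem nn_diff_le {ψ v : V → ℝ} (hψ : MemLp ψ 2 (volume : Measure V))
    (hv : MemLp v 2 (volume : Measure V)) {e : V} (hw : WD e ψ v) (h : ℝ) :
    nn (fun x => ψ (x + h • e) - ψ x) ≤ |h| * nn v := by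
  apply nn_le_of_test ((memLp_comp_add hψ _).sub hψ) (by positivity [nn_nonneg v])
  intro φ hφ
  show |∫ x, (ψ (x + h • e) - ψ x) * φ x| ≤ _
  rw [pair_diff hψ hφ]
  have hloc : LocallyIntegrable ψ volume := hψ.locallyIntegrable (by norm_num)
  have hder : ∀ s : ℝ, HasDerivAt (fun s : ℝ => ∫ x, ψ x * φ (x + s • e))
      (- ∫ x, v x * φ (x + s • e)) s := by
    intro s
    have h1 := hasDerivAt_pair hloc hφ e s
    have h2 := hw _ (hφ.comp_add (s • e))
    simp_rw [dd_comp_add] at h2
    rw [h2] at h1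
    exact h1
  have hb : ∀ s : ℝ, ‖- ∫ x, v x * φ (x + s • e)‖ ≤ nn v * nn φ := by
    intro s
    rw [norm_neg, Real.norm_eq_abs]
    have := abs_integral_mul_le hv (memLp_comp_add (hφ.memLp 2) (s • e))
    rwa [nn_comp_add] at this
  have := Convex.norm_image_sub_le_of_norm_hasDerivWithin_le (s := univ) (x := 0) (y := -h)
    (fun s _ => (hder s).hasDerivWithinAt) (fun s _ => hb s) convex_univ (mem_univ _) (mem_univ _)
  rw [Real.norm_eq_abs] at this
  refine this.trans (le_of_eq ?_)
  simp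
  ring

/-- **Existence of the weak derivative from bounded difference quotients.** -/
theorem exists_WD_of_diff {ψ : V → ℝ} (hψ : MemLp ψ 2 (volume : Measure V)) (e : V) {C : ℝ}
    (hC : 0 ≤ C) (hb : ∀ h : ℝ, nn (fun x => ψ (x + h • e) - ψ x) ≤ |h| * C) :
    ∃ v : V → ℝ, MemLp v 2 (volume : Measure V) ∧ WD e ψ v := by
  have hloc : LocallyIntegrable ψ volume := hψ.locallyIntegrable (by norm_num)
  have hmul : ∀ φ : V → ℝ, Test φ → Integrable (fun x => ψ x * dd e φ x) volume := fun φ hφ =>
    hψ.integrable_mul ((hφ.dd e).memLp 2)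
  let Λ : testSub V →ₗ[ℝ] ℝ :=
    { toFun := fun φ => - ∫ x, ψ x * dd e (φ : V → ℝ) x
      map_add' := by
        intro a b
        rw [← neg_add, ← integral_add (hmul _ a.2) (hmul _ b.2)]
        congr 2; ext x
        have : dd e (((a + b : testSub V) : V → ℝ)) x = dd e (a : V → ℝ) x + dd e (b : V → ℝ) x := by
          unfold dd
          have := fderiv_add (𝕜 := ℝ) (a.2.1.differentiable (by simp) x)
            (b.2.1.differentiable (by simp) x)
          have h2 : ((a + b : testSub V) : V → ℝ) = (a : V → ℝ) + (b : V → ℝ) := rfl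
          rw [h2, this]; rfl
        rw [this]; ring
      map_smul' := by
        intro c a
        rw [RingHom.id_apply, smul_eq_mul, mul_neg, ← integral_const_mul]
        congr 2; ext x
        have : dd e (((c • a : testSub V) : V → ℝ)) x = c * dd e (a : V → ℝ) x := by
          unfold dd
          have := fderiv_const_smul (𝕜 := ℝ) (a.2.1.differentiable (by simp) x) c
          have h2 : ((c • a : testSub V) : V → ℝ) = c • (a : V → ℝ) := rfl
          rw [h2, this]; rfl
        rw [this]; ring }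
  obtain ⟨v, hv, hv'⟩ := exists_repr Λ hC (by
    rintro ⟨φ, hφ⟩
    show |-∫ x, ψ x * dd e φ x| ≤ C * nn φ
    rw [abs_neg]
    have h0 := hasDerivAt_pair hloc hφ e 0
    simp only [zero_smul, add_zero] at h0
    have := h0.hasFDerivAt.le_of_lip' (C := C * nn φ) (mul_nonneg hC (nn_nonneg _)) (by
      refine Eventually.of_forall fun s => ?_
      have h1 := pair_diff hψ hφ e (-s)
      simp only [neg_neg] at h1
      rw [← h1, Real.norm_eq_abs]
      refine (abs_integral_mul_le ((memLp_comp_add hψ _).sub hψ) (hφ.memLp 2)).trans ?_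
      have h2 := mul_le_mul_of_nonneg_right (hb (-s)) (nn_nonneg φ)
      refine h2.trans (le_of_eq ?_)
      rw [sub_zero, Real.norm_eq_abs, abs_neg]
      ring)
    simpa using this)
  refine ⟨v, hv, fun φ hφ => ?_⟩
  have := hv' ⟨φ, hφ⟩
  simp only [LinearMap.coe_mk, AddHom.coe_mk, Λ] at this
  rw [← this, neg_neg]

/-! ### extension of weak equations to compactly supported H¹ test functions -/

theorem continuous_pair_shift {G g : V → ℝ} (hG : MemLp G 2 (volume : Measure V))
    (hg : MemLp g 2 (volume : Measure V)) : Continuous (fun y : V => ∫ x, G x * g (x - y)) := by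
  have h1 : ∀ y : V, ∫ x, G x * g (x - y) =
      ⟪hG.toLp G, (DomAddAct.mk (-y)) +ᵥ (hg.toLp g)⟫ := by
    intro y
    rw [DomAddAct.mk_vadd_toLp, ← integral_mul_eq_inner]
    congr 1; ext x
    congr 2
    simp only [vadd_eq_add]
    abel
  simp_rw [h1]
  have : Fact ((2 : ℝ≥0∞) ≠ ⊤) := ⟨by norm_num⟩
  have hc : Continuous fun y : V => (DomAddAct.mk (-y)) +ᵥ (hg.toLp g) := by
    have h2 : Continuous fun y : V => DomAddAct.mk (-y) :=
      DomAddAct.continuous_mk.comp continuous_neg
    exact h2.vadd continuous_const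
  fun_prop

theorem integrable_tri {G g ρ : V → ℝ} (hG : MemLp G 2 (volume : Measure V))
    (hg : MemLp g 2 (volume : Measure V)) (hρ : Test ρ) :
    Integrable (fun p : V × V => G p.1 * (ρ p.2 * g (p.1 - p.2))) (volume.prod volume) := by
  have hm1 : AEStronglyMeasurable (fun p : V × V => ρ p.2 * g (p.1 - p.2))
      ((volume : Measure V).prod volume) := by
    have := AEStronglyMeasurable.convolution_integrand (ContinuousLinearMap.mul ℝ ℝ)
      (μ := (volume : Measure V)) (ν := volume) hρ.continuous.aestronglyMeasurable hg.1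
    exact this
  have hm : AEStronglyMeasurable (fun p : V × V => G p.1 * (ρ p.2 * g (p.1 - p.2)))
      ((volume : Measure V).prod volume) := hG.1.comp_fst.mul hm1
  have hi1 : Integrable (fun p : V × V => (G p.1 ^ 2) * ‖ρ p.2‖)
      ((volume : Measure V).prod volume) := hG.integrable_sq.mul_prod hρ.integrable.norm
  have hi2 : Integrable (fun p : V × V => ‖ρ p.2‖ * (g (p.1 - p.2)) ^ 2)
      ((volume : Measure V).prod volume) := by
    have := Integrable.convolution_integrand (ContinuousLinearMap.mul ℝ ℝ)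
      (μ := (volume : Measure V)) (ν := volume) hρ.integrable.norm hg.integrable_sq
    exact this
  refine (hi1.add hi2).mono' hm (Eventually.of_forall fun p => ?_)
  simp only [Pi.add_apply, norm_mul, Real.norm_eq_abs]
  have h1 : 0 ≤ |ρ p.2| := abs_nonneg _
  have h2 : |G p.1| * |g (p.1 - p.2)| ≤ G p.1 ^ 2 + g (p.1 - p.2) ^ 2 := by
    have e1 := sq_abs (G p.1)
    have e2 := sq_abs (g (p.1 - p.2))
    nlinarith [sq_nonneg (|G p.1| - |g (p.1 - p.2)|), abs_nonneg (G p.1),
      abs_nonneg (g (p.1 - p.2))]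
  nlinarith [mul_le_mul_of_nonneg_left h2 h1]

theorem fubini_cv {G g ρ : V → ℝ} (hG : MemLp G 2 (volume : Measure V))
    (hg : MemLp g 2 (volume : Measure V)) (hρ : Test ρ) :
    ∫ x, G x * cv g ρ x = ∫ y, ρ y * ∫ x, G x * g (x - y) := by
  have h1 : ∀ x, G x * cv g ρ x = ∫ y, G x * (ρ y * g (x - y)) := by
    intro x
    rw [integral_const_mul]
    congr 1
    unfold cv
    rw [← integral_sub_left_eq_self (fun t => g t * ρ (x - t)) volume x]
    congr 1; ext y
    rw [sub_sub_cancel]; ring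
  simp_rw [h1]
  rw [integral_integral_swap (integrable_tri hG hg hρ)]
  congr 1; ext y
  rw [← integral_const_mul]
  congr 1; ext x
  ring

theorem testExt {ι : Type*} [Fintype ι] (e : ι → V) (G : ι → V → ℝ) (f : V → ℝ)
    (hG : ∀ i, MemLp (G i) 2 (volume : Measure V)) (hf : MemLp f 2 (volume : Measure V))
    (h : ∀ φ : V → ℝ, Test φ → ∑ i, ∫ x, G i x * dd (e i) φ x = ∫ x, f x * φ x)
    (ψ : V → ℝ) (ψ' : ι → V → ℝ) (hψ : MemLp ψ 2 (volume : Measure V))
    (hψc : HasCompactSupport ψ) (hψ' : ∀ i, MemLp (ψ' i) 2 (volume : Measure V))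
    (hw : ∀ i, WD (e i) ψ (ψ' i)) : ∑ i, ∫ x, G i x * ψ' i x = ∫ x, f x * ψ x := by
  set c : V → ℝ := fun y => (∑ i, ∫ x, G i x * ψ' i (x - y)) - ∫ x, f x * ψ (x - y) with hc
  have hcont : Continuous c := by
    apply Continuous.sub
    · exact continuous_finsetSum _ fun i _ => continuous_pair_shift (hG i) (hψ' i)
    · exact continuous_pair_shift hf hψ
  have hloc : LocallyIntegrable ψ volume := hψ.locallyIntegrable (by norm_num)
  have h0 : ∀ᵐ y ∂(volume : Measure V), c y = 0 := by
    apply ae_eq_zero_of_integral_contDiff_smul_eq_zero hcont.locallyIntegrable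
    intro ρ hρ hρc
    have hT : Test ρ := ⟨hρ, hρc⟩
    have h1 := h (cv ψ ρ) ⟨contDiff_cv hloc hT, hasCompactSupport_cv hψc hρc⟩
    simp_rw [dd_cv_WD hloc hT (hw _)] at h1
    simp_rw [fun i => fubini_cv (hG i) (hψ' i) hT] at h1
    rw [fubini_cv hf hψ hT] at h1
    simp only [hc, smul_eq_mul, mul_sub, Finset.mul_sum]
    have hint : ∀ {G g : V → ℝ}, MemLp G 2 (volume : Measure V) → MemLp g 2 (volume : Measure V) →
        Integrable (fun y => ρ y * ∫ x, G x * g (x - y)) volume := by
      intro G g hG hg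
      exact (hT.continuous.mul (continuous_pair_shift hG hg)).integrable_of_hasCompactSupport
        hρc.mul_right
    rw [integral_sub (integrable_finsetSum _ fun i _ => hint (hG i) (hψ' i)) (hint hf hψ),
      integral_finsetSum _ fun i _ => hint (hG i) (hψ' i), h1, sub_self]
  have h2 : c = fun _ => 0 := (hcont.ae_eq_iff_eq volume continuous_const).mp h0
  have h3 := congrFun h2 0
  simp only [hc, sub_zero] at h3
  linarith

end Crest.Agent.R249.EV
end

-- ▼ part R249/EVReg_330
section

/-! (copy of Crest/Agent/R202/EllReg in the namespace R249.EV, to avoid the name clash with R202/Ell1..Ell7; helper330)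
Row 202: elliptic regularity, part 3: H² regularity, Leibniz rule, the spaces `Sob k`. -/

set_option autoImplicit false
open MeasureTheory Filter Topology Set
open scoped ENNReal NNReal ContDiff RealInnerProductSpace Convolution

namespace Crest.Agent.R249.EV

variable {V : Type*} [NormedAddCommGroup V] [InnerProductSpace ℝ V] [FiniteDimensional ℝ V]
  [MeasurableSpace V] [BorelSpace V]

theorem WD.shift {e : V} {u v : V → ℝ} (h : WD e u v) (a : V) :
    WD e (fun x => u (x + a)) (fun x => v (x + a)) := by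
  intro φ hφ
  rw [integral_shift, integral_shift]
  have := h _ (hφ.comp_add (-a))
  simp_rw [dd_comp_add] at this
  simpa [sub_eq_add_neg] using this

theorem WD.sub {e : V} {u v u' v' : V → ℝ} (h : WD e u v) (h' : WD e u' v')
    (hu : LocallyIntegrable u volume) (hv : LocallyIntegrable v volume)
    (hu' : LocallyIntegrable u' volume) (hv' : LocallyIntegrable v' volume) :
    WD e (fun x => u x - u' x) (fun x => v x - v' x) := by
  intro φ hφ
  have i1 : ∀ {g ψ : V → ℝ}, LocallyIntegrable g volume → Test ψ →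
      Integrable (fun x => g x * ψ x) volume := by
    intro g ψ hg hψ
    have := hg.integrable_smul_left_of_hasCompactSupport hψ.continuous hψ.2
    simpa [mul_comm] using this
  simp_rw [sub_mul]
  rw [integral_sub (i1 hu (hφ.dd e)) (i1 hu' (hφ.dd e)), integral_sub (i1 hv hφ) (i1 hv' hφ),
    h φ hφ, h' φ hφ]
  ring

theorem integrable_loc_mul {g ψ : V → ℝ} (hg : LocallyIntegrable g (volume : Measure V))
    (hψ : Test ψ) : Integrable (fun x => g x * ψ x) volume := by
  have := hg.integrable_smul_left_of_hasCompactSupport hψ.continuous hψ.2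
  simpa [mul_comm] using this

theorem locInt {f : V → ℝ} (hf : MemLp f 2 (volume : Measure V)) :
    LocallyIntegrable f volume := hf.locallyIntegrable (by norm_num)

/-- **H² regularity.** -/
theorem h2_reg {ι : Type*} [Fintype ι] (e : ι → V) (a : ι → ι → V → ℝ) {lam A L : ℝ}
    (hlam : 0 < lam)
    (hell : ∀ (x : V) (ξ : ι → ℝ), lam * ∑ i, ξ i ^ 2 ≤ ∑ i, ∑ j, a i j x * ξ j * ξ i)
    (hac : ∀ i j, Continuous (a i j)) (hA : ∀ i j x, |a i j x| ≤ A)
    (hL0 : 0 ≤ L) (hL : ∀ i j x y, |a i j x - a i j y| ≤ L * ‖x - y‖)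
    {w f : V → ℝ} {w' : ι → V → ℝ} (hw2 : MemLp w 2 (volume : Measure V))
    (hwc : HasCompactSupport w) (hw'2 : ∀ i, MemLp (w' i) 2 (volume : Measure V))
    (hw' : ∀ i, WD (e i) w (w' i)) (hf : MemLp f 2 (volume : Measure V))
    (heq : ∀ φ : V → ℝ, Test φ →
      ∑ i, ∫ x, (∑ j, a i j x * w' j x) * dd (e i) φ x = ∫ x, f x * φ x) (i k : ι) :
    ∃ v : V → ℝ, MemLp v 2 (volume : Measure V) ∧ WD (e k) (w' i) v := by
  classical
  have hG : ∀ i, MemLp (fun x => ∑ j, a i j x * w' j x) 2 (volume : Measure V) := fun i =>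
    memLp_finsetSum _ fun j _ => memLp_bdd_mul (hA i j) (hac i j) (hw'2 j)
  set N : ℝ := ∑ j, nn (w' j) with hN
  have hN0 : 0 ≤ N := Finset.sum_nonneg fun j _ => nn_nonneg _
  set M : ℝ := nn f + L * ‖e k‖ * N with hM
  have hM0 : 0 ≤ M := by have := nn_nonneg f; positivity
  set C : ℝ := (Fintype.card ι : ℝ) * M / lam with hCdef
  have hC0 : 0 ≤ C := by positivity
  apply exists_WD_of_diff (hw'2 i) (e k) hC0
  intro h
  set τ : V := h • e k with hτ
  -- differences
  let Dl : (V → ℝ) → V → ℝ := fun g x => g (x + τ) - g x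
  let Dm : (V → ℝ) → V → ℝ := fun g x => g (x + (-τ)) - g x
  have hDl : ∀ {g : V → ℝ}, MemLp g 2 (volume : Measure V) → MemLp (Dl g) 2 volume :=
    fun hg => (memLp_comp_add hg _).sub hg
  have hDm : ∀ {g : V → ℝ}, MemLp g 2 (volume : Measure V) → MemLp (Dm g) 2 volume :=
    fun hg => (memLp_comp_add hg _).sub hg
  have hDlW : ∀ {g g' : V → ℝ} {v : V}, MemLp g 2 (volume : Measure V) →
      MemLp g' 2 (volume : Measure V) → WD v g g' → WD v (Dl g) (Dl g') := by
    intro g g' v h1 h2 h3
    exact (h3.shift τ).sub h3 (locInt (memLp_comp_add h1 _)) (locInt (memLp_comp_add h2 _))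
      (locInt h1) (locInt h2)
  have hDmW : ∀ {g g' : V → ℝ} {v : V}, MemLp g 2 (volume : Measure V) →
      MemLp g' 2 (volume : Measure V) → WD v g g' → WD v (Dm g) (Dm g') := by
    intro g g' v h1 h2 h3
    exact (h3.shift (-τ)).sub h3 (locInt (memLp_comp_add h1 _)) (locInt (memLp_comp_add h2 _))
      (locInt h1) (locInt h2)
  -- discrete integration by parts
  have hparts : ∀ {g p : V → ℝ}, MemLp g 2 (volume : Measure V) → MemLp p 2 (volume : Measure V) →
      ∫ x, g x * Dm p x = ∫ x, Dl g x * p x := by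
    intro g p hg hp
    have i1 := (integrable_mul hg (memLp_comp_add hp (-τ)))
    have i2 := integrable_mul hg hp
    have i3 := integrable_mul (memLp_comp_add hg τ) hp
    simp only [Dm, Dl, mul_sub, sub_mul]
    rw [integral_sub i1 i2, integral_sub i3 i2, integral_shift]
    simp [sub_eq_add_neg]
  -- the compactly supported test function
  have hc1 : HasCompactSupport (Dl w) := by
    have h1 : HasCompactSupport (fun x => w (x + τ)) := hwc.comp_homeomorph (Homeomorph.addRight τ)
    exact h1.sub hwc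
  have hc2 : HasCompactSupport (Dm (Dl w)) := by
    have h1 : HasCompactSupport (fun x => (Dl w) (x + (-τ))) :=
      hc1.comp_homeomorph (Homeomorph.addRight (-τ))
    exact h1.sub hc1
  have key := testExt e _ f hG hf heq (Dm (Dl w)) (fun i => Dm (Dl (w' i)))
    (hDm (hDl hw2)) hc2 (fun i => hDm (hDl (hw'2 i)))
    (fun i => hDmW (hDl hw2) (hDl (hw'2 i)) (hDlW hw2 (hw'2 i) (hw' i)))
  simp_rw [fun i => hparts (hG i) (hDl (hw'2 i))] at key
  -- expand
  have hexp : ∀ i x, Dl (fun x => ∑ j, a i j x * w' j x) x * Dl (w' i) x =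
      ∑ j, (a i j (x + τ) * Dl (w' j) x * Dl (w' i) x + Dl (a i j) x * (w' j x) * Dl (w' i) x) := by
    intro i x
    simp only [Dl]
    rw [← Finset.sum_sub_distrib, Finset.sum_mul]
    refine Finset.sum_congr rfl fun j _ => ?_
    ring
  have hbda : ∀ i j x, |Dl (a i j) x| ≤ L * (|h| * ‖e k‖) := by
    intro i j x
    have := hL i j (x + τ) x
    simp only [add_sub_cancel_left] at this
    rw [hτ, norm_smul, Real.norm_eq_abs] at this
    exact this
  have hDac : ∀ i j, Continuous (Dl (a i j)) := fun i j => by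
    have := hac i j
    simp only [Dl]; fun_prop
  have hm1 : ∀ i j, Integrable (fun x => a i j (x + τ) * Dl (w' j) x * Dl (w' i) x)
      (volume : Measure V) := by
    intro i j
    have h1 : MemLp (fun x => a i j (x + τ) * Dl (w' j) x) 2 (volume : Measure V) :=
      memLp_bdd_mul (C := A) (fun x => hA i j (x + τ)) (by have := hac i j; fun_prop)
        (hDl (hw'2 j))
    exact integrable_mul h1 (hDl (hw'2 i))
  have hmem2 : ∀ i j, MemLp (fun x => Dl (a i j) x * w' j x) 2 (volume : Measure V) :=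
    fun i j => memLp_bdd_mul (hbda i j) (hDac i j) (hw'2 j)
  have hm2 : ∀ i j, Integrable (fun x => Dl (a i j) x * (w' j x) * Dl (w' i) x)
      (volume : Measure V) := fun i j => integrable_mul (hmem2 i j) (hDl (hw'2 i))
  have hsplit : ∑ i, ∫ x, Dl (fun x => ∑ j, a i j x * w' j x) x * Dl (w' i) x =
      (∫ x, ∑ i, ∑ j, a i j (x + τ) * Dl (w' j) x * Dl (w' i) x) +
      ∑ i, ∑ j, ∫ x, Dl (a i j) x * (w' j x) * Dl (w' i) x := by
    simp_rw [hexp]
    rw [integral_finsetSum _ fun i _ => integrable_finsetSum _ fun j _ => hm1 i j,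
      ← Finset.sum_add_distrib]
    refine Finset.sum_congr rfl fun i _ => ?_
    have hm12 : ∀ j, Integrable (fun x => a i j (x + τ) * Dl (w' j) x * Dl (w' i) x +
        Dl (a i j) x * (w' j x) * Dl (w' i) x) (volume : Measure V) :=
      fun j => (hm1 i j).add (hm2 i j)
    rw [integral_finsetSum _ fun j _ => hm12 j,
      integral_finsetSum _ fun j _ => hm1 i j, ← Finset.sum_add_distrib]
    refine Finset.sum_congr rfl fun j _ => ?_
    exact integral_add (hm1 i j) (hm2 i j)
  rw [hsplit] at key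
  -- coercivity
  have hcoer : lam * ∑ i, nn (Dl (w' i)) ^ 2 ≤
      ∫ x, ∑ i, ∑ j, a i j (x + τ) * Dl (w' j) x * Dl (w' i) x := by
    simp_rw [nn_sq]
    rw [← integral_finsetSum _ fun i _ => (hDl (hw'2 i)).integrable_sq, ← integral_const_mul]
    apply integral_mono
    · exact (integrable_finsetSum _ fun i _ => (hDl (hw'2 i)).integrable_sq).const_mul _
    · exact integrable_finsetSum _ fun i _ => integrable_finsetSum _ fun j _ => hm1 i j
    · intro x
      exact hell (x + τ) (fun i => Dl (w' i) x)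
  -- bounds of the right hand side
  have hb1 : |∫ x, f x * Dm (Dl w) x| ≤ nn f * (|h| * nn (Dl (w' k))) := by
    refine (abs_integral_mul_le hf (hDm (hDl hw2))).trans ?_
    apply mul_le_mul_of_nonneg_left _ (nn_nonneg _)
    have := nn_diff_le (hDl hw2) (hDl (hw'2 k)) (hDlW hw2 (hw'2 k) (hw' k)) (-h)
    rw [abs_neg] at this
    have h2 : (fun x => Dl w (x + (-h) • e k) - Dl w x) = Dm (Dl w) := by
      ext x; simp only [Dm, hτ, neg_smul]
    rw [h2] at this
    exact this
  have hb2 : ∀ i j, |∫ x, Dl (a i j) x * (w' j x) * Dl (w' i) x| ≤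
      |h| * (L * ‖e k‖) * (nn (w' j) * nn (Dl (w' i))) := by
    intro i j
    refine (abs_integral_mul_le (hmem2 i j) (hDl (hw'2 i))).trans ?_
    have := nn_bdd_mul_le (by positivity) (hbda i j) (hw'2 j)
    refine (mul_le_mul_of_nonneg_right this (nn_nonneg _)).trans (le_of_eq ?_)
    ring
  set S : ℝ := ∑ i, nn (Dl (w' i)) with hS
  have hS0 : 0 ≤ S := Finset.sum_nonneg fun i _ => nn_nonneg _
  have hkS : nn (Dl (w' k)) ≤ S :=
    Finset.single_le_sum (f := fun i => nn (Dl (w' i))) (fun i _ => nn_nonneg _) (Finset.mem_univ k)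
  have hb3 : |∑ i, ∑ j, ∫ x, Dl (a i j) x * (w' j x) * Dl (w' i) x| ≤
      |h| * (L * ‖e k‖) * (N * S) := by
    refine (Finset.abs_sum_le_sum_abs _ _).trans ?_
    have : |h| * (L * ‖e k‖) * (N * S) = ∑ i, ∑ j, |h| * (L * ‖e k‖) *
        (nn (w' j) * nn (Dl (w' i))) := by
      simp_rw [← Finset.mul_sum, ← Finset.sum_mul]
      rw [hN, hS, Finset.mul_sum]
    rw [this]
    refine Finset.sum_le_sum fun i _ => ?_
    refine (Finset.abs_sum_le_sum_abs _ _).trans ?_
    exact Finset.sum_le_sum fun j _ => hb2 i j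
  have hmain : lam * ∑ i, nn (Dl (w' i)) ^ 2 ≤ |h| * M * S := by
    have h1 := abs_le.mp hb1
    have h3 := abs_le.mp hb3
    have h4 : nn f * (|h| * nn (Dl (w' k))) ≤ nn f * (|h| * S) := by
      have := nn_nonneg f
      gcongr
    have h5 : lam * ∑ i, nn (Dl (w' i)) ^ 2 ≤ nn f * (|h| * S) + |h| * (L * ‖e k‖) * (N * S) := by
      linarith [h1.1, h1.2, h3.1, h3.2]
    refine h5.trans (le_of_eq ?_)
    rw [hM]; ring
  have hCS : S ^ 2 ≤ (Fintype.card ι : ℝ) * ∑ i, nn (Dl (w' i)) ^ 2 := by
    have := sq_sum_le_card_mul_sum_sq (s := (Finset.univ : Finset ι))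
      (f := fun i => nn (Dl (w' i)))
    simpa using this
  have hfin : lam * S ≤ (Fintype.card ι : ℝ) * (|h| * M) := by
    rcases hS0.eq_or_lt with h0 | hpos
    · rw [← h0, mul_zero]; positivity
    · have h1 : lam * S ^ 2 ≤ (Fintype.card ι : ℝ) * (|h| * M * S) := by
        calc lam * S ^ 2 ≤ lam * ((Fintype.card ι : ℝ) * ∑ i, nn (Dl (w' i)) ^ 2) := by gcongr
          _ = (Fintype.card ι : ℝ) * (lam * ∑ i, nn (Dl (w' i)) ^ 2) := by ring
          _ ≤ (Fintype.card ι : ℝ) * (|h| * M * S) := by gcongr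
      have h2 : (lam * S) * S ≤ ((Fintype.card ι : ℝ) * (|h| * M)) * S := by
        calc (lam * S) * S = lam * S ^ 2 := by ring
          _ ≤ _ := h1
          _ = _ := by ring
      exact le_of_mul_le_mul_right h2 hpos
  have hi : nn (Dl (w' i)) ≤ S :=
    Finset.single_le_sum (f := fun i => nn (Dl (w' i))) (fun i _ => nn_nonneg _) (Finset.mem_univ i)
  have : S ≤ |h| * C := by
    rw [hCdef]
    have : |h| * ((Fintype.card ι : ℝ) * M / lam) = ((Fintype.card ι : ℝ) * (|h| * M)) / lam := by
      ring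
    rw [this, le_div_iff₀ hlam]
    linarith
  exact hi.trans this

end Crest.Agent.R249.EV
end

-- ▼ part R249/EVSobK_330
section

/-! (copy of Crest/Agent/R202/EllSobK in the namespace R249.EV, to avoid the name clash with R202/Ell1..Ell7; helper330)
Row 202: elliptic regularity, part 4: Leibniz rule, the spaces `Sob k`, higher regularity. -/

set_option autoImplicit false
open MeasureTheory Filter Topology Set
open scoped ENNReal NNReal ContDiff RealInnerProductSpace Convolution

namespace Crest.Agent.R249.EV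

variable {V : Type*} [NormedAddCommGroup V] [InnerProductSpace ℝ V] [FiniteDimensional ℝ V]
  [MeasurableSpace V] [BorelSpace V]

omit [MeasurableSpace V] [BorelSpace V] [FiniteDimensional ℝ V] in
theorem contDiff_dd {a : V → ℝ} (ha : ContDiff ℝ ∞ a) (e : V) : ContDiff ℝ ∞ (dd e a) :=
  (ha.fderiv_right (m := ∞) (by simp)).clm_apply contDiff_const

theorem locInt_smooth_mul {a u : V → ℝ} (ha : Continuous a) (hu : LocallyIntegrable u volume) :
    LocallyIntegrable (fun x => a x * u x) (volume : Measure V) := by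
  have := hu.continuous_smul ha
  exact this

/-- Leibniz rule for weak derivatives. -/
theorem WD.smooth_mul {e : V} {a u v : V → ℝ} (ha : ContDiff ℝ ∞ a)
    (hu : LocallyIntegrable u (volume : Measure V)) (hv : LocallyIntegrable v (volume : Measure V))
    (h : WD e u v) : WD e (fun x => a x * u x) (fun x => dd e a x * u x + a x * v x) := by
  intro φ hφ
  have h1 := h _ (hφ.smooth_mul ha)
  have hda := contDiff_dd ha e
  have e1 : ∀ x, u x * dd e (fun x => a x * φ x) x = u x * (dd e a x * φ x) +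
      a x * u x * dd e φ x := by
    intro x
    rw [dd_mul e (ha.differentiable (by simp)) (hφ.1.differentiable (by simp))]
    ring
  simp_rw [e1] at h1
  have i1 : Integrable (fun x => u x * (dd e a x * φ x)) (volume : Measure V) :=
    integrable_loc_mul hu (hφ.smooth_mul hda)
  have i2 : Integrable (fun x => a x * u x * dd e φ x) (volume : Measure V) :=
    integrable_loc_mul (locInt_smooth_mul ha.continuous hu) (hφ.dd e)
  have i3 : Integrable (fun x => v x * (a x * φ x)) (volume : Measure V) :=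
    integrable_loc_mul hv (hφ.smooth_mul ha)
  rw [integral_add i1 i2] at h1
  have h2 : ∫ x, (dd e a x * u x + a x * v x) * φ x =
      (∫ x, u x * (dd e a x * φ x)) + ∫ x, v x * (a x * φ x) := by
    rw [← integral_add i1 i3]
    congr 1; ext x; ring
  rw [h2]
  linarith

theorem WD.unique {e : V} {u v v' : V → ℝ} (h : WD e u v) (h' : WD e u v')
    (hv : LocallyIntegrable v volume) (hv' : LocallyIntegrable v' volume) :
    v =ᵐ[volume] v' := by
  apply ae_eq_of_integral_contDiff_smul_eq hv hv'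
  intro g hg hgc
  have h1 := h g ⟨hg, hgc⟩
  have h2 := h' g ⟨hg, hgc⟩
  simp only [smul_eq_mul]
  simp_rw [mul_comm (g _)]
  linarith

theorem WD.congr {e : V} {u u' v v' : V → ℝ} (h : WD e u v) (hu : u =ᵐ[volume] u')
    (hv : v =ᵐ[volume] v') : WD e u' v' := by
  intro φ hφ
  have h1 : ∫ x, u' x * dd e φ x = ∫ x, u x * dd e φ x := by
    apply integral_congr_ae
    filter_upwards [hu] with x hx
    rw [hx]
  have h2 : ∫ x, v' x * φ x = ∫ x, v x * φ x := by
    apply integral_congr_ae
    filter_upwards [hv] with x hx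
    rw [hx]
  rw [h1, h2]
  exact h φ hφ

theorem WD.add {e : V} {u v u' v' : V → ℝ} (h : WD e u v) (h' : WD e u' v')
    (hu : LocallyIntegrable u volume) (hv : LocallyIntegrable v volume)
    (hu' : LocallyIntegrable u' volume) (hv' : LocallyIntegrable v' volume) :
    WD e (fun x => u x + u' x) (fun x => v x + v' x) := by
  intro φ hφ
  simp_rw [add_mul]
  rw [integral_add (integrable_loc_mul hu (hφ.dd e)) (integrable_loc_mul hu' (hφ.dd e)),
    integral_add (integrable_loc_mul hv hφ) (integrable_loc_mul hv' hφ), h φ hφ, h' φ hφ]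
  ring

theorem WD.const_mul {e : V} {u v : V → ℝ} (h : WD e u v) (c : ℝ) :
    WD e (fun x => c * u x) (fun x => c * v x) := by
  intro φ hφ
  simp_rw [mul_assoc]
  rw [integral_const_mul, integral_const_mul, h φ hφ]
  ring

theorem WD.zero (e : V) : WD e (fun _ => (0 : ℝ)) (fun _ => 0) := by
  intro φ _; simp

/-- classical derivative of a smooth function is a weak derivative -/
theorem WD.of_smooth {e : V} {u : V → ℝ} (hu : ContDiff ℝ ∞ u) : WD e u (dd e u) := by
  intro φ hφ
  have i1 : Integrable (fun x => dd e u x * φ x) (volume : Measure V) :=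
    (hφ.smooth_mul (contDiff_dd hu e)).integrable
  have i2 : Integrable (fun x => u x * dd e φ x) (volume : Measure V) :=
    ((hφ.dd e).smooth_mul hu).integrable
  have i3 : Integrable (fun x => u x * φ x) (volume : Measure V) := (hφ.smooth_mul hu).integrable
  exact integral_mul_fderiv_eq_neg_fderiv_mul_of_integrable i1 i2 i3
    (fun x _ => hu.differentiable (by simp) x) (fun x _ => hφ.1.differentiable (by simp) x)

/-- the L²-Sobolev spaces of integer order relative to a family of directions -/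
def Sob {ι : Type*} (e : ι → V) : ℕ → (V → ℝ) → Prop
  | 0, u => MemLp u 2 volume
  | (k + 1), u => MemLp u 2 volume ∧ ∀ i, ∃ v, WD (e i) u v ∧ Sob e k v

variable {ι : Type*} {e : ι → V}

theorem Sob.memLp {k : ℕ} {u : V → ℝ} (h : Sob e k u) : MemLp u 2 (volume : Measure V) := by
  cases k with
  | zero => exact h
  | succ k => exact h.1

theorem Sob.locInt {k : ℕ} {u : V → ℝ} (h : Sob e k u) : LocallyIntegrable u volume :=
  EV.locInt h.memLp

theorem Sob.pred {k : ℕ} {u : V → ℝ} (h : Sob e (k + 1) u) : Sob e k u := by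
  induction k generalizing u with
  | zero => exact h.1
  | succ k ih =>
    refine ⟨h.1, fun i => ?_⟩
    obtain ⟨v, hv, hv'⟩ := h.2 i
    exact ⟨v, hv, ih hv'⟩

theorem Sob.mono {k l : ℕ} (hkl : k ≤ l) {u : V → ℝ} (h : Sob e l u) : Sob e k u := by
  induction hkl with
  | refl => exact h
  | step _ ih => exact ih h.pred

theorem Sob.congr {k : ℕ} {u v : V → ℝ} (h : Sob e k u) (huv : u =ᵐ[volume] v) : Sob e k v := by
  cases k with
  | zero => exact (memLp_congr_ae huv).mp h
  | succ k =>
    refine ⟨(memLp_congr_ae huv).mp h.1, fun i => ?_⟩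
    obtain ⟨w, hw, hw'⟩ := h.2 i
    exact ⟨w, hw.congr huv (ae_eq_refl _), hw'⟩

theorem Sob.add {k : ℕ} {u v : V → ℝ} (h : Sob e k u) (h' : Sob e k v) :
    Sob e k (fun x => u x + v x) := by
  induction k generalizing u v with
  | zero => exact MemLp.add h h'
  | succ k ih =>
    refine ⟨MemLp.add h.1 h'.1, fun i => ?_⟩
    obtain ⟨w, hw, hw1⟩ := h.2 i
    obtain ⟨w', hw', hw1'⟩ := h'.2 i
    exact ⟨_, hw.add hw' h.locInt hw1.locInt h'.locInt hw1'.locInt, ih hw1 hw1'⟩

theorem Sob.const_mul {k : ℕ} {u : V → ℝ} (h : Sob e k u) (c : ℝ) :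
    Sob e k (fun x => c * u x) := by
  induction k generalizing u with
  | zero => exact MemLp.const_mul h c
  | succ k ih =>
    refine ⟨MemLp.const_mul h.1 c, fun i => ?_⟩
    obtain ⟨w, hw, hw1⟩ := h.2 i
    exact ⟨_, hw.const_mul c, ih hw1⟩

theorem Sob.zero (k : ℕ) : Sob e k (fun _ => (0 : ℝ)) := by
  induction k with
  | zero => exact MemLp.zero
  | succ k ih => exact ⟨MemLp.zero, fun i => ⟨_, WD.zero _, ih⟩⟩

theorem Sob.sum {k : ℕ} {α : Type*} (s : Finset α) {u : α → V → ℝ} (h : ∀ a ∈ s, Sob e k (u a)) :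
    Sob e k (fun x => ∑ a ∈ s, u a x) := by
  classical
  induction s using Finset.induction_on with
  | empty => simpa using Sob.zero k
  | insert a s ha ih =>
    have h1 := (h a (Finset.mem_insert_self a s)).add
      (ih fun b hb => h b (Finset.mem_insert_of_mem hb))
    refine h1.congr (Eventually.of_forall fun x => ?_)
    simp only
    rw [Finset.sum_insert ha]

theorem Sob.sub {k : ℕ} {u v : V → ℝ} (h : Sob e k u) (h' : Sob e k v) :
    Sob e k (fun x => u x - v x) := by
  refine (h.add (h'.const_mul (-1))).congr (Eventually.of_forall fun x => ?_)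
  simp only; ring

theorem Test.bdd {φ : V → ℝ} (h : Test φ) : ∃ C, 0 ≤ C ∧ ∀ x, |φ x| ≤ C := by
  obtain ⟨C, hC⟩ := h.2.exists_bound_of_continuous h.continuous
  refine ⟨C, ?_, fun x => hC x⟩
  exact (norm_nonneg _).trans (hC 0)

theorem Sob.test_mul {k : ℕ} {u φ : V → ℝ} (hφ : Test φ) (h : Sob e k u) :
    Sob e k (fun x => φ x * u x) := by
  induction k generalizing u φ with
  | zero =>
    obtain ⟨C, -, hC⟩ := hφ.bdd
    exact memLp_bdd_mul hC hφ.continuous h
  | succ k ih =>
    obtain ⟨C, -, hC⟩ := hφ.bdd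
    refine ⟨memLp_bdd_mul hC hφ.continuous h.1, fun i => ?_⟩
    obtain ⟨w, hw, hw1⟩ := h.2 i
    exact ⟨_, hw.smooth_mul hφ.1 h.locInt hw1.locInt, (ih (hφ.dd (e i)) h.pred).add (ih hφ hw1)⟩

theorem Sob.of_test {φ : V → ℝ} (hφ : Test φ) (k : ℕ) : Sob e k φ := by
  induction k generalizing φ with
  | zero => exact hφ.memLp 2
  | succ k ih => exact ⟨hφ.memLp 2, fun i => ⟨_, WD.of_smooth hφ.1, ih (hφ.dd (e i))⟩⟩

/-- derivative of a `Sob (k+1)` function is `Sob k` for every representative -/
theorem Sob.deriv {k : ℕ} {u v : V → ℝ} (h : Sob e (k + 1) u) {i : ι} (hv : WD (e i) u v)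
    (hvl : LocallyIntegrable v volume) : Sob e k v := by
  obtain ⟨w, hw, hw1⟩ := h.2 i
  exact hw1.congr (hw.unique hv hw1.locInt hvl)

/-- cut-off equal to one on a big ball -/
theorem exists_cutoff (R : ℝ) : ∃ χ : V → ℝ, Test χ ∧ (∀ x, 0 ≤ χ x) ∧ (∀ x, χ x ≤ 1) ∧
    (∀ x, ‖x‖ < R → χ x = 1) := by
  by_cases hR : R ≤ 0
  · refine ⟨fun _ => 0, ⟨contDiff_const, HasCompactSupport.zero⟩, fun x => le_rfl,
      fun x => zero_le_one, fun x hx => absurd (hx.trans_le hR) (not_lt.mpr (norm_nonneg x))⟩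
  push Not at hR
  let b : ContDiffBump (0 : V) := ⟨R, R + 1, hR, by linarith⟩
  refine ⟨b, ⟨b.contDiff, b.hasCompactSupport⟩, fun x => b.nonneg, fun x => b.le_one, ?_⟩
  intro x hx
  apply b.one_of_mem_closedBall
  simpa using hx.le

/-- for compactly supported functions the weak derivative can be chosen compactly supported -/
theorem exists_compact_WD {u v : V → ℝ} {d : V} (hu : LocallyIntegrable u volume)
    (huc : HasCompactSupport u) (hv : LocallyIntegrable v volume) (h : WD d u v) :
    ∃ χ : V → ℝ, Test χ ∧ WD d u (fun x => χ x * v x) := by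
  obtain ⟨R, hR⟩ := huc.isCompact.isBounded.subset_ball (0 : V)
  obtain ⟨χ, hχ, -, -, hχ1⟩ := exists_cutoff (V := V) R
  refine ⟨χ, hχ, ?_⟩
  have h1 := h.smooth_mul hχ.1 hu hv
  refine h1.congr (Eventually.of_forall fun x => ?_) (Eventually.of_forall fun x => ?_)
  · simp only
    by_cases hx : u x = 0
    · rw [hx, mul_zero]
    · have : x ∈ Metric.ball (0 : V) R := hR (subset_tsupport _ hx)
      rw [hχ1 x (by simpa using this), one_mul]
  · simp only
    by_cases hx : u x = 0
    · rw [hx, mul_zero, zero_add]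
    · have hx' : x ∈ Metric.ball (0 : V) R := hR (subset_tsupport _ hx)
      have : dd d χ x = 0 := by
        have he : χ =ᶠ[𝓝 x] fun _ => 1 := by
          filter_upwards [Metric.isOpen_ball.mem_nhds hx'] with y hy
          exact hχ1 y (by simpa using hy)
        unfold dd
        rw [he.fderiv_eq]
        simp
      rw [this, zero_mul, zero_add]

omit [MeasurableSpace V] [BorelSpace V] [FiniteDimensional ℝ V] in
theorem dd_comm {φ : V → ℝ} (hφ : ContDiff ℝ ∞ φ) (d d' : V) (x : V) :
    dd d' (dd d φ) x = dd d (dd d' φ) x := by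
  have hs : IsSymmSndFDerivAt ℝ φ x := by
    apply ContDiffAt.isSymmSndFDerivAt (hφ.contDiffAt)
    rw [minSmoothness_of_isRCLikeNormedField]
    exact ENat.LEInfty.out
  have hdiff : DifferentiableAt ℝ (fderiv ℝ φ) x :=
    (hφ.fderiv_right (m := ∞) (by simp)).differentiable (by simp) x
  have e1 : ∀ u u' : V, dd u' (dd u φ) x = fderiv ℝ (fderiv ℝ φ) x u' u := by
    intro u u'
    unfold dd
    have := (hdiff.hasFDerivAt.clm_apply (hasFDerivAt_const u x)).fderiv
    rw [this]; simp
  rw [e1, e1]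
  exact hs.eq _ _

/-- symmetry of second weak derivatives -/
theorem WD.swap {d d' : V} {w p q r : V → ℝ} (hp : WD d w p) (hq : WD d' w q)
    (hr : WD d' p r) : WD d q r := by
  intro φ hφ
  have h1 := hq _ (hφ.dd d)
  have h2 := hp _ (hφ.dd d')
  have h3 := hr _ hφ
  simp_rw [dd_comm hφ.1 d d'] at h1
  linarith

end Crest.Agent.R249.EV
end

-- ▼ part R249/EVHigh_330
section

/-! (copy of Crest/Agent/R202/EllHigh in the namespace R249.EV, to avoid the name clash with R202/Ell1..Ell7; helper330)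
Row 202: elliptic regularity, part 5: higher regularity for compactly supported solutions. -/

set_option autoImplicit false
open MeasureTheory Filter Topology Set
open scoped ENNReal NNReal ContDiff RealInnerProductSpace Convolution

namespace Crest.Agent.R249.EV

variable {V : Type*} [NormedAddCommGroup V] [InnerProductSpace ℝ V] [FiniteDimensional ℝ V]
  [MeasurableSpace V] [BorelSpace V]

variable {ι : Type*} [Fintype ι] {e : ι → V}

/-- global coefficients: constants plus compactly supported smooth functions, elliptic -/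
structure Coef (a : ι → ι → V → ℝ) (c : ι → ι → ℝ) (lam : ℝ) : Prop where
  pos : 0 < lam
  test : ∀ i j, Test (fun x => a i j x - c i j)
  ell : ∀ (x : V) (ξ : ι → ℝ), lam * ∑ i, ξ i ^ 2 ≤ ∑ i, ∑ j, a i j x * ξ j * ξ i

theorem Coef.smooth {a : ι → ι → V → ℝ} {c : ι → ι → ℝ} {lam : ℝ} (h : Coef a c lam) (i j : ι) :
    ContDiff ℝ ∞ (a i j) := by
  have h1 := (h.test i j).1.add (contDiff_const (c := c i j))
  simpa using h1

theorem Coef.dd_test {a : ι → ι → V → ℝ} {c : ι → ι → ℝ} {lam : ℝ} (h : Coef a c lam) (i j : ι)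
    (d : V) : Test (dd d (a i j)) := by
  have h1 := (h.test i j).dd d
  have : dd d (fun x => a i j x - c i j) = dd d (a i j) := by
    ext x; unfold dd; rw [fderiv_sub_const]
  rwa [this] at h1

theorem Coef.bdd {a : ι → ι → V → ℝ} {c : ι → ι → ℝ} {lam : ℝ} (h : Coef a c lam) :
    ∃ A, ∀ i j x, |a i j x| ≤ A := by
  classical
  choose C _ hC using fun i j => (h.test i j).bdd
  refine ⟨∑ i, ∑ j, (|C i j| + |c i j|), fun i j x => ?_⟩
  have h1 : |a i j x| ≤ |C i j| + |c i j| := by
    have := hC i j x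
    calc |a i j x| = |(a i j x - c i j) + c i j| := by ring_nf
      _ ≤ |a i j x - c i j| + |c i j| := abs_add_le _ _
      _ ≤ |C i j| + |c i j| := by
        have := this.trans (le_abs_self (C i j))
        linarith
  refine h1.trans ?_
  refine (Finset.single_le_sum (f := fun j => |C i j| + |c i j|) (fun _ _ => by positivity)
    (Finset.mem_univ j)).trans ?_
  exact Finset.single_le_sum (f := fun i => ∑ j, (|C i j| + |c i j|))
    (fun _ _ => Finset.sum_nonneg fun _ _ => by positivity) (Finset.mem_univ i)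

theorem Coef.lip {a : ι → ι → V → ℝ} {c : ι → ι → ℝ} {lam : ℝ} (h : Coef a c lam) :
    ∃ L, 0 ≤ L ∧ ∀ i j x y, |a i j x - a i j y| ≤ L * ‖x - y‖ := by
  classical
  have h0 : ∀ i j, ∃ K : ℝ≥0, LipschitzWith K (fun x => a i j x - c i j) := fun i j =>
    ContDiff.lipschitzWith_of_hasCompactSupport (h.test i j).2 (h.test i j).1 (by simp)
  choose K hK using h0
  refine ⟨∑ i, ∑ j, (K i j : ℝ), by positivity, fun i j x y => ?_⟩
  have h1 := (hK i j).dist_le_mul x y
  rw [Real.dist_eq, dist_eq_norm] at h1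
  have h2 : a i j x - c i j - (a i j y - c i j) = a i j x - a i j y := by ring
  rw [h2] at h1
  refine h1.trans (mul_le_mul_of_nonneg_right ?_ (norm_nonneg _))
  refine (Finset.single_le_sum (f := fun j => (K i j : ℝ)) (fun _ _ => by positivity)
    (Finset.mem_univ j)).trans ?_
  exact Finset.single_le_sum (f := fun i => ∑ j, (K i j : ℝ))
    (fun _ _ => Finset.sum_nonneg fun _ _ => by positivity) (Finset.mem_univ i)

theorem reg_k {a : ι → ι → V → ℝ} {c : ι → ι → ℝ} {lam : ℝ} (hco : Coef a c lam) (k : ℕ) :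
    ∀ {w f : V → ℝ} {w' : ι → V → ℝ}, MemLp w 2 (volume : Measure V) →
    HasCompactSupport w → (∀ i, MemLp (w' i) 2 (volume : Measure V)) →
    (∀ i, WD (e i) w (w' i)) → Sob e k f →
    (∀ φ : V → ℝ, Test φ →
      ∑ i, ∫ x, (∑ j, a i j x * w' j x) * dd (e i) φ x = ∫ x, f x * φ x) →
    Sob e (k + 2) w := by
  obtain ⟨A, hA⟩ := hco.bdd
  obtain ⟨L, hL0, hL⟩ := hco.lip
  induction k with
  | zero =>
    intro w f w' hw2 hwc hw'2 hw' hf heq
    refine ⟨hw2, fun i => ⟨w' i, hw' i, hw'2 i, fun k => ?_⟩⟩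
    obtain ⟨v, hv, hv'⟩ := h2_reg e a hco.pos hco.ell (fun i j => (hco.smooth i j).continuous) hA
      hL0 hL hw2 hwc hw'2 hw' hf heq i k
    exact ⟨v, hv', hv⟩
  | succ k ih =>
    intro w f w' hw2 hwc hw'2 hw' hf heq
    have h1 : Sob e (k + 2) w := ih hw2 hwc hw'2 hw' hf.pred heq
    refine ⟨hw2, fun m => ?_⟩
    -- compactly supported representatives of the first derivatives
    have hcut : ∃ w₁ : ι → V → ℝ, (∀ i, HasCompactSupport (w₁ i)) ∧ (∀ i, WD (e i) w (w₁ i)) ∧
        (∀ i, w₁ i =ᵐ[volume] w' i) := by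
      have : ∀ i, ∃ v : V → ℝ, HasCompactSupport v ∧ WD (e i) w v ∧ v =ᵐ[volume] w' i := by
        intro i
        obtain ⟨χ, hχ, hχ'⟩ := exists_compact_WD (locInt hw2) hwc (locInt (hw'2 i)) (hw' i)
        refine ⟨fun x => χ x * w' i x, hχ.2.mul_right, hχ', ?_⟩
        exact hχ'.unique (hw' i) (locInt_smooth_mul hχ.continuous (locInt (hw'2 i)))
          (locInt (hw'2 i))
      choose v hv using this
      exact ⟨v, fun i => (hv i).1, fun i => (hv i).2.1, fun i => (hv i).2.2⟩
    obtain ⟨w₁, hw₁c, hw₁, hw₁e⟩ := hcut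
    have hw₁2 : ∀ i, MemLp (w₁ i) 2 (volume : Measure V) := fun i =>
      (memLp_congr_ae (hw₁e i)).mpr (hw'2 i)
    have hw₁S : ∀ i, Sob e (k + 1) (w₁ i) := fun i => h1.deriv (hw₁ i) (locInt (hw₁2 i))
    -- second derivatives: `w₂ j d` is the derivative of `w₁ j` in direction `d`
    have hsec : ∀ j d, ∃ v, WD (e d) (w₁ j) v ∧ Sob e k v := fun j d => (hw₁S j).2 d
    choose w₂ hw₂ hw₂S using hsec
    obtain ⟨f', hf', hf'S⟩ := hf.2 m
    refine ⟨w₁ m, hw₁ m, ?_⟩
    -- the equation for `w₁ m`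
    set F : V → ℝ := fun x => f' x + ∑ i, ∑ j, (dd (e i) (dd (e m) (a i j)) x * w₁ j x +
      dd (e m) (a i j) x * w₂ j i x) with hF
    have hFS : Sob e k F := by
      apply hf'S.add
      apply Sob.sum; intro i _
      apply Sob.sum; intro j _
      exact (Sob.test_mul ((hco.dd_test i j (e m)).dd (e i)) (hw₁S j).pred).add
        (Sob.test_mul (hco.dd_test i j (e m)) (hw₂S j i))
    refine ih (w := w₁ m) (f := F) (w' := fun j => w₂ j m) (hw₁2 m) (hw₁c m)
      (fun j => (hw₂S j m).memLp) ?_ hFS ?_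
    · intro j
      exact (hw₁ j).swap (hw₁ m) (hw₂ j m)
    · intro φ hφ
      have hdφ : ∀ i, Test (dd (e i) φ) := fun i => hφ.dd _
      -- building blocks
      have hP : ∀ i j, Integrable (fun x => a i j x * w₂ j m x * dd (e i) φ x)
          (volume : Measure V) := fun i j =>
        integrable_loc_mul (locInt_smooth_mul (hco.smooth i j).continuous (hw₂S j m).locInt)
          (hdφ i)
      have hQ : ∀ i j, Integrable (fun x => dd (e m) (a i j) x * w₁ j x * dd (e i) φ x)
          (volume : Measure V) := fun i j =>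
        integrable_loc_mul (locInt_smooth_mul (hco.dd_test i j (e m)).continuous
          (locInt (hw₁2 j))) (hdφ i)
      have hR : ∀ i j, Integrable (fun x => (dd (e i) (dd (e m) (a i j)) x * w₁ j x +
          dd (e m) (a i j) x * w₂ j i x) * φ x) (volume : Measure V) := fun i j =>
        integrable_loc_mul ((locInt_smooth_mul ((hco.dd_test i j (e m)).dd (e i)).continuous
          (locInt (hw₁2 j))).add (locInt_smooth_mul (hco.dd_test i j (e m)).continuous
          (hw₂S j i).locInt)) hφ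
      have hT : ∀ i j, Integrable (fun x => a i j x * w₁ j x * dd (e i) (dd (e m) φ) x)
          (volume : Measure V) := fun i j =>
        integrable_loc_mul (locInt_smooth_mul (hco.smooth i j).continuous (locInt (hw₁2 j)))
          ((hφ.dd (e m)).dd (e i))
      have e1 : ∀ i j, ∫ x, a i j x * w₁ j x * dd (e i) (dd (e m) φ) x =
          - ((∫ x, dd (e m) (a i j) x * w₁ j x * dd (e i) φ x) +
            ∫ x, a i j x * w₂ j m x * dd (e i) φ x) := by
        intro i j
        have h1 := (hw₂ j m).smooth_mul (hco.smooth i j) (locInt (hw₁2 j)) (hw₂S j m).locInt _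
          (hdφ i)
        simp_rw [dd_comm hφ.1 (e m) (e i)]
        rw [h1, ← integral_add (hQ i j) (hP i j)]
        congr 2; ext x; ring
      have e2 : ∀ i j, ∫ x, dd (e m) (a i j) x * w₁ j x * dd (e i) φ x =
          - ∫ x, (dd (e i) (dd (e m) (a i j)) x * w₁ j x +
            dd (e m) (a i j) x * w₂ j i x) * φ x := by
        intro i j
        exact (hw₂ j i).smooth_mul (hco.dd_test i j (e m)).1 (locInt (hw₁2 j))
          (hw₂S j i).locInt _ hφ
      have e3 := heq _ (hφ.dd (e m))
      rw [hf' φ hφ] at e3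
      have e4 : ∀ i, ∫ x, (∑ j, a i j x * w' j x) * dd (e i) (dd (e m) φ) x =
          ∑ j, ∫ x, a i j x * w₁ j x * dd (e i) (dd (e m) φ) x := by
        intro i
        rw [← integral_finsetSum _ fun j _ => hT i j]
        apply integral_congr_ae
        have : ∀ᵐ x ∂(volume : Measure V), ∀ j, w₁ j x = w' j x := ae_all_iff.mpr hw₁e
        filter_upwards [this] with x hx
        rw [Finset.sum_mul]
        refine Finset.sum_congr rfl fun j _ => ?_
        rw [hx j]
      simp_rw [e4, e1] at e3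
      have e5 : ∀ i, ∫ x, (∑ j, a i j x * w₂ j m x) * dd (e i) φ x =
          ∑ j, ∫ x, a i j x * w₂ j m x * dd (e i) φ x := by
        intro i
        rw [← integral_finsetSum _ fun j _ => hP i j]
        congr 1; ext x
        rw [Finset.sum_mul]
      simp_rw [e5]
      have e6 : ∫ x, F x * φ x = (∫ x, f' x * φ x) + ∑ i, ∑ j,
          ∫ x, (dd (e i) (dd (e m) (a i j)) x * w₁ j x +
            dd (e m) (a i j) x * w₂ j i x) * φ x := by
        simp_rw [← fun i => integral_finsetSum (Finset.univ : Finset ι) fun j _ => hR i j]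
        rw [← integral_finsetSum _ fun i _ => integrable_finsetSum _ fun j _ => hR i j,
          ← integral_add (integrable_loc_mul hf'S.locInt hφ)
          (integrable_finsetSum _ fun i _ => integrable_finsetSum _ fun j _ => hR i j)]
        congr 1; ext x
        simp only [hF, add_mul, Finset.sum_mul]
      rw [e6]
      simp_rw [e2] at e3
      simp only [neg_add, neg_neg, Finset.sum_add_distrib, Finset.sum_neg_distrib] at e3
      linarith

end Crest.Agent.R249.EV
end

-- ▼ part R249/EVLoc_330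
section

/-! (copy of Crest/Agent/R202/EllLoc in the namespace R249.EV, to avoid the name clash with R202/Ell1..Ell7; helper330)
Row 202: elliptic regularity, part 6: localisation. -/

set_option autoImplicit false
open MeasureTheory Filter Topology Set
open scoped ENNReal NNReal ContDiff RealInnerProductSpace Convolution

namespace Crest.Agent.R249.EV

variable {V : Type*} [NormedAddCommGroup V] [InnerProductSpace ℝ V] [FiniteDimensional ℝ V]
  [MeasurableSpace V] [BorelSpace V]

variable {ι : Type*} [Fintype ι] {e : ι → V}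

/-- locally square integrable (and locally integrable) functions -/
def L2loc (u : V → ℝ) : Prop :=
  LocallyIntegrable u (volume : Measure V) ∧
    LocallyIntegrable (fun x => u x ^ 2) (volume : Measure V)

theorem L2loc.test_mul {u η : V → ℝ} (h : L2loc u) (hη : Test η) :
    MemLp (fun x => η x * u x) 2 (volume : Measure V) := by
  have hm : AEStronglyMeasurable (fun x => η x * u x) (volume : Measure V) :=
    hη.continuous.aestronglyMeasurable.mul h.1.aestronglyMeasurable
  rw [memLp_two_iff_integrable_sq hm]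
  have hη2 : Test (fun x => η x * η x) := hη.smooth_mul hη.1
  have := integrable_loc_mul h.2 hη2
  refine this.congr (Eventually.of_forall fun x => ?_)
  simp only; ring

/-- uniform ellipticity on compact sets -/
theorem exists_ell {a : ι → ι → V → ℝ} (ha : ∀ i j, Continuous (a i j))
    (hpos : ∀ (x : V) (ξ : ι → ℝ), ξ ≠ 0 → 0 < ∑ i, ∑ j, a i j x * ξ j * ξ i)
    {K : Set V} (hK : IsCompact K) :
    ∃ lam : ℝ, 0 < lam ∧ ∀ x ∈ K, ∀ ξ : ι → ℝ,
      lam * ∑ i, ξ i ^ 2 ≤ ∑ i, ∑ j, a i j x * ξ j * ξ i := by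
  classical
  let S : Set (EuclideanSpace ℝ ι) := Metric.sphere 0 1
  have hS : IsCompact S := isCompact_sphere _ _
  let F : V × EuclideanSpace ℝ ι → ℝ := fun p => ∑ i, ∑ j, a i j p.1 * p.2 j * p.2 i
  have hF : Continuous F := by
    apply continuous_finsetSum; intro i _
    apply continuous_finsetSum; intro j _
    have := ha i j
    fun_prop
  have main : ∃ lam : ℝ, 0 < lam ∧ ∀ x ∈ K, ∀ ξ ∈ S, lam ≤ F (x, ξ) := by
    rcases (K ×ˢ S).eq_empty_or_nonempty with h0 | hne
    · refine ⟨1, one_pos, fun x hx ξ hξ => ?_⟩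
      have : (x, ξ) ∈ K ×ˢ S := ⟨hx, hξ⟩
      rw [h0] at this; exact absurd this (notMem_empty _)
    · obtain ⟨p, hp, hmin⟩ := (hK.prod hS).exists_isMinOn hne hF.continuousOn
      refine ⟨F p, ?_, fun x hx ξ hξ => hmin (show (x, ξ) ∈ K ×ˢ S from ⟨hx, hξ⟩)⟩
      apply hpos p.1 (fun i => p.2 i)
      intro h
      have h1 : p.2 = 0 := by
        ext i; exact congrFun h i
      have h2 : ‖p.2‖ = 1 := by simpa [S] using hp.2
      rw [h1, norm_zero] at h2
      exact zero_ne_one h2
  obtain ⟨lam, hlam, hl⟩ := main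
  refine ⟨lam, hlam, fun x hx ξ => ?_⟩
  let ζ : EuclideanSpace ℝ ι := WithLp.toLp 2 ξ
  have hζ : ∀ i, ζ i = ξ i := fun i => rfl
  have hn : ‖ζ‖ ^ 2 = ∑ i, ξ i ^ 2 := by
    rw [EuclideanSpace.real_norm_sq_eq]
  rcases eq_or_ne ζ 0 with h0 | h0
  · have h1 : ∀ i, ξ i = 0 := fun i => by rw [← hζ, h0]; rfl
    simp [h1]
  · have hpos' : 0 < ‖ζ‖ := norm_pos_iff.mpr h0
    have hz : ‖ζ‖⁻¹ • ζ ∈ S := by
      simp only [S, mem_sphere_iff_norm, sub_zero, norm_smul, norm_inv, norm_norm]
      exact inv_mul_cancel₀ hpos'.ne'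
    have h1 := hl x hx _ hz
    have h2 : F (x, ‖ζ‖⁻¹ • ζ) = (‖ζ‖⁻¹) ^ 2 * ∑ i, ∑ j, a i j x * ξ j * ξ i := by
      simp only [F, Finset.mul_sum]
      refine Finset.sum_congr rfl fun i _ => Finset.sum_congr rfl fun j _ => ?_
      simp only [PiLp.smul_apply, smul_eq_mul, hζ]
      ring
    rw [h2] at h1
    rw [← hn]
    have h3 := mul_le_mul_of_nonneg_right h1 (sq_nonneg ‖ζ‖)
    have h4 : (‖ζ‖⁻¹) ^ 2 * (∑ i, ∑ j, a i j x * ξ j * ξ i) * ‖ζ‖ ^ 2 =
        ∑ i, ∑ j, a i j x * ξ j * ξ i := by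
      field_simp
    rw [h4] at h3
    exact h3

/-- global extension of local coefficients -/
theorem exists_coef [DecidableEq ι] {a : ι → ι → V → ℝ} (ha : ∀ i j, ContDiff ℝ ∞ (a i j))
    (hpos : ∀ (x : V) (ξ : ι → ℝ), ξ ≠ 0 → 0 < ∑ i, ∑ j, a i j x * ξ j * ξ i) (R : ℝ) :
    ∃ (b : ι → ι → V → ℝ) (lam : ℝ), Coef b (fun i j => if i = j then 1 else 0) lam ∧
      ∀ i j x, ‖x‖ < R → b i j x = a i j x := by
  obtain ⟨χ, hχ, h0, h1, hR⟩ := exists_cutoff (V := V) R
  obtain ⟨lam, hlam, hl⟩ := exists_ell (fun i j => (ha i j).continuous) hpos hχ.2.isCompact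
  refine ⟨fun i j x => χ x * a i j x + (1 - χ x) * (if i = j then 1 else 0), min lam 1,
    ⟨by positivity, ?_, ?_⟩, ?_⟩
  · intro i j
    have : Test (fun x => (a i j x - (if i = j then (1 : ℝ) else 0)) * χ x) :=
      hχ.smooth_mul ((ha i j).sub contDiff_const)
    convert this using 1
    ext x; ring
  · intro x ξ
    have e1 : ∑ i, ∑ j, (χ x * a i j x + (1 - χ x) * (if i = j then (1 : ℝ) else 0)) * ξ j * ξ i =
        χ x * (∑ i, ∑ j, a i j x * ξ j * ξ i) + (1 - χ x) * ∑ i, ξ i ^ 2 := by
      rw [Finset.mul_sum, Finset.mul_sum, ← Finset.sum_add_distrib]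
      refine Finset.sum_congr rfl fun i _ => ?_
      have : ∑ j, (χ x * a i j x + (1 - χ x) * (if i = j then (1 : ℝ) else 0)) * ξ j * ξ i =
          ∑ j, (χ x * (a i j x * ξ j * ξ i)) +
          ∑ j, (if i = j then (1 - χ x) * ξ j * ξ i else 0) := by
        rw [← Finset.sum_add_distrib]
        refine Finset.sum_congr rfl fun j _ => ?_
        split_ifs <;> ring
      rw [this, Finset.sum_ite_eq, ← Finset.mul_sum]
      simp; ring
    rw [e1]
    have hs : 0 ≤ ∑ i, ξ i ^ 2 := Finset.sum_nonneg fun i _ => sq_nonneg _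
    by_cases hx : x ∈ tsupport χ
    · have h2 := hl x hx ξ
      have h3 : min lam 1 * ∑ i, ξ i ^ 2 ≤ lam * ∑ i, ξ i ^ 2 := by gcongr; exact min_le_left _ _
      have h4 : min lam 1 * ∑ i, ξ i ^ 2 ≤ 1 * ∑ i, ξ i ^ 2 := by gcongr; exact min_le_right _ _
      have h5 := h0 x
      have h6 := h1 x
      nlinarith [mul_le_mul_of_nonneg_left (h3.trans h2) h5,
        mul_le_mul_of_nonneg_left h4 (sub_nonneg.mpr h6)]
    · have : χ x = 0 := image_eq_zero_of_notMem_tsupport hx
      rw [this]
      have h4 : min lam 1 * ∑ i, ξ i ^ 2 ≤ 1 * ∑ i, ξ i ^ 2 := by gcongr; exact min_le_right _ _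
      linarith
  · intro i j x hx
    simp only [hR x hx]; ring

theorem loc_reg {a : ι → ι → V → ℝ} (ha : ∀ i j, ContDiff ℝ ∞ (a i j))
    (hpos : ∀ (x : V) (ξ : ι → ℝ), ξ ≠ 0 → 0 < ∑ i, ∑ j, a i j x * ξ j * ξ i)
    {u f : V → ℝ} {u' : ι → V → ℝ} (hu : L2loc u) (hu' : ∀ i, L2loc (u' i))
    (hW : ∀ i, WD (e i) u (u' i)) (hf : ContDiff ℝ ∞ f)
    (heq : ∀ φ : V → ℝ, Test φ →
      ∑ i, ∫ x, (∑ j, a i j x * u' j x) * dd (e i) φ x = ∫ x, f x * φ x) (k : ℕ) :
    ∀ η : V → ℝ, Test η → Sob e (k + 1) (fun x => η x * u x) := by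
  classical
  induction k with
  | zero =>
    intro η hη
    refine ⟨hu.test_mul hη, fun i => ⟨_, (hW i).smooth_mul hη.1 hu.1 (hu' i).1, ?_⟩⟩
    exact (hu.test_mul (hη.dd (e i))).add ((hu' i).test_mul hη)
  | succ k ih =>
    intro η hη
    -- products with derivatives
    have hder : ∀ (θ : V → ℝ), Test θ → ∀ j, Sob e k (fun x => θ x * u' j x) := by
      intro θ hθ j
      have h1 := ih θ hθ
      have h2 := (hW j).smooth_mul hθ.1 hu.1 (hu' j).1
      have h3 := h1.deriv h2 ((locInt_smooth_mul (hθ.dd (e j)).continuous hu.1).add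
        (locInt_smooth_mul hθ.continuous (hu' j).1))
      have h4 := (ih _ (hθ.dd (e j))).pred
      refine (h3.sub h4).congr (Eventually.of_forall fun x => ?_)
      simp only; ring
    obtain ⟨R, hR⟩ := hη.2.isCompact.isBounded.subset_ball (0 : V)
    obtain ⟨b, lam, hb, hba⟩ := exists_coef ha hpos R
    set w' : ι → V → ℝ := fun j x => dd (e j) η x * u x + η x * u' j x with hw'
    set F : V → ℝ := fun x => η x * f x - (∑ i, ∑ j, a i j x * dd (e i) η x * u' j x) -
      ∑ i, ∑ j, (dd (e i) (fun x => a i j x * dd (e j) η x) x * u x +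
        a i j x * dd (e j) η x * u' i x) with hF
    have hT1 : ∀ i j k, Test (fun x => a i j x * dd (e k) η x) := fun i j k =>
      (hη.dd (e k)).smooth_mul (ha i j)
    have hFS : Sob e k F := by
      refine Sob.sub (Sob.sub ?_ ?_) ?_
      · exact Sob.of_test (by
          have := hη.smooth_mul hf
          convert this using 1
          ext x; ring) k
      · apply Sob.sum; intro i _
        apply Sob.sum; intro j _
        exact hder _ (hT1 i j i) j
      · apply Sob.sum; intro i _
        apply Sob.sum; intro j _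
        exact (ih _ ((hT1 i j j).dd (e i))).pred.add (hder _ (hT1 i j j) i)
    have hsupp : ∀ x, ¬ ‖x‖ < R → η x = 0 ∧ ∀ d, dd d η x = 0 := by
      intro x hx
      have hx' : x ∉ tsupport η := fun h => hx (by simpa using hR h)
      refine ⟨image_eq_zero_of_notMem_tsupport hx', fun d => ?_⟩
      have : x ∉ tsupport (fderiv ℝ η) := fun h => hx' (tsupport_fderiv_subset ℝ h)
      unfold dd
      rw [image_eq_zero_of_notMem_tsupport this]; simp
    refine reg_k (e := e) hb k (w := fun x => η x * u x) (f := F) (w' := w') (hu.test_mul hη)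
      hη.2.mul_right ?_ (fun j => (hW j).smooth_mul hη.1 hu.1 (hu' j).1) hFS ?_
    · intro j
      exact (hu.test_mul (hη.dd (e j))).add ((hu' j).test_mul hη)
    · intro φ hφ
      -- replace b by a
      have e0 : ∀ i, ∫ x, (∑ j, b i j x * w' j x) * dd (e i) φ x =
          ∫ x, (∑ j, a i j x * w' j x) * dd (e i) φ x := by
        intro i
        congr 1; ext x
        congr 1
        refine Finset.sum_congr rfl fun j _ => ?_
        by_cases hx : ‖x‖ < R
        · rw [hba i j x hx]
        · obtain ⟨h1, h2⟩ := hsupp x hx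
          simp only [hw', h1, h2, zero_mul, add_zero, mul_zero]
      simp_rw [e0]
      have i1 : ∀ i j, Integrable (fun x => a i j x * dd (e j) η x * u x * dd (e i) φ x)
          (volume : Measure V) := fun i j =>
        integrable_loc_mul (locInt_smooth_mul (hT1 i j j).continuous hu.1) (hφ.dd _)
      have i2 : ∀ i j, Integrable (fun x => a i j x * (η x * u' j x) * dd (e i) φ x)
          (volume : Measure V) := fun i j =>
        integrable_loc_mul (locInt_smooth_mul (ha i j).continuous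
          (locInt_smooth_mul hη.continuous (hu' j).1)) (hφ.dd _)
      have i3 : ∀ i j, Integrable (fun x => (dd (e i) (fun x => a i j x * dd (e j) η x) x * u x +
          a i j x * dd (e j) η x * u' i x) * φ x) (volume : Measure V) := fun i j =>
        integrable_loc_mul ((locInt_smooth_mul ((hT1 i j j).dd (e i)).continuous hu.1).add
          (locInt_smooth_mul (hT1 i j j).continuous (hu' i).1)) hφ
      have i4 : ∀ i j, Integrable (fun x => a i j x * dd (e i) η x * u' j x * φ x)
          (volume : Measure V) := fun i j =>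
        integrable_loc_mul (locInt_smooth_mul (hT1 i j i).continuous (hu' j).1) hφ
      have e1 : ∀ i j, ∫ x, a i j x * dd (e j) η x * u x * dd (e i) φ x =
          - ∫ x, (dd (e i) (fun x => a i j x * dd (e j) η x) x * u x +
            a i j x * dd (e j) η x * u' i x) * φ x := by
        intro i j
        exact (hW i).smooth_mul (hT1 i j j).1 hu.1 (hu' i).1 _ hφ
      have e2 : ∀ i, ∫ x, (∑ j, a i j x * w' j x) * dd (e i) φ x =
          ∑ j, ((∫ x, a i j x * dd (e j) η x * u x * dd (e i) φ x) +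
            ∫ x, a i j x * (η x * u' j x) * dd (e i) φ x) := by
        intro i
        have h1 : ∀ x, (∑ j, a i j x * w' j x) * dd (e i) φ x =
            ∑ j, (a i j x * dd (e j) η x * u x * dd (e i) φ x +
              a i j x * (η x * u' j x) * dd (e i) φ x) := by
          intro x
          rw [Finset.sum_mul]
          refine Finset.sum_congr rfl fun j _ => ?_
          simp only [hw']; ring
        simp_rw [h1]
        rw [integral_finsetSum _ fun j _ => ?_]
        · refine Finset.sum_congr rfl fun j _ => ?_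
          exact integral_add (i1 i j) (i2 i j)
        · exact (i1 i j).add (i2 i j)
      have e3 := heq _ (hφ.smooth_mul hη.1)
      have e4 : ∀ i, ∫ x, (∑ j, a i j x * u' j x) * dd (e i) (fun x => η x * φ x) x =
          ∑ j, ((∫ x, a i j x * dd (e i) η x * u' j x * φ x) +
            ∫ x, a i j x * (η x * u' j x) * dd (e i) φ x) := by
        intro i
        have h1 : ∀ x, (∑ j, a i j x * u' j x) * dd (e i) (fun x => η x * φ x) x =
            ∑ j, (a i j x * dd (e i) η x * u' j x * φ x +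
              a i j x * (η x * u' j x) * dd (e i) φ x) := by
          intro x
          rw [dd_mul (e i) (hη.1.differentiable (by simp)) (hφ.1.differentiable (by simp)),
            Finset.sum_mul]
          refine Finset.sum_congr rfl fun j _ => ?_
          ring
        simp_rw [h1]
        rw [integral_finsetSum _ fun j _ => ?_]
        · refine Finset.sum_congr rfl fun j _ => ?_
          exact integral_add (i4 i j) (i2 i j)
        · exact (i4 i j).add (i2 i j)
      simp_rw [e4] at e3
      simp_rw [e2, e1]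
      have i5 : Integrable (fun x => f x * (η x * φ x)) (volume : Measure V) :=
        ((hφ.smooth_mul hη.1).smooth_mul hf).integrable
      have i6 : Integrable (fun x => ∑ i, ∑ j, a i j x * dd (e i) η x * u' j x * φ x)
          (volume : Measure V) :=
        integrable_finsetSum _ fun i _ => integrable_finsetSum _ fun j _ => i4 i j
      have i7 : Integrable (fun x => ∑ i, ∑ j,
          (dd (e i) (fun x => a i j x * dd (e j) η x) x * u x +
          a i j x * dd (e j) η x * u' i x) * φ x) (volume : Measure V) :=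
        integrable_finsetSum _ fun i _ => integrable_finsetSum _ fun j _ => i3 i j
      have i8 : Integrable (fun x => f x * (η x * φ x) -
          ∑ i, ∑ j, a i j x * dd (e i) η x * u' j x * φ x) (volume : Measure V) := i5.sub i6
      have e5 : ∫ x, F x * φ x = (∫ x, f x * (η x * φ x)) -
          (∑ i, ∑ j, ∫ x, a i j x * dd (e i) η x * u' j x * φ x) -
          ∑ i, ∑ j, ∫ x, (dd (e i) (fun x => a i j x * dd (e j) η x) x * u x +
            a i j x * dd (e j) η x * u' i x) * φ x := by
        simp_rw [← fun i => integral_finsetSum (Finset.univ : Finset ι) fun j _ => i4 i j,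
          ← fun i => integral_finsetSum (Finset.univ : Finset ι) fun j _ => i3 i j]
        rw [← integral_finsetSum _ fun i _ => integrable_finsetSum _ fun j _ => i4 i j,
          ← integral_finsetSum _ fun i _ => integrable_finsetSum _ fun j _ => i3 i j,
          ← integral_sub i5 i6, ← integral_sub i8 i7]
        congr 1; ext x
        simp only [hF, sub_mul, Finset.sum_mul]
        ring
      rw [e5]
      simp only [Finset.sum_add_distrib, Finset.sum_neg_distrib] at e3 ⊢
      linarith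

end Crest.Agent.R249.EV
end

-- ▼ part R249/EVEmb_330
section

/-! (copy of Crest/Agent/R202/EllEmb in the namespace R249.EV, to avoid the name clash with R202/Ell1..Ell7; helper330)
Row 202: elliptic regularity, part 7: Sobolev embedding by the Fourier transform. -/

set_option autoImplicit false
open MeasureTheory Filter Topology Set
open scoped ENNReal NNReal ContDiff RealInnerProductSpace Convolution FourierTransform

namespace Crest.Agent.R249.EV

variable {V : Type*} [NormedAddCommGroup V] [InnerProductSpace ℝ V] [FiniteDimensional ℝ V]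
  [MeasurableSpace V] [BorelSpace V]

theorem integrable_of_compact {w : V → ℝ} (h : LocallyIntegrable w (volume : Measure V))
    (hc : HasCompactSupport w) : Integrable w (volume : Measure V) := by
  rw [← integrableOn_iff_integrable_of_support_subset (subset_tsupport w)]
  exact h.integrableOn_isCompact hc.isCompact

/-- the weak derivative identity tested with arbitrary smooth functions -/
theorem WD.test_smooth {d : V} {w v : V → ℝ} (h : WD d w v) (hw : HasCompactSupport w)
    (hv : HasCompactSupport v) {g : V → ℝ} (hg : ContDiff ℝ ∞ g) :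
    ∫ x, w x * dd d g x = - ∫ x, v x * g x := by
  obtain ⟨R, hR⟩ := hw.isCompact.isBounded.subset_ball (0 : V)
  obtain ⟨R', hR'⟩ := hv.isCompact.isBounded.subset_ball (0 : V)
  obtain ⟨χ, hχ, -, -, hχ1⟩ := exists_cutoff (V := V) (max R R')
  have h1 := h (fun x => g x * χ x) (hχ.smooth_mul hg)
  have e1 : ∀ x, w x * dd d (fun x => g x * χ x) x = w x * dd d g x := by
    intro x
    by_cases hx : w x = 0
    · rw [hx]; simp
    · have hx' : x ∈ Metric.ball (0 : V) (max R R') :=
        Metric.ball_subset_ball (le_max_left _ _) (hR (subset_tsupport _ hx))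
      have he : (fun x => g x * χ x) =ᶠ[𝓝 x] g := by
        filter_upwards [Metric.isOpen_ball.mem_nhds hx'] with y hy
        rw [hχ1 y (by simpa using hy), mul_one]
      unfold dd
      rw [he.fderiv_eq]
  have e2 : ∀ x, v x * (g x * χ x) = v x * g x := by
    intro x
    by_cases hx : v x = 0
    · rw [hx]; simp
    · have hx' : x ∈ Metric.ball (0 : V) (max R R') :=
        Metric.ball_subset_ball (le_max_right _ _) (hR' (subset_tsupport _ hx))
      rw [hχ1 x (by simpa using hx'), mul_one]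
  simp_rw [e1, e2] at h1
  exact h1

/-- complexification -/
def cx (w : V → ℝ) : V → ℂ := fun x => (w x : ℂ)

theorem fourier_cx {w : V → ℝ} (hw : Integrable w (volume : Measure V)) (ξ : V) :
    𝓕 (cx w) ξ = ((∫ x, w x * Real.cos (2 * Real.pi * ⟪x, ξ⟫) : ℝ) : ℂ) -
      Complex.I * ((∫ x, w x * Real.sin (2 * Real.pi * ⟪x, ξ⟫) : ℝ) : ℂ) := by
  rw [Real.fourier_eq']
  have hc : Continuous fun x : V => Real.cos (2 * Real.pi * ⟪x, ξ⟫) := by fun_prop
  have hs : Continuous fun x : V => Real.sin (2 * Real.pi * ⟪x, ξ⟫) := by fun_prop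
  have i1 : Integrable (fun x => w x * Real.cos (2 * Real.pi * ⟪x, ξ⟫)) (volume : Measure V) :=
    hw.mul_bdd (c := 1) hc.aestronglyMeasurable
      (Eventually.of_forall fun x => by simpa using Real.abs_cos_le_one _)
  have i2 : Integrable (fun x => w x * Real.sin (2 * Real.pi * ⟪x, ξ⟫)) (volume : Measure V) :=
    hw.mul_bdd (c := 1) hs.aestronglyMeasurable
      (Eventually.of_forall fun x => by simpa using Real.abs_sin_le_one _)
  rw [← integral_complex_ofReal, ← integral_complex_ofReal, ← integral_const_mul,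
    ← integral_sub i1.ofReal (i2.ofReal.const_mul _)]
  congr 1; ext x
  simp only [cx]
  have : Complex.exp (((-2 * Real.pi * ⟪x, ξ⟫ : ℝ) : ℂ) * Complex.I) =
      (Real.cos (2 * Real.pi * ⟪x, ξ⟫) : ℂ) - Complex.I * (Real.sin (2 * Real.pi * ⟪x, ξ⟫) : ℂ) := by
    rw [Complex.exp_mul_I, ← Complex.ofReal_cos, ← Complex.ofReal_sin]
    have h1 : (-2 * Real.pi * ⟪x, ξ⟫ : ℝ) = -(2 * Real.pi * ⟪x, ξ⟫) := by ring
    rw [h1, Real.cos_neg, Real.sin_neg]
    push_cast; ring
  rw [this, smul_eq_mul]
  push_cast; ring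

theorem dd_cos (d ξ x : V) : dd d (fun x : V => Real.cos (2 * Real.pi * ⟪x, ξ⟫)) x =
    -(2 * Real.pi * ⟪d, ξ⟫) * Real.sin (2 * Real.pi * ⟪x, ξ⟫) := by
  unfold dd
  have h0 : HasFDerivAt (fun x : V => 2 * Real.pi * ⟪x, ξ⟫)
      ((2 * Real.pi) • ((innerSL ℝ).flip ξ)) x := by
    have := ((innerSL ℝ).flip ξ).hasFDerivAt (x := x)
    exact this.const_mul (2 * Real.pi)
  have h1 := h0.cos
  rw [h1.fderiv]
  have h2 : ((innerSL ℝ).flip ξ) d = ⟪d, ξ⟫ := rfl
  simp only [FunLike.coe_smul, Pi.smul_apply, smul_eq_mul, h2]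
  ring

theorem dd_sin (d ξ x : V) : dd d (fun x : V => Real.sin (2 * Real.pi * ⟪x, ξ⟫)) x =
    (2 * Real.pi * ⟪d, ξ⟫) * Real.cos (2 * Real.pi * ⟪x, ξ⟫) := by
  unfold dd
  have h0 : HasFDerivAt (fun x : V => 2 * Real.pi * ⟪x, ξ⟫)
      ((2 * Real.pi) • ((innerSL ℝ).flip ξ)) x := by
    have := ((innerSL ℝ).flip ξ).hasFDerivAt (x := x)
    exact this.const_mul (2 * Real.pi)
  have h1 := h0.sin
  rw [h1.fderiv]
  have h2 : ((innerSL ℝ).flip ξ) d = ⟪d, ξ⟫ := rfl
  simp only [FunLike.coe_smul, Pi.smul_apply, smul_eq_mul, h2]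
  ring

/-- the Fourier transform of the weak derivative -/
theorem fourier_WD {d : V} {w v : V → ℝ} (h : WD d w v) (hwi : Integrable w (volume : Measure V))
    (hvi : Integrable v (volume : Measure V)) (hw : HasCompactSupport w)
    (hv : HasCompactSupport v) (ξ : V) :
    𝓕 (cx v) ξ = (2 * Real.pi * ⟪d, ξ⟫ : ℝ) * Complex.I * 𝓕 (cx w) ξ := by
  have hin : ContDiff ℝ ∞ fun x : V => 2 * Real.pi * ⟪x, ξ⟫ :=
    contDiff_const.mul (contDiff_id.inner ℝ contDiff_const)
  have hcos : ContDiff ℝ ∞ fun x : V => Real.cos (2 * Real.pi * ⟪x, ξ⟫) := hin.cos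
  have hsin : ContDiff ℝ ∞ fun x : V => Real.sin (2 * Real.pi * ⟪x, ξ⟫) := hin.sin
  have h1 := h.test_smooth hw hv hcos
  have h2 := h.test_smooth hw hv hsin
  simp_rw [dd_cos] at h1
  simp_rw [dd_sin] at h2
  have h3 : ∫ x, w x * (-(2 * Real.pi * ⟪d, ξ⟫) * Real.sin (2 * Real.pi * ⟪x, ξ⟫)) =
      -(2 * Real.pi * ⟪d, ξ⟫) * ∫ x, w x * Real.sin (2 * Real.pi * ⟪x, ξ⟫) := by
    rw [← integral_const_mul]; congr 1; ext x; ring
  have h4 : ∫ x, w x * ((2 * Real.pi * ⟪d, ξ⟫) * Real.cos (2 * Real.pi * ⟪x, ξ⟫)) =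
      (2 * Real.pi * ⟪d, ξ⟫) * ∫ x, w x * Real.cos (2 * Real.pi * ⟪x, ξ⟫) := by
    rw [← integral_const_mul]; congr 1; ext x; ring
  rw [h3] at h1
  rw [h4] at h2
  have h5 : ∫ x, v x * Real.cos (2 * Real.pi * ⟪x, ξ⟫) =
      (2 * Real.pi * ⟪d, ξ⟫) * ∫ x, w x * Real.sin (2 * Real.pi * ⟪x, ξ⟫) := by linarith
  have h6 : ∫ x, v x * Real.sin (2 * Real.pi * ⟪x, ξ⟫) =
      -(2 * Real.pi * ⟪d, ξ⟫) * ∫ x, w x * Real.cos (2 * Real.pi * ⟪x, ξ⟫) := by linarith
  rw [fourier_cx hwi, fourier_cx hvi, h5, h6]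
  push_cast
  ring_nf
  rw [Complex.I_sq]
  ring

theorem norm_fourier_cx_le {w : V → ℝ} (ξ : V) : ‖𝓕 (cx w) ξ‖ ≤ ∫ x, |w x| := by
  have := VectorFourier.norm_fourierIntegral_le_integral_norm 𝐞 (volume : Measure V) (innerₗ V)
    (cx w) ξ
  refine this.trans (le_of_eq ?_)
  congr 1; ext x
  simp [cx]

variable {ι : Type*} [Fintype ι]

theorem norm_le_sum_inner (b : OrthonormalBasis ι ℝ V) (ξ : V) : ‖ξ‖ ≤ ∑ i, |⟪b i, ξ⟫| := by
  conv_lhs => rw [← b.sum_repr ξ]
  refine (norm_sum_le _ _).trans (Finset.sum_le_sum fun i _ => ?_)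
  rw [norm_smul, b.repr_apply_apply]
  simp

theorem fourier_decay (b : OrthonormalBasis ι ℝ V) (N : ℕ) : ∀ {w : V → ℝ},
    HasCompactSupport w → Sob b N w → ∃ C, ∀ ξ : V, ‖ξ‖ ^ N * ‖𝓕 (cx w) ξ‖ ≤ C := by
  induction N with
  | zero =>
    intro w _ _
    exact ⟨∫ x, |w x|, fun ξ => by simpa using norm_fourier_cx_le ξ⟩
  | succ N ih =>
    intro w hc hS
    have : ∀ i, ∃ v, WD (b i) w v ∧ HasCompactSupport v ∧ Sob b N v := by
      intro i
      obtain ⟨v, hv, hvS⟩ := hS.2 i
      obtain ⟨χ, hχ, hχ'⟩ := exists_compact_WD hS.locInt hc hvS.locInt hv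
      exact ⟨_, hχ', hχ.2.mul_right, hvS.test_mul hχ⟩
    choose v hv hvc hvS using this
    choose C hC using fun i => ih (hvc i) (hvS i)
    refine ⟨∑ i, C i, fun ξ => ?_⟩
    have h1 : ∀ i, |⟪b i, ξ⟫| * (‖ξ‖ ^ N * ‖𝓕 (cx w) ξ‖) ≤ C i := by
      intro i
      have h2 := hC i ξ
      rw [fourier_WD (hv i) (integrable_of_compact hS.locInt hc)
        (integrable_of_compact (hvS i).locInt (hvc i)) hc (hvc i), norm_mul, norm_mul,
        Complex.norm_I, Complex.norm_real, mul_one, Real.norm_eq_abs, abs_mul, abs_mul] at h2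
      have h3 : (1 : ℝ) ≤ |2| * |Real.pi| := by
        rw [abs_two, abs_of_pos Real.pi_pos]
        linarith [Real.pi_gt_three]
      have h4 : 0 ≤ |⟪b i, ξ⟫| * (‖ξ‖ ^ N * ‖𝓕 (cx w) ξ‖) := by positivity
      nlinarith [mul_le_mul_of_nonneg_right h3 h4]
    calc ‖ξ‖ ^ (N + 1) * ‖𝓕 (cx w) ξ‖ = ‖ξ‖ * (‖ξ‖ ^ N * ‖𝓕 (cx w) ξ‖) := by ring
      _ ≤ (∑ i, |⟪b i, ξ⟫|) * (‖ξ‖ ^ N * ‖𝓕 (cx w) ξ‖) := by
        gcongr; exact norm_le_sum_inner b ξ
      _ = ∑ i, |⟪b i, ξ⟫| * (‖ξ‖ ^ N * ‖𝓕 (cx w) ξ‖) := by rw [Finset.sum_mul]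
      _ ≤ ∑ i, C i := Finset.sum_le_sum fun i _ => h1 i

theorem integrable_cx {w : V → ℝ} (hw : Integrable w (volume : Measure V)) :
    Integrable (cx w) (volume : Measure V) := hw.ofReal

theorem continuous_fourier_cx {w : V → ℝ} (hw : Integrable w (volume : Measure V)) :
    Continuous (𝓕 (cx w)) :=
  VectorFourier.fourierIntegral_continuous Real.continuous_fourierChar
    (by exact continuous_inner) (integrable_cx hw)

theorem integrable_fourier (b : OrthonormalBasis ι ℝ V) {w : V → ℝ} (hc : HasCompactSupport w)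
    (hS : ∀ k, Sob b k w) (m : ℕ) :
    Integrable (fun ξ => ‖ξ‖ ^ m * ‖𝓕 (cx w) ξ‖) (volume : Measure V) := by
  have hwi := integrable_of_compact (hS 0).locInt hc
  set r : ℕ := Module.finrank ℝ V + 1 with hr
  obtain ⟨C1, hC1⟩ := fourier_decay b m hc (hS m)
  obtain ⟨C2, hC2⟩ := fourier_decay b (m + r) hc (hS (m + r))
  have hint : Integrable (fun ξ : V => (2 ^ r * (C1 + C2)) * (1 + ‖ξ‖) ^ (-(r : ℝ)))
      (volume : Measure V) := by
    apply Integrable.const_mul
    apply integrable_one_add_norm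
    rw [hr]; push_cast; linarith
  have hcont := continuous_fourier_cx hwi
  refine hint.mono' (by fun_prop) (Eventually.of_forall fun ξ => ?_)
  have hpos : (0 : ℝ) < 1 + ‖ξ‖ := by positivity
  rw [Real.norm_of_nonneg (by positivity), Real.rpow_neg hpos.le, Real.rpow_natCast,
    ← div_eq_mul_inv, le_div_iff₀ (by positivity)]
  have h1 : (1 + ‖ξ‖) ^ r ≤ 2 ^ r * (1 + ‖ξ‖ ^ r) := by
    rcases le_total ‖ξ‖ 1 with h | h
    · calc (1 + ‖ξ‖) ^ r ≤ 2 ^ r := by gcongr; linarith
        _ = 2 ^ r * 1 := by ring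
        _ ≤ 2 ^ r * (1 + ‖ξ‖ ^ r) := by gcongr; linarith [pow_nonneg (norm_nonneg ξ) r]
    · calc (1 + ‖ξ‖) ^ r ≤ (2 * ‖ξ‖) ^ r := by gcongr; linarith
        _ = 2 ^ r * ‖ξ‖ ^ r := by rw [mul_pow]
        _ ≤ 2 ^ r * (1 + ‖ξ‖ ^ r) := by gcongr; linarith
  calc ‖ξ‖ ^ m * ‖𝓕 (cx w) ξ‖ * (1 + ‖ξ‖) ^ r
      ≤ ‖ξ‖ ^ m * ‖𝓕 (cx w) ξ‖ * (2 ^ r * (1 + ‖ξ‖ ^ r)) := by gcongr
    _ = 2 ^ r * (‖ξ‖ ^ m * ‖𝓕 (cx w) ξ‖ + ‖ξ‖ ^ (m + r) * ‖𝓕 (cx w) ξ‖) := by ring
    _ ≤ 2 ^ r * (C1 + C2) := by
      have := hC1 ξ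
      have := hC2 ξ
      gcongr

/-- **Sobolev embedding**: a compactly supported function with all weak derivatives in L² is
smooth. -/
theorem smooth_of_sob (b : OrthonormalBasis ι ℝ V) {w : V → ℝ} (hc : HasCompactSupport w)
    (hS : ∀ k, Sob b k w) : ∃ v : V → ℝ, ContDiff ℝ ∞ v ∧ w =ᵐ[volume] v := by
  have hwi := integrable_of_compact (hS 0).locInt hc
  have hA : Integrable (𝓕 (cx w)) (volume : Measure V) := by
    have := integrable_fourier b hc hS 0
    simp only [pow_zero, one_mul] at this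
    exact (integrable_norm_iff (continuous_fourier_cx hwi).aestronglyMeasurable).mp this
  have hg : ContDiff ℝ ∞ (𝓕⁻ (𝓕 (cx w))) := by
    have h1 : ContDiff ℝ ((⊤ : ℕ∞) : WithTop ℕ∞) (𝓕 (𝓕 (cx w))) :=
      Real.contDiff_fourier (N := ⊤) fun m _ => integrable_fourier b hc hS m
    have h2 : 𝓕⁻ (𝓕 (cx w)) = fun x => 𝓕 (𝓕 (cx w)) (-x) := by
      ext x; rw [Real.fourierInv_eq_fourier_neg]
    rw [h2]
    exact h1.comp contDiff_neg
  refine ⟨fun x => (𝓕⁻ (𝓕 (cx w)) x).re, Complex.reCLM.contDiff.comp hg, ?_⟩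
  have key : cx w =ᵐ[volume] 𝓕⁻ (𝓕 (cx w)) := by
    apply ae_eq_of_integral_contDiff_smul_eq (integrable_cx hwi).locallyIntegrable
      hg.continuous.locallyIntegrable
    intro φ hφ hφc
    have hT : Test φ := ⟨hφ, hφc⟩
    have hφi : Integrable (cx φ) (volume : Measure V) := integrable_cx hT.integrable
    have hφA : Integrable (𝓕 (cx φ)) (volume : Measure V) := by
      have := integrable_fourier b hφc (fun k => Sob.of_test hT k) 0
      simp only [pow_zero, one_mul] at this
      exact (integrable_norm_iff (continuous_fourier_cx hT.integrable).aestronglyMeasurable).mp this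
    have hφcont : Continuous (cx φ) := Complex.continuous_ofReal.comp hT.continuous
    -- 𝓕⁻ (cx φ) is integrable
    have hφA' : Integrable (𝓕⁻ (cx φ)) (volume : Measure V) := by
      have h2 : 𝓕⁻ (cx φ) = fun x => 𝓕 (cx φ) (-x) := by
        ext x; rw [Real.fourierInv_eq_fourier_neg]
      rw [h2]
      exact hφA.comp_neg
    have f1 : ∫ x, 𝓕⁻ (𝓕 (cx w)) x * cx φ x = ∫ x, 𝓕 (cx w) x * 𝓕⁻ (cx φ) x := by
      have := VectorFourier.integral_fourierIntegral_smul_eq_flip (L := -innerₗ V)
        (f := 𝓕 (cx w)) (g := cx φ) Real.continuous_fourierChar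
        (by
          have h0 : Continuous fun p : V × V => -⟪p.1, p.2⟫ := by fun_prop
          exact h0) hA hφi
      simp only [smul_eq_mul] at this
      have hfl : (-innerₗ V).flip = -innerₗ V := by
        ext x y; simp [real_inner_comm]
      rw [hfl] at this
      exact this
    have f2 : ∫ x, 𝓕 (cx w) x * 𝓕⁻ (cx φ) x = ∫ x, cx w x * 𝓕 (𝓕⁻ (cx φ)) x := by
      have := VectorFourier.integral_fourierIntegral_smul_eq_flip (L := innerₗ V)
        (f := cx w) (g := 𝓕⁻ (cx φ)) Real.continuous_fourierChar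
        (by exact continuous_inner) (integrable_cx hwi) hφA'
      simp only [smul_eq_mul, flip_innerₗ] at this
      exact this
    rw [hφcont.fourier_fourierInv_eq hφi hφA] at f2
    have g1 : ∫ x, φ x • cx w x = ∫ x, cx w x * cx φ x := by
      congr 1; ext x
      rw [Complex.real_smul, mul_comm]; rfl
    have g2 : ∫ x, φ x • 𝓕⁻ (𝓕 (cx w)) x = ∫ x, 𝓕⁻ (𝓕 (cx w)) x * cx φ x := by
      congr 1; ext x
      rw [Complex.real_smul, mul_comm]; rfl
    rw [g1, g2, f1, f2]
  filter_upwards [key] with x hx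
  rw [← hx]; simp [cx]

end Crest.Agent.R249.EV
end

-- ▼ part R249/EVMain_330
section

/-! (copy of Crest/Agent/R202/EllMain in the namespace R249.EV, to avoid the name clash with R202/Ell1..Ell7; helper330)
Row 202: elliptic regularity, final statement: weak solutions with smooth coefficients are
smooth. -/

set_option autoImplicit false
open MeasureTheory Filter Topology Set
open scoped ENNReal NNReal ContDiff RealInnerProductSpace

namespace Crest.Agent.R249.EV

variable {V : Type*} [NormedAddCommGroup V] [InnerProductSpace ℝ V] [FiniteDimensional ℝ V]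
  [MeasurableSpace V] [BorelSpace V]
variable {ι : Type*} [Fintype ι]

/-- a function all of whose localisations are a.e. smooth is a.e. smooth -/
theorem smooth_of_local {u : V → ℝ}
    (h : ∀ η : V → ℝ, Test η → ∃ v : V → ℝ, ContDiff ℝ ∞ v ∧
      (fun x => η x * u x) =ᵐ[volume] v) : ∃ v : V → ℝ, ContDiff ℝ ∞ v ∧ u =ᵐ[volume] v := by
  have h1 : ∀ n : ℕ, ∃ v : V → ℝ, ContDiff ℝ ∞ v ∧
      ∀ᵐ x ∂(volume : Measure V), x ∈ Metric.ball (0 : V) n → u x = v x := by
    intro n
    obtain ⟨χ, hχ, -, -, hχ1⟩ := exists_cutoff (V := V) (n : ℝ)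
    obtain ⟨v, hv, hv'⟩ := h χ hχ
    refine ⟨v, hv, ?_⟩
    filter_upwards [hv'] with x hx hxn
    rw [← hx, hχ1 x (by simpa using hxn), one_mul]
  choose v hv hvu using h1
  -- consistency on balls
  have hcons : ∀ m n : ℕ, m ≤ n → ∀ x ∈ Metric.ball (0 : V) m, v m x = v n x := by
    intro m n hmn x hx
    have hsub : Metric.ball (0 : V) m ⊆ Metric.ball (0 : V) n :=
      Metric.ball_subset_ball (by exact_mod_cast hmn)
    have hae : ∀ᵐ y ∂(volume.restrict (Metric.ball (0 : V) m)), v m y = v n y := by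
      rw [ae_restrict_iff' Metric.isOpen_ball.measurableSet]
      filter_upwards [hvu m, hvu n] with y h1 h2 hy
      rw [← h1 hy, ← h2 (hsub hy)]
    exact Measure.eqOn_open_of_ae_eq hae Metric.isOpen_ball (hv m).continuous.continuousOn
      (hv n).continuous.continuousOn hx
  let N : V → ℕ := fun x => ⌈‖x‖⌉₊ + 1
  have hN : ∀ x, x ∈ Metric.ball (0 : V) (N x) := by
    intro x
    simp only [Metric.mem_ball, dist_zero_right, N]
    push_cast
    linarith [Nat.le_ceil ‖x‖]
  refine ⟨fun x => v (N x) x, ?_, ?_⟩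
  · rw [contDiff_iff_contDiffAt]
    intro x
    have he : (fun y => v (N y) y) =ᶠ[𝓝 x] v (N x) := by
      filter_upwards [Metric.isOpen_ball.mem_nhds (hN x)] with y hy
      rcases le_total (N x) (N y) with hxy | hxy
      · exact (hcons _ _ hxy y hy).symm
      · exact hcons _ _ hxy y (hN y)
    exact (hv (N x)).contDiffAt.congr_of_eventuallyEq he
  · filter_upwards [ae_all_iff.mpr hvu] with x hx
    exact hx (N x) (hN x)

/-- **Elliptic regularity** (coordinate free version): `e` an orthonormal basis. -/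
theorem regularity (e : OrthonormalBasis ι ℝ V) {a : ι → ι → V → ℝ}
    (ha : ∀ i j, ContDiff ℝ ∞ (a i j))
    (hpos : ∀ (x : V) (ξ : ι → ℝ), ξ ≠ 0 → 0 < ∑ i, ∑ j, a i j x * ξ j * ξ i)
    {u f : V → ℝ} {u' : ι → V → ℝ} (hu : L2loc u) (hu' : ∀ i, L2loc (u' i))
    (hW : ∀ i, WD (e i) u (u' i)) (hf : ContDiff ℝ ∞ f)
    (heq : ∀ φ : V → ℝ, Test φ →
      ∑ i, ∫ x, (∑ j, a i j x * u' j x) * dd (e i) φ x = ∫ x, f x * φ x) :
    ∃ v : V → ℝ, ContDiff ℝ ∞ v ∧ u =ᵐ[volume] v ∧ (∀ i, u' i =ᵐ[volume] dd (e i) v) ∧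
      ∀ x, ∑ i, dd (e i) (fun x => ∑ j, a i j x * dd (e j) v x) x = - f x := by
  obtain ⟨v, hv, huv⟩ := smooth_of_local (u := u) fun η hη =>
    smooth_of_sob e hη.2.mul_right fun k => (loc_reg ha hpos hu hu' hW hf heq k η hη).pred
  have hdv : ∀ i, u' i =ᵐ[volume] dd (e i) v := by
    intro i
    have h1 : WD (e i) u (dd (e i) v) := (WD.of_smooth hv).congr huv.symm (ae_eq_refl _)
    exact (hW i).unique h1 (hu' i).1 (contDiff_dd hv _).continuous.locallyIntegrable
  refine ⟨v, hv, huv, hdv, ?_⟩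
  set G : ι → V → ℝ := fun i x => ∑ j, a i j x * dd (e j) v x with hG
  have hGs : ∀ i, ContDiff ℝ ∞ (G i) := fun i =>
    ContDiff.sum fun j _ => (ha i j).mul (contDiff_dd hv _)
  have hsum : ContDiff ℝ ∞ fun x => ∑ i, dd (e i) (G i) x :=
    ContDiff.sum fun i _ => contDiff_dd (hGs i) _
  have hae : (fun x => ∑ i, dd (e i) (G i) x) =ᵐ[volume] fun x => - f x := by
    apply ae_eq_of_integral_contDiff_smul_eq hsum.continuous.locallyIntegrable
      hf.neg.continuous.locallyIntegrable
    intro φ hφ hφc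
    have hT : Test φ := ⟨hφ, hφc⟩
    have h1 := heq φ hT
    have h2 : ∀ i, ∫ x, (∑ j, a i j x * u' j x) * dd (e i) φ x = - ∫ x, dd (e i) (G i) x * φ x := by
      intro i
      rw [← WD.of_smooth (hGs i) φ hT]
      apply integral_congr_ae
      filter_upwards [ae_all_iff.mpr hdv] with x hx
      simp only [hG]
      congr 1
      exact Finset.sum_congr rfl fun j _ => by rw [hx j]
    simp_rw [h2] at h1
    have h3 : ∫ x, φ x • ∑ i, dd (e i) (G i) x = ∑ i, ∫ x, dd (e i) (G i) x * φ x := by
      rw [← integral_finsetSum]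
      · congr 1; ext x
        rw [smul_eq_mul, Finset.mul_sum]
        exact Finset.sum_congr rfl fun i _ => mul_comm _ _
      · intro i _
        exact integrable_loc_mul (contDiff_dd (hGs i) _).continuous.locallyIntegrable hT
    have h4 : ∫ x, φ x • (- f x) = - ∫ x, f x * φ x := by
      rw [← integral_neg]; congr 1; ext x; rw [smul_eq_mul]; ring
    rw [h3, h4, ← h1, Finset.sum_neg_distrib, neg_neg]
  have := (hsum.continuous.ae_eq_iff_eq volume hf.neg.continuous).mp hae
  exact fun x => congrFun this x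

end Crest.Agent.R249.EV
end

-- ▼ part R249/SReg1_352
section

/-!
Row 249, leaf C-REG (helper352), part 1: function spaces on an open set `U` (test functions with
support in `U`, weak derivatives on `U`, local square integrability on `U`), localisation, and the
local coefficients extended to the whole space.
-/

set_option autoImplicit false
set_option linter.unusedSectionVars false
open MeasureTheory Filter Topology Set
open scoped ENNReal NNReal ContDiff RealInnerProductSpace Manifold

namespace Crest.Agent.R249.SReg352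
open Crest.Agent.R249.EV

variable {V : Type*} [NormedAddCommGroup V] [InnerProductSpace ℝ V] [FiniteDimensional ℝ V]
variable {ι κ : Type*} [Fintype ι] [Fintype κ]

/-- test functions with support in `U` -/
def TO (U : Set V) (φ : V → ℝ) : Prop := Test φ ∧ tsupport φ ⊆ U

theorem tsupport_dd_subset (d : V) (φ : V → ℝ) : tsupport (dd d φ) ⊆ tsupport φ := by
  have h1 : Function.support (dd d φ) ⊆ Function.support (fderiv ℝ φ) := by
    intro x hx h0
    apply hx
    unfold dd
    rw [h0]; simp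
  exact (closure_mono h1).trans (tsupport_fderiv_subset ℝ)

theorem TO.dd {U : Set V} {φ : V → ℝ} (h : TO U φ) (d : V) : TO U (dd d φ) :=
  ⟨h.1.dd d, (tsupport_dd_subset d φ).trans h.2⟩

theorem TO.zero_off {U : Set V} {φ : V → ℝ} (h : TO U φ) {x : V} (hx : x ∉ U) : φ x = 0 :=
  image_eq_zero_of_notMem_tsupport fun h' => hx (h.2 h')

theorem TO.mul_on {U : Set V} (hU : IsOpen U) {φ a : V → ℝ} (h : TO U φ)
    (ha : ContDiffOn ℝ ∞ a U) : TO U (fun x => a x * φ x) := by
  have hs : tsupport (fun x => a x * φ x) ⊆ tsupport φ := tsupport_mul_subset_right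
  refine ⟨⟨?_, h.1.2.mul_left⟩, hs.trans h.2⟩
  rw [contDiff_iff_contDiffAt]
  intro x
  by_cases hx : x ∈ U
  · exact (ha.contDiffAt (hU.mem_nhds hx)).mul h.1.1.contDiffAt
  · have hx' : x ∉ tsupport φ := fun h' => hx (h.2 h')
    have : (fun x => a x * φ x) =ᶠ[nhds x] fun _ => 0 := by
      have h1 : ∀ᶠ y in nhds x, y ∉ tsupport φ :=
        (isClosed_tsupport φ).isOpen_compl.mem_nhds hx'
      filter_upwards [h1] with y hy
      rw [image_eq_zero_of_notMem_tsupport hy, mul_zero]
    exact contDiffAt_const.congr_of_eventuallyEq this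

theorem TO.mul {U : Set V} {φ a : V → ℝ} (h : TO U φ)
    (ha : ContDiff ℝ ∞ a) : TO U (fun x => a x * φ x) :=
  ⟨h.1.smooth_mul ha, (tsupport_mul_subset_right).trans h.2⟩

theorem TO.add {U : Set V} {φ ψ : V → ℝ} (h : TO U φ) (h' : TO U ψ) :
    TO U (fun x => φ x + ψ x) :=
  ⟨h.1.add h'.1, (closure_minimal (fun x hx => by
    by_contra hx'
    simp only [mem_union, not_or] at hx'
    exact hx (by
      show φ x + ψ x = 0
      rw [image_eq_zero_of_notMem_tsupport hx'.1, image_eq_zero_of_notMem_tsupport hx'.2,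
        add_zero])) ((isClosed_tsupport φ).union (isClosed_tsupport ψ))).trans
    (union_subset h.2 h'.2)⟩

theorem contDiffOn_dd {U : Set V} (hU : IsOpen U) {a : V → ℝ} (ha : ContDiffOn ℝ ∞ a U) (d : V) :
    ContDiffOn ℝ ∞ (dd d a) U := by
  have h1 : ContDiffOn ℝ ∞ (fderiv ℝ a) U := ha.fderiv_of_isOpen hU (by simp)
  exact h1.clm_apply contDiffOn_const

theorem exists_cut {U K : Set V} (hU : IsOpen U) (hK : IsCompact K) (hKU : K ⊆ U) :
    ∃ χ : V → ℝ, TO U χ ∧ (∀ x, 0 ≤ χ x) ∧ (∀ x, χ x ≤ 1) ∧ ∀ᶠ x in 𝓝ˢ K, χ x = 1 := by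
  obtain ⟨t, ht, hKt, htU⟩ := exists_compact_between hK hU hKU
  obtain ⟨f, hf1, hf0, hf2⟩ := exists_contMDiffMap_one_nhds_of_subset_interior (n := (⊤ : ℕ∞))
    (modelWithCornersSelf ℝ V) hK.isClosed hKt
  have hsup : tsupport (f : V → ℝ) ⊆ t :=
    closure_minimal (fun x hx => by
      by_contra h; exact hx (hf0 x h)) ht.isClosed
  exact ⟨f, ⟨⟨f.contMDiff.contDiff, HasCompactSupport.of_support_subset_isCompact ht
    ((subset_tsupport _).trans hsup)⟩, hsup.trans htU⟩, fun x => (hf2 x).1, fun x => (hf2 x).2, hf1⟩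

/-- uniform ellipticity on compact sets, coefficients continuous on the set only -/
theorem exists_ell_on {a : ι → ι → V → ℝ} {K : Set V} (hK : IsCompact K)
    (ha : ∀ i j, ContinuousOn (a i j) K)
    (hpos : ∀ x ∈ K, ∀ ξ : ι → ℝ, ξ ≠ 0 → 0 < ∑ i, ∑ j, a i j x * ξ j * ξ i) :
    ∃ lam : ℝ, 0 < lam ∧ ∀ x ∈ K, ∀ ξ : ι → ℝ,
      lam * ∑ i, ξ i ^ 2 ≤ ∑ i, ∑ j, a i j x * ξ j * ξ i := by
  classical
  let S : Set (EuclideanSpace ℝ ι) := Metric.sphere 0 1
  have hS : IsCompact S := isCompact_sphere _ _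
  let F : V × EuclideanSpace ℝ ι → ℝ := fun p => ∑ i, ∑ j, a i j p.1 * p.2 j * p.2 i
  have hF : ContinuousOn F (K ×ˢ S) := by
    apply continuousOn_finsetSum; intro i _
    apply continuousOn_finsetSum; intro j _
    have h1 : ContinuousOn (fun p : V × EuclideanSpace ℝ ι => a i j p.1) (K ×ˢ S) :=
      (ha i j).comp continuous_fst.continuousOn fun p hp => hp.1
    have h2 : Continuous (fun p : V × EuclideanSpace ℝ ι => p.2 j) := by fun_prop
    have h3 : Continuous (fun p : V × EuclideanSpace ℝ ι => p.2 i) := by fun_prop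
    exact (h1.mul h2.continuousOn).mul h3.continuousOn
  have main : ∃ lam : ℝ, 0 < lam ∧ ∀ x ∈ K, ∀ ξ ∈ S, lam ≤ F (x, ξ) := by
    rcases (K ×ˢ S).eq_empty_or_nonempty with h0 | hne
    · refine ⟨1, one_pos, fun x hx ξ hξ => ?_⟩
      have : (x, ξ) ∈ K ×ˢ S := ⟨hx, hξ⟩
      rw [h0] at this; exact absurd this (notMem_empty _)
    · obtain ⟨p, hp, hmin⟩ := (hK.prod hS).exists_isMinOn hne hF
      refine ⟨F p, ?_, fun x hx ξ hξ => hmin (show (x, ξ) ∈ K ×ˢ S from ⟨hx, hξ⟩)⟩
      apply hpos p.1 hp.1 (fun i => p.2 i)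
      intro h
      have h1 : p.2 = 0 := by
        ext i; exact congrFun h i
      have h2 : ‖p.2‖ = 1 := by simpa [S] using hp.2
      rw [h1, norm_zero] at h2
      exact zero_ne_one h2
  obtain ⟨lam, hlam, hl⟩ := main
  refine ⟨lam, hlam, fun x hx ξ => ?_⟩
  let ζ : EuclideanSpace ℝ ι := WithLp.toLp 2 ξ
  have hζ : ∀ i, ζ i = ξ i := fun i => rfl
  have hn : ‖ζ‖ ^ 2 = ∑ i, ξ i ^ 2 := by
    rw [EuclideanSpace.real_norm_sq_eq]
  rcases eq_or_ne ζ 0 with h0 | h0
  · have h1 : ∀ i, ξ i = 0 := fun i => by rw [← hζ, h0]; rfl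
    simp [h1]
  · have hpos' : 0 < ‖ζ‖ := norm_pos_iff.mpr h0
    have hz : ‖ζ‖⁻¹ • ζ ∈ S := by
      simp only [S, mem_sphere_iff_norm, sub_zero, norm_smul, norm_inv, norm_norm]
      exact inv_mul_cancel₀ hpos'.ne'
    have h1 := hl x hx _ hz
    have h2 : F (x, ‖ζ‖⁻¹ • ζ) = (‖ζ‖⁻¹) ^ 2 * ∑ i, ∑ j, a i j x * ξ j * ξ i := by
      simp only [F, Finset.mul_sum]
      refine Finset.sum_congr rfl fun i _ => Finset.sum_congr rfl fun j _ => ?_
      simp only [PiLp.smul_apply, smul_eq_mul, hζ]
      ring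
    rw [h2] at h1
    rw [← hn]
    have h3 := mul_le_mul_of_nonneg_right h1 (sq_nonneg ‖ζ‖)
    have h4 : (‖ζ‖⁻¹) ^ 2 * (∑ i, ∑ j, a i j x * ξ j * ξ i) * ‖ζ‖ ^ 2 =
        ∑ i, ∑ j, a i j x * ξ j * ξ i := by
      field_simp
    rw [h4] at h3
    exact h3

/-- extension of coefficients given on an open set to the whole space -/
theorem exists_coef_on [DecidableEq ι] {U K : Set V} (hU : IsOpen U) (hK : IsCompact K)
    (hKU : K ⊆ U) {a : ι → ι → V → ℝ} (ha : ∀ i j, ContDiffOn ℝ ∞ (a i j) U)
    (hpos : ∀ x ∈ U, ∀ ξ : ι → ℝ, ξ ≠ 0 → 0 < ∑ i, ∑ j, a i j x * ξ j * ξ i) :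
    ∃ (b : ι → ι → V → ℝ) (lam : ℝ), Coef b (fun i j => if i = j then 1 else 0) lam ∧
      ∀ i j, ∀ x ∈ K, b i j x = a i j x := by
  obtain ⟨χ, hχ, h0, h1, hR⟩ := exists_cut hU hK hKU
  obtain ⟨lam, hlam, hl⟩ := exists_ell_on hχ.1.2.isCompact
    (fun i j => (ha i j).continuousOn.mono hχ.2) fun x hx => hpos x (hχ.2 hx)
  refine ⟨fun i j x => χ x * a i j x + (1 - χ x) * (if i = j then 1 else 0), min lam 1,
    ⟨by positivity, ?_, ?_⟩, ?_⟩
  · intro i j
    have : Test (fun x => (a i j x - (if i = j then (1 : ℝ) else 0)) * χ x) :=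
      (hχ.mul_on hU ((ha i j).sub contDiffOn_const)).1
    convert this using 1
    ext x; ring
  · intro x ξ
    have e1 : ∑ i, ∑ j, (χ x * a i j x + (1 - χ x) * (if i = j then (1 : ℝ) else 0)) * ξ j * ξ i =
        χ x * (∑ i, ∑ j, a i j x * ξ j * ξ i) + (1 - χ x) * ∑ i, ξ i ^ 2 := by
      rw [Finset.mul_sum, Finset.mul_sum, ← Finset.sum_add_distrib]
      refine Finset.sum_congr rfl fun i _ => ?_
      have : ∑ j, (χ x * a i j x + (1 - χ x) * (if i = j then (1 : ℝ) else 0)) * ξ j * ξ i =
          ∑ j, (χ x * (a i j x * ξ j * ξ i)) +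
          ∑ j, (if i = j then (1 - χ x) * ξ j * ξ i else 0) := by
        rw [← Finset.sum_add_distrib]
        refine Finset.sum_congr rfl fun j _ => ?_
        split_ifs <;> ring
      rw [this, Finset.sum_ite_eq, ← Finset.mul_sum]
      simp; ring
    rw [e1]
    have hs : 0 ≤ ∑ i, ξ i ^ 2 := Finset.sum_nonneg fun i _ => sq_nonneg _
    by_cases hx : x ∈ tsupport χ
    · have h2 := hl x hx ξ
      have h3 : min lam 1 * ∑ i, ξ i ^ 2 ≤ lam * ∑ i, ξ i ^ 2 := by gcongr; exact min_le_left _ _
      have h4 : min lam 1 * ∑ i, ξ i ^ 2 ≤ 1 * ∑ i, ξ i ^ 2 := by gcongr; exact min_le_right _ _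
      have h5 := h0 x
      have h6 := h1 x
      nlinarith [mul_le_mul_of_nonneg_left (h3.trans h2) h5,
        mul_le_mul_of_nonneg_left h4 (sub_nonneg.mpr h6)]
    · have : χ x = 0 := image_eq_zero_of_notMem_tsupport hx
      rw [this]
      have h4 : min lam 1 * ∑ i, ξ i ^ 2 ≤ 1 * ∑ i, ξ i ^ 2 := by gcongr; exact min_le_right _ _
      linarith
  · intro i j x hx
    have := hR.self_of_nhdsSet x hx
    simp only [this]; ring

variable [MeasurableSpace V] [BorelSpace V]

/-- locally integrable and locally square integrable on `U` -/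
def L2on (U : Set V) (u : V → ℝ) : Prop :=
  LocallyIntegrableOn u U (volume : Measure V) ∧
    LocallyIntegrableOn (fun x => u x ^ 2) U (volume : Measure V)

/-- weak derivative on `U` -/
def WDon (U : Set V) (d : V) (u v : V → ℝ) : Prop :=
  ∀ φ : V → ℝ, TO U φ → ∫ x, u x * dd d φ x = - ∫ x, v x * φ x

theorem integrable_test_mul {U : Set V} {g φ : V → ℝ}
    (hg : LocallyIntegrableOn g U (volume : Measure V)) (hφ : TO U φ) :
    Integrable (fun x => φ x * g x) (volume : Measure V) := by
  have hI : Integrable ((tsupport φ).indicator g) (volume : Measure V) := by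
    rw [integrable_indicator_iff (isClosed_tsupport φ).measurableSet]
    exact hg.integrableOn_compact_subset hφ.2 hφ.1.2.isCompact
  obtain ⟨C, hC⟩ := hφ.1.2.exists_bound_of_continuous hφ.1.continuous
  refine (hI.mul_bdd hφ.1.continuous.aestronglyMeasurable (Eventually.of_forall hC)).congr
    (Eventually.of_forall fun x => ?_)
  by_cases hx : x ∈ tsupport φ
  · simp only [Set.indicator_of_mem hx, mul_comm]
  · simp only [Set.indicator_of_notMem hx, image_eq_zero_of_notMem_tsupport hx, zero_mul]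

theorem integrable_mul_test {U : Set V} {g φ : V → ℝ}
    (hg : LocallyIntegrableOn g U (volume : Measure V)) (hφ : TO U φ) :
    Integrable (fun x => g x * φ x) (volume : Measure V) :=
  (integrable_test_mul hg hφ).congr (Eventually.of_forall fun x => mul_comm _ _)

theorem L2on.test_mul {U : Set V} {u η : V → ℝ} (h : L2on U u) (hη : TO U η) :
    MemLp (fun x => η x * u x) 2 (volume : Measure V) := by
  have hm : AEStronglyMeasurable (fun x => η x * u x) (volume : Measure V) :=
    (integrable_test_mul h.1 hη).aestronglyMeasurable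
  rw [memLp_two_iff_integrable_sq hm]
  have := integrable_test_mul h.2 (hη.mul hη.1.1)
  refine this.congr (Eventually.of_forall fun x => ?_)
  simp only; ring

theorem locInt_mul_on {U : Set V} (hU : IsOpen U) {a u : V → ℝ}
    (hu : LocallyIntegrableOn u U (volume : Measure V))
    (ha : ContinuousOn a U) : LocallyIntegrableOn (fun x => a x * u x) U (volume : Measure V) := by
  exact hu.continuousOn_mul ha hU.isLocallyClosed

theorem locInt_of_test {U : Set V} {g φ : V → ℝ}
    (hg : LocallyIntegrableOn g U (volume : Measure V)) (hφ : TO U φ) :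
    LocallyIntegrable (fun x => φ x * g x) (volume : Measure V) :=
  (integrable_test_mul hg hφ).locallyIntegrable

theorem WDon.smooth_mul {U : Set V} {d : V} {u v η : V → ℝ}
    (hu : LocallyIntegrableOn u U (volume : Measure V))
    (hv : LocallyIntegrableOn v U (volume : Measure V))
    (h : WDon U d u v) (hη : TO U η) :
    WD d (fun x => η x * u x) (fun x => dd d η x * u x + η x * v x) := by
  intro φ hφ
  have hφη : TO U (fun x => η x * φ x) := by
    have := hη.mul hφ.1
    refine ⟨hφ.smooth_mul hη.1.1, ?_⟩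
    exact (tsupport_mul_subset_left).trans hη.2
  have h1 := h _ hφη
  have e1 : ∀ x, u x * dd d (fun x => η x * φ x) x =
      dd d η x * u x * φ x + η x * u x * dd d φ x := by
    intro x
    rw [dd_mul d (hη.1.1.differentiable (by simp)) (hφ.1.differentiable (by simp))]
    ring
  have hd : Integrable (fun x => dd d η x * u x * φ x) (volume : Measure V) := by
    refine (integrable_test_mul hu (φ := fun x => φ x * dd d η x) ((hη.dd d).mul hφ.1)).congr
      (Eventually.of_forall fun x => ?_)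
    simp only; ring
  have he : Integrable (fun x => η x * u x * dd d φ x) (volume : Measure V) := by
    refine (integrable_test_mul hu (φ := fun x => dd d φ x * η x)
      (hη.mul (contDiff_dd hφ.1 d))).congr
      (Eventually.of_forall fun x => ?_)
    simp only; ring
  have hf : Integrable (fun x => η x * v x * φ x) (volume : Measure V) := by
    refine (integrable_test_mul hv (φ := fun x => φ x * η x)
      (hη.mul hφ.1)).congr
      (Eventually.of_forall fun x => ?_)
    simp only; ring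
  simp only [e1] at h1
  rw [integral_add hd he] at h1
  have e2 : ∀ x, (dd d η x * u x + η x * v x) * φ x =
      dd d η x * u x * φ x + η x * v x * φ x := fun x => by ring
  have e3 : ∫ x, v x * (η x * φ x) = ∫ x, η x * v x * φ x := by
    congr 1; ext x; ring
  simp only [e2]
  rw [integral_add hd hf]
  rw [e3] at h1
  linarith

theorem WDon.mono {U W : Set V} {d : V} {u v : V → ℝ} (h : WDon U d u v) (hW : W ⊆ U) :
    WDon W d u v := fun φ hφ => h φ ⟨hφ.1, hφ.2.trans hW⟩

end Crest.Agent.R249.SReg352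
end

-- ▼ part R249/SReg2_352
section

/-!
Row 249, leaf C-REG (helper352), part 2: the bootstrapping for systems with scalar principal part.
-/

set_option autoImplicit false
set_option linter.unusedSectionVars false
open MeasureTheory Filter Topology Set
open scoped ENNReal NNReal ContDiff RealInnerProductSpace

namespace Crest.Agent.R249.SReg352
open Crest.Agent.R249.EV

variable {V : Type*} [NormedAddCommGroup V] [InnerProductSpace ℝ V] [FiniteDimensional ℝ V]
variable [MeasurableSpace V] [BorelSpace V]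
variable {ι κ : Type*} [Fintype ι] [Fintype κ]

/-- `H^{k+1}_loc` regularity for weak solutions on `U` of
`- Σ_i d_i (Σ_j a_ij u'_{jα}) = Σ_{i,β} B^i_{αβ} u'_{iβ} + Σ_β C_{αβ} u_β + f_α`. -/
theorem sys_loc_reg {U : Set V} (hU : IsOpen U) {e : ι → V} {a : ι → ι → V → ℝ}
    (ha : ∀ i j, ContDiffOn ℝ ∞ (a i j) U)
    (hpos : ∀ x ∈ U, ∀ ξ : ι → ℝ, ξ ≠ 0 → 0 < ∑ i, ∑ j, a i j x * ξ j * ξ i)
    {B : ι → κ → κ → V → ℝ} (hB : ∀ i α β, ContDiffOn ℝ ∞ (B i α β) U)
    {C : κ → κ → V → ℝ} (hC : ∀ α β, ContDiffOn ℝ ∞ (C α β) U)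
    {f : κ → V → ℝ} (hf : ∀ α, ContDiffOn ℝ ∞ (f α) U)
    {u : κ → V → ℝ} {u' : ι → κ → V → ℝ} (hu : ∀ α, L2on U (u α)) (hu' : ∀ i α, L2on U (u' i α))
    (hW : ∀ i α, WDon U (e i) (u α) (u' i α))
    (heq : ∀ α, ∀ φ : V → ℝ, TO U φ →
      ∑ i, ∫ x, (∑ j, a i j x * u' j α x) * dd (e i) φ x =
        ∫ x, ((∑ i, ∑ β, B i α β x * u' i β x) + (∑ β, C α β x * u β x) + f α x) * φ x) (k : ℕ) :
    ∀ η : V → ℝ, TO U η → ∀ α, Sob e (k + 1) (fun x => η x * u α x) := by
  classical
  have hW' : ∀ η : V → ℝ, TO U η → ∀ i α, WD (e i) (fun x => η x * u α x)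
      (fun x => dd (e i) η x * u α x + η x * u' i α x) := fun η hη i α =>
    WDon.smooth_mul (hu α).1 (hu' i α).1 (hW i α) hη
  induction k with
  | zero =>
    intro η hη α
    refine ⟨(hu α).test_mul hη, fun i => ⟨_, hW' η hη i α, ?_⟩⟩
    exact ((hu α).test_mul (hη.dd (e i))).add ((hu' i α).test_mul hη)
  | succ k ih =>
    intro η hη α
    have hder : ∀ (θ : V → ℝ), TO U θ → ∀ j β, Sob e k (fun x => θ x * u' j β x) := by
      intro θ hθ j β
      have h1 := ih θ hθ β
      have h2 := hW' θ hθ j β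
      have h3 := h1.deriv h2 ((locInt_of_test (hu β).1 (hθ.dd (e j))).add
        (locInt_of_test (hu' j β).1 hθ))
      have h4 := (ih _ (hθ.dd (e j)) β).pred
      refine (h3.sub h4).congr (Eventually.of_forall fun x => ?_)
      simp only; ring
    obtain ⟨b, lam, hb, hba⟩ := exists_coef_on hU hη.1.2.isCompact hη.2 ha hpos
    set w' : ι → V → ℝ := fun j x => dd (e j) η x * u α x + η x * u' j α x with hw'
    set F : V → ℝ := fun x => ((∑ i, ∑ β, B i α β x * η x * u' i β x) +
        (∑ β, C α β x * η x * u β x) + f α x * η x) -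
        (∑ i, ∑ j, a i j x * dd (e i) η x * u' j α x) -
      ∑ i, ∑ j, (dd (e i) (fun x => a i j x * dd (e j) η x) x * u α x +
        a i j x * dd (e j) η x * u' i α x) with hF
    have hT1 : ∀ i j k, TO U (fun x => a i j x * dd (e k) η x) := fun i j k =>
      (hη.dd (e k)).mul_on hU (ha i j)
    have hTB : ∀ i β, TO U (fun x => B i α β x * η x) := fun i β => hη.mul_on hU (hB i α β)
    have hTC : ∀ β, TO U (fun x => C α β x * η x) := fun β => hη.mul_on hU (hC α β)
    have hFS : Sob e k F := by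
      refine Sob.sub (Sob.sub (Sob.add (Sob.add ?_ ?_) ?_) ?_) ?_
      · apply Sob.sum; intro i _
        apply Sob.sum; intro β _
        exact hder _ (hTB i β) i β
      · apply Sob.sum; intro β _
        exact (ih _ (hTC β) β).pred
      · exact Sob.of_test (hη.mul_on hU (hf α)).1 k
      · apply Sob.sum; intro i _
        apply Sob.sum; intro j _
        exact hder _ (hT1 i j i) j α
      · apply Sob.sum; intro i _
        apply Sob.sum; intro j _
        exact (ih _ ((hT1 i j j).dd (e i)) α).pred.add (hder _ (hT1 i j j) i α)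
    have hsupp : ∀ x, x ∉ tsupport η → η x = 0 ∧ ∀ d, dd d η x = 0 := by
      intro x hx'
      refine ⟨image_eq_zero_of_notMem_tsupport hx', fun d => ?_⟩
      exact image_eq_zero_of_notMem_tsupport fun h => hx' (tsupport_dd_subset d η h)
    refine reg_k (e := e) hb k (w := fun x => η x * u α x) (f := F) (w' := w')
      ((hu α).test_mul hη) hη.1.2.mul_right ?_ (fun j => hW' η hη j α) hFS ?_
    · intro j
      exact ((hu α).test_mul (hη.dd (e j))).add ((hu' j α).test_mul hη)
    · intro φ hφ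
      have e0 : ∀ i, ∫ x, (∑ j, b i j x * w' j x) * dd (e i) φ x =
          ∫ x, (∑ j, a i j x * w' j x) * dd (e i) φ x := by
        intro i
        congr 1; ext x
        congr 1
        refine Finset.sum_congr rfl fun j _ => ?_
        by_cases hx : x ∈ tsupport η
        · rw [hba i j x hx]
        · obtain ⟨h1, h2⟩ := hsupp x hx
          simp only [hw', h1, h2, zero_mul, add_zero, mul_zero]
      simp_rw [e0]
      -- integrability
      have hφm : ∀ {θ : V → ℝ}, TO U θ → TO U (fun x => φ x * θ x) := fun hθ => hθ.mul hφ.1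
      have hφd : ∀ {θ : V → ℝ}, TO U θ → ∀ i, TO U (fun x => dd (e i) φ x * θ x) :=
        fun hθ i => hθ.mul (contDiff_dd hφ.1 (e i))
      have i1 : ∀ i j, Integrable (fun x => a i j x * dd (e j) η x * u α x * dd (e i) φ x)
          (volume : Measure V) := fun i j =>
        (integrable_test_mul (hu α).1 (hφd (hT1 i j j) i)).congr
          (Eventually.of_forall fun x => by simp only; ring)
      have i2 : ∀ i j, Integrable (fun x => a i j x * (η x * u' j α x) * dd (e i) φ x)
          (volume : Measure V) := fun i j =>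
        (integrable_test_mul (hu' j α).1 (hφd (hη.mul_on hU (ha i j)) i)).congr
          (Eventually.of_forall fun x => by simp only; ring)
      have i3 : ∀ i j, Integrable (fun x => (dd (e i) (fun x => a i j x * dd (e j) η x) x * u α x +
          a i j x * dd (e j) η x * u' i α x) * φ x) (volume : Measure V) := fun i j =>
        ((integrable_test_mul (hu α).1 (hφm ((hT1 i j j).dd (e i)))).add
          (integrable_test_mul (hu' i α).1 (hφm (hT1 i j j)))).congr
          (Eventually.of_forall fun x => by simp only [Pi.add_apply]; ring)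
      have i4 : ∀ i j, Integrable (fun x => a i j x * dd (e i) η x * u' j α x * φ x)
          (volume : Measure V) := fun i j =>
        (integrable_test_mul (hu' j α).1 (hφm (hT1 i j i))).congr
          (Eventually.of_forall fun x => by simp only; ring)
      have e1 : ∀ i j, ∫ x, a i j x * dd (e j) η x * u α x * dd (e i) φ x =
          - ∫ x, (dd (e i) (fun x => a i j x * dd (e j) η x) x * u α x +
            a i j x * dd (e j) η x * u' i α x) * φ x := by
        intro i j
        exact (hW' _ (hT1 i j j) i α) _ hφ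
      have e2 : ∀ i, ∫ x, (∑ j, a i j x * w' j x) * dd (e i) φ x =
          ∑ j, ((∫ x, a i j x * dd (e j) η x * u α x * dd (e i) φ x) +
            ∫ x, a i j x * (η x * u' j α x) * dd (e i) φ x) := by
        intro i
        have h1 : ∀ x, (∑ j, a i j x * w' j x) * dd (e i) φ x =
            ∑ j, (a i j x * dd (e j) η x * u α x * dd (e i) φ x +
              a i j x * (η x * u' j α x) * dd (e i) φ x) := by
          intro x
          rw [Finset.sum_mul]
          refine Finset.sum_congr rfl fun j _ => ?_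
          simp only [hw']; ring
        simp_rw [h1]
        rw [integral_finsetSum _ fun j _ => ?_]
        · refine Finset.sum_congr rfl fun j _ => ?_
          exact integral_add (i1 i j) (i2 i j)
        · exact (i1 i j).add (i2 i j)
      have e3 := heq α _ ((hη.mul hφ.1 : TO U (fun x => φ x * η x)))
      have e4 : ∀ i, ∫ x, (∑ j, a i j x * u' j α x) * dd (e i) (fun x => φ x * η x) x =
          ∑ j, ((∫ x, a i j x * dd (e i) η x * u' j α x * φ x) +
            ∫ x, a i j x * (η x * u' j α x) * dd (e i) φ x) := by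
        intro i
        have h1 : ∀ x, (∑ j, a i j x * u' j α x) * dd (e i) (fun x => φ x * η x) x =
            ∑ j, (a i j x * dd (e i) η x * u' j α x * φ x +
              a i j x * (η x * u' j α x) * dd (e i) φ x) := by
          intro x
          rw [dd_mul (e i) (hφ.1.differentiable (by simp)) (hη.1.1.differentiable (by simp)),
            Finset.sum_mul]
          refine Finset.sum_congr rfl fun j _ => ?_
          ring
        simp_rw [h1]
        rw [integral_finsetSum _ fun j _ => ?_]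
        · refine Finset.sum_congr rfl fun j _ => ?_
          exact integral_add (i4 i j) (i2 i j)
        · exact (i4 i j).add (i2 i j)
      simp_rw [e4] at e3
      simp_rw [e2, e1]
      have i5 : Integrable (fun x => ((∑ i, ∑ β, B i α β x * u' i β x) + (∑ β, C α β x * u β x)
          + f α x) * (φ x * η x)) (volume : Measure V) := by
        have j1 : ∀ i β, Integrable (fun x => φ x * (B i α β x * η x) * u' i β x)
            (volume : Measure V) := fun i β => integrable_test_mul (hu' i β).1 (hφm (hTB i β))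
        have j2 : ∀ β, Integrable (fun x => φ x * (C α β x * η x) * u β x)
            (volume : Measure V) := fun β => integrable_test_mul (hu β).1 (hφm (hTC β))
        have j3 : Integrable (fun x => φ x * (f α x * η x)) (volume : Measure V) :=
          (hφm (hη.mul_on hU (hf α))).1.integrable
        have j4 := ((integrable_finsetSum Finset.univ fun i _ =>
          integrable_finsetSum Finset.univ fun β _ => j1 i β).add
          (integrable_finsetSum Finset.univ fun β _ => j2 β)).add j3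
        refine j4.congr (Eventually.of_forall fun x => ?_)
        simp only [Pi.add_apply, add_mul, Finset.sum_mul]
        congr 1
        · congr 1
          · refine Finset.sum_congr rfl fun i _ => Finset.sum_congr rfl fun β _ => ?_
            ring
          · refine Finset.sum_congr rfl fun β _ => ?_
            ring
        · ring
      have i6 : Integrable (fun x => ∑ i, ∑ j, a i j x * dd (e i) η x * u' j α x * φ x)
          (volume : Measure V) :=
        integrable_finsetSum _ fun i _ => integrable_finsetSum _ fun j _ => i4 i j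
      have i7 : Integrable (fun x => ∑ i, ∑ j,
          (dd (e i) (fun x => a i j x * dd (e j) η x) x * u α x +
          a i j x * dd (e j) η x * u' i α x) * φ x) (volume : Measure V) :=
        integrable_finsetSum _ fun i _ => integrable_finsetSum _ fun j _ => i3 i j
      have i8 : Integrable (fun x => ((∑ i, ∑ β, B i α β x * u' i β x) + (∑ β, C α β x * u β x)
          + f α x) * (φ x * η x) -
          ∑ i, ∑ j, a i j x * dd (e i) η x * u' j α x * φ x) (volume : Measure V) := i5.sub i6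
      have e5 : ∫ x, F x * φ x = (∫ x, ((∑ i, ∑ β, B i α β x * u' i β x) +
          (∑ β, C α β x * u β x) + f α x) * (φ x * η x)) -
          (∑ i, ∑ j, ∫ x, a i j x * dd (e i) η x * u' j α x * φ x) -
          ∑ i, ∑ j, ∫ x, (dd (e i) (fun x => a i j x * dd (e j) η x) x * u α x +
            a i j x * dd (e j) η x * u' i α x) * φ x := by
        simp_rw [← fun i => integral_finsetSum (Finset.univ : Finset ι) fun j _ => i4 i j,
          ← fun i => integral_finsetSum (Finset.univ : Finset ι) fun j _ => i3 i j]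
        rw [← integral_finsetSum _ fun i _ => integrable_finsetSum _ fun j _ => i4 i j,
          ← integral_finsetSum _ fun i _ => integrable_finsetSum _ fun j _ => i3 i j,
          ← integral_sub i5 i6, ← integral_sub i8 i7]
        congr 1; ext x
        have q1 : (∑ i, ∑ β, B i α β x * η x * u' i β x) =
            (∑ i, ∑ β, B i α β x * u' i β x) * η x := by
          rw [Finset.sum_mul]
          refine Finset.sum_congr rfl fun i _ => ?_
          rw [Finset.sum_mul]
          exact Finset.sum_congr rfl fun β _ => by ring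
        have q2 : (∑ β, C α β x * η x * u β x) = (∑ β, C α β x * u β x) * η x := by
          rw [Finset.sum_mul]
          exact Finset.sum_congr rfl fun β _ => by ring
        have q3 : (∑ i, ∑ j, a i j x * dd (e i) η x * u' j α x * φ x) =
            (∑ i, ∑ j, a i j x * dd (e i) η x * u' j α x) * φ x := by
          simp only [Finset.sum_mul]
        have q4 : (∑ i, ∑ j, (dd (e i) (fun x => a i j x * dd (e j) η x) x * u α x +
            a i j x * dd (e j) η x * u' i α x) * φ x) =
            (∑ i, ∑ j, (dd (e i) (fun x => a i j x * dd (e j) η x) x * u α x +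
            a i j x * dd (e j) η x * u' i α x)) * φ x := by
          simp only [Finset.sum_mul]
        rw [q3, q4]
        simp only [hF, q1, q2]
        ring
      rw [e5]
      simp only [Finset.sum_add_distrib, Finset.sum_neg_distrib] at e3 ⊢
      linarith

/-- gluing: a function which near every point of the open set `U` is a.e. smooth is a.e. equal on
`U` to a function smooth on `U`. -/
theorem glue_smooth {U : Set V} (hU : IsOpen U) {u : V → ℝ}
    (h : ∀ c ∈ U, ∃ ρ : ℝ, 0 < ρ ∧ Metric.ball c ρ ⊆ U ∧ ∃ v : V → ℝ, ContDiff ℝ ∞ v ∧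
      ∀ᵐ x ∂(volume : Measure V), x ∈ Metric.ball c ρ → v x = u x) :
    ∃ v : V → ℝ, ContDiffOn ℝ ∞ v U ∧ ∀ᵐ x ∂(volume : Measure V), x ∈ U → v x = u x := by
  choose! ρ hρ0 hρU W hW hWu using h
  have hcons : ∀ a ∈ U, ∀ b ∈ U, Set.EqOn (W a) (W b)
      (Metric.ball a (ρ a) ∩ Metric.ball b (ρ b)) := by
    intro a ha b hb
    refine Measure.eqOn_open_of_ae_eq (μ := volume) ?_ (Metric.isOpen_ball.inter
      Metric.isOpen_ball) (hW a ha).continuous.continuousOn (hW b hb).continuous.continuousOn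
    rw [EventuallyEq, ae_restrict_iff' (Metric.isOpen_ball.inter
      Metric.isOpen_ball).measurableSet]
    filter_upwards [hWu a ha, hWu b hb] with x h1 h2 hx
    rw [h1 hx.1, h2 hx.2]
  have hloc : ∀ c ∈ U, ∀ x ∈ Metric.ball c (ρ c), W x x = W c x := by
    intro c hc x hx
    have hxU := hρU c hc hx
    exact hcons x hxU c hc ⟨Metric.mem_ball_self (hρ0 x hxU), hx⟩
  refine ⟨fun x => W x x, ?_, ?_⟩
  · intro c hc
    refine ContDiffAt.contDiffWithinAt ?_
    have he : (fun x => W x x) =ᶠ[nhds c] W c := by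
      filter_upwards [Metric.ball_mem_nhds c (hρ0 c hc)] with x hx
      exact hloc c hc x hx
    exact (hW c hc).contDiffAt.congr_of_eventuallyEq he
  · rw [ae_iff]
    refine measure_null_of_locally_null _ fun c hc => ?_
    simp only [Classical.not_imp, Set.mem_ofPred_eq] at hc
    refine ⟨_, inter_mem_nhdsWithin _ (Metric.ball_mem_nhds c (hρ0 c hc.1)), ?_⟩
    have h0 := hWu c hc.1
    rw [ae_iff] at h0
    refine measure_mono_null ?_ h0
    intro x hx
    simp only [Classical.not_imp, Set.mem_ofPred_eq, Set.mem_inter_iff] at hx ⊢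
    refine ⟨hx.2, ?_⟩
    rw [← hloc c hc.1 x hx.2]
    exact hx.1.2

end Crest.Agent.R249.SReg352
end

-- ▼ part R249/SReg3_352

/-!
Row 249, leaf C-REG (helper352), part 3: **elliptic regularity for systems with scalar principal
part** (`sys_reg`, general finite-dimensional `V` with an orthonormal basis; `sys_reg_euclid`, the
same for `EuclideanSpace ℝ (Fin n)` in terms of `pderiv`): weak solutions `u_α ∈ H¹_loc(U)` of
`- div (A ∇u_α) = Σ_{i,β} B^i_{αβ} ∂_i u_β + Σ_β C_{αβ} u_β + f_α`
with smooth coefficients on the open set `U` are smooth, their weak gradient is the classical one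
and the equation holds pointwise.
-/

set_option autoImplicit false
set_option linter.unusedSectionVars false
open MeasureTheory Filter Topology Set
open scoped ENNReal NNReal ContDiff RealInnerProductSpace

namespace Crest.Agent.R249.SReg352
open Crest.Agent.R249.EV Crest.GeometryTopology.CoordMetric

variable {V : Type*} [NormedAddCommGroup V] [InnerProductSpace ℝ V] [FiniteDimensional ℝ V]
variable [MeasurableSpace V] [BorelSpace V]
variable {ι κ : Type*} [Fintype ι] [Fintype κ]

/-- integration by parts, `g` smooth on `U` only -/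
theorem ibp_on {U : Set V} (hU : IsOpen U) {g φ : V → ℝ} (hg : ContDiffOn ℝ ∞ g U)
    (hφ : TO U φ) (d : V) : ∫ x, g x * dd d φ x = -∫ x, dd d g x * φ x := by
  obtain ⟨χ, hχ, -, -, hχ1⟩ := exists_cut hU hφ.1.2.isCompact hφ.2
  have hT := hχ.mul_on hU hg
  have h1 := WD.of_smooth (e := d) hT.1.1 φ hφ.1
  have e1 : ∀ x, g x * χ x * dd d φ x = g x * dd d φ x := by
    intro x
    by_cases hx : x ∈ tsupport φ
    · rw [hχ1.self_of_nhdsSet x hx, mul_one]
    · have : dd d φ x = 0 :=
        image_eq_zero_of_notMem_tsupport fun h => hx (tsupport_dd_subset d φ h)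
      rw [this, mul_zero, mul_zero]
  have e2 : ∀ x, dd d (fun x => g x * χ x) x * φ x = dd d g x * φ x := by
    intro x
    by_cases hx : x ∈ tsupport φ
    · have h2 : (fun x => g x * χ x) =ᶠ[nhds x] g := by
        have h3 : ∀ᶠ y in nhds x, χ y = 1 := (Filter.Eventually.filter_mono (nhds_le_nhdsSet hx) hχ1)
        filter_upwards [h3] with y hy
        rw [hy, mul_one]
      unfold dd
      rw [h2.fderiv_eq]
    · rw [image_eq_zero_of_notMem_tsupport hx, mul_zero, mul_zero]
  simp only [e1, e2] at h1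
  exact h1

theorem locInt_contOn {U : Set V} (hU : IsOpen U) {g : V → ℝ} (hg : ContinuousOn g U) :
    LocallyIntegrableOn g U (volume : Measure V) :=
  hg.locallyIntegrableOn hU.measurableSet

/-- the fundamental lemma on `U` -/
theorem ae_eq_of_pair {U : Set V} (hU : IsOpen U) {g h : V → ℝ}
    (hg : LocallyIntegrableOn g U (volume : Measure V))
    (hh : LocallyIntegrableOn h U (volume : Measure V))
    (H : ∀ φ : V → ℝ, TO U φ → ∫ x, g x * φ x = ∫ x, h x * φ x) :
    ∀ᵐ x ∂(volume : Measure V), x ∈ U → g x = h x := by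
  have key : ∀ᵐ x ∂(volume : Measure V), x ∈ U → g x - h x = 0 := by
    refine IsOpen.ae_eq_zero_of_integral_contDiff_smul_eq_zero hU (hg.sub hh) ?_
    intro φ hφ hφc hφs
    have hT : TO U φ := ⟨⟨hφ, hφc⟩, hφs⟩
    have e1 : ∫ x, φ x • (g x - h x) = ∫ x, (g x * φ x - h x * φ x) := by
      refine integral_congr_ae (Eventually.of_forall fun x => ?_)
      simp only [smul_eq_mul]; ring
    rw [e1, integral_sub (integrable_mul_test hg hT) (integrable_mul_test hh hT), H φ hT,
      sub_self]
  filter_upwards [key] with x hx hxU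
  exact sub_eq_zero.1 (hx hxU)

theorem eqOn_of_ae {U : Set V} (hU : IsOpen U) {g h : V → ℝ} (hg : ContinuousOn g U)
    (hh : ContinuousOn h U) (H : ∀ᵐ x ∂(volume : Measure V), x ∈ U → g x = h x) :
    ∀ x ∈ U, g x = h x := by
  refine Measure.eqOn_open_of_ae_eq (μ := volume) ?_ hU hg hh
  rw [EventuallyEq, ae_restrict_iff' hU.measurableSet]
  exact H

/-- **Regularity for systems with scalar principal part.** -/
theorem sys_reg {U : Set V} (hU : IsOpen U) (e : OrthonormalBasis ι ℝ V) {a : ι → ι → V → ℝ}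
    (ha : ∀ i j, ContDiffOn ℝ ∞ (a i j) U)
    (hpos : ∀ x ∈ U, ∀ ξ : ι → ℝ, ξ ≠ 0 → 0 < ∑ i, ∑ j, a i j x * ξ j * ξ i)
    {B : ι → κ → κ → V → ℝ} (hB : ∀ i α β, ContDiffOn ℝ ∞ (B i α β) U)
    {C : κ → κ → V → ℝ} (hC : ∀ α β, ContDiffOn ℝ ∞ (C α β) U)
    {f : κ → V → ℝ} (hf : ∀ α, ContDiffOn ℝ ∞ (f α) U)
    {u : κ → V → ℝ} {u' : ι → κ → V → ℝ} (hu : ∀ α, L2on U (u α)) (hu' : ∀ i α, L2on U (u' i α))
    (hW : ∀ i α, WDon U (e i) (u α) (u' i α))
    (heq : ∀ α, ∀ φ : V → ℝ, TO U φ →
      ∑ i, ∫ x, (∑ j, a i j x * u' j α x) * dd (e i) φ x =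
        ∫ x, ((∑ i, ∑ β, B i α β x * u' i β x) + (∑ β, C α β x * u β x) + f α x) * φ x) :
    ∃ v : κ → V → ℝ, (∀ α, ContDiffOn ℝ ∞ (v α) U) ∧
      (∀ α, ∀ᵐ x ∂(volume : Measure V), x ∈ U → v α x = u α x) ∧
      (∀ i α, ∀ᵐ x ∂(volume : Measure V), x ∈ U → dd (e i) (v α) x = u' i α x) ∧
      ∀ α, ∀ x ∈ U, - ∑ i, dd (e i) (fun y => ∑ j, a i j y * dd (e j) (v α) y) x =
        (∑ i, ∑ β, B i α β x * dd (e i) (v β) x) + (∑ β, C α β x * v β x) + f α x := by
  classical
  have h1 : ∀ α, ∃ v : V → ℝ, ContDiffOn ℝ ∞ v U ∧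
      ∀ᵐ x ∂(volume : Measure V), x ∈ U → v x = u α x := by
    intro α
    apply glue_smooth hU
    intro c hc
    obtain ⟨r, hr, hrU⟩ := Metric.isOpen_iff.1 hU c hc
    have hcb : Metric.closedBall c (r / 2) ⊆ U :=
      (Metric.closedBall_subset_ball (by linarith)).trans hrU
    obtain ⟨η, hη, -, -, hη1⟩ := exists_cut hU (isCompact_closedBall c (r / 2)) hcb
    have hS : ∀ k, Sob e k (fun x => η x * u α x) := fun k =>
      (sys_loc_reg hU ha hpos hB hC hf hu hu' hW heq k η hη α).pred
    obtain ⟨v, hv, hvu⟩ := smooth_of_sob e (w := fun x => η x * u α x) hη.1.2.mul_right hS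
    refine ⟨r / 2, by linarith, Metric.ball_subset_closedBall.trans hcb, v, hv, ?_⟩
    filter_upwards [hvu] with x hx hxb
    rw [← hx]
    show η x * u α x = u α x
    rw [hη1.self_of_nhdsSet x (Metric.ball_subset_closedBall hxb), one_mul]
  choose v hv hvu using h1
  have h2 : ∀ i α, ∀ᵐ x ∂(volume : Measure V), x ∈ U → dd (e i) (v α) x = u' i α x := by
    intro i α
    refine ae_eq_of_pair hU (locInt_contOn hU (contDiffOn_dd hU (hv α) _).continuousOn)
      (hu' i α).1 fun φ hφ => ?_
    have q1 := ibp_on hU (hv α) hφ (e i)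
    have q2 := hW i α φ hφ
    have q3 : ∫ x, v α x * dd (e i) φ x = ∫ x, u α x * dd (e i) φ x := by
      refine integral_congr_ae ?_
      filter_upwards [hvu α] with x hx
      by_cases hxU : x ∈ U
      · rw [hx hxU]
      · rw [(hφ.dd (e i)).zero_off hxU, mul_zero, mul_zero]
    linarith
  refine ⟨v, hv, hvu, h2, fun α => ?_⟩
  -- pointwise equation
  have hG : ∀ i, ContDiffOn ℝ ∞ (fun y => ∑ j, a i j y * dd (e j) (v α) y) U := fun i =>
    ContDiffOn.sum fun j _ => (ha i j).mul (contDiffOn_dd hU (hv α) _)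
  have hR : ContDiffOn ℝ ∞ (fun x => (∑ i, ∑ β, B i α β x * dd (e i) (v β) x) +
      (∑ β, C α β x * v β x) + f α x) U :=
    ((ContDiffOn.sum fun i _ => ContDiffOn.sum fun β _ =>
      (hB i α β).mul (contDiffOn_dd hU (hv β) _)).add
      (ContDiffOn.sum fun β _ => (hC α β).mul (hv β))).add (hf α)
  have hL : ContDiffOn ℝ ∞
      (fun x => - ∑ i, dd (e i) (fun y => ∑ j, a i j y * dd (e j) (v α) y) x) U :=
    (ContDiffOn.sum fun i _ => contDiffOn_dd hU (hG i) _).neg
  refine eqOn_of_ae hU hL.continuousOn hR.continuousOn ?_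
  refine ae_eq_of_pair hU (locInt_contOn hU hL.continuousOn) (locInt_contOn hU hR.continuousOn)
    fun φ hφ => ?_
  have q := heq α φ hφ
  have q1 : ∀ i, ∫ x, (∑ j, a i j x * u' j α x) * dd (e i) φ x =
      - ∫ x, dd (e i) (fun y => ∑ j, a i j y * dd (e j) (v α) y) x * φ x := by
    intro i
    rw [← ibp_on hU (hG i) hφ (e i)]
    refine integral_congr_ae ?_
    have : ∀ᵐ x ∂(volume : Measure V), ∀ j, x ∈ U → dd (e j) (v α) x = u' j α x :=
      ae_all_iff.2 fun j => h2 j α
    filter_upwards [this] with x hx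
    by_cases hxU : x ∈ U
    · congr 1
      exact Finset.sum_congr rfl fun j _ => by rw [hx j hxU]
    · rw [(hφ.dd (e i)).zero_off hxU, mul_zero, mul_zero]
  have q2 : ∫ x, ((∑ i, ∑ β, B i α β x * u' i β x) + (∑ β, C α β x * u β x) + f α x) * φ x =
      ∫ x, ((∑ i, ∑ β, B i α β x * dd (e i) (v β) x) + (∑ β, C α β x * v β x) + f α x) * φ x := by
    refine integral_congr_ae ?_
    have t1 : ∀ᵐ x ∂(volume : Measure V), ∀ i β, x ∈ U → dd (e i) (v β) x = u' i β x :=
      ae_all_iff.2 fun i => ae_all_iff.2 fun β => h2 i β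
    have t2 : ∀ᵐ x ∂(volume : Measure V), ∀ β, x ∈ U → v β x = u β x :=
      ae_all_iff.2 fun β => hvu β
    filter_upwards [t1, t2] with x hx1 hx2
    by_cases hxU : x ∈ U
    · congr 1
      congr 1
      congr 1
      · exact Finset.sum_congr rfl fun i _ => Finset.sum_congr rfl fun β _ => by
          rw [hx1 i β hxU]
      · exact Finset.sum_congr rfl fun β _ => by rw [hx2 β hxU]
    · rw [hφ.zero_off hxU, mul_zero, mul_zero]
  rw [q2] at q
  simp only [q1] at q
  rw [← q, Finset.sum_neg_distrib, ← integral_finsetSum]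
  · rw [← integral_neg]
    congr 1; ext x
    rw [← Finset.sum_mul]; ring
  · intro i _
    exact integrable_mul_test (locInt_contOn hU (contDiffOn_dd hU (hG i) _).continuousOn) hφ

/-- **Regularity for systems with scalar principal part**, coordinates. -/
theorem sys_reg_euclid {n : ℕ} {U : Set (EuclideanSpace ℝ (Fin n))} (hU : IsOpen U)
    {A : EuclideanSpace ℝ (Fin n) → Matrix (Fin n) (Fin n) ℝ}
    (hA : ∀ i j, ContDiffOn ℝ ∞ (fun x => A x i j) U) (hpos : ∀ x ∈ U, (A x).PosDef)
    {B : Fin n → κ → κ → EuclideanSpace ℝ (Fin n) → ℝ}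
    (hB : ∀ i α β, ContDiffOn ℝ ∞ (B i α β) U)
    {C : κ → κ → EuclideanSpace ℝ (Fin n) → ℝ} (hC : ∀ α β, ContDiffOn ℝ ∞ (C α β) U)
    {f : κ → EuclideanSpace ℝ (Fin n) → ℝ} (hf : ∀ α, ContDiffOn ℝ ∞ (f α) U)
    {u : κ → EuclideanSpace ℝ (Fin n) → ℝ} {u' : Fin n → κ → EuclideanSpace ℝ (Fin n) → ℝ}
    (hu : ∀ α, L2on U (u α)) (hu' : ∀ i α, L2on U (u' i α))
    (hW : ∀ i α, ∀ φ : EuclideanSpace ℝ (Fin n) → ℝ, ContDiff ℝ ∞ φ → HasCompactSupport φ →
      tsupport φ ⊆ U → ∫ x, u α x * pderiv i φ x = - ∫ x, u' i α x * φ x)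
    (heq : ∀ α, ∀ φ : EuclideanSpace ℝ (Fin n) → ℝ, ContDiff ℝ ∞ φ → HasCompactSupport φ →
      tsupport φ ⊆ U → ∑ i, ∫ x, (∑ j, A x i j * u' j α x) * pderiv i φ x =
        ∫ x, ((∑ i, ∑ β, B i α β x * u' i β x) + (∑ β, C α β x * u β x) + f α x) * φ x) :
    ∃ v : κ → EuclideanSpace ℝ (Fin n) → ℝ, (∀ α, ContDiffOn ℝ ∞ (v α) U) ∧
      (∀ α, ∀ᵐ x, x ∈ U → v α x = u α x) ∧
      (∀ i α, ∀ᵐ x, x ∈ U → pderiv i (v α) x = u' i α x) ∧
      ∀ α, ∀ x ∈ U, - ∑ i, pderiv i (fun y => ∑ j, A y i j * pderiv j (v α) y) x =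
        (∑ i, ∑ β, B i α β x * pderiv i (v β) x) + (∑ β, C α β x * v β x) + f α x := by
  have hb : ∀ i, (EuclideanSpace.basisFun (Fin n) ℝ) i = EuclideanSpace.single i 1 := fun i => by
    simp
  have hdd : ∀ (i : Fin n) (φ : EuclideanSpace ℝ (Fin n) → ℝ),
      dd ((EuclideanSpace.basisFun (Fin n) ℝ) i) φ = pderiv i φ := by
    intro i φ
    funext x
    rw [hb i]
    rfl
  have key := sys_reg (κ := κ) hU (EuclideanSpace.basisFun (Fin n) ℝ)
    (a := fun i j x => A x i j) hA (fun x hx ξ hξ => ?_) hB hC hf hu hu'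
    (fun i α φ hφ => ?_) (fun α φ hφ => ?_)
  · simp only [hdd] at key
    exact key
  · have h1 := (hpos x hx).dotProduct_mulVec_pos hξ
    simp only [star_trivial, dotProduct, Matrix.mulVec] at h1
    refine lt_of_lt_of_eq h1 (Finset.sum_congr rfl fun i _ => ?_)
    rw [Finset.mul_sum]
    exact Finset.sum_congr rfl fun j _ => by ring
  · rw [hdd]
    exact hW i α φ hφ.1.1 hφ.1.2 hφ.2
  · simp only [hdd]
    exact heq α φ hφ.1.1 hφ.1.2 hφ.2

end Crest.Agent.R249.SReg352
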