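import Crest.Agent.R249.Tv4_57
import Crest.Agent.R249.SReg3_352
import Crest.Agent.R249.Tv0_57

-- ▼ part R249/Tv5_57
section

/-!
# R249 (C-TV), part 5: weak eigenfunctions.

* `not_finiteDimensional` : `L²(E)` is infinite dimensional;
* `exists_weak` : the spectral theorem of the form `∫ en u v`, in plain terms.
(helper57)
-/

set_option autoImplicit false
set_option linter.unusedSectionVars false
open MeasureTheory Set Filter Topology
open scoped ENNReal NNReal RealInnerProductSpace

noncomputable section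
namespace Crest.Agent.R249.Tv57

open Crest.Agent.R247.Dir593 Crest.Agent.R202.Sp

variable {X : Type*} [MetricSpace X] [MeasurableSpace X] [BorelSpace X] {F : Type*}
  [NormedAddCommGroup F] [InnerProductSpace ℝ F] {μ : Measure X} [IsFiniteMeasureOnCompacts μ]

lemma rin (a b : ℝ) : (inner ℝ a b : ℝ) = a * b := by simp [mul_comm]

namespace AD

variable {S : GradS X F μ} {κ : Type} [Fintype κ] (A : AD S κ)

/-! ### infinite dimension -/

lemma p_self (a : κ) (x : X) : A.p a a x = ∑ c, A.p a c x ^ 2 := by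
  rw [← A.idem a a x]
  refine Finset.sum_congr rfl fun c _ => ?_
  rw [A.symmp c a x, sq]

theorem not_finiteDimensional [IsFiniteMeasure μ] [μ.IsOpenPosMeasure] (hat : ∀ x : X, μ {x} = 0)
    {x0 : X} {a : κ} (h : A.p a a x0 ≠ 0) : ¬ FiniteDimensional ℝ A.HE := by
  classical
  have hcont : Continuous (A.p a a) := (A.hT a a).1.continuous
  set W : Set X := {x | A.p a a x ≠ 0} with hW
  have hWo : IsOpen W := isOpen_ne_fun hcont continuous_const
  have hinf : Infinite W := by
    rw [infinite_coe_iff]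
    intro hfin
    have h0 : μ (⋃ x ∈ W, ({x} : Set X)) = 0 :=
      (measure_biUnion_null_iff hfin.countable).2 fun x _ => hat x
    have h1 : μ W = 0 := measure_mono_null (fun x hx => mem_biUnion hx (mem_singleton x)) h0
    exact (hWo.measure_pos μ ⟨x0, h⟩).ne' h1
  obtain ⟨U, hUi, hUo, hUd⟩ := exists_seq_infinite_isOpen_pairwise_disjoint W
  set U' : ℕ → Set X := fun k => Subtype.val '' U k with hU'
  have hU'o : ∀ k, IsOpen (U' k) := fun k => hWo.isOpenMap_subtype_val _ (hUo k)
  have hU'm : ∀ k, MeasurableSet (U' k) := fun k => (hU'o k).measurableSet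
  have hU'd : ∀ k l, k ≠ l → Disjoint (U' k) (U' l) := fun k l hkl =>
    (disjoint_image_iff Subtype.val_injective).2 (hUd hkl)
  have hU'p : ∀ k, 0 < μ (U' k) := fun k => (hU'o k).measure_pos μ ((hUi k).nonempty.image _)
  have hU'f : ∀ k, μ (U' k) ≠ ∞ := fun k => measure_ne_top _ _
  -- the family
  set g : ℕ → HH μ κ := fun k => WithLp.toLp 2 fun b =>
    if b = a then (ind (hU'm k) (hU'f k) : Lp ℝ 2 μ) else 0 with hg
  have hgP : ∀ k l, ⟪A.P (g k), g l⟫ = ∫ x in U' l, A.p a a x * (U' k).indicator (fun _ => 1) x ∂μ := by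
    intro k l
    rw [PiLp.inner_apply, Finset.sum_eq_single a]
    · have e1 : (g l) a = (ind (hU'm l) (hU'f l) : Lp ℝ 2 μ) := if_pos rfl
      rw [e1, inner_ind]
      refine setIntegral_congr_ae (hU'm l) ?_
      have e2 : ∀ᵐ x ∂μ, ∀ b, (g k b : Lp ℝ 2 μ) x =
          if b = a then (U' k).indicator (fun _ => (1:ℝ)) x else 0 := by
        rw [ae_all_iff]
        intro b
        by_cases hb : b = a
        · subst hb
          have : (g k) b = (ind (hU'm k) (hU'f k) : Lp ℝ 2 μ) := if_pos rfl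
          rw [this]
          filter_upwards [coe_ind (hU'm k) (hU'f k)] with x hx
          rw [if_pos rfl, hx]
        · have : (g k) b = 0 := if_neg hb
          rw [this]
          filter_upwards [Lp.coeFn_zero ℝ 2 μ] with x hx
          rw [if_neg hb, hx]; rfl
      filter_upwards [A.coe_P (g k), e2] with x h1 h2 _
      rw [h1 a]
      simp [h2]
    · intro b _ hb
      have : (g l) b = 0 := if_neg hb
      rw [this, inner_zero_right]
    · intro h; exact absurd (Finset.mem_univ a) h
  have hpnn : ∀ x, 0 ≤ A.p a a x := fun x => by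
    rw [A.p_self]; exact Finset.sum_nonneg fun c _ => sq_nonneg _
  have hin : ∀ k l, ⟪A.P (g k), A.P (g l)⟫ = ⟪A.P (g k), g l⟫ := fun k l => by
    rw [← A.inner_P, A.P_P]
  have hdis : ∀ k l, k ≠ l → ⟪A.P (g k), A.P (g l)⟫ = 0 := by
    intro k l hkl
    rw [hin, hgP]
    have : ∀ x ∈ U' l, A.p a a x * (U' k).indicator (fun _ => (1:ℝ)) x = 0 := by
      intro x hx
      rw [indicator_of_notMem (disjoint_left.1 (hU'd l k hkl.symm) hx), mul_zero]
    rw [setIntegral_congr_fun (hU'm l) this, integral_zero]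
  have hne : ∀ k, A.P (g k) ≠ 0 := by
    intro k h0
    have h1 := hgP k k
    rw [h0, inner_zero_left] at h1
    have h2 : ∫ x in U' k, A.p a a x * (U' k).indicator (fun _ => (1:ℝ)) x ∂μ =
        ∫ x in U' k, A.p a a x ∂μ := setIntegral_congr_fun (hU'm k) fun x hx => by
      rw [indicator_of_mem hx, mul_one]
    rw [h2] at h1
    have h3 : 0 < ∫ x in U' k, A.p a a x ∂μ := by
      rw [setIntegral_pos_iff_support_of_nonneg_ae (Filter.Eventually.of_forall hpnn)]
      · have : U' k ⊆ Function.support (A.p a a) ∩ U' k := by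
          rintro x hx
          refine ⟨?_, hx⟩
          obtain ⟨y, _, rfl⟩ := hx
          exact y.2
        exact lt_of_lt_of_le (hU'p k) (measure_mono this)
      · exact ((A.hT a a).memLp.integrable (by norm_num)).integrableOn
    rw [← h1] at h3
    exact lt_irrefl _ h3
  intro hfd
  have hli : LinearIndependent ℝ (fun k => (⟨A.P (g k), A.P_P _⟩ : A.HE)) := by
    refine linearIndependent_of_ne_zero_of_inner_eq_zero (𝕜 := ℝ) (fun k h0 => ?_) fun k l hkl => ?_
    · exact hne k (congrArg Subtype.val h0)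
    · exact hdis k l hkl
  have := hli.finite_of_isNoetherian
  exact not_finite ℕ

/-! ### the energy density -/

/-- the covariant derivative, as a function -/
def cvf (u : HH μ κ) (a : κ) (x : X) : F := S.D (u a) x + ∑ b, u b x • A.w a b x

/-- the energy density -/
def en (u v : HH μ κ) (x : X) : ℝ :=
  ∑ a, ⟪A.cvf u a x, A.cvf v a x⟫ + ∑ a, ∑ b, A.q a b x * u b x * v a x

lemma coe_c1 (u : A.WE) : ∀ᵐ x ∂μ, ∀ a, (A.c1 u a : Lp F 2 μ) x = A.cvf (A.i1 u) a x := by
  rw [ae_all_iff]
  intro a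
  have h1 : A.c1 u a = (u : A.Amb).snd a + matF A.hw (A.i1 u) a := rfl
  have h2 : (u : A.Amb).snd a = S.D ((A.i1 u) a) := (S.D_eq (u.2.1 a)).symm
  rw [h1, h2]
  filter_upwards [Lp.coeFn_add (S.D ((A.i1 u) a)) (matF A.hw (A.i1 u) a), coe_matF A.hw (A.i1 u)]
    with x e1 e2
  rw [e1, Pi.add_apply, e2 a]
  rfl

lemma form_eq (u v : A.WE) :
    ⟪A.c1 u, A.c1 v⟫ + ⟪A.qL (A.i1 u), A.i1 v⟫ = ∫ x, A.en (A.i1 u) (A.i1 v) x ∂μ := by
  have h1 : ⟪A.c1 u, A.c1 v⟫ = ∫ x, ∑ a, ⟪(A.c1 u a : Lp F 2 μ) x, (A.c1 v a : Lp F 2 μ) x⟫ ∂μ := by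
    rw [PiLp.inner_apply]
    simp only [L2.inner_def]
    rw [integral_finsetSum]
    intro a _
    exact L2.integrable_inner _ _
  have h2 : ⟪A.qL (A.i1 u), A.i1 v⟫ =
      ∫ x, ∑ a, (A.qL (A.i1 u) a : Lp ℝ 2 μ) x * (A.i1 v a : Lp ℝ 2 μ) x ∂μ := by
    rw [PiLp.inner_apply]
    simp only [L2.inner_def]
    rw [← integral_finsetSum]
    · refine integral_congr_ae (Filter.Eventually.of_forall fun x => ?_)
      exact Finset.sum_congr rfl fun a _ => rin _ _
    · intro a _
      exact L2.integrable_inner _ _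
  rw [h1, h2, ← integral_add]
  · refine integral_congr_ae ?_
    filter_upwards [A.coe_c1 u, A.coe_c1 v, coe_matF A.hq (A.i1 u)] with x e1 e2 e3
    rw [en]
    congr 1
    · exact Finset.sum_congr rfl fun a _ => by rw [e1 a, e2 a]
    · refine Finset.sum_congr rfl fun a _ => ?_
      rw [show A.qL = matF A.hq from rfl, e3 a, Finset.sum_mul]
      refine Finset.sum_congr rfl fun b _ => ?_
      rw [smul_eq_mul]
      ring
  · exact integrable_finsetSum _ fun a _ => L2.integrable_inner _ _
  · refine integrable_finsetSum _ fun a _ => ?_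
    have := L2.integrable_inner (𝕜 := ℝ) (A.qL (A.i1 u) a : Lp ℝ 2 μ) (A.i1 v a)
    exact this.congr (Filter.Eventually.of_forall fun x => rin _ _)

/-- the covariant derivative commutes with the projection -/
lemma cvf_P {u : HH μ κ} (hu : ∀ a, u a ∈ S.V) :
    ∀ᵐ x ∂μ, ∀ a, A.cvf (A.P u) a x = ∑ b, A.p a b x • A.cvf u b x := by
  have h1 : ∀ᵐ x ∂μ, ∀ a, (S.D (A.P u a) : X → F) x =
      ∑ b, (A.p a b x • S.D (u b) x + u b x • S.G (A.p a b) x) :=
    ae_all_iff.2 fun a => (A.P_mem hu a).2
  have h2 : ∀ᵐ x ∂μ, ∀ a b, S.G (A.p a b) x +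
      ∑ c, (A.p c b x • A.w a c x - A.p a c x • A.w c b x) = 0 :=
    ae_all_iff.2 fun a => ae_all_iff.2 fun b => A.par a b
  filter_upwards [h1, h2, A.coe_P u] with x e1 e2 e3 a
  have e4 : ∀ b, S.G (A.p a b) x = ∑ c, (A.p a c x • A.w c b x - A.p c b x • A.w a c x) := by
    intro b
    have := e2 a b
    rw [add_eq_zero_iff_eq_neg] at this
    rw [this, ← Finset.sum_neg_distrib]
    exact Finset.sum_congr rfl fun c _ => by rw [neg_sub]
  rw [cvf, e1 a]
  simp only [e3, e4, cvf]
  simp only [smul_add, Finset.smul_sum, Finset.sum_add_distrib, smul_sub, Finset.sum_sub_distrib,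
    Finset.sum_smul, smul_smul]
  rw [add_assoc]
  congr 1
  have e5 : ∑ b, ∑ c, (A.p b c x * u c x) • A.w a b x = ∑ b, ∑ c, (u b x * A.p c b x) • A.w a c x := by
    rw [Finset.sum_comm]
    exact Finset.sum_congr rfl fun b _ => Finset.sum_congr rfl fun c _ => by rw [mul_comm]
  rw [e5, sub_add_cancel, Finset.sum_comm]
  exact Finset.sum_congr rfl fun b _ => Finset.sum_congr rfl fun c _ => by rw [mul_comm]

lemma en_P {u v : HH μ κ} (hu : ∀ a, u a ∈ S.V) (hv : ∀ a, v a ∈ S.V) (hP : A.P u = u) :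
    ∀ᵐ x ∂μ, A.en u (A.P v) x = A.en u v x := by
  have h0 := A.cvf_P hu
  rw [hP] at h0
  have h1 := A.coe_P u
  rw [hP] at h1
  filter_upwards [h0, A.cvf_P hv, A.coe_P v, h1] with x e1 e2 e3 e4
  rw [en, en]
  congr 1
  · calc ∑ a, ⟪A.cvf u a x, A.cvf (A.P v) a x⟫
        = ∑ a, ∑ b, A.p a b x * ⟪A.cvf u a x, A.cvf v b x⟫ := by
          refine Finset.sum_congr rfl fun a _ => ?_
          rw [e2 a, inner_sum]
          exact Finset.sum_congr rfl fun b _ => by rw [real_inner_smul_right]
      _ = ∑ b, ∑ a, A.p b a x * ⟪A.cvf u a x, A.cvf v b x⟫ := by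
          rw [Finset.sum_comm]
          exact Finset.sum_congr rfl fun b _ => Finset.sum_congr rfl fun a _ => by rw [A.symmp]
      _ = ∑ b, ⟪A.cvf u b x, A.cvf v b x⟫ := by
          refine Finset.sum_congr rfl fun b _ => ?_
          conv_rhs => rw [e1 b]
          rw [sum_inner]
          exact Finset.sum_congr rfl fun a _ => by rw [real_inner_smul_left]
  · simp only [e3]
    calc ∑ a, ∑ b, A.q a b x * u b x * ∑ c, A.p a c x * v c x
        = ∑ c, ∑ b, (∑ a, A.p c a x * A.q a b x) * u b x * v c x := by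
          simp only [Finset.mul_sum, Finset.sum_mul]
          rw [Finset.sum_comm]
          have : ∀ b : κ, ∑ a, ∑ c, A.q a b x * u b x * (A.p a c x * v c x) =
              ∑ c, ∑ a, A.p c a x * A.q a b x * u b x * v c x := by
            intro b
            rw [Finset.sum_comm]
            refine Finset.sum_congr rfl fun c _ => Finset.sum_congr rfl fun a _ => ?_
            rw [A.symmp a c]
            ring
          rw [Finset.sum_congr rfl fun b _ => this b, Finset.sum_comm]
      _ = ∑ c, ∑ b, (∑ a, A.q c a x * A.p a b x) * u b x * v c x := by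
          refine Finset.sum_congr rfl fun c _ => Finset.sum_congr rfl fun b _ => ?_
          rw [A.comm c b x]
      _ = ∑ c, ∑ a, A.q c a x * u a x * v c x := by
          refine Finset.sum_congr rfl fun c _ => ?_
          simp only [Finset.sum_mul]
          rw [Finset.sum_comm]
          refine Finset.sum_congr rfl fun a _ => ?_
          conv_rhs => rw [e4 a]
          rw [Finset.mul_sum, Finset.sum_mul]
          exact Finset.sum_congr rfl fun b _ => by ring

/-- **the spectral theorem for `∫ en u v`** -/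
theorem exists_weak [CompleteSpace F] (hS : Fried S) (hd : Dense (S.V : Set (Lp ℝ 2 μ)))
    (hinf : ¬ FiniteDimensional ℝ A.HE) :
    ∃ (u : ℕ → HH μ κ) (lam : ℕ → ℝ), (∀ k a, u k a ∈ S.V) ∧ (∀ k, A.P (u k) = u k) ∧
      Monotone lam ∧ Tendsto lam atTop atTop ∧ (∀ k l, ⟪u k, u l⟫ = if k = l then (1:ℝ) else 0) ∧
      (∀ f : HH μ κ, A.P f = f → HasSum (fun k => ⟪f, u k⟫ ^ 2) (‖f‖ ^ 2)) ∧
      ∀ k (v : HH μ κ), (∀ a, v a ∈ S.V) → ∫ x, A.en (u k) v x ∂μ = lam k * ⟪u k, v⟫ := by
  obtain ⟨Sq⟩ := A.form.exists_formSeq (A.compact_jj hS) (A.dense_jj hd) hinf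
  have hju : ∀ k, A.i1 (Sq.ev k) = (Sq.e k : HH μ κ) := fun k => congrArg Subtype.val (Sq.j_ev k)
  have hV : ∀ k a, (Sq.e k : HH μ κ) a ∈ S.V := by
    intro k a
    rw [← hju]
    exact S.mem_V.2 ⟨_, (Sq.ev k).2.1 a⟩
  have hP : ∀ k, A.P (Sq.e k : HH μ κ) = (Sq.e k : HH μ κ) := fun k => (Sq.e k).2
  refine ⟨fun k => (Sq.e k : HH μ κ), fun k => Sq.lam k - A.shift, hV, hP, ?_, ?_, ?_, ?_, ?_⟩
  · intro k l hkl
    have := Sq.mono hkl
    simp only
    linarith
  · exact tendsto_atTop_add_const_right _ _ Sq.lim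
  · intro k l
    have := Sq.e.orthonormal
    rw [orthonormal_iff_ite] at this
    exact this k l
  · intro f hf
    have h1 := hasSum_sq_repr Sq.e (⟨f, hf⟩ : A.HE)
    refine h1.congr_fun ?_ |> fun h => h
    intro k
    show ⟪f, (Sq.e k : HH μ κ)⟫ ^ 2 = ⟪(Sq.e k : HH μ κ), f⟫ ^ 2
    rw [real_inner_comm]
  · intro k v hv
    have hv' : ∀ a, A.P v a ∈ S.V := fun a => (A.P_mem hv a).1
    have h1 := Sq.eig k (A.mkW (A.P v) hv' (A.P_P v))
    rw [form_apply, form_eq, hju] at h1
    have h2 : A.i1 (A.mkW (A.P v) hv' (A.P_P v)) = A.P v := rfl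
    rw [h2] at h1
    have h3 : ⟪(Sq.e k : HH μ κ), A.P v⟫ = ⟪(Sq.e k : HH μ κ), v⟫ := by
      rw [← A.inner_P, hP]
    have h4 : ⟪Sq.e k, A.jj (A.mkW (A.P v) hv' (A.P_P v))⟫ = ⟪(Sq.e k : HH μ κ), v⟫ := h3
    rw [h4, h3, integral_congr_ae (A.en_P (hV k) hv (hP k))] at h1
    simp only
    linarith

end AD

end Crest.Agent.R249.Tv57
end
end

-- ▼ part R249/Tv6_57
section

/-!
# R249 (C-TV), part 6: `sys_reg_euclid` for systems in the form that comes out of `D* D + Q`
(weak form with a zeroth order term under the divergence). (helper57)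
-/

set_option autoImplicit false
set_option linter.unusedSectionVars false
open MeasureTheory Filter Topology Set
open scoped ENNReal NNReal ContDiff RealInnerProductSpace

namespace Crest.Agent.R249.Tv57
open Crest.GeometryTopology.CoordMetric Crest.Agent.R249.SReg352

noncomputable section

variable {n : ℕ} {κ : Type*} [Fintype κ]

local notation "𝔼" => EuclideanSpace ℝ (Fin n)

lemma pderiv_eq_dd (i : Fin n) (φ : EuclideanSpace ℝ (Fin n) → ℝ) :
    pderiv i φ = Crest.Agent.R249.EV.dd (EuclideanSpace.single i (1:ℝ)) φ := rfl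

lemma TO.pd {U : Set (EuclideanSpace ℝ (Fin n))} {φ : EuclideanSpace ℝ (Fin n) → ℝ} (h : TO U φ)
    (i : Fin n) : TO U (pderiv i φ) := h.dd _

/-- integration by parts with a smooth coefficient -/
theorem ibp_coef {U : Set (EuclideanSpace ℝ (Fin n))} (hU : IsOpen U)
    {g u v φ : EuclideanSpace ℝ (Fin n) → ℝ} {i : Fin n} (hg : ContDiffOn ℝ ∞ g U)
    (hu : LocallyIntegrableOn u U) (hv : LocallyIntegrableOn v U)
    (hW : ∀ φ : EuclideanSpace ℝ (Fin n) → ℝ, ContDiff ℝ ∞ φ → HasCompactSupport φ →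
      tsupport φ ⊆ U → ∫ x, u x * pderiv i φ x = - ∫ x, v x * φ x) (hφ : TO U φ) :
    ∫ x, (g x * u x) * pderiv i φ x = - ∫ x, (g x * v x + pderiv i g x * u x) * φ x := by
  have h1 := hφ.mul_on hU hg
  have h2 := hW _ h1.1.1 h1.1.2 h1.2
  have h3 : ∀ x, u x * pderiv i (fun x => g x * φ x) x =
      (g x * u x) * pderiv i φ x + u x * (pderiv i g x * φ x) := by
    intro x
    by_cases hx : x ∈ U
    · have e : pderiv i (fun x => g x * φ x) x = g x * pderiv i φ x + pderiv i g x * φ x := by
        unfold pderiv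
        have d1 : DifferentiableAt ℝ g x :=
          ((hg.contDiffAt (hU.mem_nhds hx)).differentiableAt (by simp))
        have d2 : DifferentiableAt ℝ φ x := hφ.1.1.differentiable (by simp) x
        have := (d1.hasFDerivAt.mul d2.hasFDerivAt).fderiv
        rw [show (fun x => g x * φ x) = g * φ from rfl, this]
        simp
        ring
      rw [e]; ring
    · have e1 : pderiv i (fun x => g x * φ x) x = 0 := (TO.pd h1 i).zero_off hx
      have e2 : pderiv i φ x = 0 := (TO.pd hφ i).zero_off hx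
      rw [e1, e2, hφ.zero_off hx]; ring
  have hgi : ContDiffOn ℝ ∞ (pderiv i g) U := by
    have := Crest.Agent.R249.SReg352.contDiffOn_dd hU hg (EuclideanSpace.single i (1:ℝ))
    exact this
  have i1 : Integrable (fun x => (g x * u x) * pderiv i φ x) := by
    have := integrable_mul_test hu ((TO.pd hφ i).mul_on hU hg)
    exact this.congr (Eventually.of_forall fun x => by simp only; ring)
  have i2 : Integrable (fun x => u x * (pderiv i g x * φ x)) :=
    integrable_mul_test hu (hφ.mul_on hU hgi)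
  have i3 : Integrable (fun x => v x * (g x * φ x)) := integrable_mul_test hv (hφ.mul_on hU hg)
  simp only [h3] at h2
  rw [integral_add i1 i2] at h2
  have h4 : ∫ x, (g x * v x + pderiv i g x * u x) * φ x =
      (∫ x, v x * (g x * φ x)) + ∫ x, u x * (pderiv i g x * φ x) := by
    rw [← integral_add i3 i2]
    refine integral_congr_ae (Eventually.of_forall fun x => ?_)
    simp only; ring
  rw [h4]
  linarith

/-- **regularity**, divergence form with lower order terms on both sides -/
theorem sys_reg_div {U : Set (EuclideanSpace ℝ (Fin n))} (hU : IsOpen U)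
    {A : Fin n → Fin n → EuclideanSpace ℝ (Fin n) → ℝ} (hA : ∀ i j, ContDiffOn ℝ ∞ (A i j) U)
    (hpos : ∀ x ∈ U, (Matrix.of fun i j => A i j x).PosDef)
    {W : κ → κ → Fin n → EuclideanSpace ℝ (Fin n) → ℝ} (hW : ∀ a b j, ContDiffOn ℝ ∞ (W a b j) U)
    {q : κ → κ → EuclideanSpace ℝ (Fin n) → ℝ} (hq : ∀ a b, ContDiffOn ℝ ∞ (q a b) U)
    {u : κ → EuclideanSpace ℝ (Fin n) → ℝ} {u' : Fin n → κ → EuclideanSpace ℝ (Fin n) → ℝ}
    (hu : ∀ a, L2on U (u a)) (hu' : ∀ i a, L2on U (u' i a))
    (hWD : ∀ i a, ∀ φ : EuclideanSpace ℝ (Fin n) → ℝ, ContDiff ℝ ∞ φ → HasCompactSupport φ →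
      tsupport φ ⊆ U → ∫ x, u a x * pderiv i φ x = - ∫ x, u' i a x * φ x)
    (heq : ∀ a, ∀ φ : EuclideanSpace ℝ (Fin n) → ℝ, ContDiff ℝ ∞ φ → HasCompactSupport φ →
      tsupport φ ⊆ U → ∫ x, ∑ i, ∑ j, A i j x * (u' j a x + ∑ b, u b x * W a b j x) * pderiv i φ x =
        - ∫ x, (∑ c, ∑ i, ∑ j, A i j x * (u' j c x + ∑ b, u b x * W c b j x) * W c a i x
          + ∑ b, q a b x * u b x) * φ x) :
    ∃ v : κ → EuclideanSpace ℝ (Fin n) → ℝ, (∀ a, ContDiffOn ℝ ∞ (v a) U) ∧
      (∀ a, ∀ᵐ x, x ∈ U → v a x = u a x) ∧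
      (∀ i a, ∀ᵐ x, x ∈ U → pderiv i (v a) x = u' i a x) := by
  classical
  set G : Fin n → κ → κ → EuclideanSpace ℝ (Fin n) → ℝ := fun i a b x => ∑ j, A i j x * W a b j x
    with hG
  have hGs : ∀ i a b, ContDiffOn ℝ ∞ (G i a b) U := fun i a b =>
    ContDiffOn.sum fun j _ => (hA i j).mul (hW a b j)
  have hGd : ∀ i a b, ContDiffOn ℝ ∞ (pderiv i (G i a b)) U := fun i a b =>
    Crest.Agent.R249.SReg352.contDiffOn_dd hU (hGs i a b) (EuclideanSpace.single i (1:ℝ))
  set B : Fin n → κ → κ → EuclideanSpace ℝ (Fin n) → ℝ := fun i a β x =>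
    G i a β x - ∑ l, A l i x * W β a l x with hB
  set Cc : κ → κ → EuclideanSpace ℝ (Fin n) → ℝ := fun a β x =>
    (∑ i, pderiv i (G i a β) x) - (∑ c, ∑ i, ∑ j, A i j x * W c β j x * W c a i x) - q a β x with hC
  have hBs : ∀ i a β, ContDiffOn ℝ ∞ (B i a β) U := fun i a β =>
    (hGs i a β).sub (ContDiffOn.sum fun l _ => (hA l i).mul (hW β a l))
  have hCs : ∀ a β, ContDiffOn ℝ ∞ (Cc a β) U := fun a β =>
    ((ContDiffOn.sum fun i _ => hGd i a β).sub (ContDiffOn.sum fun c _ => ContDiffOn.sum fun i _ =>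
      ContDiffOn.sum fun j _ => ((hA i j).mul (hW c β j)).mul (hW c a i))).sub (hq a β)
  have hf0 : ∀ a : κ, ContDiffOn ℝ ∞ (fun _ : EuclideanSpace ℝ (Fin n) => (0:ℝ)) U := fun _ =>
    contDiffOn_const
  obtain ⟨v, h1, h2, h3, -⟩ := sys_reg_euclid (κ := κ) hU (A := fun x => Matrix.of fun i j => A i j x)
    hA hpos hBs hCs (f := fun _ _ => 0) hf0 hu hu' hWD (fun a φ hφ1 hφ2 hφ3 => by
      have hφ : TO U φ := ⟨⟨hφ1, hφ2⟩, hφ3⟩
      have h0 := heq a φ hφ1 hφ2 hφ3
      -- integrability of elementary terms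
      have I1 : ∀ i j, Integrable (fun x => (A i j x * u' j a x) * pderiv i φ x) := fun i j =>
        (integrable_mul_test (hu' j a).1 ((TO.pd hφ i).mul_on hU (hA i j))).congr
          (Eventually.of_forall fun x => by simp only; ring)
      have I2 : ∀ i b, Integrable (fun x => (G i a b x * u b x) * pderiv i φ x) := fun i b =>
        (integrable_mul_test (hu b).1 ((TO.pd hφ i).mul_on hU (hGs i a b))).congr
          (Eventually.of_forall fun x => by simp only; ring)
      have I3 : ∀ i b, Integrable (fun x => (G i a b x * u' i b x + pderiv i (G i a b) x * u b x) * φ x) :=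
        fun i b => ((integrable_mul_test (hu' i b).1 (hφ.mul_on hU (hGs i a b))).add
          (integrable_mul_test (hu b).1 (hφ.mul_on hU (hGd i a b)))).congr
          (Eventually.of_forall fun x => by simp only [Pi.add_apply]; ring)
      have I4 : ∀ (g : EuclideanSpace ℝ (Fin n) → ℝ) (w : EuclideanSpace ℝ (Fin n) → ℝ),
          ContDiffOn ℝ ∞ g U → LocallyIntegrableOn w U → Integrable (fun x => (g x * w x) * φ x) :=
        fun g w hg hw => (integrable_mul_test hw (hφ.mul_on hU hg)).congr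
          (Eventually.of_forall fun x => by simp only; ring)
      -- split the left side
      have e1 : ∫ x, ∑ i, ∑ j, A i j x * (u' j a x + ∑ b, u b x * W a b j x) * pderiv i φ x =
          (∑ i, ∫ x, (∑ j, A i j x * u' j a x) * pderiv i φ x) +
            ∑ i, ∑ b, ∫ x, (G i a b x * u b x) * pderiv i φ x := by
        have p1 : ∀ x, ∑ i, ∑ j, A i j x * (u' j a x + ∑ b, u b x * W a b j x) * pderiv i φ x =
            (∑ i, (∑ j, A i j x * u' j a x) * pderiv i φ x) +
              ∑ i, ∑ b, (G i a b x * u b x) * pderiv i φ x := by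
          intro x
          rw [← Finset.sum_add_distrib]
          refine Finset.sum_congr rfl fun i _ => ?_
          rw [← Finset.sum_mul, ← Finset.sum_mul, ← add_mul]
          congr 1
          simp only [mul_add, Finset.sum_add_distrib, hG, Finset.mul_sum, Finset.sum_mul]
          congr 1
          rw [Finset.sum_comm]
          exact Finset.sum_congr rfl fun b _ => Finset.sum_congr rfl fun j _ => by ring
        simp only [p1]
        have J1 : ∀ i, Integrable (fun x => (∑ j, A i j x * u' j a x) * pderiv i φ x) := fun i =>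
          (integrable_finsetSum Finset.univ fun j _ => I1 i j).congr
            (Eventually.of_forall fun x => by simp only [Finset.sum_mul])
        rw [integral_add (integrable_finsetSum _ fun i _ => J1 i)
          (integrable_finsetSum _ fun i _ => integrable_finsetSum _ fun b _ => I2 i b),
          integral_finsetSum _ fun i _ => J1 i,
          integral_finsetSum _ fun i _ => integrable_finsetSum _ fun b _ => I2 i b]
        congr 1
        exact Finset.sum_congr rfl fun i _ => integral_finsetSum _ fun b _ => I2 i b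
      have e2 : ∀ i b, ∫ x, (G i a b x * u b x) * pderiv i φ x =
          - ∫ x, (G i a b x * u' i b x + pderiv i (G i a b) x * u b x) * φ x := fun i b =>
        ibp_coef hU (hGs i a b) (hu b).1 (hu' i b).1 (hWD i b) hφ
      have e3 : ∑ i, ∑ b, ∫ x, (G i a b x * u b x) * pderiv i φ x =
          - ∫ x, (∑ i, ∑ b, (G i a b x * u' i b x + pderiv i (G i a b) x * u b x)) * φ x := by
        simp only [e2, Finset.sum_neg_distrib]
        congr 1
        rw [← Finset.sum_congr rfl fun i _ => integral_finsetSum _ fun b _ => I3 i b,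
          ← integral_finsetSum _ fun i _ => integrable_finsetSum _ fun b _ => I3 i b]
        refine integral_congr_ae (Eventually.of_forall fun x => ?_)
        simp only [Finset.sum_mul]
      have J2 : Integrable (fun x => (∑ i, ∑ b, (G i a b x * u' i b x + pderiv i (G i a b) x * u b x)) * φ x) :=
        (integrable_finsetSum Finset.univ fun i _ => integrable_finsetSum Finset.univ fun b _ => I3 i b).congr
          (Eventually.of_forall fun x => by simp only [Finset.sum_mul])
      have J3 : Integrable (fun x => (∑ c, ∑ i, ∑ j, A i j x * (u' j c x + ∑ b, u b x * W c b j x) * W c a i x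
          + ∑ b, q a b x * u b x) * φ x) := by
        have K1 : Integrable (fun x => ((∑ c, ∑ i, ∑ j, ((A i j x * W c a i x) * u' j c x) * φ x) +
            ∑ c, ∑ i, ∑ j, ∑ b, ((A i j x * W c b j x * W c a i x) * u b x) * φ x) +
            ∑ b, (q a b x * u b x) * φ x) := by
          refine ((integrable_finsetSum _ fun c _ => integrable_finsetSum _ fun i _ =>
            integrable_finsetSum _ fun j _ => I4 _ _ ((hA i j).mul (hW c a i)) (hu' j c).1).add
            (integrable_finsetSum _ fun c _ => integrable_finsetSum _ fun i _ =>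
            integrable_finsetSum _ fun j _ => integrable_finsetSum _ fun b _ =>
              I4 _ _ (((hA i j).mul (hW c b j)).mul (hW c a i)) (hu b).1)).add
            (integrable_finsetSum _ fun b _ => I4 _ _ (hq a b) (hu b).1)
        refine K1.congr (Eventually.of_forall fun x => ?_)
        simp only [add_mul, Finset.sum_mul, mul_add, Finset.mul_sum, Finset.sum_add_distrib]
        congr 1
        congr 1
        · exact Finset.sum_congr rfl fun c _ => Finset.sum_congr rfl fun i _ =>
            Finset.sum_congr rfl fun j _ => by ring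
        · exact Finset.sum_congr rfl fun c _ => Finset.sum_congr rfl fun i _ =>
            Finset.sum_congr rfl fun j _ => Finset.sum_congr rfl fun b _ => by ring
      rw [e1, e3] at h0
      have e4 : ∑ i, ∫ x, (∑ j, A i j x * u' j a x) * pderiv i φ x =
          (∫ x, (∑ i, ∑ b, (G i a b x * u' i b x + pderiv i (G i a b) x * u b x)) * φ x) -
            ∫ x, (∑ c, ∑ i, ∑ j, A i j x * (u' j c x + ∑ b, u b x * W c b j x) * W c a i x
              + ∑ b, q a b x * u b x) * φ x := by linarith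
      simp only [Matrix.of_apply]
      rw [e4, ← integral_sub J2 J3]
      refine integral_congr_ae (Eventually.of_forall fun x => ?_)
      simp only
      rw [← sub_mul]
      congr 1
      -- pure algebra
      have a1 : ∑ c, ∑ i, ∑ j, A i j x * (u' j c x + ∑ b, u b x * W c b j x) * W c a i x =
          (∑ i, ∑ β, (∑ l, A l i x * W β a l x) * u' i β x) +
            ∑ β, (∑ c, ∑ i, ∑ j, A i j x * W c β j x * W c a i x) * u β x := by
        simp only [mul_add, add_mul, Finset.sum_add_distrib, Finset.mul_sum, Finset.sum_mul]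
        congr 1
        · calc ∑ c, ∑ i, ∑ j, A i j x * u' j c x * W c a i x
              = ∑ c, ∑ j, ∑ i, A i j x * u' j c x * W c a i x :=
                Finset.sum_congr rfl fun c _ => Finset.sum_comm
            _ = ∑ j, ∑ c, ∑ i, A i j x * u' j c x * W c a i x := Finset.sum_comm
            _ = _ := Finset.sum_congr rfl fun j _ => Finset.sum_congr rfl fun c _ =>
                Finset.sum_congr rfl fun i _ => by ring
        · calc ∑ c, ∑ i, ∑ j, ∑ b, A i j x * (u b x * W c b j x) * W c a i x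
              = ∑ c, ∑ i, ∑ b, ∑ j, A i j x * (u b x * W c b j x) * W c a i x :=
                Finset.sum_congr rfl fun c _ => Finset.sum_congr rfl fun i _ => Finset.sum_comm
            _ = ∑ c, ∑ b, ∑ i, ∑ j, A i j x * (u b x * W c b j x) * W c a i x :=
                Finset.sum_congr rfl fun c _ => Finset.sum_comm
            _ = ∑ b, ∑ c, ∑ i, ∑ j, A i j x * (u b x * W c b j x) * W c a i x := Finset.sum_comm
            _ = _ := Finset.sum_congr rfl fun b _ => Finset.sum_congr rfl fun c _ =>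
                Finset.sum_congr rfl fun i _ => Finset.sum_congr rfl fun j _ => by ring
      have a2 : ∑ i, ∑ b, (G i a b x * u' i b x + pderiv i (G i a b) x * u b x) =
          (∑ i, ∑ b, G i a b x * u' i b x) + ∑ b, (∑ i, pderiv i (G i a b) x) * u b x := by
        simp only [Finset.sum_add_distrib, Finset.sum_mul]
        congr 1
        exact Finset.sum_comm
      rw [a1, a2]
      simp only [hB, hC, sub_mul, Finset.sum_sub_distrib, add_zero]
      ring)
  exact ⟨v, h1, h2, h3⟩

end

end Crest.Agent.R249.Tv57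
end

-- ▼ part R249/Tv7_57

/-!
# R249 (C-TV), part 7: weak eigenfunctions in divergence form; smooth frame fields; `Dat.toAD`.
(helper57)
-/

set_option autoImplicit false
set_option linter.unusedSectionVars false
set_option maxSynthPendingDepth 3
open MeasureTheory Set Filter Topology
open scoped ENNReal NNReal RealInnerProductSpace

noncomputable section
namespace Crest.Agent.R249.Tv57

open Crest.Agent.R247.Dir593

lemma integrable_inner' {X : Type*} [MeasurableSpace X] {μ : Measure X} {F : Type*}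
    [NormedAddCommGroup F] [InnerProductSpace ℝ F] {f g : X → F} (hf : MemLp f 2 μ)
    (hg : MemLp g 2 μ) : Integrable (fun x => (⟪f x, g x⟫ : ℝ)) μ := by
  refine (L2.integrable_inner (𝕜 := ℝ) (hf.toLp f) (hg.toLp g)).congr ?_
  filter_upwards [hf.coeFn_toLp, hg.coeFn_toLp] with x e1 e2
  rw [e1, e2]

section abs
variable {X : Type*} [MetricSpace X] [MeasurableSpace X] [BorelSpace X] {F : Type*}
  [NormedAddCommGroup F] [InnerProductSpace ℝ F] {μ : Measure X} [IsFiniteMeasureOnCompacts μ]

namespace AD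

variable {S : GradS X F μ} {κ : Type} [Fintype κ] (A : AD S κ)

lemma memLp_cvf (u : HH μ κ) (a : κ) : MemLp (A.cvf u a) 2 μ :=
  (Lp.memLp (S.D (u a))).add (memLp_finsetSum _ fun b _ => (A.hw a b).memLp (u b))

/-- the zeroth order term -/
def low (u : HH μ κ) (lam : ℝ) (a : κ) (x : X) : ℝ :=
  ∑ c, ⟪A.cvf u c x, A.w c a x⟫ + ∑ b, A.q a b x * u b x - lam * u a x

open Classical in
/-- **the weak eigen-equation, component by component** -/
theorem weak_div {u : HH μ κ} {lam : ℝ}
    (h : ∀ v : HH μ κ, (∀ a, v a ∈ S.V) → ∫ x, A.en u v x ∂μ = lam * ⟪u, v⟫) (a : κ) {p : X → ℝ}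
    (hp : GradS.IsT p) :
    ∫ x, ⟪A.cvf u a x, S.G p x⟫ ∂μ = - ∫ x, A.low u lam a x * p x ∂μ := by
  set v : HH μ κ := WithLp.toLp 2 (fun c => if c = a then GradS.tL hp else 0) with hv
  have hva : ∀ c, v c = if c = a then GradS.tL hp else 0 := fun c => rfl
  have hvV : ∀ c, v c ∈ S.V := by
    intro c
    rw [hva]
    split_ifs
    · exact S.tL_mem hp
    · exact S.V.zero_mem
  have h1 := h v hvV
  -- values of `v`
  have hvx : ∀ᵐ x ∂μ, ∀ c, (v c : Lp ℝ 2 μ) x = if c = a then p x else 0 := by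
    rw [ae_all_iff]
    intro c
    rw [hva]
    split_ifs with hc
    · filter_upwards [GradS.coe_tL (μ := μ) hp] with x e1
      rw [e1]
    · filter_upwards [Lp.coeFn_zero ℝ 2 μ] with x e1
      rw [e1, Pi.zero_apply]
  have hDx : ∀ᵐ x ∂μ, ∀ c, (S.D (v c) : Lp F 2 μ) x = if c = a then S.G p x else 0 := by
    rw [ae_all_iff]
    intro c
    rw [hva]
    split_ifs with hc
    · filter_upwards [S.D_tL hp] with x e1
      rw [e1]
    · rw [S.D_zero]
      filter_upwards [Lp.coeFn_zero F 2 μ] with x e1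
      rw [e1, Pi.zero_apply]
  have hen : ∀ᵐ x ∂μ, A.en u v x = ⟪A.cvf u a x, S.G p x⟫ +
      (∑ c, ⟪A.cvf u c x, A.w c a x⟫ + ∑ b, A.q a b x * u b x) * p x := by
    filter_upwards [hvx, hDx] with x e1 e2
    rw [en]
    have e3 : ∀ c, A.cvf v c x = (if c = a then S.G p x else 0) + p x • A.w c a x := by
      intro c
      rw [cvf, e2 c]
      congr 1
      simp only [e1, ite_smul, zero_smul, Finset.sum_ite_eq', Finset.mem_univ, if_true]
    simp only [e3, inner_add_right, Finset.sum_add_distrib, real_inner_smul_right, e1]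
    have e4 : ∑ c, ⟪A.cvf u c x, if c = a then S.G p x else 0⟫ = ⟪A.cvf u a x, S.G p x⟫ := by
      rw [Finset.sum_eq_single a]
      · rw [if_pos rfl]
      · intro b _ hb
        rw [if_neg hb, inner_zero_right]
      · intro h; exact absurd (Finset.mem_univ a) h
    have e5 : ∑ c, ∑ b, A.q c b x * u b x * (if c = a then p x else 0) =
        (∑ b, A.q a b x * u b x) * p x := by
      rw [Finset.sum_eq_single a]
      · simp only [if_pos]
        rw [Finset.sum_mul]
      · intro b _ hb
        simp only [if_neg hb, mul_zero, Finset.sum_const_zero]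
      · intro h; exact absurd (Finset.mem_univ a) h
    have e6 : ∑ c, p x * ⟪A.cvf u c x, A.w c a x⟫ = (∑ c, ⟪A.cvf u c x, A.w c a x⟫) * p x := by
      rw [Finset.sum_mul]
      exact Finset.sum_congr rfl fun c _ => mul_comm _ _
    rw [e4, e5, e6]
    ring
  have hin : ⟪u, v⟫ = ∫ x, u a x * p x ∂μ := by
    rw [PiLp.inner_apply]
    simp only [L2.inner_def]
    rw [Finset.sum_eq_single a]
    · refine integral_congr_ae ?_
      filter_upwards [hvx] with x e1
      rw [e1 a, if_pos rfl, rin]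
    · intro b _ hb
      rw [← integral_zero X ℝ (μ := μ)]
      refine integral_congr_ae ?_
      filter_upwards [hvx] with x e1
      rw [e1 b, if_neg hb, inner_zero_right]
    · intro h; exact absurd (Finset.mem_univ a) h
  have i1 : Integrable (fun x => (⟪A.cvf u a x, S.G p x⟫ : ℝ)) μ :=
    integrable_inner' (A.memLp_cvf u a) (hp.memLpG S)
  have ip : ∀ c, MemLp (fun x => p x • A.w c a x) 2 μ := by
    intro c
    refine (memLp_congr_ae ?_).1 ((A.hw c a).memLp (GradS.tL hp))
    filter_upwards [GradS.coe_tL (μ := μ) hp] with x e1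
    rw [e1]
  have iq : ∀ b, MemLp (fun x => A.q a b x * u b x) 2 μ := by
    intro b
    refine (memLp_congr_ae ?_).1 ((A.hq a b).memLp (u b))
    refine Eventually.of_forall fun x => ?_
    simp only [smul_eq_mul]
    ring
  have i2 : Integrable (fun x => (∑ c, ⟪A.cvf u c x, A.w c a x⟫ + ∑ b, A.q a b x * u b x) * p x) μ := by
    have j1 : Integrable (fun x => ∑ c, (⟪A.cvf u c x, p x • A.w c a x⟫ : ℝ)) μ :=
      integrable_finsetSum _ fun c _ => integrable_inner' (A.memLp_cvf u c) (ip c)
    have j2 : Integrable (fun x => ∑ b, (⟪A.q a b x * u b x, p x⟫ : ℝ)) μ :=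
      integrable_finsetSum _ fun b _ => integrable_inner' (iq b) hp.memLp
    refine (j1.add j2).congr (Eventually.of_forall fun x => ?_)
    simp only [Pi.add_apply, real_inner_smul_right, rin]
    have e6 : ∑ c, p x * ⟪A.cvf u c x, A.w c a x⟫ = (∑ c, ⟪A.cvf u c x, A.w c a x⟫) * p x := by
      rw [Finset.sum_mul]
      exact Finset.sum_congr rfl fun c _ => mul_comm _ _
    rw [e6, add_mul, Finset.sum_mul, Finset.sum_mul]
  have i3 : Integrable (fun x => u a x * p x) μ :=
    (integrable_inner' (Lp.memLp (u a)) hp.memLp).congr (Eventually.of_forall fun x => rin _ _)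
  rw [integral_congr_ae hen, integral_add i1 i2, hin] at h1
  have h2 : ∫ x, A.low u lam a x * p x ∂μ =
      (∫ x, (∑ c, ⟪A.cvf u c x, A.w c a x⟫ + ∑ b, A.q a b x * u b x) * p x ∂μ) -
        lam * ∫ x, u a x * p x ∂μ := by
    rw [← integral_const_mul, ← integral_sub i2 (i3.const_mul lam)]
    refine integral_congr_ae (Eventually.of_forall fun x => ?_)
    simp only [low]
    ring
  rw [h2]
  linarith

end AD
end abs

/-! ### smooth frame fields -/

section mfd
open scoped ContDiff Manifold Bundle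
open Metric Bundle
open Crest.Agent.R247.Ms322 Crest.Agent.R247.Frd657
open Crest.GeometryTopology.CoordMetric Crest.GeometryTopology.ChartCurvature

variable {n : ℕ} {M : Type*} [MetricSpace M] [ChartedSpace (EuclideanSpace ℝ (Fin n)) M]
  [IsManifold (𝓡 n) ∞ M]
  [RiemannianBundle (fun p : M => TangentSpace (𝓡 n) p)]
  [IsContMDiffRiemannianBundle (𝓡 n) ∞ (EuclideanSpace ℝ (Fin n)) (fun p : M => TangentSpace (𝓡 n) p)]
  [IsRiemannianManifold (𝓡 n) M] [MeasurableSpace M] [BorelSpace M]
  [SecondCountableTopology M] [Nonempty M]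

local notation "𝔼" => EuclideanSpace ℝ (Fin n)

omit [RiemannianBundle (fun p : M => TangentSpace (𝓡 n) p)]
  [IsContMDiffRiemannianBundle (𝓡 n) ∞ (EuclideanSpace ℝ (Fin n)) (fun p : M => TangentSpace (𝓡 n) p)]
  [IsRiemannianManifold (𝓡 n) M] [MeasurableSpace M] [BorelSpace M]
  [SecondCountableTopology M] [Nonempty M] in
theorem contMDiff_of_charts {f : M → ℝ} (h : ∀ x₀ : M,
    ContDiffOn ℝ ∞ (fun b => f ((chartAt 𝔼 x₀).symm b)) (chartAt 𝔼 x₀).target) :
    ContMDiff (𝓡 n) 𝓘(ℝ, ℝ) ∞ f := by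
  intro z
  have hz := mem_chart_source 𝔼 z
  have hb := (chartAt 𝔼 z).map_source hz
  have h1 : ContDiffAt ℝ ∞ (fun b => f ((chartAt 𝔼 z).symm b)) (chartAt 𝔼 z z) :=
    (h z).contDiffAt ((chartAt 𝔼 z).open_target.mem_nhds hb)
  have h2 : ContMDiffAt (𝓡 n) (𝓡 n) ∞ (chartAt 𝔼 z) z :=
    (contMDiffOn_chart (I := 𝓡 n) (n := ∞) (x := z)).contMDiffAt
      ((chartAt 𝔼 z).open_source.mem_nhds hz)
  have h3 := h1.contMDiffAt.comp z h2
  refine h3.congr_of_eventuallyEq ?_
  filter_upwards [(chartAt 𝔼 z).open_source.mem_nhds hz] with y hy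
  simp only [Function.comp_apply, (chartAt 𝔼 z).left_inv hy]

omit [RiemannianBundle (fun p : M => TangentSpace (𝓡 n) p)]
  [IsContMDiffRiemannianBundle (𝓡 n) ∞ (EuclideanSpace ℝ (Fin n)) (fun p : M => TangentSpace (𝓡 n) p)]
  [IsRiemannianManifold (𝓡 n) M] [MeasurableSpace M] [BorelSpace M]
  [SecondCountableTopology M] [Nonempty M] in
theorem chart_smooth {f : M → ℝ} (hf : ContMDiff (𝓡 n) 𝓘(ℝ, ℝ) ∞ f) (x₀ : M) :
    ContDiffOn ℝ ∞ (fun b => f ((chartAt 𝔼 x₀).symm b)) (chartAt 𝔼 x₀).target := by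
  intro b hb
  have h1 : ContMDiffAt (𝓡 n) (𝓡 n) ∞ (chartAt 𝔼 x₀).symm b :=
    (contMDiffOn_chart_symm (I := 𝓡 n) (n := ∞) (x := x₀)).contMDiffAt
      ((chartAt 𝔼 x₀).open_target.mem_nhds hb)
  exact ((hf.contMDiffAt.comp _ h1).contDiffAt).contDiffWithinAt

theorem SmF.congr {X Y : M → EuclideanSpace ℝ (Fin n)} (hX : SmF X) (h : ∀ z, Y z = X z) : SmF Y := by
  have : Y = X := funext h
  rwa [this]

theorem SmF.add {X Y : M → EuclideanSpace ℝ (Fin n)} (hX : SmF X) (hY : SmF Y) :
    SmF (fun z => X z + Y z) := by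
  intro x₀ i
  refine ((hX x₀ i).add (hY x₀ i)).congr fun b _ => ?_
  simp only [cf, inner_add_right]

theorem SmF.smul {f : M → ℝ} (hf : ContMDiff (𝓡 n) 𝓘(ℝ, ℝ) ∞ f) {X : M → EuclideanSpace ℝ (Fin n)}
    (hX : SmF X) : SmF (fun z => f z • X z) := by
  intro x₀ i
  refine ((chart_smooth hf x₀).mul (hX x₀ i)).congr fun b _ => ?_
  simp only [cf, real_inner_smul_right]

theorem SmF.neg {X : M → EuclideanSpace ℝ (Fin n)} (hX : SmF X) : SmF (fun z => - X z) := by
  intro x₀ i
  refine (hX x₀ i).neg.congr fun b _ => ?_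
  simp only [cf, inner_neg_right]

theorem SmF.sub {X Y : M → EuclideanSpace ℝ (Fin n)} (hX : SmF X) (hY : SmF Y) :
    SmF (fun z => X z - Y z) := (hX.add hY.neg).congr fun z => sub_eq_add_neg _ _

theorem SmF.zero : SmF (fun _ : M => (0 : EuclideanSpace ℝ (Fin n))) := by
  intro x₀ i
  refine (contDiffOn_const (c := (0:ℝ))).congr fun b _ => ?_
  simp only [cf, inner_zero_right]

theorem SmF.sum {ι : Type*} (s : Finset ι) {X : ι → M → EuclideanSpace ℝ (Fin n)}
    (hX : ∀ a ∈ s, SmF (X a)) : SmF (fun z => ∑ a ∈ s, X a z) := by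
  classical
  induction s using Finset.induction_on with
  | empty => exact SmF.zero.congr fun z => by simp
  | insert a s ha ih =>
    refine ((hX a (Finset.mem_insert_self a s)).add
      (ih fun b hb => hX b (Finset.mem_insert_of_mem hb))).congr fun z => ?_
    rw [Finset.sum_insert ha]

theorem smF_Gr {f : M → ℝ} (hf : ContMDiff (𝓡 n) 𝓘(ℝ, ℝ) ∞ f) : SmF (Gr (n := n) f) := by
  intro x₀ i
  have h1 := Crest.Agent.R249.SReg352.contDiffOn_dd (chartAt 𝔼 x₀).open_target (chart_smooth hf x₀)
    (EuclideanSpace.single i (1:ℝ))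
  exact h1.congr fun b hb => cf_Gr x₀ i f hb

/-- inner products of smooth frame fields are smooth -/
theorem SmF.inner {X Y : M → EuclideanSpace ℝ (Fin n)} (hX : SmF X) (hY : SmF Y) :
    ContMDiff (𝓡 n) 𝓘(ℝ, ℝ) ∞ (fun z => (⟪X z, Y z⟫ : ℝ)) := by
  refine contMDiff_of_charts fun x₀ => ?_
  have hg := isRiemannianOn_chartMetric (n := n) x₀
  have h1 : ContDiffOn ℝ ∞ (fun b => ∑ i, ∑ j, inverseField (chartMetric n M x₀) b i j *
      cf x₀ j X b * cf x₀ i Y b) (chartAt 𝔼 x₀).target :=
    ContDiffOn.sum fun i _ => ContDiffOn.sum fun j _ =>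
      ((Crest.Agent.R202.Tens.contDiffOn_inv_entry hg i j).mul (hX x₀ j)).mul (hY x₀ i)
  exact h1.congr fun b hb => inner_cf x₀ X Y hb

/-- smooth frame fields are measurable -/
theorem SmF.aesm {X : M → EuclideanSpace ℝ (Fin n)} (hX : SmF X) :
    AEStronglyMeasurable X (μHE[n] : Measure M) := by
  have hU : (⋃ k : ℕ, (chartAt 𝔼 (cen n M k)).source) = univ := by
    refine eq_univ_of_forall fun z => mem_iUnion.2 ⟨idx n z, ?_⟩
    exact mem_sel z
  have h1 : AEStronglyMeasurable X ((μHE[n] : Measure M).restrict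
      (⋃ k : ℕ, (chartAt 𝔼 (cen n M k)).source)) := by
    rw [aestronglyMeasurable_iUnion_iff]
    intro k
    set x₀ := cen n M k
    have hm : MeasurableSet (chartAt 𝔼 x₀).source := (chartAt 𝔼 x₀).open_source.measurableSet
    have h2 : AEStronglyMeasurable (fun z => ∑ i, cf x₀ i X (chartAt 𝔼 x₀ z) • dxf x₀ i z)
        ((μHE[n] : Measure M).restrict (chartAt 𝔼 x₀).source) := by
      refine Finset.aestronglyMeasurable_fun_sum _ fun i _ => ?_
      have h3 : ContinuousOn (fun z => cf x₀ i X (chartAt 𝔼 x₀ z)) (chartAt 𝔼 x₀).source :=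
        (hX x₀ i).continuousOn.comp (chartAt 𝔼 x₀).continuousOn
          (fun z hz => (chartAt 𝔼 x₀).map_source hz)
      exact (h3.aestronglyMeasurable hm).smul (measurable_Gr _).aestronglyMeasurable
    refine h2.congr ?_
    filter_upwards [self_mem_ae_restrict hm] with z hz
    have h4 := expand_cf x₀ X ((chartAt 𝔼 x₀).map_source hz)
    rw [(chartAt 𝔼 x₀).left_inv hz] at h4
    exact h4.symm
  rwa [hU, Measure.restrict_univ] at h1

variable [CompactSpace M]

theorem SmF.bm {X : M → EuclideanSpace ℝ (Fin n)} (hX : SmF X) : BM (μHE[n] : Measure M) X := by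
  refine ⟨hX.aesm, ?_⟩
  obtain ⟨C, hC⟩ := isCompact_univ.exists_bound_of_continuousOn (hX.inner hX).continuous.continuousOn
  refine ⟨√(max C 0), Real.sqrt_nonneg _, Eventually.of_forall fun z => ?_⟩
  refine Real.le_sqrt_of_sq_le ?_
  have := hC z (mem_univ z)
  rw [real_inner_self_eq_norm_sq, Real.norm_of_nonneg (sq_nonneg _)] at this
  exact this.trans (le_max_left _ _)

theorem bm_smooth {f : M → ℝ} (hf : ContMDiff (𝓡 n) 𝓘(ℝ, ℝ) ∞ f) : BM (μHE[n] : Measure M) f := by
  refine ⟨hf.continuous.aestronglyMeasurable, ?_⟩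
  obtain ⟨C, hC⟩ := isCompact_univ.exists_bound_of_continuousOn hf.continuous.continuousOn
  exact ⟨max C 0, le_max_right _ _, Eventually.of_forall fun z => (hC z (mem_univ z)).trans
    (le_max_left _ _)⟩

theorem isT_smooth {f : M → ℝ} (hf : ContMDiff (𝓡 n) 𝓘(ℝ, ℝ) ∞ f) : GradS.IsT f :=
  ⟨locLip_of_contMDiff (n := n) (hf.of_le (by simp)), HasCompactSupport.of_compactSpace f⟩

variable {κ : Type} [Fintype κ]

section
variable (D : Dat n M κ) {u v : κ → M → ℝ}

theorem smF_cv (hu : SmV (n := n) u) (a : κ) : SmF (D.cv u a) :=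
  (smF_Gr (hu a)).add (SmF.sum _ fun b _ => SmF.smul (hu b) (D.smX a b))

theorem smooth_ed (hu : SmV (n := n) u) (hv : SmV (n := n) v) :
    ContMDiff (𝓡 n) 𝓘(ℝ, ℝ) ∞ (D.ed u v) := by
  have h1 : ContMDiff (𝓡 n) 𝓘(ℝ, ℝ) ∞ fun z => ∑ a, (⟪D.cv u a z, D.cv v a z⟫ : ℝ) :=
    contMDiff_finsetSum fun a _ => (smF_cv D hu a).inner (smF_cv D hv a)
  have h2 : ContMDiff (𝓡 n) 𝓘(ℝ, ℝ) ∞ fun z => ∑ a, ∑ b, D.Q a b z * u b z * v a z :=
    contMDiff_finsetSum fun a _ => contMDiff_finsetSum fun b _ =>
      ((D.smQ a b).mul (hu b)).mul (hv a)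
  exact h1.add h2
end

variable [IsFiniteMeasureOnCompacts (μHE[n] : Measure M)]

/-- the abstract data -/
def Dat.toAD (D : Dat n M κ) : AD (gradS n M) κ where
  w := D.X
  q := D.Q
  p := D.p
  hw := fun a b => (D.smX a b).bm
  hq := fun a b => bm_smooth (D.smQ a b)
  hp := fun a b => bm_smooth (D.smp a b)
  hT := fun a b => isT_smooth (D.smp a b)
  skew := D.skew
  symmq := D.symmQ
  symmp := D.symmp
  idem := D.idem
  par := fun a b => Eventually.of_forall (D.par a b)
  comm := D.comm

end mfd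

end Crest.Agent.R249.Tv57
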