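import Crest.Agent.R202.EllFinal
import Crest.Agent.R249.Grn1_324

-- ▼ part R249/EllZA_324
section

/-!
# R249 (helper324), PDE layer, file 1: the splitting `ℝⁿ⁺¹ = ℝ × ℝⁿ` (derivatives and integrals)

`cn s a = (s, a)`, `tl (s, a) = a`, `hd (s, a) = s`; `cn` preserves the measure; partial derivatives.
-/

set_option autoImplicit false

noncomputable section

open scoped BigOperators ContDiff
open MeasureTheory Set Filter Topology Crest.GeometryTopology.CoordMetric
open Crest.Agent.R202.Ell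

namespace Crest.Agent.R249.EllZ324

variable {n : ℕ}

/-- first coordinate -/
def hd : EuclideanSpace ℝ (Fin (n + 1)) →L[ℝ] ℝ := EuclideanSpace.proj 0

/-- the last `n` coordinates -/
def tl : EuclideanSpace ℝ (Fin (n + 1)) →L[ℝ] EuclideanSpace ℝ (Fin n) :=
  LinearMap.toContinuousLinearMap
    { toFun := fun z => WithLp.toLp 2 fun i => z i.succ
      map_add' := fun _ _ => rfl
      map_smul' := fun _ _ => rfl }

/-- the point `(s, a)` -/
def cn (s : ℝ) (a : EuclideanSpace ℝ (Fin n)) : EuclideanSpace ℝ (Fin (n + 1)) :=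
  WithLp.toLp 2 (Fin.cons s fun i => a i)

@[simp] lemma hd_apply (z : EuclideanSpace ℝ (Fin (n + 1))) : hd z = z 0 := rfl

@[simp] lemma tl_apply (z : EuclideanSpace ℝ (Fin (n + 1))) (i : Fin n) : tl z i = z i.succ := rfl

@[simp] lemma cn_zero (s : ℝ) (a : EuclideanSpace ℝ (Fin n)) : cn s a 0 = s := rfl

@[simp] lemma cn_succ (s : ℝ) (a : EuclideanSpace ℝ (Fin n)) (i : Fin n) : cn s a i.succ = a i := rfl

@[simp] lemma tl_cn (s : ℝ) (a : EuclideanSpace ℝ (Fin n)) : tl (cn s a) = a := by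
  ext i; simp

@[simp] lemma cn_hd_tl (z : EuclideanSpace ℝ (Fin (n + 1))) : cn (z 0) (tl z) = z := by
  ext i
  refine Fin.cases ?_ (fun j => ?_) i <;> simp

/-- `(s, a) ↦ (s, a)` as a linear map -/
def cnL : ℝ × EuclideanSpace ℝ (Fin n) →L[ℝ] EuclideanSpace ℝ (Fin (n + 1)) :=
  LinearMap.toContinuousLinearMap
    { toFun := fun p => cn p.1 p.2
      map_add' := fun p q => by
        ext i
        refine Fin.cases ?_ (fun j => ?_) i <;> simp
      map_smul' := fun c p => by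
        ext i
        refine Fin.cases ?_ (fun j => ?_) i <;> simp }

lemma cnL_apply (p : ℝ × EuclideanSpace ℝ (Fin n)) : cnL p = cn p.1 p.2 := rfl

lemma cn_eq (s : ℝ) (a : EuclideanSpace ℝ (Fin n)) : cn s a = cnL (s, a) := rfl

lemma contDiff_cn : ContDiff ℝ ∞ fun p : ℝ × EuclideanSpace ℝ (Fin n) => cn p.1 p.2 :=
  (cnL (n := n)).contDiff

lemma contDiff_cn_right (s : ℝ) : ContDiff ℝ ∞ fun a : EuclideanSpace ℝ (Fin n) => cn s a :=
  contDiff_cn.comp (contDiff_const.prodMk contDiff_id)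

lemma contDiff_cn_left (a : EuclideanSpace ℝ (Fin n)) : ContDiff ℝ ∞ fun s : ℝ => cn s a :=
  contDiff_cn.comp (contDiff_id.prodMk contDiff_const)

lemma hasFDerivAt_cn_right (s : ℝ) (a : EuclideanSpace ℝ (Fin n)) :
    HasFDerivAt (fun a : EuclideanSpace ℝ (Fin n) => cn s a)
      (cnL.comp (ContinuousLinearMap.inr ℝ ℝ (EuclideanSpace ℝ (Fin n)))) a := by
  have h := (cnL (n := n)).hasFDerivAt (x := (s, a))
  exact h.comp a (hasFDerivAt_prodMk_right s a)

lemma hasFDerivAt_cn_left (s : ℝ) (a : EuclideanSpace ℝ (Fin n)) :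
    HasFDerivAt (fun s : ℝ => cn s a)
      (cnL.comp (ContinuousLinearMap.inl ℝ ℝ (EuclideanSpace ℝ (Fin n)))) s := by
  have h := (cnL (n := n)).hasFDerivAt (x := (s, a))
  have h2 : HasFDerivAt (fun e : ℝ => (e, a))
      (ContinuousLinearMap.inl ℝ ℝ (EuclideanSpace ℝ (Fin n))) s := hasFDerivAt_prodMk_left s a
  exact HasFDerivAt.comp s (g := cnL) (f := fun e : ℝ => (e, a)) h h2

lemma cn_single (i : Fin n) : cn 0 (EuclideanSpace.single i (1:ℝ)) =
    EuclideanSpace.single i.succ (1:ℝ) := by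
  ext k
  refine Fin.cases ?_ (fun j => ?_) k
  · simp
  · simp [Fin.succ_inj]

lemma cn_one_zero : cn 1 (0 : EuclideanSpace ℝ (Fin n)) = EuclideanSpace.single 0 (1:ℝ) := by
  ext k
  refine Fin.cases ?_ (fun j => ?_) k
  · simp
  · simp

/-- partial derivatives of a slice `a ↦ Φ (s, a)`. -/
lemma pderiv_slice {Φ : EuclideanSpace ℝ (Fin (n + 1)) → ℝ} {s : ℝ}
    {a : EuclideanSpace ℝ (Fin n)} (h : DifferentiableAt ℝ Φ (cn s a)) (i : Fin n) :
    pderiv i (fun b => Φ (cn s b)) a = pderiv i.succ Φ (cn s a) := by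
  have h1 := h.hasFDerivAt.comp a (hasFDerivAt_cn_right s a)
  have h2 : fderiv ℝ (fun b => Φ (cn s b)) a = (fderiv ℝ Φ (cn s a)).comp
      (cnL.comp (ContinuousLinearMap.inr ℝ ℝ (EuclideanSpace ℝ (Fin n)))) := h1.fderiv
  unfold pderiv
  rw [h2]
  change fderiv ℝ Φ (cn s a) (cn 0 (EuclideanSpace.single i (1:ℝ))) = _
  rw [cn_single]

/-- derivative of `s ↦ Φ (s, a)`. -/
lemma hasDerivAt_slice {Φ : EuclideanSpace ℝ (Fin (n + 1)) → ℝ} {s : ℝ}
    {a : EuclideanSpace ℝ (Fin n)} (h : DifferentiableAt ℝ Φ (cn s a)) :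
    HasDerivAt (fun t => Φ (cn t a)) (pderiv 0 Φ (cn s a)) s := by
  have h1 := (h.hasFDerivAt.comp s (hasFDerivAt_cn_left s a)).hasDerivAt
  have h2 : (fderiv ℝ Φ (cn s a)).comp
      (cnL.comp (ContinuousLinearMap.inl ℝ ℝ (EuclideanSpace ℝ (Fin n)))) 1 =
      pderiv 0 Φ (cn s a) := by
    change fderiv ℝ Φ (cn s a) (cn 1 (0 : EuclideanSpace ℝ (Fin n))) = _
    rw [cn_one_zero]
    rfl
  rw [h2] at h1
  exact h1

/-- partial derivatives of functions of `tl z` -/
lemma pderiv_zero_tl {p : EuclideanSpace ℝ (Fin n) → ℝ} {z : EuclideanSpace ℝ (Fin (n + 1))}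
    (h : DifferentiableAt ℝ p (tl z)) : pderiv 0 (fun y => p (tl y)) z = 0 := by
  have h1 : HasFDerivAt (fun y => p (tl y)) ((fderiv ℝ p (tl z)).comp tl) z :=
    h.hasFDerivAt.comp z (tl (n := n)).hasFDerivAt
  unfold pderiv
  rw [h1.fderiv]
  have h2 : tl (EuclideanSpace.single 0 (1:ℝ) : EuclideanSpace ℝ (Fin (n + 1))) = 0 := by
    ext i; simp
  change fderiv ℝ p (tl z) (tl (EuclideanSpace.single 0 (1:ℝ))) = 0
  rw [h2, map_zero]

/-! ### the measure -/

/-- `(s, a) ↦ (s, a)` as a measurable equivalence -/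
def mkE (n : ℕ) : ℝ × EuclideanSpace ℝ (Fin n) ≃ᵐ EuclideanSpace ℝ (Fin (n + 1)) :=
  ((MeasurableEquiv.refl ℝ).prodCongr (MeasurableEquiv.toLp 2 (Fin n → ℝ)).symm).trans
    ((MeasurableEquiv.piFinSuccAbove (fun _ : Fin (n + 1) => ℝ) 0).symm.trans
      (MeasurableEquiv.toLp 2 (Fin (n + 1) → ℝ)))

theorem mkE_apply (s : ℝ) (a : EuclideanSpace ℝ (Fin n)) : mkE n (s, a) = cn s a := by
  ext i
  refine Fin.cases ?_ (fun j => ?_) i
  · simp [mkE, MeasurableEquiv.piFinSuccAbove, Fin.insertNthEquiv, MeasurableEquiv.prodCongr]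
  · simp [mkE, MeasurableEquiv.piFinSuccAbove, Fin.insertNthEquiv, MeasurableEquiv.prodCongr]

theorem measurePreserving_mkE : MeasurePreserving (mkE n) volume volume := by
  have h1 : MeasurePreserving ((MeasurableEquiv.refl ℝ).prodCongr
      (MeasurableEquiv.toLp 2 (Fin n → ℝ)).symm)
      (volume : Measure (ℝ × EuclideanSpace ℝ (Fin n))) volume :=
    (MeasurePreserving.id volume).prod (PiLp.volume_preserving_ofLp (Fin n))
  have h3 : MeasurePreserving (MeasurableEquiv.piFinSuccAbove (fun _ : Fin (n + 1) => ℝ) 0).symm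
      (volume : Measure (ℝ × (Fin n → ℝ))) volume :=
    (volume_preserving_piFinSuccAbove (fun _ : Fin (n + 1) => ℝ) 0).symm
  have h4 : MeasurePreserving (MeasurableEquiv.toLp 2 (Fin (n + 1) → ℝ)) volume volume :=
    PiLp.volume_preserving_toLp (Fin (n + 1))
  exact (h4.comp h3).comp h1

theorem mkE_coe : (mkE n : ℝ × EuclideanSpace ℝ (Fin n) → EuclideanSpace ℝ (Fin (n + 1))) =
    fun p => cn p.1 p.2 := by
  funext p
  exact mkE_apply p.1 p.2

theorem integral_cn (K : EuclideanSpace ℝ (Fin (n + 1)) → ℝ) :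
    ∫ x, K x = ∫ t : ℝ × EuclideanSpace ℝ (Fin n), K (cn t.1 t.2) := by
  rw [← (measurePreserving_mkE (n := n)).integral_comp (mkE n).measurableEmbedding K]
  refine integral_congr_ae (Filter.Eventually.of_forall fun t => ?_)
  dsimp only
  rw [mkE_coe]

theorem ae_cn {P : EuclideanSpace ℝ (Fin (n + 1)) → Prop} (h : ∀ᵐ z, P z) :
    ∀ᵐ t : ℝ × EuclideanSpace ℝ (Fin n), P (cn t.1 t.2) := by
  have h1 := (measurePreserving_mkE (n := n)).quasiMeasurePreserving.ae h
  filter_upwards [h1] with t ht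
  rwa [mkE_coe] at ht

theorem of_ae_cn {P : EuclideanSpace ℝ (Fin (n + 1)) → Prop}
    (h : ∀ᵐ t : ℝ × EuclideanSpace ℝ (Fin n), P (cn t.1 t.2)) : ∀ᵐ z, P z := by
  have h0 := (measurePreserving_mkE (n := n)).symm
  have h1 := h0.quasiMeasurePreserving.ae h
  filter_upwards [h1] with z hz
  have h2 : (mkE n) ((mkE n).symm z) = z := (mkE n).apply_symm_apply z
  rw [mkE_coe] at h2
  simpa only [h2] using hz

end Crest.Agent.R249.EllZ324
end
end

-- ▼ part R249/EllZB_324
section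

/-!
# R249 (helper324), PDE layer, file 2: elliptic regularity with a zero order term

`div (A ∇u) - τ q u = f` in the sense of distributions on `U`, `u ∈ L¹_loc(U)`, `A`, `q > 0`, `f` smooth:
`u` is smooth.  (Extra variable `s`: `u(a) κ(s)` with `κ'' = -τ κ` solves an equation without zero
order term in `ℝ × U`.)
-/

set_option autoImplicit false

noncomputable section

open scoped BigOperators ContDiff
open MeasureTheory Set Filter Topology Crest.GeometryTopology.CoordMetric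
open Crest.Agent.R202.Ell

namespace Crest.Agent.R249.EllZ324

variable {n : ℕ}

/-- the coefficients in one more variable -/
def bigA (A : EuclideanSpace ℝ (Fin n) → Matrix (Fin n) (Fin n) ℝ)
    (q : EuclideanSpace ℝ (Fin n) → ℝ) (z : EuclideanSpace ℝ (Fin (n + 1))) :
    Matrix (Fin (n + 1)) (Fin (n + 1)) ℝ :=
  Matrix.of fun i j => Fin.cases (Fin.cases (q (tl z)) (fun _ => 0) j)
    (fun i' => Fin.cases 0 (fun j' => A (tl z) i' j') j) i

variable {A : EuclideanSpace ℝ (Fin n) → Matrix (Fin n) (Fin n) ℝ}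
  {q : EuclideanSpace ℝ (Fin n) → ℝ}

@[simp] lemma bigA_zero_zero (z : EuclideanSpace ℝ (Fin (n + 1))) : bigA A q z 0 0 = q (tl z) := rfl

@[simp] lemma bigA_zero_succ (z : EuclideanSpace ℝ (Fin (n + 1))) (j : Fin n) :
    bigA A q z 0 j.succ = 0 := rfl

@[simp] lemma bigA_succ_zero (z : EuclideanSpace ℝ (Fin (n + 1))) (i : Fin n) :
    bigA A q z i.succ 0 = 0 := rfl

@[simp] lemma bigA_succ_succ (z : EuclideanSpace ℝ (Fin (n + 1))) (i j : Fin n) :
    bigA A q z i.succ j.succ = A (tl z) i j := rfl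

lemma contDiffOn_bigA {U : Set (EuclideanSpace ℝ (Fin n))}
    (hA : ∀ i j, ContDiffOn ℝ ∞ (fun x => A x i j) U) (hq : ContDiffOn ℝ ∞ q U)
    (i j : Fin (n + 1)) : ContDiffOn ℝ ∞ (fun z => bigA A q z i j) (tl ⁻¹' U) := by
  have ht : ContDiffOn ℝ ∞ (tl : EuclideanSpace ℝ (Fin (n + 1)) → EuclideanSpace ℝ (Fin n))
      (tl ⁻¹' U) := (tl (n := n)).contDiff.contDiffOn
  refine Fin.cases ?_ (fun i' => ?_) i
  · refine Fin.cases ?_ (fun j' => ?_) j
    · exact hq.comp ht fun z hz => hz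
    · exact contDiffOn_const
  · refine Fin.cases ?_ (fun j' => ?_) j
    · exact contDiffOn_const
    · exact (hA i' j').comp ht fun z hz => hz

lemma posDef_bigA {z : EuclideanSpace ℝ (Fin (n + 1))} (hA : (A (tl z)).PosDef)
    (hq : 0 < q (tl z)) : (bigA A q z).PosDef := by
  refine Matrix.PosDef.of_dotProduct_mulVec_pos ?_ ?_
  · ext i j
    refine Fin.cases ?_ (fun i' => ?_) i
    · refine Fin.cases ?_ (fun j' => ?_) j
      · simp [Matrix.conjTranspose_apply]
      · simp [Matrix.conjTranspose_apply]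
    · refine Fin.cases ?_ (fun j' => ?_) j
      · simp [Matrix.conjTranspose_apply]
      · have h := congrFun (congrFun hA.isHermitian i') j'
        simpa [Matrix.conjTranspose_apply] using h
  · intro x hx
    have e : star x ⬝ᵥ (bigA A q z).mulVec x = q (tl z) * x 0 ^ 2 +
        star (fun i : Fin n => x i.succ) ⬝ᵥ (A (tl z)).mulVec (fun i : Fin n => x i.succ) := by
      simp only [dotProduct, Matrix.mulVec, Pi.star_apply, star_trivial, Fin.sum_univ_succ,
        bigA_zero_zero, bigA_zero_succ, bigA_succ_zero, bigA_succ_succ, zero_mul,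
        Finset.sum_const_zero, add_zero, zero_add]
      ring
    rw [e]
    by_cases h0 : (fun i : Fin n => x i.succ) = 0
    · have hx0 : x 0 ≠ 0 := by
        intro h1
        apply hx
        ext i
        refine Fin.cases h1 (fun j => ?_) i
        exact congrFun h0 j
      rw [h0]
      simp only [star_zero, Matrix.mulVec_zero, dotProduct_zero, add_zero]
      positivity
    · have h1 := hA.dotProduct_mulVec_pos h0
      have h2 : 0 ≤ q (tl z) * x 0 ^ 2 := by positivity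
      linarith

/-- `div (A' ∇Φ)` in the extended space -/
lemma divA_bigA {U : Set (EuclideanSpace ℝ (Fin n))} (hU : IsOpen U)
    (hA : ∀ i j, ContDiffOn ℝ ∞ (fun x => A x i j) U) (hq : ContDiffOn ℝ ∞ q U)
    {W : Set (EuclideanSpace ℝ (Fin (n + 1)))} (hW : IsOpen W)
    {Φ : EuclideanSpace ℝ (Fin (n + 1)) → ℝ} (hΦ : ContDiffOn ℝ ∞ Φ W) {s : ℝ}
    {a : EuclideanSpace ℝ (Fin n)} (ha : a ∈ U) (hW' : cn s a ∈ W) :
    divA (bigA A q) Φ (cn s a) = divA A (fun b => Φ (cn s b)) a +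
      q a * pderiv 0 (pderiv 0 Φ) (cn s a) := by
  have hd : ∀ (j : Fin (n + 1)) (y : EuclideanSpace ℝ (Fin (n + 1))), y ∈ W →
      DifferentiableAt ℝ (pderiv j Φ) y := fun j y hy =>
    ((contDiffOn_pd hW hΦ j).contDiffAt (hW.mem_nhds hy)).differentiableAt (by simp)
  have hUt : DifferentiableAt ℝ q (tl (cn s a)) := by
    rw [tl_cn]
    exact (hq.contDiffAt (hU.mem_nhds ha)).differentiableAt (by simp)
  have hqt : DifferentiableAt ℝ (fun y : EuclideanSpace ℝ (Fin (n + 1)) => q (tl y)) (cn s a) :=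
    hUt.comp (cn s a) (tl (n := n)).differentiableAt
  unfold divA
  rw [Fin.sum_univ_succ, add_comm]
  congr 1
  · refine Finset.sum_congr rfl fun i _ => ?_
    -- the flux in direction `i.succ`
    have hF : ∀ y : EuclideanSpace ℝ (Fin (n + 1)),
        (∑ j, bigA A q y i.succ j * pderiv j Φ y) =
          ∑ j : Fin n, A (tl y) i j * pderiv j.succ Φ y := by
      intro y
      rw [Fin.sum_univ_succ]
      simp
    simp only [hF]
    have hAt : ∀ j, DifferentiableAt ℝ
        (fun y : EuclideanSpace ℝ (Fin (n + 1)) => A (tl y) i j) (cn s a) := by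
      intro j
      have h1 : DifferentiableAt ℝ (fun x => A x i j) (tl (cn s a)) := by
        rw [tl_cn]
        exact ((hA i j).contDiffAt (hU.mem_nhds ha)).differentiableAt (by simp)
      exact h1.comp (cn s a) (tl (n := n)).differentiableAt
    have hdiff : DifferentiableAt ℝ (fun y : EuclideanSpace ℝ (Fin (n + 1)) =>
        ∑ j : Fin n, A (tl y) i j * pderiv j.succ Φ y) (cn s a) :=
      DifferentiableAt.fun_sum fun j _ => (hAt j).mul (hd _ _ hW')
    rw [← pderiv_slice hdiff i]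
    refine pderiv_congr ?_ i
    have hnh : ∀ᶠ b in 𝓝 a, cn s b ∈ W :=
      (contDiff_cn_right s).continuous.continuousAt.preimage_mem_nhds (hW.mem_nhds hW')
    filter_upwards [hnh] with b hb
    refine Finset.sum_congr rfl fun j _ => ?_
    rw [tl_cn, pderiv_slice (((hΦ.contDiffAt (hW.mem_nhds hb)).differentiableAt (by simp))) j]
  · have hF : ∀ y : EuclideanSpace ℝ (Fin (n + 1)),
        (∑ j, bigA A q y 0 j * pderiv j Φ y) = q (tl y) * pderiv 0 Φ y := by
      intro y
      rw [Fin.sum_univ_succ]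
      simp
    simp only [hF]
    have h1 : pderiv 0 (fun y => q (tl y) * pderiv 0 Φ y) (cn s a) =
        q (tl (cn s a)) * pderiv 0 (pderiv 0 Φ) (cn s a) +
          pderiv 0 (fun y => q (tl y)) (cn s a) * pderiv 0 Φ (cn s a) := by
      change fderiv ℝ (fun y => q (tl y) * pderiv 0 Φ y) (cn s a) (EuclideanSpace.single 0 1) = _
      rw [fderiv_fun_mul hqt (hd 0 _ hW')]
      simp only [add_apply, smul_apply, smul_eq_mul]
      rw [mul_comm (pderiv 0 Φ (cn s a))]
      rfl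
    rw [h1, pderiv_zero_tl hUt, tl_cn]
    ring

end Crest.Agent.R249.EllZ324
end
end

-- ▼ part R249/EllZC_324
section

/-!
# R249 (helper324), PDE layer, file 3: elliptic regularity with a zero order term, the theorem
-/

set_option autoImplicit false

noncomputable section

open scoped BigOperators ContDiff
open MeasureTheory Set Filter Topology Crest.GeometryTopology.CoordMetric
open Crest.Agent.R202.Ell

namespace Crest.Agent.R249.EllZ324

variable {n : ℕ}

/-- a function smooth on an open set and supported (closed support) in it is smooth. -/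
lemma contDiff_of_tsupport {U : Set (EuclideanSpace ℝ (Fin n))} (hU : IsOpen U)
    {g : EuclideanSpace ℝ (Fin n) → ℝ} (hg : ContDiffOn ℝ ∞ g U) {K : Set (EuclideanSpace ℝ (Fin n))}
    (hK : IsClosed K) (hKU : K ⊆ U) (h0 : ∀ x, x ∉ K → g x = 0) : ContDiff ℝ ∞ g := by
  rw [contDiff_iff_contDiffAt]
  intro x
  by_cases hx : x ∈ U
  · exact hg.contDiffAt (hU.mem_nhds hx)
  · have hx' : x ∉ K := fun h => hx (hKU h)
    have : g =ᶠ[nhds x] fun _ => 0 := by
      filter_upwards [hK.isOpen_compl.mem_nhds hx'] with y hy using h0 y hy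
    exact contDiffAt_const.congr_of_eventuallyEq this

/-- `∫ κ(s) (F'' + τ F) ds = 0` if `κ'' = - τ κ` and `F` has compact support. -/
lemma integral_kappa {κ : ℝ → ℝ} {τ : ℝ} (hκ : ContDiff ℝ ∞ κ)
    (hκ2 : ∀ s, deriv (deriv κ) s = - τ * κ s) {F F1 F2 : ℝ → ℝ}
    (h1 : ∀ s, HasDerivAt F (F1 s) s) (h2 : ∀ s, HasDerivAt F1 (F2 s) s)
    (hc : Continuous F2) (hs : HasCompactSupport F) (hs1 : HasCompactSupport F1)
    (hs2 : HasCompactSupport F2) :
    ∫ s, κ s * (F2 s + τ * F s) = 0 := by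
  have hk1 : ∀ s, HasDerivAt κ (deriv κ s) s := fun s =>
    (hκ.differentiable (by simp) s).hasDerivAt
  have hκ' : ContDiff ℝ ∞ (deriv κ) := by
    exact (contDiff_infty_iff_deriv.1 hκ).2
  have hk2 : ∀ s, HasDerivAt (deriv κ) (- τ * κ s) s := fun s => by
    rw [← hκ2 s]
    exact (hκ'.differentiable (by simp) s).hasDerivAt
  have hder : ∀ s, HasDerivAt (fun s => κ s * F1 s - deriv κ s * F s)
      (κ s * (F2 s + τ * F s)) s := by
    intro s
    have h := ((hk1 s).mul (h2 s)).sub ((hk2 s).mul (h1 s))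
    refine h.congr_deriv ?_
    ring
  have cF : Continuous F := continuous_iff_continuousAt.2 fun s => (h1 s).continuousAt
  have cF1 : Continuous F1 := continuous_iff_continuousAt.2 fun s => (h2 s).continuousAt
  refine integral_eq_zero_of_hasDerivAt_of_integrable hder ?_ ?_
  · refine Continuous.integrable_of_hasCompactSupport
      (hκ.continuous.mul (hc.add (continuous_const.mul cF))) ?_
    exact HasCompactSupport.mul_left (hs2.add (HasCompactSupport.mul_left hs))
  · refine Continuous.integrable_of_hasCompactSupport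
      ((hκ.continuous.mul cF1).sub (hκ'.continuous.mul cF)) ?_
    exact (HasCompactSupport.mul_left hs1).sub (HasCompactSupport.mul_left hs)

section Fubini

variable {U : Set (EuclideanSpace ℝ (Fin n))} {u : EuclideanSpace ℝ (Fin n) → ℝ}

/-- integrability on the product -/
lemma integrable_prod_loc (hu : LocallyIntegrableOn u U)
    {K : Set (EuclideanSpace ℝ (Fin (n + 1)))} (hK : IsCompact K) (hKU : K ⊆ tl ⁻¹' U)
    {κ : ℝ → ℝ} (hκ : Continuous κ) {G : EuclideanSpace ℝ (Fin (n + 1)) → ℝ} (hG : Continuous G)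
    (h0 : ∀ z, z ∉ K → G z = 0) :
    Integrable (fun p : ℝ × EuclideanSpace ℝ (Fin n) => u p.2 * (κ p.1 * G (cn p.1 p.2)))
      (volume.prod volume) := by
  set K2 : Set (EuclideanSpace ℝ (Fin n)) := tl '' K with hK2
  set K1 : Set ℝ := hd '' K with hK1
  have c2 : IsCompact K2 := hK.image tl.continuous
  have c1 : IsCompact K1 := hK.image hd.continuous
  have hK2U : K2 ⊆ U := by
    rintro _ ⟨z, hz, rfl⟩
    exact hKU hz
  have hu2 : Integrable (K2.indicator u) := by
    rw [integrable_indicator_iff c2.measurableSet]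
    exact hu.integrableOn_compact_subset hK2U c2
  have h1 : Integrable (K1.indicator fun _ : ℝ => (1:ℝ)) := by
    rw [integrable_indicator_iff c1.measurableSet]
    exact integrableOn_const c1.measure_lt_top.ne
  have h12 : Integrable (fun p : ℝ × EuclideanSpace ℝ (Fin n) =>
      K1.indicator (fun _ : ℝ => (1:ℝ)) p.1 * K2.indicator u p.2) (volume.prod volume) :=
    h1.mul_prod hu2
  have hcont : Continuous fun p : ℝ × EuclideanSpace ℝ (Fin n) => κ p.1 * G (cn p.1 p.2) :=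
    (hκ.comp continuous_fst).mul (hG.comp contDiff_cn.continuous)
  have hcs : HasCompactSupport fun p : ℝ × EuclideanSpace ℝ (Fin n) =>
      κ p.1 * G (cn p.1 p.2) := by
    refine HasCompactSupport.intro (c1.prod c2) ?_
    intro p hp
    have : cn p.1 p.2 ∉ K := by
      intro h
      apply hp
      exact ⟨⟨_, h, by simp⟩, ⟨_, h, by simp⟩⟩
    rw [h0 _ this, mul_zero]
  obtain ⟨C, hC⟩ := hcs.exists_bound_of_continuous hcont
  refine (h12.mul_bdd hcont.aestronglyMeasurable (Eventually.of_forall hC)).congr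
    (Eventually.of_forall fun p => ?_)
  dsimp only
  by_cases hp : cn p.1 p.2 ∈ K
  · have e1 : p.1 ∈ K1 := ⟨_, hp, by simp⟩
    have e2 : p.2 ∈ K2 := ⟨_, hp, by simp⟩
    rw [indicator_of_mem e1, indicator_of_mem e2]
    ring
  · rw [h0 _ hp]
    ring

end Fubini

variable {A : EuclideanSpace ℝ (Fin n) → Matrix (Fin n) (Fin n) ℝ}
  {q : EuclideanSpace ℝ (Fin n) → ℝ}

/-- the extended equation in the sense of distributions -/
theorem weak_ext {U : Set (EuclideanSpace ℝ (Fin n))} (hU : IsOpen U)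
    (hA : ∀ i j, ContDiffOn ℝ ∞ (fun x => A x i j) U) (hq : ContDiffOn ℝ ∞ q U)
    {f : EuclideanSpace ℝ (Fin n) → ℝ} (hf : ContDiffOn ℝ ∞ f U)
    {u : EuclideanSpace ℝ (Fin n) → ℝ} (hu : LocallyIntegrableOn u U) {τ : ℝ}
    (h : ∀ φ : EuclideanSpace ℝ (Fin n) → ℝ, ContDiff ℝ ∞ φ → HasCompactSupport φ →
      tsupport φ ⊆ U → ∫ x, u x * (divA A φ x - τ * (q x * φ x)) = ∫ x, f x * φ x)
    {κ : ℝ → ℝ} (hκ : ContDiff ℝ ∞ κ) (hκ2 : ∀ s, deriv (deriv κ) s = - τ * κ s)
    {Φ : EuclideanSpace ℝ (Fin (n + 1)) → ℝ} (hΦ : ContDiff ℝ ∞ Φ) (hc : HasCompactSupport Φ)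
    (hs : tsupport Φ ⊆ tl ⁻¹' U) :
    ∫ z, (u (tl z) * κ (z 0)) * divA (bigA A q) Φ z = ∫ z, (f (tl z) * κ (z 0)) * Φ z := by
  have hU' : IsOpen (tl ⁻¹' U : Set (EuclideanSpace ℝ (Fin (n + 1)))) :=
    hU.preimage tl.continuous
  set K := tsupport Φ with hK
  have hKc : IsCompact K := hc.isCompact
  have hKcl : IsClosed K := isClosed_tsupport Φ
  -- the functions
  have htq : ContDiffOn ℝ ∞ (fun z : EuclideanSpace ℝ (Fin (n + 1)) => q (tl z)) (tl ⁻¹' U) :=
    hq.comp (tl (n := n)).contDiff.contDiffOn fun z hz => hz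
  have htf : ContDiffOn ℝ ∞ (fun z : EuclideanSpace ℝ (Fin (n + 1)) => f (tl z)) (tl ⁻¹' U) :=
    hf.comp (tl (n := n)).contDiff.contDiffOn fun z hz => hz
  have hpp : ContDiff ℝ ∞ (pderiv 0 (pderiv 0 Φ)) := contDiff_pderiv (contDiff_pderiv hΦ 0) 0
  have zpp : ∀ z, z ∉ K → pderiv 0 (pderiv 0 Φ) z = 0 := fun z hz =>
    pderiv_eq_zero_of_notMem (fun h => hz (tsupport_pderiv_subset Φ 0 h)) 0
  have zΦ : ∀ z, z ∉ K → Φ z = 0 := fun z hz => image_eq_zero_of_notMem_tsupport hz
  have zD : ∀ z, z ∉ K → divA (bigA A q) Φ z = 0 := fun z hz =>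
    image_eq_zero_of_notMem_tsupport fun h => hz (tsupport_divA_subset _ Φ h)
  have sD : ContDiff ℝ ∞ (divA (bigA A q) Φ) := by
    refine contDiff_of_tsupport hU' ?_ hKcl hs zD
    intro z hz
    refine ContDiffAt.contDiffWithinAt ?_
    unfold divA
    refine ContDiffAt.sum fun i _ => ?_
    have h1 : ContDiffOn ℝ ∞ (fun y => ∑ j, bigA A q y i j * pderiv j Φ y) (tl ⁻¹' U) :=
      ContDiffOn.sum fun j _ => (contDiffOn_bigA hA hq i j).mul (contDiff_pderiv hΦ j).contDiffOn
    exact (contDiffOn_pd hU' h1 i).contDiffAt (hU'.mem_nhds hz)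
  -- `G₁ = D₁ - τ q Φ`, `G₂ = q (∂₀∂₀Φ + τ Φ)`, `G₃ = f Φ`
  have s2 : ContDiff ℝ ∞ fun z : EuclideanSpace ℝ (Fin (n + 1)) =>
      q (tl z) * (pderiv 0 (pderiv 0 Φ) z + τ * Φ z) := by
    refine contDiff_of_tsupport hU' (htq.mul (hpp.add (contDiff_const.mul hΦ)).contDiffOn) hKcl hs
      fun z hz => ?_
    rw [zpp z hz, zΦ z hz]
    ring
  have z2 : ∀ z, z ∉ K → q (tl z) * (pderiv 0 (pderiv 0 Φ) z + τ * Φ z) = 0 := fun z hz => by
    rw [zpp z hz, zΦ z hz]
    ring
  have s3 : ContDiff ℝ ∞ fun z : EuclideanSpace ℝ (Fin (n + 1)) => f (tl z) * Φ z :=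
    contDiff_of_tsupport hU' (htf.mul hΦ.contDiffOn) hKcl hs fun z hz => by
      rw [zΦ z hz, mul_zero]
  have z3 : ∀ z, z ∉ K → f (tl z) * Φ z = 0 := fun z hz => by rw [zΦ z hz, mul_zero]
  set G1 : EuclideanSpace ℝ (Fin (n + 1)) → ℝ := fun z =>
    divA (bigA A q) Φ z - q (tl z) * (pderiv 0 (pderiv 0 Φ) z + τ * Φ z) with hG1
  have s1 : ContDiff ℝ ∞ G1 := sD.sub s2
  have z1 : ∀ z, z ∉ K → G1 z = 0 := fun z hz => by rw [hG1]; simp only; rw [zD z hz, z2 z hz, sub_zero]
  -- slices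
  have hsl : ∀ s : ℝ, ContDiff ℝ ∞ (fun a => Φ (cn s a)) := fun s => hΦ.comp (contDiff_cn_right s)
  have hslK : ∀ s : ℝ, ∀ a, a ∉ tl '' K → Φ (cn s a) = 0 := fun s a ha =>
    zΦ _ fun h => ha ⟨_, h, by simp⟩
  have hK2 : IsCompact (tl '' K) := hKc.image tl.continuous
  have hK2U : tl '' K ⊆ U := by
    rintro _ ⟨z, hz, rfl⟩
    exact hs hz
  have hslc : ∀ s : ℝ, HasCompactSupport (fun a => Φ (cn s a)) := fun s =>
    HasCompactSupport.intro hK2 (hslK s)
  have hslt : ∀ s : ℝ, tsupport (fun a => Φ (cn s a)) ⊆ tl '' K := fun s =>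
    closure_minimal (fun a ha => by
      by_contra hne
      exact ha (hslK s a hne)) hK2.isClosed
  have hG1s : ∀ (s : ℝ) (a : EuclideanSpace ℝ (Fin n)),
      G1 (cn s a) = divA A (fun b => Φ (cn s b)) a - τ * (q a * Φ (cn s a)) := by
    intro s a
    by_cases ha : a ∈ U
    · rw [hG1]
      simp only
      rw [divA_bigA hU hA hq isOpen_univ hΦ.contDiffOn ha (mem_univ _), tl_cn]
      ring
    · have h1 : cn s a ∉ K := fun h => ha (by simpa using hs h)
      have h2 : a ∉ tsupport (fun b => Φ (cn s b)) := fun h => ha (hK2U (hslt s h))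
      rw [z1 _ h1, zΦ _ h1, image_eq_zero_of_notMem_tsupport fun h => h2 (tsupport_divA_subset A _ h)]
      ring
  -- the first integral
  have i1 := integrable_prod_loc hu hKc hs hκ.continuous s1.continuous z1
  have i2 := integrable_prod_loc hu hKc hs hκ.continuous s2.continuous z2
  have e1 : ∫ p : ℝ × EuclideanSpace ℝ (Fin n), u p.2 * (κ p.1 * G1 (cn p.1 p.2)) =
      ∫ p : ℝ × EuclideanSpace ℝ (Fin n), κ p.1 * (f (tl (cn p.1 p.2)) * Φ (cn p.1 p.2)) := by
    have i3 : Integrable (fun p : ℝ × EuclideanSpace ℝ (Fin n) =>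
        κ p.1 * (f (tl (cn p.1 p.2)) * Φ (cn p.1 p.2))) (volume.prod volume) := by
      have := integrable_prod_loc (u := fun _ => (1:ℝ)) (U := U)
        (locallyIntegrableOn_const _) hKc hs hκ.continuous s3.continuous z3
      simpa only [one_mul] using this
    change ∫ p, _ ∂(volume.prod volume) = ∫ p, _ ∂(volume.prod volume)
    rw [integral_prod _ i1, integral_prod _ i3]
    refine integral_congr_ae (Eventually.of_forall fun s => ?_)
    dsimp only
    have e4 : ∀ a, u a * (κ s * G1 (cn s a)) =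
        κ s * (u a * (divA A (fun b => Φ (cn s b)) a - τ * (q a * Φ (cn s a)))) := by
      intro a
      rw [hG1s s a]
      ring
    simp only [e4, tl_cn]
    rw [integral_const_mul, integral_const_mul,
      h _ (hsl s) (hslc s) ((hslt s).trans hK2U)]
  -- the second integral
  have e2 : ∫ p : ℝ × EuclideanSpace ℝ (Fin n), u p.2 * (κ p.1 *
      (q (tl (cn p.1 p.2)) * (pderiv 0 (pderiv 0 Φ) (cn p.1 p.2) + τ * Φ (cn p.1 p.2)))) = 0 := by
    change ∫ p, _ ∂(volume.prod volume) = 0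
    rw [integral_prod_symm _ i2]
    refine integral_eq_zero_of_ae (Eventually.of_forall fun a => ?_)
    dsimp only
    have e4 : ∀ s, u a * (κ s * (q (tl (cn s a)) *
        (pderiv 0 (pderiv 0 Φ) (cn s a) + τ * Φ (cn s a)))) =
        (u a * q a) * (κ s * (pderiv 0 (pderiv 0 Φ) (cn s a) + τ * Φ (cn s a))) := by
      intro s
      rw [tl_cn]
      ring
    simp only [e4]
    rw [integral_const_mul]
    have hK1 : IsCompact (hd '' K) := hKc.image hd.continuous
    have hcsl : ∀ {Ψ : EuclideanSpace ℝ (Fin (n + 1)) → ℝ}, (∀ z, z ∉ K → Ψ z = 0) →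
        HasCompactSupport (fun s => Ψ (cn s a)) := fun hΨ =>
      HasCompactSupport.intro hK1 fun s hs' => hΨ _ fun h => hs' ⟨_, h, by simp⟩
    have zp : ∀ z, z ∉ K → pderiv 0 Φ z = 0 := fun z hz =>
      pderiv_eq_zero_of_notMem hz 0
    have hd0 := contDiff_pderiv hΦ (0 : Fin (n + 1))
    rw [integral_kappa hκ hκ2 (F := fun s => Φ (cn s a)) (F1 := fun s => pderiv 0 Φ (cn s a))
      (F2 := fun s => pderiv 0 (pderiv 0 Φ) (cn s a))
      (fun s => hasDerivAt_slice (hΦ.differentiable (by simp) _))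
      (fun s => hasDerivAt_slice (hd0.differentiable (by simp) _))
      (hpp.continuous.comp (contDiff_cn_left a).continuous) (hcsl zΦ) (hcsl zp) (hcsl zpp), mul_zero]
    rfl
  rw [integral_cn, integral_cn]
  have e5 : ∀ p : ℝ × EuclideanSpace ℝ (Fin n),
      (u (tl (cn p.1 p.2)) * κ (cn p.1 p.2 0)) * divA (bigA A q) Φ (cn p.1 p.2) =
        u p.2 * (κ p.1 * G1 (cn p.1 p.2)) + u p.2 * (κ p.1 *
          (q (tl (cn p.1 p.2)) * (pderiv 0 (pderiv 0 Φ) (cn p.1 p.2) + τ * Φ (cn p.1 p.2)))) := by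
    intro p
    rw [hG1]
    simp only [tl_cn, cn_zero]
    ring
  have e6 : ∀ p : ℝ × EuclideanSpace ℝ (Fin n),
      (f (tl (cn p.1 p.2)) * κ (cn p.1 p.2 0)) * Φ (cn p.1 p.2) =
        κ p.1 * (f (tl (cn p.1 p.2)) * Φ (cn p.1 p.2)) := by
    intro p
    simp only [cn_zero]
    ring
  simp only [e5, e6]
  rw [← e1]
  rw [show (∫ p : ℝ × EuclideanSpace ℝ (Fin n), (u p.2 * (κ p.1 * G1 (cn p.1 p.2)) + u p.2 * (κ p.1 *
          (q (tl (cn p.1 p.2)) * (pderiv 0 (pderiv 0 Φ) (cn p.1 p.2) + τ * Φ (cn p.1 p.2)))))) =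
      (∫ p : ℝ × EuclideanSpace ℝ (Fin n), u p.2 * (κ p.1 * G1 (cn p.1 p.2))) +
      ∫ p : ℝ × EuclideanSpace ℝ (Fin n), u p.2 * (κ p.1 *
          (q (tl (cn p.1 p.2)) * (pderiv 0 (pderiv 0 Φ) (cn p.1 p.2) + τ * Φ (cn p.1 p.2))))
      from integral_add i1 i2, e2, add_zero]

end Crest.Agent.R249.EllZ324
end
end

-- ▼ part R249/EllZD_324
section

/-!
# R249 (helper324), PDE layer, file 4: elliptic regularity with a zero order term

`ell_regularity_zero`: `u ∈ L¹_loc(U)`, `div (A ∇u) - τ q u = f` in the sense of distributions with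
`A` symmetric positive definite, `q > 0`, `f` smooth on `U`, `τ = ± 1`; then `u = v` a.e. on `U` with `v`
smooth on `U` and `div (A ∇v) - τ q v = f` pointwise.
-/

set_option autoImplicit false

noncomputable section

open scoped BigOperators ContDiff
open MeasureTheory Set Filter Topology Crest.GeometryTopology.CoordMetric
open Crest.Agent.R202.Ell

namespace Crest.Agent.R249.EllZ324

variable {n : ℕ}

/-- the functions `cos`, `cosh` -/
lemma exists_kappa {τ : ℝ} (hτ : τ = 1 ∨ τ = -1) : ∃ κ : ℝ → ℝ, ContDiff ℝ ∞ κ ∧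
    (∀ s, deriv (deriv κ) s = - τ * κ s) ∧ κ 0 = 1 := by
  rcases hτ with rfl | rfl
  · refine ⟨Real.cos, Real.contDiff_cos, fun s => ?_, Real.cos_zero⟩
    rw [Real.deriv_cos']
    have h : deriv (fun x => -Real.sin x) s = -Real.cos s := by
      rw [deriv.fun_neg, Real.deriv_sin]
    rw [h]
    ring
  · refine ⟨Real.cosh, Real.contDiff_cosh, fun s => ?_, Real.cosh_zero⟩
    rw [Real.deriv_cosh, Real.deriv_sinh]
    ring

variable {A : EuclideanSpace ℝ (Fin n) → Matrix (Fin n) (Fin n) ℝ}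
  {q : EuclideanSpace ℝ (Fin n) → ℝ}

lemma measurable_set_ext {U : Set (EuclideanSpace ℝ (Fin n))} (hU : IsOpen U) :
    IsOpen (tl ⁻¹' U : Set (EuclideanSpace ℝ (Fin (n + 1)))) := hU.preimage tl.continuous

/-- `u(a) κ(s)` is locally integrable -/
lemma locInt_ext {U : Set (EuclideanSpace ℝ (Fin n))} (hU : IsOpen U)
    {u : EuclideanSpace ℝ (Fin n) → ℝ} (hu : LocallyIntegrableOn u U) {κ : ℝ → ℝ}
    (hκ : Continuous κ) :
    LocallyIntegrableOn (fun z : EuclideanSpace ℝ (Fin (n + 1)) => u (tl z) * κ (z 0))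
      (tl ⁻¹' U) := by
  have hU' := measurable_set_ext (n := n) hU
  rw [locallyIntegrableOn_iff hU'.isLocallyClosed]
  intro K hKU hK
  have c2 : IsCompact (tl '' K) := hK.image tl.continuous
  have c1 : IsCompact (hd '' K) := hK.image hd.continuous
  have hK2U : tl '' K ⊆ U := by
    rintro _ ⟨z, hz, rfl⟩
    exact hKU hz
  have hu2 : Integrable ((tl '' K).indicator u) := by
    rw [integrable_indicator_iff c2.measurableSet]
    exact hu.integrableOn_compact_subset hK2U c2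
  have h1 : Integrable ((hd '' K).indicator fun s : ℝ => κ s) := by
    rw [integrable_indicator_iff c1.measurableSet]
    exact hκ.continuousOn.integrableOn_compact c1
  have h12 : Integrable (fun p : ℝ × EuclideanSpace ℝ (Fin n) =>
      (hd '' K).indicator (fun s : ℝ => κ s) p.1 * (tl '' K).indicator u p.2)
      (volume.prod volume) := h1.mul_prod hu2
  have h3 : Integrable (fun z : EuclideanSpace ℝ (Fin (n + 1)) =>
      (hd '' K).indicator (fun s : ℝ => κ s) (z 0) * (tl '' K).indicator u (tl z)) := by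
    have h4 := (measurePreserving_mkE (n := n)).symm.integrable_comp_of_integrable
      (g := fun p : ℝ × EuclideanSpace ℝ (Fin n) =>
      (hd '' K).indicator (fun s : ℝ => κ s) p.1 * (tl '' K).indicator u p.2) h12
    refine h4.congr (Eventually.of_forall fun z => ?_)
    have h5 : (mkE n).symm z = (z 0, tl z) := by
      rw [MeasurableEquiv.symm_apply_eq]
      change z = mkE n (z 0, tl z)
      rw [mkE_apply, cn_hd_tl]
    simp only [Function.comp_apply]
    rw [h5]
  have h6 : IntegrableOn (fun z : EuclideanSpace ℝ (Fin (n + 1)) =>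
      (hd '' K).indicator (fun s : ℝ => κ s) (z 0) * (tl '' K).indicator u (tl z)) K :=
    h3.integrableOn
  refine h6.congr_fun (fun z hz => ?_) hK.measurableSet
  have e1 : z 0 ∈ hd '' K := ⟨z, hz, rfl⟩
  have e2 : tl z ∈ tl '' K := ⟨z, hz, rfl⟩
  simp only
  rw [indicator_of_mem e1, indicator_of_mem e2, mul_comm]

/-- **Elliptic regularity with a zero order term.** -/
theorem ell_regularity_zero {U : Set (EuclideanSpace ℝ (Fin n))} (hU : IsOpen U)
    (hA : ∀ i j, ContDiffOn ℝ ∞ (fun x => A x i j) U) (hpos : ∀ x ∈ U, (A x).PosDef)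
    (hq : ContDiffOn ℝ ∞ q U) (hqpos : ∀ x ∈ U, 0 < q x)
    {f : EuclideanSpace ℝ (Fin n) → ℝ} (hf : ContDiffOn ℝ ∞ f U)
    {u : EuclideanSpace ℝ (Fin n) → ℝ} (hu : LocallyIntegrableOn u U)
    {τ : ℝ} (hτ : τ = 1 ∨ τ = -1)
    (h : ∀ φ : EuclideanSpace ℝ (Fin n) → ℝ, ContDiff ℝ ∞ φ → HasCompactSupport φ →
      tsupport φ ⊆ U → ∫ x, u x * (divA A φ x - τ * (q x * φ x)) = ∫ x, f x * φ x) :
    ∃ v : EuclideanSpace ℝ (Fin n) → ℝ, ContDiffOn ℝ ∞ v U ∧ (∀ᵐ x, x ∈ U → v x = u x) ∧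
      ∀ x ∈ U, divA A v x - τ * (q x * v x) = f x := by
  obtain ⟨κ, hκ, hκ2, hκ0⟩ := exists_kappa hτ
  have hU' := measurable_set_ext (n := n) hU
  -- the extended solution
  have hfe : ContDiffOn ℝ ∞ (fun z : EuclideanSpace ℝ (Fin (n + 1)) => f (tl z) * κ (z 0))
      (tl ⁻¹' U) :=
    (hf.comp (tl (n := n)).contDiff.contDiffOn fun z hz => hz).mul
      (hκ.comp (hd (n := n)).contDiff).contDiffOn
  obtain ⟨V, hV, hVu, hVf⟩ := ell_regularity (n + 1) (tl ⁻¹' U) hU' (bigA A q)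
    (contDiffOn_bigA hA hq) (fun z hz => posDef_bigA (hpos _ hz) (hqpos _ hz))
    (fun z => f (tl z) * κ (z 0)) hfe (fun z => u (tl z) * κ (z 0))
    (locInt_ext hU hu hκ.continuous)
    (fun Φ hΦ hc hs => weak_ext hU hA hq hf hu h hκ hκ2 hΦ hc hs)
  -- a good slice
  have hae := Measure.ae_ae_of_ae_prod (ae_cn hVu : ∀ᵐ t : ℝ × EuclideanSpace ℝ (Fin n),
    cn t.1 t.2 ∈ (tl ⁻¹' U : Set (EuclideanSpace ℝ (Fin (n + 1)))) →
      V (cn t.1 t.2) = u (tl (cn t.1 t.2)) * κ (cn t.1 t.2 0))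
  have hopen : IsOpen {s : ℝ | κ s ≠ 0} := isOpen_ne_fun hκ.continuous continuous_const
  have hne : ({s : ℝ | κ s ≠ 0}).Nonempty := ⟨0, by simp [hκ0]⟩
  obtain ⟨s0, hs0, hs0'⟩ : ∃ s ∈ {s : ℝ | κ s ≠ 0}, ∀ᵐ a : EuclideanSpace ℝ (Fin n),
      cn s a ∈ (tl ⁻¹' U : Set (EuclideanSpace ℝ (Fin (n + 1)))) →
        V (cn s a) = u (tl (cn s a)) * κ (cn s a 0) := by
    by_contra hcon
    have h1 : ∀ᵐ s : ℝ, s ∉ {s : ℝ | κ s ≠ 0} := by
      filter_upwards [hae] with s hs hs'
      exact hcon ⟨s, hs', hs⟩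
    have h2 : volume {s : ℝ | κ s ≠ 0} = 0 := by
      have := ae_iff.1 h1
      simpa using this
    exact (hopen.measure_pos volume hne).ne' h2
  set v : EuclideanSpace ℝ (Fin n) → ℝ := fun a => V (cn s0 a) / κ s0 with hv
  have hvs : ContDiffOn ℝ ∞ v U := by
    refine (hV.comp (contDiff_cn_right s0).contDiffOn fun a ha => ?_).div_const _
    change tl (cn s0 a) ∈ U
    rw [tl_cn]
    exact ha
  have hvu : ∀ᵐ x, x ∈ U → v x = u x := by
    filter_upwards [hs0'] with a ha haU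
    have h1 := ha (by change tl (cn s0 a) ∈ U; rw [tl_cn]; exact haU)
    rw [hv]
    simp only
    rw [h1, tl_cn, cn_zero]
    exact mul_div_cancel_right₀ _ hs0
  -- `V (s, a) = v a κ(s)` on `ℝ × U`
  have hvve : ContDiffOn ℝ ∞ (fun z : EuclideanSpace ℝ (Fin (n + 1)) => v (tl z) * κ (z 0))
      (tl ⁻¹' U) :=
    (hvs.comp (tl (n := n)).contDiff.contDiffOn fun z hz => hz).mul
      (hκ.comp (hd (n := n)).contDiff).contDiffOn
  have hVv : Set.EqOn V (fun z => v (tl z) * κ (z 0)) (tl ⁻¹' U) := by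
    refine Measure.eqOn_open_of_ae_eq (μ := volume) ?_ hU' hV.continuousOn hvve.continuousOn
    rw [EventuallyEq, ae_restrict_iff' hU'.measurableSet]
    have h1 : ∀ᵐ z : EuclideanSpace ℝ (Fin (n + 1)), tl z ∈ U → v (tl z) = u (tl z) := by
      refine of_ae_cn ?_
      have h2 : ∀ᵐ t : ℝ × EuclideanSpace ℝ (Fin n), t.2 ∈ U → v t.2 = u t.2 :=
        Measure.quasiMeasurePreserving_snd.ae hvu
      filter_upwards [h2] with t ht ht'
      rw [tl_cn] at ht' ⊢
      exact ht ht'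
    filter_upwards [hVu, h1] with z hz1 hz2 hz
    rw [hz1 hz, hz2 hz]
  refine ⟨v, hvs, hvu, fun x hx => ?_⟩
  have hmem : cn 0 x ∈ (tl ⁻¹' U : Set (EuclideanSpace ℝ (Fin (n + 1)))) := by
    change tl (cn 0 x) ∈ U
    rw [tl_cn]
    exact hx
  have h1 := hVf (cn 0 x) hmem
  rw [divA_bigA hU hA hq hU' hV hx hmem] at h1
  simp only [tl_cn, cn_zero, hκ0, mul_one] at h1
  have e1 : divA A v x = divA A (fun b => V (cn 0 b)) x := by
    refine divA_congr_of_open hU (fun _ _ _ _ => rfl) (fun b hb => ?_) hx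
    have h2 := hVv (x := cn 0 b) (by change tl (cn 0 b) ∈ U; rw [tl_cn]; exact hb)
    simp only [tl_cn, cn_zero, hκ0, mul_one] at h2
    exact h2.symm
  have e2 : pderiv 0 (pderiv 0 V) (cn 0 x) = - τ * v x := by
    have hder : ∀ s : ℝ, HasDerivAt (fun t => V (cn t x)) (pderiv 0 V (cn s x)) s := fun s =>
      hasDerivAt_slice ((hV.contDiffAt (hU'.mem_nhds (by
        change tl (cn s x) ∈ U; rw [tl_cn]; exact hx))).differentiableAt (by simp))
    have hfun : (fun t => V (cn t x)) = fun t => v x * κ t := by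
      funext t
      have h2 := hVv (x := cn t x) (by change tl (cn t x) ∈ U; rw [tl_cn]; exact hx)
      simpa only [tl_cn, cn_zero] using h2
    have hd1 : ∀ s : ℝ, pderiv 0 V (cn s x) = v x * deriv κ s := by
      intro s
      have h2 := (hder s).deriv
      rw [hfun] at h2
      rw [← h2, deriv_const_mul _ (hκ.differentiable (by simp) s)]
    have hder2 : HasDerivAt (fun t => pderiv 0 V (cn t x)) (pderiv 0 (pderiv 0 V) (cn 0 x)) 0 :=
      hasDerivAt_slice (((contDiffOn_pd hU' hV 0).contDiffAt (hU'.mem_nhds hmem)).differentiableAt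
        (by simp))
    have hfun2 : (fun t => pderiv 0 V (cn t x)) = fun t => v x * deriv κ t := funext hd1
    have hκ' : ContDiff ℝ ∞ (deriv κ) := (contDiff_infty_iff_deriv.1 hκ).2
    have h3 := hder2.deriv
    rw [hfun2, deriv_const_mul _ (hκ'.differentiable (by simp) 0), hκ2, hκ0] at h3
    rw [← h3]
    ring
  rw [e1, ← h1, e2]
  ring

end Crest.Agent.R249.EllZ324
end
end

-- ▼ part R249/Grn2_324
section

/-!
# R249 (helper324), PDE layer, file 6: chart transfer

Test functions of the chart target extended by zero to `M`; `√det g · mLap = div (A ∇ ·)` in the chart;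
a.e. statements and local integrability in the chart; the weak equation on `M` read in a chart.
-/

set_option autoImplicit false
set_option maxSynthPendingDepth 3
set_option linter.unusedSectionVars false

open Bundle Set MeasureTheory Manifold Filter Metric
open scoped ContDiff Topology NNReal
open Crest.GeometryTopology.CoordMetric Crest.GeometryTopology.ChartCurvature
  Crest.GeometryTopology.PointedLimit
open Crest.Agent.R247.Bo84
open Crest.Agent.R247.Ms322 hiding isRiemannianOn_chartMetric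
open Crest.Agent.R202.Ell (divA contDiff_mul_of_tsupport divA_congr_of_open contDiffOn_pd)

noncomputable section

namespace Crest.Agent.R249.Grn324

variable {n : ℕ} {M : Type*} [MetricSpace M] [ChartedSpace (EuclideanSpace ℝ (Fin n)) M]
  [IsManifold (𝓡 n) ∞ M]
  [RiemannianBundle (fun p : M => TangentSpace (𝓡 n) p)]
  [IsContMDiffRiemannianBundle (𝓡 n) ∞ (EuclideanSpace ℝ (Fin n)) (fun p : M => TangentSpace (𝓡 n) p)]

local notation "𝔼" => EuclideanSpace ℝ (Fin n)

/-! ### coefficients -/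

/-- `√(det g) g⁻¹` in the chart at `x` -/
def cA (x : M) (a : EuclideanSpace ℝ (Fin n)) : Matrix (Fin n) (Fin n) ℝ :=
  Matrix.of fun i j => dens x a * inverseField (chartMetric n M x) a i j

lemma cA_apply (x : M) (a : 𝔼) (i j : Fin n) :
    cA (n := n) x a i j = dens x a * inverseField (chartMetric n M x) a i j := rfl

lemma contDiffOn_cA (x : M) (i j : Fin n) :
    ContDiffOn ℝ ∞ (fun a => cA (n := n) x a i j) (chartAt 𝔼 x).target := by
  refine (contDiffOn_dens (n := n) x).mul ?_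
  intro a ha
  exact (contDiffAt_inv (Crest.Agent.R247.Bo84.isRiemannianOn_chartMetric x) ha i j).contDiffWithinAt

lemma posDef_cA (x : M) {a : 𝔼} (ha : a ∈ (chartAt 𝔼 x).target) : (cA (n := n) x a).PosDef := by
  have h1 := ((Crest.Agent.R247.Bo84.isRiemannianOn_chartMetric (n := n) x).posDef a ha).inv
  have h2 := h1.smul (dens_pos (n := n) x ha)
  have e : cA (n := n) x a = dens x a • (chartMetric n M x a)⁻¹ := by
    ext i j
    rw [cA_apply, Matrix.smul_apply, smul_eq_mul]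
    rfl
  rw [e]
  exact h2

/-- `√det g · Δ = div (A ∇)` -/
lemma dens_mul_lap (x : M) {a : 𝔼} (ha : a ∈ (chartAt 𝔼 x).target) (ψ : 𝔼 → ℝ) :
    dens x a * laplaceBeltrami (chartMetric n M x) ψ a = divA (cA x) ψ a := by
  have hd := dens_pos (n := n) x ha
  unfold laplaceBeltrami divA
  have e : dens (n := n) x a = Real.sqrt (chartMetric n M x a).det := rfl
  rw [← mul_assoc, ← e, mul_one_div_cancel hd.ne', one_mul]
  refine Finset.sum_congr rfl fun i _ => ?_
  congr 1
  funext y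
  have e2 : dens (n := n) x y = Real.sqrt (chartMetric n M x y).det := rfl
  rw [← e2, Finset.mul_sum]
  refine Finset.sum_congr rfl fun j _ => ?_
  rw [cA_apply]
  ring

/-! ### extension by zero of test functions -/

/-- `ψ` on the chart, `0` outside -/
def psh (x : M) (ψ : EuclideanSpace ℝ (Fin n) → ℝ) : M → ℝ :=
  (chartAt (EuclideanSpace ℝ (Fin n)) x).source.indicator
    fun z => ψ (chartAt (EuclideanSpace ℝ (Fin n)) x z)

lemma psh_of_mem (x : M) (ψ : 𝔼 → ℝ) {z : M} (hz : z ∈ (chartAt 𝔼 x).source) :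
    psh x ψ z = ψ (chartAt 𝔼 x z) := indicator_of_mem hz _

lemma psh_of_notMem (x : M) (ψ : 𝔼 → ℝ) {z : M} (hz : z ∉ (chartAt 𝔼 x).source) :
    psh x ψ z = 0 := indicator_of_notMem hz _

lemma psh_symm (x : M) (ψ : 𝔼 → ℝ) {a : 𝔼} (ha : a ∈ (chartAt 𝔼 x).target) :
    psh x ψ ((chartAt 𝔼 x).symm a) = ψ a := by
  rw [psh_of_mem x ψ ((chartAt 𝔼 x).map_target ha), (chartAt 𝔼 x).right_inv ha]

lemma contMDiff_psh (x : M) {ψ : 𝔼 → ℝ} (hψ : ContDiff ℝ ∞ ψ) (hc : HasCompactSupport ψ)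
    (hs : tsupport ψ ⊆ (chartAt 𝔼 x).target) : ContMDiff (𝓡 n) 𝓘(ℝ) ∞ (psh x ψ) := by
  intro z
  by_cases hz : z ∈ (chartAt 𝔼 x).source
  · have h1 : ContMDiffAt (𝓡 n) (𝓡 n) ∞ (chartAt 𝔼 x) z :=
      (contMDiffOn_chart (I := 𝓡 n) (n := ∞) (x := x)).contMDiffAt
        ((chartAt 𝔼 x).open_source.mem_nhds hz)
    have h2 : ContMDiffAt (𝓡 n) 𝓘(ℝ) ∞ (fun y => ψ (chartAt 𝔼 x y)) z :=
      (contMDiffAt_iff_contDiffAt.2 hψ.contDiffAt).comp z h1
    refine h2.congr_of_eventuallyEq ?_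
    filter_upwards [(chartAt 𝔼 x).open_source.mem_nhds hz] with y hy using psh_of_mem x ψ hy
  · have hK : IsCompact ((chartAt 𝔼 x).symm '' tsupport ψ) :=
      hc.isCompact.image_of_continuousOn ((chartAt 𝔼 x).continuousOn_symm.mono hs)
    have hz' : z ∈ ((chartAt 𝔼 x).symm '' tsupport ψ)ᶜ := by
      rintro ⟨a, ha, rfl⟩
      exact hz ((chartAt 𝔼 x).map_target (hs ha))
    have h3 : psh x ψ =ᶠ[𝓝 z] fun _ => 0 := by
      filter_upwards [hK.isClosed.isOpen_compl.mem_nhds hz'] with y hy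
      by_cases hys : y ∈ (chartAt 𝔼 x).source
      · rw [psh_of_mem x ψ hys]
        refine image_eq_zero_of_notMem_tsupport fun h => hy ⟨_, h, (chartAt 𝔼 x).left_inv hys⟩
      · exact psh_of_notMem x ψ hys
    exact contMDiffAt_const.congr_of_eventuallyEq h3

/-- the Laplacian of the extension, read in the chart -/
lemma mLap_psh (x : M) {ψ : 𝔼 → ℝ} (hψ : ContDiff ℝ ∞ ψ) (hc : HasCompactSupport ψ)
    (hs : tsupport ψ ⊆ (chartAt 𝔼 x).target) {a : 𝔼} (ha : a ∈ (chartAt 𝔼 x).target) :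
    mLap n (psh x ψ) ((chartAt 𝔼 x).symm a) = laplaceBeltrami (chartMetric n M x) ψ a := by
  rw [mLap_chart ha ((contMDiff_psh x hψ hc hs _).of_le two_le_inf)]
  refine lap_congr ?_
  filter_upwards [(chartAt 𝔼 x).open_target.mem_nhds ha] with b hb using psh_symm x ψ hb

lemma mLap_psh_off (x : M) {ψ : 𝔼 → ℝ} {z : M} (hz : z ∉ (chartAt 𝔼 x).source)
    (hc : HasCompactSupport ψ) (hs : tsupport ψ ⊆ (chartAt 𝔼 x).target) :
    mLap n (psh x ψ) z = 0 := by
  have hK : IsCompact ((chartAt 𝔼 x).symm '' tsupport ψ) :=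
    hc.isCompact.image_of_continuousOn ((chartAt 𝔼 x).continuousOn_symm.mono hs)
  have hz' : z ∈ ((chartAt 𝔼 x).symm '' tsupport ψ)ᶜ := by
    rintro ⟨a, ha, rfl⟩
    exact hz ((chartAt 𝔼 x).map_target (hs ha))
  have h3 : psh x ψ =ᶠ[𝓝 z] fun _ => 0 := by
    filter_upwards [hK.isClosed.isOpen_compl.mem_nhds hz'] with y hy
    by_cases hys : y ∈ (chartAt 𝔼 x).source
    · rw [psh_of_mem x ψ hys]
      refine image_eq_zero_of_notMem_tsupport fun h => hy ⟨_, h, (chartAt 𝔼 x).left_inv hys⟩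
    · exact psh_of_notMem x ψ hys
  rw [mLap_congr h3, mLap_const]

section Meas

variable [IsRiemannianManifold (𝓡 n) M] [MeasurableSpace M] [BorelSpace M]

/-- a.e. statements pass from the chart to the manifold -/
theorem ae_source_of_chart (x : M) {P : M → Prop}
    (h : ∀ᵐ a : 𝔼, a ∈ (chartAt 𝔼 x).target → P ((chartAt 𝔼 x).symm a)) :
    ∀ᵐ z ∂(μHE[n] : Measure M), z ∈ (chartAt 𝔼 x).source → P z := by
  rw [← ae_restrict_iff' (chartAt 𝔼 x).open_source.measurableSet, restrict_source_eq,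
    (measurableEmbedding_symm x).ae_map_iff]
  have h1 : ∀ᵐ a ∂((cvol (n := n) x).restrict (chartAt 𝔼 x).target), P ((chartAt 𝔼 x).symm a) := by
    have hac : ((cvol (n := n) x).restrict (chartAt 𝔼 x).target) ≪
        (volume.restrict (chartAt 𝔼 x).target : Measure 𝔼) := by
      refine Measure.restrict_le_self.absolutelyContinuous.trans ?_
      exact withDensity_absolutelyContinuous _ _
    exact hac.ae_le ((ae_restrict_iff' (measurableSet_target (n := n) x)).2 h)
  exact (ae_restrict_iff_subtype (measurableSet_target x)).1 h1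

/-- integrable functions are locally integrable in charts -/
theorem locallyIntegrableOn_chart (x : M) {u : M → ℝ} (hu : Integrable u (μHE[n] : Measure M)) :
    LocallyIntegrableOn (fun a : 𝔼 => u ((chartAt 𝔼 x).symm a)) (chartAt 𝔼 x).target := by
  have h1 := (integrableOn_source_iff (n := n) x u).1 hu.integrableOn
  have h2 : LocallyIntegrableOn (fun a : 𝔼 => dens x a • u ((chartAt 𝔼 x).symm a))
      (chartAt 𝔼 x).target := h1.locallyIntegrableOn
  have hc : ContinuousOn (fun a : 𝔼 => (dens (n := n) x a)⁻¹) (chartAt 𝔼 x).target :=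
    (continuousOn_dens x).inv₀ fun a ha => (dens_pos x ha).ne'
  rw [locallyIntegrableOn_iff (chartAt 𝔼 x).open_target.isLocallyClosed] at h2 ⊢
  intro K hKT hK
  have h3 := (h2 K hKT hK).continuousOn_mul (hc.mono hKT) hK
  refine h3.congr_fun (fun a ha => ?_) hK.measurableSet
  simp only [smul_eq_mul]
  rw [← mul_assoc, inv_mul_cancel₀ (dens_pos x (hKT ha)).ne', one_mul]

/-- the weak equation on `M` read in a chart -/
theorem weak_chart {u q g : M → ℝ}
    (h : ∀ φ : M → ℝ, ContMDiff (𝓡 n) 𝓘(ℝ) ∞ φ →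
      ∫ z, u z * (mLap n φ z - q z * φ z) ∂(μHE[n] : Measure M) =
        ∫ z, g z * φ z ∂(μHE[n] : Measure M)) (x : M)
    {ψ : 𝔼 → ℝ} (hψ : ContDiff ℝ ∞ ψ) (hc : HasCompactSupport ψ)
    (hs : tsupport ψ ⊆ (chartAt 𝔼 x).target) :
    ∫ a, u ((chartAt 𝔼 x).symm a) * (divA (cA x) ψ a -
        1 * ((dens x a * q ((chartAt 𝔼 x).symm a)) * ψ a)) =
      ∫ a, (dens x a * g ((chartAt 𝔼 x).symm a)) * ψ a := by
  set T := (chartAt 𝔼 x).target with hT
  have hTm : MeasurableSet T := (chartAt 𝔼 x).open_target.measurableSet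
  have h1 := h _ (contMDiff_psh x hψ hc hs)
  rw [integral_eq_of_support (n := n) x _ (fun z hz => by
      rw [mLap_psh_off x hz hc hs, psh_of_notMem x ψ hz]; ring),
    integral_eq_of_support (n := n) x _ (fun z hz => by
      rw [psh_of_notMem x ψ hz, mul_zero])] at h1
  have z1 : ∀ a, a ∉ T → u ((chartAt 𝔼 x).symm a) * (divA (cA x) ψ a -
      1 * ((dens x a * q ((chartAt 𝔼 x).symm a)) * ψ a)) = 0 := by
    intro a ha
    have h2 : a ∉ tsupport ψ := fun h => ha (hs h)
    rw [image_eq_zero_of_notMem_tsupport h2, image_eq_zero_of_notMem_tsupport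
      (fun h => h2 (Crest.Agent.R202.Ell.tsupport_divA_subset _ _ h))]
    ring
  have z2 : ∀ a, a ∉ T → (dens x a * g ((chartAt 𝔼 x).symm a)) * ψ a = 0 := by
    intro a ha
    rw [image_eq_zero_of_notMem_tsupport (fun h => ha (hs h)), mul_zero]
  rw [← setIntegral_eq_integral_of_forall_compl_eq_zero (s := T) z1,
    ← setIntegral_eq_integral_of_forall_compl_eq_zero (s := T) z2]
  have e1 : ∫ a in T, u ((chartAt 𝔼 x).symm a) * (divA (cA x) ψ a -
      1 * ((dens x a * q ((chartAt 𝔼 x).symm a)) * ψ a)) =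
      ∫ a in T, dens x a • (u ((chartAt 𝔼 x).symm a) * (mLap n (psh x ψ) ((chartAt 𝔼 x).symm a) -
        q ((chartAt 𝔼 x).symm a) * psh x ψ ((chartAt 𝔼 x).symm a))) := by
    refine setIntegral_congr_fun hTm fun a ha => ?_
    simp only [smul_eq_mul]
    rw [mLap_psh x hψ hc hs ha, psh_symm x ψ ha, ← dens_mul_lap x ha]
    ring
  have e2 : ∫ a in T, (dens x a * g ((chartAt 𝔼 x).symm a)) * ψ a =
      ∫ a in T, dens x a • (g ((chartAt 𝔼 x).symm a) * psh x ψ ((chartAt 𝔼 x).symm a)) := by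
    refine setIntegral_congr_fun hTm fun a ha => ?_
    simp only [smul_eq_mul]
    rw [psh_symm x ψ ha]
    ring
  rw [e1, e2, h1]

end Meas

end Crest.Agent.R249.Grn324
end
end

-- ▼ part R249/Grn3_324
section

/-!
# R249 (helper324), PDE layer, file 7: weak solutions on `M` are smooth; the resolvent

`weak_regularity`: `u ∈ L¹(M)`, `∫ u (mLap φ - q φ) = ∫ g φ` for all smooth `φ`, `q > 0`, `q`, `g`
smooth: `u` is a.e. a smooth solution of `mLap v - q v = g`.
`exists_resolvent`: `M` closed: for `q > 0`, `g` smooth there is a smooth solution.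
-/

set_option autoImplicit false
set_option maxSynthPendingDepth 3
set_option linter.unusedSectionVars false

open Bundle Set MeasureTheory Manifold Filter Metric
open scoped ContDiff Topology NNReal
open Crest.GeometryTopology.CoordMetric Crest.GeometryTopology.ChartCurvature
  Crest.GeometryTopology.PointedLimit
open Crest.Agent.R247.Bo84
open Crest.Agent.R247.Ms322 hiding isRiemannianOn_chartMetric
open Crest.Agent.R202.Ell (divA contDiff_mul_of_tsupport divA_congr_of_open contDiffOn_pd)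

noncomputable section

namespace Crest.Agent.R249.Grn324

variable {n : ℕ} {M : Type*} [MetricSpace M] [ChartedSpace (EuclideanSpace ℝ (Fin n)) M]
  [IsManifold (𝓡 n) ∞ M]
  [RiemannianBundle (fun p : M => TangentSpace (𝓡 n) p)]
  [IsContMDiffRiemannianBundle (𝓡 n) ∞ (EuclideanSpace ℝ (Fin n)) (fun p : M => TangentSpace (𝓡 n) p)]

local notation "𝔼" => EuclideanSpace ℝ (Fin n)

/-- smooth functions read in a chart -/
lemma contDiffOn_symm {g : M → ℝ} (hg : ContMDiff (𝓡 n) 𝓘(ℝ) ∞ g) (x : M) :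
    ContDiffOn ℝ ∞ (fun a : 𝔼 => g ((chartAt 𝔼 x).symm a)) (chartAt 𝔼 x).target := fun _ ha =>
  (contDiffAt_inCh (n := n) (x₀ := x) le_rfl ha (hg _)).contDiffWithinAt

variable [IsRiemannianManifold (𝓡 n) M] [MeasurableSpace M] [BorelSpace M]

/-- **regularity of weak solutions on `M`.** -/
theorem weak_regularity {u q g : M → ℝ} (hu : Integrable u (μHE[n] : Measure M))
    (hq : ContMDiff (𝓡 n) 𝓘(ℝ) ∞ q) (hq0 : ∀ p, 0 < q p) (hg : ContMDiff (𝓡 n) 𝓘(ℝ) ∞ g)
    (h : ∀ φ : M → ℝ, ContMDiff (𝓡 n) 𝓘(ℝ) ∞ φ →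
      ∫ z, u z * (mLap n φ z - q z * φ z) ∂(μHE[n] : Measure M) =
        ∫ z, g z * φ z ∂(μHE[n] : Measure M)) :
    ∃ v : M → ℝ, ContMDiff (𝓡 n) 𝓘(ℝ) ∞ v ∧
      (∀ x : M, ∀ᵐ z ∂(μHE[n] : Measure M), z ∈ (chartAt 𝔼 x).source → v z = u z) ∧
      ∀ p, mLap n v p - q p * v p = g p := by
  have hloc : ∀ x : M, ∃ v : 𝔼 → ℝ, ContDiffOn ℝ ∞ v (chartAt 𝔼 x).target ∧
      (∀ᵐ a : 𝔼, a ∈ (chartAt 𝔼 x).target → v a = u ((chartAt 𝔼 x).symm a)) ∧
      ∀ a ∈ (chartAt 𝔼 x).target, divA (cA x) v a -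
        1 * ((dens x a * q ((chartAt 𝔼 x).symm a)) * v a) =
          dens x a * g ((chartAt 𝔼 x).symm a) := fun x =>
    EllZ324.ell_regularity_zero (chartAt 𝔼 x).open_target (contDiffOn_cA x)
      (fun a ha => posDef_cA x ha) ((contDiffOn_dens x).mul (contDiffOn_symm hq x))
      (fun a ha => mul_pos (dens_pos x ha) (hq0 _))
      ((contDiffOn_dens x).mul (contDiffOn_symm hg x)) (locallyIntegrableOn_chart x hu) (Or.inl rfl)
      (fun ψ hψ hc hs => weak_chart h x hψ hc hs)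
  choose V hV hVu hVf using hloc
  -- the local solutions on `M`
  have hW : ∀ x : M, ContMDiffOn (𝓡 n) 𝓘(ℝ) ∞ (fun z => V x (chartAt 𝔼 x z))
      (chartAt 𝔼 x).source := by
    intro x z hz
    have h1 : ContMDiffAt (𝓡 n) (𝓡 n) ∞ (chartAt 𝔼 x) z :=
      (contMDiffOn_chart (I := 𝓡 n) (n := ∞) (x := x)).contMDiffAt
        ((chartAt 𝔼 x).open_source.mem_nhds hz)
    have h2 : ContDiffAt ℝ ∞ (V x) (chartAt 𝔼 x z) :=
      (hV x).contDiffAt ((chartAt 𝔼 x).open_target.mem_nhds ((chartAt 𝔼 x).map_source hz))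
    exact ((contMDiffAt_iff_contDiffAt.2 h2).comp z h1).contMDiffWithinAt
  have hWae : ∀ x : M, ∀ᵐ z ∂(μHE[n] : Measure M), z ∈ (chartAt 𝔼 x).source →
      V x (chartAt 𝔼 x z) = u z := by
    intro x
    refine ae_source_of_chart (n := n) x (P := fun z => V x (chartAt 𝔼 x z) = u z) ?_
    filter_upwards [hVu x] with a ha haT
    rw [(chartAt 𝔼 x).right_inv haT]
    exact ha haT
  have hopen := isOpenPosMeasure n M
  have hcons : ∀ x y : M, Set.EqOn (fun z => V x (chartAt 𝔼 x z)) (fun z => V y (chartAt 𝔼 y z))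
      ((chartAt 𝔼 x).source ∩ (chartAt 𝔼 y).source) := by
    intro x y
    refine Measure.eqOn_open_of_ae_eq (μ := (μHE[n] : Measure M)) ?_
      ((chartAt 𝔼 x).open_source.inter (chartAt 𝔼 y).open_source)
      ((hW x).continuousOn.mono inter_subset_left) ((hW y).continuousOn.mono inter_subset_right)
    rw [EventuallyEq, ae_restrict_iff'
      ((chartAt 𝔼 x).open_source.inter (chartAt 𝔼 y).open_source).measurableSet]
    filter_upwards [hWae x, hWae y] with z h1 h2 hz
    rw [h1 hz.1, h2 hz.2]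
  set v : M → ℝ := fun z => V z (chartAt 𝔼 z z) with hv
  have hvx : ∀ x z : M, z ∈ (chartAt 𝔼 x).source → v z = V x (chartAt 𝔼 x z) := fun x z hz =>
    hcons z x ⟨mem_chart_source 𝔼 z, hz⟩
  have hvs : ContMDiff (𝓡 n) 𝓘(ℝ) ∞ v := by
    intro z
    have hz := mem_chart_source 𝔼 z
    refine (((hW z) z hz).contMDiffAt ((chartAt 𝔼 z).open_source.mem_nhds hz)).congr_of_eventuallyEq
      ?_
    filter_upwards [(chartAt 𝔼 z).open_source.mem_nhds hz] with y hy using hvx z y hy
  refine ⟨v, hvs, fun x => ?_, fun p => ?_⟩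
  · filter_upwards [hWae x] with z h1 hz
    rw [hvx x z hz, h1 hz]
  · have hp := mem_chart_source 𝔼 p
    set a : 𝔼 := chartAt 𝔼 p p with ha
    have hat : a ∈ (chartAt 𝔼 p).target := (chartAt 𝔼 p).map_source hp
    have hpa : (chartAt 𝔼 p).symm a = p := (chartAt 𝔼 p).left_inv hp
    have h1 := hVf p a hat
    have h2 : divA (cA p) (V p) a = divA (cA p) (inCh n p v) a := by
      refine divA_congr_of_open (chartAt 𝔼 p).open_target (fun _ _ _ _ => rfl) (fun b hb => ?_) hat
      change V p b = v ((chartAt 𝔼 p).symm b)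
      rw [hvx p _ ((chartAt 𝔼 p).map_target hb), (chartAt 𝔼 p).right_inv hb]
    have h3 : V p a = v p := (hvx p p hp).symm
    have h4 : mLap n v p = laplaceBeltrami (chartMetric n M p) (inCh n p v) a :=
      mLap_chart' hp ((hvs p).of_le two_le_inf)
    rw [h2, ← dens_mul_lap p hat, ← h4, hpa, h3] at h1
    have hd := dens_pos (n := n) p hat
    have h5 : dens (n := n) p a * (mLap n v p - q p * v p) = dens p a * g p := by
      rw [← h1]; ring
    exact mul_left_cancel₀ hd.ne' h5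

/-- abstract duality lemma -/
theorem exists_dual {V H : Type*} [AddCommGroup V] [Module ℝ V] [NormedAddCommGroup H]
    [InnerProductSpace ℝ H] [CompleteSpace H] (T : V →ₗ[ℝ] H) (l : V →ₗ[ℝ] ℝ) {C : ℝ}
    (hl : ∀ v, |l v| ≤ C * ‖T v‖) : ∃ u : H, ∀ v, inner ℝ u (T v) = l v := by
  obtain ⟨s, hs⟩ := T.rangeRestrict.exists_rightInverse_of_surjective T.range_rangeRestrict
  have hs' : ∀ y, T.rangeRestrict (s y) = y := fun y => LinearMap.congr_fun hs y
  have hsT : ∀ y : LinearMap.range T, T (s y) = y := fun y => by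
    have := congrArg Subtype.val (hs' y)
    simpa using this
  let f : LinearMap.range T →L[ℝ] ℝ := (l.comp s).mkContinuous C (fun y => by
    have h1 := hl (s y)
    rw [hsT y] at h1
    simpa using h1)
  obtain ⟨g, hg, -⟩ := exists_extension_norm_eq (LinearMap.range T) f
  refine ⟨(InnerProductSpace.toDual ℝ H).symm g, fun v => ?_⟩
  rw [InnerProductSpace.toDual_symm_apply]
  have h2 : g (T v) = f ⟨T v, LinearMap.mem_range_self T v⟩ :=
    hg ⟨T v, LinearMap.mem_range_self T v⟩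
  rw [h2]
  change l (s ⟨T v, LinearMap.mem_range_self T v⟩) = l v
  have h3 := hl (s ⟨T v, LinearMap.mem_range_self T v⟩ - v)
  rw [map_sub, map_sub, hsT, sub_self, norm_zero, mul_zero] at h3
  exact sub_eq_zero.1 (abs_eq_zero.1 (le_antisymm h3 (abs_nonneg _)))

end Crest.Agent.R249.Grn324
end
end

-- ▼ part R249/Grn4_324
section

/-!
# R249 (helper324), PDE layer, file 8: the resolvent on a closed manifold

`exists_resolvent`: `M` closed, `q > 0`, `g` smooth: there is a smooth `u` with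
`mLap u - q u = g`.  The abstract solver `exists_of_apriori` (also used for the Poisson equation).
-/

set_option autoImplicit false
set_option maxSynthPendingDepth 3
set_option linter.unusedSectionVars false

open Bundle Set MeasureTheory Manifold Filter Metric
open scoped ContDiff Topology NNReal
open Crest.GeometryTopology.CoordMetric Crest.GeometryTopology.ChartCurvature
  Crest.GeometryTopology.PointedLimit
open Crest.Agent.R247.Bo84
open Crest.Agent.R247.Ms322 hiding isRiemannianOn_chartMetric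

noncomputable section

namespace Crest.Agent.R249.Grn324

variable {n : ℕ} {M : Type*} [MetricSpace M] [ChartedSpace (EuclideanSpace ℝ (Fin n)) M]
  [IsManifold (𝓡 n) ∞ M]
  [RiemannianBundle (fun p : M => TangentSpace (𝓡 n) p)]
  [IsContMDiffRiemannianBundle (𝓡 n) ∞ (EuclideanSpace ℝ (Fin n)) (fun p : M => TangentSpace (𝓡 n) p)]

local notation "𝔼" => EuclideanSpace ℝ (Fin n)

variable (n M) in
/-- the smooth functions -/
def Sm : Submodule ℝ (M → ℝ) where
  carrier := {φ | ContMDiff (𝓡 n) 𝓘(ℝ) ∞ φ}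
  add_mem' := fun h1 h2 => h1.add h2
  zero_mem' := (contMDiff_const : ContMDiff (𝓡 n) 𝓘(ℝ) ∞ fun _ : M => (0:ℝ))
  smul_mem' := fun c _ h => (contMDiff_const.mul h : ContMDiff (𝓡 n) 𝓘(ℝ) ∞ _)

section

variable [IsRiemannianManifold (𝓡 n) M] [CompactSpace M] [MeasurableSpace M] [BorelSpace M]

theorem memLp_cont {f : M → ℝ} (hf : Continuous f) (p : ENNReal) :
    MemLp f p (μHE[n] : Measure M) := by
  have := isFiniteMeasure n M
  exact hf.memLp_of_hasCompactSupport (HasCompactSupport.of_compactSpace f)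

theorem inner_toLp {f g : M → ℝ} (hf : MemLp f 2 (μHE[n] : Measure M))
    (hg : MemLp g 2 (μHE[n] : Measure M)) :
    inner ℝ (hf.toLp f) (hg.toLp g) = ∫ z, f z * g z ∂(μHE[n] : Measure M) := by
  rw [L2.inner_def]
  refine integral_congr_ae ?_
  filter_upwards [hf.coeFn_toLp, hg.coeFn_toLp] with z h1 h2
  rw [h1, h2]
  simp [mul_comm]

theorem continuous_op {q φ : M → ℝ} (hq : Continuous q) (hφ : ContMDiff (𝓡 n) 𝓘(ℝ) ∞ φ) :
    Continuous fun z => mLap n φ z - q z * φ z :=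
  (contMDiff_mLap hφ).continuous.sub (hq.mul hφ.continuous)

/-- `φ ↦ mLap φ - q φ` into `L²` -/
def TL {q : M → ℝ} (hq : Continuous q) : Sm n M →ₗ[ℝ] Lp ℝ 2 (μHE[n] : Measure M) where
  toFun := fun φ => (memLp_cont (n := n) (continuous_op hq φ.2) 2).toLp _
  map_add' := by
    intro φ ψ
    rw [← MemLp.toLp_add]
    congr 1
    funext z
    have h1 : mLap n (fun y => (φ : M → ℝ) y + (ψ : M → ℝ) y) z = mLap n φ z + mLap n ψ z :=
      mLap_add ((φ.2 z).of_le two_le_inf) ((ψ.2 z).of_le two_le_inf)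
    change mLap n (fun y => (φ : M → ℝ) y + (ψ : M → ℝ) y) z -
      q z * ((φ : M → ℝ) z + (ψ : M → ℝ) z) =
        (mLap n φ z - q z * (φ : M → ℝ) z) + (mLap n ψ z - q z * (ψ : M → ℝ) z)
    rw [h1]
    ring
  map_smul' := by
    intro c φ
    rw [RingHom.id_apply, ← MemLp.toLp_const_smul]
    congr 1
    funext z
    have h1 : mLap n (fun y => c * (φ : M → ℝ) y) z = c * mLap n φ z :=
      mLap_const_mul c ((φ.2 z).of_le two_le_inf)
    change mLap n (fun y => c * (φ : M → ℝ) y) z - q z * (c * (φ : M → ℝ) z) =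
      c • (mLap n φ z - q z * (φ : M → ℝ) z)
    rw [h1, smul_eq_mul]
    ring

/-- integration against `g` -/
def ITL {g : M → ℝ} (hg : Continuous g) : Sm n M →ₗ[ℝ] ℝ where
  toFun := fun φ => ∫ z, g z * (φ : M → ℝ) z ∂(μHE[n] : Measure M)
  map_add' := by
    intro φ ψ
    have i1 : Integrable (fun z => g z * (φ : M → ℝ) z) (μHE[n] : Measure M) :=
      integrable_cont (n := n) (hg.mul φ.2.continuous)
    have i2 : Integrable (fun z => g z * (ψ : M → ℝ) z) (μHE[n] : Measure M) :=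
      integrable_cont (n := n) (hg.mul ψ.2.continuous)
    rw [← integral_add i1 i2]
    refine integral_congr_ae (Eventually.of_forall fun z => ?_)
    change g z * ((φ : M → ℝ) z + (ψ : M → ℝ) z) = g z * (φ : M → ℝ) z + g z * (ψ : M → ℝ) z
    ring
  map_smul' := by
    intro c φ
    rw [RingHom.id_apply, smul_eq_mul, ← integral_const_mul]
    refine integral_congr_ae (Eventually.of_forall fun z => ?_)
    change g z * (c * (φ : M → ℝ) z) = c * (g z * (φ : M → ℝ) z)
    ring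

/-- **solvability from an a priori estimate** for the weak equation. -/
theorem exists_weak_of_apriori {q g : M → ℝ} (hq : Continuous q) (hg : Continuous g) {C : ℝ}
    (hap : ∀ φ : M → ℝ, ContMDiff (𝓡 n) 𝓘(ℝ) ∞ φ →
      |∫ z, g z * φ z ∂(μHE[n] : Measure M)| ≤
        C * √(∫ z, (mLap n φ z - q z * φ z) ^ 2 ∂(μHE[n] : Measure M))) :
    ∃ u : M → ℝ, MemLp u 2 (μHE[n] : Measure M) ∧ ∀ φ : M → ℝ, ContMDiff (𝓡 n) 𝓘(ℝ) ∞ φ →
      ∫ z, u z * (mLap n φ z - q z * φ z) ∂(μHE[n] : Measure M) =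
        ∫ z, g z * φ z ∂(μHE[n] : Measure M) := by
  obtain ⟨u, hu⟩ := exists_dual (TL (n := n) hq) (ITL (n := n) hg) (C := C) (fun φ => by
    have h1 := hap φ φ.2
    have h2 : ‖TL (n := n) hq φ‖ = √(∫ z, (mLap n φ z - q z * (φ : M → ℝ) z) ^ 2
        ∂(μHE[n] : Measure M)) := by
      rw [← Real.sqrt_sq (norm_nonneg (TL (n := n) hq φ)), ← real_inner_self_eq_norm_sq]
      congr 1
      change inner ℝ ((memLp_cont (n := n) (continuous_op hq φ.2) 2).toLp _)
        ((memLp_cont (n := n) (continuous_op hq φ.2) 2).toLp _) = _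
      rw [inner_toLp]
      refine integral_congr_ae (Eventually.of_forall fun z => ?_)
      simp only
      ring
    rw [h2]
    exact h1)
  refine ⟨u, Lp.memLp u, fun φ hφ => ?_⟩
  have h1 := hu ⟨φ, hφ⟩
  have h2 : inner ℝ u (TL (n := n) hq ⟨φ, hφ⟩) =
      ∫ z, u z * (mLap n φ z - q z * φ z) ∂(μHE[n] : Measure M) := by
    rw [L2.inner_def]
    refine integral_congr_ae ?_
    have h3 := (memLp_cont (n := n) (continuous_op hq hφ) 2).coeFn_toLp
    filter_upwards [h3] with z hz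
    change inner ℝ (u z) ((memLp_cont (n := n) (continuous_op hq hφ) 2).toLp _ z) = _
    rw [hz]
    simp [mul_comm]
  rw [← h2, h1]
  rfl

/-- Cauchy–Schwarz for continuous functions -/
theorem abs_integral_mul_le {f g : M → ℝ} (hf : Continuous f) (hg : Continuous g) :
    |∫ z, f z * g z ∂(μHE[n] : Measure M)| ≤
      √(∫ z, f z ^ 2 ∂(μHE[n] : Measure M)) * √(∫ z, g z ^ 2 ∂(μHE[n] : Measure M)) := by
  have hf2 := memLp_cont (n := n) hf 2
  have hg2 := memLp_cont (n := n) hg 2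
  have h1 := abs_real_inner_le_norm (hf2.toLp f) (hg2.toLp g)
  rw [inner_toLp] at h1
  have key : ∀ {h : M → ℝ} (hh : MemLp h 2 (μHE[n] : Measure M)),
      ‖hh.toLp h‖ = √(∫ z, h z ^ 2 ∂(μHE[n] : Measure M)) := by
    intro h hh
    rw [← Real.sqrt_sq (norm_nonneg (hh.toLp h)), ← real_inner_self_eq_norm_sq, inner_toLp]
    congr 1
    refine integral_congr_ae (Eventually.of_forall fun z => ?_)
    simp only
    ring
  rwa [key hf2, key hg2] at h1

/-- `q₀ ‖φ‖ ≤ ‖mLap φ - q φ‖` if `q ≥ q₀`. -/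
theorem apriori_resolvent {q : M → ℝ} (hq : Continuous q) {q0 : ℝ} (hq0 : 0 < q0)
    (hqq : ∀ z, q0 ≤ q z) {φ : M → ℝ} (hφ : ContMDiff (𝓡 n) 𝓘(ℝ) ∞ φ) :
    q0 * √(∫ z, φ z ^ 2 ∂(μHE[n] : Measure M)) ≤
      √(∫ z, (mLap n φ z - q z * φ z) ^ 2 ∂(μHE[n] : Measure M)) := by
  have hφ2 := hφ.of_le two_le_inf
  have hop := continuous_op hq hφ
  have h1 := abs_integral_mul_le (n := n) hφ.continuous hop
  have h2 := integral_mul_mLap (n := n) hφ2 (hφ.of_le (by simp) : ContMDiff (𝓡 n) 𝓘(ℝ) 1 φ)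
  have i1 : Integrable (fun z => φ z * mLap n φ z) (μHE[n] : Measure M) :=
    integrable_cont (n := n) (hφ.continuous.mul (contMDiff_mLap hφ).continuous)
  have i2 : Integrable (fun z => q z * φ z ^ 2) (μHE[n] : Measure M) :=
    integrable_cont (n := n) (hq.mul (hφ.continuous.pow 2))
  have i3 : Integrable (fun z => φ z ^ 2) (μHE[n] : Measure M) :=
    integrable_cont (n := n) (hφ.continuous.pow 2)
  have h3 : ∫ z, φ z * (mLap n φ z - q z * φ z) ∂(μHE[n] : Measure M) =
      - ∫ z, mGam n φ φ z ∂(μHE[n] : Measure M) - ∫ z, q z * φ z ^ 2 ∂(μHE[n] : Measure M) := by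
    rw [← h2, ← integral_sub i1 i2]
    refine integral_congr_ae (Eventually.of_forall fun z => ?_)
    simp only
    ring
  have h4 : 0 ≤ ∫ z, mGam n φ φ z ∂(μHE[n] : Measure M) :=
    integral_nonneg fun z => mGam_self_nonneg φ z
  have h5 : q0 * ∫ z, φ z ^ 2 ∂(μHE[n] : Measure M) ≤ ∫ z, q z * φ z ^ 2 ∂(μHE[n] : Measure M) := by
    rw [← integral_const_mul]
    exact integral_mono (i3.const_mul _) i2 fun z =>
      mul_le_mul_of_nonneg_right (hqq z) (sq_nonneg _)
  set A := √(∫ z, φ z ^ 2 ∂(μHE[n] : Measure M)) with hA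
  set B := √(∫ z, (mLap n φ z - q z * φ z) ^ 2 ∂(μHE[n] : Measure M)) with hB
  have hA2 : A ^ 2 = ∫ z, φ z ^ 2 ∂(μHE[n] : Measure M) :=
    Real.sq_sqrt (integral_nonneg fun z => sq_nonneg _)
  have hA0 : 0 ≤ A := Real.sqrt_nonneg _
  have h6 : q0 * A ^ 2 ≤ A * B := by
    rw [hA2]
    have := (abs_le.1 h1).1
    linarith
  rcases hA0.eq_or_lt with h | h
  · rw [← h, mul_zero]; exact Real.sqrt_nonneg _
  · have : A * (q0 * A) ≤ A * B := by nlinarith
    exact le_of_mul_le_mul_left this h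

/-- **the resolvent equation** `mLap u - q u = g` on a closed manifold. -/
theorem exists_resolvent' {q g : M → ℝ} (hq : ContMDiff (𝓡 n) 𝓘(ℝ) ∞ q) (hq0 : ∀ p, 0 < q p)
    (hg : ContMDiff (𝓡 n) 𝓘(ℝ) ∞ g) :
    ∃ u : M → ℝ, ContMDiff (𝓡 n) 𝓘(ℝ) ∞ u ∧ ∀ p, mLap n u p - q p * u p = g p := by
  rcases isEmpty_or_nonempty M with hM | hM
  · exact ⟨fun _ => 0, contMDiff_const, fun p => (hM.false p).elim⟩
  obtain ⟨p0, -, hp0⟩ := isCompact_univ.exists_isMinOn univ_nonempty hq.continuous.continuousOn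
  have hqq : ∀ z, q p0 ≤ q z := fun z => hp0 (mem_univ z)
  have hfin := isFiniteMeasure n M
  obtain ⟨u, hu, hw⟩ := exists_weak_of_apriori (n := n) hq.continuous hg.continuous
    (C := (q p0)⁻¹ * √(∫ z, g z ^ 2 ∂(μHE[n] : Measure M))) (fun φ hφ => by
      have h1 := abs_integral_mul_le (n := n) hg.continuous hφ.continuous
      have h2 := apriori_resolvent (n := n) hq.continuous (hq0 p0) hqq hφ
      have h3 := hq0 p0
      refine h1.trans ?_
      have h4 : √(∫ z, φ z ^ 2 ∂(μHE[n] : Measure M)) ≤ (q p0)⁻¹ *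
          √(∫ z, (mLap n φ z - q z * φ z) ^ 2 ∂(μHE[n] : Measure M)) := by
        rw [le_inv_mul_iff₀ h3]
        exact h2
      calc _ ≤ √(∫ z, g z ^ 2 ∂(μHE[n] : Measure M)) * ((q p0)⁻¹ *
          √(∫ z, (mLap n φ z - q z * φ z) ^ 2 ∂(μHE[n] : Measure M))) := by gcongr
        _ = _ := by ring)
  obtain ⟨v, hv, -, hve⟩ := weak_regularity (n := n) (hu.integrable (by norm_num)) hq hq0 hg hw
  exact ⟨v, hv, hve⟩

/-- **the resolvent equation** with a constant. -/
theorem exists_resolvent {c : ℝ} (hc : 0 < c) {g : M → ℝ} (hg : ContMDiff (𝓡 n) 𝓘(ℝ) ∞ g) :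
    ∃ u : M → ℝ, ContMDiff (𝓡 n) 𝓘(ℝ) ∞ u ∧ ∀ p, mLap n u p - c * u p = g p :=
  exists_resolvent' (q := fun _ => c) contMDiff_const (fun _ => hc) hg

end

end Crest.Agent.R249.Grn324
end
end

-- ▼ part R249/Grn5_324

/-!
# R249 (helper324), PDE layer, file 9: the Poisson equation

* `weak_regularity0`: weak solutions of `mLap u = g` are smooth (no zero order term);
* `const_of_mGam_zero`, `const_of_mLap_zero`: harmonic functions on a closed connected manifold are
  constant;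
* `approx_poisson`: `∫ g = 0` ⇒ `g` is an `L²` limit of `mLap φ`, `φ` smooth;
* `lichnerowicz`: `Ric ≥ K > 0`, `∫ f = 0` ⇒ `n K ∫ f² ≤ (n-1) ∫ |df|²`;
* `exists_poisson_of_poincare`, `exists_poisson_pos`: the Poisson equation.
-/

set_option autoImplicit false
set_option maxSynthPendingDepth 3
set_option linter.unusedSectionVars false

open Bundle Set MeasureTheory Manifold Filter Metric
open scoped ContDiff Topology NNReal
open Crest.GeometryTopology.CoordMetric Crest.GeometryTopology.ChartCurvature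
  Crest.GeometryTopology.PointedLimit
open Crest.Agent.R247.Bo84
open Crest.Agent.R247.Ms322 hiding isRiemannianOn_chartMetric
open Crest.Agent.R202.Ell (divA contDiff_mul_of_tsupport divA_congr_of_open contDiffOn_pd
  ell_regularity)

noncomputable section

namespace Crest.Agent.R249.Grn324

variable {n : ℕ} {M : Type*} [MetricSpace M] [ChartedSpace (EuclideanSpace ℝ (Fin n)) M]
  [IsManifold (𝓡 n) ∞ M]
  [RiemannianBundle (fun p : M => TangentSpace (𝓡 n) p)]
  [IsContMDiffRiemannianBundle (𝓡 n) ∞ (EuclideanSpace ℝ (Fin n)) (fun p : M => TangentSpace (𝓡 n) p)]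

local notation "𝔼" => EuclideanSpace ℝ (Fin n)

/-- a `C¹` function with vanishing gradient on a connected manifold is constant -/
theorem const_of_mGam_zero [PreconnectedSpace M] {f : M → ℝ} (hf : ContMDiff (𝓡 n) 𝓘(ℝ) 1 f)
    (h0 : ∀ p, mGam n f f p = 0) (p q : M) : f p = f q := by
  have hz : ∀ p (v : TangentSpace (𝓡 n) p), mfderiv (𝓡 n) 𝓘(ℝ, ℝ) f p v = 0 := by
    intro p v
    have h1 : mgrad n f p = 0 := by
      have := h0 p
      rw [mGam_self] at this
      exact norm_eq_zero.1 (pow_eq_zero_iff two_ne_zero |>.1 this)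
    rw [← inner_mgrad, h1, inner_zero_left]
    rfl
  have hloc : IsLocallyConstant f := by
    rw [IsLocallyConstant.iff_eventually_eq]
    intro x
    have hx := mem_chart_source 𝔼 x
    have hxt : chartAt 𝔼 x x ∈ (chartAt 𝔼 x).target := (chartAt 𝔼 x).map_source hx
    obtain ⟨r, hr, hB⟩ := Metric.isOpen_iff.1 (chartAt 𝔼 x).open_target _ hxt
    have hdiff : ∀ y ∈ (chartAt 𝔼 x).target, DifferentiableAt ℝ (inCh n x f) y := fun y hy => by
      have h1 : ContDiffAt ℝ 1 (inCh n x f) y :=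
        contDiffAt_inCh (n := n) (x₀ := x) (by simp) hy (hf _)
      exact h1.differentiableAt (by norm_num)
    have hconst : ∀ y ∈ ball (chartAt 𝔼 x x) r, inCh n x f y = inCh n x f (chartAt 𝔼 x x) := by
      intro y hy
      refine isOpen_ball.is_const_of_fderiv_eq_zero (𝕜 := ℝ) (convex_ball _ _).isPreconnected
        (fun z hz => (hdiff z (hB hz)).differentiableWithinAt) (fun z hzB => ?_) hy
        (mem_ball_self hr)
      ext v
      rw [fderiv_inCh (hB hzB)]
      exact hz _ _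
    filter_upwards [(chartAt 𝔼 x).open_source.mem_nhds hx,
      ((chartAt 𝔼 x).continuousAt hx).preimage_mem_nhds (ball_mem_nhds _ hr)] with y hy1 hy2
    have := hconst _ hy2
    change f ((chartAt 𝔼 x).symm (chartAt 𝔼 x y)) = f ((chartAt 𝔼 x).symm (chartAt 𝔼 x x)) at this
    rwa [(chartAt 𝔼 x).left_inv hy1, (chartAt 𝔼 x).left_inv hx] at this
  exact hloc.apply_eq_of_preconnectedSpace p q

variable [IsRiemannianManifold (𝓡 n) M] [MeasurableSpace M] [BorelSpace M]

/-- gluing smooth local representatives -/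
theorem glue_local {u : M → ℝ} {V : M → EuclideanSpace ℝ (Fin n) → ℝ}
    (hV : ∀ x : M, ContDiffOn ℝ ∞ (V x) (chartAt (EuclideanSpace ℝ (Fin n)) x).target)
    (hVu : ∀ x : M, ∀ᵐ a : EuclideanSpace ℝ (Fin n),
      a ∈ (chartAt (EuclideanSpace ℝ (Fin n)) x).target →
        V x a = u ((chartAt (EuclideanSpace ℝ (Fin n)) x).symm a)) :
    ∃ v : M → ℝ, ContMDiff (𝓡 n) 𝓘(ℝ) ∞ v ∧
      (∀ x : M, ∀ᵐ z ∂(μHE[n] : Measure M),
        z ∈ (chartAt (EuclideanSpace ℝ (Fin n)) x).source → v z = u z) ∧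
      ∀ x z : M, z ∈ (chartAt (EuclideanSpace ℝ (Fin n)) x).source →
        v z = V x (chartAt (EuclideanSpace ℝ (Fin n)) x z) := by
  have hW : ∀ x : M, ContMDiffOn (𝓡 n) 𝓘(ℝ) ∞ (fun z => V x (chartAt 𝔼 x z))
      (chartAt 𝔼 x).source := by
    intro x z hz
    have h1 : ContMDiffAt (𝓡 n) (𝓡 n) ∞ (chartAt 𝔼 x) z :=
      (contMDiffOn_chart (I := 𝓡 n) (n := ∞) (x := x)).contMDiffAt
        ((chartAt 𝔼 x).open_source.mem_nhds hz)
    have h2 : ContDiffAt ℝ ∞ (V x) (chartAt 𝔼 x z) :=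
      (hV x).contDiffAt ((chartAt 𝔼 x).open_target.mem_nhds ((chartAt 𝔼 x).map_source hz))
    exact ((contMDiffAt_iff_contDiffAt.2 h2).comp z h1).contMDiffWithinAt
  have hWae : ∀ x : M, ∀ᵐ z ∂(μHE[n] : Measure M), z ∈ (chartAt 𝔼 x).source →
      V x (chartAt 𝔼 x z) = u z := by
    intro x
    refine ae_source_of_chart (n := n) x (P := fun z => V x (chartAt 𝔼 x z) = u z) ?_
    filter_upwards [hVu x] with a ha haT
    rw [(chartAt 𝔼 x).right_inv haT]
    exact ha haT
  have hopen := isOpenPosMeasure n M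
  have hcons : ∀ x y : M, Set.EqOn (fun z => V x (chartAt 𝔼 x z)) (fun z => V y (chartAt 𝔼 y z))
      ((chartAt 𝔼 x).source ∩ (chartAt 𝔼 y).source) := by
    intro x y
    refine Measure.eqOn_open_of_ae_eq (μ := (μHE[n] : Measure M)) ?_
      ((chartAt 𝔼 x).open_source.inter (chartAt 𝔼 y).open_source)
      ((hW x).continuousOn.mono inter_subset_left) ((hW y).continuousOn.mono inter_subset_right)
    rw [EventuallyEq, ae_restrict_iff'
      ((chartAt 𝔼 x).open_source.inter (chartAt 𝔼 y).open_source).measurableSet]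
    filter_upwards [hWae x, hWae y] with z h1 h2 hz
    rw [h1 hz.1, h2 hz.2]
  have hvx : ∀ x z : M, z ∈ (chartAt 𝔼 x).source → V z (chartAt 𝔼 z z) = V x (chartAt 𝔼 x z) :=
    fun x z hz => hcons z x ⟨mem_chart_source 𝔼 z, hz⟩
  refine ⟨fun z => V z (chartAt 𝔼 z z), ?_, fun x => ?_, hvx⟩
  · intro z
    have hz := mem_chart_source 𝔼 z
    refine (((hW z) z hz).contMDiffAt ((chartAt 𝔼 z).open_source.mem_nhds hz)).congr_of_eventuallyEq
      ?_
    filter_upwards [(chartAt 𝔼 z).open_source.mem_nhds hz] with y hy using hvx z y hy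
  · filter_upwards [hWae x] with z h1 hz
    rw [hvx x z hz, h1 hz]

/-- a.e. statements are local -/
theorem ae_of_charts [SecondCountableTopology M] {P : M → Prop}
    (h : ∀ x : M, ∀ᵐ z ∂(μHE[n] : Measure M),
      z ∈ (chartAt (EuclideanSpace ℝ (Fin n)) x).source → P z) :
    ∀ᵐ z ∂(μHE[n] : Measure M), P z := by
  rw [ae_iff]
  refine measure_null_of_locally_null _ fun x _ => ?_
  refine ⟨(chartAt 𝔼 x).source ∩ {z | ¬ P z}, ?_, ?_⟩
  · exact inter_mem (mem_nhdsWithin_of_mem_nhds ((chartAt 𝔼 x).open_source.mem_nhds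
      (mem_chart_source 𝔼 x))) self_mem_nhdsWithin
  · have := h x
    rw [ae_iff] at this
    convert this using 2
    ext z
    simp only [mem_inter_iff, mem_ofPred_eq, Classical.not_imp]

/-- **weak solutions of `mLap u = g` are smooth.** -/
theorem weak_regularity0 {u g : M → ℝ} (hu : Integrable u (μHE[n] : Measure M))
    (hg : ContMDiff (𝓡 n) 𝓘(ℝ) ∞ g)
    (h : ∀ φ : M → ℝ, ContMDiff (𝓡 n) 𝓘(ℝ) ∞ φ →
      ∫ z, u z * mLap n φ z ∂(μHE[n] : Measure M) =
        ∫ z, g z * φ z ∂(μHE[n] : Measure M)) :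
    ∃ v : M → ℝ, ContMDiff (𝓡 n) 𝓘(ℝ) ∞ v ∧
      (∀ x : M, ∀ᵐ z ∂(μHE[n] : Measure M),
        z ∈ (chartAt (EuclideanSpace ℝ (Fin n)) x).source → v z = u z) ∧
      ∀ p, mLap n v p = g p := by
  have hloc : ∀ x : M, ∃ v : 𝔼 → ℝ, ContDiffOn ℝ ∞ v (chartAt 𝔼 x).target ∧
      (∀ᵐ a : 𝔼, a ∈ (chartAt 𝔼 x).target → v a = u ((chartAt 𝔼 x).symm a)) ∧
      ∀ a ∈ (chartAt 𝔼 x).target, divA (cA x) v a = dens x a * g ((chartAt 𝔼 x).symm a) := by
    intro x
    refine ell_regularity n _ (chartAt 𝔼 x).open_target (cA x) (contDiffOn_cA x)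
      (fun a ha => posDef_cA x ha) (fun a => dens x a * g ((chartAt 𝔼 x).symm a))
      ((contDiffOn_dens x).mul (contDiffOn_symm hg x)) (fun a => u ((chartAt 𝔼 x).symm a))
      (locallyIntegrableOn_chart x hu) (fun ψ hψ hc hs => ?_)
    have h1 := weak_chart (n := n) (q := fun _ => 0) (u := u) (g := g)
      (fun φ hφ => by simpa using h φ hφ) x hψ hc hs
    simpa using h1
  choose V hV hVu hVf using hloc
  obtain ⟨v, hvs, hvu, hvx⟩ := glue_local (n := n) hV hVu
  refine ⟨v, hvs, hvu, fun p => ?_⟩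
  have hp := mem_chart_source 𝔼 p
  set a : 𝔼 := chartAt 𝔼 p p with ha
  have hat : a ∈ (chartAt 𝔼 p).target := (chartAt 𝔼 p).map_source hp
  have hpa : (chartAt 𝔼 p).symm a = p := (chartAt 𝔼 p).left_inv hp
  have h1 := hVf p a hat
  have h2 : divA (cA p) (V p) a = divA (cA p) (inCh n p v) a := by
    refine divA_congr_of_open (chartAt 𝔼 p).open_target (fun _ _ _ _ => rfl) (fun b hb => ?_) hat
    change V p b = v ((chartAt 𝔼 p).symm b)
    rw [hvx p _ ((chartAt 𝔼 p).map_target hb), (chartAt 𝔼 p).right_inv hb]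
  have h4 : mLap n v p = laplaceBeltrami (chartMetric n M p) (inCh n p v) a :=
    mLap_chart' hp ((hvs p).of_le two_le_inf)
  rw [h2, ← dens_mul_lap p hat, ← h4, hpa] at h1
  exact mul_left_cancel₀ (dens_pos (n := n) p hat).ne' h1

section Closed

variable [CompactSpace M]

/-- **harmonic functions on a closed connected manifold are constant.** -/
theorem const_of_mLap_zero [PreconnectedSpace M] {f : M → ℝ} (hf : ContMDiff (𝓡 n) 𝓘(ℝ) ∞ f)
    (h0 : ∀ p, mLap n f p = 0) (p q : M) : f p = f q := by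
  have h1 := integral_mul_mLap (n := n) (hf.of_le two_le_inf)
    (hf.of_le (by simp) : ContMDiff (𝓡 n) 𝓘(ℝ) 1 f)
  simp only [h0, mul_zero, integral_zero] at h1
  have h2 : ∫ z, mGam n f f z ∂(μHE[n] : Measure M) = 0 := by linarith
  have hc := (contMDiff_mGam hf hf).continuous
  have hopen := isOpenPosMeasure n M
  have h3 := (integral_eq_zero_iff_of_nonneg (fun z => mGam_self_nonneg f z)
    (integrable_cont (n := n) hc)).1 h2
  have h4 := (hc.ae_eq_iff_eq (μHE[n] : Measure M) continuous_const).1 h3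
  exact const_of_mGam_zero (hf.of_le (by simp)) (fun z => congrFun h4 z) p q

/-- **approximate Poisson equation.** -/
theorem approx_poisson [PreconnectedSpace M] {g : M → ℝ} (hg : ContMDiff (𝓡 n) 𝓘(ℝ) ∞ g)
    (h0 : ∫ z, g z ∂(μHE[n] : Measure M) = 0) {δ : ℝ} (hδ : 0 < δ) :
    ∃ φ : M → ℝ, ContMDiff (𝓡 n) 𝓘(ℝ) ∞ φ ∧
      ∫ z, (mLap n φ z - g z) ^ 2 ∂(μHE[n] : Measure M) ≤ δ ^ 2 := by
  have := secondCountable M
  have hfin := isFiniteMeasure n M
  set T := TL (n := n) (M := M) (q := fun _ => 0) continuous_const with hT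
  have hg2 := memLp_cont (n := n) hg.continuous 2
  have key : hg2.toLp g ∈ (LinearMap.range T).topologicalClosure := by
    rw [← Submodule.orthogonal_orthogonal_eq_closure, Submodule.mem_orthogonal]
    intro u hu
    rw [Submodule.mem_orthogonal] at hu
    have hw : ∀ φ : M → ℝ, ContMDiff (𝓡 n) 𝓘(ℝ) ∞ φ →
        ∫ z, u z * mLap n φ z ∂(μHE[n] : Measure M) =
        ∫ z, (0 : M → ℝ) z * φ z ∂(μHE[n] : Measure M) := by
      intro φ hφ
      have h1 := hu (T ⟨φ, hφ⟩) (LinearMap.mem_range_self T _)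
      rw [real_inner_comm, L2.inner_def] at h1
      have h3 := (memLp_cont (n := n) (continuous_op (q := fun _ : M => (0:ℝ)) continuous_const hφ)
        2).coeFn_toLp
      simp only [Pi.zero_apply, zero_mul, integral_zero]
      rw [← h1]
      refine integral_congr_ae ?_
      filter_upwards [h3] with z hz
      change _ = inner ℝ (u z) ((memLp_cont (n := n)
        (continuous_op (q := fun _ : M => (0:ℝ)) continuous_const hφ) 2).toLp _ z)
      rw [hz]
      simp [mul_comm]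
    obtain ⟨v, hv, hvu, hvL⟩ := weak_regularity0 (n := n) ((Lp.memLp u).integrable (by norm_num))
      (contMDiff_const : ContMDiff (𝓡 n) 𝓘(ℝ) ∞ (0 : M → ℝ)) hw
    have hvu' : ∀ᵐ z ∂(μHE[n] : Measure M), v z = u z := ae_of_charts hvu
    have hconst := const_of_mLap_zero hv hvL
    rw [L2.inner_def]
    rcases isEmpty_or_nonempty M with hM | ⟨⟨p0⟩⟩
    · simp [Measure.eq_zero_of_isEmpty]
    have h5 : ∫ z, v p0 * g z ∂(μHE[n] : Measure M) = 0 := by
      rw [integral_const_mul, h0, mul_zero]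
    rw [← h5]
    refine integral_congr_ae ?_
    filter_upwards [hvu', hg2.coeFn_toLp] with z h1 h2
    rw [h2, ← h1, hconst z p0]
    simp [mul_comm]
  rw [← SetLike.mem_coe, Submodule.topologicalClosure_coe, Metric.mem_closure_iff] at key
  obtain ⟨_, ⟨φ, rfl⟩, hφ⟩ := key δ hδ
  refine ⟨φ, φ.2, ?_⟩
  have h1 : ‖T φ - hg2.toLp g‖ ^ 2 ≤ δ ^ 2 := by
    have : ‖T φ - hg2.toLp g‖ ≤ δ := by
      rw [← dist_eq_norm, dist_comm]; exact hφ.le
    exact pow_le_pow_left₀ (norm_nonneg _) this 2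
  refine le_trans (le_of_eq ?_) h1
  have hc := continuous_op (n := n) (q := fun _ : M => (0:ℝ)) continuous_const φ.2
  have e : T φ - hg2.toLp g = ((memLp_cont (n := n) hc 2).sub hg2).toLp _ := by
    rw [MemLp.toLp_sub (memLp_cont (n := n) hc 2) hg2]; rfl
  rw [e, ← real_inner_self_eq_norm_sq, inner_toLp]
  refine integral_congr_ae (Eventually.of_forall fun z => ?_)
  simp only [Pi.sub_apply]
  ring

theorem sq_sqrt_integral {f : M → ℝ} (h : ∀ z, 0 ≤ f z) :
    √(∫ z, f z ∂(μHE[n] : Measure M)) ^ 2 = ∫ z, f z ∂(μHE[n] : Measure M) :=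
  Real.sq_sqrt (integral_nonneg h)

/-- Cauchy–Schwarz for the gradients -/
theorem abs_integral_mGam_le {f h : M → ℝ} (hf : ContMDiff (𝓡 n) 𝓘(ℝ) 1 f)
    (hh : ContMDiff (𝓡 n) 𝓘(ℝ) 1 h) :
    |∫ z, mGam n f h z ∂(μHE[n] : Measure M)| ≤
      √(∫ z, mGam n f f z ∂(μHE[n] : Measure M)) * √(∫ z, mGam n h h z ∂(μHE[n] : Measure M)) := by
  have hcf := continuous_mGam hf hf
  have hch := continuous_mGam hh hh
  have hcfh := continuous_mGam hf hh
  have h1 : |∫ z, mGam n f h z ∂(μHE[n] : Measure M)| ≤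
      ∫ z, √(mGam n f f z) * √(mGam n h h z) ∂(μHE[n] : Measure M) := by
    refine (abs_integral_le_integral_abs).trans ?_
    refine integral_mono (integrable_cont (n := n) hcfh.abs)
      (integrable_cont (n := n) (hcf.sqrt.mul hch.sqrt)) fun z => ?_
    refine abs_le_of_sq_le_sq ?_ (by positivity)
    rw [mul_pow, Real.sq_sqrt (mGam_self_nonneg f z), Real.sq_sqrt (mGam_self_nonneg h z)]
    exact mGam_sq_le f h z
  refine h1.trans ((le_abs_self _).trans ((abs_integral_mul_le (n := n) hcf.sqrt hch.sqrt).trans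
    (le_of_eq ?_)))
  congr 2
  · exact integral_congr_ae (Eventually.of_forall fun z => Real.sq_sqrt (mGam_self_nonneg f z))
  · exact integral_congr_ae (Eventually.of_forall fun z => Real.sq_sqrt (mGam_self_nonneg h z))

/-- **the estimate dual to the Poincaré inequality**: if `a ∫ |dφ|² ≤ ∫ (mLap φ)²` for all smooth
`φ`, `a > 0`, then `a ∫ f² ≤ ∫ |df|²` for all smooth `f` with `∫ f = 0`. -/
theorem poincare_of_dual [PreconnectedSpace M] {a : ℝ} (ha : 0 < a)
    (hap : ∀ φ : M → ℝ, ContMDiff (𝓡 n) 𝓘(ℝ) ∞ φ →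
      a * ∫ z, mGam n φ φ z ∂(μHE[n] : Measure M) ≤ ∫ z, mLap n φ z ^ 2 ∂(μHE[n] : Measure M))
    {f : M → ℝ} (hf : ContMDiff (𝓡 n) 𝓘(ℝ) ∞ f) (h0 : ∫ z, f z ∂(μHE[n] : Measure M) = 0) :
    a * ∫ z, f z ^ 2 ∂(μHE[n] : Measure M) ≤ ∫ z, mGam n f f z ∂(μHE[n] : Measure M) := by
  set A := √(∫ z, f z ^ 2 ∂(μHE[n] : Measure M)) with hA
  set B := √(∫ z, mGam n f f z ∂(μHE[n] : Measure M)) with hB
  have hA0 : 0 ≤ A := Real.sqrt_nonneg _
  have hB0 : 0 ≤ B := Real.sqrt_nonneg _
  have hA2 : A ^ 2 = ∫ z, f z ^ 2 ∂(μHE[n] : Measure M) := sq_sqrt_integral fun z => sq_nonneg _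
  have hB2 : B ^ 2 = ∫ z, mGam n f f z ∂(μHE[n] : Measure M) :=
    sq_sqrt_integral fun z => mGam_self_nonneg f z
  rw [← hA2, ← hB2]
  have hsa : 0 < √a := Real.sqrt_pos.2 ha
  have hsa2 : √a ^ 2 = a := Real.sq_sqrt ha.le
  have key : ∀ δ : ℝ, 0 < δ → √a * A ^ 2 ≤ B * (A + δ) + √a * A * δ := by
    intro δ hδ
    obtain ⟨φ, hφ, hφδ⟩ := approx_poisson hf h0 hδ
    have hcL := (contMDiff_mLap hφ).continuous
    have hcd : Continuous fun z => mLap n φ z - f z := hcL.sub hf.continuous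
    have h1 : √(∫ z, (mLap n φ z - f z) ^ 2 ∂(μHE[n] : Measure M)) ≤ δ :=
      (Real.sqrt_le_sqrt hφδ).trans (by rw [Real.sqrt_sq hδ.le])
    -- the gradient of `φ`
    set D := √(∫ z, mGam n φ φ z ∂(μHE[n] : Measure M)) with hD
    set L := √(∫ z, mLap n φ z ^ 2 ∂(μHE[n] : Measure M)) with hL
    have hD0 : 0 ≤ D := Real.sqrt_nonneg _
    have hL0 : 0 ≤ L := Real.sqrt_nonneg _
    have h2 : √a * D ≤ L := by
      refine abs_le_of_sq_le_sq' ?_ hL0 |>.2
      rw [mul_pow, hsa2, hD, hL, sq_sqrt_integral fun z => mGam_self_nonneg φ z,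
        sq_sqrt_integral fun z => sq_nonneg _]
      exact hap φ hφ
    have h3 : L ≤ A + δ := by
      have hm := memLp_cont (n := n) hcL 2
      have hmf := memLp_cont (n := n) hf.continuous 2
      have key2 : ∀ {h : M → ℝ} (hh : MemLp h 2 (μHE[n] : Measure M)),
          ‖hh.toLp h‖ = √(∫ z, h z ^ 2 ∂(μHE[n] : Measure M)) := by
        intro h hh
        rw [← Real.sqrt_sq (norm_nonneg (hh.toLp h)), ← real_inner_self_eq_norm_sq, inner_toLp]
        congr 1
        refine integral_congr_ae (Eventually.of_forall fun z => ?_)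
        simp only
        ring
      have h4 := norm_add_le (hmf.toLp f) ((hm.sub hmf).toLp _)
      have h5 : hmf.toLp f + (hm.sub hmf).toLp _ = hm.toLp _ := by
        rw [MemLp.toLp_sub hm hmf]; abel
      rw [h5, key2, key2, key2] at h4
      exact h4.trans (add_le_add le_rfl h1)
    have h6 := integral_mul_mLap (n := n) (hφ.of_le two_le_inf)
      (hf.of_le (by simp) : ContMDiff (𝓡 n) 𝓘(ℝ) 1 f)
    have h7 : A ^ 2 = - ∫ z, mGam n φ f z ∂(μHE[n] : Measure M) -
        ∫ z, f z * (mLap n φ z - f z) ∂(μHE[n] : Measure M) := by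
      have i1 : Integrable (fun z => f z * mLap n φ z) (μHE[n] : Measure M) :=
        integrable_cont (n := n) (hf.continuous.mul hcL)
      have i2 : Integrable (fun z => f z * (mLap n φ z - f z)) (μHE[n] : Measure M) :=
        integrable_cont (n := n) (hf.continuous.mul hcd)
      rw [hA2, ← h6, ← integral_sub i1 i2]
      refine integral_congr_ae (Eventually.of_forall fun z => ?_)
      simp only
      ring
    have h8 : |∫ z, mGam n φ f z ∂(μHE[n] : Measure M)| ≤ D * B :=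
      abs_integral_mGam_le (n := n) (hφ.of_le (by simp)) (hf.of_le (by simp))
    have h9 := abs_integral_mul_le (n := n) hf.continuous hcd
    have h10 : |∫ z, f z * (mLap n φ z - f z) ∂(μHE[n] : Measure M)| ≤ A * δ :=
      h9.trans (mul_le_mul_of_nonneg_left h1 hA0)
    have h11 : A ^ 2 ≤ D * B + A * δ := by
      have := (abs_le.1 h8).1
      have := (abs_le.1 h10).1
      linarith
    calc √a * A ^ 2 ≤ √a * (D * B + A * δ) := mul_le_mul_of_nonneg_left h11 hsa.le
      _ = (√a * D) * B + √a * A * δ := by ring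
      _ ≤ (A + δ) * B + √a * A * δ := by
          have := mul_le_mul_of_nonneg_right (h2.trans h3) hB0
          linarith
      _ = _ := by ring
  have hlim : √a * A ^ 2 ≤ B * A := by
    refine le_of_forall_pos_le_add fun ε hε => ?_
    have hk : 0 < B + √a * A + 1 := by positivity
    have h1 := key (ε / (B + √a * A + 1)) (by positivity)
    have h2 : (B + √a * A) * (ε / (B + √a * A + 1)) ≤ ε := by
      rw [mul_div_assoc', div_le_iff₀ hk]
      nlinarith
    calc √a * A ^ 2 ≤ _ := h1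
      _ = B * A + (B + √a * A) * (ε / (B + √a * A + 1)) := by ring
      _ ≤ _ := by linarith
  have h12 : √a * A ≤ B := by
    rcases hA0.eq_or_lt with h | h
    · rw [← h, mul_zero]; exact hB0
    · have : A * (√a * A) ≤ A * B := by nlinarith
      exact le_of_mul_le_mul_left this h
  calc a * A ^ 2 = (√a * A) ^ 2 := by rw [mul_pow, hsa2]
    _ ≤ B ^ 2 := pow_le_pow_left₀ (by positivity) h12 2

/-- `∫ (mLap φ)² ≥ (n/(n-1)) K ∫ |dφ|²` if `Ric ≥ K` -/
theorem integral_mGam_le_of_ricci {K : ℝ} (hK : HasRicciLowerBound n M K) (hn : 0 < n)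
    {φ : M → ℝ} (hφ : ContMDiff (𝓡 n) 𝓘(ℝ) ∞ φ) :
    (n : ℝ) * K * ∫ z, mGam n φ φ z ∂(μHE[n] : Measure M) ≤
      ((n : ℝ) - 1) * ∫ z, mLap n φ z ^ 2 ∂(μHE[n] : Measure M) := by
  have h1 := integral_mHessSq_le (n := n) hK hφ
  have hn' : (0 : ℝ) < n := by exact_mod_cast hn
  have hφ2 := hφ.of_le two_le_inf
  have h2 : ∫ z, mLap n φ z ^ 2 ∂(μHE[n] : Measure M) ≤
      n * ∫ z, mHessSq n φ z ∂(μHE[n] : Measure M) := by
    rw [← integral_const_mul]
    exact integral_mono (integrable_cont (n := n) ((contMDiff_mLap hφ).continuous.pow 2))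
      ((integrable_cont (n := n) (continuous_mHessSq hφ2)).const_mul _)
      fun z => mLap_sq_le (hφ2 z)
  nlinarith

end Closed

end Crest.Agent.R249.Grn324
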