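import Crest.Agent.R249.SobD_982
import Crest.Agent.R247.Ar3_659
import Crest.Agent.R247.Bs1_84
import Crest.Agent.R247.Bgr3_546
import Crest.Agent.R249.Grn5_324
import Crest.Agent.R247.Bs3_84

-- ▼ part R249/LPO_897
section

/-!
# R249 (D3-LIM / L-PO): the Poincaré inequalities of `SobD_982` in the template classes

For a complete connected Riemannian manifold `M` (template instances, any `n`, no compactness)
with `Ric ≥ -κ` and `f : M → ℝ` of class `C¹`; `B = ball x₀ s`, `2B = ball x₀ (2s)`,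
`E = exp (2 κ s²) 2ⁿ`:

* `LG_Gr`, `LG_mGam` : `LG f (fun y => ‖Gr f y‖)`, `LG f (fun y => √(mGam n f f y))`;
* `l_po`, `l_po_two` : `∫_B ∫_B |f y - f z|^p ≤ (4s resp. 8s²) E μ(B) ∫_{2B} |grad f|^p`
  (`p = 1, 2`) in `ℝ≥0∞`; `l_po_real`, `l_po_two_real` the same with real integrals;
* `poinc`, `poinc_sq`, `poinc_real`, `poinc_sq_real` :
  `∫_B |f - f_B|^p ≤ (4s resp. 8s²) E ∫_{2B} |grad f|^p`.

`|grad f|` is written `√(mGam n f f y)`, `|grad f|²` is `mGam n f f y`
(`norm_Gr_sqrt : ‖Gr f z‖ = √(mGam n f f z)`).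
-/

set_option autoImplicit false
set_option maxSynthPendingDepth 3
set_option linter.unusedSectionVars false
noncomputable section
open Set Filter Topology MeasureTheory Metric
open scoped ContDiff Manifold ENNReal NNReal
open Bundle Crest.GeometryTopology.CoordMetric Crest.GeometryTopology.ChartCurvature
  Crest.GeometryTopology.PointedLimit

namespace Crest.Agent.R249.LPO_897

open Crest.Agent.R247.Mcp688 Crest.Agent.R247.Ms322 Crest.Agent.R247
open Crest.Agent.R249.SobA_982 Crest.Agent.R249.SobD_982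

variable {n : ℕ} {M : Type*} [MetricSpace M] [ChartedSpace (EuclideanSpace ℝ (Fin n)) M]
  [IsManifold (𝓡 n) ∞ M]
  [RiemannianBundle (fun p : M => TangentSpace (𝓡 n) p)]
  [IsContMDiffRiemannianBundle (𝓡 n) ∞ (EuclideanSpace ℝ (Fin n))
    (fun p : M => TangentSpace (𝓡 n) p)]

theorem continuous_mGam {f : M → ℝ} (hf : ContMDiff (𝓡 n) 𝓘(ℝ) 1 f) :
    Continuous (Bo84.mGam n f f) := by
  rw [continuous_iff_continuousAt]
  intro z
  exact (Bo84.contMDiffAt_mGam (m := 0) (hf z) (hf z) (by simp)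
    (by exact_mod_cast le_top)).continuousAt

section LG
variable [SecondCountableTopology M] [Nonempty M] [IsRiemannianManifold (𝓡 n) M]

theorem norm_Gr_sqrt (f : M → ℝ) (z : M) : ‖Gr (n := n) f z‖ = √(Bo84.mGam n f f z) := by
  rw [← Bs84.norm_Gr_sq_eq, Real.sqrt_sq (norm_nonneg _)]

theorem mGam_nonneg (f : M → ℝ) (z : M) : 0 ≤ Bo84.mGam n f f z := by
  rw [← Bs84.norm_Gr_sq_eq]; positivity

theorem LG_mGam {f : M → ℝ} (hf : ContMDiff (𝓡 n) 𝓘(ℝ) 1 f) :
    LG f (fun y => √(Bo84.mGam n f f y)) where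
  contG := (continuous_mGam hf).sqrt
  nonneg y := Real.sqrt_nonneg _
  lip y ε hε := by
    have h := Ar659.ev_le (n := n) ((hf y).mdifferentiableAt (by norm_num)) hε
    rw [norm_Gr_sqrt] at h
    exact h

theorem LG_Gr {f : M → ℝ} (hf : ContMDiff (𝓡 n) 𝓘(ℝ) 1 f) :
    LG f (fun y => ‖Gr (n := n) f y‖) :=
  (LG_mGam hf).congr (fun _ => rfl) fun y => norm_Gr_sqrt f y

end LG

section main
variable [IsRiemannianManifold (𝓡 n) M] [CompleteSpace M] [ConnectedSpace M]
  [MeasurableSpace M] [BorelSpace M]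

theorem rad_of {κ : ℝ} (hκ : 0 ≤ κ) (hric : HasRicciLowerBound n M (-κ)) :
    Nonempty (Rad n κ M (μHE[n] : Measure M)) := Bgr546.rad_all n κ hκ M hric

variable {κ : ℝ} {f : M → ℝ}

/-- **L-PO** : double integral form of the `L¹` Poincaré inequality. -/
theorem l_po (hκ : 0 ≤ κ) (hric : HasRicciLowerBound n M (-κ))
    (hf : ContMDiff (𝓡 n) 𝓘(ℝ) 1 f) (x₀ : M) {s : ℝ} (hs : 0 < s) :
    ∫⁻ y in ball x₀ s, ∫⁻ z in ball x₀ s, ENNReal.ofReal |f y - f z| ∂μHE[n] ∂μHE[n] ≤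
      ENNReal.ofReal (4 * s * (Real.exp (2 * κ * s ^ 2) * 2 ^ n)) *
        (μHE[n] : Measure M) (ball x₀ s) *
        ∫⁻ y in ball x₀ (2 * s), ENNReal.ofReal (√(Bo84.mGam n f f y)) ∂μHE[n] := by
  obtain ⟨C⟩ := rad_of hκ hric
  have := HR216.properSpace_of_riemannian n M
  have := isLocallyFinite_muHE n M
  exact dbl_one C hκ (LG_mGam hf) x₀ hs

/-- **L-PO**, exponent two. -/
theorem l_po_two (hκ : 0 ≤ κ) (hric : HasRicciLowerBound n M (-κ))
    (hf : ContMDiff (𝓡 n) 𝓘(ℝ) 1 f) (x₀ : M) {s : ℝ} (hs : 0 < s) :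
    ∫⁻ y in ball x₀ s, ∫⁻ z in ball x₀ s, ENNReal.ofReal ((f y - f z) ^ 2) ∂μHE[n] ∂μHE[n] ≤
      ENNReal.ofReal (8 * s ^ 2 * (Real.exp (2 * κ * s ^ 2) * 2 ^ n)) *
        (μHE[n] : Measure M) (ball x₀ s) *
        ∫⁻ y in ball x₀ (2 * s), ENNReal.ofReal (Bo84.mGam n f f y) ∂μHE[n] := by
  obtain ⟨C⟩ := rad_of hκ hric
  have := HR216.properSpace_of_riemannian n M
  have := isLocallyFinite_muHE n M
  have h := dbl_two C hκ (LG_mGam hf) x₀ hs
  simpa only [Real.sq_sqrt (mGam_nonneg (n := n) f _)] using h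

omit [ConnectedSpace M] in
variable (n) in
theorem ball_ne_top (x₀ : M) (s : ℝ) : (μHE[n] : Measure M) (ball x₀ s) ≠ ⊤ := by
  have := HR216.properSpace_of_riemannian n M
  have := isLocallyFinite_muHE n M
  exact measure_ball_lt_top.ne

omit [ConnectedSpace M] in
theorem integrableOn_ball {g : M → ℝ} (hg : Continuous g) (x₀ : M) (s : ℝ) :
    IntegrableOn g (ball x₀ s) (μHE[n] : Measure M) := by
  have := HR216.properSpace_of_riemannian n M
  have := isLocallyFinite_muHE n M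
  exact (hg.continuousOn.integrableOn_compact (isCompact_closedBall x₀ s)).mono_set
    ball_subset_closedBall

omit [ConnectedSpace M] in
/-- a double integral over a ball, in `ℝ≥0∞` -/
theorem ofReal_dbl {F : M → M → ℝ} (hF : Continuous fun p : M × M => F p.1 p.2)
    (h0 : ∀ y z, 0 ≤ F y z) (x₀ : M) (s : ℝ) :
    ENNReal.ofReal (∫ y in ball x₀ s, ∫ z in ball x₀ s, F y z ∂μHE[n] ∂μHE[n]) =
      ∫⁻ y in ball x₀ s, ∫⁻ z in ball x₀ s, ENNReal.ofReal (F y z) ∂μHE[n] ∂μHE[n] := by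
  have := HR216.properSpace_of_riemannian n M
  have := isLocallyFinite_muHE n M
  set μ : Measure M := μHE[n] with hμ
  set B := ball x₀ s with hB
  have hI : Integrable (fun p : M × M => F p.1 p.2) ((μ.restrict B).prod (μ.restrict B)) := by
    rw [Measure.prod_restrict]
    exact (hF.continuousOn.integrableOn_compact
      ((isCompact_closedBall x₀ s).prod (isCompact_closedBall x₀ s))).mono_set
      (prod_mono ball_subset_closedBall ball_subset_closedBall)
  rw [ofReal_integral_eq_lintegral_ofReal hI.integral_prod_left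
    (Eventually.of_forall fun y => integral_nonneg (h0 y))]
  refine lintegral_congr fun y => ?_
  refine ofReal_integral_eq_lintegral_ofReal ?_ (Eventually.of_forall (h0 y))
  exact integrableOn_ball (hF.comp (Continuous.prodMk continuous_const continuous_id)) x₀ s

omit [ConnectedSpace M] in
theorem ofReal_sgl {g : M → ℝ} (hg : Continuous g) (h0 : ∀ y, 0 ≤ g y) (x₀ : M) (s : ℝ) :
    ENNReal.ofReal (∫ y in ball x₀ s, g y ∂μHE[n]) =
      ∫⁻ y in ball x₀ s, ENNReal.ofReal (g y) ∂μHE[n] :=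
  ofReal_integral_eq_lintegral_ofReal (integrableOn_ball hg x₀ s) (Eventually.of_forall h0)

theorem l_po_real (hκ : 0 ≤ κ) (hric : HasRicciLowerBound n M (-κ))
    (hf : ContMDiff (𝓡 n) 𝓘(ℝ) 1 f) (x₀ : M) {s : ℝ} (hs : 0 < s) :
    ∫ y in ball x₀ s, ∫ z in ball x₀ s, |f y - f z| ∂μHE[n] ∂μHE[n] ≤
      4 * s * (Real.exp (2 * κ * s ^ 2) * 2 ^ n) *
        (μHE[n] : Measure M).real (ball x₀ s) *
        ∫ y in ball x₀ (2 * s), √(Bo84.mGam n f f y) ∂μHE[n] := by
  have h := l_po hκ hric hf x₀ hs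
  have hc := hf.continuous
  rw [← ofReal_dbl (F := fun y z => |f y - f z|)
      ((hc.comp continuous_fst).sub (hc.comp continuous_snd)).abs (fun _ _ => abs_nonneg _),
    ← ofReal_sgl (continuous_mGam hf).sqrt (fun _ => Real.sqrt_nonneg _),
    ← ENNReal.ofReal_toReal (ball_ne_top n x₀ s), ← ENNReal.ofReal_mul (by positivity),
    ← ENNReal.ofReal_mul (by positivity)] at h
  refine (ENNReal.ofReal_le_ofReal_iff ?_).1 h
  have : 0 ≤ ∫ y in ball x₀ (2 * s), √(Bo84.mGam n f f y) ∂μHE[n] :=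
    integral_nonneg fun _ => Real.sqrt_nonneg _
  positivity

theorem l_po_two_real (hκ : 0 ≤ κ) (hric : HasRicciLowerBound n M (-κ))
    (hf : ContMDiff (𝓡 n) 𝓘(ℝ) 1 f) (x₀ : M) {s : ℝ} (hs : 0 < s) :
    ∫ y in ball x₀ s, ∫ z in ball x₀ s, (f y - f z) ^ 2 ∂μHE[n] ∂μHE[n] ≤
      8 * s ^ 2 * (Real.exp (2 * κ * s ^ 2) * 2 ^ n) *
        (μHE[n] : Measure M).real (ball x₀ s) *
        ∫ y in ball x₀ (2 * s), Bo84.mGam n f f y ∂μHE[n] := by
  have := HR216.properSpace_of_riemannian n M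
  have h := l_po_two hκ hric hf x₀ hs
  have hc := hf.continuous
  rw [← ofReal_dbl (F := fun y z => (f y - f z) ^ 2)
      (((hc.comp continuous_fst).sub (hc.comp continuous_snd)).pow 2) (fun _ _ => sq_nonneg _),
    ← ofReal_sgl (continuous_mGam hf) (mGam_nonneg (n := n) f),
    ← ENNReal.ofReal_toReal (ball_ne_top n x₀ s), ← ENNReal.ofReal_mul (by positivity),
    ← ENNReal.ofReal_mul (by positivity)] at h
  refine (ENNReal.ofReal_le_ofReal_iff ?_).1 h
  have : 0 ≤ ∫ y in ball x₀ (2 * s), Bo84.mGam n f f y ∂μHE[n] :=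
    integral_nonneg (mGam_nonneg (n := n) f)
  positivity

/-- **Neumann–Poincaré inequality**, exponent one. -/
theorem poinc (hκ : 0 ≤ κ) (hric : HasRicciLowerBound n M (-κ))
    (hf : ContMDiff (𝓡 n) 𝓘(ℝ) 1 f) (x₀ : M) {s : ℝ} (hs : 0 < s) :
    ∫⁻ y in ball x₀ s, ENNReal.ofReal |f y - ⨍ z in ball x₀ s, f z ∂μHE[n]| ∂μHE[n] ≤
      ENNReal.ofReal (4 * s * (Real.exp (2 * κ * s ^ 2) * 2 ^ n)) *
        ∫⁻ y in ball x₀ (2 * s), ENNReal.ofReal (√(Bo84.mGam n f f y)) ∂μHE[n] := by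
  obtain ⟨C⟩ := rad_of hκ hric
  have := HR216.properSpace_of_riemannian n M
  have := isLocallyFinite_muHE n M
  exact poinc_one C hκ (LG_mGam hf) x₀ hs (ball_ne_top n x₀ s)
    (integrableOn_ball hf.continuous x₀ s)

/-- **Neumann–Poincaré inequality**, exponent two. -/
theorem poinc_sq (hκ : 0 ≤ κ) (hric : HasRicciLowerBound n M (-κ))
    (hf : ContMDiff (𝓡 n) 𝓘(ℝ) 1 f) (x₀ : M) {s : ℝ} (hs : 0 < s) :
    ∫⁻ y in ball x₀ s, ENNReal.ofReal ((f y - ⨍ z in ball x₀ s, f z ∂μHE[n]) ^ 2) ∂μHE[n] ≤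
      ENNReal.ofReal (8 * s ^ 2 * (Real.exp (2 * κ * s ^ 2) * 2 ^ n)) *
        ∫⁻ y in ball x₀ (2 * s), ENNReal.ofReal (Bo84.mGam n f f y) ∂μHE[n] := by
  obtain ⟨C⟩ := rad_of hκ hric
  have := HR216.properSpace_of_riemannian n M
  have := isLocallyFinite_muHE n M
  have h := poinc_two C hκ (LG_mGam hf) x₀ hs (ball_ne_top n x₀ s)
    (integrableOn_ball hf.continuous x₀ s) (integrableOn_ball (hf.continuous.pow 2) x₀ s)
  simpa only [Real.sq_sqrt (mGam_nonneg (n := n) f _)] using h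

theorem poinc_real (hκ : 0 ≤ κ) (hric : HasRicciLowerBound n M (-κ))
    (hf : ContMDiff (𝓡 n) 𝓘(ℝ) 1 f) (x₀ : M) {s : ℝ} (hs : 0 < s) :
    ∫ y in ball x₀ s, |f y - ⨍ z in ball x₀ s, f z ∂μHE[n]| ∂μHE[n] ≤
      4 * s * (Real.exp (2 * κ * s ^ 2) * 2 ^ n) *
        ∫ y in ball x₀ (2 * s), √(Bo84.mGam n f f y) ∂μHE[n] := by
  have h := poinc hκ hric hf x₀ hs
  rw [← ofReal_sgl (g := fun y => |f y - ⨍ z in ball x₀ s, f z ∂μHE[n]|)
      (hf.continuous.sub continuous_const).abs (fun _ => abs_nonneg _),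
    ← ofReal_sgl (continuous_mGam hf).sqrt (fun _ => Real.sqrt_nonneg _),
    ← ENNReal.ofReal_mul (by positivity)] at h
  refine (ENNReal.ofReal_le_ofReal_iff ?_).1 h
  have : 0 ≤ ∫ y in ball x₀ (2 * s), √(Bo84.mGam n f f y) ∂μHE[n] :=
    integral_nonneg fun _ => Real.sqrt_nonneg _
  positivity

theorem poinc_sq_real (hκ : 0 ≤ κ) (hric : HasRicciLowerBound n M (-κ))
    (hf : ContMDiff (𝓡 n) 𝓘(ℝ) 1 f) (x₀ : M) {s : ℝ} (hs : 0 < s) :
    ∫ y in ball x₀ s, (f y - ⨍ z in ball x₀ s, f z ∂μHE[n]) ^ 2 ∂μHE[n] ≤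
      8 * s ^ 2 * (Real.exp (2 * κ * s ^ 2) * 2 ^ n) *
        ∫ y in ball x₀ (2 * s), Bo84.mGam n f f y ∂μHE[n] := by
  have := HR216.properSpace_of_riemannian n M
  have h := poinc_sq hκ hric hf x₀ hs
  rw [← ofReal_sgl (g := fun y => (f y - ⨍ z in ball x₀ s, f z ∂μHE[n]) ^ 2)
      ((hf.continuous.sub continuous_const).pow 2) (fun _ => sq_nonneg _),
    ← ofReal_sgl (continuous_mGam hf) (mGam_nonneg (n := n) f),
    ← ENNReal.ofReal_mul (by positivity)] at h
  refine (ENNReal.ofReal_le_ofReal_iff ?_).1 h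
  have : 0 ≤ ∫ y in ball x₀ (2 * s), Bo84.mGam n f f y ∂μHE[n] :=
    integral_nonneg (mGam_nonneg (n := n) f)
  positivity

end main

end Crest.Agent.R249.LPO_897
end
end

-- ▼ part R249/Grn6_324

/-!
# R249 (helper324), PDE layer, file 10: Poincaré and the Poisson equation on closed `M`

* `exists_ricciLowerBound`: a closed manifold has `Ric ≥ -κ` for some `κ ≥ 0`;
* `poincare_closed`, `exists_poincare`: `∫ f = 0` ⇒ `∫ f² ≤ C ∫ |df|²`;
* `lichnerowicz`: `Ric ≥ K > 0`: `n K ∫ f² ≤ (n-1) ∫ |df|²` if `∫ f = 0`;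
* `exists_poisson`: `∫ g = 0` ⇒ `mLap u = g` has a smooth solution with `∫ u = 0` (unique:
  `unique_poisson`).
-/

set_option autoImplicit false
set_option maxSynthPendingDepth 3
set_option linter.unusedSectionVars false

open Bundle Set MeasureTheory Manifold Filter Metric
open scoped ContDiff Topology NNReal
open Crest.GeometryTopology.CoordMetric Crest.GeometryTopology.ChartCurvature
  Crest.GeometryTopology.PointedLimit
open Crest.Agent.R247.Bo84
open Crest.Agent.R247.Ms322 hiding isRiemannianOn_chartMetric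

noncomputable section

namespace Crest.Agent.R249.Grn324

variable {n : ℕ} {M : Type*} [MetricSpace M] [ChartedSpace (EuclideanSpace ℝ (Fin n)) M]
  [IsManifold (𝓡 n) ∞ M]
  [RiemannianBundle (fun p : M => TangentSpace (𝓡 n) p)]
  [IsContMDiffRiemannianBundle (𝓡 n) ∞ (EuclideanSpace ℝ (Fin n)) (fun p : M => TangentSpace (𝓡 n) p)]
  [IsRiemannianManifold (𝓡 n) M] [MeasurableSpace M] [BorelSpace M] [CompactSpace M]

local notation "𝔼" => EuclideanSpace ℝ (Fin n)

theorem vf_surj [Nonempty M] (z : M) (V : TangentSpace (𝓡 n) z) :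
    ∃ w : EuclideanSpace ℝ (Fin n), Crest.Agent.R247.Ib939.vf z w = V :=
  ⟨WithLp.toLp 2 fun j => inner ℝ V (fr z j),
    (mgrad_frame (Crest.Agent.R247.Ib939.fr_orth z) V).symm⟩

variable (n M) in
/-- a closed manifold has a lower Ricci bound -/
theorem exists_ricciLowerBound : ∃ κ : ℝ, 0 ≤ κ ∧ HasRicciLowerBound n M (-κ) := by
  have := secondCountable M
  rcases isEmpty_or_nonempty M with hM | hM
  · exact ⟨0, le_rfl, fun x => (hM.false x).elim⟩
  obtain ⟨C, hC⟩ := Crest.Agent.R247.Bs84.Ricf_bdd (n := n) (M := M) isCompact_univ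
  have hC0 : 0 ≤ C := (norm_nonneg _).trans (hC (Classical.arbitrary M) (mem_univ _))
  refine ⟨C, hC0, fun x v => ?_⟩
  have hc := centre_mem (n := n) x
  -- the tangent vector with coordinates `v`
  set V : TangentSpace (𝓡 n) x := dSy x (chartCentre n M x) v with hV
  have h1 : dCh x x V = v := by
    have h2 := dCh_dSy x hc v
    have h3 : (chartAt 𝔼 x).symm (chartCentre n M x) = x :=
      (chartAt 𝔼 x).left_inv (mem_chart_source 𝔼 x)
    rw [h3] at h2
    exact h2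
  obtain ⟨w, hw⟩ := vf_surj x V
  have h4 : mRic n x V V = ∑ i, ∑ j, ricci (chartMetric n M x) (chartCentre n M x) i j * v i * v j :=
    by rw [mRic, h1]
  have h5 : quadForm (chartMetric n M x) (chartCentre n M x) v = ‖V‖ ^ 2 := by
    rw [Crest.Agent.R202.Tens.quadForm_eq, ← real_inner_self_eq_norm_sq, inner_centre, h1]
  rw [← h4, h5, ← hw, Crest.Agent.R247.Ib939.norm_vf, ← Crest.Agent.R247.Ib939.inner_mv_Rf]
  have h6 := abs_real_inner_le_norm (Crest.Agent.R247.Hes124.mv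
    (Crest.Agent.R247.Ib939.Rf (n := n) x) w) w
  have h7 := Crest.Agent.R247.Hes124.norm_mv_le (Crest.Agent.R247.Ib939.Rf (n := n) x) w
  have h8 : ‖Crest.Agent.R247.Ib939.Rf (n := n) x‖ ≤ C := hC x (mem_univ _)
  have h9 := (abs_le.1 h6).1
  have h10 : ‖Crest.Agent.R247.Hes124.mv (Crest.Agent.R247.Ib939.Rf (n := n) x) w‖ * ‖w‖ ≤
      C * ‖w‖ ^ 2 := by
    calc _ ≤ (‖Crest.Agent.R247.Ib939.Rf (n := n) x‖ * ‖w‖) * ‖w‖ := by gcongr
      _ ≤ (C * ‖w‖) * ‖w‖ := by gcongr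
      _ = _ := by ring
  linarith

/-- **Lichnerowicz**: the first eigenvalue for `Ric ≥ K > 0`. -/
theorem lichnerowicz [PreconnectedSpace M] (hn : 2 ≤ n) {K : ℝ} (hK0 : 0 < K)
    (hK : HasRicciLowerBound n M K) {f : M → ℝ} (hf : ContMDiff (𝓡 n) 𝓘(ℝ) ∞ f)
    (h0 : ∫ z, f z ∂(μHE[n] : Measure M) = 0) :
    (n : ℝ) * K * ∫ z, f z ^ 2 ∂(μHE[n] : Measure M) ≤
      ((n : ℝ) - 1) * ∫ z, mGam n f f z ∂(μHE[n] : Measure M) := by
  have hn1 : (0 : ℝ) < (n : ℝ) - 1 := by
    have : (2 : ℝ) ≤ n := by exact_mod_cast hn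
    linarith
  have hn0 : (0 : ℝ) < n := by linarith
  have h1 := poincare_of_dual (n := n) (a := n * K / ((n : ℝ) - 1)) (by positivity)
    (fun φ hφ => by
      have h2 := integral_mGam_le_of_ricci hK (by omega) hφ
      rw [div_mul_eq_mul_div, div_le_iff₀ hn1]
      linarith) hf h0
  rw [div_mul_eq_mul_div, div_le_iff₀ hn1] at h1
  linarith

/-- the mean value -/
theorem integral_sub_mean {f : M → ℝ} (hf : Continuous f) :
    ∫ z, (f z - ⨍ y, f y ∂(μHE[n] : Measure M)) ∂(μHE[n] : Measure M) = 0 := by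
  have hfin := isFiniteMeasure n M
  rcases isEmpty_or_nonempty M with hM | hM
  · simp [Measure.eq_zero_of_isEmpty]
  have := secondCountable M
  have hopen := isOpenPosMeasure n M
  rw [integral_sub (integrable_cont (n := n) hf) (integrable_const _), integral_const,
    average_eq, smul_smul, mul_inv_cancel₀, one_smul, sub_self]
  have : 0 < (μHE[n] : Measure M) univ := isOpen_univ.measure_pos _ univ_nonempty
  exact (ENNReal.toReal_pos this.ne' (measure_ne_top _ _)).ne'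

/-- **the Poincaré inequality on a closed connected manifold.** -/
theorem poincare_closed [ConnectedSpace M] {κ : ℝ} (hκ : 0 ≤ κ)
    (hric : HasRicciLowerBound n M (-κ)) {s : ℝ} (hs : diam (univ : Set M) < s)
    {f : M → ℝ} (hf : ContMDiff (𝓡 n) 𝓘(ℝ) 1 f) (h0 : ∫ z, f z ∂(μHE[n] : Measure M) = 0) :
    ∫ z, f z ^ 2 ∂(μHE[n] : Measure M) ≤
      8 * s ^ 2 * (Real.exp (2 * κ * s ^ 2) * 2 ^ n) * ∫ z, mGam n f f z ∂(μHE[n] : Measure M) := by
  obtain ⟨x₀⟩ := (inferInstance : Nonempty M)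
  have hs0 : 0 < s := diam_nonneg.trans_lt hs
  have hball : ∀ r, s ≤ r → ball x₀ r = univ := by
    intro r hr
    refine eq_univ_of_forall fun y => ?_
    rw [mem_ball]
    exact ((dist_le_diam_of_mem isCompact_univ.isBounded (mem_univ y) (mem_univ x₀)).trans_lt
      hs).trans_le hr
  have h1 := LPO_897.poinc_sq_real (n := n) hκ hric hf x₀ hs0
  rw [hball s le_rfl, hball (2 * s) (by linarith), Measure.restrict_univ] at h1
  have h2 : ⨍ z, f z ∂(μHE[n] : Measure M) = 0 := by rw [average_eq, h0, smul_zero]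
  simpa only [h2, sub_zero] using h1

variable (n M) in
/-- a closed connected manifold has a Poincaré constant -/
theorem exists_poincare [ConnectedSpace M] : ∃ C : ℝ, 0 < C ∧
    ∀ f : M → ℝ, ContMDiff (𝓡 n) 𝓘(ℝ) 1 f → ∫ z, f z ∂(μHE[n] : Measure M) = 0 →
      ∫ z, f z ^ 2 ∂(μHE[n] : Measure M) ≤ C * ∫ z, mGam n f f z ∂(μHE[n] : Measure M) := by
  obtain ⟨κ, hκ, hric⟩ := exists_ricciLowerBound n M
  refine ⟨8 * (diam (univ : Set M) + 1) ^ 2 *
    (Real.exp (2 * κ * (diam (univ : Set M) + 1) ^ 2) * 2 ^ n), ?_, fun f hf h0 =>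
      poincare_closed hκ hric (lt_add_one _) hf h0⟩
  have : 0 ≤ diam (univ : Set M) := diam_nonneg
  positivity

/-- **the Poisson equation from a Poincaré inequality.** -/
theorem exists_poisson_of_poincare [ConnectedSpace M] {C : ℝ} (hC : 0 < C)
    (hP : ∀ f : M → ℝ, ContMDiff (𝓡 n) 𝓘(ℝ) 1 f → ∫ z, f z ∂(μHE[n] : Measure M) = 0 →
      ∫ z, f z ^ 2 ∂(μHE[n] : Measure M) ≤ C * ∫ z, mGam n f f z ∂(μHE[n] : Measure M))
    {g : M → ℝ} (hg : ContMDiff (𝓡 n) 𝓘(ℝ) ∞ g) (h0 : ∫ z, g z ∂(μHE[n] : Measure M) = 0) :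
    ∃ u : M → ℝ, ContMDiff (𝓡 n) 𝓘(ℝ) ∞ u ∧ (∀ p, mLap n u p = g p) ∧
      ∫ z, u z ∂(μHE[n] : Measure M) = 0 := by
  have hfin := isFiniteMeasure n M
  obtain ⟨u, hu, hw⟩ := exists_weak_of_apriori (n := n) (q := fun _ => 0) continuous_const
    hg.continuous (C := √(∫ z, g z ^ 2 ∂(μHE[n] : Measure M)) * C) (fun φ hφ => by
      set m := ⨍ y, φ y ∂(μHE[n] : Measure M) with hm
      have hφ0 : ContMDiff (𝓡 n) 𝓘(ℝ) ∞ fun z => φ z - m := hφ.sub contMDiff_const
      have hi0 : ∫ z, (φ z - m) ∂(μHE[n] : Measure M) = 0 := integral_sub_mean hφ.continuous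
      have e1 : ∀ z, mLap n (fun z => φ z - m) z = mLap n φ z := by
        intro z
        have h1 : mLap n (fun z => φ z - (fun _ => m) z) z = mLap n φ z - mLap n (fun _ => m) z :=
          mLap_sub ((hφ z).of_le two_le_inf) contMDiffAt_const
        rw [mLap_const, sub_zero] at h1
        exact h1
      have h1 : ∫ z, g z * φ z ∂(μHE[n] : Measure M) =
          ∫ z, g z * (φ z - m) ∂(μHE[n] : Measure M) := by
        have i1 : Integrable (fun z => g z * φ z) (μHE[n] : Measure M) :=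
          integrable_cont (n := n) (hg.continuous.mul hφ.continuous)
        have i2 : Integrable (fun z => g z * m) (μHE[n] : Measure M) :=
          integrable_cont (n := n) (hg.continuous.mul continuous_const)
        have h2 : ∫ z, g z * (φ z - m) ∂(μHE[n] : Measure M) =
            ∫ z, (g z * φ z - g z * m) ∂(μHE[n] : Measure M) := by
          refine integral_congr_ae (Eventually.of_forall fun z => ?_)
          simp only
          ring
        rw [h2, integral_sub i1 i2, integral_mul_const, h0, zero_mul, sub_zero]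
      have h2 := abs_integral_mul_le (n := n) hg.continuous hφ0.continuous
      have h3 := hP _ (hφ0.of_le (by simp)) hi0
      have h4 := integral_mul_mLap (n := n) (hφ0.of_le two_le_inf)
        (hφ0.of_le (by simp) : ContMDiff (𝓡 n) 𝓘(ℝ) 1 _)
      have hcL : Continuous fun z => mLap n φ z - 0 * φ z := continuous_op (n := n) continuous_const hφ
      have h5 := abs_integral_mul_le (n := n) hφ0.continuous hcL
      simp only [e1] at h4
      have h6 : ∫ z, (φ z - m) * (mLap n φ z - 0 * φ z) ∂(μHE[n] : Measure M) =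
          - ∫ z, mGam n (fun z => φ z - m) (fun z => φ z - m) z ∂(μHE[n] : Measure M) := by
        rw [← h4]
        refine integral_congr_ae (Eventually.of_forall fun z => ?_)
        simp only
        ring
      rw [h6, abs_neg] at h5
      set A := √(∫ z, (φ z - m) ^ 2 ∂(μHE[n] : Measure M)) with hA
      set B := √(∫ z, (mLap n φ z - 0 * φ z) ^ 2 ∂(μHE[n] : Measure M)) with hB
      have hA0 : 0 ≤ A := Real.sqrt_nonneg _
      have hB0 : 0 ≤ B := Real.sqrt_nonneg _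
      have hA2 : A ^ 2 = ∫ z, (φ z - m) ^ 2 ∂(μHE[n] : Measure M) :=
        sq_sqrt_integral fun z => sq_nonneg _
      have h7 : A ^ 2 ≤ C * (A * B) := by
        rw [hA2]
        exact h3.trans (mul_le_mul_of_nonneg_left ((le_abs_self _).trans h5) hC.le)
      have h8 : A ≤ C * B := by
        rcases hA0.eq_or_lt with h | h
        · rw [← h]; positivity
        · have : A * A ≤ A * (C * B) := by nlinarith
          exact le_of_mul_le_mul_left this h
      rw [h1]
      calc _ ≤ √(∫ z, g z ^ 2 ∂(μHE[n] : Measure M)) * A := h2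
        _ ≤ √(∫ z, g z ^ 2 ∂(μHE[n] : Measure M)) * (C * B) := by gcongr
        _ = _ := by ring)
  obtain ⟨v, hv, -, hve⟩ := weak_regularity0 (n := n) (hu.integrable (by norm_num)) hg
    (fun φ hφ => by simpa using hw φ hφ)
  refine ⟨fun z => v z - ⨍ y, v y ∂(μHE[n] : Measure M), hv.sub contMDiff_const, fun p => ?_,
    integral_sub_mean hv.continuous⟩
  have h1 : mLap n (fun z => v z - (fun _ => ⨍ y, v y ∂(μHE[n] : Measure M)) z) p =
      mLap n v p - mLap n (fun _ => ⨍ y, v y ∂(μHE[n] : Measure M)) p :=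
    mLap_sub ((hv p).of_le two_le_inf) contMDiffAt_const
  rw [mLap_const, sub_zero, hve] at h1
  exact h1

/-- **the Poisson equation on a closed connected manifold.** -/
theorem exists_poisson [ConnectedSpace M] {g : M → ℝ} (hg : ContMDiff (𝓡 n) 𝓘(ℝ) ∞ g)
    (h0 : ∫ z, g z ∂(μHE[n] : Measure M) = 0) :
    ∃ u : M → ℝ, ContMDiff (𝓡 n) 𝓘(ℝ) ∞ u ∧ (∀ p, mLap n u p = g p) ∧
      ∫ z, u z ∂(μHE[n] : Measure M) = 0 := by
  obtain ⟨C, hC, hP⟩ := exists_poincare n M
  exact exists_poisson_of_poincare hC hP hg h0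

/-- uniqueness up to constants -/
theorem unique_poisson [ConnectedSpace M] {u v : M → ℝ} (hu : ContMDiff (𝓡 n) 𝓘(ℝ) ∞ u)
    (hv : ContMDiff (𝓡 n) 𝓘(ℝ) ∞ v) (h : ∀ p, mLap n u p = mLap n v p) (p q : M) :
    u p - v p = u q - v q :=
  const_of_mLap_zero (f := fun z => u z - v z) (hu.sub hv) (fun z => by
    rw [mLap_sub ((hu z).of_le two_le_inf) ((hv z).of_le two_le_inf), h, sub_self]) p q

end Crest.Agent.R249.Grn324
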