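import Crest.Agent.R249.SgD_129
import Crest.Agent.R247.Bo3_84
import Crest.Agent.R249.Vf3_281

-- ▼ part R249/DicA_129
section

/-!
Row 249, leaf DIC (helper129), part 1: total germs `tg f` (junk `0` if `f` is not smooth at `x`) and
the components `h.vt V k` of a vector field of the chart in an orthonormal frame `h : ONF g U x e`,
with the dictionary for sums, products, inner products, gradients, covariant derivatives,
divergence, curvature.
-/

set_option autoImplicit false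
set_option linter.unusedSectionVars false

open scoped ContDiff Topology
open Filter Set Finset
open Crest.GeometryTopology.CoordMetric Crest.GeometryTopology.ChartCurvature
open Crest.Agent.R202.Tens Crest.Agent.R247.Bo84
open Crest.Agent.R249.Fr129

noncomputable section

namespace Crest.Agent.R249.Sg129

variable {n : ℕ}

local notation "𝔼" => EuclideanSpace ℝ (Fin n)

variable {x : EuclideanSpace ℝ (Fin n)}

open Classical in
/-- total germ: the germ of `f` at `x`, and `0` if `f` is not smooth at `x`. -/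
def tg (f : EuclideanSpace ℝ (Fin n) → ℝ) : SG x :=
  if hf : ContDiffAt ℝ ∞ f x then germ f hf else 0

lemma tg_eq {f : 𝔼 → ℝ} (hf : ContDiffAt ℝ ∞ f x) : tg f = germ f hf := dif_pos hf

lemma tg_congr {f f' : 𝔼 → ℝ} (h : f =ᶠ[𝓝 x] f') : (tg f : SG x) = tg f' := by
  by_cases hf : ContDiffAt ℝ ∞ f x
  · have hf' : ContDiffAt ℝ ∞ f' x := hf.congr_of_eventuallyEq h.symm
    rw [tg_eq hf, tg_eq hf']
    exact germ_eq h
  · have hf' : ¬ ContDiffAt ℝ ∞ f' x := fun h' => hf (h'.congr_of_eventuallyEq h)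
    rw [tg, tg, dif_neg hf, dif_neg hf']

lemma tg_eq_iff {f f' : 𝔼 → ℝ} (hf : ContDiffAt ℝ ∞ f x) (hf' : ContDiffAt ℝ ∞ f' x) :
    (tg f : SG x) = tg f' ↔ f =ᶠ[𝓝 x] f' := by
  rw [tg_eq hf, tg_eq hf', germ_eq_iff]

lemma ev_tg {f : 𝔼 → ℝ} (hf : ContDiffAt ℝ ∞ f x) : ev (tg f : SG x) = f x := by
  rw [tg_eq hf, ev_germ]


lemma tg_const (c : ℝ) : (tg (fun _ => c) : SG x) = algebraMap ℝ (SG x) c := by
  rw [tg_eq contDiffAt_const, algebraMap_eq]

lemma tg_zero : (tg (fun _ => 0) : SG x) = 0 := by rw [tg_const, map_zero]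

lemma tg_one : (tg (fun _ => 1) : SG x) = 1 := by rw [tg_const, map_one]

lemma tg_add {f f' : 𝔼 → ℝ} (hf : ContDiffAt ℝ ∞ f x) (hf' : ContDiffAt ℝ ∞ f' x) :
    (tg (fun y => f y + f' y) : SG x) = tg f + tg f' := by
  rw [tg_eq hf, tg_eq hf', tg_eq (hf.add hf'), germ_add]

lemma tg_sub {f f' : 𝔼 → ℝ} (hf : ContDiffAt ℝ ∞ f x) (hf' : ContDiffAt ℝ ∞ f' x) :
    (tg (fun y => f y - f' y) : SG x) = tg f - tg f' := by
  rw [tg_eq hf, tg_eq hf', tg_eq (hf.sub hf'), germ_sub]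

lemma tg_neg {f : 𝔼 → ℝ} (hf : ContDiffAt ℝ ∞ f x) :
    (tg (fun y => - f y) : SG x) = - tg f := by
  rw [tg_eq hf, tg_eq hf.neg, germ_neg]

lemma tg_mul {f f' : 𝔼 → ℝ} (hf : ContDiffAt ℝ ∞ f x) (hf' : ContDiffAt ℝ ∞ f' x) :
    (tg (fun y => f y * f' y) : SG x) = tg f * tg f' := by
  rw [tg_eq hf, tg_eq hf', tg_eq (hf.mul hf'), germ_mul]

lemma tg_smul (c : ℝ) {f : 𝔼 → ℝ} (hf : ContDiffAt ℝ ∞ f x) :
    (tg (fun y => c * f y) : SG x) = c • tg f := by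
  rw [tg_eq hf, tg_eq (contDiffAt_const.mul hf), smul_germ]

lemma tg_sum {ι : Type*} (s : Finset ι) {f : ι → 𝔼 → ℝ} (hf : ∀ i, ContDiffAt ℝ ∞ (f i) x) :
    (tg (fun y => ∑ i ∈ s, f i y) : SG x) = ∑ i ∈ s, tg (f i) := by
  rw [tg_eq (ContDiffAt.sum fun i _ => hf i), ← germ_sum s hf]
  exact Finset.sum_congr rfl fun i _ => (tg_eq (hf i)).symm

variable {g : MetricField n} {U : Set (EuclideanSpace ℝ (Fin n))}
  {e : Fin n → EuclideanSpace ℝ (Fin n) → EuclideanSpace ℝ (Fin n)}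

/-- smooth fields are differentiable near the point -/
lemma ev_diffV {V : 𝔼 → 𝔼} (hV : ContDiffAt ℝ ∞ V x) : ∀ᶠ y in 𝓝 x, DifferentiableAt ℝ V y := by
  filter_upwards [(hV.of_le (m := 1) (WithTop.coe_le_coe.2 le_top)).eventually (by norm_num)]
    with y hy
  exact hy.differentiableAt (by norm_num)

namespace ONF

/-- components of a vector field of the chart in the frame (total) -/
def vt (_h : ONF g U x e) (V : EuclideanSpace ℝ (Fin n) → EuclideanSpace ℝ (Fin n)) (k : Fin n) :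
    SG x := tg (fun y => bil (g y) (V y) (e k y))

variable (h : ONF g U x e)
include h

lemma D_tg {f : 𝔼 → ℝ} (hf : ContDiffAt ℝ ∞ f x) (k : Fin n) :
    h.frameOf.D k (tg f) = tg (fun y => fderiv ℝ f y (e k y)) := by
  rw [tg_eq hf, h.D_germ, tg_eq]

lemma vt_germ {V : 𝔼 → 𝔼} (hV : ContDiffAt ℝ ∞ V x) (k : Fin n) :
    h.vt V k = germ (fun y => bil (g y) (V y) (e k y)) (h.cd_bil hV (h.smooth k)) := tg_eq _

lemma ev_vt {V : 𝔼 → 𝔼} (hV : ContDiffAt ℝ ∞ V x) (k : Fin n) :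
    ev (h.vt V k) = bil (g x) (V x) (e k x) := by
  rw [h.vt_germ hV, ev_germ]

lemma vt_congr {V W : 𝔼 → 𝔼} (hVW : V =ᶠ[𝓝 x] W) : h.vt V = h.vt W := by
  funext k
  refine tg_congr ?_
  filter_upwards [hVW] with y hy
  rw [hy]


lemma vt_add {V W : 𝔼 → 𝔼} (hV : ContDiffAt ℝ ∞ V x) (hW : ContDiffAt ℝ ∞ W x) (k : Fin n) :
    h.vt (fun y => V y + W y) k = h.vt V k + h.vt W k := by
  rw [vt, vt, vt, ← tg_add (h.cd_bil hV (h.smooth k)) (h.cd_bil hW (h.smooth k))]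
  congr 1
  funext y
  rw [map_add, _root_.add_apply]


lemma vt_neg {V : 𝔼 → 𝔼} (hV : ContDiffAt ℝ ∞ V x) (k : Fin n) :
    h.vt (fun y => - V y) k = - h.vt V k := by
  rw [vt, vt, ← tg_neg (h.cd_bil hV (h.smooth k))]
  congr 1
  funext y
  rw [map_neg, _root_.neg_apply]

lemma vt_smul {f : 𝔼 → ℝ} {V : 𝔼 → 𝔼} (hf : ContDiffAt ℝ ∞ f x) (hV : ContDiffAt ℝ ∞ V x)
    (k : Fin n) : h.vt (fun y => f y • V y) k = tg f * h.vt V k := by
  rw [vt, vt, ← tg_mul hf (h.cd_bil hV (h.smooth k))]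
  congr 1
  funext y
  rw [map_smul, _root_.smul_apply, smul_eq_mul]

lemma vt_csmul (c : ℝ) {V : 𝔼 → 𝔼} (hV : ContDiffAt ℝ ∞ V x)
    (k : Fin n) : h.vt (fun y => c • V y) k = c • h.vt V k := by
  rw [h.vt_smul contDiffAt_const hV, tg_const, Algebra.smul_def]

lemma vt_sum {ι : Type*} (s : Finset ι) {V : ι → 𝔼 → 𝔼} (hV : ∀ i, ContDiffAt ℝ ∞ (V i) x)
    (k : Fin n) : h.vt (fun y => ∑ i ∈ s, V i y) k = ∑ i ∈ s, h.vt (V i) k := by
  simp only [vt]
  rw [← tg_sum s fun i => h.cd_bil (hV i) (h.smooth k)]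
  congr 1
  funext y
  rw [map_sum, _root_.sum_apply]

/-- expansion in the frame near the point -/
lemma expand_ev (V : 𝔼 → 𝔼) : ∀ᶠ y in 𝓝 x, V y = ∑ k, bil (g y) (V y) (e k y) • e k y := by
  filter_upwards [h.isFrame, eventually_mem h.riem h.mem] with y hF hy
  exact hF.expand h.riem hy (V y)

/-- inner products -/
lemma vt_bil {V W : 𝔼 → 𝔼} (hV : ContDiffAt ℝ ∞ V x) (hW : ContDiffAt ℝ ∞ W x) :
    (tg (fun y => bil (g y) (V y) (W y)) : SG x) = ∑ k, h.vt V k * h.vt W k := by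
  rw [tg_eq (h.cd_bil hV hW)]
  simp only [h.vt_germ hV, h.vt_germ hW, germ_mul, germ_sum]
  refine germ_eq ?_
  filter_upwards [h.isFrame, eventually_mem h.riem h.mem] with y hF hy
  exact hF.bil_eq h.riem hy (V y) (W y)

lemma vt_frame (j k : Fin n) : h.vt (e j) k = if j = k then 1 else 0 := by
  have h1 : h.vt (e j) k = tg (fun _ => if j = k then 1 else 0) :=
    tg_congr (by filter_upwards [h.orth] with y hy using hy j k)
  rw [h1, tg_const]
  split_ifs <;> simp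




/-- gradient -/
lemma vt_grad {f : 𝔼 → ℝ} (hf : ContDiffAt ℝ ∞ f x) (k : Fin n) :
    h.vt (grad g f) k = h.frameOf.D k (tg f) := by
  rw [h.D_tg hf]
  refine tg_congr ?_
  filter_upwards [eventually_mem h.riem h.mem] with y hy
  exact bil_grad h.riem hy f (e k y)

lemma cd_covV {V W : 𝔼 → 𝔼} (hV : ContDiffAt ℝ ∞ V x) (hW : ContDiffAt ℝ ∞ W x) :
    ContDiffAt ℝ ∞ (fun y => cov g V y (W y)) x :=
  (contDiffAt_cov h.riem h.mem (m := ∞) hV (by simp) le_rfl).clm_apply hW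

/-- **covariant derivative** -/
theorem vt_cov {V W : 𝔼 → 𝔼} (hV : ContDiffAt ℝ ∞ V x) (hW : ContDiffAt ℝ ∞ W x) (j : Fin n) :
    h.vt (fun y => cov g V y (W y)) j
      = ∑ k, h.vt W k * h.frameOf.cov h.frameOf.tan k (h.vt V) j := by
  rw [h.vt_germ (h.cd_covV hV hW)]
  have e1 : ∀ k, h.frameOf.cov h.frameOf.tan k (h.vt V) j
      = germ _ (h.cd_D (h.cd_bil hV (h.smooth j)) k)
        + ∑ a, germ _ (h.cd_bil (h.cd_cov a k) (h.smooth j)) *
          germ _ (h.cd_bil hV (h.smooth a)) := by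
    intro k
    rw [Frame.cov, h.vt_germ hV, h.D_germ]
    congr 1
    refine Finset.sum_congr rfl fun a _ => ?_
    rw [Frame.tan, h.w_germ, h.vt_germ hV]
  simp only [e1, h.vt_germ hW, germ_mul, germ_sum, germ_add]
  refine germ_eq ?_
  filter_upwards [h.isFrame, eventually_mem h.riem h.mem, h.expand_ev W, ev_diffV hV,
    ev_diffV (h.smooth j), h.orth.eventually_nhds, eventually_all.2 fun a => ev_diffV (h.smooth a)]
    with y hF hy hWy hVd hjd horth had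
  have h1 : ∀ X : 𝔼, bil (g y) (cov g V y X) (e j y)
      = fderiv ℝ (fun z => bil (g z) (V z) (e j z)) y X - bil (g y) (V y) (cov g (e j) y X) := by
    intro X
    rw [fderiv_bil h.riem hy hVd hjd X]; ring
  have h2 : ∀ (a : Fin n) (X : 𝔼), bil (g y) (cov g (e a) y X) (e j y)
      = - bil (g y) (e a y) (cov g (e j) y X) := by
    intro a X
    have h3 := fderiv_bil h.riem hy (had a) hjd X
    have h4 : (fun z => bil (g z) (e a z) (e j z)) =ᶠ[𝓝 y] fun _ => if a = j then (1:ℝ) else 0 := by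
      filter_upwards [horth] with z hz using hz a j
    rw [h4.fderiv_eq, fderiv_fun_const] at h3
    simp only [Pi.zero_apply, _root_.zero_apply] at h3
    linarith
  have h5 : ∀ X : 𝔼, bil (g y) (V y) (cov g (e j) y X)
      = ∑ a, bil (g y) (V y) (e a y) * bil (g y) (e a y) (cov g (e j) y X) := by
    intro X
    conv_lhs => rw [hF.expand h.riem hy (V y)]
    rw [map_sum, _root_.sum_apply]
    exact Finset.sum_congr rfl fun a _ => by rw [map_smul, _root_.smul_apply, smul_eq_mul]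
  have h6 : ∀ X : 𝔼, bil (g y) (cov g V y X) (e j y)
      = fderiv ℝ (fun z => bil (g z) (V z) (e j z)) y X
        + ∑ a, bil (g y) (cov g (e a) y X) (e j y) * bil (g y) (V y) (e a y) := by
    intro X
    rw [h1, h5, sub_eq_add_neg, ← Finset.sum_neg_distrib]
    congr 1
    refine Finset.sum_congr rfl fun a _ => ?_
    rw [h2]; ring
  rw [show bil (g y) (cov g V y (W y)) (e j y) = ∑ k, bil (g y) (W y) (e k y)
      * bil (g y) (cov g V y (e k y)) (e j y) from ?_]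
  · exact Finset.sum_congr rfl fun k _ => by rw [h6]
  · conv_lhs => rw [hWy]
    rw [map_sum, map_sum, _root_.sum_apply]
    exact Finset.sum_congr rfl fun k _ => by
      rw [map_smul, map_smul, _root_.smul_apply, smul_eq_mul]

/-- covariant derivative in a frame direction -/
lemma vt_cov_frame {V : 𝔼 → 𝔼} (hV : ContDiffAt ℝ ∞ V x) (k j : Fin n) :
    h.vt (fun y => cov g V y (e k y)) j = h.frameOf.cov h.frameOf.tan k (h.vt V) j := by
  rw [h.vt_cov hV (h.smooth k)]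
  simp only [h.vt_frame]
  simp

lemma cd_divg {V : 𝔼 → 𝔼} (hV : ContDiffAt ℝ ∞ V x) : ContDiffAt ℝ ∞ (divg g V) x :=
  contDiffAt_divg h.riem h.mem (a := ∞) hV (by simp) (by simp)

/-- divergence -/
theorem tg_divg {V : 𝔼 → 𝔼} (hV : ContDiffAt ℝ ∞ V x) :
    (tg (divg g V) : SG x) = ∑ k, h.frameOf.cov h.frameOf.tan k (h.vt V) k := by
  rw [tg_eq (h.cd_divg hV)]
  simp only [← h.vt_cov_frame hV]
  simp only [fun k => h.vt_germ (h.cd_covV hV (h.smooth k)) k, germ_sum]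
  refine germ_eq ?_
  filter_upwards [h.isFrame, eventually_mem h.riem h.mem, ev_diffV hV] with y hF hy hVd
  rw [divg_eq_trL h.riem hy hVd, hF.trL_eq h.riem hy]



end ONF

end Crest.Agent.R249.Sg129
end
end

-- ▼ part R249/DicB_129

/-!
Row 249, leaf DIC (helper129), part 2: the ring dictionary on a manifold.  For
`h : ONF (chartMetric n M z) (chartAt 𝔼 z).target y e`:

* `fg z f : SG y`  = germ at `y` of `f` read in the chart at `z`;
* `h.vg X k : SG y` = germ at `y` of `⟨X, e_k⟩` read in the chart at `z`.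

All lemmas hold at every point `y` of the target of the chart; `y = chartCentre n M z` gives the
values at `z`.
-/

set_option autoImplicit false
set_option maxSynthPendingDepth 3
set_option linter.unusedSectionVars false

open scoped ContDiff Topology Manifold
open Filter Set Bundle
open Crest.GeometryTopology.CoordMetric Crest.GeometryTopology.ChartCurvature
  Crest.GeometryTopology.PointedLimit
open Crest.Agent.R202.Tens
open Crest.Agent.R247.Bo84 Crest.Agent.R249.Vf281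
open Crest.Agent.R249.Fr129

noncomputable section

namespace Crest.Agent.R249.Sg129

variable {n : ℕ} {M : Type*} [TopologicalSpace M] [ChartedSpace (EuclideanSpace ℝ (Fin n)) M]
  [IsManifold 𝓘(ℝ, EuclideanSpace ℝ (Fin n)) ∞ M]
  [RiemannianBundle (fun x : M => TangentSpace 𝓘(ℝ, EuclideanSpace ℝ (Fin n)) x)]
  [IsContMDiffRiemannianBundle 𝓘(ℝ, EuclideanSpace ℝ (Fin n)) ∞ (EuclideanSpace ℝ (Fin n))
      (fun x : M => TangentSpace 𝓘(ℝ, EuclideanSpace ℝ (Fin n)) x)]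

local notation "𝔼" => EuclideanSpace ℝ (Fin n)
local notation "𝓘E" => 𝓘(ℝ, EuclideanSpace ℝ (Fin n))

/-! ### functions -/

/-- germ at `y` of a function on `M` read in the chart at `z` -/
def fg (z : M) {y : EuclideanSpace ℝ (Fin n)} (f : M → ℝ) : SG y := tg (inCh n z f)

variable {z : M} {y : EuclideanSpace ℝ (Fin n)} {f f' : M → ℝ}
  {X Y : (p : M) → TangentSpace 𝓘(ℝ, EuclideanSpace ℝ (Fin n)) p}

/-- smoothness in the chart -/
lemma sf (hy : y ∈ (chartAt 𝔼 z).target) (hf : ContMDiff 𝓘E 𝓘(ℝ, ℝ) ∞ f) :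
    ContDiffAt ℝ ∞ (inCh n z f) y := contDiffAt_inCh le_rfl hy (hf _)

lemma sv (hy : y ∈ (chartAt 𝔼 z).target) (hX : ∀ q, VSm n ∞ X q) :
    ContDiffAt ℝ ∞ (vCh n z X) y := VSm.chart le_rfl hy (hX _)

lemma ev_fg_at (hf : ContDiffAt ℝ ∞ (inCh n z f) y) :
    ev (fg z f : SG y) = f ((chartAt 𝔼 z).symm y) := ev_tg hf

lemma ev_fg (hf : ContMDiff 𝓘E 𝓘(ℝ, ℝ) ∞ f) : ev (fg z f : SG (chartCentre n M z)) = f z := by
  rw [ev_fg_at (sf (centre_mem z) hf)]
  exact inCh_centre f z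

lemma fg_congr (h1 : ∀ᶠ w in 𝓝 y, f ((chartAt 𝔼 z).symm w) = f' ((chartAt 𝔼 z).symm w)) :
    (fg z f : SG y) = fg z f' := tg_congr h1

lemma fg_eq_iff_at (hf : ContDiffAt ℝ ∞ (inCh n z f) y) (hf' : ContDiffAt ℝ ∞ (inCh n z f') y) :
    (fg z f : SG y) = fg z f' ↔
      ∀ᶠ w in 𝓝 y, f ((chartAt 𝔼 z).symm w) = f' ((chartAt 𝔼 z).symm w) := tg_eq_iff hf hf'

lemma fg_const (c : ℝ) : (fg z (fun _ => c) : SG y) = algebraMap ℝ (SG y) c := tg_const c

lemma fg_zero : (fg z (fun _ => (0:ℝ)) : SG y) = 0 := tg_zero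

lemma fg_one : (fg z (fun _ => (1:ℝ)) : SG y) = 1 := tg_one

lemma fg_add_at (hf : ContDiffAt ℝ ∞ (inCh n z f) y) (hf' : ContDiffAt ℝ ∞ (inCh n z f') y) :
    (fg z (fun q => f q + f' q) : SG y) = fg z f + fg z f' := tg_add hf hf'

lemma fg_sub_at (hf : ContDiffAt ℝ ∞ (inCh n z f) y) (hf' : ContDiffAt ℝ ∞ (inCh n z f') y) :
    (fg z (fun q => f q - f' q) : SG y) = fg z f - fg z f' := tg_sub hf hf'

lemma fg_neg_at (hf : ContDiffAt ℝ ∞ (inCh n z f) y) :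
    (fg z (fun q => - f q) : SG y) = - fg z f := tg_neg hf

lemma fg_mul_at (hf : ContDiffAt ℝ ∞ (inCh n z f) y) (hf' : ContDiffAt ℝ ∞ (inCh n z f') y) :
    (fg z (fun q => f q * f' q) : SG y) = fg z f * fg z f' := tg_mul hf hf'

lemma fg_smul_at (c : ℝ) (hf : ContDiffAt ℝ ∞ (inCh n z f) y) :
    (fg z (fun q => c * f q) : SG y) = c • fg z f := tg_smul c hf

lemma fg_sum_at {ι : Type*} (s : Finset ι) {F : ι → M → ℝ}
    (hF : ∀ i, ContDiffAt ℝ ∞ (inCh n z (F i)) y) :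
    (fg z (fun q => ∑ i ∈ s, F i q) : SG y) = ∑ i ∈ s, fg z (F i) := tg_sum s hF

lemma fg_add (hy : y ∈ (chartAt 𝔼 z).target) (hf : ContMDiff 𝓘E 𝓘(ℝ, ℝ) ∞ f)
    (hf' : ContMDiff 𝓘E 𝓘(ℝ, ℝ) ∞ f') :
    (fg z (fun q => f q + f' q) : SG y) = fg z f + fg z f' := fg_add_at (sf hy hf) (sf hy hf')

lemma fg_sub (hy : y ∈ (chartAt 𝔼 z).target) (hf : ContMDiff 𝓘E 𝓘(ℝ, ℝ) ∞ f)
    (hf' : ContMDiff 𝓘E 𝓘(ℝ, ℝ) ∞ f') :
    (fg z (fun q => f q - f' q) : SG y) = fg z f - fg z f' := fg_sub_at (sf hy hf) (sf hy hf')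

lemma fg_neg (hy : y ∈ (chartAt 𝔼 z).target) (hf : ContMDiff 𝓘E 𝓘(ℝ, ℝ) ∞ f) :
    (fg z (fun q => - f q) : SG y) = - fg z f := fg_neg_at (sf hy hf)

lemma fg_mul (hy : y ∈ (chartAt 𝔼 z).target) (hf : ContMDiff 𝓘E 𝓘(ℝ, ℝ) ∞ f)
    (hf' : ContMDiff 𝓘E 𝓘(ℝ, ℝ) ∞ f') :
    (fg z (fun q => f q * f' q) : SG y) = fg z f * fg z f' := fg_mul_at (sf hy hf) (sf hy hf')

lemma fg_smul (hy : y ∈ (chartAt 𝔼 z).target) (c : ℝ) (hf : ContMDiff 𝓘E 𝓘(ℝ, ℝ) ∞ f) :
    (fg z (fun q => c * f q) : SG y) = c • fg z f := fg_smul_at c (sf hy hf)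

lemma fg_sum (hy : y ∈ (chartAt 𝔼 z).target) {ι : Type*} (s : Finset ι) {F : ι → M → ℝ}
    (hF : ∀ i, ContMDiff 𝓘E 𝓘(ℝ, ℝ) ∞ (F i)) :
    (fg z (fun q => ∑ i ∈ s, F i q) : SG y) = ∑ i ∈ s, fg z (F i) := fg_sum_at s fun i => sf hy (hF i)

/-! ### fields: reading in the chart -/

lemma inCh_inner (hy : y ∈ (chartAt 𝔼 z).target) :
    inCh n z (fun q => (inner ℝ (X q) (Y q) : ℝ)) =ᶠ[𝓝 y]
      fun w => bil (chartMetric n M z w) (vCh n z X w) (vCh n z Y w) := by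
  filter_upwards [(chartAt 𝔼 z).open_target.mem_nhds hy] with w hw
  have h1 := inner_eq_bil (n := n) z ((chartAt 𝔼 z).map_target hw)
    (X ((chartAt 𝔼 z).symm w)) (Y ((chartAt 𝔼 z).symm w))
  rw [(chartAt 𝔼 z).right_inv hw] at h1
  exact h1

/-- the field `∇_Y X` in the chart -/
lemma vCh_mCov {w : 𝔼} (hw : w ∈ (chartAt 𝔼 z).target)
    (hX : VSm n 1 X ((chartAt 𝔼 z).symm w)) :
    vCh n z (fun q => mCov n X q (Y q)) w = cov (chartMetric n M z) (vCh n z X) w (vCh n z Y w) := by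
  have h1 := mCov_chart hw hX (vCh n z Y w)
  rw [dSy_vCh hw] at h1
  have h2 : vCh n z (fun q => mCov n X q (Y q)) w
      = dCh z ((chartAt 𝔼 z).symm w)
        (mCov n X ((chartAt 𝔼 z).symm w) (Y ((chartAt 𝔼 z).symm w))) := rfl
  rw [h2, h1, dCh_dSy z hw]

/-- smooth near a point of a chart -/
lemma VSm1_near (hy : y ∈ (chartAt 𝔼 z).target) (hX : ContDiffAt ℝ ∞ (vCh n z X) y) :
    ∀ᶠ w in 𝓝 y, w ∈ (chartAt 𝔼 z).target ∧ VSm n 1 X ((chartAt 𝔼 z).symm w) := by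
  have h1 : ∀ᶠ w in 𝓝 y, ContDiffAt ℝ 1 (vCh n z X) w :=
    (hX.of_le (m := 1) one_le_infty).eventually (by norm_num)
  filter_upwards [h1, (chartAt 𝔼 z).open_target.mem_nhds hy] with w hw hwt
  refine ⟨hwt, VSm.of_chart one_le_infty ((chartAt 𝔼 z).map_target hwt) ?_⟩
  rw [(chartAt 𝔼 z).right_inv hwt]
  exact hw

lemma vCh_mCov_ev (hy : y ∈ (chartAt 𝔼 z).target) (hX : ContDiffAt ℝ ∞ (vCh n z X) y) :
    vCh n z (fun q => mCov n X q (Y q)) =ᶠ[𝓝 y]
      fun w => cov (chartMetric n M z) (vCh n z X) w (vCh n z Y w) := by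
  filter_upwards [VSm1_near hy hX] with w hw
  exact vCh_mCov hw.1 hw.2

lemma cd_vCh_mCov (hy : y ∈ (chartAt 𝔼 z).target) (hX : ContDiffAt ℝ ∞ (vCh n z X) y)
    (hY : ContDiffAt ℝ ∞ (vCh n z Y) y) :
    ContDiffAt ℝ ∞ (vCh n z (fun q => mCov n X q (Y q))) y := by
  refine ContDiffAt.congr_of_eventuallyEq ?_ (vCh_mCov_ev hy hX)
  exact (contDiffAt_cov (isRiemannianOn_chartMetric (n := n) z) hy (m := ∞) hX (by simp)
    le_rfl).clm_apply hY

/-- **`∇_Y X` is smooth** -/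
theorem VSm_mCov {q : M} (hX : VSm n ∞ X q) (hY : VSm n ∞ Y q) :
    VSm n ∞ (fun q => mCov n X q (Y q)) q := cd_vCh_mCov (centre_mem q) hX hY

/-- **`⟨X, Y⟩` is smooth** -/
theorem contMDiffAt_inner {q : M} (hX : VSm n ∞ X q) (hY : VSm n ∞ Y q) :
    ContMDiffAt 𝓘E 𝓘(ℝ, ℝ) ∞ (fun q => (inner ℝ (X q) (Y q) : ℝ)) q := by
  refine contMDiffAt_of_inCh (x₀ := q) le_rfl (mem_chart_source 𝔼 q) ?_
  refine ContDiffAt.congr_of_eventuallyEq ?_ (inCh_inner (z := q) (centre_mem q))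
  have hg := isRiemannianOn_chartMetric (n := n) q
  simp only [bil_apply]
  refine ContDiffAt.sum fun a _ => ContDiffAt.sum fun b _ => ?_
  exact ((contDiffAt_entry hg (centre_mem q) a b).mul
    ((EuclideanSpace.proj a : EuclideanSpace ℝ (Fin n) →L[ℝ] ℝ).contDiff.contDiffAt.comp _ hX)).mul
    ((EuclideanSpace.proj b : EuclideanSpace ℝ (Fin n) →L[ℝ] ℝ).contDiff.contDiffAt.comp _ hY)

theorem contMDiff_inner (hX : ∀ q, VSm n ∞ X q) (hY : ∀ q, VSm n ∞ Y q) :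
    ContMDiff 𝓘E 𝓘(ℝ, ℝ) ∞ (fun q => (inner ℝ (X q) (Y q) : ℝ)) :=
  fun q => contMDiffAt_inner (hX q) (hY q)

theorem contMDiff_mDiv (hX : ∀ q, VSm n ∞ X q) : ContMDiff 𝓘E 𝓘(ℝ, ℝ) ∞ (mDiv n X) := by
  intro q
  refine contMDiffAt_of_inCh (x₀ := q) le_rfl (mem_chart_source 𝔼 q) ?_
  have hg := isRiemannianOn_chartMetric (n := n) q
  have h1 : inCh n q (mDiv n X) =ᶠ[𝓝 (chartCentre n M q)]
      divg (chartMetric n M q) (vCh n q X) := by
    filter_upwards [VSm1_near (centre_mem q) (hX q)] with w hw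
    exact mDiv_chart hw.1 hw.2
  exact (contDiffAt_divg hg (centre_mem q) (a := ∞) (hX q) (by simp) (by simp)).congr_of_eventuallyEq h1

theorem VSm_mgrad_top (hf : ContMDiff 𝓘E 𝓘(ℝ, ℝ) ∞ f) (q : M) : VSm n ∞ (mgrad n f) q :=
  VSm_mgrad (hf q) (by simp) le_rfl

namespace ONF

variable {e : Fin n → EuclideanSpace ℝ (Fin n) → EuclideanSpace ℝ (Fin n)}

/-- components of a vector field of `M` in the frame -/
def vg (h : ONF (chartMetric n M z) (chartAt (EuclideanSpace ℝ (Fin n)) z).target y e)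
    (X : (p : M) → TangentSpace 𝓘(ℝ, EuclideanSpace ℝ (Fin n)) p) (k : Fin n) : SG y :=
  h.vt (vCh n z X) k

variable (h : ONF (chartMetric n M z) (chartAt (EuclideanSpace ℝ (Fin n)) z).target y e)
include h

lemma vg_eq (k : Fin n) : h.vg X k
    = tg (fun w => bil (chartMetric n M z w) (vCh n z X w) (e k w)) := rfl

/-! #### pointwise versions (smoothness in the chart at `y`) -/


lemma ev_vg_at (hX : ContDiffAt ℝ ∞ (vCh n z X) y) (k : Fin n) :
    ev (h.vg X k) = bil (chartMetric n M z y) (vCh n z X y) (e k y) := h.ev_vt hX k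

lemma vg_add_at (hX : ContDiffAt ℝ ∞ (vCh n z X) y) (hY : ContDiffAt ℝ ∞ (vCh n z Y) y)
    (k : Fin n) : h.vg (fun q => X q + Y q) k = h.vg X k + h.vg Y k := by
  rw [vg, show vCh n z (fun q => X q + Y q) = fun w => vCh n z X w + vCh n z Y w from
    funext fun w => vCh_add X Y z w]
  exact h.vt_add hX hY k

lemma vg_neg_at (hX : ContDiffAt ℝ ∞ (vCh n z X) y) (k : Fin n) :
    h.vg (fun q => - X q) k = - h.vg X k := by
  rw [vg, show vCh n z (fun q => - X q) = fun w => - vCh n z X w from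
    funext fun w => vCh_neg X z w]
  exact h.vt_neg hX k

lemma vg_smul_at (hf : ContDiffAt ℝ ∞ (inCh n z f) y) (hX : ContDiffAt ℝ ∞ (vCh n z X) y)
    (k : Fin n) : h.vg (fun q => f q • X q) k = fg z f * h.vg X k := by
  rw [vg, show vCh n z (fun q => f q • X q) = fun w => inCh n z f w • vCh n z X w from
    funext fun w => vCh_smul f X z w]
  exact h.vt_smul hf hX k

lemma vg_csmul_at (c : ℝ) (hX : ContDiffAt ℝ ∞ (vCh n z X) y)
    (k : Fin n) : h.vg (fun q => c • X q) k = c • h.vg X k := by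
  rw [vg, show vCh n z (fun q => c • X q) = fun w => c • vCh n z X w from
    funext fun w => vCh_smul (fun _ => c) X z w]
  exact h.vt_csmul c hX k

omit [IsManifold 𝓘(ℝ, EuclideanSpace ℝ (Fin n)) ∞ M]
  [RiemannianBundle (fun x : M => TangentSpace 𝓘(ℝ, EuclideanSpace ℝ (Fin n)) x)]
  [IsContMDiffRiemannianBundle 𝓘(ℝ, EuclideanSpace ℝ (Fin n)) ∞ (EuclideanSpace ℝ (Fin n))
      (fun x : M => TangentSpace 𝓘(ℝ, EuclideanSpace ℝ (Fin n)) x)] h in
lemma vCh_sum {ι : Type*} (s : Finset ι)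
    (F : ι → (p : M) → TangentSpace 𝓘(ℝ, EuclideanSpace ℝ (Fin n)) p) (z : M) (w : 𝔼) :
    vCh n z (fun q => ∑ i ∈ s, F i q) w = ∑ i ∈ s, vCh n z (F i) w :=
  map_sum (dCh z ((chartAt 𝔼 z).symm w)) (fun i => (F i ((chartAt 𝔼 z).symm w) : 𝔼)) s

lemma vg_sum_at {ι : Type*} (s : Finset ι)
    {F : ι → (p : M) → TangentSpace 𝓘(ℝ, EuclideanSpace ℝ (Fin n)) p}
    (hF : ∀ i, ContDiffAt ℝ ∞ (vCh n z (F i)) y) (k : Fin n) :
    h.vg (fun q => ∑ i ∈ s, F i q) k = ∑ i ∈ s, h.vg (F i) k := by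
  rw [vg, show vCh n z (fun q => ∑ i ∈ s, F i q) = fun w => ∑ i ∈ s, vCh n z (F i) w from
    funext fun w => vCh_sum s F z w]
  exact h.vt_sum s hF k

lemma fg_inner_at (hX : ContDiffAt ℝ ∞ (vCh n z X) y) (hY : ContDiffAt ℝ ∞ (vCh n z Y) y) :
    (fg z (fun q => (inner ℝ (X q) (Y q) : ℝ)) : SG y) = ∑ k, h.vg X k * h.vg Y k := by
  rw [fg, tg_congr (inCh_inner h.mem)]
  exact h.vt_bil hX hY

lemma vg_mgrad_at (hf : ContDiffAt ℝ ∞ (inCh n z f) y) (k : Fin n) :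
    h.vg (mgrad n f) k = h.frameOf.D k (fg z f) := by
  rw [vg, h.vt_congr (eventually_vCh_mgrad h.mem f)]
  exact h.vt_grad hf k


lemma vg_mCov_at (hX : ContDiffAt ℝ ∞ (vCh n z X) y) (hY : ContDiffAt ℝ ∞ (vCh n z Y) y)
    (j : Fin n) : h.vg (fun q => mCov n X q (Y q)) j
      = ∑ k, h.vg Y k * h.frameOf.cov h.frameOf.tan k (h.vg X) j := by
  rw [vg, h.vt_congr (vCh_mCov_ev h.mem hX)]
  exact h.vt_cov hX hY j

lemma fg_mDiv_at (hX : ContDiffAt ℝ ∞ (vCh n z X) y) :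
    (fg z (mDiv n X) : SG y) = ∑ k, h.frameOf.cov h.frameOf.tan k (h.vg X) k := by
  have h1 : inCh n z (mDiv n X) =ᶠ[𝓝 y] divg (chartMetric n M z) (vCh n z X) := by
    filter_upwards [VSm1_near h.mem hX] with w hw
    exact mDiv_chart hw.1 hw.2
  rw [fg, tg_congr h1]
  exact h.tg_divg hX


/-! #### global versions -/

lemma vg_add (hX : ∀ q, VSm n ∞ X q) (hY : ∀ q, VSm n ∞ Y q) (k : Fin n) :
    h.vg (fun q => X q + Y q) k = h.vg X k + h.vg Y k := h.vg_add_at (sv h.mem hX) (sv h.mem hY) k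

lemma vg_neg (hX : ∀ q, VSm n ∞ X q) (k : Fin n) :
    h.vg (fun q => - X q) k = - h.vg X k := h.vg_neg_at (sv h.mem hX) k

lemma vg_smul (hf : ContMDiff 𝓘E 𝓘(ℝ, ℝ) ∞ f) (hX : ∀ q, VSm n ∞ X q) (k : Fin n) :
    h.vg (fun q => f q • X q) k = fg z f * h.vg X k := h.vg_smul_at (sf h.mem hf) (sv h.mem hX) k

lemma vg_csmul (c : ℝ) (hX : ∀ q, VSm n ∞ X q) (k : Fin n) :
    h.vg (fun q => c • X q) k = c • h.vg X k := h.vg_csmul_at c (sv h.mem hX) k

lemma vg_sum {ι : Type*} (s : Finset ι)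
    {F : ι → (p : M) → TangentSpace 𝓘(ℝ, EuclideanSpace ℝ (Fin n)) p}
    (hF : ∀ i q, VSm n ∞ (F i) q) (k : Fin n) :
    h.vg (fun q => ∑ i ∈ s, F i q) k = ∑ i ∈ s, h.vg (F i) k :=
  h.vg_sum_at s (fun i => sv h.mem (hF i)) k

lemma fg_inner (hX : ∀ q, VSm n ∞ X q) (hY : ∀ q, VSm n ∞ Y q) :
    (fg z (fun q => (inner ℝ (X q) (Y q) : ℝ)) : SG y) = ∑ k, h.vg X k * h.vg Y k :=
  h.fg_inner_at (sv h.mem hX) (sv h.mem hY)

lemma vg_mgrad (hf : ContMDiff 𝓘E 𝓘(ℝ, ℝ) ∞ f) (k : Fin n) :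
    h.vg (mgrad n f) k = h.frameOf.D k (fg z f) := h.vg_mgrad_at (sf h.mem hf) k


lemma vg_mCov (hX : ∀ q, VSm n ∞ X q) (hY : ∀ q, VSm n ∞ Y q) (j : Fin n) :
    h.vg (fun q => mCov n X q (Y q)) j
      = ∑ k, h.vg Y k * h.frameOf.cov h.frameOf.tan k (h.vg X) j :=
  h.vg_mCov_at (sv h.mem hX) (sv h.mem hY) j

lemma fg_mDiv (hX : ∀ q, VSm n ∞ X q) :
    (fg z (mDiv n X) : SG y) = ∑ k, h.frameOf.cov h.frameOf.tan k (h.vg X) k :=
  h.fg_mDiv_at (sv h.mem hX)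

end ONF

/-! ### values at the centre -/

namespace ONF

variable {e : Fin n → EuclideanSpace ℝ (Fin n) → EuclideanSpace ℝ (Fin n)}

/-- the frame vectors at `z` -/
def bv (_h : ONF (chartMetric n M z) (chartAt (EuclideanSpace ℝ (Fin n)) z).target
    (chartCentre n M z) e) (k : Fin n) : TangentSpace 𝓘(ℝ, EuclideanSpace ℝ (Fin n)) z :=
  tv z (e k (chartCentre n M z))

variable (h : ONF (chartMetric n M z) (chartAt (EuclideanSpace ℝ (Fin n)) z).target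
  (chartCentre n M z) e)
include h

lemma dCh_bv (k : Fin n) : dCh z z (h.bv k) = e k (chartCentre n M z) := dCh_tv z _

lemma inner_bv (v : TangentSpace 𝓘E z) (k : Fin n) : inner ℝ v (h.bv k)
    = bil (chartMetric n M z (chartCentre n M z)) (dCh z z v) (e k (chartCentre n M z)) := by
  rw [inner_centre, h.dCh_bv]

lemma orth_bv (a b : Fin n) : inner ℝ (h.bv a) (h.bv b) = if a = b then (1:ℝ) else 0 := by
  rw [h.inner_bv, h.dCh_bv, h.orth.self_of_nhds]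

lemma sum_bv (v : TangentSpace 𝓘E z) : ∑ k, (inner ℝ v (h.bv k) : ℝ) • h.bv k = v := by
  have h1 : dCh z z (∑ k, (inner ℝ v (h.bv k) : ℝ) • h.bv k) = dCh z z v := by
    have h2 : dCh z z (∑ k, (inner ℝ v (h.bv k) : ℝ) • h.bv k)
        = ∑ k, (inner ℝ v (h.bv k) : ℝ) • dCh z z (h.bv k) :=
      (map_sum (dCh z z) (fun k => ((inner ℝ v (h.bv k) : ℝ) • h.bv k : 𝔼)) Finset.univ).trans
        (Finset.sum_congr rfl fun k _ => map_smul (dCh z z) _ _)
    rw [h2]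
    simp only [h.dCh_bv, h.inner_bv]
    exact (h.isFrame_self.expand h.riem h.mem (dCh z z v)).symm
  have h3 := fun v : TangentSpace 𝓘E z => dSy_dCh z (mem_chart_source 𝔼 z) v
  exact (h3 _).symm.trans ((congrArg (dSy z (chartAt 𝔼 z z)) h1).trans (h3 v))

lemma ev_vg (hX : ∀ q, VSm n ∞ X q) (k : Fin n) : ev (h.vg X k) = inner ℝ (X z) (h.bv k) := by
  rw [h.ev_vg_at (sv h.mem hX), h.inner_bv, vCh_centre]


lemma eq_sum_ev_vg (hX : ∀ q, VSm n ∞ X q) : X z = ∑ k, ev (h.vg X k) • h.bv k := by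
  simp only [h.ev_vg hX]
  exact (h.sum_bv (X z)).symm

end ONF

end Crest.Agent.R249.Sg129
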