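import Crest.Agent.R249.C2d_198
import Crest.Agent.R249.FrH_129

-- ▼ part R249/C2e_198
section

/-!
Einstein metrics: the curvature of `Λ⁻` is anti-self-dual. (row 249, part C2 of the blueprint,
helper198)
-/

set_option autoImplicit false
set_option linter.unusedSectionVars false
set_option linter.unusedSimpArgs false

namespace Crest.Agent.R249.C2_198

open Finset Matrix
open scoped Kronecker
open Crest.Agent.R249.Fr129

variable {S : Type*} [CommRing S] [Algebra ℝ S] (F : Frame 4 S)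

/-- Einstein: the curvature of `Λ⁻` is anti-self-dual. -/
lemma EE_asd {c : S} (hE : F.Einstein c) (i : Fin 3) :
    EE F 2 3 i = - EE F 0 1 i ∧ EE F 1 3 i = EE F 0 2 i ∧ EE F 1 2 i = - EE F 0 3 i := by
  have h00 := hE 0 0
  have h11 := hE 1 1
  have h22 := hE 2 2
  have h33 := hE 3 3
  have h01 := hE 0 1
  have h02 := hE 0 2
  have h03 := hE 0 3
  have h12 := hE 1 2
  have h13 := hE 1 3
  have h23 := hE 2 3
  simp [Frame.Ric, Fin.sum_univ_four, Frame.Rm_self12, Frame.R10, Frame.R20, Frame.R30, Frame.R21,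
    Frame.R31, Frame.R32, Frame.L10, Frame.L20, Frame.L30,
    Frame.L21, Frame.L31, Frame.L32, Frame.Rm_self34] at h00 h11 h22 h33 h01 h02 h03 h12 h13 h23
  have hp := F.Rm_pair
  have k1 : F.Rm 2 3 2 3 = F.Rm 0 1 0 1 := by
    apply Frame.eq_of_two
    linear_combination h00 + h11 - h22 - h33
  have k2 : F.Rm 1 3 1 3 = F.Rm 0 2 0 2 := by
    apply Frame.eq_of_two
    linear_combination h00 - h11 + h22 - h33
  have k3 : F.Rm 1 2 1 2 = F.Rm 0 3 0 3 := by
    apply Frame.eq_of_two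
    linear_combination h00 - h11 - h22 + h33
  refine ⟨?_, ?_, ?_⟩ <;> fin_cases i <;> simp [EE]
  · rw [hp 2 3 0 1, k1]; try ring
  · rw [hp 2 3 0 2, hp 2 3 1 3]
    first | linear_combination h12 - h03 | linear_combination h03 - h12
  · rw [hp 2 3 0 3, hp 2 3 1 2]
    first | linear_combination h13 + h02 | linear_combination -h13 - h02
  · rw [hp 1 3 0 1, hp 0 2 0 1]
    first | linear_combination h03 + h12 | linear_combination -h03 - h12
  · rw [hp 1 3 0 2, k2]; ring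
  · rw [hp 1 3 0 3, hp 1 3 1 2]
    first | linear_combination h01 - h23 | linear_combination h23 - h01
  · rw [hp 1 2 0 1, hp 0 3 0 1]
    first | linear_combination h02 - h13 | linear_combination h13 - h02
  · rw [hp 1 2 0 2, hp 0 3 0 2]
    first | linear_combination h01 + h23 | linear_combination -h01 - h23
  · rw [hp 1 2 0 3, k3]; try ring

/-- Einstein: `EE` in terms of the block `C`. -/
lemma EE_eq {c : S} (hE : F.Einstein c) (i : Fin 3) :
    EE F 0 1 i = CC F i 0 ∧ EE F 2 3 i = - CC F i 0 ∧ EE F 0 2 i = CC F i 1 ∧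
    EE F 1 3 i = CC F i 1 ∧ EE F 0 3 i = CC F i 2 ∧ EE F 1 2 i = - CC F i 2 := by
  obtain ⟨h1, h2, h3⟩ := EE_asd F hE i
  have hh := Frame.two_half (S := S)
  rw [h1, h2, h3]
  simp only [CC, h1, h2, h3, Matrix.cons_val_zero, Matrix.cons_val_one, Matrix.cons_val]
  refine ⟨?_, ?_, ?_, ?_, ?_, ?_⟩
  · linear_combination -EE F 0 1 i * hh
  · linear_combination EE F 0 1 i * hh
  · linear_combination -EE F 0 2 i * hh
  · linear_combination -EE F 0 2 i * hh
  · linear_combination -EE F 0 3 i * hh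
  · linear_combination EE F 0 3 i * hh

/-- trace of the block `C`, any metric: `4 tr C = s`. -/
lemma CC_trace4 : 4 * (CC F 0 0 + CC F 1 1 + CC F 2 2) = ∑ i, F.Ric i i := by
  have h0 := two_CC F 0 0
  have h1 := two_CC F 1 1
  have h2 := two_CC F 2 2
  have hb := F.bianchi1 0 1 2 3
  rw [F.Rm_anti12 2 0 1 3] at hb
  have hp1 := F.Rm_pair 2 3 0 1
  have hp2 := F.Rm_pair 1 3 0 2
  have hp3 := F.Rm_pair 1 2 0 3
  simp [EE] at h0 h1 h2
  simp [Frame.Ric, Fin.sum_univ_four, Frame.Rm_self12, Frame.R10, Frame.R20, Frame.R30, Frame.R21,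
    Frame.R31, Frame.R32, Frame.L10, Frame.L20, Frame.L30,
    Frame.L21, Frame.L31, Frame.L32, Frame.Rm_self34]
  linear_combination 2 * h0 + 2 * h1 + 2 * h2 + 2 * hp1 - 2 * hp2 - 2 * hp3 + 4 * hb

/-- trace of the block `C` -/
lemma CC_trace {c : S} (hE : F.Einstein c) : CC F 0 0 + CC F 1 1 + CC F 2 2 = c := by
  have h := CC_trace4 F
  have h2 : ∑ i, F.Ric i i = 4 * c := by
    simp only [Fin.sum_univ_four, hE _ _, if_true]; ring
  rw [h2] at h
  apply Frame.eq_of_two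
  apply Frame.eq_of_two
  linear_combination h

end Crest.Agent.R249.C2_198
end

-- ▼ part R249/C2f_198
section

/-!
Einstein metrics with `W⁻ = 0` (`C = c Id`): zero order terms of the operator
`(ℝ ⊕ Λ⁻) ⊗ G → T ⊗ G` for `G = ℝ` and `G = Λ⁻`.
(row 249, part C2 of the blueprint, helper198)
-/

set_option autoImplicit false
set_option linter.unusedSectionVars false
set_option linter.unusedSimpArgs false

namespace Crest.Agent.R249.C2_198

open Finset Matrix
open scoped Kronecker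
open Crest.Agent.R249.Fr129

/-- The integer matrix of the twisted zero order term. -/
def NZ : Matrix (Fin 4 × Fin 3) (Fin 4 × Fin 3) ℤ :=
  (!![0, 0, 0, 0; 0, 4, 0, 0; 0, 0, 4, 0; 0, 0, 0, 4] : Matrix (Fin 4) (Fin 4) ℤ) ⊗ₖ
      (1 : Matrix (Fin 3) (Fin 3) ℤ)
    - 2 • (K ℤ 0 ⊗ₖ cr ![1, 0, 0] + K ℤ 1 ⊗ₖ cr ![0, 1, 0] + K ℤ 2 ⊗ₖ cr ![0, 0, 1])

/-- `so(3)` generators on `(ℝ ⊕ Λ⁻) ⊗ Λ⁻` -/
def GZ (m : Fin 3) : Matrix (Fin 4 × Fin 3) (Fin 4 × Fin 3) ℤ :=
  cr4 (Pi.single m 1) ⊗ₖ (1 : Matrix (Fin 3) (Fin 3) ℤ)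
    + (1 : Matrix (Fin 4) (Fin 4) ℤ) ⊗ₖ cr (Pi.single m 1)

set_option maxRecDepth 100000 in
lemma NZ_comm (m : Fin 3) : NZ * GZ m = GZ m * NZ := by
  revert m; decide +kernel

set_option maxRecDepth 100000 in
lemma NZ_poly : NZ * (NZ - 4) * ((NZ + 2) * (NZ - 6)) = 0 := by decide +kernel

lemma NZ_trace : NZ.trace = 36 := by decide +kernel

lemma NZ_symm : NZᵀ = NZ := by decide +kernel

set_option maxRecDepth 100000 in
lemma NZ_sq_trace : (NZ * NZ).trace = 240 := by decide +kernel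


section const
variable (S : Type*) [CommRing S]

/-- cast of integer matrices -/
abbrev cast {ι : Type*} [Fintype ι] [DecidableEq ι] : Matrix ι ι ℤ →+* Matrix ι ι S :=
  (Int.castRingHom S).mapMatrix

/-- The twisted zero order term, `c = 1`. -/
def NN : Matrix (Fin 4 × Fin 3) (Fin 4 × Fin 3) S := cast S NZ

lemma cast_kron {κ ι : Type*} [Fintype ι] [DecidableEq ι] [Fintype κ] [DecidableEq κ]
    (A : Matrix κ κ ℤ) (B : Matrix ι ι ℤ) : cast S (A ⊗ₖ B) = cast S A ⊗ₖ cast S B := by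
  ext ⟨x1, x2⟩ ⟨y1, y2⟩
  simp [Matrix.kroneckerMap_apply]

lemma cast_cr (p : Fin 3 → ℤ) : cast S (cr p) = cr (fun i => (p i : S)) := by
  ext i j
  fin_cases i <;> fin_cases j <;> simp [cr]

lemma cast_cr4 (p : Fin 3 → ℤ) : cast S (cr4 p) = cr4 (fun i => (p i : S)) := by
  ext i j
  fin_cases i <;> fin_cases j <;> simp [cr4]

/-- `diag (0,4,4,4)` -/
def D4 : Matrix (Fin 4) (Fin 4) S := !![0, 0, 0, 0; 0, 4, 0, 0; 0, 0, 4, 0; 0, 0, 0, 4]

lemma cast_D4 : cast S (!![0, 0, 0, 0; 0, 4, 0, 0; 0, 0, 4, 0; 0, 0, 0, 4] :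
    Matrix (Fin 4) (Fin 4) ℤ) = D4 S := by
  ext i j
  fin_cases i <;> fin_cases j <;> simp [D4]

lemma NN_eq : NN S = D4 S ⊗ₖ (1 : Matrix (Fin 3) (Fin 3) S)
    - (2 : S) • (K S 0 ⊗ₖ cr ![1, 0, 0] + K S 1 ⊗ₖ cr ![0, 1, 0] + K S 2 ⊗ₖ cr ![0, 0, 1]) := by
  rw [NN, NZ, map_sub, cast_kron, cast_D4, map_one, map_nsmul, map_add, map_add, cast_kron,
    cast_kron, cast_kron, cast_cr, cast_cr, cast_cr]
  simp only [cast, ← K_map]
  have e0 : (fun i => ((![1, 0, 0] : Fin 3 → ℤ) i : S)) = ![1, 0, 0] := by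
    funext i; fin_cases i <;> simp
  have e1 : (fun i => ((![0, 1, 0] : Fin 3 → ℤ) i : S)) = ![0, 1, 0] := by
    funext i; fin_cases i <;> simp
  have e2 : (fun i => ((![0, 0, 1] : Fin 3 → ℤ) i : S)) = ![0, 0, 1] := by
    funext i; fin_cases i <;> simp
  rw [e0, e1, e2, ← Nat.cast_smul_eq_nsmul S, Nat.cast_ofNat]

lemma NN_poly : NN S * (NN S - 4) * ((NN S + 2) * (NN S - 6)) = 0 := by
  have := congrArg (cast S) NZ_poly
  simp only [map_mul, map_sub, map_add, map_ofNat, map_zero] at this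
  exact this

lemma cast_transpose {ι : Type*} [Fintype ι] [DecidableEq ι] (A : Matrix ι ι ℤ) :
    cast S Aᵀ = (cast S A)ᵀ := rfl

lemma NN_symm : (NN S)ᵀ = NN S := by
  rw [NN, ← cast_transpose, NZ_symm]

lemma cast_trace {ι : Type*} [Fintype ι] [DecidableEq ι] (A : Matrix ι ι ℤ) :
    (cast S A).trace = (A.trace : S) := by
  simp [Matrix.trace, Matrix.diag]

lemma NN_trace : (NN S).trace = 36 := by
  rw [NN, cast_trace, NZ_trace]; norm_num

lemma NN_sq_trace : (NN S * NN S).trace = 240 := by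
  rw [NN, ← map_mul, cast_trace, NZ_sq_trace]; norm_num

end const

variable {S : Type*} [CommRing S] [Algebra ℝ S] (F : Frame 4 S)

/-- `W⁻ = 0`: the block `C` is scalar -/
def CScal (c : S) : Prop := ∀ i j, CC F i j = if i = j then c else 0

variable {F}

/-- `Q₀` for `C = c Id` -/
theorem Q0_scal {c : S} (hC : CScal F c) : Q F (e0 F) (cK S) = c • D4 S := by
  rw [Q0_val, D4]
  ext i j
  fin_cases i <;> fin_cases j <;> simp [hC _ _] <;> ring

/-- `Q₁` for Einstein metrics -/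
theorem Q1_ein {lam : S} (hE : F.Einstein lam) :
    Q F F.tan (fun i => (cK S i)ᵀ) = lam • (1 : Matrix (Fin 4) (Fin 4) S) := by
  rw [Q1_val]
  ext i j
  rw [RicM, hE]
  simp [Matrix.one_apply]

/-- Einstein: the self-dual part of the curvature of `Λ⁻` vanishes. -/
lemma cp_asc {lam : S} (hE : F.Einstein lam) (b : Fin 3) : cp F (asc F) b = 0 := by
  have h := fun i => EE_eq F hE i
  have h0 := h 0
  have h1 := h 1
  have h2 := h 2
  fin_cases b <;> ext i j <;> fin_cases i <;> fin_cases j <;>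
    simp [cp, curv_asc, cr, h0, h1, h2]

/-- `C = c Id`: the anti-self-dual part of the curvature of `Λ⁻`. -/
lemma cm_asc_scal {c : S} (hC : CScal F c) (b : Fin 3) :
    cm F (asc F) b = (2 * c) • cr (![![1, 0, 0], ![0, 1, 0], ![0, 0, 1]] b) := by
  rw [cm_asc]
  fin_cases b <;> ext i j <;> fin_cases i <;> fin_cases j <;>
    simp [cr, hC _ _]

/-- **`G = Λ⁻`:** `Q₀ = c N`. -/
theorem Q0_twist {c : S} (hC : CScal F c) :
    Q F (Frame.tens (e0 F) (asc F)) (tw (cK S)) = c • NN S := by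
  rw [Q_tw, twist0, Q0_scal hC, NN_eq, Fin.sum_univ_three, cm_asc_scal hC, cm_asc_scal hC,
    cm_asc_scal hC]
  simp only [Matrix.cons_val_zero, Matrix.cons_val_one, Matrix.cons_val,
    Matrix.kronecker_smul, Matrix.smul_kronecker]
  module

/-- **`G = Λ⁻`:** `Q₁ = lam Id`. -/
theorem Q1_twist {lam : S} (hE : F.Einstein lam) :
    Q F (Frame.tens F.tan (asc F)) (fun i => (tw (ι := Fin 3) (cK S) i)ᵀ)
      = lam • (1 : Matrix (Fin 4 × Fin 3) (Fin 4 × Fin 3) S) := by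
  rw [tw_transpose, Q_tw, Q1_ein hE]
  simp only [Matrix.transpose_transpose]
  rw [twist1]
  simp only [cp_asc hE, Matrix.kronecker_zero, sum_const_zero, add_zero]
  rw [Matrix.smul_kronecker, Matrix.one_kronecker_one]

end Crest.Agent.R249.C2_198
end

-- ▼ part R249/C2g_198
section

/-!
The constant matrix `N` is parallel; the twistor embedding `Λ⁻ → (ℝ ⊕ Λ⁻) ⊗ Λ⁻` and the twistor
equation; Weitzenboeck formulas for `G = ℝ` and `G = Λ⁻`.
(row 249, part C2 of the blueprint, helper198)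
-/

set_option autoImplicit false
set_option linter.unusedSectionVars false
set_option linter.unusedSimpArgs false

namespace Crest.Agent.R249.C2_198

open Finset Matrix
open scoped Kronecker
open Crest.Agent.R249.Fr129

section gen
variable {n : ℕ} {S : Type*} [CommRing S] [Algebra ℝ S] (F : Frame n S)
variable {κ0 : Type*} [Fintype κ0] [DecidableEq κ0]

/-- derivations vanish on integers -/
lemma D_intCast (k : Fin n) (z : ℤ) : F.D k (z : S) = 0 := by
  have := (F.D k).map_algebraMap (z : ℝ)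
  simpa using this

/-- A constant matrix commuting with the connection is parallel. -/
lemma cov_const {a : Fin n → Matrix κ0 κ0 S} {M : Matrix κ0 κ0 S} (k : Fin n)
    (hM : ∀ x y, F.D k (M x y) = 0) (hc : a k * M = M * a k) (u : κ0 → S) :
    F.cov a k (M *ᵥ u) = M *ᵥ F.cov a k u := by
  rw [F.cov_mulVec]
  have : F.covE a k M = 0 := by
    ext x y
    have h := congrFun (congrFun hc x) y
    simp only [Matrix.mul_apply] at h
    simp only [Frame.covE, hM, sum_sub_distrib, Matrix.zero_apply, h]; ring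
  rw [this, Matrix.zero_mulVec, zero_add]

end gen

variable {S : Type*} [CommRing S] [Algebra ℝ S] {F : Frame 4 S}

lemma cr_lin (p : Fin 3 → S) : cr p = ∑ m, p m • cr (Pi.single m (1 : S)) := by
  ext i j
  fin_cases i <;> fin_cases j <;> simp [cr, Fin.sum_univ_three]

lemma cr4_lin (p : Fin 3 → S) : cr4 p = ∑ m, p m • cr4 (Pi.single m (1 : S)) := by
  ext i j
  fin_cases i <;> fin_cases j <;> simp [cr4, Fin.sum_univ_three]

lemma cast_GZ (m : Fin 3) : cast S (GZ m)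
    = cr4 (Pi.single m (1 : S)) ⊗ₖ (1 : Matrix (Fin 3) (Fin 3) S)
      + (1 : Matrix (Fin 4) (Fin 4) S) ⊗ₖ cr (Pi.single m (1 : S)) := by
  have e : (fun i => ((Pi.single m (1 : ℤ) : Fin 3 → ℤ) i : S)) = Pi.single m (1 : S) := by
    funext i
    by_cases h : i = m
    · subst h; simp
    · simp [Pi.single_eq_of_ne h]
  rw [GZ, map_add, cast_kron, cast_kron, map_one, map_one, cast_cr4, cast_cr, e]

lemma tens_e0_asc (k : Fin 4) : Frame.tens (e0 F) (asc F) k = ∑ m, eta F k m • cast S (GZ m) := by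
  rw [tens_eq, e0_eq, asc, cr4_lin (eta F k), cr_lin (eta F k)]
  simp only [cast_GZ, smul_add, sum_add_distrib, sum_kron, Matrix.smul_kronecker]
  congr 1
  simp only [Fin.sum_univ_three, Matrix.kronecker_add, Matrix.kronecker_smul]

/-- `N` commutes with the connection. -/
lemma NN_comm (k : Fin 4) :
    Frame.tens (e0 F) (asc F) k * NN S = NN S * Frame.tens (e0 F) (asc F) k := by
  rw [tens_e0_asc, Matrix.sum_mul, Matrix.mul_sum]
  refine sum_congr rfl fun m _ => ?_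
  rw [Matrix.smul_mul, Matrix.mul_smul]
  congr 1
  rw [NN, ← map_mul, ← map_mul, NZ_comm]

/-- `N` is parallel. -/
lemma cov_NN (k : Fin 4) (u : Fin 4 × Fin 3 → S) :
    F.cov (Frame.tens (e0 F) (asc F)) k (NN S *ᵥ u)
      = NN S *ᵥ F.cov (Frame.tens (e0 F) (asc F)) k u :=
  cov_const F k (fun x y => by
    have : NN S x y = ((NZ x y : ℤ) : S) := rfl
    rw [this, D_intCast]) (NN_comm k) u

/-! Weitzenboeck formulas. -/

/-- symbol and connections for `G = ℝ` -/
theorem weitz0_R {c : S} (hC : CScal F c) (u : Fin 4 → S) :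
    dirs F F.tan (cK S) (dir F (e0 F) (cK S) u) = - F.lap (e0 F) u + c • (D4 S *ᵥ u) := by
  rw [weitz (par_cK F) (clif0 S) u, Q0_scal hC, Matrix.smul_mulVec]

theorem weitz1_R {lam : S} (hE : F.Einstein lam) (Y : Fin 4 → S) :
    dir F (e0 F) (cK S) (dirs F F.tan (cK S) Y) = - F.lap F.tan Y + lam • Y := by
  rw [weitz' (e0_skew F) (tan_skew F) (par_cK F) (clif1 S) Y, Q1_ein hE, Matrix.smul_mulVec,
    Matrix.one_mulVec]

lemma par_tw : Par F (Frame.tens (e0 F) (asc F)) (Frame.tens F.tan (asc F)) (tw (cK S)) :=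
  (par_cK F).tw (asc F)

lemma clif1_tw {ι : Type*} [Fintype ι] [DecidableEq ι] (i j : Fin 4) :
    tw (ι := ι) (cK S) i * (tw (ι := ι) (cK S) j)ᵀ + tw (ι := ι) (cK S) j * (tw (ι := ι) (cK S) i)ᵀ
      = if i = j then 2 else 0 := by
  have h := clif_tw (ι := ι) (c := fun i => (cK S i)ᵀ) (by simpa using clif1 S) i j
  rw [← tw_transpose] at h
  simpa using h

/-- `G = Λ⁻`: `D* D = ∇*∇ + c N`. -/
theorem weitz0_L {c : S} (hC : CScal F c) (u : Fin 4 × Fin 3 → S) :
    dirs F (Frame.tens F.tan (asc F)) (tw (cK S)) (dir F (Frame.tens (e0 F) (asc F)) (tw (cK S)) u)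
      = - F.lap (Frame.tens (e0 F) (asc F)) u + c • (NN S *ᵥ u) := by
  rw [weitz par_tw (clif_tw (clif0 S)) u, Q0_twist hC, Matrix.smul_mulVec]

/-- `G = Λ⁻`: `D D* = ∇*∇ + lam`. -/
theorem weitz1_L {lam : S} (hE : F.Einstein lam) (Y : Fin 4 × Fin 3 → S) :
    dir F (Frame.tens (e0 F) (asc F)) (tw (cK S)) (dirs F (Frame.tens F.tan (asc F)) (tw (cK S)) Y)
      = - F.lap (Frame.tens F.tan (asc F)) Y + lam • Y := by
  rw [weitz' (Frame.tens_skew (e0_skew F) (asc_skew F)) (Frame.tens_skew (tan_skew F) (asc_skew F))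
    par_tw clif1_tw Y, Q1_twist hE, Matrix.smul_mulVec, Matrix.one_mulVec]

/-! The twistor embedding. -/

/-- `σ ↦ (f = 2σ, s_ab = ε_abd σ_d)`, as a constant matrix. -/
def emb (σ : Fin 3 → S) : Fin 4 × Fin 3 → S := fun x =>
  (![![2 * σ 0, 2 * σ 1, 2 * σ 2], ![0, σ 2, -σ 1], ![-σ 2, 0, σ 0], ![σ 1, -σ 0, 0]] :
    Fin 4 → Fin 3 → S) x.1 x.2

/-- `N (emb σ) = -2 emb σ`. -/
lemma NN_emb (σ : Fin 3 → S) : NN S *ᵥ emb σ = (-2 : S) • emb σ := by
  rw [NN_eq]
  funext ⟨a, b⟩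
  rw [Matrix.mulVec, dotProduct, Fintype.sum_prod_type]
  simp only [Fin.sum_univ_four, Fin.sum_univ_three, Matrix.sub_apply, Matrix.smul_apply,
    Matrix.add_apply, Matrix.kroneckerMap_apply, Matrix.one_apply, D4, K, cr, emb, Pi.smul_apply,
    smul_eq_mul]
  fin_cases a <;> fin_cases b <;> simp <;> ring

/-- `δ_ab t` -/
def embd (t : S) : Fin 4 × Fin 3 → S := fun x =>
  (![![0, 0, 0], ![t, 0, 0], ![0, t, 0], ![0, 0, t]] : Fin 4 → Fin 3 → S) x.1 x.2

/-- `N (embd t) = 0`. -/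
lemma NN_embd (t : S) : NN S *ᵥ embd t = 0 := by
  rw [NN_eq]
  funext ⟨a, b⟩
  rw [Matrix.mulVec, dotProduct, Fintype.sum_prod_type]
  simp only [Fin.sum_univ_four, Fin.sum_univ_three, Matrix.sub_apply, Matrix.smul_apply,
    Matrix.add_apply, Matrix.kroneckerMap_apply, Matrix.one_apply, D4, K, cr, embd, Pi.smul_apply,
    smul_eq_mul, Pi.zero_apply]
  fin_cases a <;> fin_cases b <;> simp <;> ring

end Crest.Agent.R249.C2_198
end

-- ▼ part R249/C2h_198
section

/-!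
The twistor equation, and the linear algebra of the constant matrix `N` over the reals.
(row 249, part C2 of the blueprint, helper198)
-/

set_option autoImplicit false
set_option linter.unusedSectionVars false
set_option linter.unusedSimpArgs false

namespace Crest.Agent.R249.C2_198

open Finset Matrix
open scoped Kronecker
open Crest.Agent.R249.Fr129

section gen
variable {n : ℕ} {S : Type*} [CommRing S] [Algebra ℝ S] {F : Frame n S}
variable {κ0 κ1 ι : Type*} [Fintype κ0] [DecidableEq κ0] [Fintype κ1] [DecidableEq κ1]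
  [Fintype ι] [DecidableEq ι]

lemma tw_mulVec (c : Fin n → Matrix κ1 κ0 S) (i : Fin n) (v : κ0 × ι → S) (x : κ1 × ι) :
    (tw c i *ᵥ v) x = ∑ a, c i x.1 a * v (a, x.2) := by
  obtain ⟨x1, x2⟩ := x
  simp only [Matrix.mulVec, dotProduct, tw, Matrix.kroneckerMap_apply, Matrix.one_apply,
    Fintype.sum_prod_type]
  refine sum_congr rfl fun a _ => ?_
  simp

lemma dir_tw (A : Fin n → Matrix (κ0 × ι) (κ0 × ι) S) (c : Fin n → Matrix κ1 κ0 S)
    (u : κ0 × ι → S) (x : κ1 × ι) :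
    dir F A (tw c) u x = ∑ i, ∑ a, c i x.1 a * F.cov A i u (a, x.2) := by
  rw [dir, Finset.sum_apply]
  exact sum_congr rfl fun i _ => tw_mulVec c i _ x

end gen

variable {S : Type*} [CommRing S] [Algebra ℝ S] {F : Frame 4 S}

/-- the twistor embedding is parallel -/
lemma cov_emb (k : Fin 4) (σ : Fin 3 → S) :
    F.cov (Frame.tens (e0 F) (asc F)) k (emb σ) = emb (F.cov (asc F) k σ) := by
  funext ⟨a, b⟩
  rw [F.cov_tens]
  have h2 : F.D k (2 : S) = 0 := by
    have := D_intCast F k 2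
    simpa using this
  fin_cases a <;> fin_cases b <;>
    simp [emb, Frame.cov, e0, asc, cr, Fin.sum_univ_four, Fin.sum_univ_three, F.D_mul, h2,
      map_neg] <;> ring

lemma cov_embd (k : Fin 4) (t : S) :
    F.cov (Frame.tens (e0 F) (asc F)) k (embd t) = embd (F.D k t) := by
  funext ⟨a, b⟩
  rw [F.cov_tens]
  fin_cases a <;> fin_cases b <;>
    simp [embd, e0, asc, cr, Fin.sum_univ_four, Fin.sum_univ_three] <;> ring

/-- three times the vector field of a twistor section: `V3_j = ∑ (K_a)_ji ∇_i σ_a` -/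
def V3 (F : Frame 4 S) (σ : Fin 3 → S) (j : Fin 4) : S :=
  ∑ a, ∑ i, K S a j i * F.cov (asc F) i σ a

/-- `D (emb σ) = 3 ∇σ + K V3`. -/
theorem dir_emb (σ : Fin 3 → S) (k : Fin 4) (b : Fin 3) :
    dir F (Frame.tens (e0 F) (asc F)) (tw (cK S)) (emb σ) (k, b)
      = 3 * F.cov (asc F) k σ b + ∑ l, K S b k l * V3 F σ l := by
  rw [dir_tw]
  simp only [cov_emb, V3]
  generalize hX : (fun i => F.cov (asc F) i σ) = X
  have hX' : ∀ i, F.cov (asc F) i σ = X i := fun i => congrFun hX i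
  simp only [hX', Fin.sum_univ_four, Fin.sum_univ_three, cK_zero, cK_one, cK_two, cK_three]
  fin_cases k <;> fin_cases b <;>
    simp [emb, K] <;> ring

/-- **Twistor equation.** -/
theorem twistor {σ : Fin 3 → S}
    (h : dir F (Frame.tens (e0 F) (asc F)) (tw (cK S)) (emb σ) = 0) (k : Fin 4) (b : Fin 3) :
    3 * F.cov (asc F) k σ b = - ∑ l, K S b k l * V3 F σ l := by
  have := dir_emb (F := F) σ k b
  rw [h, Pi.zero_apply] at this
  linear_combination -this

/-- a parallel section is killed by `D` -/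
lemma dir_of_parallel {n : ℕ} {F : Frame n S} {κ0 κ1 : Type*} [Fintype κ0] [DecidableEq κ0]
    [Fintype κ1] [DecidableEq κ1] {a : Fin n → Matrix κ0 κ0 S} {c : Fin n → Matrix κ1 κ0 S}
    {u : κ0 → S} (h : ∀ i, F.cov a i u = 0) : dir F a c u = 0 := by
  simp [dir, h]

/-! Linear algebra of `N`. -/

/-- `12 × 3` integer matrix of `emb` -/
def EZ : Matrix (Fin 4 × Fin 3) (Fin 3) ℤ := fun x d =>
  (![![2 * Pi.single (M := fun _ => ℤ) d 1 0, 2 * Pi.single (M := fun _ => ℤ) d 1 1,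
      2 * Pi.single (M := fun _ => ℤ) d 1 2],
    ![0, Pi.single (M := fun _ => ℤ) d 1 2, -Pi.single (M := fun _ => ℤ) d 1 1],
    ![-Pi.single (M := fun _ => ℤ) d 1 2, 0, Pi.single (M := fun _ => ℤ) d 1 0],
    ![Pi.single (M := fun _ => ℤ) d 1 1, -Pi.single (M := fun _ => ℤ) d 1 0, 0]] :
      Fin 4 → Fin 3 → ℤ) x.1 x.2

/-- integer vector `δ` -/
def dZ : Fin 4 × Fin 3 → ℤ := fun x =>
  (![![0, 0, 0], ![1, 0, 0], ![0, 1, 0], ![0, 0, 1]] : Fin 4 → Fin 3 → ℤ) x.1 x.2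

set_option maxRecDepth 100000 in
lemma NZ_m2 : NZ * (NZ - 4) * (NZ - 6) = -16 * (EZ * EZᵀ) := by decide +kernel

set_option maxRecDepth 100000 in
lemma NZ_0 : (NZ - 4) * (NZ + 2) * (NZ - 6) = 16 * (Matrix.vecMulVec dZ dZ) := by decide +kernel

end Crest.Agent.R249.C2_198
end

-- ▼ part R249/C2i_198
section

/-!
Eigenspaces of `N` in terms of the twistor embedding; positivity.
(row 249, part C2 of the blueprint, helper198)
-/

set_option autoImplicit false
set_option linter.unusedSectionVars false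
set_option linter.unusedSimpArgs false

namespace Crest.Agent.R249.C2_198

open Finset Matrix
open scoped Kronecker
open Crest.Agent.R249.Fr129

section ring
variable {S : Type*} [CommRing S]

lemma EZ_mulVec (σ : Fin 3 → S) :
    (EZ.map (Int.cast : ℤ → S)) *ᵥ σ = emb σ := by
  funext ⟨a, b⟩
  simp only [Matrix.mulVec, dotProduct, Fin.sum_univ_three, Matrix.map_apply]
  fin_cases a <;> fin_cases b <;> simp [EZ, emb]

lemma dZ_vec (t : S) : (fun x => (dZ x : S) * t) = embd t := by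
  funext ⟨a, b⟩
  fin_cases a <;> fin_cases b <;> simp [dZ, embd]

/-- the adjoint of the twistor embedding -/
def embT (u : Fin 4 × Fin 3 → S) : Fin 3 → S := fun d => ∑ x, (EZ x d : S) * u x

/-- pairing with `δ` -/
def embdT (u : Fin 4 × Fin 3 → S) : S := ∑ x, (dZ x : S) * u x

/-- `N (N-4) (N-6) = -16 E Eᵀ` -/
lemma NN_m2 (u : Fin 4 × Fin 3 → S) :
    (NN S * (NN S - 4) * (NN S - 6)) *ᵥ u = (-16 : S) • emb (embT u) := by
  have h := congrArg (cast S) NZ_m2
  simp only [map_mul, map_sub, map_neg, map_ofNat] at h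
  have e : NN S * (NN S - 4) * (NN S - 6) = -16 * cast S (EZ * EZᵀ) := h
  rw [e, ← Matrix.mulVec_mulVec]
  have e2 : cast S (EZ * EZᵀ) *ᵥ u = emb (embT u) := by
    have : cast S (EZ * EZᵀ) = EZ.map (Int.cast : ℤ → S) * (EZᵀ).map (Int.cast : ℤ → S) := by
      have := Matrix.map_mul (L := EZ) (M := EZᵀ) (f := Int.castRingHom S)
      simpa using this
    rw [this, ← Matrix.mulVec_mulVec, EZ_mulVec]
    rfl
  rw [e2]
  have : (-16 : Matrix (Fin 4 × Fin 3) (Fin 4 × Fin 3) S) = (-16 : S) • 1 := by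
    ext x y
    by_cases h : x = y
    · subst h; simp [Matrix.ofNat_apply]
    · simp [Matrix.ofNat_apply, h]
  rw [this, Matrix.smul_mulVec, Matrix.one_mulVec]

/-- `(N-4) (N+2) (N-6) = 16 δ δᵀ` -/
lemma NN_0 (u : Fin 4 × Fin 3 → S) :
    ((NN S - 4) * (NN S + 2) * (NN S - 6)) *ᵥ u = (16 : S) • embd (embdT u) := by
  have h := congrArg (cast S) NZ_0
  simp only [map_mul, map_sub, map_add, map_ofNat] at h
  have e : (NN S - 4) * (NN S + 2) * (NN S - 6) = 16 * cast S (Matrix.vecMulVec dZ dZ) := h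
  rw [e, ← Matrix.mulVec_mulVec]
  have e2 : cast S (Matrix.vecMulVec dZ dZ) *ᵥ u = embd (embdT u) := by
    rw [← dZ_vec, embdT]
    funext x
    simp only [Matrix.mulVec, dotProduct, RingHom.mapMatrix_apply, Matrix.map_apply,
      Matrix.vecMulVec_apply, map_mul, eq_intCast, mul_sum, mul_assoc]
  rw [e2]
  have : (16 : Matrix (Fin 4 × Fin 3) (Fin 4 × Fin 3) S) = (16 : S) • 1 := by
    ext x y
    by_cases h : x = y
    · subst h; simp [Matrix.ofNat_apply]
    · simp [Matrix.ofNat_apply, h]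
  rw [this, Matrix.smul_mulVec, Matrix.one_mulVec]

lemma ofNat_mulVec (k : ℕ) [k.AtLeastTwo] (u : Fin 4 × Fin 3 → S) :
    (OfNat.ofNat k : Matrix (Fin 4 × Fin 3) (Fin 4 × Fin 3) S) *ᵥ u = (OfNat.ofNat k : S) • u := by
  have : (OfNat.ofNat k : Matrix (Fin 4 × Fin 3) (Fin 4 × Fin 3) S) = (OfNat.ofNat k : S) • 1 := by
    ext x y
    by_cases h : x = y
    · subst h
      simp only [Matrix.ofNat_apply, Matrix.smul_apply, Matrix.one_apply_eq, smul_eq_mul, mul_one,
        if_true]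
      rfl
    · simp [Matrix.ofNat_apply, h]
  rw [this, Matrix.smul_mulVec, Matrix.one_mulVec]

end ring

section alg
variable {S : Type*} [CommRing S] [Algebra ℝ S]

lemma smul_cancel {κ : Type*} {k : ℕ} (hk : k ≠ 0) {u v : κ → S} (h : (k : S) • u = (k : S) • v) :
    u = v := by
  have e : algebraMap ℝ S ((k : ℝ)⁻¹) * (k : S) = 1 := by
    rw [← map_natCast (algebraMap ℝ S) k, ← map_mul, inv_mul_cancel₀ (by exact_mod_cast hk),
      map_one]
  have := congrArg (fun z => algebraMap ℝ S ((k : ℝ)⁻¹) • z) h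
  simpa only [smul_smul, e, one_smul] using this

/-- The `-2` eigenspace is the image of the twistor embedding. -/
theorem eig_m2 {u : Fin 4 × Fin 3 → S} (h : NN S *ᵥ u = (-2 : S) • u) :
    (6 : S) • u = emb (embT u) := by
  have a6 : (NN S - 6) *ᵥ u = (-8 : S) • u := by
    rw [Matrix.sub_mulVec, ofNat_mulVec, h, ← sub_smul]; congr 1; ring
  have a4 : (NN S - 4) *ᵥ u = (-6 : S) • u := by
    rw [Matrix.sub_mulVec, ofNat_mulVec, h, ← sub_smul]; congr 1; ring
  have h1 := NN_m2 u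
  rw [← Matrix.mulVec_mulVec, ← Matrix.mulVec_mulVec, a6, Matrix.mulVec_smul, a4,
    Matrix.mulVec_smul, Matrix.mulVec_smul, h, smul_smul, smul_smul] at h1
  apply smul_cancel (k := 16) (by norm_num)
  push_cast
  rw [smul_smul]
  have h2 : (-1 : S) • ((-16 : S) • emb (embT u)) = (16 : S) • emb (embT u) := by
    rw [smul_smul]; congr 1; ring
  rw [← h2, ← h1, smul_smul]
  congr 1
  ring

/-- The kernel of `N` is spanned by `δ`. -/
theorem eig_0 {u : Fin 4 × Fin 3 → S} (h : NN S *ᵥ u = 0) :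
    (3 : S) • u = embd (embdT u) := by
  have a6 : (NN S - 6) *ᵥ u = (-6 : S) • u := by
    rw [Matrix.sub_mulVec, ofNat_mulVec, h, zero_sub, neg_smul]
  have a2 : (NN S + 2) *ᵥ u = (2 : S) • u := by
    rw [Matrix.add_mulVec, ofNat_mulVec, h, zero_add]
  have a4 : (NN S - 4) *ᵥ u = (-4 : S) • u := by
    rw [Matrix.sub_mulVec, ofNat_mulVec, h, zero_sub, neg_smul]
  have h1 := NN_0 u
  rw [← Matrix.mulVec_mulVec, ← Matrix.mulVec_mulVec, a6, Matrix.mulVec_smul, a2,
    Matrix.mulVec_smul, Matrix.mulVec_smul, a4, smul_smul, smul_smul] at h1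
  apply smul_cancel (k := 16) (by norm_num)
  push_cast
  rw [← h1, smul_smul]
  congr 1
  ring

end alg

/-- On the sum of the eigenspaces `4` and `6`, `N ≥ 4`. -/
theorem NN_ge (w : Fin 4 × Fin 3 → ℝ) (h : ((NN ℝ - 4) * (NN ℝ - 6)) *ᵥ w = 0) :
    4 * (w ⬝ᵥ w) ≤ w ⬝ᵥ (NN ℝ *ᵥ w) := by
  -- |N w - 5 w|² = |w|²
  have hs : ∀ u v : Fin 4 × Fin 3 → ℝ, u ⬝ᵥ (NN ℝ *ᵥ v) = (NN ℝ *ᵥ u) ⬝ᵥ v := by
    intro u v
    rw [Matrix.dotProduct_mulVec, ← Matrix.mulVec_transpose, NN_symm]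
  set v := NN ℝ *ᵥ w with hv
  have h1 : NN ℝ *ᵥ v = (10 : ℝ) • v - (24 : ℝ) • w := by
    rw [← Matrix.mulVec_mulVec, Matrix.sub_mulVec, Matrix.sub_mulVec, ofNat_mulVec, ofNat_mulVec,
      Matrix.mulVec_sub, Matrix.mulVec_smul, ← hv] at h
    have h2 : NN ℝ *ᵥ v = (NN ℝ *ᵥ v - (6 : ℝ) • v - (4 : ℝ) • (v - (6 : ℝ) • w))
        + (10 : ℝ) • v - (24 : ℝ) • w := by module
    rw [h2, h, zero_add]
  have h3 : v ⬝ᵥ v = 10 * (w ⬝ᵥ v) - 24 * (w ⬝ᵥ w) := by
    have : v ⬝ᵥ v = w ⬝ᵥ (NN ℝ *ᵥ v) := by rw [hs w v]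
    rw [this, h1, dotProduct_sub, dotProduct_smul, dotProduct_smul]; rfl
  have h4 : 0 ≤ (v - (4 : ℝ) • w) ⬝ᵥ (v - (4 : ℝ) • w) := by
    simp only [dotProduct]
    exact Finset.sum_nonneg fun i _ => mul_self_nonneg _
  have h5 : (v - (4 : ℝ) • w) ⬝ᵥ (v - (4 : ℝ) • w)
      = v ⬝ᵥ v - 8 * (w ⬝ᵥ v) + 16 * (w ⬝ᵥ w) := by
    rw [sub_dotProduct, dotProduct_sub, dotProduct_sub, smul_dotProduct, smul_dotProduct,
      dotProduct_smul, dotProduct_smul, dotProduct_comm v w]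
    simp only [smul_eq_mul]; ring
  rw [h5, h3] at h4
  linarith

end Crest.Agent.R249.C2_198
end

-- ▼ part R249/C2j_198

/-!
Traces of the square of the curvature: `∑_ij tr (Ω_ij Ω_ij)` for `Λ⁻`, `ℝ ⊕ Λ⁻`, `T` and tensor
products; the numbers needed in the index formula; the `Λ⁻`-block in terms of `F.flip`.
(row 249, part C2 of the blueprint, helper198)
-/

set_option autoImplicit false
set_option linter.unusedSectionVars false
set_option linter.unusedSimpArgs false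

namespace Crest.Agent.R249.C2_198

open Finset Matrix
open scoped Kronecker
open Crest.Agent.R249.Fr129

section gen
variable {n : ℕ} {S : Type*} [CommRing S] [Algebra ℝ S] (F : Frame n S)
variable {κ ι : Type*} [Fintype κ] [DecidableEq κ] [Fintype ι] [DecidableEq ι]

/-- `∑_ij tr (Ω_ij Ω_ij)` -/
def tO (a : Fin n → Matrix κ κ S) : S := ∑ i, ∑ j, (F.curv a i j * F.curv a i j).trace

lemma curv_trace {a : Fin n → Matrix κ κ S} (ha : Frame.Skew a) (i j : Fin n) :
    (F.curv a i j).trace = 0 := by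
  rw [Matrix.trace]
  refine sum_eq_zero fun x _ => ?_
  exact Frame.eq_zero_of_two (by
    have := F.curv_skew ha i j x x
    rw [Matrix.diag_apply]; linear_combination this)

/-- tensor products -/
theorem tO_tens {a : Fin n → Matrix κ κ S} {g : Fin n → Matrix ι ι S} (ha : Frame.Skew a) :
    tO F (Frame.tens a g) = (Fintype.card ι : S) * tO F a + (Fintype.card κ : S) * tO F g := by
  have key : ∀ i j, (F.curv (Frame.tens a g) i j * F.curv (Frame.tens a g) i j).trace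
      = (Fintype.card ι : S) * (F.curv a i j * F.curv a i j).trace
        + (Fintype.card κ : S) * (F.curv g i j * F.curv g i j).trace := by
    intro i j
    rw [curv_tens_eq, Matrix.add_mul, Matrix.mul_add, Matrix.mul_add, ← Matrix.mul_kronecker_mul,
      ← Matrix.mul_kronecker_mul, ← Matrix.mul_kronecker_mul, ← Matrix.mul_kronecker_mul,
      Matrix.trace_add, Matrix.trace_add, Matrix.trace_add, Matrix.trace_kronecker,
      Matrix.trace_kronecker, Matrix.trace_kronecker, Matrix.trace_kronecker]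
    simp only [Matrix.mul_one, Matrix.one_mul, Matrix.trace_one, curv_trace F ha]
    ring
  simp only [tO, key, sum_add_distrib, mul_sum]

end gen

variable {S : Type*} [CommRing S] [Algebra ℝ S] (F : Frame 4 S)

lemma cr_sq_trace (p : Fin 3 → S) : (cr p * cr p).trace = -2 * ∑ c, p c ^ 2 := by
  rw [Matrix.trace]
  simp only [Fin.sum_univ_three, Matrix.diag_apply, Matrix.mul_apply]
  simp [cr]; ring

lemma cr4_sq_trace (p : Fin 3 → S) : (cr4 p * cr4 p).trace = -2 * ∑ c, p c ^ 2 := by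
  rw [Matrix.trace]
  simp only [Fin.sum_univ_three, Fin.sum_univ_four, Matrix.diag_apply, Matrix.mul_apply]
  simp [cr4]; ring

/-- `|C|²` -/
noncomputable def CC2 : S := ∑ c, ∑ d, CC F c d ^ 2
/-- `|A|²` -/
noncomputable def AA2 : S := ∑ c, ∑ d, F.AA c d ^ 2

lemma EE_self (k : Fin 4) (c : Fin 3) : EE F k k c = 0 :=
  Frame.eq_zero_of_two (by have := EE_anti F k k c; linear_combination this)

lemma sum_EE2 {lam : S} (hE : F.Einstein lam) (c : Fin 3) :
    ∑ i, ∑ j, EE F i j c ^ 2 = 4 * ∑ d, CC F c d ^ 2 := by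
  obtain ⟨h1, h2, h3, h4, h5, h6⟩ := EE_eq F hE c
  simp only [Fin.sum_univ_four, Fin.sum_univ_three, EE_self, EE_anti F 1 0, EE_anti F 2 0,
    EE_anti F 3 0, EE_anti F 2 1, EE_anti F 3 1, EE_anti F 3 2, h1, h2, h3, h4, h5, h6]
  ring

lemma sum_PP2 {lam : S} (hE : F.Einstein lam) (c : Fin 3) :
    ∑ i, ∑ j, F.PP i j c ^ 2 = 4 * ∑ d, F.AA c d ^ 2 := by
  obtain ⟨h1, h2, h3, h4, h5, h6⟩ := F.PP_eq hE c
  simp only [Fin.sum_univ_four, Fin.sum_univ_three, F.PP_self, F.PP_anti 1 0, F.PP_anti 2 0,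
    F.PP_anti 3 0, F.PP_anti 2 1, F.PP_anti 3 1, F.PP_anti 3 2, h1, h2, h3, h4, h5, h6]
  ring

/-- `Λ⁻`: `∑ tr Ω² = -8 |C|²` -/
theorem tO_asc {lam : S} (hE : F.Einstein lam) : tO F (asc F) = -8 * CC2 F := by
  have h := sum_EE2 F hE
  simp only [tO, curv_asc, cr_sq_trace, CC2, ← mul_sum]
  have e : ∑ i, ∑ j, ∑ c, EE F i j c ^ 2 = ∑ c, ∑ i, ∑ j, EE F i j c ^ 2 := by
    rw [Finset.sum_congr rfl fun i _ => Finset.sum_comm, Finset.sum_comm]
  rw [e]
  simp only [h, ← mul_sum]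
  ring

/-- `ℝ ⊕ Λ⁻`: `∑ tr Ω² = -8 |C|²` -/
theorem tO_e0 {lam : S} (hE : F.Einstein lam) : tO F (e0 F) = -8 * CC2 F := by
  have h := sum_EE2 F hE
  simp only [tO, curv_e0, cr4_sq_trace, CC2, ← mul_sum]
  have e : ∑ i, ∑ j, ∑ c, EE F i j c ^ 2 = ∑ c, ∑ i, ∑ j, EE F i j c ^ 2 := by
    rw [Finset.sum_congr rfl fun i _ => Finset.sum_comm, Finset.sum_comm]
  rw [e]
  simp only [h, ← mul_sum]
  ring

lemma Rm_sq (k l : Fin 4) :
    ∑ p, ∑ q, F.Rm k l p q ^ 2 = ∑ c, F.PP k l c ^ 2 + ∑ c, EE F k l c ^ 2 := by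
  simp only [Fin.sum_univ_four, Fin.sum_univ_three, Frame.PP, EE, F.Rm_self34, F.R10, F.R20,
    F.R30, F.R21, F.R31, F.R32]
  simp
  ring

/-- `T`: `∑ tr Ω² = -4 (|A|² + |C|²)` -/
theorem tO_tan {lam : S} (hE : F.Einstein lam) : tO F F.tan = -4 * (AA2 F + CC2 F) := by
  have h1 := sum_EE2 F hE
  have h2 := sum_PP2 F hE
  have e0 : ∀ i j, (F.curv F.tan i j * F.curv F.tan i j).trace
      = - ∑ p, ∑ q, F.Rm i j p q ^ 2 := by
    intro i j
    rw [Matrix.trace, ← sum_neg_distrib]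
    refine sum_congr rfl fun p _ => ?_
    rw [Matrix.diag_apply, Matrix.mul_apply, ← sum_neg_distrib]
    refine sum_congr rfl fun q _ => ?_
    rw [F.curv_tan, F.curv_tan, F.Rm_anti34 i j q p]; ring
  simp only [tO, e0, Rm_sq, sum_neg_distrib, sum_add_distrib, CC2, AA2]
  have e : ∀ f : Fin 4 → Fin 4 → Fin 3 → S,
      ∑ i, ∑ j, ∑ c, f i j c = ∑ c, ∑ i, ∑ j, f i j c := by
    intro f
    rw [Finset.sum_congr rfl fun i _ => Finset.sum_comm, Finset.sum_comm]
  rw [e, e]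
  simp only [h1, h2, ← mul_sum]
  ring

/-- the number for `G = ℝ` -/
theorem strO_R {lam : S} (hE : F.Einstein lam) :
    tO F (e0 F) - tO F F.tan = 4 * (AA2 F - CC2 F) := by
  rw [tO_e0 F hE, tO_tan F hE]; ring

/-- the number for `G = Λ⁻` -/
theorem strO_L {lam : S} (hE : F.Einstein lam) :
    tO F (Frame.tens (e0 F) (asc F)) - tO F (Frame.tens F.tan (asc F))
      = 12 * (AA2 F - CC2 F) := by
  rw [tO_tens F (e0_skew F), tO_tens F (tan_skew F), tO_e0 F hE, tO_tan F hE, tO_asc F hE]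
  simp only [Fintype.card_fin]
  push_cast
  ring

/-! Zero order terms. -/

lemma D4_trace : (D4 S).trace = 12 := by
  rw [Matrix.trace]
  simp only [Fin.sum_univ_four, Matrix.diag_apply]
  simp [D4]; norm_num

lemma D4_sq_trace : (D4 S * D4 S).trace = 48 := by
  rw [Matrix.trace]
  simp only [Fin.sum_univ_four, Matrix.diag_apply, Matrix.mul_apply]
  simp [D4]; norm_num

variable {F}

/-- `G = ℝ`: `tr Q₀ = tr Q₁`, `tr Q₀² - tr Q₁² = 12 c²` (`lam = 3 c`). -/
theorem strQ_R {c : S} (hE : F.Einstein (3 * c)) (hC : CScal F c) :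
    (Q F (e0 F) (cK S)).trace = (Q F F.tan (fun i => (cK S i)ᵀ)).trace ∧
    (Q F (e0 F) (cK S) * Q F (e0 F) (cK S)).trace
      - (Q F F.tan (fun i => (cK S i)ᵀ) * Q F F.tan (fun i => (cK S i)ᵀ)).trace = 12 * c ^ 2 := by
  rw [Q0_scal hC, Q1_ein hE]
  simp only [Matrix.trace_smul, Matrix.smul_mul, Matrix.mul_smul, D4_trace, D4_sq_trace,
    Matrix.mul_one, Matrix.trace_one, Fintype.card_fin, smul_eq_mul]
  constructor <;> push_cast <;> ring

/-- `G = Λ⁻`: `tr Q₀ = tr Q₁`, `tr Q₀² - tr Q₁² = 132 c²` (`lam = 3 c`). -/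
theorem strQ_L {c : S} (hE : F.Einstein (3 * c)) (hC : CScal F c) :
    (Q F (Frame.tens (e0 F) (asc F)) (tw (cK S))).trace
      = (Q F (Frame.tens F.tan (asc F)) (fun i => (tw (ι := Fin 3) (cK S) i)ᵀ)).trace ∧
    (Q F (Frame.tens (e0 F) (asc F)) (tw (cK S))
        * Q F (Frame.tens (e0 F) (asc F)) (tw (cK S))).trace
      - (Q F (Frame.tens F.tan (asc F)) (fun i => (tw (ι := Fin 3) (cK S) i)ᵀ)
        * Q F (Frame.tens F.tan (asc F)) (fun i => (tw (ι := Fin 3) (cK S) i)ᵀ)).trace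
      = 132 * c ^ 2 := by
  rw [Q0_twist hC, Q1_twist hE]
  simp only [Matrix.trace_smul, Matrix.smul_mul, Matrix.mul_smul, NN_trace, NN_sq_trace,
    Matrix.mul_one, Matrix.trace_one, Fintype.card_prod, Fintype.card_fin, smul_eq_mul]
  constructor <;> push_cast <;> ring

/-! `Λ⁻`-block and the flipped frame of `FrH_129`. -/

variable (F)

/-- signs comparing the bases of `Λ⁻` -/
def sgn : Fin 3 → S := ![-1, -1, 1]

lemma CC_flip (c d : Fin 3) : CC F c d = sgn c * sgn d * F.flip.AA c d := by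
  fin_cases c <;> fin_cases d <;>
    simp [CC, EE, sgn, Frame.AA, Frame.PP, F.Rm_flip, Frame.e3] <;> ring

lemma CC2_flip : CC2 F = AA2 F.flip := by
  simp only [CC2, AA2, CC_flip, Fin.sum_univ_three]
  simp [sgn]

/-- `W⁻ = 0` in the form of `FrG_129`. -/
lemma cscal_of_WW {lam : S} (h : ∀ c d, F.flip.WW lam c d = 0) : CScal F (Frame.third * lam) := by
  intro c d
  have := h c d
  rw [Frame.WW, sub_eq_zero] at this
  rw [CC_flip, this]
  fin_cases c <;> fin_cases d <;> simp [sgn]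

end Crest.Agent.R249.C2_198
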