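import Crest.Agent.R249.FrmB_285
import Crest.Agent.R249.Vf2_281
import Crest.Agent.R249.SgD_129
import Crest.Agent.R249.C2j_198

-- ▼ part R249/Tz1_805
section

/-!
Row 249, leaf T0 (helper805), part 1: Gram-Schmidt frames, smooth and positively oriented on the
whole domain of the metric.
-/

set_option autoImplicit false

open Filter Topology Set
open scoped ContDiff
open Crest.GeometryTopology.CoordMetric Crest.GeometryTopology.ChartCurvature
open Crest.Agent.R202.Tens Crest.Agent.R247.Bo84 Crest.Agent.R249.FrmB_285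

noncomputable section

namespace Crest.Agent.R249.Tz1_805

variable {n : ℕ}

local notation "𝔼" => EuclideanSpace ℝ (Fin n)

variable {g : MetricField n} {U : Set (EuclideanSpace ℝ (Fin n))}

lemma contDiffOn_bil (hg : IsRiemannianOn g U) {V W : 𝔼 → 𝔼}
    (hV : ContDiffOn ℝ ∞ V U) (hW : ContDiffOn ℝ ∞ W U) :
    ContDiffOn ℝ ∞ (fun y => bil (g y) (V y) (W y)) U := by
  intro x hx
  exact (contDiffAt_bil hg hx le_rfl (hV.contDiffAt (hg.isOpen.mem_nhds hx))
    (hW.contDiffAt (hg.isOpen.mem_nhds hx))).contDiffWithinAt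

/-- Gram–Schmidt on the whole domain: upper triangular. -/
lemma exists_family_on (hg : IsRiemannianOn g U) (k : ℕ) (hk : k ≤ n) :
    ∃ e : ℕ → 𝔼 → 𝔼, (∀ i < k, ContDiffOn ℝ ∞ (e i) U) ∧
      (∀ y ∈ U, ∀ i < k, ∀ j < k, bil (g y) (e i y) (e j y) = if i = j then 1 else 0) ∧
      (∀ y ∈ U, ∀ i < k, ∀ j : Fin n, i < j → e i y j = 0) ∧
      (∀ y ∈ U, ∀ i < k, ∀ j : Fin n, (j : ℕ) = i → 0 < e i y j) := by
  induction k with
  | zero =>
    exact ⟨fun _ _ => 0, fun i hi => absurd hi (Nat.not_lt_zero i),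
      fun y _ i hi => absurd hi (Nat.not_lt_zero i), fun y _ i hi => absurd hi (Nat.not_lt_zero i),
      fun y _ i hi => absurd hi (Nat.not_lt_zero i)⟩
  | succ k ih =>
    obtain ⟨e, he, ho, ht, hp⟩ := ih (by omega)
    let v : 𝔼 := EuclideanSpace.single ⟨k, by omega⟩ 1
    let w : 𝔼 → 𝔼 := fun y => v - ∑ i ∈ Finset.range k, bil (g y) v (e i y) • e i y
    have hw : ContDiffOn ℝ ∞ w U := by
      refine contDiffOn_const.sub (ContDiffOn.sum fun i hi => ?_)
      have hi' := he i (Finset.mem_range.1 hi)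
      exact (contDiffOn_bil hg contDiffOn_const hi').smul hi'
    have hwk : ∀ y ∈ U, ∀ j : Fin n, (j : ℕ) = k → w y j = 1 := by
      intro y hy j hj
      have h1 : ∑ i ∈ Finset.range k, (bil (g y) v (e i y) • e i y) j = 0 := by
        refine Finset.sum_eq_zero fun i hi => ?_
        have := ht y hy i (Finset.mem_range.1 hi) j (by rw [hj]; exact Finset.mem_range.1 hi)
        simp [this]
      have hv : v j = 1 := by
        have : j = ⟨k, by omega⟩ := Fin.ext hj
        simp [v, this]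
      have h2 : (∑ i ∈ Finset.range k, bil (g y) v (e i y) • e i y) j = 0 := by
        rw [← h1]; simp
      change v j - (∑ i ∈ Finset.range k, bil (g y) v (e i y) • e i y) j = 1
      rw [h2, hv, sub_zero]
    have hwt : ∀ y ∈ U, ∀ j : Fin n, k < j → w y j = 0 := by
      intro y hy j hj
      have h1 : ∑ i ∈ Finset.range k, (bil (g y) v (e i y) • e i y) j = 0 := by
        refine Finset.sum_eq_zero fun i hi => ?_
        have := ht y hy i (Finset.mem_range.1 hi) j (by have := Finset.mem_range.1 hi; omega)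
        simp [this]
      have hv : v j = 0 := by
        have : j ≠ ⟨k, by omega⟩ := fun h => by rw [h] at hj; exact lt_irrefl _ hj
        simp [v, this]
      have h2 : (∑ i ∈ Finset.range k, bil (g y) v (e i y) • e i y) j = 0 := by
        rw [← h1]; simp
      change v j - (∑ i ∈ Finset.range k, bil (g y) v (e i y) • e i y) j = 0
      rw [h2, hv, sub_zero]
    have hN : ContDiffOn ℝ ∞ (fun y => bil (g y) (w y) (w y)) U := contDiffOn_bil hg hw hw
    have hpos : ∀ y ∈ U, 0 < bil (g y) (w y) (w y) := by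
      intro y hy
      refine bil_pos hg hy ?_
      intro h0
      have := hwk y hy ⟨k, by omega⟩ rfl
      rw [h0] at this
      simp at this
    let E : 𝔼 → 𝔼 := fun y => (Real.sqrt (bil (g y) (w y) (w y)))⁻¹ • w y
    have hE : ContDiffOn ℝ ∞ E U := by
      have hs : ContDiffOn ℝ ∞ (fun y => (Real.sqrt (bil (g y) (w y) (w y)))⁻¹) U :=
        (hN.sqrt fun y hy => (hpos y hy).ne').inv fun y hy => Real.sqrt_ne_zero'.2 (hpos y hy)
      exact hs.smul hw
    refine ⟨Function.update e k E, fun i hi => ?_, ?_, ?_, ?_⟩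
    · rcases Nat.lt_succ_iff_lt_or_eq.1 hi with h | h
      · rw [Function.update_of_ne h.ne]; exact he i h
      · rw [h, Function.update_self]; exact hE
    · intro y hyU
      have hy := ho y hyU
      have hp := hpos y hyU
      have hwe : ∀ j < k, bil (g y) (w y) (e j y) = 0 := by
        intro j hj
        simp only [w, map_sub, map_sum, map_smul, _root_.sub_apply, _root_.sum_apply,
          _root_.smul_apply, smul_eq_mul]
        rw [Finset.sum_eq_single j]
        · rw [hy j hj j hj, if_pos rfl]; ring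
        · intro i hi hij
          rw [hy i (Finset.mem_range.1 hi) j hj, if_neg hij, mul_zero]
        · intro h; exact absurd (Finset.mem_range.2 hj) h
      have hEe : ∀ j < k, bil (g y) (E y) (e j y) = 0 := by
        intro j hj
        simp only [E, map_smul, _root_.smul_apply, smul_eq_mul, hwe j hj, mul_zero]
      have hEE : bil (g y) (E y) (E y) = 1 := by
        simp only [E, map_smul, _root_.smul_apply, smul_eq_mul]
        have h1 := Real.mul_self_sqrt hp.le
        have h2 : Real.sqrt (bil (g y) (w y) (w y)) ≠ 0 := Real.sqrt_ne_zero'.2 hp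
        field_simp
        nlinarith [h1]
      intro i hi j hj
      rcases Nat.lt_succ_iff_lt_or_eq.1 hi with h | h <;>
        rcases Nat.lt_succ_iff_lt_or_eq.1 hj with h' | h'
      · rw [Function.update_of_ne h.ne, Function.update_of_ne h'.ne]; exact hy i h j h'
      · subst h'
        rw [Function.update_of_ne h.ne, Function.update_self, if_neg h.ne, bil_symm hg hyU]
        exact hEe i h
      · subst h
        rw [Function.update_of_ne h'.ne, Function.update_self, if_neg h'.ne']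
        exact hEe j h'
      · subst h; subst h'
        rw [Function.update_self, if_pos rfl]
        exact hEE
    · intro y hy i hi j hij
      rcases Nat.lt_succ_iff_lt_or_eq.1 hi with h | h
      · rw [Function.update_of_ne h.ne]; exact ht y hy i h j hij
      · subst h
        rw [Function.update_self]
        change (Real.sqrt (bil (g y) (w y) (w y)))⁻¹ * w y j = 0
        rw [hwt y hy j hij, mul_zero]
    · intro y hy i hi j hij
      rcases Nat.lt_succ_iff_lt_or_eq.1 hi with h | h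
      · rw [Function.update_of_ne h.ne]; exact hp y hy i h j hij
      · subst h
        rw [Function.update_self]
        change 0 < (Real.sqrt (bil (g y) (w y) (w y)))⁻¹ * w y j
        rw [hwk y hy j hij, mul_one]
        exact inv_pos.2 (Real.sqrt_pos.2 (hpos y hy))

/-- A smooth positively oriented orthonormal frame on the whole domain. -/
theorem exists_frame_on (hg : IsRiemannianOn g U) :
    ∃ e : Fin n → 𝔼 → 𝔼, (∀ i, ContDiffOn ℝ ∞ (e i) U) ∧
      ∀ y ∈ U, Orth (g y) (fun i => e i y) ∧ 0 < (mat fun i => e i y).det := by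
  obtain ⟨e, he, ho, ht, hp⟩ := exists_family_on hg n le_rfl
  refine ⟨fun i => e i, fun i => he i i.2, fun y hy => ⟨?_, ?_⟩⟩
  · intro a b
    rw [ho y hy a a.2 b b.2]
    simp [Fin.ext_iff]
  · have hT : (mat fun i : Fin n => e i y).BlockTriangular id := by
      intro i j hij
      exact ht y hy j j.2 i hij
    rw [Matrix.det_of_upperTriangular hT]
    exact Finset.prod_pos fun i _ => hp y hy i i.2 i rfl

end Crest.Agent.R249.Tz1_805
end
end

-- ▼ part R249/Tz2_805
section

/-!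
Row 249, leaf T0 (helper805), part 2: global Parseval frames of vector fields on a closed
Riemannian manifold.
-/

set_option autoImplicit false
set_option maxSynthPendingDepth 3
set_option linter.unusedSectionVars false

open Filter Topology Set Bundle Manifold
open scoped ContDiff
open Crest.GeometryTopology.CoordMetric Crest.GeometryTopology.ChartCurvature
  Crest.GeometryTopology.PointedLimit
open Crest.Agent.R202.Tens Crest.Agent.R247.Bo84 Crest.Agent.R249.FrmB_285 Crest.Agent.R249.Vf281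
  Crest.Agent.R249.Tz1_805

noncomputable section

namespace Crest.Agent.R249.Tz2_805

variable {n : ℕ} {M : Type*} [TopologicalSpace M] [ChartedSpace (EuclideanSpace ℝ (Fin n)) M]
  [IsManifold 𝓘(ℝ, EuclideanSpace ℝ (Fin n)) ∞ M]
  [RiemannianBundle (fun x : M => TangentSpace 𝓘(ℝ, EuclideanSpace ℝ (Fin n)) x)]
  [IsContMDiffRiemannianBundle 𝓘(ℝ, EuclideanSpace ℝ (Fin n)) ∞ (EuclideanSpace ℝ (Fin n))
      (fun x : M => TangentSpace 𝓘(ℝ, EuclideanSpace ℝ (Fin n)) x)]

local notation "𝔼" => EuclideanSpace ℝ (Fin n)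
local notation "𝓘E" => 𝓘(ℝ, EuclideanSpace ℝ (Fin n))

/-- the vector field on `M` which reads `V` in the chart at `x₀`. -/
def fld (x₀ : M) (V : EuclideanSpace ℝ (Fin n) → EuclideanSpace ℝ (Fin n)) (z : M) :
    TangentSpace 𝓘(ℝ, EuclideanSpace ℝ (Fin n)) z :=
  (dSy x₀ (chartAt (EuclideanSpace ℝ (Fin n)) x₀ z) (V (chartAt (EuclideanSpace ℝ (Fin n)) x₀ z)) :
    EuclideanSpace ℝ (Fin n))

lemma dCh_fld (x₀ : M) (V : 𝔼 → 𝔼) {z : M} (hz : z ∈ (chartAt 𝔼 x₀).source) :
    dCh x₀ z (fld x₀ V z) = V (chartAt 𝔼 x₀ z) := by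
  have h := dCh_dSy x₀ ((chartAt 𝔼 x₀).map_source hz) (V (chartAt 𝔼 x₀ z))
  have e := (chartAt 𝔼 x₀).left_inv hz
  have key : ∀ (w : M) (_ : w = z),
      dCh x₀ w (dSy x₀ (chartAt 𝔼 x₀ z) (V (chartAt 𝔼 x₀ z)) : 𝔼) =
      dCh x₀ z (dSy x₀ (chartAt 𝔼 x₀ z) (V (chartAt 𝔼 x₀ z)) : 𝔼) := by
    intro w hw; subst hw; rfl
  rw [← h]
  exact (key _ e).symm

lemma vCh_fld (x₀ : M) (V : 𝔼 → 𝔼) {y : 𝔼} (hy : y ∈ (chartAt 𝔼 x₀).target) :
    vCh n x₀ (fld x₀ V) y = V y := by
  rw [vCh, dCh_fld x₀ V ((chartAt 𝔼 x₀).map_target hy), (chartAt 𝔼 x₀).right_inv hy]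

lemma inner_fld (x₀ : M) (V W : 𝔼 → 𝔼) {z : M} (hz : z ∈ (chartAt 𝔼 x₀).source) :
    inner ℝ (fld x₀ V z) (fld x₀ W z)
      = bil (chartMetric n M x₀ (chartAt 𝔼 x₀ z)) (V (chartAt 𝔼 x₀ z)) (W (chartAt 𝔼 x₀ z)) := by
  exact (inner_eq_bil x₀ hz _ _).trans (by rw [dCh_fld x₀ V hz, dCh_fld x₀ W hz])

lemma VSm_fld (x₀ : M) {V : 𝔼 → 𝔼} (hV : ContDiffOn ℝ ∞ V (chartAt 𝔼 x₀).target) {z : M}
    (hz : z ∈ (chartAt 𝔼 x₀).source) : VSm n ∞ (fld x₀ V) z := by
  refine VSm.of_chart le_rfl hz ?_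
  have hy := (chartAt 𝔼 x₀).map_source hz
  refine (hV.contDiffAt ((chartAt 𝔼 x₀).open_target.mem_nhds hy)).congr_of_eventuallyEq ?_
  filter_upwards [(chartAt 𝔼 x₀).open_target.mem_nhds hy] with w hw
  exact vCh_fld x₀ V hw

variable (n M) in
/-- A global Parseval frame of smooth vector fields. -/
structure PF (κ : Type) [Fintype κ] where
  s : κ → (p : M) → TangentSpace 𝓘(ℝ, EuclideanSpace ℝ (Fin n)) p
  sm : ∀ A z, VSm n ∞ (s A) z
  pars : ∀ (z : M) (v : TangentSpace 𝓘(ℝ, EuclideanSpace ℝ (Fin n)) z),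
    ∑ A, (inner ℝ (s A z) v : ℝ) • s A z = v

/-- an orthonormal family of `n` vectors resolves the identity -/
lemma sum_frame {z : M} {e : Fin n → TangentSpace 𝓘E z}
    (he : ∀ a b, inner ℝ (e a) (e b) = if a = b then (1:ℝ) else 0) (v : TangentSpace 𝓘E z) :
    ∑ i, (inner ℝ (e i) v : ℝ) • e i = v := by
  have : FiniteDimensional ℝ (TangentSpace 𝓘E z) := inferInstanceAs (FiniteDimensional ℝ 𝔼)
  have hon : Orthonormal ℝ e := by
    rw [orthonormal_iff_ite]
    intro i j
    exact he i j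
  have hfr : Module.finrank ℝ (TangentSpace 𝓘E z) = n := finrank_euclideanSpace_fin
  have hsp : ⊤ ≤ Submodule.span ℝ (Set.range e) := by
    have := hon.linearIndependent.span_eq_top_of_card_eq_finrank'
      (by rw [Fintype.card_fin]; exact hfr.symm)
    rw [this]
  have h := (OrthonormalBasis.mk hon hsp).sum_repr v
  conv_rhs => rw [← h]
  refine Finset.sum_congr rfl fun i _ => ?_
  rw [OrthonormalBasis.repr_apply_apply, OrthonormalBasis.coe_mk]

lemma VSm_zero (z : M) : VSm n ∞ (fun q : M => (0 : TangentSpace 𝓘E q)) z := by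
  have : vCh n z (fun q : M => (0 : TangentSpace 𝓘E q)) = fun _ => (0:𝔼) := by
    funext y
    exact map_zero _
  rw [VSm, this]
  exact contDiffAt_const

lemma VSm_congr {X Y : (p : M) → TangentSpace 𝓘E p} {z : M} (h : ∀ᶠ q in 𝓝 z, X q = Y q)
    (hY : VSm n ∞ Y z) : VSm n ∞ X z := by
  have hc : ContinuousAt (chartAt 𝔼 z).symm (chartCentre n M z) :=
    (chartAt 𝔼 z).continuousAt_symm (centre_mem z)
  have h2 : (chartAt 𝔼 z).symm (chartCentre n M z) = z :=
    (chartAt 𝔼 z).left_inv (mem_chart_source 𝔼 z)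
  refine ContDiffAt.congr_of_eventuallyEq hY ?_
  rw [ContinuousAt, h2] at hc
  filter_upwards [hc.eventually h] with y hy
  rw [vCh, vCh, hy]

/-- Existence of Parseval frames on closed manifolds. -/
theorem exists_PF [CompactSpace M] [T2Space M] :
    ∃ m : ℕ, Nonempty (PF n M (Fin m × Fin n)) := by
  classical
  -- local frames
  choose e he hor using fun x : M => exists_frame_on (isRiemannianOn_chartMetric (n := n) x)
  -- bump functions
  have hb : ∀ x : M, ∃ f : SmoothBumpFunction 𝓘E x, True := fun x =>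
    ⟨Classical.choice inferInstance, trivial⟩
  choose f _ using hb
  have hopen : ∀ x : M, IsOpen (Function.support (f x)) := fun x => (f x).isOpen_support
  obtain ⟨t, ht⟩ := isCompact_univ.elim_finite_subcover (fun x : M => Function.support (f x)) hopen
    (fun x _ => mem_iUnion.2 ⟨x, (f x).c_mem_support⟩)
  let m := t.card
  let c : Fin m → M := fun i => (t.equivFin.symm i : M)
  have hcov : ∀ z : M, ∃ i : Fin m, f (c i) z ≠ 0 := by
    intro z
    obtain ⟨x, hx, hz⟩ := mem_iUnion₂.1 (ht (mem_univ z))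
    refine ⟨t.equivFin ⟨x, hx⟩, ?_⟩
    have : c (t.equivFin ⟨x, hx⟩) = x := by simp [c]
    rw [this]; exact hz
  let F : M → ℝ := fun z => ∑ i, (f (c i) z) ^ 2
  have hFpos : ∀ z, 0 < F z := by
    intro z
    obtain ⟨i, hi⟩ := hcov z
    exact Finset.sum_pos' (fun j _ => sq_nonneg _) ⟨i, Finset.mem_univ _, by positivity⟩
  have hfsm : ∀ i, ContMDiff 𝓘E 𝓘(ℝ, ℝ) ∞ (f (c i)) := fun i => (f (c i)).contMDiff
  have hFsm : ContMDiff 𝓘E 𝓘(ℝ, ℝ) ∞ F := by
    have : ∀ i, ContMDiff 𝓘E 𝓘(ℝ, ℝ) ∞ (fun z => (f (c i) z) ^ 2) := fun i => (hfsm i).pow 2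
    exact contMDiff_finsetSum (t := Finset.univ) fun i _ => this i
  let h : Fin m → M → ℝ := fun i z => f (c i) z * (Real.sqrt (F z))⁻¹
  have hhsm : ∀ i, ContMDiff 𝓘E 𝓘(ℝ, ℝ) ∞ (h i) := by
    intro i
    have h1 : ContMDiff 𝓘E 𝓘(ℝ, ℝ) ∞ (fun z => (Real.sqrt (F z))⁻¹) := by
      intro z
      have h2 : ContDiffAt ℝ ∞ (fun r : ℝ => (Real.sqrt r)⁻¹) (F z) :=
        (contDiffAt_id.sqrt (hFpos z).ne').inv (Real.sqrt_ne_zero'.2 (hFpos z))
      exact h2.contMDiffAt.comp z (hFsm z)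
    exact (hfsm i).mul h1
  have hhsq : ∀ z, ∑ i, h i z ^ 2 = 1 := by
    intro z
    have h1 : ∀ i, h i z ^ 2 = (f (c i) z) ^ 2 / F z := by
      intro i
      simp only [h]
      rw [mul_pow, inv_pow, Real.sq_sqrt (hFpos z).le]; rfl
    simp only [h1]
    rw [← Finset.sum_div]
    exact div_self (hFpos z).ne'
  have hsupp : ∀ i z, z ∉ (chartAt 𝔼 (c i)).source → h i z = 0 := by
    intro i z hz
    have : f (c i) z = 0 := by
      by_contra hne
      exact hz ((f (c i)).support_subset_source hne)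
    simp only [h, this, zero_mul]
  refine ⟨m, ⟨⟨fun A z => h A.1 z • fld (c A.1) (e (c A.1) A.2) z, ?_, ?_⟩⟩⟩
  · rintro ⟨i, a⟩ z
    by_cases hz : z ∈ tsupport (f (c i))
    · have hzs := (f (c i)).tsupport_subset_chartAt_source hz
      exact VSm.smul le_rfl (hhsm i z) (VSm_fld (c i) (he (c i) a) hzs)
    · refine VSm_congr ?_ (VSm_zero z)
      have hev : ∀ᶠ q in 𝓝 z, q ∉ tsupport (f (c i)) :=
        (isClosed_tsupport _).isOpen_compl.mem_nhds hz
      filter_upwards [hev] with q hq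
      have : f (c i) q = 0 := image_eq_zero_of_notMem_tsupport hq
      simp only [h, this, zero_mul, zero_smul]
  · intro z v
    rw [Fintype.sum_prod_type]
    have h1 : ∀ i, ∑ a, (inner ℝ (h i z • fld (c i) (e (c i) a) z) v : ℝ)
        • (h i z • fld (c i) (e (c i) a) z) = (h i z ^ 2) • v := by
      intro i
      by_cases hz : z ∈ (chartAt 𝔼 (c i)).source
      · have ho : ∀ a b, inner ℝ (fld (c i) (e (c i) a) z) (fld (c i) (e (c i) b) z)
            = if a = b then (1:ℝ) else 0 := by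
          intro a b
          rw [inner_fld (c i) _ _ hz]
          exact (hor (c i) _ ((chartAt 𝔼 (c i)).map_source hz)).1 a b
        conv_rhs => rw [← sum_frame ho v, Finset.smul_sum]
        refine Finset.sum_congr rfl fun a _ => ?_
        rw [real_inner_smul_left, smul_smul, smul_smul]
        congr 1; ring
      · simp [hsupp i z hz]
    simp only [h1]
    rw [← Finset.sum_smul, hhsq, one_smul]

end Crest.Agent.R249.Tz2_805
end
end

-- ▼ part R249/Tz0_805

/-!
Row 249, leaf T0 (helper805), part 0: FROZEN DEFINITIONS of the M-level objects of part C.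

* `Bun n M κ`  : a vector bundle with metric connection, embedded in the trivial bundle `ℝ^κ`:
                 `p` the projection, `W` the connection form (skew matrix of smooth vector fields);
* `Bun.cv u a` : `(∇ u)_a = grad u_a + ∑_b u_b W_ab`;  `Bun.Sec u` : `p u = u`;
* `Bun.Om D X Y a b` : curvature;
* `fg z f`, `vg z e X k` : germs at the centre of the chart at `z` of a function, of a component of a
                 vector field in the frame `e` (junk value 0 when not smooth);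
* `LF D z h a j` : `j` (germs of `κ × ι` matrices) is a local orthonormal frame of `D`, with connection
                 matrices `a` over 129's frame ring `h.frameOf`;
* `Sym D0 D1`  : a symbol `T ⊗ E0 → E1` (matrix of smooth vector fields);
* `CLoc`       : at `z` the symbol is a parallel Clifford symbol `c` (198's `Par`, `clif`);
* `opA`, `opB` : the first order operators; `potQ` : the potential `-(1/2) ∑ c_iᵀ c_j Ω_ij`.
-/

set_option autoImplicit false
set_option maxSynthPendingDepth 3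
set_option linter.unusedSectionVars false

open Filter Topology Set Bundle Manifold Matrix
open scoped ContDiff
open Crest.GeometryTopology.CoordMetric Crest.GeometryTopology.ChartCurvature
  Crest.GeometryTopology.PointedLimit
open Crest.Agent.R202.Tens Crest.Agent.R247.Bo84 Crest.Agent.R249.FrmB_285 Crest.Agent.R249.Vf281
  Crest.Agent.R249.Tz1_805 Crest.Agent.R249.Tz2_805
open Crest.Agent.R249.Fr129 Crest.Agent.R249.Sg129 Crest.Agent.R249.C2_198

noncomputable section

namespace Crest.Agent.R249.Tz805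

variable {n : ℕ} {M : Type*} [TopologicalSpace M] [ChartedSpace (EuclideanSpace ℝ (Fin n)) M]
  [IsManifold 𝓘(ℝ, EuclideanSpace ℝ (Fin n)) ∞ M]
  [RiemannianBundle (fun x : M => TangentSpace 𝓘(ℝ, EuclideanSpace ℝ (Fin n)) x)]
  [IsContMDiffRiemannianBundle 𝓘(ℝ, EuclideanSpace ℝ (Fin n)) ∞ (EuclideanSpace ℝ (Fin n))
      (fun x : M => TangentSpace 𝓘(ℝ, EuclideanSpace ℝ (Fin n)) x)]

local notation "𝔼" => EuclideanSpace ℝ (Fin n)
local notation "𝓘E" => 𝓘(ℝ, EuclideanSpace ℝ (Fin n))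

variable (n M) in
/-- a bundle with metric connection inside a trivial bundle -/
structure Bun (κ : Type) [Fintype κ] where
  /-- connection form -/
  W : κ → κ → (z : M) → TangentSpace 𝓘(ℝ, EuclideanSpace ℝ (Fin n)) z
  /-- projection -/
  p : κ → κ → M → ℝ
  smW : ∀ a b z, VSm n ∞ (W a b) z
  skew : ∀ a b z, W a b z = - W b a z
  smp : ∀ a b, ContMDiff 𝓘(ℝ, EuclideanSpace ℝ (Fin n)) 𝓘(ℝ, ℝ) ∞ (p a b)
  symmp : ∀ a b z, p a b z = p b a z
  idem : ∀ a b z, ∑ c, p a c z * p c b z = p a b z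
  /-- `dp + [W, p] = 0` -/
  par : ∀ a b z, mgrad n (p a b) z + ∑ c, (p c b z • W a c z - p a c z • W c b z) = 0

namespace Bun

variable {κ : Type} [Fintype κ] (D : Bun n M κ)

/-- the covariant derivative of a section -/
def cv (u : κ → M → ℝ) (a : κ) (z : M) : TangentSpace 𝓘(ℝ, EuclideanSpace ℝ (Fin n)) z :=
  mgrad n (u a) z + ∑ b, u b z • D.W a b z

/-- sections of the bundle -/
def Sec (u : κ → M → ℝ) : Prop := ∀ a z, ∑ b, D.p a b z * u b z = u a z

/-- curvature of the connection `d + W` (of the trivial bundle) -/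
def Om (X Y : (z : M) → TangentSpace 𝓘(ℝ, EuclideanSpace ℝ (Fin n)) z) (a b : κ) (z : M) : ℝ :=
  inner ℝ (mCov n (D.W a b) z (X z)) (Y z) - inner ℝ (mCov n (D.W a b) z (Y z)) (X z)
    + ∑ c, (inner ℝ (D.W a c z) (X z) * inner ℝ (D.W c b z) (Y z)
      - inner ℝ (D.W a c z) (Y z) * inner ℝ (D.W c b z) (X z))

end Bun

/-- smooth vector valued functions -/
def SmU {κ : Type} (u : κ → M → ℝ) : Prop := ∀ a, ContMDiff 𝓘E 𝓘(ℝ, ℝ) ∞ (u a)

/-! ### germs at the centre of the chart at `z` -/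

open Classical in
/-- germ of a function on `M` -/
def fg (z : M) (f : M → ℝ) : SG (chartCentre n M z) :=
  if hf : ContDiffAt ℝ ∞ (f ∘ (chartAt (EuclideanSpace ℝ (Fin n)) z).symm) (chartCentre n M z)
  then germ _ hf else 0

open Classical in
/-- germ of the `k`-th component of a vector field in the frame `e` -/
def vg (z : M) (e : Fin n → EuclideanSpace ℝ (Fin n) → EuclideanSpace ℝ (Fin n))
    (X : (p : M) → TangentSpace 𝓘(ℝ, EuclideanSpace ℝ (Fin n)) p) (k : Fin n) :
    SG (chartCentre n M z) :=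
  if hf : ContDiffAt ℝ ∞ (fun y => bil (chartMetric n M z y) (vCh n z X y) (e k y))
    (chartCentre n M z) then germ _ hf else 0

section local_

variable {z : M} {e : Fin n → EuclideanSpace ℝ (Fin n) → EuclideanSpace ℝ (Fin n)}

/-- `j` is a local orthonormal frame of `D` at `z`, with connection matrices `a`. -/
structure LF {κ : Type} [Fintype κ] (D : Bun n M κ)
    (h : ONF (chartMetric n M z) (chartAt (EuclideanSpace ℝ (Fin n)) z).target
      (chartCentre n M z) e)
    {ι : Type} [Fintype ι] [DecidableEq ι]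
    (a : Fin n → Matrix ι ι (SG (chartCentre n M z)))
    (j : Matrix κ ι (SG (chartCentre n M z))) : Prop where
  jtj : jᵀ * j = 1
  jjt : j * jᵀ = Matrix.of fun x y => fg z (D.p x y)
  dj : ∀ k, dM (h.frameOf.D k) j + (Matrix.of fun x y => vg z e (D.W x y) k) * j = j * a k

/-- at `z` the symbol `cc` is the parallel Clifford symbol `c`, in local frames `j0`, `j1` -/
structure CLoc {κ0 κ1 : Type} [Fintype κ0] [Fintype κ1] (D0 : Bun n M κ0) (D1 : Bun n M κ1)
    (cc : κ1 → κ0 → (p : M) → TangentSpace 𝓘(ℝ, EuclideanSpace ℝ (Fin n)) p)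
    (h : ONF (chartMetric n M z) (chartAt (EuclideanSpace ℝ (Fin n)) z).target
      (chartCentre n M z) e)
    {ι0 ι1 : Type} [Fintype ι0] [DecidableEq ι0] [Fintype ι1] [DecidableEq ι1]
    (a0 : Fin n → Matrix ι0 ι0 (SG (chartCentre n M z)))
    (a1 : Fin n → Matrix ι1 ι1 (SG (chartCentre n M z)))
    (c : Fin n → Matrix ι1 ι0 (SG (chartCentre n M z)))
    (j0 : Matrix κ0 ι0 (SG (chartCentre n M z)))
    (j1 : Matrix κ1 ι1 (SG (chartCentre n M z))) : Prop where
  l0 : LF D0 h a0 j0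
  l1 : LF D1 h a1 j1
  par : Par h.frameOf a0 a1 c
  cl0 : ∀ i j, (c i)ᵀ * c j + (c j)ᵀ * c i = if i = j then 2 else 0
  cl1 : ∀ i j, c i * (c j)ᵀ + c j * (c i)ᵀ = if i = j then 2 else 0
  sym : ∀ x y k, vg z e (cc x y) k = (j1 * c k * j0ᵀ) x y

end local_

/-! ### operators -/

section op

variable {κ κ0 κ1 : Type} [Fintype κ] [Fintype κ0] [Fintype κ1]

/-- `(A u)_x = ∑_y ⟨∇u_y, cc_xy⟩` -/
def opA (D0 : Bun n M κ0) (cc : κ1 → κ0 → (p : M) → TangentSpace 𝓘E p)
    (u : κ0 → M → ℝ) (x : κ1) (z : M) : ℝ :=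
  ∑ y, inner ℝ (D0.cv u y z) (cc x y z)

/-- `(B w)_y = - ∑_x ⟨∇w_x, cc_xy⟩` -/
def opB (D1 : Bun n M κ1) (cc : κ1 → κ0 → (p : M) → TangentSpace 𝓘E p)
    (w : κ1 → M → ℝ) (y : κ0) (z : M) : ℝ :=
  - ∑ x, inner ℝ (D1.cv w x z) (cc x y z)

/-- the potential `-(1/2) ∑_ij c_iᵀ c_j Ω_ij` of `B A` on `D0` -/
def potQ (s : PF n M κ) (D0 : Bun n M κ0) (cc : κ1 → κ0 → (p : M) → TangentSpace 𝓘E p)
    (y y' : κ0) (z : M) : ℝ :=
  - (1 / 2) * ∑ y'', ∑ x, ∑ C, ∑ D, inner ℝ (cc x y z) (s.s C z) * inner ℝ (cc x y'' z) (s.s D z)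
    * D0.Om (s.s C) (s.s D) y'' y' z

end op

variable (n M) in
/-- a Clifford pair on `M`: two bundles, a symbol, Clifford and parallel at every point; the two
potentials are symmetric. -/
structure CPair (κ κ0 κ1 : Type) [Fintype κ] [Fintype κ0] [Fintype κ1] where
  s : PF n M κ
  D0 : Bun n M κ0
  D1 : Bun n M κ1
  cc : κ1 → κ0 → (p : M) → TangentSpace 𝓘(ℝ, EuclideanSpace ℝ (Fin n)) p
  smc : ∀ x y z, VSm n ∞ (cc x y) z
  loc : ∀ z, ∃ e, ∃ h : ONF (chartMetric n M z) (chartAt (EuclideanSpace ℝ (Fin n)) z).target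
      (chartCentre n M z) e, ∃ (ι0 ι1 : Type) (_ : Fintype ι0) (_ : DecidableEq ι0)
      (_ : Fintype ι1) (_ : DecidableEq ι1) (a0 : Fin n → Matrix ι0 ι0 (SG (chartCentre n M z)))
      (a1 : Fin n → Matrix ι1 ι1 (SG (chartCentre n M z)))
      (c : Fin n → Matrix ι1 ι0 (SG (chartCentre n M z)))
      (j0 : Matrix κ0 ι0 (SG (chartCentre n M z))) (j1 : Matrix κ1 ι1 (SG (chartCentre n M z))),
      CLoc D0 D1 cc h a0 a1 c j0 j1
  sym0 : ∀ y y' z, potQ s D0 cc y y' z = potQ s D0 cc y' y z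
  sym1 : ∀ x x' z, potQ s D1 (fun y x => cc x y) x x' z = potQ s D1 (fun y x => cc x y) x' x z

/-! ### raw objects of the construction (the `Bun`s are in `Tz3`, `Tz4`, ...) -/

section raw

variable {κ : Type} [Fintype κ] (s : PF n M κ)

/-- projection of the tangent bundle: `p_AB = ⟨s_A, s_B⟩` -/
def tanP (A B : κ) (z : M) : ℝ := inner ℝ (s.s A z) (s.s B z)

open Classical in
/-- connection form of the tangent bundle:
`W_AB = ∑_C ⟨∇_{s_C} s_B, s_A⟩ s_C - ∑_C (δ_AC - p_AC) grad p_CB` -/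
def tanW (A B : κ) (z : M) : TangentSpace 𝓘(ℝ, EuclideanSpace ℝ (Fin n)) z :=
  ∑ C, inner ℝ (mCov n (s.s B) z (s.s C z)) (s.s A z) • s.s C z
    - ∑ C, ((if A = C then 1 else 0) - tanP s A C z) • mgrad n (tanP s C B) z

end raw

section raw4

variable {M4 : Type*} [TopologicalSpace M4] [ChartedSpace (EuclideanSpace ℝ (Fin 4)) M4]
  [IsManifold 𝓘(ℝ, EuclideanSpace ℝ (Fin 4)) ∞ M4]
  [RiemannianBundle (fun x : M4 => TangentSpace 𝓘(ℝ, EuclideanSpace ℝ (Fin 4)) x)]
  [IsContMDiffRiemannianBundle 𝓘(ℝ, EuclideanSpace ℝ (Fin 4)) ∞ (EuclideanSpace ℝ (Fin 4))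
      (fun x : M4 => TangentSpace 𝓘(ℝ, EuclideanSpace ℝ (Fin 4)) x)]

/-- the frame `e` near `z` is positive for the volume form `vol`: the volume of fields is the
determinant of their components. -/
def VolAt (vol : (z : M4) → (Fin 4 → TangentSpace 𝓘(ℝ, EuclideanSpace ℝ (Fin 4)) z) → ℝ) (z : M4)
    (e : Fin 4 → EuclideanSpace ℝ (Fin 4) → EuclideanSpace ℝ (Fin 4)) : Prop :=
  ∀ᶠ y in 𝓝 (chartCentre 4 M4 z),
    ∀ X : Fin 4 → (p : M4) → TangentSpace 𝓘(ℝ, EuclideanSpace ℝ (Fin 4)) p,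
    vol ((chartAt (EuclideanSpace ℝ (Fin 4)) z).symm y)
        (fun i => X i ((chartAt (EuclideanSpace ℝ (Fin 4)) z).symm y))
      = (Matrix.of fun i j => bil (chartMetric 4 M4 z y) (vCh 4 z (X i) y) (e j y)).det

/-- `vol` is a volume form: near every point there is a frame positive for it. -/
def IsVol (vol : (z : M4) → (Fin 4 → TangentSpace 𝓘(ℝ, EuclideanSpace ℝ (Fin 4)) z) → ℝ) : Prop :=
  ∀ z, ∃ e, ONF (chartMetric 4 M4 z) (chartAt (EuclideanSpace ℝ (Fin 4)) z).target
    (chartCentre 4 M4 z) e ∧ VolAt vol z e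

variable {κ : Type} [Fintype κ] (s : PF 4 M4 κ)
  (vol : (z : M4) → (Fin 4 → TangentSpace 𝓘(ℝ, EuclideanSpace ℝ (Fin 4)) z) → ℝ)

/-- projection of `Λ⁻ ⊆ T ⊗ T`: `(1/4)(p_AC p_BD - p_AD p_BC - vol(s_A, s_B, s_C, s_D))` -/
def lamP (x y : κ × κ) (z : M4) : ℝ :=
  (1 / 4) * (tanP s x.1 y.1 z * tanP s x.2 y.2 z - tanP s x.1 y.2 z * tanP s x.2 y.1 z
    - vol z ![s.s x.1 z, s.s x.2 z, s.s y.1 z, s.s y.2 z])

/-- the symbol of `D : (ℝ ⊕ Λ⁻) → T`, `κ0 = Option (κ × κ)`, `κ1 = κ`:
`cc_{A, none} = s_A`, `cc_{A, (C, D)} = 2 ∑_B p⁻_{(A,B),(C,D)} s_B`. -/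
def ccR (A : κ) (x : Option (κ × κ)) (z : M4) : TangentSpace 𝓘(ℝ, EuclideanSpace ℝ (Fin 4)) z :=
  match x with
  | none => s.s A z
  | some y => 2 • ∑ B, lamP s vol (A, B) y z • s.s B z

/-- twisting of a symbol by a bundle with projection `q`. -/
def ccT {κ0 κ1 κ2 : Type} (cc : κ1 → κ0 → (p : M4) → TangentSpace 𝓘(ℝ, EuclideanSpace ℝ (Fin 4)) p)
    (q : κ2 → κ2 → M4 → ℝ) (x : κ1 × κ2) (y : κ0 × κ2) (z : M4) :
    TangentSpace 𝓘(ℝ, EuclideanSpace ℝ (Fin 4)) z :=
  q x.2 y.2 z • cc x.1 y.1 z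

end raw4

end Crest.Agent.R249.Tz805
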