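import Crest.Agent.R244.ManChart
import Crest.Agent.R247.Bo5_84
import Mathlib

-- ▼ part R249/OriA_285
section

/-!
# R249, leaf ORI (helper285), part A: restriction of a glued manifold to an open set

`G.sub C` : the gluing data of the open subset `C` of `G.M`; `subMap : (G.sub C).M → G.M` is an
open embedding with range `C`; metric data restrict.
-/

set_option autoImplicit false
open Bundle Set Filter Topology Bornology
open scoped ContDiff Manifold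
open Crest.GeometryTopology.CoordMetric Crest.GeometryTopology.ChartCurvature
open Crest.Agent.R244.Man

noncomputable section

namespace Crest.Agent.R249.OriA_285

variable {ι : Type} {n : ℕ}

local notation "E" => EuclideanSpace ℝ (Fin n)

/-- restriction of gluing data to an open subset of the glued manifold. -/
def sub (G : Glue ι n) (C : Set G.M) (hC : IsOpen C) (m₀ : G.M) (hm₀ : m₀ ∈ C) : Glue ι n where
  U i := {z | z ∈ G.U i ∧ G.F i z ∈ C}
  isOpen_U i := (G.continuousOn_F i).isOpen_inter_preimage (G.isOpen_U i) hC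
  r :=
    { r := fun x y => G.r ⟨x.1, x.2.1, x.2.2.1⟩ ⟨y.1, y.2.1, y.2.2.1⟩
      iseqv :=
        ⟨fun x => G.r.refl _, fun {x y} h => G.r.symm h, fun {x y z} h h' => G.r.trans h h'⟩ }
  etale := by
    rintro i j ⟨p, hp⟩ ⟨q, hq⟩ h
    obtain ⟨τ, h1, h2, h3⟩ := G.etale i j ⟨p, hp.1⟩ ⟨q, hq.1⟩ h
    refine ⟨τ, h1, h2, ?_⟩
    have hop : IsOpen {z | z ∈ G.U i ∧ G.F i z ∈ C} :=
      (G.continuousOn_F i).isOpen_inter_preimage (G.isOpen_U i) hC
    filter_upwards [h3, hop.mem_nhds hp] with z hz hz'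
    obtain ⟨a, b, c⟩ := hz
    refine ⟨hz', ⟨b, ?_⟩, c⟩
    rw [← (G.F_eq_F a b).2 c]
    exact hz'.2
  inj := by
    rintro i ⟨p, hp⟩
    obtain ⟨V, hV, h⟩ := G.inj i ⟨p, hp.1⟩
    exact ⟨V, hV, fun z w hz hw hzV hwV hr => h z w hz.1 hw.1 hzV hwV hr⟩
  base := ⟨G.idx m₀, G.pt m₀, G.pt_mem m₀, by rw [G.F_pt]; exact hm₀⟩

variable {G : Glue ι n} {C : Set G.M} {hC : IsOpen C} {m₀ : G.M} {hm₀ : m₀ ∈ C}



/-- the inclusion of the glued open subset. -/
def subMap (G : Glue ι n) (C : Set G.M) (hC : IsOpen C) (m₀ : G.M) (hm₀ : m₀ ∈ C) :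
    (sub G C hC m₀ hm₀).M → G.M :=
  Quotient.lift (fun x => G.proj ⟨x.1, x.2.1, x.2.2.1⟩) (fun x y h => (G.proj_eq_proj).2 h)

theorem subMap_F {i : ι} {z : E} (hz : z ∈ (sub G C hC m₀ hm₀).U i) :
    subMap G C hC m₀ hm₀ ((sub G C hC m₀ hm₀).F i z) = G.F i z := by
  rw [(sub G C hC m₀ hm₀).F_of_mem hz, G.F_of_mem hz.1]
  rfl

theorem subMap_mem (x : (sub G C hC m₀ hm₀).M) : subMap G C hC m₀ hm₀ x ∈ C := by
  obtain ⟨i, z, hz, rfl⟩ := (sub G C hC m₀ hm₀).exists_F x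
  rw [subMap_F hz]
  exact hz.2

theorem subMap_injective : Function.Injective (subMap G C hC m₀ hm₀) := by
  intro x y h
  obtain ⟨i, z, hz, rfl⟩ := (sub G C hC m₀ hm₀).exists_F x
  obtain ⟨j, w, hw, rfl⟩ := (sub G C hC m₀ hm₀).exists_F y
  rw [subMap_F hz, subMap_F hw, G.F_eq_F hz.1 hw.1] at h
  exact ((sub G C hC m₀ hm₀).F_eq_F hz hw).2 h

theorem range_subMap : range (subMap G C hC m₀ hm₀) = C := by
  ext m
  constructor
  · rintro ⟨x, rfl⟩
    exact subMap_mem x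
  · intro hm
    obtain ⟨i, z, hz, rfl⟩ := G.exists_F m
    exact ⟨(sub G C hC m₀ hm₀).F i z, subMap_F ⟨hz, hm⟩⟩

theorem continuous_subMap : Continuous (subMap G C hC m₀ hm₀) := by
  rw [(sub G C hC m₀ hm₀).continuous_iff]
  intro i
  have h1 : ContinuousOn (G.F i) ((sub G C hC m₀ hm₀).U i) :=
    (G.continuousOn_F i).mono fun z hz => hz.1
  refine h1.congr fun z hz => subMap_F hz

theorem isOpenMap_subMap : IsOpenMap (subMap G C hC m₀ hm₀) := by
  intro W hW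
  rw [isOpen_iff_mem_nhds]
  rintro _ ⟨x, hx, rfl⟩
  obtain ⟨i, z, hz, rfl⟩ := (sub G C hC m₀ hm₀).exists_F x
  rw [subMap_F hz]
  have h1 : IsOpen ((sub G C hC m₀ hm₀).U i ∩ (sub G C hC m₀ hm₀).F i ⁻¹' W) :=
    ((sub G C hC m₀ hm₀).continuousOn_F i).isOpen_inter_preimage
      ((sub G C hC m₀ hm₀).isOpen_U i) hW
  have h2 : IsOpen (G.F i '' ((sub G C hC m₀ hm₀).U i ∩ (sub G C hC m₀ hm₀).F i ⁻¹' W)) :=
    G.isOpen_image_F h1 fun w hw => hw.1.1
  refine mem_of_superset (h2.mem_nhds ⟨z, ⟨hz, hx⟩, rfl⟩) ?_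
  rintro _ ⟨w, ⟨hw1, hw2⟩, rfl⟩
  exact ⟨_, hw2, subMap_F hw1⟩

theorem isOpenEmbedding_subMap : IsOpenEmbedding (subMap G C hC m₀ hm₀) :=
  .of_continuous_injective_isOpenMap continuous_subMap subMap_injective isOpenMap_subMap

theorem t2Space_sub [T2Space G.M] : T2Space (sub G C hC m₀ hm₀).M :=
  T2Space.of_injective_continuous subMap_injective continuous_subMap

theorem compactSpace_sub (h : IsCompact C) : CompactSpace (sub G C hC m₀ hm₀).M := by
  rw [← isCompact_univ_iff]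
  rw [isOpenEmbedding_subMap.isInducing.isCompact_iff (s := univ) (f := subMap G C hC m₀ hm₀),
    image_univ, range_subMap]
  exact h

theorem connectedSpace_sub (h : IsConnected C) : ConnectedSpace (sub G C hC m₀ hm₀).M := by
  rw [connectedSpace_iff_univ]
  refine ⟨⟨(sub G C hC m₀ hm₀).proj (sub G C hC m₀ hm₀).base, mem_univ _⟩, ?_⟩
  rw [← isOpenEmbedding_subMap.isInducing.isPreconnected_image (f := subMap G C hC m₀ hm₀),
    image_univ, range_subMap]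
  exact h.isPreconnected

/-- transitions of the restriction are transitions. -/
theorem trans_of_sub {i j : ι} {p q : E} {τ : E → E} (h : (sub G C hC m₀ hm₀).Trans i j p q τ) :
    G.Trans i j p q τ := by
  refine ⟨h.1, h.2.1, ?_⟩
  filter_upwards [h.2.2] with z hz
  obtain ⟨a, b, c⟩ := hz
  exact ⟨a.1, b.1, c⟩

/-- restriction of metric data. -/
def subMetric (D : G.MetricData) : (sub G C hC m₀ hm₀).MetricData where
  g := D.g
  contDiffOn i := (D.contDiffOn i).mono fun z hz => hz.1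
  symm i z hz u v := D.symm i z hz.1 u v
  pos i z hz v hv := D.pos i z hz.1 v hv
  inv := by
    intro i j p q h
    obtain ⟨τ, hτ⟩ := (sub G C hC m₀ hm₀).exists_trans h
    exact ⟨τ, hτ, fun u v => D.inv' (trans_of_sub hτ) u v⟩

end Crest.Agent.R249.OriA_285
end
end

-- ▼ part R249/OriB_285
section

/-!
# R249, leaf ORI (helper285), part B: the orientation double cover as a glued manifold
-/

set_option autoImplicit false
set_option maxSynthPendingDepth 3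
set_option linter.unusedSectionVars false

open Bundle Set Filter Topology Bornology
open scoped ContDiff Manifold
open Crest.GeometryTopology.CoordMetric Crest.GeometryTopology.ChartCurvature
open Crest.Agent.R244.Man Crest.Agent.R247.Bo84 Crest.Agent.R202.Tens

noncomputable section

namespace Crest.Agent.R249.OriB_285

section Refl

variable {n : ℕ} [NeZero n]

local notation "𝔼" => EuclideanSpace ℝ (Fin n)

/-- identity or reflection in the first coordinate. -/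
def R (n : ℕ) [NeZero n] (s : Bool) : EuclideanSpace ℝ (Fin n) →L[ℝ] EuclideanSpace ℝ (Fin n) :=
  cond s (ContinuousLinearMap.id ℝ (EuclideanSpace ℝ (Fin n)) -
    (2:ℝ) • ((EuclideanSpace.proj (0 : Fin n) : EuclideanSpace ℝ (Fin n) →L[ℝ] ℝ).smulRight
      (EuclideanSpace.single (0 : Fin n) (1:ℝ)))) (ContinuousLinearMap.id ℝ _)

/-- sign of the identity / reflection. -/
def sg (s : Bool) : ℝ := cond s (-1) 1

@[simp] lemma sg_false : sg false = 1 := rfl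
@[simp] lemma sg_true : sg true = -1 := rfl

lemma sg_mul_self (s : Bool) : sg s * sg s = 1 := by cases s <;> simp

lemma sg_ne (s : Bool) : sg s ≠ 0 := by cases s <;> simp

lemma R_false (v : 𝔼) : R n false v = v := rfl

lemma R_true (v : 𝔼) (i : Fin n) : R n true v i = if i = 0 then - v i else v i := by
  simp only [R, cond_true, sub_apply, smul_apply,
    ContinuousLinearMap.smulRight_apply, PiLp.sub_apply, PiLp.smul_apply, smul_eq_mul,
    prj_apply, PiLp.single_apply, ContinuousLinearMap.id_apply]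
  by_cases h : i = 0
  · subst h; simp; ring
  · simp [h]

lemma R_apply (s : Bool) (v : 𝔼) (i : Fin n) : R n s v i = if i = 0 then sg s * v i else v i := by
  cases s
  · rw [R_false]; simp
  · rw [R_true]; simp

@[simp] lemma R_R (s : Bool) (v : 𝔼) : R n s (R n s v) = v := by
  ext i
  rw [R_apply, R_apply]
  split_ifs
  · rw [← mul_assoc, sg_mul_self, one_mul]
  · rfl

lemma det_R (s : Bool) : LinearMap.det (R n s : 𝔼 →ₗ[ℝ] 𝔼) = sg s := by
  have h : LinearMap.toMatrix (EuclideanSpace.basisFun (Fin n) ℝ).toBasis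
      (EuclideanSpace.basisFun (Fin n) ℝ).toBasis (R n s : 𝔼 →ₗ[ℝ] 𝔼) =
      Matrix.diagonal (fun i => if i = 0 then sg s else 1) := by
    ext i j
    rw [LinearMap.toMatrix_apply]
    simp only [OrthonormalBasis.coe_toBasis, EuclideanSpace.basisFun_apply,
      ContinuousLinearMap.coe_coe, OrthonormalBasis.coe_toBasis_repr_apply,
      EuclideanSpace.basisFun_repr]
    rw [R_apply, Matrix.diagonal_apply]
    by_cases hij : i = j
    · subst hij; simp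
    · simp [hij]
  rw [← LinearMap.det_toMatrix (EuclideanSpace.basisFun (Fin n) ℝ).toBasis, h,
    Matrix.det_diagonal, Finset.prod_ite_eq' Finset.univ (0 : Fin n) (fun _ => sg s)]
  simp

end Refl

section Jac

variable {n : ℕ} {M : Type*} [TopologicalSpace M] [ChartedSpace (EuclideanSpace ℝ (Fin n)) M]
  [IsManifold 𝓘(ℝ, EuclideanSpace ℝ (Fin n)) ∞ M]

local notation "𝔼" => EuclideanSpace ℝ (Fin n)
local notation "𝓘E" => 𝓘(ℝ, EuclideanSpace ℝ (Fin n))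

/-- determinant of the derivative of the chart at `x` at the point `m`. -/
def aJ (x m : M) : ℝ := LinearMap.det (dCh (n := n) x m : EuclideanSpace ℝ (Fin n) →ₗ[ℝ] _)

/-- Jacobian determinant of a transition map. -/
def dJ (x₀ x₁ : M) (y : EuclideanSpace ℝ (Fin n)) : ℝ :=
  LinearMap.det (fderiv ℝ (trans x₀ x₁) y : EuclideanSpace ℝ (Fin n) →ₗ[ℝ] _)

lemma aJ_mul (x₀ : M) {m : M} (hm : m ∈ (chartAt 𝔼 x₀).source) :
    aJ (n := n) x₀ m * LinearMap.det (dSy x₀ (chartAt 𝔼 x₀ m) : 𝔼 →ₗ[ℝ] 𝔼) = 1 := by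
  have h : (dSy x₀ (chartAt 𝔼 x₀ m) : 𝔼 →ₗ[ℝ] 𝔼) ∘ₗ (dCh (n := n) x₀ m : 𝔼 →ₗ[ℝ] 𝔼)
      = LinearMap.id := by
    ext1 v
    exact dSy_dCh x₀ hm v
  have h2 := congrArg LinearMap.det h
  rw [LinearMap.det_comp, LinearMap.det_id] at h2
  rw [aJ, mul_comm]
  exact h2

lemma aJ_ne_zero (x₀ : M) {m : M} (hm : m ∈ (chartAt 𝔼 x₀).source) : aJ (n := n) x₀ m ≠ 0 :=
  left_ne_zero_of_mul_eq_one (aJ_mul x₀ hm)

lemma dJ_eq {x₀ x₁ : M} {y : 𝔼} (hy : y ∈ tdom x₀ x₁) :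
    dJ x₀ x₁ y * aJ (n := n) x₀ ((chartAt 𝔼 x₀).symm y)
      = aJ (n := n) x₁ ((chartAt 𝔼 x₀).symm y) := by
  have h : (fderiv ℝ (trans x₀ x₁) y : 𝔼 →ₗ[ℝ] 𝔼) =
      (dCh (n := n) x₁ ((chartAt 𝔼 x₀).symm y) : 𝔼 →ₗ[ℝ] 𝔼) ∘ₗ (dSy x₀ y : 𝔼 →ₗ[ℝ] 𝔼) := by
    ext1 v
    exact fderiv_trans hy v
  have hm : (chartAt 𝔼 x₀).symm y ∈ (chartAt 𝔼 x₀).source := (chartAt 𝔼 x₀).map_target hy.1
  have h1 := aJ_mul (n := n) x₀ hm
  rw [(chartAt 𝔼 x₀).right_inv hy.1] at h1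
  rw [dJ, h, LinearMap.det_comp]
  change aJ (n := n) x₁ _ * _ * _ = _
  rw [mul_assoc, mul_comm (LinearMap.det _), h1, mul_one]

lemma continuousOn_dJ (x₀ x₁ : M) : ContinuousOn (dJ (n := n) x₀ x₁) (tdom x₀ x₁) := by
  have h1 : ContinuousOn (fderiv ℝ (trans (n := n) x₀ x₁)) (tdom x₀ x₁) :=
    (contDiffOn_trans x₀ x₁).continuousOn_fderiv_of_isOpen (isOpen_tdom x₀ x₁) (by simp)
  have h2 : Continuous fun L : 𝔼 →L[ℝ] 𝔼 => LinearMap.det (L : 𝔼 →ₗ[ℝ] 𝔼) :=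
    ContinuousLinearMap.continuous_det
  exact h2.comp_continuousOn h1

lemma dJ_ne_zero {x₀ x₁ : M} {y : 𝔼} (hy : y ∈ tdom x₀ x₁) : dJ x₀ x₁ y ≠ 0 := by
  intro h
  have h1 := dJ_eq hy
  rw [h, zero_mul] at h1
  exact aJ_ne_zero (n := n) x₁ hy.2 h1.symm

end Jac

lemma iff_pos_iff {x y : ℝ} (hx : x ≠ 0) (hy : y ≠ 0) : (0 < x ↔ 0 < y) ↔ 0 < x * y := by
  rcases lt_or_gt_of_ne hx with h1 | h1 <;> rcases lt_or_gt_of_ne hy with h2 | h2
  · simp [h1.not_gt, h2.not_gt, mul_pos_of_neg_of_neg h1 h2]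
  · simp [h1.not_gt, h2, (mul_neg_of_neg_of_pos h1 h2).not_gt]
  · simp [h1, h2.not_gt, (mul_neg_of_pos_of_neg h1 h2).not_gt]
  · simp [h1, h2, mul_pos h1 h2]

section Cover

variable {n : ℕ} [NeZero n] {M : Type*} [TopologicalSpace M]
  [ChartedSpace (EuclideanSpace ℝ (Fin n)) M]
  [IsManifold 𝓘(ℝ, EuclideanSpace ℝ (Fin n)) ∞ M]

local notation "𝔼" => EuclideanSpace ℝ (Fin n)
local notation "𝓘E" => 𝓘(ℝ, EuclideanSpace ℝ (Fin n))

variable {ι : Type} (c : ι → M)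

/-- piece of the double cover. -/
def Up (a : ι × Bool) : Set (EuclideanSpace ℝ (Fin n)) :=
  {z | R n a.2 z ∈ (chartAt (EuclideanSpace ℝ (Fin n)) (c a.1)).target}

/-- its projection to `M`. -/
def Pp (a : ι × Bool) (z : EuclideanSpace ℝ (Fin n)) : M :=
  (chartAt (EuclideanSpace ℝ (Fin n)) (c a.1)).symm (R n a.2 z)

/-- the orientation (compared with the preferred chart of the point). -/
def Op (a : ι × Bool) (z : EuclideanSpace ℝ (Fin n)) : Prop :=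
  0 < sg a.2 * aJ (n := n) (c a.1) (Pp c a z)

/-- transition map between pieces. -/
def Tp (a b : ι × Bool) (z : EuclideanSpace ℝ (Fin n)) : EuclideanSpace ℝ (Fin n) :=
  R n b.2 (trans (c a.1) (c b.1) (R n a.2 z))

omit [IsManifold 𝓘(ℝ, EuclideanSpace ℝ (Fin n)) ∞ M] in
lemma isOpen_Up (a : ι × Bool) : IsOpen (Up (n := n) c a) :=
  (chartAt 𝔼 (c a.1)).open_target.preimage (R n a.2).continuous

omit [IsManifold 𝓘(ℝ, EuclideanSpace ℝ (Fin n)) ∞ M] in
lemma Pp_mem {a : ι × Bool} {z : 𝔼} (hz : z ∈ Up c a) :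
    Pp c a z ∈ (chartAt 𝔼 (c a.1)).source := (chartAt 𝔼 (c a.1)).map_target hz

omit [IsManifold 𝓘(ℝ, EuclideanSpace ℝ (Fin n)) ∞ M] in
lemma mem_tdom {a b : ι × Bool} {z w : 𝔼} (hz : z ∈ Up c a) (hw : w ∈ Up c b)
    (h : Pp c a z = Pp c b w) : R n a.2 z ∈ tdom (c a.1) (c b.1) := by
  refine ⟨hz, ?_⟩
  have := Pp_mem c hw
  rw [← h] at this
  exact this

omit [IsManifold 𝓘(ℝ, EuclideanSpace ℝ (Fin n)) ∞ M] in
lemma Tp_eq {a b : ι × Bool} {z w : 𝔼} (hw : w ∈ Up c b)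
    (h : Pp c a z = Pp c b w) : Tp c a b z = w := by
  have h1 : trans (c a.1) (c b.1) (R n a.2 z) = R n b.2 w := by
    show chartAt 𝔼 (c b.1) (Pp c a z) = _
    rw [h]
    exact (chartAt 𝔼 (c b.1)).right_inv hw
  rw [Tp, h1, R_R]

omit [IsManifold 𝓘(ℝ, EuclideanSpace ℝ (Fin n)) ∞ M] in
lemma Tp_mem {a b : ι × Bool} {z : 𝔼} (hz : R n a.2 z ∈ tdom (c a.1) (c b.1)) :
    Tp c a b z ∈ Up c b := by
  show R n b.2 (Tp c a b z) ∈ (chartAt 𝔼 (c b.1)).target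
  rw [Tp, R_R]
  exact trans_mem hz

omit [IsManifold 𝓘(ℝ, EuclideanSpace ℝ (Fin n)) ∞ M] in
lemma Pp_Tp {a b : ι × Bool} {z : 𝔼} (hz : R n a.2 z ∈ tdom (c a.1) (c b.1)) :
    Pp c b (Tp c a b z) = Pp c a z := by
  show (chartAt 𝔼 (c b.1)).symm (R n b.2 (Tp c a b z)) = _
  rw [Tp, R_R]
  exact symm_trans hz

lemma O_iff {a b : ι × Bool} {z w : 𝔼} (hz : z ∈ Up c a) (hw : w ∈ Up c b)
    (h : Pp c a z = Pp c b w) :
    (Op c a z ↔ Op c b w) ↔ 0 < sg a.2 * sg b.2 * dJ (c a.1) (c b.1) (R n a.2 z) := by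
  have h1 := mem_tdom c hz hw h
  have h2 := dJ_eq h1
  have h3 := aJ_ne_zero (n := n) (c a.1) (Pp_mem c hz)
  have h4 := aJ_ne_zero (n := n) (c b.1) (Pp_mem c hw)
  rw [Op, Op, iff_pos_iff (mul_ne_zero (sg_ne _) h3) (mul_ne_zero (sg_ne _) h4), ← h]
  change dJ (c a.1) (c b.1) (R n a.2 z) * aJ (n := n) (c a.1) (Pp c a z) =
    aJ (n := n) (c b.1) (Pp c a z) at h2
  rw [← h2]
  have h5 : sg a.2 * aJ (n := n) (c a.1) (Pp c a z) *
      (sg b.2 * (dJ (c a.1) (c b.1) (R n a.2 z) * aJ (n := n) (c a.1) (Pp c a z))) =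
      sg a.2 * sg b.2 * dJ (c a.1) (c b.1) (R n a.2 z) * aJ (n := n) (c a.1) (Pp c a z) ^ 2 := by
    ring
  rw [h5]
  have h6 : 0 < aJ (n := n) (c a.1) (Pp c a z) ^ 2 := by positivity
  constructor
  · intro h7
    exact (pos_iff_pos_of_mul_pos h7).2 h6
  · intro h7
    exact mul_pos h7 h6

/-- the gluing relation of the double cover. -/
def rel : Setoid (Σ a, Up (n := n) c a) :=
  Setoid.ker fun x => (Pp c x.1 (x.2 : EuclideanSpace ℝ (Fin n)),
    Op c x.1 (x.2 : EuclideanSpace ℝ (Fin n)))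

lemma rel_iff {a b : ι × Bool} {z w : 𝔼} (hz : z ∈ Up c a) (hw : w ∈ Up c b) :
    rel c ⟨a, z, hz⟩ ⟨b, w, hw⟩ ↔ Pp c a z = Pp c b w ∧ (Op c a z ↔ Op c b w) := by
  rw [rel, Setoid.ker_def, Prod.mk.injEq, eq_iff_iff]

lemma contDiffAt_Tp {a b : ι × Bool} {z : 𝔼} (hz : R n a.2 z ∈ tdom (c a.1) (c b.1)) :
    ContDiffAt ℝ ∞ (Tp c a b) z := by
  have h1 : ContDiffAt ℝ ∞ (trans (c a.1) (c b.1)) (R n a.2 z) :=
    (contDiffOn_trans _ _).contDiffAt ((isOpen_tdom _ _).mem_nhds hz)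
  exact (R n b.2).contDiff.contDiffAt.comp z (h1.comp z (R n a.2).contDiff.contDiffAt)

lemma eventually_rel {a b : ι × Bool} {z w : 𝔼} (hz : z ∈ Up c a) (hw : w ∈ Up c b)
    (h : rel c ⟨a, z, hz⟩ ⟨b, w, hw⟩) :
    ∀ᶠ y in 𝓝 z, ∃ (hy : y ∈ Up c a) (hτ : Tp c a b y ∈ Up c b),
      rel c ⟨a, y, hy⟩ ⟨b, Tp c a b y, hτ⟩ := by
  obtain ⟨h1, h2⟩ := (rel_iff c hz hw).1 h
  have h3 := mem_tdom c hz hw h1
  have h4 := (O_iff c hz hw h1).1 h2
  have h5 : ∀ᶠ y in 𝓝 z, R n a.2 y ∈ tdom (c a.1) (c b.1) :=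
    (R n a.2).continuous.continuousAt.eventually ((isOpen_tdom _ _).mem_nhds h3)
  have h6 : ContinuousAt (fun y => sg a.2 * sg b.2 * dJ (c a.1) (c b.1) (R n a.2 y)) z := by
    refine continuousAt_const.mul ?_
    exact ContinuousAt.comp (g := dJ (c a.1) (c b.1)) (f := fun y => R n a.2 y)
      ((continuousOn_dJ _ _).continuousAt ((isOpen_tdom _ _).mem_nhds h3))
      (R n a.2).continuous.continuousAt
  have h7 := h6.eventually (lt_mem_nhds h4)
  filter_upwards [h5, h7] with y hy1 hy2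
  have hyU : y ∈ Up c a := hy1.1
  have hTU : Tp c a b y ∈ Up c b := Tp_mem c hy1
  refine ⟨hyU, hTU, (rel_iff c hyU hTU).2 ?_⟩
  have h8 : Pp c a y = Pp c b (Tp c a b y) := (Pp_Tp c hy1).symm
  exact ⟨h8, (O_iff c hyU hTU h8).2 hy2⟩

/-- the gluing data of the orientation double cover. -/
def glue (a₀ : ι × Bool) (z₀ : Up (n := n) c a₀) : Glue (ι × Bool) n where
  U := Up c
  isOpen_U := isOpen_Up c
  r := rel c
  etale := by
    rintro a b ⟨z, hz⟩ ⟨w, hw⟩ h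
    obtain ⟨h1, h2⟩ := (rel_iff c hz hw).1 h
    exact ⟨Tp c a b, contDiffAt_Tp c (mem_tdom c hz hw h1), Tp_eq c hw h1,
      eventually_rel c hz hw h⟩
  inj := by
    rintro a ⟨p, hp⟩
    refine ⟨univ, univ_mem, ?_⟩
    intro z w hz hw _ _ h
    obtain ⟨h1, h2⟩ := (rel_iff c hz hw).1 h
    have h3 : R n a.2 z = R n a.2 w := (chartAt 𝔼 (c a.1)).symm.injOn hz hw h1
    rw [← R_R a.2 z, h3, R_R]
  base := ⟨a₀, z₀⟩

variable {c} {a₀ : ι × Bool} {z₀ : Up (n := n) c a₀}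


theorem glue_r {a b : ι × Bool} {z w : 𝔼} (hz : z ∈ (glue c a₀ z₀).U a)
    (hw : w ∈ (glue c a₀ z₀).U b) :
    (glue c a₀ z₀).r ⟨a, z, hz⟩ ⟨b, w, hw⟩ ↔ Pp c a z = Pp c b w ∧ (Op c a z ↔ Op c b w) :=
  rel_iff c hz hw

theorem trans_Tp {a b : ι × Bool} {z w : 𝔼} (hz : z ∈ (glue c a₀ z₀).U a)
    (hw : w ∈ (glue c a₀ z₀).U b) (h : (glue c a₀ z₀).r ⟨a, z, hz⟩ ⟨b, w, hw⟩) :
    (glue c a₀ z₀).Trans a b z w (Tp c a b) :=
  ⟨contDiffAt_Tp c (mem_tdom c hz hw ((rel_iff c hz hw).1 h).1),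
    Tp_eq c hw ((rel_iff c hz hw).1 h).1, eventually_rel c hz hw h⟩

lemma fderiv_Tp {a b : ι × Bool} {z : 𝔼} (hz : R n a.2 z ∈ tdom (c a.1) (c b.1)) :
    fderiv ℝ (Tp c a b) z =
      ((R n b.2).comp (fderiv ℝ (trans (c a.1) (c b.1)) (R n a.2 z))).comp (R n a.2) := by
  have h1 : ContDiffAt ℝ ∞ (trans (c a.1) (c b.1)) (R n a.2 z) :=
    (contDiffOn_trans _ _).contDiffAt ((isOpen_tdom _ _).mem_nhds hz)
  have h2 : HasFDerivAt (trans (c a.1) (c b.1))
      (fderiv ℝ (trans (c a.1) (c b.1)) (R n a.2 z)) (R n a.2 z) :=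
    (h1.differentiableAt (by simp)).hasFDerivAt
  have h3 := (R n b.2).hasFDerivAt.comp z (h2.comp z (R n a.2).hasFDerivAt)
  have h4 := h3.fderiv
  exact h4

lemma det_fderiv_Tp {a b : ι × Bool} {z : 𝔼} (hz : R n a.2 z ∈ tdom (c a.1) (c b.1)) :
    LinearMap.det (fderiv ℝ (Tp c a b) z : 𝔼 →ₗ[ℝ] 𝔼) =
      sg a.2 * sg b.2 * dJ (c a.1) (c b.1) (R n a.2 z) := by
  rw [fderiv_Tp hz]
  change LinearMap.det (((R n b.2 : 𝔼 →ₗ[ℝ] 𝔼) ∘ₗ
    (fderiv ℝ (trans (c a.1) (c b.1)) (R n a.2 z) : 𝔼 →ₗ[ℝ] 𝔼)) ∘ₗ (R n a.2 : 𝔼 →ₗ[ℝ] 𝔼)) = _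
  rw [LinearMap.det_comp, LinearMap.det_comp, det_R, det_R, dJ]
  ring

/-- all transitions are orientation preserving. -/
theorem det_pos_of_trans {a b : ι × Bool} {p q : 𝔼} {τ : 𝔼 → 𝔼}
    (h : (glue c a₀ z₀).Trans a b p q τ) : 0 < LinearMap.det (fderiv ℝ τ p : 𝔼 →ₗ[ℝ] 𝔼) := by
  obtain ⟨hp, hq, hr⟩ := h.rel
  have h1 := (glue_r hp hq).1 hr
  rw [(h.eventuallyEq _ (trans_Tp hp hq hr)).fderiv_eq, det_fderiv_Tp (mem_tdom c hp hq h1.1)]
  exact (O_iff c hp hq h1.1).1 h1.2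

theorem t2Space_glue [T2Space M] : T2Space (glue c a₀ z₀).M := by
  apply Glue.t2Space
  intro a b
  rw [← isOpen_compl_iff, isOpen_iff_mem_nhds]
  rintro ⟨⟨z, hz⟩, ⟨w, hw⟩⟩ h
  change ¬ ((glue c a₀ z₀).r ⟨a, z, hz⟩ ⟨b, w, hw⟩) at h
  rw [glue_r hz hw] at h
  have hPa : ContinuousAt (fun x : Up (n := n) c a × Up (n := n) c b => Pp c a (x.1 : 𝔼)) (⟨z, hz⟩, ⟨w, hw⟩) := by
    have h1 : ContinuousAt (Pp c a) z := by
      have h2 := ((chartAt 𝔼 (c a.1)).continuousOn_symm.continuousAt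
        ((chartAt 𝔼 (c a.1)).open_target.mem_nhds hz))
      exact ContinuousAt.comp (f := fun z => R n a.2 z) h2 (R n a.2).continuous.continuousAt
    exact ContinuousAt.comp (g := Pp c a) (f := fun x : Up (n := n) c a × Up (n := n) c b => (x.1 : 𝔼))
      (x := ((⟨z, hz⟩, ⟨w, hw⟩) : Up (n := n) c a × Up (n := n) c b)) h1 (by fun_prop)
  have hPb : ContinuousAt (fun x : Up (n := n) c a × Up (n := n) c b => Pp c b (x.2 : 𝔼)) (⟨z, hz⟩, ⟨w, hw⟩) := by
    have h1 : ContinuousAt (Pp c b) w := by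
      have h2 := ((chartAt 𝔼 (c b.1)).continuousOn_symm.continuousAt
        ((chartAt 𝔼 (c b.1)).open_target.mem_nhds hw))
      exact ContinuousAt.comp (f := fun z => R n b.2 z) h2 (R n b.2).continuous.continuousAt
    exact ContinuousAt.comp (g := Pp c b) (f := fun x : Up (n := n) c a × Up (n := n) c b => (x.2 : 𝔼))
      (x := ((⟨z, hz⟩, ⟨w, hw⟩) : Up (n := n) c a × Up (n := n) c b)) h1 (by fun_prop)
  by_cases hP : Pp c a z = Pp c b w
  · have h1 : ¬ (Op c a z ↔ Op c b w) := fun h' => h ⟨hP, h'⟩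
    rw [O_iff c hz hw hP] at h1
    have h2 := mem_tdom c hz hw hP
    have h3 : sg a.2 * sg b.2 * dJ (c a.1) (c b.1) (R n a.2 z) < 0 :=
      lt_of_le_of_ne (not_lt.1 h1) (mul_ne_zero (mul_ne_zero (sg_ne _) (sg_ne _)) (dJ_ne_zero h2))
    have h4 : ContinuousAt (fun x : Up (n := n) c a × Up (n := n) c b =>
        sg a.2 * sg b.2 * dJ (c a.1) (c b.1) (R n a.2 (x.1 : 𝔼))) (⟨z, hz⟩, ⟨w, hw⟩) := by
      refine continuousAt_const.mul ?_
      refine ContinuousAt.comp (g := dJ (c a.1) (c b.1))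
        (f := fun x : Up (n := n) c a × Up (n := n) c b => R n a.2 (x.1 : 𝔼))
        ((continuousOn_dJ _ _).continuousAt ((isOpen_tdom _ _).mem_nhds h2)) ?_
      fun_prop
    have h5 := h4.eventually (gt_mem_nhds h3)
    filter_upwards [h5] with x hx
    intro hr
    have hr' := (glue_r x.1.2 x.2.2).1 hr
    exact absurd ((O_iff c x.1.2 x.2.2 hr'.1).1 hr'.2) (not_lt.2 hx.le)
  · obtain ⟨u, v, hu, hv, hzu, hwv, huv⟩ := t2_separation hP
    have h1 := hPa.eventually (hu.mem_nhds hzu)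
    have h2 := hPb.eventually (hv.mem_nhds hwv)
    filter_upwards [h1, h2] with x hx1 hx2
    intro hr
    have hr' := ((glue_r x.1.2 x.2.2).1 hr).1
    exact disjoint_left.1 huv hx1 (by rw [hr']; exact hx2)

/-- the projection of the double cover. -/
def pr (c : ι → M) (a₀ : ι × Bool) (z₀ : Up (n := n) c a₀) : (glue c a₀ z₀).M → M :=
  Quotient.lift (fun x => Pp c x.1 (x.2 : EuclideanSpace ℝ (Fin n)))
    (fun x y h => ((rel_iff c x.2.2 y.2.2).1 h).1)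

theorem pr_F {a : ι × Bool} {z : 𝔼} (hz : z ∈ Up c a) :
    pr (n := n) c a₀ z₀ ((glue c a₀ z₀).F a z) = Pp c a z := by
  rw [(glue c a₀ z₀).F_of_mem hz]
  rfl

theorem continuous_pr : Continuous (pr (n := n) c a₀ z₀) := by
  rw [(glue c a₀ z₀).continuous_iff]
  intro a
  have h1 : ContinuousOn (fun z : 𝔼 => Pp c a z) (Up c a) := by
    have h2 := (chartAt 𝔼 (c a.1)).continuousOn_symm
    exact h2.comp (f := fun z => R n a.2 z) (R n a.2).continuous.continuousOn fun z hz => hz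
  exact h1.congr fun z hz => pr_F hz

theorem isOpenMap_pr : IsOpenMap (pr (n := n) c a₀ z₀) := by
  intro W hW
  rw [isOpen_iff_mem_nhds]
  rintro _ ⟨x, hx, rfl⟩
  obtain ⟨a, z, hz, rfl⟩ := (glue c a₀ z₀).exists_F x
  rw [pr_F hz]
  have h1 : IsOpen (Up c a ∩ (glue c a₀ z₀).F a ⁻¹' W) :=
    ((glue c a₀ z₀).continuousOn_F a).isOpen_inter_preimage ((glue c a₀ z₀).isOpen_U a) hW
  have h2 : IsOpen {y : 𝔼 | R n a.2 y ∈ Up c a ∩ (glue c a₀ z₀).F a ⁻¹' W} :=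
    h1.preimage (R n a.2).continuous
  have h3 : IsOpen ((chartAt 𝔼 (c a.1)).symm ''
      {y : 𝔼 | R n a.2 y ∈ Up c a ∩ (glue c a₀ z₀).F a ⁻¹' W}) := by
    apply (chartAt 𝔼 (c a.1)).symm.isOpen_image_of_subset_source h2
    intro y hy
    have := hy.1
    change R n a.2 (R n a.2 y) ∈ (chartAt 𝔼 (c a.1)).target at this
    rw [R_R] at this
    exact this
  refine mem_of_superset (h3.mem_nhds ⟨R n a.2 z, ?_, rfl⟩) ?_
  · change R n a.2 (R n a.2 z) ∈ Up c a ∩ (glue c a₀ z₀).F a ⁻¹' W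
    rw [R_R]
    exact ⟨hz, hx⟩
  · rintro _ ⟨y, ⟨hy1, hy2⟩, rfl⟩
    refine ⟨_, hy2, ?_⟩
    rw [pr_F hy1, Pp, R_R]

end Cover

end Crest.Agent.R249.OriB_285
end
end

-- ▼ part R249/Mk_285
section

/-!
# R249 (helper285): all template instances from a smooth manifold with a smooth metric

`Geo n` : a connected, regular Hausdorff smooth `n`-manifold (lowest universe) with a smooth
Riemannian metric; `G.S` is the same space with the path distance and ALL the instances of the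
templates of row 249 (`MetricSpace`, `ChartedSpace`, `IsManifold`, `RiemannianBundle`,
`IsContMDiffRiemannianBundle`, `IsRiemannianManifold`, `ConnectedSpace`).
-/

set_option autoImplicit false
set_option linter.style.haveILetI false

open Set Bundle
open scoped ContDiff Manifold Topology ENNReal

noncomputable section

namespace Crest.Agent.R249.Mk_285

/-- a connected Hausdorff regular smooth manifold with a smooth metric. -/
structure Geo (n : ℕ) where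
  X : Type
  top : TopologicalSpace X
  t3 : T3Space X
  conn : ConnectedSpace X
  chs : ChartedSpace (EuclideanSpace ℝ (Fin n)) X
  mfd : IsManifold 𝓘(ℝ, EuclideanSpace ℝ (Fin n)) ∞ X
  g : ContMDiffRiemannianMetric 𝓘(ℝ, EuclideanSpace ℝ (Fin n)) ∞ (EuclideanSpace ℝ (Fin n))
    (fun x : X => TangentSpace 𝓘(ℝ, EuclideanSpace ℝ (Fin n)) x)

attribute [local instance] Geo.top Geo.t3 Geo.conn Geo.chs Geo.mfd

variable {n : ℕ}

/-- the space of `G`, without instances. -/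
def Geo.S (G : Geo n) : Type := G.X

namespace Geo

variable (G : Geo n)

@[reducible] def tp : TopologicalSpace G.S := G.top

@[reducible] def ch : letI := G.tp; ChartedSpace (EuclideanSpace ℝ (Fin n)) G.S := G.chs

theorem mf : letI := G.tp; letI := G.ch;
    IsManifold 𝓘(ℝ, EuclideanSpace ℝ (Fin n)) ∞ G.S := G.mfd

theorem t3' : letI := G.tp; T3Space G.S := G.t3

theorem cn : letI := G.tp; ConnectedSpace G.S := G.conn

@[reducible] def rb : letI := G.tp; letI := G.ch;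
    RiemannianBundle (fun p : G.S => TangentSpace 𝓘(ℝ, EuclideanSpace ℝ (Fin n)) p) :=
  letI := G.tp; letI := G.ch; ⟨G.g.toRiemannianMetric⟩

theorem crb : letI := G.tp; letI := G.ch; letI := G.mf; letI := G.rb;
    IsContMDiffRiemannianBundle 𝓘(ℝ, EuclideanSpace ℝ (Fin n)) ∞ (EuclideanSpace ℝ (Fin n))
    (fun p : G.S => TangentSpace 𝓘(ℝ, EuclideanSpace ℝ (Fin n)) p) :=
  letI := G.tp; letI := G.ch; letI := G.mf; letI := G.rb;
  ⟨G.g.inner, G.g.contMDiff, fun _ _ _ => rfl⟩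

theorem cob : letI := G.tp; letI := G.ch; letI := G.mf; letI := G.rb;
    IsContinuousRiemannianBundle (EuclideanSpace ℝ (Fin n))
    (fun p : G.S => TangentSpace 𝓘(ℝ, EuclideanSpace ℝ (Fin n)) p) :=
  letI := G.tp; letI := G.ch; letI := G.mf; letI := G.rb;
  ⟨G.g.inner, G.g.contMDiff.continuous, fun _ _ _ => rfl⟩

/-- the Riemannian distance, extended version, with the given topology -/
@[reducible] def ems : EMetricSpace G.S :=
  letI := G.tp; letI := G.ch; letI := G.mf; letI := G.rb; letI := G.crb; letI := G.t3'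
  letI := G.cob
  EMetricSpace.ofRiemannianMetric 𝓘(ℝ, EuclideanSpace ℝ (Fin n)) G.S

/-- the Riemannian distance is finite -/
theorem edist_ne_top' (x y : G.S) : (G.ems).edist x y ≠ ⊤ := by
  letI := G.ems
  letI := G.cn
  have h1 : IsOpen {z : G.S | edist x z < ⊤} := by
    rw [isOpen_iff_mem_nhds]
    intro z hz
    refine Filter.mem_of_superset (Metric.eball_mem_nhds z (ε := 1) one_pos) ?_
    intro w hw
    have hw' : edist w z < 1 := hw
    have h2 : edist x w ≤ edist x z + edist z w := edist_triangle _ _ _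
    refine lt_of_le_of_lt h2 (ENNReal.add_lt_top.2 ⟨hz, ?_⟩)
    rw [edist_comm]
    exact hw'.trans ENNReal.one_lt_top
  have h2 : IsClosed {z : G.S | edist x z < ⊤} := by
    rw [← isOpen_compl_iff, isOpen_iff_mem_nhds]
    intro z hz
    refine Filter.mem_of_superset (Metric.eball_mem_nhds z (ε := 1) one_pos) ?_
    intro w hw hw2
    have hw' : edist w z < 1 := hw
    have hw3 : edist x w < ⊤ := hw2
    have h3 : edist x z ≤ edist x w + edist w z := edist_triangle _ _ _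
    exact hz (lt_of_le_of_lt h3 (ENNReal.add_lt_top.2 ⟨hw3, hw'.trans ENNReal.one_lt_top⟩))
  have h3 : {z : G.S | edist x z < ⊤} = univ :=
    IsClopen.eq_univ ⟨h2, h1⟩ ⟨x, by simp⟩
  have h4 : y ∈ {z : G.S | edist x z < ⊤} := h3 ▸ mem_univ y
  exact ne_of_lt h4

/-- the Riemannian distance; its topology is the given one. -/
instance instMS : MetricSpace G.S :=
  letI := G.ems
  EMetricSpace.toMetricSpace (G.edist_ne_top')

instance instCh : ChartedSpace (EuclideanSpace ℝ (Fin n)) G.S := G.ch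

instance instMfd : IsManifold 𝓘(ℝ, EuclideanSpace ℝ (Fin n)) ∞ G.S := G.mf

instance instConn : ConnectedSpace G.S := G.cn

instance instRB :
    RiemannianBundle (fun p : G.S => TangentSpace 𝓘(ℝ, EuclideanSpace ℝ (Fin n)) p) := G.rb

instance instCRB :
    IsContMDiffRiemannianBundle 𝓘(ℝ, EuclideanSpace ℝ (Fin n)) ∞ (EuclideanSpace ℝ (Fin n))
    (fun p : G.S => TangentSpace 𝓘(ℝ, EuclideanSpace ℝ (Fin n)) p) := G.crb

instance instRM : IsRiemannianManifold 𝓘(ℝ, EuclideanSpace ℝ (Fin n)) G.S := ⟨fun _ _ => rfl⟩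

/-- compactness is inherited. -/
theorem compactSpace (h : letI := G.top; CompactSpace G.X) : CompactSpace G.S := by
  letI := G.tp
  exact (h : CompactSpace G.S)


end Geo

end Crest.Agent.R249.Mk_285
end
end

-- ▼ part R249/OriC_285
section

/-!
# R249, leaf ORI (helper285), part C: metric, compactness and the connected component
-/

set_option autoImplicit false
set_option maxSynthPendingDepth 3
set_option linter.unusedSectionVars false

open Bundle Set Filter Topology Bornology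
open scoped ContDiff Manifold
open Crest.GeometryTopology.CoordMetric Crest.GeometryTopology.ChartCurvature
open Crest.Agent.R244.Man Crest.Agent.R247.Bo84 Crest.Agent.R202.Tens
open Crest.Agent.R249.OriA_285 Crest.Agent.R249.OriB_285 Crest.Agent.R249.Mk_285

noncomputable section

namespace Crest.Agent.R249.OriC_285

variable {n : ℕ} {M : Type*} [TopologicalSpace M]
  [ChartedSpace (EuclideanSpace ℝ (Fin n)) M]

local notation "𝔼" => EuclideanSpace ℝ (Fin n)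
local notation "𝓘E" => 𝓘(ℝ, EuclideanSpace ℝ (Fin n))

variable (n M) in
/-- a finite family of charts with compact cores which cover. -/
theorem exists_finite_cover [CompactSpace M] :
    ∃ (k : ℕ) (c : Fin k → M) (K : Fin k → Set (EuclideanSpace ℝ (Fin n))),
      (∀ i, IsCompact (K i)) ∧
      (∀ i, K i ⊆ (chartAt (EuclideanSpace ℝ (Fin n)) (c i)).target) ∧
      ∀ m : M, ∃ i, ∃ y ∈ K i, (chartAt (EuclideanSpace ℝ (Fin n)) (c i)).symm y = m := by
  have h1 : ∀ x : M, ∃ K : Set 𝔼, IsCompact K ∧ K ∈ 𝓝 (chartAt 𝔼 x x) ∧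
      K ⊆ (chartAt 𝔼 x).target := by
    intro x
    obtain ⟨K, hK, hK1, hK2⟩ := local_compact_nhds
      ((chartAt 𝔼 x).open_target.mem_nhds (mem_chart_target 𝔼 x))
    exact ⟨K, hK2, hK, hK1⟩
  choose K hK hKn hKt using h1
  obtain ⟨t, ht⟩ := CompactSpace.elim_nhds_subcover
    (fun x : M => (chartAt 𝔼 x).source ∩ (chartAt 𝔼 x) ⁻¹' (K x)) (fun x => by
      refine inter_mem (chart_source_mem_nhds 𝔼 x) ?_
      exact ((chartAt 𝔼 x).continuousAt (mem_chart_source 𝔼 x)).preimage_mem_nhds (hKn x))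
  refine ⟨t.card, fun i => (t.equivFin.symm i : M), fun i => K (t.equivFin.symm i : M),
    fun i => hK _, fun i => hKt _, ?_⟩
  intro m
  have hm : m ∈ ⋃ x ∈ t, (chartAt 𝔼 x).source ∩ (chartAt 𝔼 x) ⁻¹' (K x) := by
    rw [ht]; exact mem_univ m
  simp only [mem_iUnion] at hm
  obtain ⟨x, hx, h2, h3⟩ := hm
  refine ⟨t.equivFin ⟨x, hx⟩, chartAt 𝔼 x m, ?_, ?_⟩
  · simp only [Equiv.symm_apply_apply]; exact h3
  · simp only [Equiv.symm_apply_apply]; exact (chartAt 𝔼 x).left_inv h2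

section Cover

variable [NeZero n] [IsManifold 𝓘(ℝ, EuclideanSpace ℝ (Fin n)) ∞ M]
  {ι : Type} {c : ι → M} {a₀ : ι × Bool} {z₀ : Up (n := n) c a₀}

/-- both orientations occur over every point of a chart. -/
theorem exists_lift (p : Prop) (j : ι) {y : 𝔼} (hy : y ∈ (chartAt 𝔼 (c j)).target) :
    ∃ t : Bool, R n t y ∈ Up c (j, t) ∧ Pp c (j, t) (R n t y) = (chartAt 𝔼 (c j)).symm y ∧
      (Op c (j, t) (R n t y) ↔ p) := by
  have h1 : ∀ t, R n t y ∈ Up c (j, t) := by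
    intro t
    change R n t (R n t y) ∈ (chartAt 𝔼 (c j)).target
    rw [R_R]; exact hy
  have h2 : ∀ t, Pp c (j, t) (R n t y) = (chartAt 𝔼 (c j)).symm y := by
    intro t
    rw [Pp, R_R]
  have h3 := aJ_ne_zero (n := n) (c j) ((chartAt 𝔼 (c j)).map_target hy)
  have h4 : ∀ t, Op c (j, t) (R n t y) ↔
      0 < sg t * aJ (n := n) (c j) ((chartAt 𝔼 (c j)).symm y) := by
    intro t
    rw [Op, h2 t]
  rcases lt_or_gt_of_ne h3 with h5 | h5
  · by_cases hp : p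
    · refine ⟨true, h1 _, h2 _, ?_⟩
      rw [h4]
      simp [hp, h5]
    · refine ⟨false, h1 _, h2 _, ?_⟩
      rw [h4]
      simp [hp, h5.le]
  · by_cases hp : p
    · refine ⟨false, h1 _, h2 _, ?_⟩
      rw [h4]
      simp [hp, h5]
    · refine ⟨true, h1 _, h2 _, ?_⟩
      rw [h4]
      simp [hp, h5.le]

theorem compactSpace_glue [Finite ι] (K : ι → Set 𝔼) (hK : ∀ i, IsCompact (K i))
    (hKt : ∀ i, K i ⊆ (chartAt 𝔼 (c i)).target)
    (hc : ∀ m : M, ∃ i, ∃ y ∈ K i, (chartAt 𝔼 (c i)).symm y = m) :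
    CompactSpace (glue c a₀ z₀).M := by
  refine (glue c a₀ z₀).compactSpace (fun a => R n a.2 '' K a.1)
    (fun a => (hK a.1).image (R n a.2).continuous) ?_ ?_
  · rintro a _ ⟨y, hy, rfl⟩
    change R n a.2 (R n a.2 y) ∈ (chartAt 𝔼 (c a.1)).target
    rw [R_R]
    exact hKt a.1 hy
  · intro a z hz
    obtain ⟨j, y, hy, hym⟩ := hc (Pp c a z)
    obtain ⟨t, h1, h2, h3⟩ := exists_lift (c := c) (Op c a z) j (hKt j hy)
    refine ⟨(j, t), R n t y, ⟨y, hy, rfl⟩, ?_⟩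
    rw [Glue.F_eq_F _ h1 hz, glue_r h1 hz]
    exact ⟨h2.trans hym, h3⟩

end Cover

section Metric

variable [NeZero n] [IsManifold 𝓘(ℝ, EuclideanSpace ℝ (Fin n)) ∞ M]
  [RiemannianBundle (fun x : M => TangentSpace 𝓘(ℝ, EuclideanSpace ℝ (Fin n)) x)]
  [IsContMDiffRiemannianBundle 𝓘(ℝ, EuclideanSpace ℝ (Fin n)) ∞ (EuclideanSpace ℝ (Fin n))
      (fun x : M => TangentSpace 𝓘(ℝ, EuclideanSpace ℝ (Fin n)) x)]
  {ι : Type} (c : ι → M) {a₀ : ι × Bool} {z₀ : Up (n := n) c a₀}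

/-- the metric on a piece. -/
def gp (a : ι × Bool) (z : EuclideanSpace ℝ (Fin n)) :
    EuclideanSpace ℝ (Fin n) →L[ℝ] EuclideanSpace ℝ (Fin n) →L[ℝ] ℝ :=
  ∑ i, ∑ j, chartMetric n M (c a.1) (R n a.2 z) i j •
    (((EuclideanSpace.proj i : EuclideanSpace ℝ (Fin n) →L[ℝ] ℝ).comp (R n a.2)).smulRight
      ((EuclideanSpace.proj j : EuclideanSpace ℝ (Fin n) →L[ℝ] ℝ).comp (R n a.2)))

lemma gp_apply (a : ι × Bool) (z u v : 𝔼) :
    gp c a z u v = bil (chartMetric n M (c a.1) (R n a.2 z)) (R n a.2 u) (R n a.2 v) := by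
  rw [bil_apply]
  simp only [gp, sum_apply, smul_apply, ContinuousLinearMap.smulRight_apply, smul_eq_mul,
    ContinuousLinearMap.comp_apply, prj_apply]
  refine Finset.sum_congr rfl fun i _ => Finset.sum_congr rfl fun j _ => ?_
  ring

lemma contDiffOn_gp (a : ι × Bool) : ContDiffOn ℝ ∞ (gp (n := n) c a) (Up c a) := by
  unfold gp
  refine ContDiffOn.sum fun i _ => ContDiffOn.sum fun j _ => ?_
  have h1 : ContDiffOn ℝ ∞ (fun z : 𝔼 => chartMetric n M (c a.1) (R n a.2 z) i j) (Up c a) :=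
    (contDiffOn_chartMetric (c a.1) i j).comp (f := fun z => R n a.2 z)
      (R n a.2).contDiff.contDiffOn fun z hz => hz
  exact h1.smul contDiffOn_const

/-- the metric data of the double cover. -/
def mdat : (glue c a₀ z₀).MetricData where
  g := gp c
  contDiffOn := contDiffOn_gp c
  symm a z hz u v := by
    rw [gp_apply, gp_apply]
    exact bil_symm (isRiemannianOn_chartMetric (c a.1)) hz _ _
  pos a z hz v hv := by
    rw [gp_apply]
    refine bil_pos (isRiemannianOn_chartMetric (c a.1)) hz ?_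
    intro h
    apply hv
    rw [← R_R a.2 v, h, map_zero]
  inv := by
    rintro a b ⟨z, hz⟩ ⟨w, hw⟩ h
    refine ⟨Tp c a b, trans_Tp hz hw h, ?_⟩
    intro u v
    have h1 := (glue_r hz hw).1 h
    have h2 := mem_tdom c hz hw h1.1
    have h3 : R n b.2 w = trans (c a.1) (c b.1) (R n a.2 z) := by
      rw [← Tp_eq c hw h1.1, Tp, R_R]
    rw [gp_apply, gp_apply]
    change bil (chartMetric n M (c a.1) (R n a.2 z)) (R n a.2 u) (R n a.2 v) =
      bil (chartMetric n M (c b.1) (R n b.2 w)) _ _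
    rw [(pull_trans (c a.1) (c b.1)).bil_eq h2, h3, fderiv_Tp h2]
    simp only [ContinuousLinearMap.comp_apply, R_R]

end Metric

end Crest.Agent.R249.OriC_285
end
end

-- ▼ part R249/Loc1_285
section

/-!
# R249 (helper285): smooth local isometries, part 1 (charts and curvature)

`LocIso n ϖ` : `ϖ : N → M` is smooth and its derivative preserves inner products (same dimension).
In charts it is a `Pull`, so all curvature conditions of `Def_ChartCurvature` are transported.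
-/

set_option autoImplicit false
set_option maxSynthPendingDepth 3
set_option linter.unusedSectionVars false

open Bundle Set Filter Topology
open scoped ContDiff Manifold
open Crest.GeometryTopology.CoordMetric Crest.GeometryTopology.ChartCurvature
  Crest.GeometryTopology.PointedLimit
open Crest.Agent.R247.Bo84 Crest.Agent.R202.Tens

noncomputable section

namespace Crest.Agent.R249.Loc1_285

variable {n : ℕ}

local notation "𝔼" => EuclideanSpace ℝ (Fin n)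
local notation "𝓘E" => 𝓘(ℝ, EuclideanSpace ℝ (Fin n))

section Defs

variable (n) {N M : Type*}
  [TopologicalSpace N] [ChartedSpace (EuclideanSpace ℝ (Fin n)) N]
  [RiemannianBundle (fun x : N => TangentSpace 𝓘(ℝ, EuclideanSpace ℝ (Fin n)) x)]
  [TopologicalSpace M] [ChartedSpace (EuclideanSpace ℝ (Fin n)) M]
  [RiemannianBundle (fun x : M => TangentSpace 𝓘(ℝ, EuclideanSpace ℝ (Fin n)) x)]

/-- smooth local isometries. -/
structure LocIso (ϖ : N → M) : Prop where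
  smooth : ContMDiff 𝓘(ℝ, EuclideanSpace ℝ (Fin n)) 𝓘(ℝ, EuclideanSpace ℝ (Fin n)) ∞ ϖ
  isom : ∀ (x : N) (v w : TangentSpace 𝓘(ℝ, EuclideanSpace ℝ (Fin n)) x),
    inner ℝ (mfderiv 𝓘(ℝ, EuclideanSpace ℝ (Fin n)) 𝓘(ℝ, EuclideanSpace ℝ (Fin n)) ϖ x v)
      (mfderiv 𝓘(ℝ, EuclideanSpace ℝ (Fin n)) 𝓘(ℝ, EuclideanSpace ℝ (Fin n)) ϖ x w) =
      inner ℝ v w

/-- expression of a map in charts. -/
def lmap (ϖ : N → M) (x : N) (x₀ : M) (y : EuclideanSpace ℝ (Fin n)) :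
    EuclideanSpace ℝ (Fin n) :=
  chartAt (EuclideanSpace ℝ (Fin n)) x₀ (ϖ ((chartAt (EuclideanSpace ℝ (Fin n)) x).symm y))

/-- domain of the expression of a map in charts. -/
def ldom (ϖ : N → M) (x : N) (x₀ : M) : Set (EuclideanSpace ℝ (Fin n)) :=
  (chartAt (EuclideanSpace ℝ (Fin n)) x).target ∩
    {y | ϖ ((chartAt (EuclideanSpace ℝ (Fin n)) x).symm y) ∈
      (chartAt (EuclideanSpace ℝ (Fin n)) x₀).source}

end Defs

variable {N M : Type*}
  [TopologicalSpace N] [ChartedSpace (EuclideanSpace ℝ (Fin n)) N]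
  [IsManifold 𝓘(ℝ, EuclideanSpace ℝ (Fin n)) ∞ N]
  [RiemannianBundle (fun x : N => TangentSpace 𝓘(ℝ, EuclideanSpace ℝ (Fin n)) x)]
  [TopologicalSpace M] [ChartedSpace (EuclideanSpace ℝ (Fin n)) M]
  [IsManifold 𝓘(ℝ, EuclideanSpace ℝ (Fin n)) ∞ M]
  [RiemannianBundle (fun x : M => TangentSpace 𝓘(ℝ, EuclideanSpace ℝ (Fin n)) x)]
  {ϖ : N → M}

theorem isOpen_ldom (hϖ : Continuous ϖ) (x : N) (x₀ : M) : IsOpen (ldom n ϖ x x₀) :=
  (chartAt 𝔼 x).continuousOn_symm.isOpen_inter_preimage (chartAt 𝔼 x).open_target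
    ((chartAt 𝔼 x₀).open_source.preimage hϖ)

theorem contDiffOn_lmap (hϖ : ContMDiff 𝓘E 𝓘E ∞ ϖ) (x : N) (x₀ : M) :
    ContDiffOn ℝ ∞ (lmap n ϖ x x₀) (ldom n ϖ x x₀) := by
  rw [← contMDiffOn_iff_contDiffOn]
  have h1 : ContMDiffOn 𝓘E 𝓘E ∞ (chartAt 𝔼 x).symm (chartAt 𝔼 x).target :=
    contMDiffOn_chart_symm
  have h2 : ContMDiffOn 𝓘E 𝓘E ∞ (chartAt 𝔼 x₀) (chartAt 𝔼 x₀).source := contMDiffOn_chart
  have h3 : ContMDiffOn 𝓘E 𝓘E ∞ (fun y => ϖ ((chartAt 𝔼 x).symm y)) (ldom n ϖ x x₀) :=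
    (hϖ.comp_contMDiffOn h1).mono inter_subset_left
  exact h2.comp h3 fun y hy => hy.2

theorem fderiv_lmap (hϖ : ContMDiff 𝓘E 𝓘E ∞ ϖ) {x : N} {x₀ : M} {y : 𝔼}
    (hy : y ∈ ldom n ϖ x x₀) (u : 𝔼) :
    fderiv ℝ (lmap n ϖ x x₀) y u = dCh x₀ (ϖ ((chartAt 𝔼 x).symm y))
      (mfderiv 𝓘E 𝓘E ϖ ((chartAt 𝔼 x).symm y) (dSy x y u)) := by
  have h1 : MDifferentiableAt 𝓘E 𝓘E (chartAt 𝔼 x).symm y :=
    (mdifferentiable_chart (I := 𝓘E) x).mdifferentiableAt_symm hy.1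
  have h2 : MDifferentiableAt 𝓘E 𝓘E (chartAt 𝔼 x₀) (ϖ ((chartAt 𝔼 x).symm y)) :=
    (mdifferentiable_chart (I := 𝓘E) x₀).mdifferentiableAt hy.2
  have h0 : MDifferentiableAt 𝓘E 𝓘E ϖ ((chartAt 𝔼 x).symm y) :=
    (hϖ _).mdifferentiableAt (by simp)
  have h3 : MDifferentiableAt 𝓘E 𝓘E (ϖ ∘ (chartAt 𝔼 x).symm) y := h0.comp y h1
  have h4 := mfderiv_comp y (g := chartAt 𝔼 x₀) (f := ϖ ∘ (chartAt 𝔼 x).symm) h2 h3
  have h5 := mfderiv_comp y (g := ϖ) (f := (chartAt 𝔼 x).symm) h0 h1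
  have h6 : fderiv ℝ (lmap n ϖ x x₀) y = mfderiv 𝓘E 𝓘E
      ((chartAt 𝔼 x₀) ∘ (ϖ ∘ (chartAt 𝔼 x).symm)) y := by
    rw [mfderiv_eq_fderiv]; rfl
  rw [h6, h4, h5]
  rfl

namespace LocIso

variable (h : LocIso n ϖ)

include h

theorem continuous : Continuous ϖ := h.smooth.continuous

/-- the expression in charts is the pull back of the metric. -/
theorem pull [IsContMDiffRiemannianBundle 𝓘(ℝ, EuclideanSpace ℝ (Fin n)) ∞
      (EuclideanSpace ℝ (Fin n)) (fun x : M => TangentSpace 𝓘(ℝ, EuclideanSpace ℝ (Fin n)) x)]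
    (x : N) (x₀ : M) :
    Pull (chartMetric n N x) (chartMetric n M x₀) (lmap n ϖ x x₀) (ldom n ϖ x x₀)
      (chartAt 𝔼 x₀).target := by
  have key : ∀ y ∈ ldom n ϖ x x₀, ∀ u v : 𝔼, bil (chartMetric n N x y) u v =
      bil (chartMetric n M x₀ (lmap n ϖ x x₀ y)) (fderiv ℝ (lmap n ϖ x x₀) y u)
        (fderiv ℝ (lmap n ϖ x x₀) y v) := by
    intro y hy u v
    rw [bil_chartMetric, fderiv_lmap h.smooth hy, fderiv_lmap h.smooth hy]
    have h1 := inner_eq_bil x₀ hy.2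
      (mfderiv 𝓘E 𝓘E ϖ ((chartAt 𝔼 x).symm y) (dSy x y u))
      (mfderiv 𝓘E 𝓘E ϖ ((chartAt 𝔼 x).symm y) (dSy x y v))
    have h2 := h.isom ((chartAt 𝔼 x).symm y) (dSy x y u) (dSy x y v)
    exact h2.symm.trans h1
  exact
  { isOpen := isOpen_ldom h.continuous x x₀
    riem := isRiemannianOn_chartMetric x₀
    maps := fun y hy => (chartAt 𝔼 x₀).map_source hy.2
    smooth := contDiffOn_lmap h.smooth x x₀
    pull := by
      intro y hy i j
      rw [← bil_apply, ← key y hy, bil_apply]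
      simp [PiLp.single_apply, Finset.sum_ite_eq']
    inj := by
      intro y hy u v huv
      have h1 : ∀ w : 𝔼, w ≠ 0 → fderiv ℝ (lmap n ϖ x x₀) y w ≠ 0 := by
        intro w hw h0
        have h2 := key y hy w w
        rw [h0, map_zero, bil_chartMetric] at h2
        have h3 : dSy x y w ≠ 0 := by
          intro h4
          exact hw (dSy_injective hy.1 (h4.trans (map_zero _).symm))
        have h5 : 0 < @inner ℝ (TangentSpace 𝓘E ((chartAt 𝔼 x).symm y)) _ (dSy x y w)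
            (dSy x y w) := real_inner_self_pos.2 h3
        exact absurd h2 h5.ne'
      by_contra hne
      exact h1 (u - v) (sub_ne_zero.2 hne) (by rw [map_sub, huv, sub_self]) }

theorem centre_mem (x : N) : chartCentre n N x ∈ ldom n ϖ x (ϖ x) := by
  refine ⟨mem_chart_target 𝔼 x, ?_⟩
  change ϖ ((chartAt 𝔼 x).symm (chartAt 𝔼 x x)) ∈ (chartAt 𝔼 (ϖ x)).source
  rw [(chartAt 𝔼 x).left_inv (mem_chart_source 𝔼 x)]
  exact mem_chart_source 𝔼 (ϖ x)

theorem lmap_centre (x : N) : lmap n ϖ x (ϖ x) (chartCentre n N x) = chartCentre n M (ϖ x) := by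
  change chartAt 𝔼 (ϖ x) (ϖ ((chartAt 𝔼 x).symm (chartAt 𝔼 x x))) = _
  rw [(chartAt 𝔼 x).left_inv (mem_chart_source 𝔼 x)]
  rfl

section Curv

variable [IsContMDiffRiemannianBundle 𝓘(ℝ, EuclideanSpace ℝ (Fin n)) ∞
      (EuclideanSpace ℝ (Fin n)) (fun x : M => TangentSpace 𝓘(ℝ, EuclideanSpace ℝ (Fin n)) x)]
  [IsContMDiffRiemannianBundle 𝓘(ℝ, EuclideanSpace ℝ (Fin n)) ∞
      (EuclideanSpace ℝ (Fin n)) (fun x : N => TangentSpace 𝓘(ℝ, EuclideanSpace ℝ (Fin n)) x)]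

theorem secNumer_iso (x : N) (u v : 𝔼) :
    secNumer (chartMetric n N x) (chartCentre n N x) u v =
      secNumer (chartMetric n M (ϖ x)) (chartCentre n M (ϖ x))
        (fderiv ℝ (lmap n ϖ x (ϖ x)) (chartCentre n N x) u)
        (fderiv ℝ (lmap n ϖ x (ϖ x)) (chartCentre n N x) v) := by
  rw [(h.pull x (ϖ x)).secNumer_pull (h.centre_mem x), h.lmap_centre]



theorem nonnegSec (hK : HasNonnegSectionalCurvature n M) : HasNonnegSectionalCurvature n N := by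
  intro x u v
  rw [h.secNumer_iso x]
  exact hK (ϖ x) _ _


theorem ricci_form (x : N) (u v : 𝔼) :
    ∑ i, ∑ j, ricci (chartMetric n N x) (chartCentre n N x) i j * u i * v j =
      ∑ i, ∑ j, ricci (chartMetric n M (ϖ x)) (chartCentre n M (ϖ x)) i j *
        (fderiv ℝ (lmap n ϖ x (ϖ x)) (chartCentre n N x) u) i *
        (fderiv ℝ (lmap n ϖ x (ϖ x)) (chartCentre n N x) v) j := by
  rw [(h.pull x (ϖ x)).ricci_pull (h.centre_mem x), h.lmap_centre]

theorem einstein {c : ℝ} (hE : IsEinsteinWith n M c) : IsEinsteinWith n N c := by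
  intro x i j
  have h1 := h.ricci_form x (EuclideanSpace.single i 1) (EuclideanSpace.single j 1)
  have h2 := (h.pull x (ϖ x)).bil_eq (h.centre_mem x) (EuclideanSpace.single i 1)
    (EuclideanSpace.single j 1)
  rw [h.lmap_centre, bil_apply, bil_apply] at h2
  have h3 : ∀ a b : Fin n, ricci (chartMetric n M (ϖ x)) (chartCentre n M (ϖ x)) a b =
      c * chartMetric n M (ϖ x) (chartCentre n M (ϖ x)) a b := hE (ϖ x)
  simp only [h3] at h1
  have h4 : ∀ A : Matrix (Fin n) (Fin n) ℝ, ∑ a, ∑ b, A a b *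
      (EuclideanSpace.single i (1:ℝ) : 𝔼) a * (EuclideanSpace.single j (1:ℝ) : 𝔼) b = A i j := by
    intro A
    simp [PiLp.single_apply, Finset.sum_ite_eq']
  have h5 := h4 (fun a b => ricci (chartMetric n N x) (chartCentre n N x) a b)
  have h6 := h4 (chartMetric n N x (chartCentre n N x))
  rw [h6] at h2
  rw [h5] at h1
  rw [h1, h2, Finset.mul_sum]
  refine Finset.sum_congr rfl fun a _ => ?_
  rw [Finset.mul_sum]
  refine Finset.sum_congr rfl fun b _ => ?_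
  ring

end Curv

end LocIso

end Crest.Agent.R249.Loc1_285
end
end

-- ▼ part R249/Loc2_285
section

/-!
# R249 (helper285): smooth local isometries, part 2 (distances)

`LocIso.edist_le` : local isometries do not increase distances;
`LocIso.exists_dist_eq` : they preserve distances of nearby points.
-/

set_option autoImplicit false
set_option maxSynthPendingDepth 3
set_option linter.unusedSectionVars false

open Bundle Set Filter Topology Manifold
open scoped ContDiff ENNReal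
open Crest.GeometryTopology.CoordMetric Crest.GeometryTopology.ChartCurvature
  Crest.GeometryTopology.PointedLimit
open Crest.Agent.R247.Bo84 Crest.Agent.R202.Tens Crest.Agent.R249.Loc1_285

noncomputable section

namespace Crest.Agent.R249.Loc2_285

variable {n : ℕ}

local notation "𝔼" => EuclideanSpace ℝ (Fin n)
local notation "𝓘E" => 𝓘(ℝ, EuclideanSpace ℝ (Fin n))

section Length

variable {N M : Type*}
  [TopologicalSpace N] [ChartedSpace (EuclideanSpace ℝ (Fin n)) N]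
  [IsManifold 𝓘(ℝ, EuclideanSpace ℝ (Fin n)) ∞ N]
  [RiemannianBundle (fun x : N => TangentSpace 𝓘(ℝ, EuclideanSpace ℝ (Fin n)) x)]
  [TopologicalSpace M] [ChartedSpace (EuclideanSpace ℝ (Fin n)) M]
  [IsManifold 𝓘(ℝ, EuclideanSpace ℝ (Fin n)) ∞ M]
  [RiemannianBundle (fun x : M => TangentSpace 𝓘(ℝ, EuclideanSpace ℝ (Fin n)) x)]
  {ϖ : N → M}

/-- the derivative preserves norms. -/
theorem enorm_mfderiv (h : LocIso n ϖ) (x : N) (v : TangentSpace 𝓘E x) :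
    ‖mfderiv 𝓘E 𝓘E ϖ x v‖ₑ = ‖v‖ₑ := by
  have h1 : ‖mfderiv 𝓘E 𝓘E ϖ x v‖ = ‖v‖ := by
    rw [@norm_eq_sqrt_real_inner, @norm_eq_sqrt_real_inner, h.isom]
  simp only [enorm, nnnorm, h1]

/-- lengths of curves are preserved. -/
theorem pathELength_comp (h : LocIso n ϖ) {γ : ℝ → N} {a b : ℝ}
    (hγ : MDifferentiableOn 𝓘(ℝ, ℝ) 𝓘E γ (Icc a b)) :
    pathELength 𝓘E (ϖ ∘ γ) a b = pathELength 𝓘E γ a b := by
  rcases le_or_gt b a with hab | hab
  · rw [pathELength_eq_lintegral_mfderiv_Ioo, pathELength_eq_lintegral_mfderiv_Ioo,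
      Ioo_eq_empty (not_lt.2 hab)]
    simp
  rw [pathELength_eq_lintegral_mfderivWithin_Icc, pathELength_eq_lintegral_mfderivWithin_Icc]
  refine MeasureTheory.setLIntegral_congr_fun measurableSet_Icc fun t ht => ?_
  have h1 : mfderivWithin 𝓘(ℝ, ℝ) 𝓘E (ϖ ∘ γ) (Icc a b) t =
      (mfderiv 𝓘E 𝓘E ϖ (γ t)).comp (mfderivWithin 𝓘(ℝ, ℝ) 𝓘E γ (Icc a b) t) := by
    apply mfderiv_comp_mfderivWithin
    · exact (h.smooth _).mdifferentiableAt (by simp)
    · exact hγ t ht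
    · rw [uniqueMDiffWithinAt_iff_uniqueDiffWithinAt]
      exact uniqueDiffOn_Icc hab t ht
  rw [h1]
  exact enorm_mfderiv h (γ t) _

end Length

section Dist

variable {N M : Type*}
  [MetricSpace N] [ChartedSpace (EuclideanSpace ℝ (Fin n)) N]
  [IsManifold 𝓘(ℝ, EuclideanSpace ℝ (Fin n)) ∞ N]
  [RiemannianBundle (fun x : N => TangentSpace 𝓘(ℝ, EuclideanSpace ℝ (Fin n)) x)]
  [IsContMDiffRiemannianBundle 𝓘(ℝ, EuclideanSpace ℝ (Fin n)) ∞
      (EuclideanSpace ℝ (Fin n)) (fun x : N => TangentSpace 𝓘(ℝ, EuclideanSpace ℝ (Fin n)) x)]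
  [IsRiemannianManifold 𝓘(ℝ, EuclideanSpace ℝ (Fin n)) N]
  [MetricSpace M] [ChartedSpace (EuclideanSpace ℝ (Fin n)) M]
  [IsManifold 𝓘(ℝ, EuclideanSpace ℝ (Fin n)) ∞ M]
  [RiemannianBundle (fun x : M => TangentSpace 𝓘(ℝ, EuclideanSpace ℝ (Fin n)) x)]
  [IsContMDiffRiemannianBundle 𝓘(ℝ, EuclideanSpace ℝ (Fin n)) ∞
      (EuclideanSpace ℝ (Fin n)) (fun x : M => TangentSpace 𝓘(ℝ, EuclideanSpace ℝ (Fin n)) x)]
  [IsRiemannianManifold 𝓘(ℝ, EuclideanSpace ℝ (Fin n)) M]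
  {ϖ : N → M}

theorem edist_le (h : LocIso n ϖ) (x y : N) : edist (ϖ x) (ϖ y) ≤ edist x y := by
  rw [IsRiemannianManifold.out (I := 𝓘E) x y, IsRiemannianManifold.out (I := 𝓘E) (ϖ x) (ϖ y)]
  refine le_of_forall_gt fun r hr => ?_
  obtain ⟨γ, h0, h1, h2, h3⟩ := exists_lt_of_riemannianEDist_lt hr
  refine lt_of_le_of_lt ?_ h3
  rw [← pathELength_comp h (h2.mdifferentiableOn one_ne_zero)]
  refine riemannianEDist_le_pathELength ?_ ?_ ?_ zero_le_one
  · exact (h.smooth.of_le (by simp)).comp_contMDiffOn h2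
  · simp [h0]
  · simp [h1]

theorem dist_le (h : LocIso n ϖ) (x y : N) : dist (ϖ x) (ϖ y) ≤ dist x y := by
  have h1 := edist_le h x y
  rw [edist_dist, edist_dist] at h1
  exact (ENNReal.ofReal_le_ofReal_iff dist_nonneg).1 h1

/-- local inverse of a local isometry (in the manifold). -/
theorem exists_localInverse (h : LocIso n ϖ) (x : N) :
    ∃ (W : Set M) (σ : M → N), IsOpen W ∧ ϖ x ∈ W ∧ ContMDiffOn 𝓘E 𝓘E 1 σ W ∧
      (∀ m ∈ W, ϖ (σ m) = m) ∧ ∀ᶠ y in 𝓝 x, σ (ϖ y) = y := by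
  set y₀ := chartCentre n N x with hy₀
  have hmem := h.centre_mem x
  have hP := h.pull x (ϖ x)
  have hC : ContDiffAt ℝ ∞ (lmap n ϖ x (ϖ x)) y₀ := hP.contDiffAt hmem
  have hinj : Function.Injective (fderiv ℝ (lmap n ϖ x (ϖ x)) y₀) := hP.inj y₀ hmem
  let L : 𝔼 ≃L[ℝ] 𝔼 := (LinearEquiv.ofInjectiveEndo
    (fderiv ℝ (lmap n ϖ x (ϖ x)) y₀ : 𝔼 →ₗ[ℝ] 𝔼) hinj).toContinuousLinearEquiv
  have hL : (L : 𝔼 →L[ℝ] 𝔼) = fderiv ℝ (lmap n ϖ x (ϖ x)) y₀ := by
    ext v; rfl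
  have hd : HasFDerivAt (lmap n ϖ x (ϖ x)) (L : 𝔼 →L[ℝ] 𝔼) y₀ := by
    rw [hL]; exact (hC.differentiableAt (by simp)).hasFDerivAt
  have hC1 : ContDiffAt ℝ 1 (lmap n ϖ x (ϖ x)) y₀ := hC.of_le (by simp)
  set g := hC1.localInverse hd one_ne_zero with hg
  have hg1 : ContDiffAt ℝ 1 g (lmap n ϖ x (ϖ x) y₀) := hC1.to_localInverse hd one_ne_zero
  have hgy : g (lmap n ϖ x (ϖ x) y₀) = y₀ := hC1.localInverse_apply_image hd one_ne_zero
  have hstr := hC1.hasStrictFDerivAt' hd one_ne_zero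
  have hr : ∀ᶠ z in 𝓝 (lmap n ϖ x (ϖ x) y₀), lmap n ϖ x (ϖ x) (g z) = z :=
    hstr.eventually_right_inverse
  have hl : ∀ᶠ z in 𝓝 y₀, g (lmap n ϖ x (ϖ x) z) = z := hstr.eventually_left_inverse
  have hc : lmap n ϖ x (ϖ x) y₀ = chartAt 𝔼 (ϖ x) (ϖ x) := h.lmap_centre x
  rw [hc] at hg1 hgy hr
  have hev : ∀ᶠ z in 𝓝 (chartAt 𝔼 (ϖ x) (ϖ x)), ContDiffAt ℝ 1 g z ∧
      g z ∈ ldom n ϖ x (ϖ x) ∧ lmap n ϖ x (ϖ x) (g z) = z := by
    refine (hg1.eventually (by simp)).and (Filter.Eventually.and ?_ hr)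
    have := hg1.continuousAt
    rw [ContinuousAt, hgy] at this
    exact this ((isOpen_ldom h.continuous x (ϖ x)).mem_nhds hmem)
  obtain ⟨V, hV, hVo, hVm⟩ := eventually_nhds_iff.1 hev
  refine ⟨(chartAt 𝔼 (ϖ x)).source ∩ (chartAt 𝔼 (ϖ x)) ⁻¹' V,
    fun m => (chartAt 𝔼 x).symm (g (chartAt 𝔼 (ϖ x) m)),
    (chartAt 𝔼 (ϖ x)).isOpen_inter_preimage hVo, ⟨mem_chart_source 𝔼 _, hVm⟩, ?_, ?_, ?_⟩
  · have h1 : ContMDiffOn 𝓘E 𝓘E 1 (chartAt 𝔼 (ϖ x)) (chartAt 𝔼 (ϖ x)).source :=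
      (contMDiffOn_chart (I := 𝓘E) (n := ∞)).of_le (by simp)
    have h2 : ContMDiffOn 𝓘E 𝓘E 1 (chartAt 𝔼 x).symm (chartAt 𝔼 x).target :=
      (contMDiffOn_chart_symm (I := 𝓘E) (n := ∞)).of_le (by simp)
    have h3 : ContMDiffOn 𝓘E 𝓘E 1 g V := by
      rw [contMDiffOn_iff_contDiffOn]
      exact fun z hz => (hV z hz).1.contDiffWithinAt
    have h4 : ContMDiffOn 𝓘E 𝓘E 1 (fun z => (chartAt 𝔼 x).symm (g z)) V :=
      h2.comp h3 fun z hz => (hV z hz).2.1.1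
    exact h4.comp (h1.mono inter_subset_left) fun m hm => hm.2
  · rintro m ⟨hm1, hm2⟩
    obtain ⟨-, h2, h3⟩ := hV _ hm2
    exact (chartAt 𝔼 (ϖ x)).injOn h2.2 hm1 h3
  · have h1 : ∀ᶠ y in 𝓝 x, g (lmap n ϖ x (ϖ x) (chartAt 𝔼 x y)) = chartAt 𝔼 x y :=
      ((chartAt 𝔼 x).continuousAt (mem_chart_source 𝔼 x)).eventually hl
    filter_upwards [h1, chart_source_mem_nhds 𝔼 x] with y hy hy'
    rw [lmap, (chartAt 𝔼 x).left_inv hy'] at hy
    rw [hy]
    exact (chartAt 𝔼 x).left_inv hy'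

/-- nearby points: distances are preserved. -/
theorem exists_dist_eq (h : LocIso n ϖ) (x : N) :
    ∃ ε : ℝ, 0 < ε ∧ ∀ q q', dist x q < ε → dist x q' < ε → dist (ϖ q) (ϖ q') = dist q q' := by
  obtain ⟨W, σ, hW, hxW, hσ, hr, hl⟩ := exists_localInverse h x
  obtain ⟨δ, hδ, hδW⟩ := Metric.isOpen_iff.1 hW (ϖ x) hxW
  obtain ⟨δ', hδ', hδl⟩ := Metric.eventually_nhds_iff.1 hl
  refine ⟨min (δ / 3) δ', lt_min (by positivity) hδ', ?_⟩
  intro q q' hq hq'
  have hq1 : dist x q < δ / 3 := lt_of_lt_of_le hq (min_le_left _ _)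
  have hq1' : dist x q' < δ / 3 := lt_of_lt_of_le hq' (min_le_left _ _)
  have hσq : σ (ϖ q) = q := hδl (by rw [dist_comm]; exact lt_of_lt_of_le hq (min_le_right _ _))
  have hσq' : σ (ϖ q') = q' :=
    hδl (by rw [dist_comm]; exact lt_of_lt_of_le hq' (min_le_right _ _))
  refine le_antisymm (dist_le h q q') ?_
  refine le_of_forall_gt fun r hr0 => ?_
  have hrpos : 0 < r := lt_of_le_of_lt dist_nonneg hr0
  set r' := min r (2 * δ / 3) with hr'
  have hdd : dist (ϖ q) (ϖ q') < 2 * δ / 3 := by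
    have h1 := dist_le h q q'
    have h2 := dist_triangle q x q'
    rw [dist_comm q x] at h2
    linarith
  have hr'1 : dist (ϖ q) (ϖ q') < r' := lt_min hr0 hdd
  have hr'0 : 0 < r' := lt_of_le_of_lt dist_nonneg hr'1
  have h4 : riemannianEDist 𝓘E (ϖ q) (ϖ q') < ENNReal.ofReal r' := by
    rw [← IsRiemannianManifold.out (I := 𝓘E) (ϖ q) (ϖ q'), edist_dist]
    exact (ENNReal.ofReal_lt_ofReal_iff hr'0).2 hr'1
  obtain ⟨γ, g0, g1, g2, g3⟩ := exists_lt_of_riemannianEDist_lt h4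
  have hmem : ∀ t ∈ Icc (0:ℝ) 1, γ t ∈ W := by
    intro t ht
    apply hδW
    have h5 : edist (ϖ q) (γ t) ≤ pathELength 𝓘E γ 0 t := by
      rw [IsRiemannianManifold.out (I := 𝓘E) (ϖ q) (γ t)]
      exact riemannianEDist_le_pathELength (g2.mono (Icc_subset_Icc_right ht.2)) g0 rfl ht.1
    have h6 : pathELength 𝓘E γ 0 t ≤ pathELength 𝓘E γ 0 1 := pathELength_mono le_rfl ht.2
    have h7 : edist (ϖ q) (γ t) < ENNReal.ofReal r' := (h5.trans h6).trans_lt g3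
    rw [edist_dist, ENNReal.ofReal_lt_ofReal_iff hr'0] at h7
    have h8 : dist (ϖ x) (ϖ q) ≤ dist x q := dist_le h x q
    have h9 : r' ≤ 2 * δ / 3 := min_le_right _ _
    have h10 := dist_triangle (γ t) (ϖ q) (ϖ x)
    rw [Metric.mem_ball]
    rw [dist_comm (γ t) (ϖ q), dist_comm (ϖ q) (ϖ x)] at h10
    linarith
  have hσγ : ContMDiffOn 𝓘(ℝ, ℝ) 𝓘E 1 (σ ∘ γ) (Icc 0 1) := hσ.comp g2 hmem
  have h11 : pathELength 𝓘E (σ ∘ γ) 0 1 = pathELength 𝓘E γ 0 1 := by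
    rw [← pathELength_comp h (hσγ.mdifferentiableOn one_ne_zero)]
    exact pathELength_congr fun t ht => hr _ (hmem t ht)
  have h12 : edist q q' ≤ pathELength 𝓘E (σ ∘ γ) 0 1 := by
    rw [IsRiemannianManifold.out (I := 𝓘E) q q']
    refine riemannianEDist_le_pathELength hσγ ?_ ?_ zero_le_one
    · simp [g0, hσq]
    · simp [g1, hσq']
  have h13 : edist q q' < ENNReal.ofReal r' := by
    rw [h11] at h12
    exact h12.trans_lt g3
  rw [edist_dist, ENNReal.ofReal_lt_ofReal_iff hr'0] at h13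
  exact h13.trans_le (min_le_left _ _)

end Dist

end Crest.Agent.R249.Loc2_285
end
end

-- ▼ part R249/OriD_285

/-!
# R249, leaf ORI (helper285), part D: the oriented cover

`exists_oriented_cover` : a compact connected Riemannian manifold has a compact connected oriented
Riemannian manifold (lowest universe, all template instances) which covers it locally
isometrically.
-/

set_option autoImplicit false
set_option maxSynthPendingDepth 3
set_option linter.unusedSectionVars false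
set_option linter.style.haveILetI false

open Bundle Set Filter Topology Bornology
open scoped ContDiff Manifold
open Crest.GeometryTopology.CoordMetric Crest.GeometryTopology.ChartCurvature
open Crest.Agent.R244.Man Crest.Agent.R247.Bo84 Crest.Agent.R202.Tens
open Crest.Agent.R249.OriA_285 Crest.Agent.R249.OriB_285 Crest.Agent.R249.OriC_285
open Crest.Agent.R249.Mk_285 Crest.Agent.R249.Loc1_285 Crest.Agent.R249.Loc2_285

noncomputable section

namespace Crest.Agent.R249.OriD_285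

/-- all preferred charts are compatible with one orientation. -/
def Oriented (n : ℕ) (N : Type*) [TopologicalSpace N]
    [ChartedSpace (EuclideanSpace ℝ (Fin n)) N] : Prop :=
  ∀ x x' : N, ∀ y ∈ tdom (n := n) x x', 0 < LinearMap.det
    (fderiv ℝ (R247.Bo84.trans x x') y : EuclideanSpace ℝ (Fin n) →ₗ[ℝ] EuclideanSpace ℝ (Fin n))

variable {n : ℕ} {M : Type*} [TopologicalSpace M]
  [ChartedSpace (EuclideanSpace ℝ (Fin n)) M]

local notation "𝔼" => EuclideanSpace ℝ (Fin n)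
local notation "𝓘E" => 𝓘(ℝ, EuclideanSpace ℝ (Fin n))

section

variable [NeZero n] [IsManifold 𝓘(ℝ, EuclideanSpace ℝ (Fin n)) ∞ M]
  {ι : Type} {c : ι → M} {a₀ : ι × Bool} {z₀ : Up (n := n) c a₀}
  {C : Set (glue c a₀ z₀).M} {hC : IsOpen C} {m₀ : (glue c a₀ z₀).M} {hm₀ : m₀ ∈ C}

theorem oriented_sub : Oriented n (sub (glue c a₀ z₀) C hC m₀ hm₀).M := by
  intro x x' y hy
  have hy1 : y ∈ (sub (glue c a₀ z₀) C hC m₀ hm₀).nb x := hy.1
  have h1 := Glue.trans_chartAt_F (sub (glue c a₀ z₀) C hC m₀ hm₀)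
    ((sub (glue c a₀ z₀) C hC m₀ hm₀).nb_subset x hy1) (m := x') hy.2
  exact det_pos_of_trans (trans_of_sub h1)

variable (c a₀ z₀ C hC m₀ hm₀) in
/-- the projection of an open part of the double cover. -/
def prS : (sub (glue c a₀ z₀) C hC m₀ hm₀).M → M :=
  fun x => pr c a₀ z₀ (subMap (glue c a₀ z₀) C hC m₀ hm₀ x)

theorem prS_F {a : ι × Bool} {z : 𝔼} (hz : z ∈ (sub (glue c a₀ z₀) C hC m₀ hm₀).U a) :
    prS c a₀ z₀ C hC m₀ hm₀ ((sub (glue c a₀ z₀) C hC m₀ hm₀).F a z) = Pp c a z := by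
  rw [prS, subMap_F hz, pr_F hz.1]

theorem prS_eventuallyEq (x : (sub (glue c a₀ z₀) C hC m₀ hm₀).M) :
    prS c a₀ z₀ C hC m₀ hm₀ =ᶠ[𝓝 x] fun x' =>
      (chartAt 𝔼 (c ((sub (glue c a₀ z₀) C hC m₀ hm₀).idx x).1)).symm
        (R n ((sub (glue c a₀ z₀) C hC m₀ hm₀).idx x).2 (chartAt 𝔼 x x')) := by
  filter_upwards [chart_source_mem_nhds 𝔼 x] with x' hx'
  have h1 := Glue.F_chartAt (sub (glue c a₀ z₀) C hC m₀ hm₀) hx'
  have h2 := Glue.chartAt_mem_nb (sub (glue c a₀ z₀) C hC m₀ hm₀) hx'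
  conv_lhs => rw [← h1]
  rw [prS_F ((sub (glue c a₀ z₀) C hC m₀ hm₀).nb_subset x h2)]
  rfl

theorem R_chart_mem (x : (sub (glue c a₀ z₀) C hC m₀ hm₀).M) :
    R n ((sub (glue c a₀ z₀) C hC m₀ hm₀).idx x).2 (chartAt 𝔼 x x) ∈
      (chartAt 𝔼 (c ((sub (glue c a₀ z₀) C hC m₀ hm₀).idx x).1)).target := by
  have h2 := Glue.chartAt_mem_nb (sub (glue c a₀ z₀) C hC m₀ hm₀) (mem_chart_source 𝔼 x)
  exact ((sub (glue c a₀ z₀) C hC m₀ hm₀).nb_subset x h2).1

theorem contMDiff_prS : ContMDiff 𝓘E 𝓘E ∞ (prS c a₀ z₀ C hC m₀ hm₀) := by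
  intro x
  refine ContMDiffAt.congr_of_eventuallyEq ?_ (prS_eventuallyEq x)
  have h1 : ContMDiffAt 𝓘E 𝓘E ∞ (chartAt 𝔼 x) x :=
    (contMDiffOn_chart (I := 𝓘E) (x := x)).contMDiffAt (chart_source_mem_nhds 𝔼 x)
  have h2 : ContMDiffAt 𝓘E 𝓘E ∞ (R n ((sub (glue c a₀ z₀) C hC m₀ hm₀).idx x).2)
      (chartAt 𝔼 x x) := (ContinuousLinearMap.contMDiff _).contMDiffAt
  have h3 : ContMDiffAt 𝓘E 𝓘E ∞
      (chartAt 𝔼 (c ((sub (glue c a₀ z₀) C hC m₀ hm₀).idx x).1)).symm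
      (R n ((sub (glue c a₀ z₀) C hC m₀ hm₀).idx x).2 (chartAt 𝔼 x x)) :=
    (contMDiffOn_chart_symm (I := 𝓘E)).contMDiffAt
      ((chartAt 𝔼 (c ((sub (glue c a₀ z₀) C hC m₀ hm₀).idx x).1)).open_target.mem_nhds
        (R_chart_mem x))
  exact h3.comp x (h2.comp x h1)

theorem mfderiv_prS (x : (sub (glue c a₀ z₀) C hC m₀ hm₀).M) (v : 𝔼) :
    mfderiv 𝓘E 𝓘E (prS c a₀ z₀ C hC m₀ hm₀) x v =
      dSy (c ((sub (glue c a₀ z₀) C hC m₀ hm₀).idx x).1)
        (R n ((sub (glue c a₀ z₀) C hC m₀ hm₀).idx x).2 (chartAt 𝔼 x x))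
        (R n ((sub (glue c a₀ z₀) C hC m₀ hm₀).idx x).2 (dCh x x v)) := by
  have e := prS_eventuallyEq (c := c) (a₀ := a₀) (z₀ := z₀) (C := C) (hC := hC) (m₀ := m₀)
    (hm₀ := hm₀) x
  have h1 : MDifferentiableAt 𝓘E 𝓘E (chartAt 𝔼 x) x :=
    (mdifferentiable_chart (I := 𝓘E) x).mdifferentiableAt (mem_chart_source 𝔼 x)
  have h2 : MDifferentiableAt 𝓘E 𝓘E (R n (Glue.idx (sub (glue c a₀ z₀) C hC m₀ hm₀) x).2) (chartAt 𝔼 x x) :=
    (R n (Glue.idx (sub (glue c a₀ z₀) C hC m₀ hm₀) x).2).differentiableAt.mdifferentiableAt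
  have h3 : MDifferentiableAt 𝓘E 𝓘E (chartAt 𝔼 (c (Glue.idx (sub (glue c a₀ z₀) C hC m₀ hm₀) x).1)).symm
      (R n (Glue.idx (sub (glue c a₀ z₀) C hC m₀ hm₀) x).2 (chartAt 𝔼 x x)) :=
    (mdifferentiable_chart (I := 𝓘E) (c (Glue.idx (sub (glue c a₀ z₀) C hC m₀ hm₀) x).1)).mdifferentiableAt_symm (R_chart_mem x)
  have h4 : MDifferentiableAt 𝓘E 𝓘E (R n (Glue.idx (sub (glue c a₀ z₀) C hC m₀ hm₀) x).2 ∘ chartAt 𝔼 x) x := h2.comp x h1
  have h5 := mfderiv_comp x (g := R n (Glue.idx (sub (glue c a₀ z₀) C hC m₀ hm₀) x).2) (f := chartAt 𝔼 x) h2 h1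
  have h6 := mfderiv_comp x (g := (chartAt 𝔼 (c (Glue.idx (sub (glue c a₀ z₀) C hC m₀ hm₀) x).1)).symm)
    (f := R n (Glue.idx (sub (glue c a₀ z₀) C hC m₀ hm₀) x).2 ∘ chartAt 𝔼 x) h3 h4
  have h7 : mfderiv 𝓘E 𝓘E (prS c a₀ z₀ C hC m₀ hm₀) x =
      mfderiv 𝓘E 𝓘E ((chartAt 𝔼 (c (Glue.idx (sub (glue c a₀ z₀) C hC m₀ hm₀) x).1)).symm ∘ (R n (Glue.idx (sub (glue c a₀ z₀) C hC m₀ hm₀) x).2 ∘ chartAt 𝔼 x)) x :=
    e.mfderiv_eq
  have h8 : mfderiv 𝓘E 𝓘E (R n (Glue.idx (sub (glue c a₀ z₀) C hC m₀ hm₀) x).2) (chartAt 𝔼 x x) = R n (Glue.idx (sub (glue c a₀ z₀) C hC m₀ hm₀) x).2 := by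
    rw [mfderiv_eq_fderiv]
    exact (R n (Glue.idx (sub (glue c a₀ z₀) C hC m₀ hm₀) x).2).fderiv
  rw [h7, h6, h5]
  change (mfderiv 𝓘E 𝓘E (chartAt 𝔼 (c (Glue.idx (sub (glue c a₀ z₀) C hC m₀ hm₀) x).1)).symm (R n (Glue.idx (sub (glue c a₀ z₀) C hC m₀ hm₀) x).2 (chartAt 𝔼 x x)))
    (mfderiv 𝓘E 𝓘E (R n (Glue.idx (sub (glue c a₀ z₀) C hC m₀ hm₀) x).2) (chartAt 𝔼 x x) (mfderiv 𝓘E 𝓘E (chartAt 𝔼 x) x v)) = _
  rw [h8]
  rfl

end

section Metric

variable [NeZero n] [IsManifold 𝓘(ℝ, EuclideanSpace ℝ (Fin n)) ∞ M]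
  [RiemannianBundle (fun x : M => TangentSpace 𝓘(ℝ, EuclideanSpace ℝ (Fin n)) x)]
  [IsContMDiffRiemannianBundle 𝓘(ℝ, EuclideanSpace ℝ (Fin n)) ∞ (EuclideanSpace ℝ (Fin n))
      (fun x : M => TangentSpace 𝓘(ℝ, EuclideanSpace ℝ (Fin n)) x)]
  {ι : Type} {c : ι → M} {a₀ : ι × Bool} {z₀ : Up (n := n) c a₀}
  {C : Set (glue c a₀ z₀).M} {hC : IsOpen C} {m₀ : (glue c a₀ z₀).M} {hm₀ : m₀ ∈ C}

lemma bil_mat {G : Glue ι n} (D : G.MetricData) (i : ι) (z u v : 𝔼) :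
    bil (D.mat i z) u v = D.g i z u v := by
  rw [bil_apply]
  conv_rhs => rw [eq_sum_single u, eq_sum_single v]
  simp only [map_sum, sum_apply, map_smul, smul_apply, smul_eq_mul, Finset.mul_sum,
    Glue.MetricData.mat, Matrix.of_apply]
  rw [Finset.sum_comm]
  refine Finset.sum_congr rfl fun i _ => Finset.sum_congr rfl fun j _ => ?_
  ring

theorem locIso_prS :
    letI : RiemannianBundle (fun x : (sub (glue c a₀ z₀) C hC m₀ hm₀).M => TangentSpace 𝓘E x) :=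
      ⟨(subMetric (mdat c)).toMetric.toRiemannianMetric⟩
    LocIso n (prS c a₀ z₀ C hC m₀ hm₀) := by
  letI : RiemannianBundle (fun x : (sub (glue c a₀ z₀) C hC m₀ hm₀).M => TangentSpace 𝓘E x) :=
      ⟨(subMetric (mdat c)).toMetric.toRiemannianMetric⟩
  refine ⟨contMDiff_prS, ?_⟩
  intro x v w
  have h1 := inner_eq_bil x (mem_chart_source 𝔼 x) v w
  have hnb : chartAt 𝔼 x x ∈ Glue.nb (sub (glue c a₀ z₀) C hC m₀ hm₀) x := Glue.chartAt_mem_nb (sub (glue c a₀ z₀) C hC m₀ hm₀) (mem_chart_source 𝔼 x)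
  have h2 : chartMetric n (Glue.M (sub (glue c a₀ z₀) C hC m₀ hm₀)) x (chartAt 𝔼 x x) =
      (subMetric (mdat c) : Glue.MetricData (sub (glue c a₀ z₀) C hC m₀ hm₀)).mat (Glue.idx (sub (glue c a₀ z₀) C hC m₀ hm₀) x) (chartAt 𝔼 x x) :=
    Glue.MetricData.metricInChart_eq (subMetric (mdat c)) x hnb
  rw [h2, bil_mat] at h1
  have h3 : (subMetric (mdat c) : Glue.MetricData (sub (glue c a₀ z₀) C hC m₀ hm₀)).g (Glue.idx (sub (glue c a₀ z₀) C hC m₀ hm₀) x) (chartAt 𝔼 x x) (dCh x x v)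
      (dCh x x w) = gp c (Glue.idx (sub (glue c a₀ z₀) C hC m₀ hm₀) x) (chartAt 𝔼 x x) (dCh x x v) (dCh x x w) := rfl
  rw [h3, gp_apply, bil_chartMetric] at h1
  rw [h1]
  have h4 : prS c a₀ z₀ C hC m₀ hm₀ x =
      (chartAt 𝔼 (c (Glue.idx (sub (glue c a₀ z₀) C hC m₀ hm₀) x).1)).symm (R n (Glue.idx (sub (glue c a₀ z₀) C hC m₀ hm₀) x).2 (chartAt 𝔼 x x)) :=
    (prS_eventuallyEq x).self_of_nhds
  have h5 := inner_congr (n := n) h4
    (dSy (c (Glue.idx (sub (glue c a₀ z₀) C hC m₀ hm₀) x).1) (R n (Glue.idx (sub (glue c a₀ z₀) C hC m₀ hm₀) x).2 (chartAt 𝔼 x x)) (R n (Glue.idx (sub (glue c a₀ z₀) C hC m₀ hm₀) x).2 (dCh x x v)))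
    (dSy (c (Glue.idx (sub (glue c a₀ z₀) C hC m₀ hm₀) x).1) (R n (Glue.idx (sub (glue c a₀ z₀) C hC m₀ hm₀) x).2 (chartAt 𝔼 x x)) (R n (Glue.idx (sub (glue c a₀ z₀) C hC m₀ hm₀) x).2 (dCh x x w)))
  have h6 := mfderiv_prS (c := c) (a₀ := a₀) (z₀ := z₀) (C := C) (hC := hC) (m₀ := m₀)
    (hm₀ := hm₀) x v
  have h7 := mfderiv_prS (c := c) (a₀ := a₀) (z₀ := z₀) (C := C) (hC := hC) (m₀ := m₀)
    (hm₀ := hm₀) x w
  exact (congrArg₂ (fun a b : 𝔼 => @inner ℝ (TangentSpace 𝓘E (prS c a₀ z₀ C hC m₀ hm₀ x)) _ a b)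
    h6 h7).trans h5

variable (n M) in
/-- **the oriented cover.** -/
theorem exists_oriented_cover [T2Space M] [CompactSpace M] [ConnectedSpace M] :
    ∃ (G : Geo n) (ϖ : G.S → M), CompactSpace G.S ∧ Oriented n G.S ∧
      Function.Surjective ϖ ∧ LocIso n ϖ := by
  obtain ⟨k, c, K, hK, hKt, hc⟩ := exists_finite_cover n M
  obtain ⟨p⟩ : Nonempty M := inferInstance
  obtain ⟨i₀, y₀, hy₀, -⟩ := hc p
  let z₀ : Up (n := n) c (i₀, false) := ⟨y₀, hKt i₀ hy₀⟩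
  haveI : T2Space (glue c (i₀, false) z₀).M := t2Space_glue
  haveI : CompactSpace (glue c (i₀, false) z₀).M := compactSpace_glue K hK hKt hc
  haveI : LocallyConnectedSpace (glue c (i₀, false) z₀).M := ChartedSpace.locallyConnectedSpace 𝔼 _
  let m₀ : (glue c (i₀, false) z₀).M := (glue c (i₀, false) z₀).proj (glue c (i₀, false) z₀).base
  let C : Set (glue c (i₀, false) z₀).M := connectedComponent m₀
  have hC : IsOpen C := isOpen_connectedComponent
  have hm₀ : m₀ ∈ C := mem_connectedComponent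
  have hCc : IsCompact C := isClosed_connectedComponent.isCompact
  haveI : T2Space (sub (glue c (i₀, false) z₀) C hC m₀ hm₀).M := t2Space_sub
  haveI : CompactSpace (sub (glue c (i₀, false) z₀) C hC m₀ hm₀).M := compactSpace_sub hCc
  haveI : ConnectedSpace (sub (glue c (i₀, false) z₀) C hC m₀ hm₀).M :=
    connectedSpace_sub isConnected_connectedComponent
  let G : Geo n :=
    { X := (sub (glue c (i₀, false) z₀) C hC m₀ hm₀).M
      top := inferInstance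
      t3 := inferInstance
      conn := inferInstance
      chs := inferInstance
      mfd := inferInstance
      g := (subMetric (mdat c)).toMetric }
  refine ⟨G, prS c (i₀, false) z₀ C hC m₀ hm₀, ?_, ?_, ?_, ?_⟩
  · exact (inferInstance : CompactSpace (sub (glue c (i₀, false) z₀) C hC m₀ hm₀).M)
  · exact oriented_sub
  · have h1 : range (prS c (i₀, false) z₀ C hC m₀ hm₀) =
        pr c (i₀, false) z₀ '' C := by
      have h0 : prS c (i₀, false) z₀ C hC m₀ hm₀ =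
        pr c (i₀, false) z₀ ∘ subMap (glue c (i₀, false) z₀) C hC m₀ hm₀ := rfl
      rw [h0, range_comp, range_subMap]
    have h2 : IsOpen (pr c (i₀, false) z₀ '' C) := isOpenMap_pr C hC
    have h3 : IsClosed (pr c (i₀, false) z₀ '' C) := (hCc.image continuous_pr).isClosed
    have h4 : pr c (i₀, false) z₀ '' C = univ :=
      IsClopen.eq_univ ⟨h3, h2⟩ ⟨_, ⟨m₀, hm₀, rfl⟩⟩
    exact range_eq_univ.1 (h1.trans h4)
  · exact locIso_prS

end Metric

end Crest.Agent.R249.OriD_285
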