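import Crest.Agent.R249.FrmB_285
import Crest.Agent.R249.Bia1_104
import Crest.Agent.R249.OriD_285
import Crest.Agent.R247.Bo8_84

-- ▼ part R249/FrmC_285
section

/-!
# R249, leaf FRM (helper285), part C: frame components of the curvature, invariant functions

`Rc g x e i j k l = ⟨R(e_i,e_j)e_k, e_l⟩`; `Rc_change`, `Rc_pull`; `exists_change` : two positive
orthonormal bases differ by an element of `SO(n)`; `mInv Φ` the function on an oriented manifold
given by an `SO(n)`-invariant function `Φ` of the curvature components, `mInv_chart` its expression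
in every chart and every positively oriented orthonormal frame.
-/

set_option autoImplicit false
set_option maxSynthPendingDepth 3

open Filter Topology Set Bundle
open scoped ContDiff Manifold
open Crest.GeometryTopology.CoordMetric Crest.GeometryTopology.ChartCurvature
open Crest.Agent.R202.Tens Crest.Agent.R247.Bo84 Crest.Agent.R249.FrmB_285

noncomputable section

namespace Crest.Agent.R249.FrmC_285

variable {n : ℕ}

local notation "𝔼" => EuclideanSpace ℝ (Fin n)

variable {g : MetricField n} {U : Set (EuclideanSpace ℝ (Fin n))} {x : EuclideanSpace ℝ (Fin n)}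

/-- components of the curvature tensor: `⟨R(e_i,e_j)e_k, e_l⟩`. -/
def Rc (g : MetricField n) (x : EuclideanSpace ℝ (Fin n))
    (e : Fin n → EuclideanSpace ℝ (Fin n)) (i j k l : Fin n) : ℝ :=
  bil (g x) (curv (Gam g) x (e i) (e j) (e k)) (e l)

/-- algebraic curvature tensors. -/
structure AlgCurv (R : Fin n → Fin n → Fin n → Fin n → ℝ) : Prop where
  anti12 : ∀ i j k l, R i j k l = - R j i k l
  anti34 : ∀ i j k l, R i j k l = - R i j l k
  bianchi : ∀ i j k l, R i j k l + R j k i l + R k i j l = 0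
  pair : ∀ i j k l, R i j k l = R k l i j

theorem algCurv_Rc (hg : IsRiemannianOn g U) (hx : x ∈ U) (e : Fin n → 𝔼) :
    AlgCurv (Rc g x e) where
  anti12 i j k l := by
    simp only [Rc]
    rw [R249.Bia1_104.curv_swap, map_neg, _root_.neg_apply]
  anti34 i j k l := R249.Bia1_104.curv_skew hg hx _ _ _ _
  bianchi i j k l := by
    simp only [Rc]
    rw [← _root_.add_apply, ← map_add, ← _root_.add_apply, ← map_add, R249.Bia1_104.curv_first hg hx,
      map_zero, _root_.zero_apply]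
  pair i j k l := by
    simp only [Rc]
    rw [R249.Bia1_104.curv_pair hg hx, R249.Bia1_104.curv_swap, map_neg, _root_.neg_apply,
      R249.Bia1_104.curv_skew hg hx, neg_neg]

/-! ### multilinearity -/

lemma curv_sum1 (Γ : 𝔼 → 𝔼 →L[ℝ] 𝔼 →L[ℝ] 𝔼) (x : 𝔼) {ι : Type*} (s : Finset ι) (a : ι → ℝ)
    (w : ι → 𝔼) (X Y : 𝔼) :
    curv Γ x (∑ i ∈ s, a i • w i) X Y = ∑ i ∈ s, a i • curv Γ x (w i) X Y := by
  simp only [curv, map_sum, map_smul, _root_.sum_apply, _root_.smul_apply, smul_sub, smul_add,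
    Finset.sum_add_distrib, Finset.sum_sub_distrib]

lemma curv_sum2 (Γ : 𝔼 → 𝔼 →L[ℝ] 𝔼 →L[ℝ] 𝔼) (x : 𝔼) {ι : Type*} (s : Finset ι) (a : ι → ℝ)
    (w : ι → 𝔼) (X Y : 𝔼) :
    curv Γ x X (∑ i ∈ s, a i • w i) Y = ∑ i ∈ s, a i • curv Γ x X (w i) Y := by
  simp only [curv, map_sum, map_smul, _root_.sum_apply, _root_.smul_apply, smul_sub, smul_add,
    Finset.sum_add_distrib, Finset.sum_sub_distrib]

lemma curv_sum3 (Γ : 𝔼 → 𝔼 →L[ℝ] 𝔼 →L[ℝ] 𝔼) (x : 𝔼) {ι : Type*} (s : Finset ι) (a : ι → ℝ)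
    (w : ι → 𝔼) (X Y : 𝔼) :
    curv Γ x X Y (∑ i ∈ s, a i • w i) = ∑ i ∈ s, a i • curv Γ x X Y (w i) := by
  simp only [curv, map_sum, map_smul, smul_sub, smul_add,
    Finset.sum_add_distrib, Finset.sum_sub_distrib]

lemma sum3_rev {ι : Type*} (s : Finset ι) (F : ι → ι → ι → ℝ) :
    ∑ a ∈ s, ∑ b ∈ s, ∑ c ∈ s, F a b c = ∑ c ∈ s, ∑ b ∈ s, ∑ a ∈ s, F a b c := by
  calc ∑ a ∈ s, ∑ b ∈ s, ∑ c ∈ s, F a b c = ∑ a ∈ s, ∑ c ∈ s, ∑ b ∈ s, F a b c :=
        Finset.sum_congr rfl fun a _ => Finset.sum_comm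
    _ = ∑ c ∈ s, ∑ a ∈ s, ∑ b ∈ s, F a b c := Finset.sum_comm
    _ = ∑ c ∈ s, ∑ b ∈ s, ∑ a ∈ s, F a b c := Finset.sum_congr rfl fun c _ => Finset.sum_comm

lemma sum4_rev {ι : Type*} (s : Finset ι) (F : ι → ι → ι → ι → ℝ) :
    ∑ a ∈ s, ∑ b ∈ s, ∑ c ∈ s, ∑ d ∈ s, F a b c d =
      ∑ d ∈ s, ∑ c ∈ s, ∑ b ∈ s, ∑ a ∈ s, F a b c d := by
  calc ∑ a ∈ s, ∑ b ∈ s, ∑ c ∈ s, ∑ d ∈ s, F a b c d
      = ∑ a ∈ s, ∑ d ∈ s, ∑ c ∈ s, ∑ b ∈ s, F a b c d :=
        Finset.sum_congr rfl fun a _ => sum3_rev s _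
    _ = ∑ d ∈ s, ∑ a ∈ s, ∑ c ∈ s, ∑ b ∈ s, F a b c d := Finset.sum_comm
    _ = ∑ d ∈ s, ∑ c ∈ s, ∑ a ∈ s, ∑ b ∈ s, F a b c d :=
        Finset.sum_congr rfl fun d _ => Finset.sum_comm
    _ = ∑ d ∈ s, ∑ c ∈ s, ∑ b ∈ s, ∑ a ∈ s, F a b c d :=
        Finset.sum_congr rfl fun d _ => Finset.sum_congr rfl fun c _ => Finset.sum_comm

/-- the action of a matrix on 4-tensors. -/
def act (O : Matrix (Fin n) (Fin n) ℝ) (R : Fin n → Fin n → Fin n → Fin n → ℝ)
    (i j k l : Fin n) : ℝ :=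
  ∑ a, ∑ b, ∑ c, ∑ d, O i a * O j b * O k c * O l d * R a b c d

/-- change of basis. -/
theorem Rc_change (O : Matrix (Fin n) (Fin n) ℝ) (e : Fin n → 𝔼) :
    Rc g x (fun i => ∑ a, O i a • e a) = act O (Rc g x e) := by
  ext i j k l
  simp only [Rc, act, curv_sum1, curv_sum2, curv_sum3, map_sum, map_smul, _root_.sum_apply,
    _root_.smul_apply, smul_eq_mul, Finset.mul_sum]
  rw [sum4_rev]
  refine Finset.sum_congr rfl fun a _ => Finset.sum_congr rfl fun b _ =>
    Finset.sum_congr rfl fun c _ => Finset.sum_congr rfl fun d _ => ?_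
  ring

/-- the curvature components are preserved by local isometries. -/
theorem Rc_pull {g' : MetricField n} {Φ : 𝔼 → 𝔼} {V W : Set 𝔼} {y : 𝔼}
    (h : Pull g' g Φ V W) (hy : y ∈ V) (e : Fin n → 𝔼) :
    Rc g (Φ y) (fun i => fderiv ℝ Φ y (e i)) = Rc g' y e := by
  ext i j k l
  simp only [Rc]
  rw [← h.curv_eq hy, ← h.bil_eq hy]

theorem orth_pull {g' : MetricField n} {Φ : 𝔼 → 𝔼} {V W : Set 𝔼} {y : 𝔼}
    (h : Pull g' g Φ V W) (hy : y ∈ V) {e : Fin n → 𝔼} (he : Orth (g' y) e) :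
    Orth (g (Φ y)) fun i => fderiv ℝ Φ y (e i) := by
  intro a b
  rw [← h.bil_eq hy]
  exact he a b

/-- determinant of the image of a basis. -/
theorem det_map (L : 𝔼 →L[ℝ] 𝔼) (e : Fin n → 𝔼) :
    (mat fun i => L (e i)).det = LinearMap.det (L : 𝔼 →ₗ[ℝ] 𝔼) * (mat e).det := by
  set b := (EuclideanSpace.basisFun (Fin n) ℝ).toBasis with hb
  have h1 : mat (fun i => L (e i)) = LinearMap.toMatrix b b (L : 𝔼 →ₗ[ℝ] 𝔼) * mat e := by
    ext a i
    rw [Matrix.mul_apply]
    simp only [mat_apply, LinearMap.toMatrix_apply]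
    conv_lhs => rw [eq_sum_single (e i)]
    rw [map_sum, WithLp.ofLp_sum, Finset.sum_apply]
    refine Finset.sum_congr rfl fun k _ => ?_
    rw [map_smul, PiLp.smul_apply, smul_eq_mul, mul_comm]
    simp [hb]
  rw [h1, Matrix.det_mul, LinearMap.det_toMatrix]

/-- two orthonormal bases with the same orientation differ by an element of `SO(n)`. -/
theorem exists_change {A : Matrix (Fin n) (Fin n) ℝ} {e e' : Fin n → 𝔼} (he : Orth A e)
    (he' : Orth A e') (hd : 0 < (mat e).det * (mat e').det) :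
    ∃ O : Matrix (Fin n) (Fin n) ℝ, O * O.transpose = 1 ∧ O.det = 1 ∧
      e' = fun i => ∑ a, O i a • e a := by
  -- `E' = E Q`, `Q = E⁻¹ E'`, `O = Qᵀ`
  have hu : IsUnit (mat e).det := he.det_ne.isUnit
  set Q := (mat e)⁻¹ * mat e' with hQ
  have hEQ : mat e * Q = mat e' := by
    rw [hQ, ← Matrix.mul_assoc, Matrix.mul_nonsing_inv _ hu, Matrix.one_mul]
  have hQQ : Q.transpose * Q = 1 := by
    have h1 := he'.matrix
    rw [← hEQ, Matrix.transpose_mul] at h1
    have h2 : Q.transpose * ((mat e).transpose * A * mat e) * Q = 1 := by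
      rw [← h1]
      simp only [Matrix.mul_assoc]
    rw [he.matrix, Matrix.mul_one] at h2
    exact h2
  have hdQ : Q.det = 1 := by
    have h1 : Q.det * Q.det = 1 := by
      have := congrArg Matrix.det hQQ
      rwa [Matrix.det_mul, Matrix.det_transpose, Matrix.det_one] at this
    have h2 : 0 < Q.det := by
      have h3 : (mat e).det * Q.det = (mat e').det := by rw [← Matrix.det_mul, hEQ]
      rw [← h3, ← mul_assoc] at hd
      exact (mul_pos_iff_of_pos_left (mul_self_pos.2 he.det_ne)).1 hd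
    nlinarith
  refine ⟨Q.transpose, ?_, ?_, ?_⟩
  · rw [Matrix.transpose_transpose]; exact hQQ
  · rw [Matrix.det_transpose, hdQ]
  · funext i
    ext a
    have h1 := congrFun (congrFun hEQ a) i
    rw [Matrix.mul_apply] at h1
    rw [WithLp.ofLp_sum, Finset.sum_apply]
    simp only [PiLp.smul_apply, smul_eq_mul, Matrix.transpose_apply]
    rw [← mat_apply e', ← h1]
    refine Finset.sum_congr rfl fun k _ => ?_
    rw [mat_apply, mul_comm]

/-- invariance under `SO(n)`, on algebraic curvature tensors. -/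
def Inv (Φ : (Fin n → Fin n → Fin n → Fin n → ℝ) → ℝ) : Prop :=
  ∀ R, AlgCurv R → ∀ O : Matrix (Fin n) (Fin n) ℝ, O * O.transpose = 1 → O.det = 1 →
    Φ (act O R) = Φ R

theorem Inv.eq_of_mul_pos {Φ : (Fin n → Fin n → Fin n → Fin n → ℝ) → ℝ} (hΦ : Inv Φ)
    (hg : IsRiemannianOn g U) (hx : x ∈ U) {e e' : Fin n → 𝔼} (he : Orth (g x) e)
    (he' : Orth (g x) e') (hd : 0 < (mat e).det * (mat e').det) :
    Φ (Rc g x e') = Φ (Rc g x e) := by
  obtain ⟨O, h1, h2, rfl⟩ := exists_change he he' hd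
  rw [Rc_change]
  exact hΦ _ (algCurv_Rc hg hx e) O h1 h2

theorem Inv.eq {Φ : (Fin n → Fin n → Fin n → Fin n → ℝ) → ℝ} (hΦ : Inv Φ)
    (hg : IsRiemannianOn g U) (hx : x ∈ U) {e e' : Fin n → 𝔼} (he : Orth (g x) e)
    (he' : Orth (g x) e') (hd : 0 < (mat e).det) (hd' : 0 < (mat e').det) :
    Φ (Rc g x e') = Φ (Rc g x e) := hΦ.eq_of_mul_pos hg hx he he' (mul_pos hd hd')

/-- images of an orthonormal basis under an orthogonal matrix. -/
theorem orth_change {A : Matrix (Fin n) (Fin n) ℝ} {e : Fin n → 𝔼} (he : Orth A e)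
    {O : Matrix (Fin n) (Fin n) ℝ} (hO : O * O.transpose = 1) :
    Orth A fun i => ∑ a, O i a • e a := by
  intro i j
  have h1 := congrFun (congrFun hO i) j
  rw [Matrix.mul_apply, Matrix.one_apply] at h1
  simp only [map_sum, map_smul, _root_.sum_apply, _root_.smul_apply, smul_eq_mul]
  have h2 : ∀ a b, O j a * (O i b * bil A (e b) (e a)) = if b = a then O j a * O i b else 0 := by
    intro a b
    rw [he b a]
    split_ifs <;> ring
  simp only [Finset.mul_sum, h2, Finset.sum_ite_eq', Finset.mem_univ, if_true]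
  rw [← h1]
  exact Finset.sum_congr rfl fun a _ => by rw [Matrix.transpose_apply, mul_comm]

theorem det_change (e : Fin n → 𝔼) (O : Matrix (Fin n) (Fin n) ℝ) :
    (mat fun i => ∑ a, O i a • e a).det = O.det * (mat e).det := by
  have h : (mat fun i => ∑ a, O i a • e a) = mat e * O.transpose := by
    ext a i
    rw [Matrix.mul_apply, mat_apply, WithLp.ofLp_sum, Finset.sum_apply]
    refine Finset.sum_congr rfl fun b _ => ?_
    rw [PiLp.smul_apply, smul_eq_mul, Matrix.transpose_apply, mat_apply, mul_comm]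
  rw [h, Matrix.det_mul, Matrix.det_transpose, mul_comm]

theorem exists_basis (hg : IsRiemannianOn g U) (hx : x ∈ U) :
    ∃ e : Fin n → 𝔼, Orth (g x) e ∧ 0 < (mat e).det := by
  obtain ⟨e, -, h⟩ := FrmB_285.exists_frame hg hx
  exact ⟨fun i => e i x, h.self_of_nhds⟩

end Crest.Agent.R249.FrmC_285
end
end

-- ▼ part R249/FrmD_285

/-!
# R249, leaf FRM (helper285), part D: invariant functions of the curvature on oriented manifolds

`mInv Φ : M → ℝ`, `mInv_chart`, `mInv_germ`, `contMDiff_mInv`.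
-/

set_option autoImplicit false
set_option maxSynthPendingDepth 3

open Filter Topology Set Bundle
open scoped ContDiff Manifold
open Crest.GeometryTopology.CoordMetric Crest.GeometryTopology.ChartCurvature
open Crest.Agent.R202.Tens Crest.Agent.R247.Bo84 Crest.Agent.R249.FrmB_285
open Crest.Agent.R249.FrmC_285 Crest.Agent.R249.OriD_285

noncomputable section

namespace Crest.Agent.R249.FrmD_285

variable {n : ℕ}

local notation "𝔼" => EuclideanSpace ℝ (Fin n)
local notation "𝓘E" => 𝓘(ℝ, EuclideanSpace ℝ (Fin n))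

section Local

variable {g : MetricField n} {U : Set (EuclideanSpace ℝ (Fin n))} {x : EuclideanSpace ℝ (Fin n)}

theorem contDiffAt_Rc (hg : IsRiemannianOn g U) (hx : x ∈ U) {e : Fin n → 𝔼 → 𝔼}
    (he : ∀ i, ContDiffAt ℝ ∞ (e i) x) (i j k l : Fin n) :
    ContDiffAt ℝ ∞ (fun y => Rc g y (fun i => e i y) i j k l) x := by
  have hG : ContDiffAt ℝ ∞ (Gam g) x := contDiffAt_Gam hg hx
  have hG' : ContDiffAt ℝ ∞ (fderiv ℝ (Gam g)) x := hG.fderiv_right (m := ∞) (by simp)
  have h1 : ∀ a b c : Fin n, ContDiffAt ℝ ∞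
      (fun y => fderiv ℝ (Gam g) y (e a y) (e b y) (e c y)) x := fun a b c =>
    ((hG'.clm_apply (he a)).clm_apply (he b)).clm_apply (he c)
  have h2 : ∀ a b c : Fin n, ContDiffAt ℝ ∞
      (fun y => Gam g y (e a y) (Gam g y (e b y) (e c y))) x := fun a b c =>
    (hG.clm_apply (he a)).clm_apply ((hG.clm_apply (he b)).clm_apply (he c))
  have h3 : ContDiffAt ℝ ∞ (fun y => curv (Gam g) y (e i y) (e j y) (e k y)) x := by
    unfold curv
    exact (((h1 i j k).sub (h1 j i k)).add (h2 i j k)).sub (h2 j i k)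
  exact contDiffAt_bil hg hx le_rfl h3 (he l)

end Local

variable {M : Type*} [TopologicalSpace M] [ChartedSpace (EuclideanSpace ℝ (Fin n)) M]
  [IsManifold 𝓘(ℝ, EuclideanSpace ℝ (Fin n)) ∞ M]
  [RiemannianBundle (fun x : M => TangentSpace 𝓘(ℝ, EuclideanSpace ℝ (Fin n)) x)]
  [IsContMDiffRiemannianBundle 𝓘(ℝ, EuclideanSpace ℝ (Fin n)) ∞ (EuclideanSpace ℝ (Fin n))
      (fun x : M => TangentSpace 𝓘(ℝ, EuclideanSpace ℝ (Fin n)) x)]

/-- a positive orthonormal basis at the centre of the preferred chart of `p`. -/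
def bas (p : M) : Fin n → EuclideanSpace ℝ (Fin n) :=
  Classical.choose (exists_basis (isRiemannianOn_chartMetric (n := n) p) (centre_mem p))

theorem bas_orth (p : M) : Orth (chartMetric n M p (chartCentre n M p)) (bas p) :=
  (Classical.choose_spec
    (exists_basis (isRiemannianOn_chartMetric (n := n) p) (centre_mem p))).1

theorem bas_det (p : M) : 0 < (mat (bas (n := n) p)).det :=
  (Classical.choose_spec
    (exists_basis (isRiemannianOn_chartMetric (n := n) p) (centre_mem p))).2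

/-- the function on `M` given by an invariant function of the curvature components. -/
def mInv (Φ : (Fin n → Fin n → Fin n → Fin n → ℝ) → ℝ) (p : M) : ℝ :=
  Φ (Rc (chartMetric n M p) (chartCentre n M p) (bas p))

variable {Φ : (Fin n → Fin n → Fin n → Fin n → ℝ) → ℝ}

/-- expression of `mInv Φ` in every chart and every positive orthonormal basis. -/
theorem mInv_chart (hO : Oriented n M) (hΦ : Inv Φ) {x₀ : M} {y : 𝔼}
    (hy : y ∈ (chartAt 𝔼 x₀).target) {e : Fin n → 𝔼} (he : Orth (chartMetric n M x₀ y) e)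
    (hd : 0 < (mat e).det) :
    mInv Φ ((chartAt 𝔼 x₀).symm y) = Φ (Rc (chartMetric n M x₀) y e) := by
  set q := (chartAt 𝔼 x₀).symm y with hq
  have hyd : y ∈ tdom x₀ q := mem_tdom_self hy
  have hP := pull_trans (n := n) x₀ q
  have hpos := hO x₀ q y hyd
  have hc : R247.Bo84.trans x₀ q y = chartCentre n M q := rfl
  have h1 := orth_pull hP hyd he
  have h2 := Rc_pull hP hyd e
  have h3 : 0 < (mat fun i => fderiv ℝ (R247.Bo84.trans x₀ q) y (e i)).det := by
    rw [det_map]; exact mul_pos hpos hd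
  rw [hc] at h1 h2
  rw [← h2, mInv]
  exact hΦ.eq (isRiemannianOn_chartMetric (n := n) q) (centre_mem q) h1 (bas_orth q) h3 (bas_det q)


/-- germ of `mInv Φ` in a chart. -/
theorem mInv_germ (hO : Oriented n M) (hΦ : Inv Φ) {x₀ : M} {y : 𝔼}
    (hy : y ∈ (chartAt 𝔼 x₀).target) {e : Fin n → 𝔼 → 𝔼}
    (he : ∀ᶠ z in 𝓝 y, Orth (chartMetric n M x₀ z) (fun i => e i z) ∧
      0 < (mat fun i => e i z).det) :
    inCh n x₀ (mInv Φ) =ᶠ[𝓝 y] fun z => Φ (Rc (chartMetric n M x₀) z fun i => e i z) := by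
  filter_upwards [he, (chartAt 𝔼 x₀).open_target.mem_nhds hy] with z hz hzt
  exact mInv_chart hO hΦ hzt hz.1 hz.2

theorem contMDiff_mInv (hO : Oriented n M) (hΦ : Inv Φ) (hs : ContDiff ℝ ∞ Φ) :
    ContMDiff 𝓘E 𝓘(ℝ, ℝ) ∞ (mInv Φ : M → ℝ) := by
  intro p
  have hg := isRiemannianOn_chartMetric (n := n) p
  have hc : chartCentre n M p ∈ (chartAt 𝔼 p).target := centre_mem p
  obtain ⟨e, he, hoe⟩ := FrmB_285.exists_frame hg hc
  refine contMDiffAt_of_inCh le_rfl (mem_chart_source 𝔼 p) ?_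
  refine ContDiffAt.congr_of_eventuallyEq ?_ (mInv_germ hO hΦ hc hoe)
  refine hs.contDiffAt.comp _ ?_
  refine contDiffAt_pi.2 fun i => contDiffAt_pi.2 fun j => contDiffAt_pi.2 fun k =>
    contDiffAt_pi.2 fun l => ?_
  exact contDiffAt_Rc hg hc he i j k l

end Crest.Agent.R249.FrmD_285
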