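import Mathlib
import Crest.Agent.R249.HK9c_714
import Crest.Agent.R249.Tv0_57

-- ▼ part R249/HK9a_714
section

/-!
# Row 249, PART C, leaf HK9, layer 1 (helper714)

Abstract passage from pointwise (diagonal) statements to traces.

`Fam μ K` : a countable family of densities `v k ≥ 0`, `∫ v k = 1` (think `|φ_k|²`) with exponents `m k ≥ 0`.
`Fam.diag F t x = ∑' k, exp (-(2 t m_k)) v_k x`.
`Bnd F G`  : uniform bounds of `MainStmt` (HKDef_286): `diag ≤ C/t²`, `|diag F - diag G| ≤ C` for `0 < t ≤ 1`.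
* `Fam.summable` : `Summable (exp (-(t m_k)))` for every `t > 0`;
* `Fam.tsum_eq`  : `∑' k, exp (-(2 t m_k)) = ∫ diag t`;
* `tendsto_trace`: the difference of the traces tends to `∫ d`, `d` = the pointwise limit of `diag F - diag G`;
* `bnd_of_local` : compactness: local bounds give `Bnd`.
-/

set_option autoImplicit false
open MeasureTheory Set Filter Topology

namespace Crest.Agent.R249.HK9_714

variable {X : Type*} [MeasurableSpace X]

/-- densities `v k ≥ 0` of mass one and exponents `m k ≥ 0` -/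
structure Fam (μ : Measure X) (K : Type*) where
  v : K → X → ℝ
  m : K → ℝ
  v_nonneg : ∀ k x, 0 ≤ v k x
  v_meas : ∀ k, Measurable (v k)
  v_int : ∀ k, ∫ x, v k x ∂μ = 1
  m_nonneg : ∀ k, 0 ≤ m k

variable {μ : Measure X} {K K' : Type*}

/-- the diagonal of the heat kernel at time `2 t` -/
noncomputable def Fam.diag (F : Fam μ K) (t : ℝ) (x : X) : ℝ :=
  ∑' k, Real.exp (-(2 * t * F.m k)) * F.v k x

/-- `diag ≤ C / t²` for `0 < t ≤ 1` on a set -/
def Fam.BOn (F : Fam μ K) (S : Set X) (C : ℝ) : Prop :=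
  ∀ x ∈ S, ∀ t ∈ Ioc (0 : ℝ) 1,
    Summable (fun k => Real.exp (-(2 * t * F.m k)) * F.v k x) ∧ F.diag t x ≤ C / t ^ 2

/-- the difference of two diagonals is bounded on a set -/
def DOn (F : Fam μ K) (G : Fam μ K') (S : Set X) (C : ℝ) : Prop :=
  ∀ x ∈ S, ∀ t ∈ Ioc (0 : ℝ) 1, |F.diag t x - G.diag t x| ≤ C

theorem Fam.integrable (F : Fam μ K) (k : K) : Integrable (F.v k) μ :=
  integrable_of_integral_eq_one (F.v_int k)

theorem Fam.term_nonneg (F : Fam μ K) (t : ℝ) (k : K) (x : X) :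
    0 ≤ Real.exp (-(2 * t * F.m k)) * F.v k x :=
  mul_nonneg (Real.exp_pos _).le (F.v_nonneg k x)

theorem Fam.diag_eq (F : Fam μ K) (t : ℝ) (x : X) :
    F.diag t x = (∑' k, ENNReal.ofReal (Real.exp (-(2 * t * F.m k)) * F.v k x)).toReal := by
  rw [ENNReal.tsum_toReal_eq (fun k => ENNReal.ofReal_ne_top)]
  unfold Fam.diag
  congr 1
  funext k
  rw [ENNReal.toReal_ofReal (F.term_nonneg t k x)]

theorem Fam.measurable_term (F : Fam μ K) (t : ℝ) (k : K) :
    Measurable fun x => ENNReal.ofReal (Real.exp (-(2 * t * F.m k)) * F.v k x) :=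
  ENNReal.measurable_ofReal.comp ((F.v_meas k).const_mul _)

theorem Fam.measurable_diag [Countable K] (F : Fam μ K) (t : ℝ) : Measurable (F.diag t) := by
  have : F.diag t = fun x =>
      (∑' k, ENNReal.ofReal (Real.exp (-(2 * t * F.m k)) * F.v k x)).toReal :=
    funext (F.diag_eq t)
  rw [this]
  exact (Measurable.tsum fun k => (F.measurable_term t k)).ennreal_toReal

theorem Fam.diag_nonneg (F : Fam μ K) (t : ℝ) (x : X) : 0 ≤ F.diag t x :=
  tsum_nonneg fun k => F.term_nonneg t k x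

theorem Fam.lintegral_term (F : Fam μ K) (t : ℝ) (k : K) :
    ∫⁻ x, ENNReal.ofReal (Real.exp (-(2 * t * F.m k)) * F.v k x) ∂μ
      = ENNReal.ofReal (Real.exp (-(2 * t * F.m k))) := by
  rw [← ofReal_integral_eq_lintegral_ofReal ((F.integrable k).const_mul _)
    (Eventually.of_forall fun x => F.term_nonneg t k x)]
  rw [integral_const_mul, F.v_int k, mul_one]

/-- summability of `exp (-(2 t m_k))` for `0 < t ≤ 1` -/
theorem Fam.summable_of_le_one [Countable K] [IsFiniteMeasure μ] (F : Fam μ K) {C : ℝ}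
    (h : F.BOn univ C) {t : ℝ} (ht : t ∈ Ioc (0 : ℝ) 1) :
    Summable fun k => Real.exp (-(2 * t * F.m k)) := by
  have h1 : ∑' k, ENNReal.ofReal (Real.exp (-(2 * t * F.m k))) ≠ ⊤ := by
    have h2 : ∑' k, ENNReal.ofReal (Real.exp (-(2 * t * F.m k)))
        = ∫⁻ x, ∑' k, ENNReal.ofReal (Real.exp (-(2 * t * F.m k)) * F.v k x) ∂μ := by
      rw [lintegral_tsum fun k => (F.measurable_term t k).aemeasurable]
      exact tsum_congr fun k => (F.lintegral_term t k).symm
    rw [h2]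
    have h3 : ∫⁻ x, ∑' k, ENNReal.ofReal (Real.exp (-(2 * t * F.m k)) * F.v k x) ∂μ
        ≤ ∫⁻ _, ENNReal.ofReal (C / t ^ 2) ∂μ := by
      refine lintegral_mono fun x => ?_
      obtain ⟨hs, hb⟩ := h x (mem_univ x) t ht
      rw [← ENNReal.ofReal_tsum_of_nonneg (fun k => F.term_nonneg t k x) hs]
      exact ENNReal.ofReal_le_ofReal hb
    refine (h3.trans_lt ?_).ne
    rw [lintegral_const]
    exact ENNReal.mul_lt_top ENNReal.ofReal_lt_top (measure_lt_top μ univ)
  have h4 := ENNReal.summable_toReal h1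
  refine h4.congr fun k => ?_
  rw [ENNReal.toReal_ofReal (Real.exp_pos _).le]

/-- `Summable (exp (-(t m_k)))` for every `t > 0` -/
theorem Fam.summable [Countable K] [IsFiniteMeasure μ] (F : Fam μ K) {C : ℝ}
    (h : F.BOn univ C) {t : ℝ} (ht : 0 < t) :
    Summable fun k => Real.exp (-(t * F.m k)) := by
  have h1 := F.summable_of_le_one h (t := min (t / 2) 1)
    ⟨lt_min (half_pos ht) one_pos, min_le_right _ _⟩
  refine Summable.of_nonneg_of_le (fun k => (Real.exp_pos _).le) (fun k => ?_) h1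
  refine Real.exp_le_exp.2 (neg_le_neg ?_)
  have h2 := min_le_left (t / 2) 1
  have h3 := F.m_nonneg k
  nlinarith

theorem Fam.tsum_eq [Countable K] [IsFiniteMeasure μ] (F : Fam μ K) {C : ℝ}
    (h : F.BOn univ C) {t : ℝ} (ht : t ∈ Ioc (0 : ℝ) 1) :
    ∑' k, Real.exp (-(2 * t * F.m k)) = ∫ x, F.diag t x ∂μ := by
  have h1 := hasSum_integral_of_summable_integral_norm
    (F := fun k x => Real.exp (-(2 * t * F.m k)) * F.v k x) (μ := μ)
    (fun k => (F.integrable k).const_mul _) (by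
      refine (F.summable_of_le_one h ht).congr fun k => ?_
      have : ∀ x, ‖Real.exp (-(2 * t * F.m k)) * F.v k x‖
          = Real.exp (-(2 * t * F.m k)) * F.v k x := fun x => by
        rw [Real.norm_of_nonneg (F.term_nonneg t k x)]
      simp only [this]
      rw [integral_const_mul, F.v_int k, mul_one])
  unfold Fam.diag
  rw [← h1.tsum_eq]
  refine tsum_congr fun k => ?_
  rw [integral_const_mul, F.v_int k, mul_one]

theorem Fam.integrable_diag [Countable K] [IsFiniteMeasure μ] (F : Fam μ K) {C : ℝ}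
    (h : F.BOn univ C) {t : ℝ} (ht : t ∈ Ioc (0 : ℝ) 1) : Integrable (F.diag t) μ := by
  refine Integrable.of_bound (F.measurable_diag t).aestronglyMeasurable (C / t ^ 2)
    (Eventually.of_forall fun x => ?_)
  rw [Real.norm_of_nonneg (F.diag_nonneg t x)]
  exact (h x (mem_univ x) t ht).2

/-- the difference of the traces converges to the integral of the limit of the difference of the diagonals -/
theorem tendsto_trace [Countable K] [Countable K'] [IsFiniteMeasure μ] (F : Fam μ K) (G : Fam μ K')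
    {C : ℝ} (hF : F.BOn univ C) (hG : G.BOn univ C) (hD : DOn F G univ C) {d : X → ℝ}
    (hd : ∀ x, Tendsto (fun t => F.diag t x - G.diag t x) (𝓝[>] 0) (𝓝 (d x))) :
    Integrable d μ ∧
    Tendsto (fun t => ∑' k, Real.exp (-(2 * t * F.m k)) - ∑' k, Real.exp (-(2 * t * G.m k)))
      (𝓝[>] 0) (𝓝 (∫ x, d x ∂μ)) := by
  have hmem : ∀ᶠ t : ℝ in 𝓝[>] 0, t ∈ Ioc (0 : ℝ) 1 := by
    filter_upwards [self_mem_nhdsWithin,
      mem_nhdsWithin_of_mem_nhds (Iic_mem_nhds (zero_lt_one' ℝ))] with t h1 h2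
    exact ⟨h1, h2⟩
  have hmeas : ∀ t, Measurable fun x => F.diag t x - G.diag t x := fun t =>
    (F.measurable_diag t).sub (G.measurable_diag t)
  have hdm : Measurable d := by
    refine measurable_of_tendsto_metrizable' (𝓝[>] (0 : ℝ)) hmeas ?_
    rw [tendsto_pi_nhds]
    exact hd
  have hdb : ∀ x, |d x| ≤ C := fun x => by
    refine le_of_tendsto (hd x).abs ?_
    filter_upwards [hmem] with t ht
    exact hD x (mem_univ x) t ht
  refine ⟨Integrable.of_bound hdm.aestronglyMeasurable C (Eventually.of_forall fun x => hdb x), ?_⟩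
  have h1 : Tendsto (fun t => ∫ x, (F.diag t x - G.diag t x) ∂μ) (𝓝[>] 0) (𝓝 (∫ x, d x ∂μ)) := by
    refine tendsto_integral_filter_of_dominated_convergence (fun _ => C)
      (Eventually.of_forall fun t => (hmeas t).aestronglyMeasurable) ?_ (integrable_const C)
      (Eventually.of_forall fun x => hd x)
    filter_upwards [hmem] with t ht
    exact Eventually.of_forall fun x => hD x (mem_univ x) t ht
  refine h1.congr' ?_
  filter_upwards [hmem] with t ht
  rw [F.tsum_eq hF ht, G.tsum_eq hG ht,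
    integral_sub (F.integrable_diag hF ht) (G.integrable_diag hG ht)]

theorem Fam.BOn.mono {F : Fam μ K} {S S' : Set X} {C C' : ℝ} (h : F.BOn S C) (hS : S' ⊆ S)
    (hC : C ≤ C') : F.BOn S' C' := fun x hx t ht =>
  ⟨(h x (hS hx) t ht).1, (h x (hS hx) t ht).2.trans
    (div_le_div_of_nonneg_right hC (by positivity))⟩

theorem DOn.mono {F : Fam μ K} {G : Fam μ K'} {S S' : Set X} {C C' : ℝ} (h : DOn F G S C)
    (hS : S' ⊆ S) (hC : C ≤ C') : DOn F G S' C' := fun x hx t ht => (h x (hS hx) t ht).trans hC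

/-- compactness -/
theorem bnd_of_local [TopologicalSpace X] [CompactSpace X] (F : Fam μ K) (G : Fam μ K')
    (h : ∀ x : X, ∃ U ∈ 𝓝 x, ∃ C, F.BOn U C ∧ G.BOn U C ∧ DOn F G U C) :
    ∃ C, F.BOn univ C ∧ G.BOn univ C ∧ DOn F G univ C := by
  have key : ∃ C, F.BOn univ C ∧ G.BOn univ C ∧ DOn F G univ C := by
    refine isCompact_univ.induction_on (p := fun S => ∃ C, F.BOn S C ∧ G.BOn S C ∧ DOn F G S C)
      ⟨0, fun x hx => absurd hx (by simp), fun x hx => absurd hx (by simp),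
        fun x hx => absurd hx (by simp)⟩ ?_ ?_ ?_
    · rintro S T hST ⟨C, h1, h2, h3⟩
      exact ⟨C, h1.mono hST le_rfl, h2.mono hST le_rfl, h3.mono hST le_rfl⟩
    · rintro S T ⟨C, h1, h2, h3⟩ ⟨C', h1', h2', h3'⟩
      refine ⟨max C C', ?_, ?_, ?_⟩
      · rintro x (hx | hx)
        · exact h1.mono subset_rfl (le_max_left C C') x hx
        · exact h1'.mono subset_rfl (le_max_right C C') x hx
      · rintro x (hx | hx)
        · exact h2.mono subset_rfl (le_max_left C C') x hx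
        · exact h2'.mono subset_rfl (le_max_right C C') x hx
      · rintro x (hx | hx)
        · exact h3.mono subset_rfl (le_max_left C C') x hx
        · exact h3'.mono subset_rfl (le_max_right C C') x hx
    · intro x _
      obtain ⟨U, hU, C, hC⟩ := h x
      exact ⟨U, mem_nhdsWithin_of_mem_nhds hU, C, hC⟩
  exact key

/-- everything together -/
theorem trace_limit [TopologicalSpace X] [CompactSpace X] [Countable K] [Countable K']
    [IsFiniteMeasure μ] (F : Fam μ K) (G : Fam μ K') {d : X → ℝ}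
    (h : ∀ x : X, ∃ U ∈ 𝓝 x, ∃ C, F.BOn U C ∧ G.BOn U C ∧ DOn F G U C)
    (hd : ∀ x, Tendsto (fun t => F.diag t x - G.diag t x) (𝓝[>] 0) (𝓝 (d x))) :
    (∀ t : ℝ, 0 < t → Summable fun k => Real.exp (-(t * F.m k))) ∧
    (∀ t : ℝ, 0 < t → Summable fun k => Real.exp (-(t * G.m k))) ∧
    Integrable d μ ∧
    Tendsto (fun t => ∑' k, Real.exp (-(t * F.m k)) - ∑' k, Real.exp (-(t * G.m k)))
      (𝓝[>] 0) (𝓝 (∫ x, d x ∂μ)) := by
  obtain ⟨C, h1, h2, h3⟩ := bnd_of_local F G h
  obtain ⟨h4, h5⟩ := tendsto_trace F G h1 h2 h3 hd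
  refine ⟨fun t ht => F.summable h1 ht, fun t ht => G.summable h2 ht, h4, ?_⟩
  have h6 : Tendsto (fun t : ℝ => t / 2) (𝓝[>] 0) (𝓝[>] 0) := by
    refine tendsto_nhdsWithin_iff.2 ⟨?_, ?_⟩
    · have : Tendsto (fun t : ℝ => t / 2) (𝓝 0) (𝓝 (0 / 2)) :=
        (continuous_id.div_const 2).tendsto 0
      rw [zero_div] at this
      exact this.mono_left nhdsWithin_le_nhds
    · filter_upwards [self_mem_nhdsWithin] with t ht
      exact half_pos (mem_Ioi.1 ht)
  refine (h5.comp h6).congr fun t => ?_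
  simp only [Function.comp]
  have h7 : ∀ a : ℝ, 2 * (t / 2) * a = t * a := fun a => by ring
  simp only [h7]

end Crest.Agent.R249.HK9_714
end

-- ▼ part R249/HK9d_714
section

/-!
# Row 249, PART C, leaf HK9 (helper714): the bundle `Dat 4 M κ` in a chart

* `cmet x₀ V`          : the metric of the chart at `x₀` on `V ⊆ target` (a `CMet V`);
* `lfr D x₀ V j`       : the local frame `j` of `D.p` on `V` (an `LF V κ (Fin r)`);
* `exists_frame`       : frames exist near every point;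
* `sys`                : a `Spec D` gives a `CSys` (first order weak equation, Parseval).
-/

set_option autoImplicit false
set_option maxSynthPendingDepth 3
set_option linter.unusedSectionVars false
open scoped ContDiff ENNReal NNReal Topology Manifold Bundle
open MeasureTheory Set Filter Metric Bundle
open Crest.GeometryTopology.CoordMetric Crest.GeometryTopology.ChartCurvature
open Crest.Agent.R202.Ell Crest.Agent.R247.Ms322 Crest.Agent.R226.ChartMet842
open Crest.Agent.R247.Dir593 Crest.Agent.R247.Frd657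
open Crest.Agent.R249.HK286 (E4 pd)
open Crest.Agent.R249.Tv57

namespace Crest.Agent.R249.HK9_714

noncomputable section

theorem integrable_of_cpt {V C : Set E4} (hC : IsCompact C) (hCV : C ⊆ V) {G : E4 → ℝ}
    (hG : ContinuousOn G V) (h0 : ∀ x, x ∉ C → G x = 0) : Integrable G := by
  have h1 : IntegrableOn G C := (hG.mono hCV).integrableOn_compact hC
  refine (integrableOn_iff_integrable_of_support_subset ?_).1 h1
  intro x hx
  by_contra h
  exact hx (h0 x h)

variable {M : Type*} [MetricSpace M] [ChartedSpace (EuclideanSpace ℝ (Fin 4)) M]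
  [IsManifold (𝓡 4) ∞ M]
  [RiemannianBundle (fun p : M => TangentSpace (𝓡 4) p)]
  [IsContMDiffRiemannianBundle (𝓡 4) ∞ (EuclideanSpace ℝ (Fin 4)) (fun p : M => TangentSpace (𝓡 4) p)]

/-- a function on `M` read in the chart at `x₀` -/
def rd (x₀ : M) (f : M → ℝ) (b : E4) : ℝ := f ((chartAt E4 x₀).symm b)

theorem rd_smooth (x₀ : M) {f : M → ℝ} (hf : ContMDiff (𝓡 4) 𝓘(ℝ, ℝ) ∞ f) :
    ContDiffOn ℝ ∞ (rd x₀ f) (chartAt E4 x₀).target := by
  intro b hb
  have h1 : ContMDiffAt (𝓡 4) (𝓡 4) ∞ (chartAt E4 x₀).symm b :=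
    (contMDiffOn_chart_symm (I := 𝓡 4) (n := ∞) (x := x₀)).contMDiffAt
      ((chartAt E4 x₀).open_target.mem_nhds hb)
  exact ((hf.contMDiffAt.comp _ h1).contDiffAt).contDiffWithinAt

theorem sum_inv_mul (x₀ : M) {x : E4} (hx : x ∈ (chartAt E4 x₀).target) (a b : Fin 4) :
    ∑ c, inverseField (chartMetric 4 M x₀) x a c * chartMetric 4 M x₀ x c b
      = if a = b then 1 else 0 := by
  have h1 : (chartMetric 4 M x₀ x)⁻¹ * chartMetric 4 M x₀ x = 1 :=
    Matrix.nonsing_inv_mul _ (isUnit_iff_ne_zero.2 (det_pos x₀ hx).ne')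
  have h2 := congrFun (congrFun h1 a) b
  rw [Matrix.mul_apply, Matrix.one_apply] at h2
  exact h2

/-- the metric of the chart -/
def cmet (x₀ : M) {V : Set E4} (hV : V ⊆ (chartAt E4 x₀).target) : CMet V where
  g a b x := chartMetric 4 M x₀ x a b
  h a b x := inverseField (chartMetric 4 M x₀) x a b
  w := dens x₀
  smg a b := ((isRiemannianOn_chartMetric (n := 4) x₀).contDiffOn a b).mono hV
  smh a b := (Crest.Agent.R202.Tens.contDiffOn_inv_entry
    (isRiemannianOn_chartMetric (n := 4) x₀) a b).mono hV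
  smw := (contDiffOn_dens x₀).mono hV
  gsymm a b x hx := Crest.Agent.R202.Tens.metric_symm (isRiemannianOn_chartMetric (n := 4) x₀) (hV hx) a b
  hsymm a b x hx := inv_symm x₀ (hV hx) a b
  inv a b x hx := sum_inv_mul x₀ (hV hx) a b
  pos x hx v hv := by
    have h3 := (Matrix.posDef_iff_dotProduct_mulVec.1
      ((isRiemannianOn_chartMetric (n := 4) x₀).posDef x (hV hx))).2 hv
    simp only [star_trivial, dotProduct, Matrix.mulVec] at h3
    refine lt_of_lt_of_eq h3 ?_
    refine Finset.sum_congr rfl fun i _ => ?_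
    rw [Finset.mul_sum]
    refine Finset.sum_congr rfl fun j _ => ?_
    ring
  wpos x hx := dens_pos x₀ (hV hx)
  wdet x hx := by
    rw [dens, Real.sq_sqrt (det_pos x₀ (hV hx)).le]
    rfl

variable [IsRiemannianManifold (𝓡 4) M] [MeasurableSpace M] [BorelSpace M]
  [SecondCountableTopology M] [Nonempty M]

variable {κ : Type} [Fintype κ] (D : Dat 4 M κ)

/-- `dp + [ω, p] = 0` in the chart -/
theorem par_chart (x₀ : M) {b : E4} (hb : b ∈ (chartAt E4 x₀).target) (l : Fin 4) (a a' : κ) :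
    pd l (rd x₀ (D.p a a')) b + ∑ c, (cf x₀ l (D.X a c) b * rd x₀ (D.p c a') b
      - rd x₀ (D.p a c) b * cf x₀ l (D.X c a') b) = 0 := by
  have h := D.par a a' ((chartAt E4 x₀).symm b)
  have h2 := congrArg (fun v => inner ℝ (Crest.Agent.R247.Frd657.Ef x₀ l ((chartAt E4 x₀).symm b)) v) h
  simp only [inner_add_right, inner_sum, inner_sub_right, real_inner_smul_right,
    inner_zero_right] at h2
  have h3 := cf_Gr x₀ l (D.p a a') hb
  unfold cf at h3 ⊢
  rw [h3] at h2
  rw [← h2]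
  congr 1
  exact Finset.sum_congr rfl fun c _ => by unfold rd; ring

/-- the covariant derivative in the chart -/
theorem cf_cv (x₀ : M) {b : E4} (hb : b ∈ (chartAt E4 x₀).target) (l : Fin 4) (u : κ → M → ℝ)
    (a : κ) : cf x₀ l (D.cv u a) b
      = pd l (rd x₀ (u a)) b + ∑ c, cf x₀ l (D.X a c) b * rd x₀ (u c) b := by
  have h3 := cf_Gr x₀ l (u a) hb
  unfold cf Dat.cv at *
  simp only [inner_add_right, inner_sum, real_inner_smul_right]
  rw [h3]
  congr 1
  exact Finset.sum_congr rfl fun c _ => by unfold rd; ring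

/-- the frame `j` on `V` -/
def lfr (x₀ : M) {V : Set E4} (hV : V ⊆ (chartAt E4 x₀).target) {r : ℕ} (j : κ → Fin r → E4 → ℝ)
    (smj : ∀ a q, ContDiffOn ℝ ∞ (j a q) V)
    (jj : ∀ x ∈ V, ∀ q q', ∑ a, j a q x * j a q' x = if q = q' then 1 else 0)
    (jp : ∀ x ∈ V, ∀ a b, ∑ q, j a q x * j b q x = rd x₀ (D.p a b) x) : LF V κ (Fin r) where
  om l a b := cf x₀ l (D.X a b)
  Q a b := rd x₀ (D.Q a b)
  p a b := rd x₀ (D.p a b)
  j := j
  smom l a b := (D.smX a b x₀ l).mono hV
  smQ a b := (rd_smooth x₀ (D.smQ a b)).mono hV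
  smj := smj
  skew l a b x _ := by
    unfold cf
    rw [D.skew a b, inner_neg_right]
  symmQ a b x _ := D.symmQ a b _
  jj := jj
  jp := jp
  par x hx l a b := par_chart D x₀ (hV hx) l a b

/-- frames exist -/
theorem exists_frame (x₀ : M) {y₀ : E4} (hy : y₀ ∈ (chartAt E4 x₀).target) :
    ∃ (V : Set E4) (r : ℕ) (j : κ → Fin r → E4 → ℝ), IsOpen V ∧ y₀ ∈ V ∧
      V ⊆ (chartAt E4 x₀).target ∧ (∀ a q, ContDiffOn ℝ ∞ (j a q) V) ∧
      (∀ x ∈ V, ∀ q q', ∑ a, j a q x * j a q' x = if q = q' then 1 else 0) ∧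
      (∀ x ∈ V, ∀ a b, ∑ q, j a q x * j b q x = rd x₀ (D.p a b) x) :=
  frame_local (chartAt E4 x₀).open_target hy (fun a b => rd_smooth x₀ (D.smp a b))
    (fun _ _ a b => D.symmp a b _) (fun _ _ a b => D.idem a b _)

section sysdef

variable (x₀ : M) {V : Set E4} (hV : V ⊆ (chartAt E4 x₀).target) {r : ℕ} (j : κ → Fin r → E4 → ℝ)
    (smj : ∀ a q, ContDiffOn ℝ ∞ (j a q) V)
    (jj : ∀ x ∈ V, ∀ q q', ∑ a, j a q x * j a q' x = if q = q' then 1 else 0)
    (jp : ∀ x ∈ V, ∀ a b, ∑ q, j a q x * j b q x = rd x₀ (D.p a b) x)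

/-- `u = jᵀ φ` in the chart -/
def uu (φ : κ → M → ℝ) (x : E4) (q : Fin r) : ℝ := ∑ a, j a q x * rd x₀ (φ a) x

include smj in
theorem uu_smooth (hV : V ⊆ (chartAt E4 x₀).target) {φ : κ → M → ℝ}
    (hφ : ∀ a, ContMDiff (𝓡 4) 𝓘(ℝ, ℝ) ∞ (φ a)) (q : Fin r) :
    ContDiffOn ℝ ∞ (fun x => uu x₀ j φ x q) V := by
  unfold uu
  exact ContDiffOn.sum fun a _ => (smj a q).mul ((rd_smooth x₀ (hφ a)).mono hV)

include jp in
/-- `φ = j u` -/
theorem j_uu {φ : κ → M → ℝ} (hφ : D.Sec φ) {x : E4} (hx : x ∈ V) (a : κ) :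
    ∑ q, j a q x * uu x₀ j φ x q = rd x₀ (φ a) x := by
  have h1 : rd x₀ (φ a) x = ∑ b, rd x₀ (D.p a b) x * rd x₀ (φ b) x := (hφ a _).symm
  rw [h1]
  simp only [uu, Finset.mul_sum]
  rw [Finset.sum_comm]
  refine Finset.sum_congr rfl fun b _ => ?_
  rw [← jp x hx a b, Finset.sum_mul]
  exact Finset.sum_congr rfl fun q _ => by ring

include jj in
/-- `⟨j f, j g⟩ = ⟨f, g⟩` -/
theorem sum_jj {x : E4} (hx : x ∈ V) (f g : Fin r → ℝ) :
    ∑ a, (∑ q, j a q x * f q) * (∑ q, j a q x * g q) = ∑ q, f q * g q := by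
  have h1 : ∀ a, (∑ q, j a q x * f q) * (∑ q, j a q x * g q)
      = ∑ q, ∑ q', (j a q x * j a q' x) * (f q * g q') := fun a => by
    rw [Finset.sum_mul_sum]
    exact Finset.sum_congr rfl fun q _ => Finset.sum_congr rfl fun q' _ => by ring
  simp only [h1]
  rw [Finset.sum_comm]
  refine Finset.sum_congr rfl fun q _ => ?_
  rw [Finset.sum_comm]
  simp only [← Finset.sum_mul, jj x hx]
  simp

/-- the test section `j f` -/
def jf (f : E4 → Fin r → ℝ) (a : κ) (x : E4) : ℝ := ∑ q, j a q x * f x q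

include smj in
theorem jf_test (hVo : IsOpen V) {f : E4 → Fin r → ℝ} {C : Set E4} (hC : IsCompact C) (hCV : C ⊆ V)
    (hf : ∀ q, ContDiff ℝ ∞ fun x => f x q) (h0 : ∀ x, x ∉ C → ∀ q, f x q = 0) (a : κ) :
    IsTest (jf j f a) ∧ tsupport (jf j f a) ⊆ C := by
  have hz : ∀ x, x ∉ C → jf j f a x = 0 := fun x hx => by
    unfold jf
    exact Finset.sum_eq_zero fun q _ => by rw [h0 x hx q, mul_zero]
  have hs : tsupport (jf j f a) ⊆ C := by
    refine closure_minimal (fun x hx => ?_) hC.isClosed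
    by_contra h
    exact hx (hz x h)
  refine ⟨⟨contDiff_iff_contDiffAt.2 fun x => ?_, hC.of_isClosed_subset (isClosed_tsupport _) hs⟩, hs⟩
  by_cases hx : x ∈ V
  · unfold jf
    exact ContDiffAt.sum fun q _ => ((smj a q).contDiffAt (hVo.mem_nhds hx)).mul (hf q).contDiffAt
  · have h1 : ContDiffAt ℝ ∞ (fun _ : E4 => (0 : ℝ)) x := contDiffAt_const
    refine h1.congr_of_eventuallyEq ?_
    filter_upwards [hC.isClosed.isOpen_compl.mem_nhds fun h => hx (hCV h)] with y hy
    exact hz y hy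

theorem pd_off {C : Set E4} (hC : IsCompact C) {g : E4 → ℝ} (h0 : ∀ x, x ∉ C → g x = 0) (l : Fin 4)
    {x : E4} (hx : x ∉ C) : pd l g x = 0 := by
  have h : g =ᶠ[𝓝 x] fun _ => 0 := by
    filter_upwards [hC.isClosed.isOpen_compl.mem_nhds hx] with y hy
    exact h0 y hy
  rw [pd_congr h, pd_const]

theorem cov_off {V : Set E4} {ρ : Type} [Fintype ρ] (A : CCon V ρ) {C : Set E4} (hC : IsCompact C)
    {f : E4 → ρ → ℝ} (h0 : ∀ x, x ∉ C → ∀ q, f x q = 0) (l : Fin 4) {x : E4} (hx : x ∉ C) (p : ρ) :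
    A.cov l f x p = 0 := by
  unfold CCon.cov
  rw [pd_off hC (fun y hy => h0 y hy p) l hx, zero_add]
  exact Finset.sum_eq_zero fun q _ => by rw [h0 x hx q, mul_zero]

/-- the energy density in the frame (potential `P 0`) -/
def E1 (hVo : IsOpen V) (u f : E4 → Fin r → ℝ) (x : E4) : ℝ :=
  (∑ i, ∑ l, inverseField (chartMetric 4 M x₀) x i l *
      ∑ p, ((lfr D x₀ hV j smj jj jp).con hVo 0).cov i u x p
        * ((lfr D x₀ hV j smj jj jp).con hVo 0).cov l f x p
    + ∑ p, ∑ q, (lfr D x₀ hV j smj jj jp).P 0 p q x * u x q * f x p) * dens x₀ x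

/-- **energy density of the chart** -/
theorem ed_chart (hVo : IsOpen V) {φ : κ → M → ℝ} (hφs : ∀ a, ContMDiff (𝓡 4) 𝓘(ℝ, ℝ) ∞ (φ a))
    (hφ : D.Sec φ) {f : E4 → Fin r → ℝ} (hf : ∀ q, ContDiff ℝ ∞ fun x => f x q) {x : E4}
    (hx : x ∈ V) :
    dens x₀ x * D.ed φ (fun a => pb x₀ (jf j f a)) ((chartAt E4 x₀).symm x)
      = E1 D x₀ hV j smj jj jp hVo (uu x₀ j φ) f x := by
  set L := lfr D x₀ hV j smj jj jp with hL
  have hxt := hV hx
  -- covariant derivatives
  have c1 : ∀ l a, cf x₀ l (D.cv φ a) x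
      = ∑ q, j a q x * (L.con hVo 0).cov l (uu x₀ j φ) x q := fun l a => by
    rw [cf_cv D x₀ hxt]
    have h1 := L.cov_j hVo hx l (uu x₀ j φ) (fun q =>
      ((uu_smooth x₀ j smj hV hφs q).contDiffAt (hVo.mem_nhds hx)).differentiableAt (by simp)) a
    have h2 : pd l (rd x₀ (φ a)) x = pd l (fun y => ∑ q, L.j a q y * uu x₀ j φ y q) x := by
      refine pd_congr ?_
      filter_upwards [hVo.mem_nhds hx] with y hy
      exact (j_uu D x₀ j jp hφ hy a).symm
    have h3 : ∀ c, rd x₀ (φ c) x = ∑ q, L.j c q x * uu x₀ j φ x q := fun c =>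
      (j_uu D x₀ j jp hφ hx c).symm
    rw [h2]
    simp only [h3]
    exact h1
  have c2 : ∀ l a, cf x₀ l (D.cv (fun a => pb x₀ (jf j f a)) a) x
      = ∑ q, j a q x * (L.con hVo 0).cov l f x q := fun l a => by
    rw [cf_cv D x₀ hxt]
    have h1 := L.cov_j hVo hx l f (fun q => (hf q).contDiffAt.differentiableAt (by simp)) a
    have h2 : pd l (rd x₀ (pb x₀ (jf j f a))) x = pd l (fun y => ∑ q, L.j a q y * f y q) x := by
      refine pd_congr ?_
      filter_upwards [hVo.mem_nhds hx] with y hy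
      exact pb_symm x₀ _ (hV hy)
    have h3 : ∀ c, rd x₀ (pb x₀ (jf j f c)) x = ∑ q, L.j c q x * f x q := fun c =>
      pb_symm x₀ _ hxt
    rw [h2]
    simp only [h3]
    exact h1
  unfold Dat.ed E1
  have e1 : ∑ a, inner ℝ (D.cv φ a ((chartAt E4 x₀).symm x))
      (D.cv (fun a => pb x₀ (jf j f a)) a ((chartAt E4 x₀).symm x))
      = ∑ i, ∑ l, inverseField (chartMetric 4 M x₀) x i l *
      ∑ p, (L.con hVo 0).cov i (uu x₀ j φ) x p * (L.con hVo 0).cov l f x p := by
    have : ∀ a, inner ℝ (D.cv φ a ((chartAt E4 x₀).symm x))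
        (D.cv (fun a => pb x₀ (jf j f a)) a ((chartAt E4 x₀).symm x))
        = ∑ i, ∑ l, inverseField (chartMetric 4 M x₀) x i l *
          ((∑ q, j a q x * (L.con hVo 0).cov i (uu x₀ j φ) x q)
            * (∑ q, j a q x * (L.con hVo 0).cov l f x q)) := fun a => by
      rw [inner_cf x₀ (D.cv φ a) (D.cv (fun a => pb x₀ (jf j f a)) a) hxt, Finset.sum_comm]
      refine Finset.sum_congr rfl fun i _ => Finset.sum_congr rfl fun l _ => ?_
      rw [c1, c2, inv_symm x₀ hxt l i]
      ring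
    simp only [this]
    rw [Finset.sum_comm]
    refine Finset.sum_congr rfl fun i _ => ?_
    rw [Finset.sum_comm]
    refine Finset.sum_congr rfl fun l _ => ?_
    rw [← Finset.mul_sum, sum_jj j jj hx]
  have e2 : ∑ a, ∑ b, D.Q a b ((chartAt E4 x₀).symm x) * φ b ((chartAt E4 x₀).symm x)
        * pb x₀ (jf j f a) ((chartAt E4 x₀).symm x)
      = ∑ p, ∑ q, L.P 0 p q x * uu x₀ j φ x q * f x p := by
    have h3 : ∀ c, φ c ((chartAt E4 x₀).symm x) = ∑ q, j c q x * uu x₀ j φ x q := fun c =>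
      (j_uu D x₀ j jp hφ hx c).symm
    have h4 : ∀ c, pb x₀ (jf j f c) ((chartAt E4 x₀).symm x) = ∑ q, j c q x * f x q := fun c =>
      pb_symm x₀ _ hxt
    simp only [h3, h4]
    have h5 : ∀ p q, L.P 0 p q x * uu x₀ j φ x q * f x p
        = ∑ a, ∑ b, D.Q a b ((chartAt E4 x₀).symm x) * (j b q x * uu x₀ j φ x q) * (j a p x * f x p) := by
      intro p q
      unfold LF.P
      simp only [ite_self, add_zero, Finset.sum_mul]
      refine Finset.sum_congr rfl fun a _ => Finset.sum_congr rfl fun b _ => ?_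
      show j a p x * D.Q a b ((chartAt E4 x₀).symm x) * j b q x * _ * _ = _
      ring
    simp only [h5]
    have h6 : ∀ a b, D.Q a b ((chartAt E4 x₀).symm x) * (∑ q, j b q x * uu x₀ j φ x q)
        * (∑ q, j a q x * f x q)
        = ∑ p, ∑ q, D.Q a b ((chartAt E4 x₀).symm x) * (j b q x * uu x₀ j φ x q) * (j a p x * f x p) := by
      intro a b
      rw [Finset.mul_sum]
      refine Finset.sum_congr rfl fun p _ => ?_
      rw [Finset.mul_sum, Finset.sum_mul]
    simp only [h6]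
    calc _ = ∑ a, ∑ p, ∑ b, ∑ q, D.Q a b ((chartAt E4 x₀).symm x) * (j b q x * uu x₀ j φ x q)
          * (j a p x * f x p) := Finset.sum_congr rfl fun a _ => Finset.sum_comm
      _ = ∑ p, ∑ a, ∑ b, ∑ q, D.Q a b ((chartAt E4 x₀).symm x) * (j b q x * uu x₀ j φ x q)
          * (j a p x * f x p) := Finset.sum_comm
      _ = ∑ p, ∑ a, ∑ q, ∑ b, D.Q a b ((chartAt E4 x₀).symm x) * (j b q x * uu x₀ j φ x q)
          * (j a p x * f x p) := Finset.sum_congr rfl fun p _ => Finset.sum_congr rfl fun a _ =>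
            Finset.sum_comm
      _ = _ := Finset.sum_congr rfl fun p _ => Finset.sum_comm
  rw [e1, e2, mul_comm]

end sysdef

end

end Crest.Agent.R249.HK9_714
end

-- ▼ part R249/HK9e_714
section

/-!
# Row 249, PART C, leaf HK9 (helper714): a `Spec D` gives a `CSys` in every local frame
-/

set_option autoImplicit false
set_option maxSynthPendingDepth 3
set_option linter.unusedSectionVars false
open scoped ContDiff ENNReal NNReal Topology Manifold Bundle
open MeasureTheory Set Filter Metric Bundle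
open Crest.GeometryTopology.CoordMetric Crest.GeometryTopology.ChartCurvature
open Crest.Agent.R202.Ell Crest.Agent.R247.Ms322 Crest.Agent.R226.ChartMet842
open Crest.Agent.R247.Dir593 Crest.Agent.R247.Frd657
open Crest.Agent.R249.HK286 (E4 pd)
open Crest.Agent.R249.Tv57

namespace Crest.Agent.R249.HK9_714

noncomputable section

variable {M : Type*} [MetricSpace M] [ChartedSpace (EuclideanSpace ℝ (Fin 4)) M]
  [IsManifold (𝓡 4) ∞ M]
  [RiemannianBundle (fun p : M => TangentSpace (𝓡 4) p)]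
  [IsContMDiffRiemannianBundle (𝓡 4) ∞ (EuclideanSpace ℝ (Fin 4)) (fun p : M => TangentSpace (𝓡 4) p)]
  [IsRiemannianManifold (𝓡 4) M] [MeasurableSpace M] [BorelSpace M]
  [SecondCountableTopology M] [Nonempty M]

variable {κ : Type} [Fintype κ] (D : Dat 4 M κ)

section
variable (x₀ : M) {V : Set E4} (hV : V ⊆ (chartAt E4 x₀).target) {r : ℕ} (j : κ → Fin r → E4 → ℝ)
    (smj : ∀ a q, ContDiffOn ℝ ∞ (j a q) V)
    (jj : ∀ x ∈ V, ∀ q q', ∑ a, j a q x * j a q' x = if q = q' then 1 else 0)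
    (jp : ∀ x ∈ V, ∀ a b, ∑ q, j a q x * j b q x = rd x₀ (D.p a b) x)

theorem dens_off_of_jf {f : E4 → Fin r → ℝ} {C : Set E4} (h0 : ∀ x, x ∉ C → ∀ q, f x q = 0)
    (a : κ) {x : E4} (hx : x ∉ C) : jf j f a x = 0 := by
  unfold jf
  exact Finset.sum_eq_zero fun q _ => by rw [h0 x hx q, mul_zero]

/-- integral over `M` of a function supported in the chart = integral over `E4` -/
theorem integral_chart {F : M → ℝ} {G : E4 → ℝ} {C : Set E4} (hCV : C ⊆ V)
    (hV : V ⊆ (chartAt E4 x₀).target)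
    (hF : ∀ z, z ∉ (chartAt E4 x₀).source → F z = 0)
    (hFG : ∀ x ∈ V, dens (n := 4) x₀ x * F ((chartAt E4 x₀).symm x) = G x)
    (hF0 : ∀ x ∈ (chartAt E4 x₀).target, x ∉ C → F ((chartAt E4 x₀).symm x) = 0)
    (hG0 : ∀ x, x ∉ C → G x = 0) :
    ∫ z, F z ∂(μHE[4] : Measure M) = ∫ x, G x := by
  rw [integral_eq_of_support x₀ F hF,
    ← setIntegral_eq_integral_of_forall_compl_eq_zero (s := (chartAt E4 x₀).target) (f := G)
      (fun x hx => hG0 x fun h => hx (hV (hCV h)))]
  refine setIntegral_congr_fun (measurableSet_target x₀) fun x hx => ?_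
  rw [smul_eq_mul]
  by_cases h : x ∈ V
  · exact hFG x h
  · rw [hF0 x hx fun h' => h (hCV h'), hG0 x fun h' => h (hCV h'), mul_zero]

/-- the first order weak equation in the frame, potential `P 0` -/
theorem int_ed (hVo : IsOpen V) {φ : κ → M → ℝ} (hφs : ∀ a, ContMDiff (𝓡 4) 𝓘(ℝ, ℝ) ∞ (φ a))
    (hφ : D.Sec φ) {f : E4 → Fin r → ℝ} {C : Set E4} (hC : IsCompact C) (hCV : C ⊆ V)
    (hf : ∀ q, ContDiff ℝ ∞ fun x => f x q) (h0 : ∀ x, x ∉ C → ∀ q, f x q = 0) :
    ∫ z, D.ed φ (fun a => pb x₀ (jf j f a)) z ∂(μHE[4] : Measure M)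
      = ∫ x, E1 D x₀ hV j smj jj jp hVo (uu x₀ j φ) f x := by
  have hT := fun a => jf_test j smj hVo hC hCV hf h0 a
  have hts : ∀ a, tsupport (jf j f a) ⊆ (chartAt E4 x₀).target := fun a =>
    (hT a).2.trans (hCV.trans hV)
  have hsup : ∀ a, tsupport (pb x₀ (jf j f a)) ⊆ (chartAt E4 x₀).symm '' C := fun a =>
    tsupport_pb x₀ hC (hCV.trans hV) (hT a).2
  have hoff : ∀ z, z ∉ (chartAt E4 x₀).symm '' C → D.ed φ (fun a => pb x₀ (jf j f a)) z = 0 := by
    intro z hz
    have h1 : ∀ a, pb x₀ (jf j f a) z = 0 := fun a =>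
      image_eq_zero_of_notMem_tsupport fun h => hz (hsup a h)
    have h2 : ∀ a, Gr (n := 4) (pb x₀ (jf j f a)) z = 0 := fun a =>
      Gr_off fun h => hz (hsup a h)
    unfold Dat.ed
    have h3 : ∀ a, D.cv (fun a => pb x₀ (jf j f a)) a z = 0 := fun a => by
      unfold Dat.cv
      rw [h2 a, zero_add]
      refine Finset.sum_eq_zero fun b _ => ?_
      show pb x₀ (jf j f b) z • _ = _
      rw [h1 b, zero_smul]
    simp only [h3, h1, inner_zero_right, mul_zero, Finset.sum_const_zero, add_zero]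
  refine integral_chart x₀ (C := C) hCV hV ?_ ?_ ?_ ?_
  · intro z hz
    exact hoff z fun h => hz (symm_image_subset x₀ (hCV.trans hV) h)
  · intro x hx
    exact ed_chart D x₀ hV j smj jj jp hVo hφs hφ hf hx
  · intro x hx hxC
    refine hoff _ ?_
    rintro ⟨y, hy, hyx⟩
    have h1 := congrArg (chartAt E4 x₀) hyx
    rw [(chartAt E4 x₀).right_inv (hV (hCV hy)), (chartAt E4 x₀).right_inv hx] at h1
    exact hxC (h1 ▸ hy)
  · intro x hx
    unfold E1
    have h1 : ∀ l p, ((lfr D x₀ hV j smj jj jp).con hVo 0).cov l f x p = 0 := fun l p =>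
      cov_off _ hC h0 l hx p
    simp only [h1, h0 x hx, mul_zero, Finset.sum_const_zero, add_zero, zero_mul]

include jp jj in
/-- `∫ ⟨φ, j f⟩ = ∫ ⟨u, f⟩ w` -/
theorem int_pair (hV : V ⊆ (chartAt E4 x₀).target) {φ : κ → M → ℝ} (hφ : D.Sec φ)
    {f : E4 → Fin r → ℝ} {C : Set E4} (hCV : C ⊆ V)
    (h0 : ∀ x, x ∉ C → ∀ q, f x q = 0) :
    ∫ z, ∑ a, φ a z * pb x₀ (jf j f a) z ∂(μHE[4] : Measure M)
      = ∫ x, (∑ q, f x q * uu x₀ j φ x q) * dens (n := 4) x₀ x := by
  refine integral_chart x₀ (C := C) hCV hV ?_ ?_ ?_ ?_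
  · intro z hz
    refine Finset.sum_eq_zero fun a _ => ?_
    rw [pb, indicator_of_notMem hz, mul_zero]
  · intro x hx
    have h1 : ∀ a, φ a ((chartAt E4 x₀).symm x) * pb x₀ (jf j f a) ((chartAt E4 x₀).symm x)
        = (∑ q, j a q x * uu x₀ j φ x q) * (∑ q, j a q x * f x q) := fun a => by
      rw [pb_symm x₀ _ (hV hx), j_uu D x₀ j jp hφ hx a]
      rfl
    simp only [h1]
    rw [sum_jj j jj hx, mul_comm]
    congr 1
    exact Finset.sum_congr rfl fun q _ => mul_comm _ _
  · intro x hx hxC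
    refine Finset.sum_eq_zero fun a _ => ?_
    rw [pb_symm x₀ _ hx, dens_off_of_jf j h0 a hxC, mul_zero]
  · intro x hx
    simp only [h0 x hx, zero_mul, Finset.sum_const_zero]

include jj in
/-- `∫ |j f|² = ∫ |f|² w` -/
theorem int_sq (hV : V ⊆ (chartAt E4 x₀).target)
    {f : E4 → Fin r → ℝ} {C : Set E4} (hCV : C ⊆ V)
    (h0 : ∀ x, x ∉ C → ∀ q, f x q = 0) :
    ∫ z, ∑ a, pb x₀ (jf j f a) z ^ 2 ∂(μHE[4] : Measure M)
      = ∫ x, (∑ q, f x q * f x q) * dens (n := 4) x₀ x := by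
  refine integral_chart x₀ (C := C) hCV hV ?_ ?_ ?_ ?_
  · intro z hz
    refine Finset.sum_eq_zero fun a _ => ?_
    rw [pb, indicator_of_notMem hz]
    ring
  · intro x hx
    have h1 : ∀ a, pb x₀ (jf j f a) ((chartAt E4 x₀).symm x) ^ 2
        = (∑ q, j a q x * f x q) * (∑ q, j a q x * f x q) := fun a => by
      rw [pb_symm x₀ _ (hV hx), sq]
      rfl
    simp only [h1]
    rw [sum_jj j jj hx, mul_comm]
  · intro x hx hxC
    refine Finset.sum_eq_zero fun a _ => ?_
    rw [pb_symm x₀ _ hx, dens_off_of_jf j h0 a hxC]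
    ring
  · intro x hx
    simp only [h0 x hx, zero_mul, Finset.sum_const_zero]

theorem measurable_pb {P : E4 → ℝ} (hP : Measurable P) : Measurable (pb x₀ P) := by
  have hSm : MeasurableSet (chartAt E4 x₀).source := (chartAt E4 x₀).open_source.measurableSet
  classical
  have h1 : Measurable ((chartAt E4 x₀).source.piecewise (chartAt E4 x₀) fun _ => (0 : E4)) :=
    ContinuousOn.measurable_piecewise (chartAt E4 x₀).continuousOn continuousOn_const hSm
  have h2 : pb x₀ P = (chartAt E4 x₀).source.indicator (fun z =>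
      P ((chartAt E4 x₀).source.piecewise (chartAt E4 x₀) (fun _ => (0 : E4)) z)) := by
    funext z
    by_cases hz : z ∈ (chartAt E4 x₀).source
    · rw [pb, indicator_of_mem hz, indicator_of_mem hz, piecewise_eq_of_mem _ _ _ hz]
    · rw [pb, indicator_of_notMem hz, indicator_of_notMem hz]
  rw [h2]
  exact (hP.comp h1).indicator hSm

include smj in
theorem measurable_jf {f : E4 → Fin r → ℝ} {C : Set E4} (hC : IsCompact C) (hCV : C ⊆ V)
    (hf : ∀ q, Measurable fun x => f x q) (h0 : ∀ x, x ∉ C → ∀ q, f x q = 0) (a : κ) :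
    Measurable (jf j f a) := by
  classical
  have h1 : jf j f a = fun x => ∑ q, C.piecewise (j a q) (fun _ => 0) x * f x q := by
    funext x
    unfold jf
    refine Finset.sum_congr rfl fun q _ => ?_
    by_cases hx : x ∈ C
    · rw [piecewise_eq_of_mem _ _ _ hx]
    · rw [h0 x hx q, mul_zero, mul_zero]
  rw [h1]
  refine Finset.measurable_sum _ fun q _ => Measurable.mul ?_ (hf q)
  exact ContinuousOn.measurable_piecewise ((smj a q).continuousOn.mono hCV) continuousOn_const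
    hC.isClosed.measurableSet

include smj in
theorem bounded_jf {f : E4 → Fin r → ℝ} {C : Set E4} (hC : IsCompact C) (hCV : C ⊆ V) {B : ℝ}
    (hB : ∀ x q, |f x q| ≤ B) (h0 : ∀ x, x ∉ C → ∀ q, f x q = 0) (a : κ) :
    ∃ B', ∀ x, |jf j f a x| ≤ B' := by
  have h1 : ∀ q, ∃ A, ∀ x ∈ C, ‖j a q x‖ ≤ A := fun q =>
    hC.exists_bound_of_continuousOn ((smj a q).continuousOn.mono hCV)
  choose A hA using h1
  refine ⟨∑ q, |A q| * |B|, fun x => ?_⟩
  by_cases hx : x ∈ C
  · unfold jf
    refine (Finset.abs_sum_le_sum_abs _ _).trans (Finset.sum_le_sum fun q _ => ?_)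
    rw [abs_mul]
    refine mul_le_mul ((hA q x hx).trans (le_abs_self _)) ((hB x q).trans (le_abs_self _))
      (abs_nonneg _) (abs_nonneg _)
  · rw [dens_off_of_jf j h0 a hx, abs_zero]
    exact Finset.sum_nonneg fun q _ => by positivity

/-- **the system in the frame** -/
def sys [CompactSpace M] (hVo : IsOpen V) (S : Spec D) {c : ℝ} (hc : ∀ k, 0 ≤ S.μ k + c) :
    CSys (cmet x₀ hV) ((lfr D x₀ hV j smj jj jp).con hVo c) ℕ where
  u k := uu x₀ j (S.φ k)
  mu k := S.μ k + c
  mu_nonneg := hc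
  sm k q := uu_smooth x₀ j smj hV (S.smooth k) q
  eig := by
    rintro k f ⟨hf, C, hC, hCV, h0⟩
    have hT := fun a => jf_test j smj hVo hC hCV hf h0 a
    have hts : ∀ a, tsupport (jf j f a) ⊆ (chartAt E4 x₀).target := fun a =>
      (hT a).2.trans (hCV.trans hV)
    have h1 := S.eig k (fun a => pb x₀ (jf j f a)) (fun a => pb_smooth x₀ (hT a).1 (hts a))
    rw [int_ed D x₀ hV j smj jj jp hVo (S.smooth k) (S.sec k) hC hCV hf h0,
      int_pair D x₀ j jj jp hV (S.sec k) hCV h0] at h1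
    set u := uu x₀ j (S.φ k) with hu
    have husm : ∀ q, ContDiffOn ℝ ∞ (fun x => u x q) V := fun q =>
      uu_smooth x₀ j smj hV (S.smooth k) q
    set L := lfr D x₀ hV j smj jj jp with hL
    have hcovu : ∀ l q, ContinuousOn (fun x => (L.con hVo 0).cov l u x q) V := fun l q => by
      unfold CCon.cov
      refine ((contDiffOn_pd hVo (husm q) l).continuousOn).add
        (continuousOn_finsetSum _ fun p _ => ?_)
      exact ((L.con hVo 0).sma l q p).continuousOn.mul (husm p).continuousOn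
    have hcovf : ∀ l q, ContinuousOn (fun x => (L.con hVo 0).cov l f x q) V := fun l q => by
      unfold CCon.cov
      refine ((contDiffOn_pd hVo (hf q).contDiffOn l).continuousOn).add
        (continuousOn_finsetSum _ fun p _ => ?_)
      exact ((L.con hVo 0).sma l q p).continuousOn.mul (hf p).continuous.continuousOn
    have hw : ContinuousOn (dens (n := 4) x₀) V := (continuousOn_dens x₀).mono hV
    have i1 : Integrable (E1 D x₀ hV j smj jj jp hVo u f) := by
      refine integrable_of_cpt hC hCV ?_ ?_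
      · unfold E1
        refine ContinuousOn.mul (ContinuousOn.add ?_ ?_) hw
        · refine continuousOn_finsetSum _ fun i _ => continuousOn_finsetSum _ fun l _ => ?_
          refine ContinuousOn.mul ?_ (continuousOn_finsetSum _ fun q _ => (hcovu i q).mul (hcovf l q))
          exact ((cmet x₀ hV).smh i l).continuousOn
        · refine continuousOn_finsetSum _ fun p _ => continuousOn_finsetSum _ fun q _ => ?_
          exact ((L.smP 0 p q).continuousOn.mul (husm q).continuousOn).mul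
            (hf p).continuous.continuousOn
      · intro x hx
        unfold E1
        have h2 : ∀ l p, (L.con hVo 0).cov l f x p = 0 := fun l p => cov_off _ hC h0 l hx p
        simp only [← hL, h2, h0 x hx, mul_zero, Finset.sum_const_zero, add_zero, zero_mul]
    have i2 : Integrable (fun x => (∑ q, f x q * u x q) * dens (n := 4) x₀ x) := by
      refine integrable_of_cpt hC hCV ?_ ?_
      · refine ContinuousOn.mul (continuousOn_finsetSum _ fun q _ => ?_) hw
        exact (hf q).continuous.continuousOn.mul (husm q).continuousOn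
      · intro x hx
        simp only [h0 x hx, zero_mul, Finset.sum_const_zero]
    have e1 : ∀ x, (∑ i, ∑ l, (cmet x₀ hV).h i l x * ∑ p, (L.con hVo c).cov i u x p
          * (L.con hVo c).cov l f x p + ∑ p, ∑ q, (L.con hVo c).P p q x * u x q * f x p)
          * (cmet x₀ hV).w x
        = E1 D x₀ hV j smj jj jp hVo u f x + c * ((∑ q, f x q * u x q) * dens (n := 4) x₀ x) := by
      intro x
      have e2 : ∑ p, ∑ q, (L.con hVo c).P p q x * u x q * f x p
          = ∑ p, ∑ q, L.P 0 p q x * u x q * f x p + c * ∑ q, f x q * u x q := by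
        have e3 : ∀ p q, (L.con hVo c).P p q x * u x q * f x p
            = L.P 0 p q x * u x q * f x p + (if p = q then c * (f x q * u x q) else 0) := by
          intro p q
          show L.P c p q x * u x q * f x p = _
          unfold LF.P
          by_cases h : p = q
          · subst h
            simp only [if_true]
            ring
          · simp only [if_neg h]
            ring
        simp only [e3, Finset.sum_add_distrib]
        congr 1
        rw [Finset.mul_sum, Finset.sum_comm]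
        refine Finset.sum_congr rfl fun q _ => ?_
        rw [Finset.sum_ite_eq' Finset.univ q, if_pos (Finset.mem_univ q)]
      rw [e2]
      unfold E1
      show (_ + (_ + _)) * dens x₀ x = _
      have e4 : (∑ i, ∑ l, (cmet x₀ hV).h i l x * ∑ p, (L.con hVo c).cov i u x p
          * (L.con hVo c).cov l f x p) = ∑ i, ∑ l, inverseField (chartMetric 4 M x₀) x i l *
      ∑ p, (L.con hVo 0).cov i u x p * (L.con hVo 0).cov l f x p := rfl
      rw [e4]
      ring
    calc _ = ∫ x, (E1 D x₀ hV j smj jj jp hVo u f x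
          + c * ((∑ q, f x q * u x q) * dens (n := 4) x₀ x)) := by
          refine integral_congr_ae (Eventually.of_forall fun x => ?_)
          exact e1 x
      _ = (∫ x, E1 D x₀ hV j smj jj jp hVo u f x)
          + c * ∫ x, (∑ q, f x q * u x q) * dens (n := 4) x₀ x := by
          rw [integral_add i1 (i2.const_mul c), integral_const_mul]
      _ = (S.μ k + c) * ∫ x, (∑ q, f x q * u x q) * dens (n := 4) x₀ x := by
          rw [h1]; ring
  pars := by
    rintro f ⟨hf, ⟨B, hB⟩, C, hC, hCV, h0⟩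
    have : IsLocallyFiniteMeasure (μHE[4] : Measure M) := isLocallyFiniteMeasure 4 M
    have : IsFiniteMeasure (μHE[4] : Measure M) := CompactSpace.isFiniteMeasure
    have hm : ∀ a, Measurable (pb x₀ (jf j f a)) := fun a =>
      measurable_pb x₀ (measurable_jf j smj hC hCV hf h0 a)
    have hmem : ∀ a, MemLp (pb x₀ (jf j f a)) 2 (μHE[4] : Measure M) := fun a => by
      obtain ⟨B', hB'⟩ := bounded_jf j smj hC hCV hB h0 a
      refine MemLp.of_bound (hm a).aestronglyMeasurable (max B' 0) (Eventually.of_forall fun z => ?_)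
      by_cases hz : z ∈ (chartAt E4 x₀).source
      · rw [pb_of_mem x₀ _ hz, Real.norm_eq_abs]
        exact (hB' _).trans (le_max_left _ _)
      · rw [pb, indicator_of_notMem hz, norm_zero]
        exact le_max_right _ _
    have hsec : ∀ z a, ∑ b, D.p a b z * pb x₀ (jf j f b) z = pb x₀ (jf j f a) z := by
      intro z a
      by_cases hz : z ∈ (chartAt E4 x₀).source
      · simp only [pb_of_mem x₀ _ hz]
        set x := chartAt E4 x₀ z with hx
        by_cases hxC : x ∈ C
        · have hxV := hCV hxC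
          have h2 : ∀ b, D.p a b z = ∑ q, j a q x * j b q x := fun b => by
            rw [jp x hxV a b]
            unfold rd
            rw [hx, (chartAt E4 x₀).left_inv hz]
          have h3 : ∀ b, D.p a b z * jf j f b x
              = ∑ q, ∑ q', j a q x * f x q' * (j b q x * j b q' x) := fun b => by
            rw [h2 b]
            unfold jf
            rw [Finset.sum_mul_sum]
            exact Finset.sum_congr rfl fun q _ => Finset.sum_congr rfl fun q' _ => by ring
          simp only [h3]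
          rw [Finset.sum_comm]
          unfold jf
          refine Finset.sum_congr rfl fun q _ => ?_
          rw [Finset.sum_comm]
          simp only [← Finset.mul_sum, jj x hxV]
          simp
        · have h2 : ∀ b, jf j f b x = 0 := fun b => dens_off_of_jf j h0 b hxC
          simp only [h2, mul_zero, Finset.sum_const_zero]
      · simp only [pb, indicator_of_notMem hz, mul_zero, Finset.sum_const_zero]
    have h1 := S.pars (fun a => pb x₀ (jf j f a)) hmem (Eventually.of_forall hsec)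
    have h2 : ∀ k, ∫ z, ∑ a, pb x₀ (jf j f a) z * S.φ k a z ∂(μHE[4] : Measure M)
        = ∫ x, (∑ q, f x q * uu x₀ j (S.φ k) x q) * dens (n := 4) x₀ x := fun k => by
      rw [← int_pair D x₀ j jj jp hV (S.sec k) hCV h0]
      refine integral_congr_ae (Eventually.of_forall fun z => ?_)
      exact Finset.sum_congr rfl fun a _ => mul_comm _ _
    simp only [h2] at h1
    rw [int_sq x₀ j jj hV hCV h0] at h1
    exact h1

end

end

end Crest.Agent.R249.HK9_714
end

-- ▼ part R249/HK9f_714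

/-!
# Row 249, PART C, leaf HK9 (helper714): heat trace comparison on `M`

`heat_trace_of` : (HK8 = `ChartStmt`) ⟹ for two bundles `D, D'` over the closed 4-manifold `M` with the same rank and
the same trace of the potentials, and spectral data `S, S'`:
`∑ e^{-t μ_k}` converges for `t > 0` and `∑ e^{-t μ_k} - ∑ e^{-t μ'_k} → ∫_M (dn D - dn D')` (`t → 0+`),
`dn D z = (1/32π²) tr (p Q p Q) + (1/192π²) h^{jk} h^{lm} tr (p F_jl p F_km)` in the chart at `z`.
-/

set_option autoImplicit false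
set_option maxSynthPendingDepth 3
set_option linter.unusedSectionVars false
open scoped ContDiff ENNReal NNReal Topology Manifold Bundle
open MeasureTheory Set Filter Metric Bundle
open Crest.GeometryTopology.CoordMetric Crest.GeometryTopology.ChartCurvature
open Crest.Agent.R202.Ell Crest.Agent.R247.Ms322 Crest.Agent.R226.ChartMet842
open Crest.Agent.R247.Dir593 Crest.Agent.R247.Frd657
open Crest.Agent.R249.HK286 (E4 pd)
open Crest.Agent.R249.Tv57

namespace Crest.Agent.R249.HK9_714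

noncomputable section

variable {M : Type*} [MetricSpace M] [ChartedSpace (EuclideanSpace ℝ (Fin 4)) M]
  [IsManifold (𝓡 4) ∞ M]
  [RiemannianBundle (fun p : M => TangentSpace (𝓡 4) p)]
  [IsContMDiffRiemannianBundle (𝓡 4) ∞ (EuclideanSpace ℝ (Fin 4)) (fun p : M => TangentSpace (𝓡 4) p)]
  [IsRiemannianManifold (𝓡 4) M] [MeasurableSpace M] [BorelSpace M]
  [SecondCountableTopology M] [Nonempty M]

section density
variable {κ : Type} [Fintype κ] (D : Dat 4 M κ)

/-- potential, projection and curvature matrices in the chart at `x₀` -/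
def Qc (x₀ : M) (x : E4) : Matrix κ κ ℝ := Matrix.of fun a b => rd x₀ (D.Q a b) x
def Pc (x₀ : M) (x : E4) : Matrix κ κ ℝ := Matrix.of fun a b => rd x₀ (D.p a b) x
def Fc (x₀ : M) (i l : Fin 4) (x : E4) : Matrix κ κ ℝ := Matrix.of fun a b =>
  pd i (cf x₀ l (D.X a b)) x - pd l (cf x₀ i (D.X a b)) x
    + ∑ c, (cf x₀ i (D.X a c) x * cf x₀ l (D.X c b) x - cf x₀ l (D.X a c) x * cf x₀ i (D.X c b) x)

/-- the density in the chart at `x₀`, at the point `x` of the chart -/
def den (x₀ : M) (x : E4) : ℝ :=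
  1 / (32 * Real.pi ^ 2) * Matrix.trace (Qc D x₀ x * Pc D x₀ x * Qc D x₀ x * Pc D x₀ x)
  + 1 / (192 * Real.pi ^ 2) * ∑ j, ∑ k, ∑ l, ∑ m,
      inverseField (chartMetric 4 M x₀) x j k * inverseField (chartMetric 4 M x₀) x l m *
        Matrix.trace (Fc D x₀ j l x * Pc D x₀ x * Fc D x₀ k m x * Pc D x₀ x)

/-- the density at `z` (chart at `z`) -/
def dn (z : M) : ℝ := den D z (chartAt E4 z z)

/-- the densities `|φ_k|²` -/
def fam (S : Spec D) {c : ℝ} (hc : ∀ k, 0 ≤ S.μ k + c) : Fam (μHE[4] : Measure M) ℕ where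
  v k z := ∑ a, S.φ k a z ^ 2
  m k := S.μ k + c
  v_nonneg k z := Finset.sum_nonneg fun a _ => sq_nonneg _
  v_meas k := Finset.measurable_sum _ fun a _ => ((S.smooth k a).continuous.measurable.pow_const 2)
  v_int k := by
    have h := S.ortho k k
    rw [if_pos rfl] at h
    rw [← h]
    refine integral_congr_ae (Eventually.of_forall fun z => ?_)
    exact Finset.sum_congr rfl fun a _ => sq _
  m_nonneg := hc

theorem trace_QP (x₀ : M) (x : E4) :
    Matrix.trace (Qc D x₀ x * Pc D x₀ x)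
      = ∑ a, ∑ b, D.Q a b ((chartAt E4 x₀).symm x) * D.p a b ((chartAt E4 x₀).symm x) := by
  unfold Matrix.trace
  refine Finset.sum_congr rfl fun a _ => ?_
  rw [Matrix.diag_apply, Matrix.mul_apply]
  refine Finset.sum_congr rfl fun b _ => ?_
  rw [D.symmp a b]
  rfl

end density

section
variable {κ : Type} [Fintype κ] (D : Dat 4 M κ) (x₀ : M) {V : Set E4}
  (hV : V ⊆ (chartAt E4 x₀).target) {r : ℕ} (j : κ → Fin r → E4 → ℝ)
    (smj : ∀ a q, ContDiffOn ℝ ∞ (j a q) V)
    (jj : ∀ x ∈ V, ∀ q q', ∑ a, j a q x * j a q' x = if q = q' then 1 else 0)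
    (jp : ∀ x ∈ V, ∀ a b, ∑ q, j a q x * j b q x = rd x₀ (D.p a b) x)

include jj jp in
theorem rank_eq {x : E4} (hx : x ∈ V) : ∑ a, D.p a a ((chartAt E4 x₀).symm x) = r := by
  have h1 : ∀ a, D.p a a ((chartAt E4 x₀).symm x) = ∑ q, j a q x * j a q x := fun a =>
    (jp x hx a a).symm
  simp only [h1]
  rw [Finset.sum_comm]
  simp only [jj x hx, if_true]
  simp

include jj jp in
theorem sum_uu_sq {φ : κ → M → ℝ} (hφ : D.Sec φ) {z : M} (hz : z ∈ (chartAt E4 x₀).source)
    (hx : chartAt E4 x₀ z ∈ V) :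
    ∑ q, uu x₀ j φ (chartAt E4 x₀ z) q ^ 2 = ∑ a, φ a z ^ 2 := by
  have h1 := sum_jj j jj hx (uu x₀ j φ (chartAt E4 x₀ z)) (uu x₀ j φ (chartAt E4 x₀ z))
  have h2 : ∀ q, uu x₀ j φ (chartAt E4 x₀ z) q ^ 2
      = uu x₀ j φ (chartAt E4 x₀ z) q * uu x₀ j φ (chartAt E4 x₀ z) q := fun q => sq _
  simp only [h2]
  rw [← h1]
  refine Finset.sum_congr rfl fun a _ => ?_
  rw [j_uu D x₀ j jp hφ hx a, rd, (chartAt E4 x₀).left_inv hz, sq]

theorem den_lfr (x : E4) : (lfr D x₀ hV j smj jj jp).den (cmet x₀ hV).h x = den D x₀ x := rfl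

theorem tr_lfr (x : E4) : Matrix.trace ((lfr D x₀ hV j smj jj jp).Qm x
    * (lfr D x₀ hV j smj jj jp).Pm x) = Matrix.trace (Qc D x₀ x * Pc D x₀ x) := rfl

end

/-- local statement at a point `z` -/
theorem local_aux (HK8 : ChartStmt) [CompactSpace M] {κ κ' : Type} [Fintype κ] [Fintype κ']
    (D : Dat 4 M κ) (D' : Dat 4 M κ') (S : Spec D) (S' : Spec D')
    (hr : ∀ z, ∑ a, D.p a a z = ∑ a, D'.p a a z)
    (hq : ∀ z, ∑ a, ∑ b, D.Q a b z * D.p a b z = ∑ a, ∑ b, D'.Q a b z * D'.p a b z)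
    {c : ℝ} (hc : ∀ k, 0 ≤ S.μ k + c) (hc' : ∀ k, 0 ≤ S'.μ k + c) (x₀ : M) {z : M}
    (hz : z ∈ (chartAt E4 x₀).source) :
    (∃ U ∈ 𝓝 z, ∃ C, (fam D S hc).BOn U C ∧ (fam D' S' hc').BOn U C ∧
      DOn (fam D S hc) (fam D' S' hc') U C) ∧
    Tendsto (fun t => (fam D S hc).diag t z - (fam D' S' hc').diag t z) (𝓝[>] 0)
      (𝓝 (den D x₀ (chartAt E4 x₀ z) - den D' x₀ (chartAt E4 x₀ z))) := by
  set y₀ : E4 := chartAt E4 x₀ z with hy₀
  have hy : y₀ ∈ (chartAt E4 x₀).target := (chartAt E4 x₀).map_source hz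
  obtain ⟨V1, r1, j1, hV1o, hy1, hV1, smj1, jj1, jp1⟩ := exists_frame D x₀ hy
  obtain ⟨V2, r2, j2, hV2o, hy2, hV2, smj2, jj2, jp2⟩ := exists_frame D' x₀ hy
  set V : Set E4 := V1 ∩ V2 with hVd
  have hVo : IsOpen V := hV1o.inter hV2o
  have hyV : y₀ ∈ V := ⟨hy1, hy2⟩
  have hV : V ⊆ (chartAt E4 x₀).target := inter_subset_left.trans hV1
  have smj1' : ∀ a q, ContDiffOn ℝ ∞ (j1 a q) V := fun a q => (smj1 a q).mono inter_subset_left
  have smj2' : ∀ a q, ContDiffOn ℝ ∞ (j2 a q) V := fun a q => (smj2 a q).mono inter_subset_right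
  have jj1' : ∀ x ∈ V, ∀ q q', ∑ a, j1 a q x * j1 a q' x = if q = q' then 1 else 0 :=
    fun x hx => jj1 x hx.1
  have jj2' : ∀ x ∈ V, ∀ q q', ∑ a, j2 a q x * j2 a q' x = if q = q' then 1 else 0 :=
    fun x hx => jj2 x hx.2
  have jp1' : ∀ x ∈ V, ∀ a b, ∑ q, j1 a q x * j1 b q x = rd x₀ (D.p a b) x := fun x hx => jp1 x hx.1
  have jp2' : ∀ x ∈ V, ∀ a b, ∑ q, j2 a q x * j2 b q x = rd x₀ (D'.p a b) x := fun x hx => jp2 x hx.2
  have hrr : r1 = r2 := by
    have h1 := rank_eq D x₀ j1 jj1' jp1' hyV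
    have h2 := rank_eq D' x₀ j2 jj2' jp2' hyV
    rw [hr, h2] at h1
    exact_mod_cast h1.symm
  have hcard : Fintype.card (Fin r1) = Fintype.card (Fin r2) := by rw [hrr]
  set L1 := lfr D x₀ hV j1 smj1' jj1' jp1' with hL1
  set L2 := lfr D' x₀ hV j2 smj2' jj2' jp2' with hL2
  have htrP : ∀ x ∈ V, ∑ p, (L1.con hVo c).P p p x = ∑ p, (L2.con hVo c).P p p x := by
    intro x hx
    have h1 : ∑ p, (L1.con hVo c).P p p x = _ := L1.sum_P hx c
    have h2 : ∑ p, (L2.con hVo c).P p p x = _ := L2.sum_P hx c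
    rw [h1, h2, hcard]
    congr 1
    show Matrix.trace (Qc D x₀ x * Pc D x₀ x) = Matrix.trace (Qc D' x₀ x * Pc D' x₀ x)
    rw [trace_QP, trace_QP, hq]
  obtain ⟨hA, hB⟩ := HK8 V hVo (cmet x₀ hV) (Fin r1) (Fin r2) (L1.con hVo c) (L2.con hVo c) ℕ ℕ
    hcard htrP (sys D x₀ hV j1 smj1' jj1' jp1' hVo S hc) (sys D' x₀ hV j2 smj2' jj2' jp2' hVo S' hc')
  -- identification of the diagonals
  have hv1 : ∀ z' ∈ (chartAt E4 x₀).source, chartAt E4 x₀ z' ∈ V → ∀ k,
      ∑ q, uu x₀ j1 (S.φ k) (chartAt E4 x₀ z') q ^ 2 = (fam D S hc).v k z' := fun z' hz' hx k =>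
    sum_uu_sq D x₀ j1 jj1' jp1' (S.sec k) hz' hx
  have hv2 : ∀ z' ∈ (chartAt E4 x₀).source, chartAt E4 x₀ z' ∈ V → ∀ k,
      ∑ q, uu x₀ j2 (S'.φ k) (chartAt E4 x₀ z') q ^ 2 = (fam D' S' hc').v k z' := fun z' hz' hx k =>
    sum_uu_sq D' x₀ j2 jj2' jp2' (S'.sec k) hz' hx
  have hd1 : ∀ z' ∈ (chartAt E4 x₀).source, chartAt E4 x₀ z' ∈ V → ∀ t,
      (sys D x₀ hV j1 smj1' jj1' jp1' hVo S hc).diag t (chartAt E4 x₀ z')
        = (fam D S hc).diag t z' := fun z' hz' hx t => by
    unfold CSys.diag Fam.diag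
    refine tsum_congr fun k => ?_
    rw [← hv1 z' hz' hx k]
    rfl
  have hd2 : ∀ z' ∈ (chartAt E4 x₀).source, chartAt E4 x₀ z' ∈ V → ∀ t,
      (sys D' x₀ hV j2 smj2' jj2' jp2' hVo S' hc').diag t (chartAt E4 x₀ z')
        = (fam D' S' hc').diag t z' := fun z' hz' hx t => by
    unfold CSys.diag Fam.diag
    refine tsum_congr fun k => ?_
    rw [← hv2 z' hz' hx k]
    rfl
  constructor
  · obtain ⟨ε, hε, hεV⟩ := nhds_basis_closedBall.mem_iff.1 (hVo.mem_nhds hyV)
    obtain ⟨B, hB'⟩ := hA (closedBall y₀ ε) (isCompact_closedBall y₀ ε) hεV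
    refine ⟨(chartAt E4 x₀).source ∩ (chartAt E4 x₀) ⁻¹' closedBall y₀ ε, ?_, B, ?_, ?_, ?_⟩
    · exact inter_mem ((chartAt E4 x₀).open_source.mem_nhds hz)
        (((chartAt E4 x₀).continuousAt hz).preimage_mem_nhds (closedBall_mem_nhds _ hε))
    · rintro z' ⟨hz', hx⟩ t ht
      obtain ⟨h1, -, h3, -, -⟩ := hB' _ hx t ht
      rw [hd1 z' hz' (hεV hx) t] at h3
      refine ⟨h1.congr fun k => ?_, h3⟩
      rw [← hv1 z' hz' (hεV hx) k]
      rfl
    · rintro z' ⟨hz', hx⟩ t ht
      obtain ⟨-, h2, -, h4, -⟩ := hB' _ hx t ht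
      rw [hd2 z' hz' (hεV hx) t] at h4
      refine ⟨h2.congr fun k => ?_, h4⟩
      rw [← hv2 z' hz' (hεV hx) k]
      rfl
    · rintro z' ⟨hz', hx⟩ t ht
      obtain ⟨-, -, -, -, h5⟩ := hB' _ hx t ht
      rwa [hd1 z' hz' (hεV hx) t, hd2 z' hz' (hεV hx) t] at h5
  · have h1 := hB y₀ hyV
    rw [L1.dens_con hVo hyV, L2.dens_con hVo hyV] at h1
    have h2 : Matrix.trace (L1.Qm y₀ * L1.Pm y₀) = Matrix.trace (L2.Qm y₀ * L2.Pm y₀) := by
      show Matrix.trace (Qc D x₀ y₀ * Pc D x₀ y₀) = Matrix.trace (Qc D' x₀ y₀ * Pc D' x₀ y₀)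
      rw [trace_QP, trace_QP, hq]
    rw [h2, hcard, add_sub_add_right_eq_sub] at h1
    refine h1.congr fun t => ?_
    rw [hd1 z hz hyV t, hd2 z hz hyV t]

/-- **heat trace comparison** (from HK8) -/
theorem heat_trace_of (HK8 : ChartStmt) [CompactSpace M] {κ κ' : Type} [Fintype κ] [Fintype κ']
    (D : Dat 4 M κ) (D' : Dat 4 M κ') (S : Spec D) (S' : Spec D')
    (hr : ∀ z, ∑ a, D.p a a z = ∑ a, D'.p a a z)
    (hq : ∀ z, ∑ a, ∑ b, D.Q a b z * D.p a b z = ∑ a, ∑ b, D'.Q a b z * D'.p a b z) :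
    (∀ t : ℝ, 0 < t → Summable fun k => Real.exp (-(t * S.μ k))) ∧
    (∀ t : ℝ, 0 < t → Summable fun k => Real.exp (-(t * S'.μ k))) ∧
    Integrable (fun z => dn D z - dn D' z) (μHE[4] : Measure M) ∧
    Tendsto (fun t => ∑' k, Real.exp (-(t * S.μ k)) - ∑' k, Real.exp (-(t * S'.μ k)))
      (𝓝[>] 0) (𝓝 (∫ z, (dn D z - dn D' z) ∂(μHE[4] : Measure M))) := by
  have : IsLocallyFiniteMeasure (μHE[4] : Measure M) := isLocallyFiniteMeasure 4 M
  have : IsFiniteMeasure (μHE[4] : Measure M) := CompactSpace.isFiniteMeasure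
  set c : ℝ := max 0 (max (-S.μ 0) (-S'.μ 0)) with hcd
  have hc : ∀ k, 0 ≤ S.μ k + c := fun k => by
    have h1 := S.mono (Nat.zero_le k)
    have h2 : -S.μ 0 ≤ c := (le_max_left _ _).trans (le_max_right _ _)
    linarith
  have hc' : ∀ k, 0 ≤ S'.μ k + c := fun k => by
    have h1 := S'.mono (Nat.zero_le k)
    have h2 : -S'.μ 0 ≤ c := (le_max_right _ _).trans (le_max_right _ _)
    linarith
  obtain ⟨h1, h2, h3, h4⟩ := trace_limit (fam D S hc) (fam D' S' hc')
    (d := fun z => dn D z - dn D' z)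
    (fun z => (local_aux HK8 D D' S S' hr hq hc hc' z (mem_chart_source E4 z)).1)
    (fun z => (local_aux HK8 D D' S S' hr hq hc hc' z (mem_chart_source E4 z)).2)
  have e1 : ∀ t k, Real.exp (-(t * S.μ k)) = Real.exp (t * c) * Real.exp (-(t * (S.μ k + c))) :=
    fun t k => by rw [← Real.exp_add]; congr 1; ring
  have e2 : ∀ t k, Real.exp (-(t * S'.μ k)) = Real.exp (t * c) * Real.exp (-(t * (S'.μ k + c))) :=
    fun t k => by rw [← Real.exp_add]; congr 1; ring
  refine ⟨fun t ht => ?_, fun t ht => ?_, h3, ?_⟩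
  · simp only [e1]
    exact (h1 t ht).mul_left _
  · simp only [e2]
    exact (h2 t ht).mul_left _
  · have h5 : Tendsto (fun t : ℝ => Real.exp (t * c)) (𝓝[>] 0) (𝓝 1) := by
      have : Tendsto (fun t : ℝ => Real.exp (t * c)) (𝓝 0) (𝓝 (Real.exp (0 * c))) :=
        (Real.continuous_exp.comp (continuous_id.mul continuous_const)).tendsto 0
      rw [zero_mul, Real.exp_zero] at this
      exact this.mono_left nhdsWithin_le_nhds
    have h6 := h5.mul h4
    rw [one_mul] at h6
    refine h6.congr fun t => ?_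
    simp only [e1, e2, tsum_mul_left]
    rw [mul_sub]
    rfl

end

end Crest.Agent.R249.HK9_714
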