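import Crest.Agent.R249.FrD_129
import Crest.Agent.R247.Bo2_84

-- ▼ part R249/SgA_129
section

/-!
A `Frame` (FrA_129) from commuting coordinate derivations, a symmetric metric matrix `g` with inverse
`gi`, and an orthonormal frame matrix `E` (`Eᵀ g E = 1`); its Riemann tensor is the coordinate Riemann
tensor in the frame. Purely algebraic. (row 249, helper129)
-/

set_option autoImplicit false
set_option linter.unusedSectionVars false

namespace Crest.Agent.R249.Sg129

open Finset Matrix Crest.Agent.R249.Fr129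
open Crest.Agent.R249.Fr129.Frame (half two_half)

variable {n : ℕ} {S : Type*} [CommRing S] [Algebra ℝ S]

/-- commuting independent derivations -/
structure Coord (n : ℕ) (S : Type*) [CommRing S] [Algebra ℝ S] where
  d : Fin n → Derivation ℝ S S
  comm : ∀ k l f, d k (d l f) = d l (d k f)
  indep : ∀ c : Fin n → S, (∀ f, ∑ m, c m * d m f = 0) → ∀ m, c m = 0

/-- entrywise derivative of a matrix -/
def dM {ι κ : Type*} (δ : Derivation ℝ S S) (M : Matrix ι κ S) : Matrix ι κ S := fun i j => δ (M i j)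

section dM

variable {ι κ μ : Type*} [Fintype ι] [Fintype κ] [Fintype μ] (δ : Derivation ℝ S S)

lemma dM_mul (A : Matrix ι κ S) (B : Matrix κ μ S) : dM δ (A * B) = dM δ A * B + A * dM δ B := by
  ext i j
  simp only [dM, Matrix.mul_apply, Matrix.add_apply, map_sum, Derivation.leibniz, smul_eq_mul]
  rw [← sum_add_distrib]; exact sum_congr rfl fun k _ => by ring

lemma dM_add (A B : Matrix ι κ S) : dM δ (A + B) = dM δ A + dM δ B := by
  ext i j; simp [dM]

lemma dM_sub (A B : Matrix ι κ S) : dM δ (A - B) = dM δ A - dM δ B := by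
  ext i j; simp [dM]

lemma dM_transpose (A : Matrix ι κ S) : dM δ Aᵀ = (dM δ A)ᵀ := rfl

lemma dM_one [DecidableEq ι] : dM δ (1 : Matrix ι ι S) = 0 := by
  ext i j
  simp only [dM, Matrix.one_apply, Matrix.zero_apply]
  split_ifs <;> simp

lemma dM_smul (x : S) (A : Matrix ι κ S) : dM δ (x • A) = δ x • A + x • dM δ A := by
  ext i j; simp [dM, Derivation.leibniz]; ring

lemma dM_sum {σ : Type*} (s : Finset σ) (A : σ → Matrix ι κ S) :
    dM δ (∑ x ∈ s, A x) = ∑ x ∈ s, dM δ (A x) := by
  ext i j; simp [dM, Matrix.sum_apply]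

end dM

/-- The data: coordinates, metric, inverse metric, orthonormal frame. -/
structure MF (n : ℕ) (S : Type*) [CommRing S] [Algebra ℝ S] extends Coord n S where
  g : Matrix (Fin n) (Fin n) S
  gi : Matrix (Fin n) (Fin n) S
  E : Matrix (Fin n) (Fin n) S
  g_symm : ∀ i j, g i j = g j i
  gi_g : gi * g = 1
  orth : Eᵀ * g * E = 1

namespace MF

variable (C : MF n S)

/-- Christoffel symbols `Γ l i j = Γˡᵢⱼ`. -/
noncomputable def Γ (l i j : Fin n) : S :=
  half * ∑ m, C.gi l m * (C.d i (C.g j m) + C.d j (C.g i m) - C.d m (C.g i j))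

/-- the matrices `Γ_a = (Γˡₐᵦ)_{l,b}` -/
noncomputable def Γm (a : Fin n) : Matrix (Fin n) (Fin n) S := fun l b => C.Γ l a b

lemma Γ_symm (l i j : Fin n) : C.Γ l i j = C.Γ l j i := by
  simp only [Γ, C.g_symm i j]
  congr 1
  exact sum_congr rfl fun m _ => by ring

lemma g_gi : C.g * C.gi = 1 := mul_eq_one_comm.1 C.gi_g

lemma g_transpose : C.gᵀ = C.g := by
  ext i j; exact C.g_symm j i

/-- lowering the index: `∑ g_{kl} Γˡᵢⱼ`. -/
lemma g_Γ (k i j : Fin n) : ∑ l, C.g k l * C.Γ l i j
    = half * (C.d i (C.g j k) + C.d j (C.g i k) - C.d k (C.g i j)) := by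
  have h : ∀ m, ∑ l, C.g k l * C.gi l m = if k = m then 1 else 0 := by
    intro m
    have := congrFun (congrFun C.g_gi k) m
    rw [Matrix.mul_apply, Matrix.one_apply] at this
    exact this
  simp only [Γ, mul_sum]
  rw [sum_comm]
  have : ∀ m, ∑ l, C.g k l * (half * (C.gi l m * (C.d i (C.g j m) + C.d j (C.g i m)
      - C.d m (C.g i j)))) = half * ((∑ l, C.g k l * C.gi l m) * (C.d i (C.g j m)
        + C.d j (C.g i m) - C.d m (C.g i j))) := by
    intro m
    rw [sum_mul, mul_sum]
    exact sum_congr rfl fun l _ => by ring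
  simp_rw [this, h]
  simp

/-- metric compatibility in coordinates -/
lemma compat (a : Fin n) : dM (C.d a) C.g = C.g * C.Γm a + (C.Γm a)ᵀ * C.g := by
  ext k b
  rw [Matrix.add_apply, Matrix.mul_apply, Matrix.mul_apply]
  have h1 : ∑ l, C.g k l * C.Γm a l b = ∑ l, C.g k l * C.Γ l a b := rfl
  have h2 : ∑ l, (C.Γm a)ᵀ k l * C.g l b = ∑ l, C.g b l * C.Γ l a k :=
    sum_congr rfl fun l _ => by rw [Matrix.transpose_apply, Γm, C.g_symm l b, mul_comm]
  rw [h1, h2, C.g_Γ, C.g_Γ, dM]
  have hh := two_half (S := S)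
  rw [C.g_symm b k]
  linear_combination (-C.d a (C.g k b)) * hh

/-- frame derivations -/
def Df (i : Fin n) : Derivation ℝ S S := ∑ k, C.E k i • C.d k

lemma Df_apply (i : Fin n) (f : S) : C.Df i f = ∑ k, C.E k i * C.d k f := by
  simp only [Df]
  rw [← Derivation.coeFnAddMonoidHom_apply, map_sum, Finset.sum_apply]
  rfl

/-- `a_k = ∑ E_{ak} Γ_a` -/
noncomputable def aF (k : Fin n) : Matrix (Fin n) (Fin n) S := ∑ a, C.E a k • C.Γm a

lemma dM_Df {ι κ : Type*} (i : Fin n) (M : Matrix ι κ S) :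
    dM (C.Df i) M = ∑ a, C.E a i • dM (C.d a) M := by
  ext p q; simp [dM, Df_apply, Matrix.sum_apply]

lemma compatF (k : Fin n) : dM (C.Df k) C.g = C.g * C.aF k + (C.aF k)ᵀ * C.g := by
  rw [dM_Df]
  simp_rw [C.compat, aF, Matrix.transpose_sum, Matrix.transpose_smul, Matrix.mul_sum,
    Matrix.sum_mul, Matrix.mul_smul, Matrix.smul_mul, smul_add, sum_add_distrib]

/-- `B_k = Eᵀ g (D_k E + a_k E)` -/
noncomputable def B (k : Fin n) : Matrix (Fin n) (Fin n) S :=
  C.Eᵀ * C.g * (dM (C.Df k) C.E + C.aF k * C.E)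

lemma B_skew (k : Fin n) : C.B k + (C.B k)ᵀ = 0 := by
  have h := congrArg (dM (C.Df k)) C.orth
  rw [dM_one, dM_mul, dM_mul, C.compatF, dM_transpose] at h
  rw [← h, B]
  simp only [Matrix.transpose_mul, Matrix.transpose_add, Matrix.transpose_transpose,
    C.g_transpose]
  noncomm_ring

lemma E_Et_g : C.E * (C.Eᵀ * C.g) = 1 := mul_eq_one_comm.1 C.orth

lemma E_B (k : Fin n) : C.E * C.B k = dM (C.Df k) C.E + C.aF k * C.E := by
  rw [B, ← Matrix.mul_assoc, C.E_Et_g, Matrix.one_mul]

lemma aE_symm (k l b : Fin n) : (C.aF k * C.E) b l = (C.aF l * C.E) b k := by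
  simp only [Matrix.mul_apply, aF, Matrix.sum_apply, Matrix.smul_apply, Γm, smul_eq_mul, sum_mul]
  rw [sum_comm]
  refine sum_congr rfl fun a _ => sum_congr rfl fun c _ => ?_
  rw [C.Γ_symm b c a]; ring

lemma comm_Df (k l : Fin n) (f : S) : C.Df k (C.Df l f) - C.Df l (C.Df k f)
    = ∑ b, (C.Df k (C.E b l) - C.Df l (C.E b k)) * C.d b f := by
  have h : ∀ k l : Fin n, C.Df k (C.Df l f) = ∑ b, C.Df k (C.E b l) * C.d b f
      + ∑ b, ∑ a, C.E b l * (C.E a k * C.d a (C.d b f)) := by
    intro k l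
    conv_lhs => rw [C.Df_apply l f, map_sum]
    simp_rw [Derivation.leibniz, smul_eq_mul, sum_add_distrib]
    rw [add_comm]
    congr 1
    · exact sum_congr rfl fun b _ => mul_comm _ _
    · refine sum_congr rfl fun b _ => ?_
      rw [C.Df_apply, mul_sum]
  rw [h k l, h l k]
  have : ∑ b, ∑ a, C.E b l * (C.E a k * C.d a (C.d b f))
      = ∑ b, ∑ a, C.E b k * (C.E a l * C.d a (C.d b f)) := by
    rw [sum_comm]
    refine sum_congr rfl fun a _ => sum_congr rfl fun b _ => ?_
    rw [C.comm a b]; ring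
  rw [this]; simp_rw [sub_mul, sum_sub_distrib]; ring

/-- The orthonormal frame as a `Frame`. -/
noncomputable def frame : Frame n S where
  D := C.Df
  w k i j := C.B k j i
  anti k i j := by
    have := congrFun (congrFun (C.B_skew k) j) i
    rw [Matrix.add_apply, Matrix.transpose_apply, Matrix.zero_apply] at this
    exact eq_neg_of_add_eq_zero_left this
  tors k l f := by
    have h1 : ∀ k l b, ∑ m, C.E b m * C.B k m l = C.Df k (C.E b l) + (C.aF k * C.E) b l := by
      intro k l b
      have := congrFun (congrFun (C.E_B k) b) l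
      rw [Matrix.mul_apply, Matrix.add_apply] at this
      exact this
    rw [C.comm_Df k l f]
    simp_rw [C.Df_apply _ f, mul_sum]
    rw [sum_comm]
    refine sum_congr rfl fun b _ => ?_
    have h2 : ∑ m, (C.B k m l - C.B l m k) * (C.E b m * C.d b f)
        = (∑ m, C.E b m * C.B k m l - ∑ m, C.E b m * C.B l m k) * C.d b f := by
      rw [← sum_sub_distrib, sum_mul]
      exact sum_congr rfl fun m _ => by ring
    rw [h2, h1, h1, C.aE_symm k l b]; ring
  indep c hc m := by
    have h : ∀ b, ∑ m, c m * C.E b m = 0 := by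
      refine C.indep (fun b => ∑ m, c m * C.E b m) fun f => ?_
      rw [← hc f]
      simp_rw [C.Df_apply, mul_sum, sum_mul]
      rw [sum_comm]
      exact sum_congr rfl fun m _ => sum_congr rfl fun b _ => by ring
    have h' : C.E *ᵥ c = 0 := by
      funext b
      refine Eq.trans ?_ (h b)
      simp only [Matrix.mulVec, dotProduct]
      exact sum_congr rfl fun m _ => mul_comm (C.E b m) (c m)
    have := congrArg (fun v => (C.Eᵀ * C.g) *ᵥ v) h'
    simp only [Matrix.mulVec_mulVec, Matrix.mulVec_zero, C.orth, Matrix.one_mulVec] at this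
    exact congrFun this m

/-- coordinate curvature matrices `(R_{ab})^l_k = Rˡ_{k a b}` -/
noncomputable def Rc (a b : Fin n) : Matrix (Fin n) (Fin n) S :=
  dM (C.d a) (C.Γm b) - dM (C.d b) (C.Γm a) + (C.Γm a * C.Γm b - C.Γm b * C.Γm a)

lemma frame_D (i : Fin n) (f : S) : C.frame.D i f = ∑ k, C.E k i * C.d k f := C.Df_apply i f

lemma frame_w (k i j : Fin n) : C.frame.w k i j = C.B k j i := rfl

lemma frame_tan (k : Fin n) : C.frame.tan k = C.B k := rfl

lemma curv_eq (a : Fin n → Matrix (Fin n) (Fin n) S) (F : Frame n S) (k l : Fin n) :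
    F.curv a k l = dM (F.D k) (a l) - dM (F.D l) (a k) + (a k * a l - a l * a k)
      - ∑ m, F.T k l m • a m := by
  ext i j
  simp only [Frame.curv, Matrix.sub_apply, Matrix.add_apply, dM, Matrix.mul_apply,
    Matrix.sum_apply, Matrix.smul_apply, smul_eq_mul, sum_sub_distrib]

/-- the torsion coefficients of the frame -/
lemma E_T (k l b : Fin n) : ∑ m, C.frame.T k l m * C.E b m
    = C.Df k (C.E b l) - C.Df l (C.E b k) := by
  have h1 : ∀ k l b, ∑ m, C.E b m * C.B k m l = C.Df k (C.E b l) + (C.aF k * C.E) b l := by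
    intro k l b
    have := congrFun (congrFun (C.E_B k) b) l
    rw [Matrix.mul_apply, Matrix.add_apply] at this
    exact this
  have : ∑ m, C.frame.T k l m * C.E b m = ∑ m, C.E b m * C.B k m l - ∑ m, C.E b m * C.B l m k := by
    rw [← sum_sub_distrib]
    exact sum_congr rfl fun m _ => by rw [Frame.T, frame_w, frame_w]; ring
  rw [this, h1, h1, C.aE_symm k l b]; ring

/-- curvature of the coordinate bundle frame along the frame derivations -/
lemma curv_aF (k l : Fin n) : C.frame.curv C.aF k l = ∑ a, ∑ b, (C.E a k * C.E b l) • C.Rc a b := by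
  rw [curv_eq]
  have h1 : ∀ k l, dM (C.Df k) (C.aF l) = ∑ b, C.Df k (C.E b l) • C.Γm b
      + ∑ a, ∑ b, (C.E a k * C.E b l) • dM (C.d a) (C.Γm b) := by
    intro k l
    rw [aF, dM_sum]
    simp_rw [dM_smul, sum_add_distrib]
    congr 1
    rw [sum_comm]
    refine sum_congr rfl fun b _ => ?_
    rw [C.dM_Df k (C.Γm b), smul_sum]
    exact sum_congr rfl fun a _ => by rw [smul_smul, mul_comm]
  have h2 : ∀ k l, C.aF k * C.aF l = ∑ a, ∑ b, (C.E a k * C.E b l) • (C.Γm a * C.Γm b) := by
    intro k l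
    simp_rw [aF, Matrix.sum_mul, Matrix.mul_sum, Matrix.smul_mul, Matrix.mul_smul, smul_smul]
  have h3 : ∑ m, C.frame.T k l m • C.aF m = ∑ b, (C.Df k (C.E b l) - C.Df l (C.E b k)) • C.Γm b := by
    simp_rw [aF, smul_sum, smul_smul]
    rw [sum_comm]
    refine sum_congr rfl fun b _ => ?_
    rw [← sum_smul, C.E_T]
  have h4 : ∀ X : Fin n → Fin n → Matrix (Fin n) (Fin n) S,
      ∑ a, ∑ b, (C.E a l * C.E b k) • X a b = ∑ a, ∑ b, (C.E a k * C.E b l) • X b a := by
    intro X
    rw [sum_comm]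
    exact sum_congr rfl fun a _ => sum_congr rfl fun b _ => by rw [mul_comm]
  change dM (C.Df k) (C.aF l) - dM (C.Df l) (C.aF k) + _ - _ = _
  rw [h1, h1, h2, h2, h3, h4, h4]
  simp_rw [Rc, smul_add, smul_sub, sub_smul, sum_add_distrib, sum_sub_distrib]
  abel

/-- gauge law for the curvature -/
lemma E_curv_tan (k l : Fin n) : C.E * C.frame.curv C.frame.tan k l
    = C.frame.curv C.aF k l * C.E := by
  have key : ∀ u : Fin n → S, (C.E * C.frame.curv C.frame.tan k l) *ᵥ u
      = (C.frame.curv C.aF k l * C.E) *ᵥ u := by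
    intro u
    have hc : ∀ k (u : Fin n → S), C.frame.cov C.aF k (C.E *ᵥ u)
        = C.E *ᵥ C.frame.cov C.frame.tan k u := by
      intro k u
      have hB := C.E_B k
      have e1 : C.frame.cov C.aF k (C.E *ᵥ u) = dM (C.Df k) C.E *ᵥ u
          + C.E *ᵥ (fun i => C.Df k (u i)) + (C.aF k * C.E) *ᵥ u := by
        funext i
        simp only [Frame.cov, Pi.add_apply, ← Matrix.mulVec_mulVec]
        simp only [Matrix.mulVec, dotProduct, dM]
        have : C.frame.D k = C.Df k := rfl
        rw [this, map_sum]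
        simp_rw [Derivation.leibniz, smul_eq_mul, sum_add_distrib]
        have : ∑ x, u x * C.Df k (C.E i x) = ∑ x, C.Df k (C.E i x) * u x :=
          sum_congr rfl fun x _ => mul_comm _ _
        rw [this]; ring
      have e2 : C.frame.cov C.frame.tan k u = (fun i => C.Df k (u i)) + C.B k *ᵥ u := by
        funext i; rfl
      rw [e1, e2, Matrix.mulVec_add, Matrix.mulVec_mulVec, hB, Matrix.add_mulVec]
      abel
    have h1 := C.frame.cov_comm C.aF k l (C.E *ᵥ u)
    have h2 := C.frame.cov_comm C.frame.tan k l u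
    have h3 : C.frame.curv C.aF k l *ᵥ (C.E *ᵥ u) = C.E *ᵥ (C.frame.curv C.frame.tan k l *ᵥ u) := by
      have h1' : C.frame.curv C.aF k l *ᵥ (C.E *ᵥ u) = C.frame.cov C.aF k (C.frame.cov C.aF l (C.E *ᵥ u))
          - C.frame.cov C.aF l (C.frame.cov C.aF k (C.E *ᵥ u))
          - ∑ m, C.frame.T k l m • C.frame.cov C.aF m (C.E *ᵥ u) := by rw [h1]; abel
      have h2' : C.frame.curv C.frame.tan k l *ᵥ u = C.frame.cov C.frame.tan k (C.frame.cov C.frame.tan l u)
          - C.frame.cov C.frame.tan l (C.frame.cov C.frame.tan k u)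
          - ∑ m, C.frame.T k l m • C.frame.cov C.frame.tan m u := by rw [h2]; abel
      rw [h1', h2', hc, hc, hc, hc, Matrix.mulVec_sub, Matrix.mulVec_sub]
      congr 1
      simp_rw [hc]
      rw [Matrix.mulVec_sum]
      exact sum_congr rfl fun m _ => by rw [Matrix.mulVec_smul]
    rw [← Matrix.mulVec_mulVec, ← Matrix.mulVec_mulVec, h3]
  ext i j
  have := congrFun (key (Pi.single j 1)) i
  simpa using this

/-- **The Riemann tensor in the frame** is the coordinate Riemann tensor. -/
theorem Rm_eq (i j k l : Fin n) : C.frame.Rm i j k l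
    = ∑ m, (∑ d, C.E d l * C.g d m) *
        ∑ c, (∑ a, ∑ b, (C.E a i * C.E b j) * C.Rc a b m c) * C.E c k := by
  rw [← C.frame.curv_tan i j k l]
  have h : C.frame.curv C.frame.tan i j = C.Eᵀ * C.g * (C.frame.curv C.aF i j * C.E) := by
    rw [← C.E_curv_tan, ← Matrix.mul_assoc, C.orth, Matrix.one_mul]
  rw [h, C.curv_aF]
  simp only [Matrix.mul_apply, Matrix.sum_apply, Matrix.smul_apply, smul_eq_mul,
    Matrix.transpose_apply]

end MF

end Crest.Agent.R249.Sg129
end

-- ▼ part R249/SgB_129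
section

/-!
The ring `SG x` of germs at `x` of functions smooth at `x`, its coordinate derivations and the
evaluation. (row 249, helper129)
-/

set_option autoImplicit false
set_option linter.unusedSectionVars false

open scoped ContDiff Topology
open Filter Set
open Crest.GeometryTopology.CoordMetric Crest.GeometryTopology.ChartCurvature

noncomputable section

namespace Crest.Agent.R249.Sg129

variable {n : ℕ}

local notation "𝔼" => EuclideanSpace ℝ (Fin n)

/-- functions smooth at `x` -/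
def CF (x : EuclideanSpace ℝ (Fin n)) : Subalgebra ℝ (EuclideanSpace ℝ (Fin n) → ℝ) where
  carrier := {f | ContDiffAt ℝ ∞ f x}
  mul_mem' {f g} hf hg := by
    have h1 : ContDiffAt ℝ ∞ f x := hf
    have h2 : ContDiffAt ℝ ∞ g x := hg
    exact h1.mul h2
  add_mem' {f g} hf hg := by
    have h1 : ContDiffAt ℝ ∞ f x := hf
    have h2 : ContDiffAt ℝ ∞ g x := hg
    exact h1.add h2
  algebraMap_mem' c := by
    change ContDiffAt ℝ ∞ (fun _ => c) x
    exact contDiffAt_const

/-- functions vanishing near `x` -/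
def I0 (x : EuclideanSpace ℝ (Fin n)) : Ideal (CF x) where
  carrier := {f | (f : EuclideanSpace ℝ (Fin n) → ℝ) =ᶠ[𝓝 x] 0}
  add_mem' {f g} hf hg := by
    have := EventuallyEq.add hf hg
    simpa using this
  zero_mem' := EventuallyEq.rfl
  smul_mem' c f hf := by
    have := EventuallyEq.mul (EventuallyEq.refl (𝓝 x) (c : EuclideanSpace ℝ (Fin n) → ℝ)) hf
    simpa using this

/-- the ring of smooth germs -/
def SG (x : EuclideanSpace ℝ (Fin n)) : Type := CF x ⧸ I0 x

variable {x : EuclideanSpace ℝ (Fin n)}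

instance : CommRing (SG x) := inferInstanceAs (CommRing (CF x ⧸ I0 x))
instance : Algebra ℝ (SG x) := inferInstanceAs (Algebra ℝ (CF x ⧸ I0 x))

/-- germ of a smooth function -/
def gm : CF x →ₐ[ℝ] SG x := Ideal.Quotient.mkₐ ℝ (I0 x)

/-- germ of a smooth function -/
def germ (f : EuclideanSpace ℝ (Fin n) → ℝ) (hf : ContDiffAt ℝ ∞ f x) : SG x := gm ⟨f, hf⟩

lemma germ_eq_iff {f g : 𝔼 → ℝ} {hf : ContDiffAt ℝ ∞ f x} {hg : ContDiffAt ℝ ∞ g x} :
    germ f hf = germ g hg ↔ f =ᶠ[𝓝 x] g := by
  have h1 : germ f hf = germ g hg ↔ (⟨f, hf⟩ : CF x) - ⟨g, hg⟩ ∈ I0 x := Ideal.Quotient.eq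
  rw [h1]
  change (f - g) =ᶠ[𝓝 x] 0 ↔ _
  constructor
  · intro h; filter_upwards [h] with y hy
    exact sub_eq_zero.1 hy
  · intro h; filter_upwards [h] with y hy
    exact sub_eq_zero.2 hy

lemma germ_eq {f g : 𝔼 → ℝ} {hf : ContDiffAt ℝ ∞ f x} {hg : ContDiffAt ℝ ∞ g x}
    (h : f =ᶠ[𝓝 x] g) : germ f hf = germ g hg := germ_eq_iff.2 h

lemma exists_germ (φ : SG x) : ∃ f, ∃ hf : ContDiffAt ℝ ∞ f x, germ f hf = φ := by
  obtain ⟨⟨f, hf⟩, h⟩ := Ideal.Quotient.mk_surjective φ
  exact ⟨f, hf, h⟩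

lemma germ_add {f g : 𝔼 → ℝ} (hf : ContDiffAt ℝ ∞ f x) (hg : ContDiffAt ℝ ∞ g x) :
    germ f hf + germ g hg = germ (fun y => f y + g y) (hf.add hg) := (map_add gm _ _).symm

lemma germ_mul {f g : 𝔼 → ℝ} (hf : ContDiffAt ℝ ∞ f x) (hg : ContDiffAt ℝ ∞ g x) :
    germ f hf * germ g hg = germ (fun y => f y * g y) (hf.mul hg) := (map_mul gm _ _).symm

lemma germ_neg {f : 𝔼 → ℝ} (hf : ContDiffAt ℝ ∞ f x) :
    - germ f hf = germ (fun y => - f y) hf.neg := (map_neg gm _).symm

lemma germ_sub {f g : 𝔼 → ℝ} (hf : ContDiffAt ℝ ∞ f x) (hg : ContDiffAt ℝ ∞ g x) :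
    germ f hf - germ g hg = germ (fun y => f y - g y) (hf.sub hg) := (map_sub gm _ _).symm

lemma germ_zero : germ (fun _ => 0) contDiffAt_const = (0 : SG x) := map_zero (gm (x := x))

lemma germ_one : germ (fun _ => 1) contDiffAt_const = (1 : SG x) := map_one (gm (x := x))

lemma algebraMap_eq (c : ℝ) : algebraMap ℝ (SG x) c = germ (fun _ => c) contDiffAt_const :=
  (AlgHom.commutes (gm (x := x)) c).symm

lemma smul_germ (c : ℝ) {f : 𝔼 → ℝ} (hf : ContDiffAt ℝ ∞ f x) :
    c • germ f hf = germ (fun y => c * f y) (contDiffAt_const.mul hf) := by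
  rw [Algebra.smul_def, algebraMap_eq, germ_mul]

lemma germ_sum {ι : Type*} (s : Finset ι) {f : ι → 𝔼 → ℝ} (hf : ∀ i, ContDiffAt ℝ ∞ (f i) x) :
    ∑ i ∈ s, germ (f i) (hf i) = germ (fun y => ∑ i ∈ s, f i y) (ContDiffAt.sum fun i _ => hf i) := by
  classical
  induction s using Finset.induction_on with
  | empty => simpa using germ_zero.symm
  | insert a s ha ih =>
    rw [Finset.sum_insert ha, ih, germ_add]
    refine germ_eq (Eventually.of_forall fun y => ?_)
    simp only [Finset.sum_insert ha]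

/-- evaluation at the point -/
def ev : SG x →ₐ[ℝ] ℝ :=
  Ideal.Quotient.liftₐ (I0 x)
    ((Pi.evalAlgHom ℝ (fun _ : EuclideanSpace ℝ (Fin n) => ℝ) x).comp (CF x).val)
    (fun _ ha => EventuallyEq.eq_of_nhds ha)

@[simp] lemma ev_germ {f : 𝔼 → ℝ} (hf : ContDiffAt ℝ ∞ f x) : ev (germ f hf) = f x := rfl

/-! ### coordinate derivations -/

lemma contDiffAt_pd {f : 𝔼 → ℝ} (hf : ContDiffAt ℝ ∞ f x) (k : Fin n) :
    ContDiffAt ℝ ∞ (pderiv k f) x :=
  (hf.fderiv_right (m := ∞) (by simp)).clm_apply contDiffAt_const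

/-- partial derivative of a germ (auxiliary) -/
def pd0 (k : Fin n) (φ : SG x) : SG x :=
  germ (pderiv k (exists_germ φ).choose) (contDiffAt_pd (exists_germ φ).choose_spec.choose k)

lemma pderiv_congr {f g : 𝔼 → ℝ} (h : f =ᶠ[𝓝 x] g) (k : Fin n) :
    pderiv k f =ᶠ[𝓝 x] pderiv k g := by
  filter_upwards [h.eventuallyEq_nhds] with y hy
  rw [pderiv, pderiv, hy.fderiv_eq]

lemma pd0_germ (k : Fin n) {f : 𝔼 → ℝ} (hf : ContDiffAt ℝ ∞ f x) :
    pd0 k (germ f hf) = germ (pderiv k f) (contDiffAt_pd hf k) :=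
  germ_eq (pderiv_congr (germ_eq_iff.1 (exists_germ (germ f hf)).choose_spec.choose_spec) k)

lemma ev_diff {f : 𝔼 → ℝ} (hf : ContDiffAt ℝ ∞ f x) : ∀ᶠ y in 𝓝 x, DifferentiableAt ℝ f y := by
  filter_upwards [(hf.of_le (m := 1) (by exact_mod_cast le_top)).eventually (by norm_num)] with y hy
  exact hy.differentiableAt (by norm_num)

/-- partial derivative on germs -/
def pd (k : Fin n) : Derivation ℝ (SG x) (SG x) :=
  Derivation.mk'
    { toFun := pd0 k
      map_add' := by
        intro φ ψ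
        obtain ⟨f, hf, rfl⟩ := exists_germ φ
        obtain ⟨g, hg, rfl⟩ := exists_germ ψ
        rw [germ_add, pd0_germ, pd0_germ, pd0_germ, germ_add]
        refine germ_eq ?_
        filter_upwards [ev_diff hf, ev_diff hg] with y h1 h2
        rw [pderiv, fderiv_fun_add h1 h2]; rfl
      map_smul' := by
        intro c φ
        obtain ⟨f, hf, rfl⟩ := exists_germ φ
        rw [smul_germ, pd0_germ, pd0_germ, RingHom.id_apply, smul_germ]
        refine germ_eq ?_
        filter_upwards [ev_diff hf] with y h1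
        rw [pderiv, fderiv_const_mul h1]; rfl }
    (by
      intro φ ψ
      obtain ⟨f, hf, rfl⟩ := exists_germ φ
      obtain ⟨g, hg, rfl⟩ := exists_germ ψ
      simp only [LinearMap.coe_mk, AddHom.coe_mk, smul_eq_mul]
      rw [germ_mul, pd0_germ, pd0_germ, pd0_germ, germ_mul, germ_mul, germ_add]
      refine germ_eq ?_
      filter_upwards [ev_diff hf, ev_diff hg] with y h1 h2
      rw [pderiv, fderiv_fun_mul h1 h2]; rfl)

lemma pd_germ (k : Fin n) {f : 𝔼 → ℝ} (hf : ContDiffAt ℝ ∞ f x) :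
    pd k (germ f hf) = germ (pderiv k f) (contDiffAt_pd hf k) := pd0_germ k hf

lemma pderiv_comm {f : 𝔼 → ℝ} {y : 𝔼} (hf : ContDiffAt ℝ 2 f y) (k l : Fin n) :
    pderiv k (pderiv l f) y = pderiv l (pderiv k f) y := by
  have hd : DifferentiableAt ℝ (fderiv ℝ f) y :=
    (hf.fderiv_right (m := 1) (by norm_num)).differentiableAt (by norm_num)
  have h : ∀ k l : Fin n, pderiv k (pderiv l f) y
      = fderiv ℝ (fderiv ℝ f) y (EuclideanSpace.single k 1) (EuclideanSpace.single l 1) := by
    intro k l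
    change fderiv ℝ (fun z => fderiv ℝ f z (EuclideanSpace.single l 1)) y _ = _
    rw [fderiv_clm_apply hd (differentiableAt_const _)]
    simp
  rw [h, h]
  exact (hf.isSymmSndFDerivAt (by simp)).eq _ _

lemma cd_coord (x : 𝔼) (m : Fin n) :
    ContDiffAt ℝ ∞ (fun y : EuclideanSpace ℝ (Fin n) => y m) x :=
  (EuclideanSpace.proj m : EuclideanSpace ℝ (Fin n) →L[ℝ] ℝ).contDiff.contDiffAt

/-- the coordinate germ -/
def X (m : Fin n) : SG x := germ (fun y => y m) (cd_coord x m)

lemma pderiv_coord (k m : Fin n) (y : 𝔼) : pderiv k (fun y : 𝔼 => y m) y = if k = m then 1 else 0 := by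
  have : fderiv ℝ (fun y : 𝔼 => y m) y = (EuclideanSpace.proj m : EuclideanSpace ℝ (Fin n) →L[ℝ] ℝ) :=
    (EuclideanSpace.proj m : EuclideanSpace ℝ (Fin n) →L[ℝ] ℝ).fderiv
  rw [pderiv, this]
  change (EuclideanSpace.single k (1:ℝ) : 𝔼) m = _
  simp [eq_comm]

lemma pd_X (k m : Fin n) : pd k (X m : SG x) = if k = m then 1 else 0 := by
  rw [X, pd_germ]
  split_ifs with h
  · rw [← germ_one]
    exact germ_eq (Eventually.of_forall fun y => by simp only [pderiv_coord, if_pos h])
  · rw [← germ_zero]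
    exact germ_eq (Eventually.of_forall fun y => by simp only [pderiv_coord, if_neg h])

/-- the coordinate derivations of the germ ring -/
def coord (x : EuclideanSpace ℝ (Fin n)) : Coord n (SG x) where
  d := pd
  comm k l φ := by
    obtain ⟨f, hf, rfl⟩ := exists_germ φ
    rw [pd_germ, pd_germ, pd_germ, pd_germ]
    refine germ_eq ?_
    filter_upwards [(hf.of_le (m := 2) (WithTop.coe_le_coe.2 le_top)).eventually (by norm_num)]
      with y hy
    exact pderiv_comm hy k l
  indep c hc m := by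
    have := hc (X m)
    simpa [pd_X] using this

end Crest.Agent.R249.Sg129
end
end

-- ▼ part R249/SgC_129

/-!
`frameOf`: the `Frame` over the germ ring `SG x` of a smooth orthonormal frame of a Riemannian
metric near `x`, with all components as germs of explicit functions. (row 249, helper129)
-/

set_option autoImplicit false
set_option linter.unusedSectionVars false

open scoped ContDiff Topology
open Filter Set Finset
open Crest.GeometryTopology.CoordMetric Crest.GeometryTopology.ChartCurvature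
open Crest.Agent.R202.Tens Crest.Agent.R247.Bo84
open Crest.Agent.R249.Fr129
open Crest.Agent.R249.Fr129.Frame (half two_half)

noncomputable section

namespace Crest.Agent.R249.Sg129

variable {n : ℕ}

local notation "𝔼" => EuclideanSpace ℝ (Fin n)

/-- `e` is a smooth orthonormal frame of `g` near `x ∈ U`. -/
structure ONF (g : MetricField n) (U : Set (EuclideanSpace ℝ (Fin n)))
    (x : EuclideanSpace ℝ (Fin n))
    (e : Fin n → EuclideanSpace ℝ (Fin n) → EuclideanSpace ℝ (Fin n)) : Prop where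
  riem : IsRiemannianOn g U
  mem : x ∈ U
  smooth : ∀ i, ContDiffAt ℝ ∞ (e i) x
  orth : ∀ᶠ y in 𝓝 x, ∀ i j, bil (g y) (e i y) (e j y) = if i = j then 1 else 0

variable {g : MetricField n} {U : Set (EuclideanSpace ℝ (Fin n))} {x : EuclideanSpace ℝ (Fin n)}
  {e : Fin n → EuclideanSpace ℝ (Fin n) → EuclideanSpace ℝ (Fin n)}

lemma eventually_mem (hg : IsRiemannianOn g U) (hx : x ∈ U) : ∀ᶠ y in 𝓝 x, y ∈ U :=
  hg.isOpen.mem_nhds hx

set_option maxSynthPendingDepth 3 in
lemma contDiffAt_curv {E : Type*} [NormedAddCommGroup E] [NormedSpace ℝ E]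
    {Γ : E → E →L[ℝ] E →L[ℝ] E} {x : E} (hG : ContDiffAt ℝ ∞ Γ x) {W X Y : E → E}
    (hW : ContDiffAt ℝ ∞ W x) (hX : ContDiffAt ℝ ∞ X x) (hY : ContDiffAt ℝ ∞ Y x) :
    ContDiffAt ℝ ∞ (fun y => curv Γ y (W y) (X y) (Y y)) x := by
  have hdG : ContDiffAt ℝ ∞ (fderiv ℝ Γ) x := hG.fderiv_right (m := ∞) (by simp)
  unfold curv
  exact ((((hdG.clm_apply hW).clm_apply hX).clm_apply hY).sub
      (((hdG.clm_apply hX).clm_apply hW).clm_apply hY)).add
      ((hG.clm_apply hW).clm_apply ((hG.clm_apply hX).clm_apply hY)) |>.sub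
      ((hG.clm_apply hX).clm_apply ((hG.clm_apply hW).clm_apply hY))

namespace ONF

variable (h : ONF g U x e)
include h

lemma cd_e (i a : Fin n) : ContDiffAt ℝ ∞ (fun y => e i y a) x :=
  (EuclideanSpace.proj a : EuclideanSpace ℝ (Fin n) →L[ℝ] ℝ).contDiff.contDiffAt.comp x (h.smooth i)

/-- the algebraic data over the germ ring -/
def mf : MF n (SG x) where
  toCoord := coord x
  g := Matrix.of fun i j => germ (fun y => g y i j) (contDiffAt_entry h.riem h.mem i j)
  gi := Matrix.of fun i j => germ (fun y => inverseField g y i j) (contDiffAt_inv h.riem h.mem i j)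
  E := Matrix.of fun a i => germ (fun y => e i y a) (h.cd_e i a)
  g_symm i j := germ_eq (by
    filter_upwards [eventually_mem h.riem h.mem] with y hy using metric_symm h.riem hy i j)
  gi_g := by
    ext i j
    rw [Matrix.mul_apply, Matrix.one_apply]
    simp only [Matrix.of_apply, germ_mul, germ_sum]
    have : ∀ᶠ y in 𝓝 x, ∑ k, inverseField g y i k * g y k j = if i = j then 1 else 0 := by
      filter_upwards [eventually_mem h.riem h.mem] with y hy
      have h1 := Matrix.nonsing_inv_mul (g y) (det_pos h.riem hy).ne'.isUnit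
      have h2 := congrFun (congrFun h1 i) j
      rw [Matrix.mul_apply, Matrix.one_apply] at h2
      exact h2
    split_ifs with hij
    · rw [← germ_one]; exact germ_eq (by filter_upwards [this] with y hy; rw [hy, if_pos hij])
    · rw [← germ_zero]; exact germ_eq (by filter_upwards [this] with y hy; rw [hy, if_neg hij])
  orth := by
    ext i j
    rw [Matrix.mul_apply, Matrix.one_apply]
    simp only [Matrix.mul_apply, Matrix.transpose_apply, Matrix.of_apply, germ_mul, germ_sum]
    have : ∀ᶠ y in 𝓝 x, ∑ k, (∑ l, e i y l * g y l k) * e j y k = if i = j then 1 else 0 := by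
      filter_upwards [h.orth] with y hy
      rw [← hy i j, bil_apply, Finset.sum_comm]
      refine Finset.sum_congr rfl fun k _ => ?_
      rw [Finset.sum_mul]
      exact Finset.sum_congr rfl fun l _ => by ring
    split_ifs with hij
    · rw [← germ_one]; exact germ_eq (by filter_upwards [this] with y hy; rw [hy, if_pos hij])
    · rw [← germ_zero]; exact germ_eq (by filter_upwards [this] with y hy; rw [hy, if_neg hij])

/-- **the frame of germs** -/
def frameOf : Frame n (SG x) := h.mf.frame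

lemma mf_g (i j : Fin n) : h.mf.g i j = germ (fun y => g y i j) (contDiffAt_entry h.riem h.mem i j) := rfl
lemma mf_gi (i j : Fin n) :
    h.mf.gi i j = germ (fun y => inverseField g y i j) (contDiffAt_inv h.riem h.mem i j) := rfl
lemma mf_E (a i : Fin n) : h.mf.E a i = germ (fun y => e i y a) (h.cd_e i a) := rfl
lemma mf_d (k : Fin n) : h.mf.d k = pd k := rfl

lemma cd_chr (l i j : Fin n) : ContDiffAt ℝ ∞ (fun y => christoffel g y l i j) x :=
  (contDiffOn_christoffel h.riem l i j).contDiffAt (h.riem.isOpen.mem_nhds h.mem)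

lemma Γ_germ (l i j : Fin n) : h.mf.Γ l i j = germ (fun y => christoffel g y l i j) (h.cd_chr l i j) := by
  rw [MF.Γ, half, algebraMap_eq]
  simp only [mf_g, mf_gi, mf_d, pd_germ, germ_add, germ_sub, germ_mul, germ_sum]
  exact germ_eq (Eventually.of_forall fun y => rfl)

lemma cd_riem (l k i j : Fin n) : ContDiffAt ℝ ∞ (fun y => riemann g y l k i j) x := by
  unfold riemann
  exact ((contDiffAt_pd (h.cd_chr l j k) i).sub (contDiffAt_pd (h.cd_chr l i k) j)).add
    (ContDiffAt.sum fun a _ => ((h.cd_chr l i a).mul (h.cd_chr a j k)).sub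
      ((h.cd_chr l j a).mul (h.cd_chr a i k)))

lemma Rc_germ (a b m c : Fin n) :
    h.mf.Rc a b m c = germ (fun y => riemann g y m c a b) (h.cd_riem m c a b) := by
  rw [MF.Rc]
  simp only [Matrix.add_apply, Matrix.sub_apply, dM, Matrix.mul_apply, MF.Γm, Γ_germ, mf_d, pd_germ,
    germ_add, germ_sub, germ_mul, germ_sum]
  refine germ_eq (Eventually.of_forall fun y => ?_)
  simp only [riemann, Finset.sum_sub_distrib]

/-- the curvature in the frame, as a function -/
lemma cd_Rm (i j k l : Fin n) : ContDiffAt ℝ ∞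
    (fun y => bil (g y) (curv (Gam g) y (e i y) (e j y) (e k y)) (e l y)) x := by
  have h1 : ContDiffAt ℝ ∞ (fun y => curv (Gam g) y (e i y) (e j y) (e k y)) x :=
    contDiffAt_curv (contDiffAt_Gam h.riem h.mem) (h.smooth i) (h.smooth j) (h.smooth k)
  simp only [bil_apply]
  refine ContDiffAt.sum fun a _ => ContDiffAt.sum fun b _ => ?_
  exact ((contDiffAt_entry h.riem h.mem a b).mul
    ((EuclideanSpace.proj a : EuclideanSpace ℝ (Fin n) →L[ℝ] ℝ).contDiff.contDiffAt.comp x h1)).mul
      (h.cd_e l b)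

/-- **Riemann tensor of the frame** -/
theorem Rm_germ (i j k l : Fin n) : h.frameOf.Rm i j k l
    = germ (fun y => bil (g y) (curv (Gam g) y (e i y) (e j y) (e k y)) (e l y))
      (h.cd_Rm i j k l) := by
  rw [frameOf, MF.Rm_eq]
  simp only [mf_E, mf_g, Rc_germ, germ_mul, germ_sum]
  refine germ_eq ?_
  filter_upwards [eventually_mem h.riem h.mem] with y hy
  rw [bil_apply]
  refine Finset.sum_congr rfl fun m _ => ?_
  rw [curv_apply fun k i j => differentiableAt_christoffel h.riem hy k i j, Finset.sum_mul]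
  refine Finset.sum_congr rfl fun d _ => ?_
  rw [metric_symm h.riem hy d m]
  have : ∑ c, (∑ a, ∑ b, e i y a * e j y b * riemann g y m c a b) * e k y c
      = ∑ c, ∑ a, ∑ b, riemann g y m c a b * e k y c * e i y a * e j y b := by
    refine Finset.sum_congr rfl fun c _ => ?_
    rw [Finset.sum_mul]
    refine Finset.sum_congr rfl fun a _ => ?_
    rw [Finset.sum_mul]
    exact Finset.sum_congr rfl fun b _ => by ring
  rw [this]; ring

lemma cd_D {f : 𝔼 → ℝ} (hf : ContDiffAt ℝ ∞ f x) (i : Fin n) :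
    ContDiffAt ℝ ∞ (fun y => fderiv ℝ f y (e i y)) x :=
  (hf.fderiv_right (m := ∞) (by simp)).clm_apply (h.smooth i)

/-- derivations of the frame -/
theorem D_germ {f : 𝔼 → ℝ} (hf : ContDiffAt ℝ ∞ f x) (i : Fin n) :
    h.frameOf.D i (germ f hf) = germ (fun y => fderiv ℝ f y (e i y)) (h.cd_D hf i) := by
  rw [frameOf, MF.frame_D]
  simp only [mf_E, mf_d, pd_germ, germ_mul, germ_sum]
  exact germ_eq (Eventually.of_forall fun y => (fderiv_eq_sum f y (e i y)).symm)

lemma cd_cov (i k : Fin n) : ContDiffAt ℝ ∞ (fun y => cov g (e i) y (e k y)) x :=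
  (contDiffAt_cov h.riem h.mem (m := ∞) (h.smooth i) (by simp) le_rfl).clm_apply (h.smooth k)

lemma cd_bil {V W : 𝔼 → 𝔼} (hV : ContDiffAt ℝ ∞ V x) (hW : ContDiffAt ℝ ∞ W x) :
    ContDiffAt ℝ ∞ (fun y => bil (g y) (V y) (W y)) x := by
  simp only [bil_apply]
  refine ContDiffAt.sum fun a _ => ContDiffAt.sum fun b _ => ?_
  exact ((contDiffAt_entry h.riem h.mem a b).mul
    ((EuclideanSpace.proj a : EuclideanSpace ℝ (Fin n) →L[ℝ] ℝ).contDiff.contDiffAt.comp x hV)).mul
    ((EuclideanSpace.proj b : EuclideanSpace ℝ (Fin n) →L[ℝ] ℝ).contDiff.contDiffAt.comp x hW)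

/-- connection coefficients of the frame -/
theorem w_germ (k i j : Fin n) : h.frameOf.w k i j
    = germ (fun y => bil (g y) (cov g (e i) y (e k y)) (e j y)) (h.cd_bil (h.cd_cov i k) (h.smooth j)) := by
  rw [frameOf, MF.frame_w, MF.B]
  simp only [Matrix.mul_apply, Matrix.transpose_apply, Matrix.add_apply, dM, MF.Df_apply, MF.aF,
    Matrix.sum_apply, Matrix.smul_apply, smul_eq_mul, MF.Γm, Γ_germ, mf_E, mf_d, mf_g, pd_germ, germ_mul,
    germ_sum, germ_add]
  refine germ_eq ?_
  filter_upwards [eventually_mem h.riem h.mem, (((h.smooth i).of_le (m := 1)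
    (WithTop.coe_le_coe.2 le_top)).eventually (by norm_num))] with y hy hd
  have hd' : DifferentiableAt ℝ (e i) y := hd.differentiableAt (by norm_num)
  rw [bil_apply]
  refine Finset.sum_congr rfl fun q _ => ?_
  rw [Finset.sum_mul]
  refine Finset.sum_congr rfl fun p _ => ?_
  rw [metric_symm h.riem hy p q, cov_apply, PiLp.add_apply, Gam_apply]
  have h1 : ∑ a, e k y a * pderiv a (fun z => e i z q) y = (fderiv ℝ (e i) y (e k y)) q := by
    rw [← fderiv_eq_sum]
    have : HasFDerivAt (fun z => e i z q)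
        ((EuclideanSpace.proj q : EuclideanSpace ℝ (Fin n) →L[ℝ] ℝ).comp (fderiv ℝ (e i) y)) y :=
      (EuclideanSpace.proj q : 𝔼 →L[ℝ] ℝ).hasFDerivAt.comp y hd'.hasFDerivAt
    rw [this.fderiv]; rfl
  have h2 : ∑ r, (∑ a, e k y a * christoffel g y q a r) * e i y r
      = ∑ a, ∑ r, christoffel g y q a r * e k y a * e i y r := by
    rw [Finset.sum_comm]
    refine Finset.sum_congr rfl fun r _ => ?_
    rw [Finset.sum_mul]
    exact Finset.sum_congr rfl fun a _ => by ring
  rw [h1, h2]; ring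

end ONF

end Crest.Agent.R249.Sg129
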