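import Crest.Agent.R249.DicB_129
import Crest.Agent.R249.DenR_714
import Crest.Agent.R249.Tz0_805
import Crest.Agent.R249.Vf4_281
import Crest.Agent.R249.TzM_805

-- ▼ part R249/WkA_352
section

/-!
Row 249, part C, leaf WEAK (helper352), part 1: the germ formulas in a `CLoc` (Tz0_805).

Ring level: `cov_j` (`∇(j v) = j ∇v`), `skew_lf`, `dvg_dot` (`div ⟨u, ∇v⟩ = ⟨∇u, ∇v⟩ + ⟨u, Δv⟩`).

Germ level, for `h : ONF (chartMetric n M z) .. (chartCentre n M z) e`, `U := fun y => fg z (u y)`,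
`û := jᵀ *ᵥ U`:
* `vg_cv`      : `vg z e (D.cv u x) k = (h.frameOf.cov (om D z e) k U) x`;
* `sec_fg`     : `U = j *ᵥ û` for sections;
* `vg_cv_sec`  : `vg z e (D.cv u x) k = (j *ᵥ h.frameOf.cov a k û) x` for sections;
* `fg_opA`     : `fg z (opA D0 cc u x) = (j1 *ᵥ dir h.frameOf a0 c û) x`;
* `fg_opB`     : `fg z (opB D1 cc w y) = (j0 *ᵥ dirs h.frameOf a1 c ŵ) y`;
* `fg_Om`      : `fg z (D.Om X Y a b) = ∑_kl X_k Y_l (h.frameOf.curv (om D z e) k l a b)`;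
* `fg_potQ`    : `(Matrix.of fun y y' => fg z (potQ s D0 cc y y')) = j0 * Q h.frameOf a0 c * j0ᵀ`;
* `CLoc.swap`  : the transposed pair.
-/

set_option autoImplicit false
set_option maxSynthPendingDepth 3
set_option linter.unusedSectionVars false

open Filter Topology Set Bundle Manifold Matrix
open scoped ContDiff
open Crest.GeometryTopology.CoordMetric Crest.GeometryTopology.ChartCurvature
  Crest.GeometryTopology.PointedLimit
open Crest.Agent.R202.Tens Crest.Agent.R249.Vf281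
  Crest.Agent.R249.Tz1_805 Crest.Agent.R249.Tz2_805
open Crest.Agent.R247.Bo84 hiding dM
open Crest.Agent.R249.Fr129 Crest.Agent.R249.C2_198
open Crest.Agent.R249.Sg129 (SG germ ev ONF dM dM_mul dM_sub dM_add dM_one dM_transpose sf sv)
open Crest.Agent.R249.Tz805

noncomputable section

namespace Crest.Agent.R249.Wk352

/-! ### ring level -/

section ring

variable {n : ℕ} {S : Type*} [CommRing S] [Algebra ℝ S] (F : Frame n S)
  {κ ι : Type*} [Fintype κ] [Fintype ι]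

lemma cov_eq (om : Fin n → Matrix κ κ S) (k : Fin n) (u : κ → S) :
    F.cov om k u = (fun x => F.D k (u x)) + om k *ᵥ u := by
  funext x
  simp only [Frame.cov, Pi.add_apply, Matrix.mulVec, dotProduct]

lemma D_mulVec (k : Fin n) (j : Matrix κ ι S) (v : ι → S) :
    (fun x => F.D k ((j *ᵥ v) x)) = dM (F.D k) j *ᵥ v + j *ᵥ (fun x => F.D k (v x)) := by
  funext x
  simp only [Matrix.mulVec, dotProduct, Pi.add_apply, dM]
  rw [Frame.D_sum, ← Finset.sum_add_distrib]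
  exact Finset.sum_congr rfl fun y _ => F.D_mul k _ _

variable {F}

/-- `∇ (j v) = j ∇ v` -/
lemma cov_j {om : Fin n → Matrix κ κ S} {a : Fin n → Matrix ι ι S} {j : Matrix κ ι S}
    (hdj : ∀ k, dM (F.D k) j + om k * j = j * a k) (k : Fin n) (v : ι → S) :
    F.cov om k (j *ᵥ v) = j *ᵥ F.cov a k v := by
  rw [cov_eq, cov_eq, D_mulVec, Matrix.mulVec_add, Matrix.mulVec_mulVec, Matrix.mulVec_mulVec,
    ← hdj k, Matrix.add_mulVec]
  abel

lemma skew_lf [DecidableEq ι] {om : Fin n → Matrix κ κ S} {a : Fin n → Matrix ι ι S}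
    {j : Matrix κ ι S} (hom : ∀ k, (om k)ᵀ = - om k) (hj : jᵀ * j = 1)
    (hdj : ∀ k, dM (F.D k) j + om k * j = j * a k) : Frame.Skew a := by
  intro k x y
  have h1 : a k = jᵀ * dM (F.D k) j + jᵀ * (om k * j) := by
    rw [← Matrix.mul_add, hdj k, ← Matrix.mul_assoc, hj, Matrix.one_mul]
  have h2 : (a k)ᵀ = dM (F.D k) jᵀ * j - jᵀ * (om k * j) := by
    rw [h1, Matrix.transpose_add, Matrix.transpose_mul, Matrix.transpose_mul, Matrix.transpose_mul,
      Matrix.transpose_transpose, hom k, dM_transpose, Matrix.mul_neg, Matrix.neg_mul,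
      Matrix.mul_assoc, sub_eq_add_neg]
  have h3 : dM (F.D k) jᵀ * j + jᵀ * dM (F.D k) j = 0 := by
    rw [← dM_mul, hj, dM_one]
  have h4 : a k + (a k)ᵀ = 0 := by
    rw [h2]
    nth_rewrite 1 [h1]
    rw [← h3]
    abel
  have h5 := congrFun (congrFun h4 x) y
  simp only [Matrix.add_apply, Matrix.transpose_apply, Matrix.zero_apply] at h5
  exact eq_neg_of_add_eq_zero_left h5

/-- `div ⟨u, ∇ v⟩ = ⟨∇u, ∇v⟩ + ⟨u, Δv⟩` -/
lemma dvg_dot {a : Fin n → Matrix ι ι S} (ha : Frame.Skew a) (u v : ι → S) :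
    dvg F (fun k => u ⬝ᵥ F.cov a k v)
      = (∑ k, F.cov a k u ⬝ᵥ F.cov a k v) + u ⬝ᵥ F.lap a v := by
  have hc : dvg F (fun k => u ⬝ᵥ F.cov a k v)
      = ∑ i, (F.D i (u ⬝ᵥ F.cov a i v) + ∑ p, F.w i p i * (u ⬝ᵥ F.cov a p v)) := by
    simp only [dvg, Frame.cov, Frame.tan]
  rw [hc]
  have hl : u ⬝ᵥ F.lap a v = ∑ i, u ⬝ᵥ F.hess a i i v := by
    have : F.lap a v = ∑ i, F.hess a i i v := by funext x; simp [Frame.lap, Finset.sum_apply]
    rw [this, dotProduct_sum]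
  rw [hl, ← Finset.sum_add_distrib]
  refine Finset.sum_congr rfl fun i _ => ?_
  have h1 : F.D i (u ⬝ᵥ F.cov a i v) = F.cov a i u ⬝ᵥ F.cov a i v
      + u ⬝ᵥ F.cov a i (F.cov a i v) := by
    have := F.D_dot ha i u (F.cov a i v)
    simp only [dotProduct] at this ⊢
    rw [this]
  have h2 : F.hess a i i v = F.cov a i (F.cov a i v) - ∑ p, F.w i i p • F.cov a p v := by
    funext x; simp [Frame.hess, Finset.sum_apply]
  have h3 : ∑ p, F.w i p i * (u ⬝ᵥ F.cov a p v) = - ∑ p, F.w i i p * (u ⬝ᵥ F.cov a p v) := by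
    rw [← Finset.sum_neg_distrib]
    exact Finset.sum_congr rfl fun p _ => by rw [F.anti i p i]; ring
  rw [h1, h2, h3, dotProduct_sub, dotProduct_sum]
  simp only [dotProduct_smul, smul_eq_mul]
  ring

/-- `⟨j u, j v⟩ = ⟨u, v⟩` -/
lemma dot_j [DecidableEq ι] {j : Matrix κ ι S} (hj : jᵀ * j = 1) (u v : ι → S) :
    (j *ᵥ u) ⬝ᵥ (j *ᵥ v) = u ⬝ᵥ v := by
  rw [Matrix.dotProduct_mulVec, Matrix.vecMul_mulVec, hj, Matrix.vecMul_one]

lemma jt_j [DecidableEq ι] {j : Matrix κ ι S} (hj : jᵀ * j = 1) (u : ι → S) :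
    jᵀ *ᵥ (j *ᵥ u) = u := by
  rw [Matrix.mulVec_mulVec, hj, Matrix.one_mulVec]

lemma om_alg {S' : Type*} [CommRing S'] {κ' : Type*} [Fintype κ'] (X Y : Fin n → S')
    (C : Fin n → Fin n → S') (A B : κ' → Fin n → S') :
    (∑ l, (∑ k, X k * C k l) * Y l) - (∑ l, (∑ k, Y k * C k l) * X l)
        + ∑ c, ((∑ k, A c k * X k) * (∑ l, B c l * Y l)
          - (∑ k, A c k * Y k) * (∑ l, B c l * X l))
      = ∑ k, ∑ l, X k * Y l * ((C k l - C l k) + ∑ p, (A p k * B p l - A p l * B p k)) := by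
  have s1 : ∑ k, ∑ l, X k * Y l * ((C k l - C l k) + ∑ p, (A p k * B p l - A p l * B p k))
      = ∑ k, ∑ l, X k * Y l * C k l - ∑ k, ∑ l, X k * Y l * C l k
        + ∑ k, ∑ l, ∑ p, (X k * Y l * (A p k * B p l) - X k * Y l * (A p l * B p k)) := by
    simp only [mul_add, mul_sub, Finset.sum_add_distrib, Finset.sum_sub_distrib, Finset.mul_sum]
  rw [s1]
  congr 1
  · congr 1
    · rw [Finset.sum_comm]
      refine Finset.sum_congr rfl fun l _ => ?_
      rw [Finset.sum_mul]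
      exact Finset.sum_congr rfl fun k _ => by ring
    · refine Finset.sum_congr rfl fun l _ => ?_
      rw [Finset.sum_mul]
      exact Finset.sum_congr rfl fun k _ => by ring
  · have s2 : ∑ k, ∑ l, ∑ p, (X k * Y l * (A p k * B p l) - X k * Y l * (A p l * B p k))
        = ∑ p, ∑ k, ∑ l, (X k * Y l * (A p k * B p l) - X k * Y l * (A p l * B p k)) := by
      calc _ = ∑ k, ∑ p, ∑ l, (X k * Y l * (A p k * B p l) - X k * Y l * (A p l * B p k)) :=
            Finset.sum_congr rfl fun k _ => Finset.sum_comm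
        _ = _ := Finset.sum_comm
    rw [s2]
    refine Finset.sum_congr rfl fun p _ => ?_
    rw [Finset.sum_mul_sum, Finset.sum_mul_sum]
    simp only [Finset.sum_sub_distrib]
    congr 1
    · exact Finset.sum_congr rfl fun k _ => Finset.sum_congr rfl fun l _ => by ring
    · rw [Finset.sum_comm]
      exact Finset.sum_congr rfl fun k _ => Finset.sum_congr rfl fun l _ => by ring

end ring

/-! ### germ level -/

variable {n : ℕ} {M : Type*} [TopologicalSpace M] [ChartedSpace (EuclideanSpace ℝ (Fin n)) M]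
  [IsManifold 𝓘(ℝ, EuclideanSpace ℝ (Fin n)) ∞ M]
  [RiemannianBundle (fun x : M => TangentSpace 𝓘(ℝ, EuclideanSpace ℝ (Fin n)) x)]
  [IsContMDiffRiemannianBundle 𝓘(ℝ, EuclideanSpace ℝ (Fin n)) ∞ (EuclideanSpace ℝ (Fin n))
      (fun x : M => TangentSpace 𝓘(ℝ, EuclideanSpace ℝ (Fin n)) x)]

local notation "𝔼" => EuclideanSpace ℝ (Fin n)
local notation "𝓘E" => 𝓘(ℝ, EuclideanSpace ℝ (Fin n))

variable {z : M} {e : Fin n → EuclideanSpace ℝ (Fin n) → EuclideanSpace ℝ (Fin n)}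

lemma sm_mul {f g : M → ℝ} (hf : ContMDiff 𝓘E 𝓘(ℝ, ℝ) ∞ f) (hg : ContMDiff 𝓘E 𝓘(ℝ, ℝ) ∞ g) :
    ContMDiff 𝓘E 𝓘(ℝ, ℝ) ∞ (fun q => f q * g q) := hf.mul hg

lemma sm_sub {f g : M → ℝ} (hf : ContMDiff 𝓘E 𝓘(ℝ, ℝ) ∞ f) (hg : ContMDiff 𝓘E 𝓘(ℝ, ℝ) ∞ g) :
    ContMDiff 𝓘E 𝓘(ℝ, ℝ) ∞ (fun q => f q - g q) := hf.sub hg

lemma sm_add {f g : M → ℝ} (hf : ContMDiff 𝓘E 𝓘(ℝ, ℝ) ∞ f) (hg : ContMDiff 𝓘E 𝓘(ℝ, ℝ) ∞ g) :
    ContMDiff 𝓘E 𝓘(ℝ, ℝ) ∞ (fun q => f q + g q) := hf.add hg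

lemma sm_sum {ι : Type*} (s : Finset ι) {f : ι → M → ℝ}
    (hf : ∀ i, ContMDiff 𝓘E 𝓘(ℝ, ℝ) ∞ (f i)) :
    ContMDiff 𝓘E 𝓘(ℝ, ℝ) ∞ (fun q => ∑ i ∈ s, f i q) := ContMDiff.sum fun i _ => hf i

/-- connection matrices of a `Bun` -/
def om {κ : Type} [Fintype κ] (D : Bun n M κ) (z : M)
    (e : Fin n → EuclideanSpace ℝ (Fin n) → EuclideanSpace ℝ (Fin n)) (k : Fin n) :
    Matrix κ κ (SG (chartCentre n M z)) := Matrix.of fun x y => vg z e (D.W x y) k

/-- the germ of a vector valued function -/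
def fU {κ : Type} (z : M) (u : κ → M → ℝ) (y : κ) : SG (chartCentre n M z) := fg z (u y)

lemma fg_eq (f : M → ℝ) : (fg z f : SG (chartCentre n M z)) = Sg129.fg z f := rfl

variable (h : ONF (chartMetric n M z) (chartAt (EuclideanSpace ℝ (Fin n)) z).target
      (chartCentre n M z) e)
include h

lemma vg_eq (X : (p : M) → TangentSpace 𝓘E p) (k : Fin n) : vg z e X k = h.vg X k := rfl

section bun

variable {κ : Type} [Fintype κ] {D : Bun n M κ}

lemma om_skew (k : Fin n) : (om D z e k)ᵀ = - om D z e k := by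
  ext x y
  simp only [om, Matrix.transpose_apply, Matrix.of_apply, Matrix.neg_apply]
  rw [vg_eq h, vg_eq h, ← h.vg_neg (D.smW x y)]
  congr 1
  funext q
  exact D.skew y x q

omit h in
lemma VSm_cv {u : κ → M → ℝ} (hu : SmU (n := n) u) (x : κ) (q : M) : VSm n ∞ (D.cv u x) q := by
  refine VSm.add (Sg129.VSm_mgrad_top (hu x) q) (VSm.sum Finset.univ fun b _ => ?_)
  exact VSm.smul le_rfl (hu b q) (D.smW x b q)

lemma vg_cv {u : κ → M → ℝ} (hu : SmU (n := n) u) (x : κ) (k : Fin n) :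
    vg z e (D.cv u x) k = h.frameOf.cov (om D z e) k (fU z u) x := by
  have hs : ∀ b, ∀ q, VSm n ∞ (fun q => u b q • D.W x b q) q := fun b q =>
    VSm.smul le_rfl (hu b q) (D.smW x b q)
  have h1 : D.cv u x = fun q => mgrad n (u x) q + ∑ b, u b q • D.W x b q := rfl
  rw [vg_eq h, h1, h.vg_add (Sg129.VSm_mgrad_top (hu x)) (fun q => VSm.sum Finset.univ fun b _ => hs b q),
    h.vg_mgrad (hu x), h.vg_sum Finset.univ hs]
  simp only [Frame.cov, h.vg_smul (hu _) (D.smW x _)]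
  congr 1
  exact Finset.sum_congr rfl fun b _ => mul_comm _ _

variable {ι : Type} [Fintype ι] [DecidableEq ι] {a : Fin n → Matrix ι ι (SG (chartCentre n M z))}
  {j : Matrix κ ι (SG (chartCentre n M z))}

lemma lf_skew (hL : LF D h a j) : Frame.Skew a := skew_lf (om_skew h) hL.jtj hL.dj

lemma sec_fg (hL : LF D h a j) {u : κ → M → ℝ} (hu : SmU (n := n) u) (hs : D.Sec u) :
    (fU z u : κ → SG (chartCentre n M z)) = j *ᵥ (jᵀ *ᵥ fU z u) := by
  rw [Matrix.mulVec_mulVec, hL.jjt]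
  funext y
  simp only [fU, Matrix.mulVec, dotProduct, Matrix.of_apply, fg_eq]
  have h1 : ∀ b, Sg129.fg z (D.p y b) * Sg129.fg z (u b)
      = (Sg129.fg z (fun q => D.p y b q * u b q) : SG (chartCentre n M z)) := fun b =>
    (Sg129.fg_mul h.mem (D.smp y b) (hu b)).symm
  simp only [h1]
  rw [← Sg129.fg_sum h.mem Finset.univ (F := fun b q => D.p y b q * u b q)
    (fun b => (D.smp y b).mul (hu b))]
  congr 1
  funext q
  exact (hs y q).symm

lemma vg_cv_sec (hL : LF D h a j) {u : κ → M → ℝ} (hu : SmU (n := n) u) (hs : D.Sec u) (x : κ)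
    (k : Fin n) : vg z e (D.cv u x) k = (j *ᵥ h.frameOf.cov a k (jᵀ *ᵥ fU z u)) x := by
  rw [vg_cv h hu, ← cov_j (om := om D z e) hL.dj, ← sec_fg h hL hu hs]

omit h in
/-- smoothness of the curvature -/
lemma smOm {X Y : (p : M) → TangentSpace 𝓘E p} (hX : ∀ q, VSm n ∞ X q) (hY : ∀ q, VSm n ∞ Y q)
    (x y : κ) : ContMDiff 𝓘E 𝓘(ℝ, ℝ) ∞ (D.Om X Y x y) := by
  have h1 := Sg129.contMDiff_inner (fun q => Sg129.VSm_mCov (D.smW x y q) (hX q)) hY
  have h2 := Sg129.contMDiff_inner (fun q => Sg129.VSm_mCov (D.smW x y q) (hY q)) hX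
  refine (h1.sub h2).add (ContMDiff.sum fun c _ => ?_)
  exact ((Sg129.contMDiff_inner (D.smW x c) hX).mul (Sg129.contMDiff_inner (D.smW c y) hY)).sub
    ((Sg129.contMDiff_inner (D.smW x c) hY).mul (Sg129.contMDiff_inner (D.smW c y) hX))

/-- the curvature of the trivial bundle, in the frame -/
lemma fg_Om {X Y : (p : M) → TangentSpace 𝓘E p} (hX : ∀ q, VSm n ∞ X q) (hY : ∀ q, VSm n ∞ Y q)
    (x y : κ) : (fg z (D.Om X Y x y) : SG (chartCentre n M z))
      = ∑ k, ∑ l, vg z e X k * vg z e Y l * h.frameOf.curv (om D z e) k l x y := by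
  have m1 := fun q => Sg129.VSm_mCov (D.smW x y q) (hX q)
  have m2 := fun q => Sg129.VSm_mCov (D.smW x y q) (hY q)
  have h1 := Sg129.contMDiff_inner m1 hY
  have h2 := Sg129.contMDiff_inner m2 hX
  have h3 := fun c => Sg129.contMDiff_inner (D.smW x c) hX
  have h4 := fun c => Sg129.contMDiff_inner (D.smW c y) hY
  have h5 := fun c => Sg129.contMDiff_inner (D.smW x c) hY
  have h6 := fun c => Sg129.contMDiff_inner (D.smW c y) hX
  have h7 := fun c => sm_sub (sm_mul (h3 c) (h4 c)) (sm_mul (h5 c) (h6 c))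
  have e1 : (fg z (D.Om X Y x y) : SG (chartCentre n M z))
      = (∑ l, (∑ k, h.vg X k * h.frameOf.cov h.frameOf.tan k (h.vg (D.W x y)) l) * h.vg Y l)
        - (∑ l, (∑ k, h.vg Y k * h.frameOf.cov h.frameOf.tan k (h.vg (D.W x y)) l) * h.vg X l)
        + ∑ c, ((∑ k, h.vg (D.W x c) k * h.vg X k) * (∑ l, h.vg (D.W c y) l * h.vg Y l)
          - (∑ k, h.vg (D.W x c) k * h.vg Y k) * (∑ l, h.vg (D.W c y) l * h.vg X l)) := by
    simp only [← h.vg_mCov (D.smW x y) hX, ← h.vg_mCov (D.smW x y) hY, ← h.fg_inner m1 hY,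
      ← h.fg_inner m2 hX, ← h.fg_inner (D.smW x _) hX, ← h.fg_inner (D.smW x _) hY,
      ← h.fg_inner (D.smW _ y) hX, ← h.fg_inner (D.smW _ y) hY]
    rw [← Sg129.fg_sub h.mem h1 h2]
    have e2 : ∀ c, (Sg129.fg z (fun q => (inner ℝ (D.W x c q) (X q) : ℝ)) : SG (chartCentre n M z))
        * Sg129.fg z (fun q => (inner ℝ (D.W c y q) (Y q) : ℝ))
        - Sg129.fg z (fun q => (inner ℝ (D.W x c q) (Y q) : ℝ))
        * Sg129.fg z (fun q => (inner ℝ (D.W c y q) (X q) : ℝ))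
        = Sg129.fg z (fun q => (inner ℝ (D.W x c q) (X q) : ℝ) * inner ℝ (D.W c y q) (Y q)
          - inner ℝ (D.W x c q) (Y q) * inner ℝ (D.W c y q) (X q)) := by
      intro c
      rw [← Sg129.fg_mul h.mem (h3 c) (h4 c), ← Sg129.fg_mul h.mem (h5 c) (h6 c),
        ← Sg129.fg_sub h.mem (sm_mul (h3 c) (h4 c)) (sm_mul (h5 c) (h6 c))]
    simp only [e2]
    rw [← Sg129.fg_sum h.mem Finset.univ
      (F := fun c q => (inner ℝ (D.W x c q) (X q) : ℝ) * inner ℝ (D.W c y q) (Y q)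
          - inner ℝ (D.W x c q) (Y q) * inner ℝ (D.W c y q) (X q)) h7,
      ← Sg129.fg_add h.mem (sm_sub h1 h2) (sm_sum Finset.univ h7)]
    rfl
  have key : ∀ k l, h.frameOf.curv (om D z e) k l x y
      = (h.frameOf.cov h.frameOf.tan k (h.vg (D.W x y)) l
        - h.frameOf.cov h.frameOf.tan l (h.vg (D.W x y)) k)
        + ∑ p, (h.vg (D.W x p) k * h.vg (D.W p y) l - h.vg (D.W x p) l * h.vg (D.W p y) k) := by
    intro k l
    simp only [Frame.curv, Frame.cov, Frame.tan, om, Matrix.of_apply, vg_eq h, Frame.T]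
    have e3 : ∑ m, (h.frameOf.w k l m - h.frameOf.w l k m) * h.vg (D.W x y) m
        = - (∑ m, h.frameOf.w k m l * h.vg (D.W x y) m
          - ∑ m, h.frameOf.w l m k * h.vg (D.W x y) m) := by
      rw [← Finset.sum_sub_distrib, ← Finset.sum_neg_distrib]
      refine Finset.sum_congr rfl fun m _ => ?_
      rw [h.frameOf.anti k l m, h.frameOf.anti l k m]
      ring
    rw [e3]
    ring
  rw [e1]
  simp only [key]
  exact om_alg (h.vg X) (h.vg Y) (fun k => h.frameOf.cov h.frameOf.tan k (h.vg (D.W x y)))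
    (fun c => h.vg (D.W x c)) (fun c => h.vg (D.W c y))

end bun

/-! ### the symbol -/

section symb

variable {κ κ0 κ1 : Type} [Fintype κ] [Fintype κ0] [Fintype κ1] {D0 : Bun n M κ0} {D1 : Bun n M κ1}
  {cc : κ1 → κ0 → (p : M) → TangentSpace 𝓘(ℝ, EuclideanSpace ℝ (Fin n)) p}
  {ι0 ι1 : Type} [Fintype ι0] [DecidableEq ι0] [Fintype ι1] [DecidableEq ι1]
  {a0 : Fin n → Matrix ι0 ι0 (SG (chartCentre n M z))}
  {a1 : Fin n → Matrix ι1 ι1 (SG (chartCentre n M z))}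
  {c : Fin n → Matrix ι1 ι0 (SG (chartCentre n M z))}
  {j0 : Matrix κ0 ι0 (SG (chartCentre n M z))} {j1 : Matrix κ1 ι1 (SG (chartCentre n M z))}

/-- the transposed pair -/
theorem _root_.Crest.Agent.R249.Tz805.CLoc.swap (hC : CLoc D0 D1 cc h a0 a1 c j0 j1) :
    CLoc D1 D0 (fun y x => cc x y) h a1 a0 (fun i => (c i)ᵀ) j1 j0 where
  l0 := hC.l1
  l1 := hC.l0
  par := hC.par.transpose (lf_skew h hC.l0) (lf_skew h hC.l1)
  cl0 := by simpa using hC.cl1
  cl1 := by simpa using hC.cl0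
  sym x y k := by
    rw [hC.sym y x k]
    have h1 : j0 * (c k)ᵀ * j1ᵀ = (j1 * c k * j0ᵀ)ᵀ := by
      simp only [Matrix.transpose_mul, Matrix.transpose_transpose, Matrix.mul_assoc]
    rw [h1, Matrix.transpose_apply]

omit h in
lemma sm_opA (hc : ∀ x y q, VSm n ∞ (cc x y) q) {u : κ0 → M → ℝ} (hu : SmU (n := n) u) :
    SmU (n := n) (opA D0 cc u) := fun x =>
  sm_sum Finset.univ fun y => Sg129.contMDiff_inner (VSm_cv hu y) (hc x y)


omit h in
lemma sm_opB (hc : ∀ x y q, VSm n ∞ (cc x y) q) {w : κ1 → M → ℝ} (hw : SmU (n := n) w) :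
    SmU (n := n) (opB D1 cc w) := fun y => (sm_opA (fun y x => hc x y) hw y).neg

/-- `A` in the frames -/
theorem fg_opA (hC : CLoc D0 D1 cc h a0 a1 c j0 j1) (hc : ∀ x y q, VSm n ∞ (cc x y) q)
    {u : κ0 → M → ℝ} (hu : SmU (n := n) u) (hs : D0.Sec u) :
    (fU z (opA D0 cc u) : κ1 → SG (chartCentre n M z))
      = j1 *ᵥ dir h.frameOf a0 c (j0ᵀ *ᵥ fU z u) := by
  have h1 : ∀ x, (fU z (opA D0 cc u) x : SG (chartCentre n M z))
      = ∑ y, ∑ k, h.vg (D0.cv u y) k * h.vg (cc x y) k := by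
    intro x
    simp only [← h.fg_inner (VSm_cv hu _) (hc x _)]
    rw [← Sg129.fg_sum h.mem Finset.univ (F := fun y q => (inner ℝ (D0.cv u y q) (cc x y q) : ℝ))
      (fun y => Sg129.contMDiff_inner (VSm_cv hu y) (hc x y))]
    rfl
  have h2 : ∀ k, j1 *ᵥ (c k *ᵥ h.frameOf.cov a0 k (j0ᵀ *ᵥ fU z u))
      = (j1 * c k * j0ᵀ) *ᵥ (j0 *ᵥ h.frameOf.cov a0 k (j0ᵀ *ᵥ fU z u)) := by
    intro k
    rw [← Matrix.mulVec_mulVec, jt_j hC.l0.jtj, Matrix.mulVec_mulVec]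
  funext x
  rw [h1 x, dir, Matrix.mulVec_sum, Finset.sum_apply, Finset.sum_comm]
  refine Finset.sum_congr rfl fun k _ => ?_
  rw [h2 k, Matrix.mulVec, dotProduct]
  refine Finset.sum_congr rfl fun y _ => ?_
  rw [← hC.sym x y k, ← vg_cv_sec h hC.l0 hu hs y k, mul_comm, vg_eq h, vg_eq h]

/-- `B` in the frames -/
theorem fg_opB (hC : CLoc D0 D1 cc h a0 a1 c j0 j1) (hc : ∀ x y q, VSm n ∞ (cc x y) q)
    {w : κ1 → M → ℝ} (hw : SmU (n := n) w) (hs : D1.Sec w) :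
    (fU z (opB D1 cc w) : κ0 → SG (chartCentre n M z))
      = j0 *ᵥ dirs h.frameOf a1 c (j1ᵀ *ᵥ fU z w) := by
  have h1 := fg_opA h (CLoc.swap h hC) (fun y x => hc x y) hw hs
  have h2 : (fU z (opB D1 cc w) : κ0 → SG (chartCentre n M z))
      = - fU z (opA D1 (fun y x => cc x y) w) := by
    funext y
    simp only [fU, Pi.neg_apply, fg_eq]
    rw [← Sg129.fg_neg h.mem (sm_opA (fun y x => hc x y) hw y)]
    rfl
  rw [h2, h1, dirs_eq, Matrix.mulVec_neg]

end symb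

end Crest.Agent.R249.Wk352
end
end

-- ▼ part R249/WkB_352
section

/-!
Row 249, part C, leaf WEAK (helper352), part 2: the potential `potQ` of Tz0_805.

* `Omv`, `Omv_pars`, `potQ_eq` : `potQ y y' = -(1/2) ∑ Om (cc x y) (cc x y'') y'' y'`;
* `sm_potQ`  : smoothness;
* `fg_potQ`  : `(Matrix.of fun y y' => fg z (potQ s D0 cc y y')) = j0 * Q h.frameOf a0 c * j0ᵀ`.
-/

set_option autoImplicit false
set_option maxSynthPendingDepth 3
set_option linter.unusedSectionVars false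

open Filter Topology Set Bundle Manifold Matrix
open scoped ContDiff
open Crest.GeometryTopology.CoordMetric Crest.GeometryTopology.ChartCurvature
  Crest.GeometryTopology.PointedLimit
open Crest.Agent.R202.Tens Crest.Agent.R249.Vf281
  Crest.Agent.R249.Tz1_805 Crest.Agent.R249.Tz2_805
open Crest.Agent.R247.Bo84 hiding dM
open Crest.Agent.R249.Fr129 Crest.Agent.R249.C2_198
open Crest.Agent.R249.Sg129 (SG germ ev ONF dM dM_mul dM_sub dM_add dM_one dM_transpose sf sv)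
open Crest.Agent.R249.Tz805

noncomputable section

namespace Crest.Agent.R249.Wk352

variable {n : ℕ} {M : Type*} [TopologicalSpace M] [ChartedSpace (EuclideanSpace ℝ (Fin n)) M]
  [IsManifold 𝓘(ℝ, EuclideanSpace ℝ (Fin n)) ∞ M]
  [RiemannianBundle (fun x : M => TangentSpace 𝓘(ℝ, EuclideanSpace ℝ (Fin n)) x)]
  [IsContMDiffRiemannianBundle 𝓘(ℝ, EuclideanSpace ℝ (Fin n)) ∞ (EuclideanSpace ℝ (Fin n))
      (fun x : M => TangentSpace 𝓘(ℝ, EuclideanSpace ℝ (Fin n)) x)]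

local notation "𝔼" => EuclideanSpace ℝ (Fin n)
local notation "𝓘E" => 𝓘(ℝ, EuclideanSpace ℝ (Fin n))

/-- the covariant derivative as a linear map -/
def mCovL (X : (p : M) → TangentSpace 𝓘(ℝ, EuclideanSpace ℝ (Fin n)) p) (p : M) :
    TangentSpace 𝓘(ℝ, EuclideanSpace ℝ (Fin n)) p →ₗ[ℝ]
      TangentSpace 𝓘(ℝ, EuclideanSpace ℝ (Fin n)) p :=
  ((dSy p (chartCentre n M p)).comp
    ((cov (chartMetric n M p) (vCh n p X) (chartCentre n M p)).comp (dCh p p))).toLinearMap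

lemma mCovL_apply (X : (p : M) → TangentSpace 𝓘E p) (p : M) (v : TangentSpace 𝓘E p) :
    mCovL X p v = mCov n X p v := rfl

variable {κ κ0 κ1 : Type} [Fintype κ] [Fintype κ0] [Fintype κ1]

/-- the curvature at a point as a bilinear form -/
def Omv (D : Bun n M κ0) (x y : κ0) (z : M) :
    TangentSpace 𝓘(ℝ, EuclideanSpace ℝ (Fin n)) z →ₗ[ℝ]
      TangentSpace 𝓘(ℝ, EuclideanSpace ℝ (Fin n)) z →ₗ[ℝ] ℝ :=
  LinearMap.mk₂ ℝ (fun v w => inner ℝ (mCovL (D.W x y) z v) w - inner ℝ (mCovL (D.W x y) z w) v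
    + ∑ c, (inner ℝ (D.W x c z) v * inner ℝ (D.W c y z) w
      - inner ℝ (D.W x c z) w * inner ℝ (D.W c y z) v))
    (fun v v' w => by
      simp only [map_add, inner_add_left, inner_add_right]
      rw [show ∑ c, ((inner ℝ (D.W x c z) v + inner ℝ (D.W x c z) v') * inner ℝ (D.W c y z) w
          - inner ℝ (D.W x c z) w * (inner ℝ (D.W c y z) v + inner ℝ (D.W c y z) v'))
        = ∑ c, (inner ℝ (D.W x c z) v * inner ℝ (D.W c y z) w
            - inner ℝ (D.W x c z) w * inner ℝ (D.W c y z) v)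
          + ∑ c, (inner ℝ (D.W x c z) v' * inner ℝ (D.W c y z) w
            - inner ℝ (D.W x c z) w * inner ℝ (D.W c y z) v') from by
          rw [← Finset.sum_add_distrib]; exact Finset.sum_congr rfl fun c _ => by ring]
      ring)
    (fun r v w => by
      simp only [map_smul, inner_smul_left, inner_smul_right, RCLike.conj_to_real, smul_eq_mul,
        mul_add, mul_sub, Finset.mul_sum]
      congr 1
      exact Finset.sum_congr rfl fun c _ => by ring)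
    (fun v w w' => by
      simp only [map_add, inner_add_left, inner_add_right]
      rw [show ∑ c, (inner ℝ (D.W x c z) v * (inner ℝ (D.W c y z) w + inner ℝ (D.W c y z) w')
          - (inner ℝ (D.W x c z) w + inner ℝ (D.W x c z) w') * inner ℝ (D.W c y z) v)
        = ∑ c, (inner ℝ (D.W x c z) v * inner ℝ (D.W c y z) w
            - inner ℝ (D.W x c z) w * inner ℝ (D.W c y z) v)
          + ∑ c, (inner ℝ (D.W x c z) v * inner ℝ (D.W c y z) w'
            - inner ℝ (D.W x c z) w' * inner ℝ (D.W c y z) v) from by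
          rw [← Finset.sum_add_distrib]; exact Finset.sum_congr rfl fun c _ => by ring]
      ring)
    (fun r v w => by
      simp only [map_smul, inner_smul_left, inner_smul_right, RCLike.conj_to_real, smul_eq_mul,
        mul_add, mul_sub, Finset.mul_sum]
      congr 1
      exact Finset.sum_congr rfl fun c _ => by ring)

lemma Om_eq (D : Bun n M κ0) (X Y : (p : M) → TangentSpace 𝓘E p) (x y : κ0) (z : M) :
    D.Om X Y x y z = Omv D x y z (X z) (Y z) := rfl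

/-- summation over a Parseval frame -/
lemma Omv_pars (s : PF n M κ) (D : Bun n M κ0) (x y : κ0) (z : M) (v w : TangentSpace 𝓘E z) :
    ∑ C, ∑ C', (inner ℝ v (s.s C z) : ℝ) * inner ℝ w (s.s C' z) * Omv D x y z (s.s C z) (s.s C' z)
      = Omv D x y z v w := by
  have hv := s.pars z v
  have hw := s.pars z w
  have h1 : Omv D x y z v w = Omv D x y z (∑ A, (inner ℝ (s.s A z) v : ℝ) • s.s A z)
      (∑ A, (inner ℝ (s.s A z) w : ℝ) • s.s A z) := by rw [hv, hw]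
  rw [h1, map_sum (Omv D x y z), LinearMap.sum_apply]
  refine Finset.sum_congr rfl fun C _ => ?_
  rw [map_sum]
  refine Finset.sum_congr rfl fun C' _ => ?_
  rw [map_smul, map_smul, LinearMap.smul_apply, smul_eq_mul, smul_eq_mul,
    real_inner_comm v (s.s C z), real_inner_comm w (s.s C' z)]
  ring

/-- the potential without the Parseval frame -/
theorem potQ_eq (s : PF n M κ) (D0 : Bun n M κ0)
    (cc : κ1 → κ0 → (p : M) → TangentSpace 𝓘(ℝ, EuclideanSpace ℝ (Fin n)) p) (y y' : κ0) (z : M) :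
    potQ s D0 cc y y' z = - (1 / 2) * ∑ y'', ∑ x, D0.Om (cc x y) (cc x y'') y'' y' z := by
  unfold potQ
  congr 1
  refine Finset.sum_congr rfl fun y'' _ => Finset.sum_congr rfl fun x _ => ?_
  simp only [Om_eq]
  exact Omv_pars s D0 y'' y' z (cc x y z) (cc x y'' z)

variable {D0 : Bun n M κ0} {D1 : Bun n M κ1}
  {cc : κ1 → κ0 → (p : M) → TangentSpace 𝓘(ℝ, EuclideanSpace ℝ (Fin n)) p}

theorem sm_potQ (s : PF n M κ) (hc : ∀ x y q, VSm n ∞ (cc x y) q) (y y' : κ0) :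
    ContMDiff 𝓘E 𝓘(ℝ, ℝ) ∞ (potQ s D0 cc y y') := by
  have h1 : potQ s D0 cc y y'
      = fun z => - (1 / 2) * ∑ y'', ∑ x, D0.Om (cc x y) (cc x y'') y'' y' z :=
    funext fun z => potQ_eq s D0 cc y y' z
  rw [h1]
  exact sm_mul contMDiff_const (sm_sum Finset.univ fun y'' => sm_sum Finset.univ fun x =>
    smOm (hc x y) (hc x y'') y'' y')

section germs

variable {z : M} {e : Fin n → EuclideanSpace ℝ (Fin n) → EuclideanSpace ℝ (Fin n)}
  (h : ONF (chartMetric n M z) (chartAt (EuclideanSpace ℝ (Fin n)) z).target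
      (chartCentre n M z) e)
  {ι0 ι1 : Type} [Fintype ι0] [DecidableEq ι0] [Fintype ι1] [DecidableEq ι1]
  {a0 : Fin n → Matrix ι0 ι0 (SG (chartCentre n M z))}
  {a1 : Fin n → Matrix ι1 ι1 (SG (chartCentre n M z))}
  {c : Fin n → Matrix ι1 ι0 (SG (chartCentre n M z))}
  {j0 : Matrix κ0 ι0 (SG (chartCentre n M z))} {j1 : Matrix κ1 ι1 (SG (chartCentre n M z))}
include h

/-- the curvature of the trivial bundle and of the frame -/
theorem curv_lf (hL : LF D0 h a0 j0) (k l : Fin n) :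
    j0ᵀ * h.frameOf.curv (om D0 z e) k l = h.frameOf.curv a0 k l * j0ᵀ := by
  have h1 := HK9_714.curv_embed h.frameOf (om := om D0 z e) hL.dj k l
  have h2 := congrArg Matrix.transpose h1
  rw [Matrix.transpose_mul, Matrix.transpose_mul] at h2
  have h3 : (h.frameOf.curv a0 k l)ᵀ = - h.frameOf.curv a0 k l := by
    ext x y
    exact h.frameOf.curv_skew (lf_skew h hL) k l y x
  have h4 : (h.frameOf.curv (om D0 z e) k l)ᵀ = - h.frameOf.curv (om D0 z e) k l := by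
    classical
    ext x y
    refine h.frameOf.curv_skew (fun k x y => ?_) k l y x
    have := congrFun (congrFun (om_skew h (D := D0) k) y) x
    exact this
  rw [h3, h4, Matrix.neg_mul, Matrix.mul_neg] at h2
  exact (neg_injective h2).symm

/-- **the potential in the frames** -/
theorem fg_potQ (s : PF n M κ) (hC : CLoc D0 D1 cc h a0 a1 c j0 j1)
    (hc : ∀ x y q, VSm n ∞ (cc x y) q) :
    (Matrix.of fun y y' => fg z (potQ s D0 cc y y')) = j0 * Q h.frameOf a0 c * j0ᵀ := by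
  have e1 : ∀ y y', (fg z (potQ s D0 cc y y') : SG (chartCentre n M z))
      = - Frame.half * ∑ y'', ∑ x, ∑ k, ∑ l, (j1 * c k * j0ᵀ) x y * (j1 * c l * j0ᵀ) x y''
        * h.frameOf.curv (om D0 z e) k l y'' y' := by
    intro y y'
    have h1 : potQ s D0 cc y y'
        = fun z => - (1 / 2) * ∑ y'', ∑ x, D0.Om (cc x y) (cc x y'') y'' y' z :=
      funext fun z => potQ_eq s D0 cc y y' z
    rw [h1, fg_eq, Sg129.fg_mul h.mem contMDiff_const (sm_sum Finset.univ fun y'' =>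
      sm_sum Finset.univ fun x => smOm (hc x y) (hc x y'') y'' y'),
      Sg129.fg_const, Sg129.fg_sum h.mem Finset.univ
        (F := fun y'' q => ∑ x, D0.Om (cc x y) (cc x y'') y'' y' q)
        (fun y'' => sm_sum Finset.univ fun x => smOm (hc x y) (hc x y'') y'' y')]
    have e0 : algebraMap ℝ (SG (chartCentre n M z)) (- (1 / 2)) = - Frame.half := by
      rw [map_neg]; rfl
    rw [e0]
    congr 1
    refine Finset.sum_congr rfl fun y'' _ => ?_
    rw [Sg129.fg_sum h.mem Finset.univ (F := fun x => D0.Om (cc x y) (cc x y'') y'' y')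
        (fun x => smOm (hc x y) (hc x y'') y'' y')]
    refine Finset.sum_congr rfl fun x _ => ?_
    rw [← fg_eq, fg_Om h (hc x y) (hc x y'')]
    simp only [hC.sym]
  have e2 : ∀ k l, j0 * (((c k)ᵀ * c l) * h.frameOf.curv a0 k l) * j0ᵀ
      = (j1 * c k * j0ᵀ)ᵀ * (j1 * c l * j0ᵀ) * h.frameOf.curv (om D0 z e) k l := by
    intro k l
    have h2 : (j1 * c k * j0ᵀ)ᵀ * (j1 * c l * j0ᵀ) * h.frameOf.curv (om D0 z e) k l
        = j0 * ((c k)ᵀ * ((j1ᵀ * j1) * (c l * (j0ᵀ * h.frameOf.curv (om D0 z e) k l)))) := by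
      simp only [Matrix.transpose_mul, Matrix.transpose_transpose, Matrix.mul_assoc]
    rw [h2, hC.l1.jtj, curv_lf h hC.l0, Matrix.one_mul]
    simp only [Matrix.mul_assoc]
  ext y y'
  rw [Matrix.of_apply, e1 y y', Q]
  have e3 : j0 * (-Frame.half (S := SG (chartCentre n M z)) • ∑ i, ∑ j, ((c i)ᵀ * c j)
        * h.frameOf.curv a0 i j) * j0ᵀ
      = - Frame.half (S := SG (chartCentre n M z)) • ∑ i, ∑ j,
        ((j1 * c i * j0ᵀ)ᵀ * (j1 * c j * j0ᵀ) * h.frameOf.curv (om D0 z e) i j) := by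
    simp only [← e2, Matrix.mul_smul, Matrix.smul_mul, Matrix.mul_sum, Matrix.sum_mul]
  have e4 : ∀ i j, ((j1 * c i * j0ᵀ)ᵀ * (j1 * c j * j0ᵀ) * h.frameOf.curv (om D0 z e) i j) y y'
      = ∑ y'', ∑ x, (j1 * c i * j0ᵀ) x y * (j1 * c j * j0ᵀ) x y''
        * h.frameOf.curv (om D0 z e) i j y'' y' := by
    intro i j
    rw [Matrix.mul_apply]
    refine Finset.sum_congr rfl fun y'' _ => ?_
    rw [Matrix.mul_apply, Finset.sum_mul]
    rfl
  rw [e3, Matrix.smul_apply, smul_eq_mul, Matrix.sum_apply]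
  simp only [Matrix.sum_apply, e4]
  congr 1
  calc _ = ∑ y'', ∑ k, ∑ x, ∑ l, (j1 * c k * j0ᵀ) x y * (j1 * c l * j0ᵀ) x y''
        * h.frameOf.curv (om D0 z e) k l y'' y' := Finset.sum_congr rfl fun y'' _ => Finset.sum_comm
    _ = ∑ k, ∑ y'', ∑ x, ∑ l, (j1 * c k * j0ᵀ) x y * (j1 * c l * j0ᵀ) x y''
        * h.frameOf.curv (om D0 z e) k l y'' y' := Finset.sum_comm
    _ = ∑ k, ∑ y'', ∑ l, ∑ x, (j1 * c k * j0ᵀ) x y * (j1 * c l * j0ᵀ) x y''
        * h.frameOf.curv (om D0 z e) k l y'' y' := Finset.sum_congr rfl fun k _ =>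
          Finset.sum_congr rfl fun y'' _ => Finset.sum_comm
    _ = _ := Finset.sum_congr rfl fun k _ => Finset.sum_comm

end germs

end Crest.Agent.R249.Wk352
end
end

-- ▼ part R249/WkC_352
section

/-!
Row 249, part C, leaf WEAK (helper352), part 3: the pointwise identities.

* `fg_dot`   : `fg z (∑ u_a v_a) = ⟨fU u, fU v⟩`;
* `sec_opA`, `sec_opB` : `A`, `B` map to sections;
* `comm_potQ` : `[Q, p] = 0`;
* `adj_pt`   : `⟨A u, w⟩ - ⟨u, B w⟩ = div (∑ u_y w_x cc_xy)`;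
* `weak_pt`  : `⟨u, B A v⟩ = ⟨∇u, ∇v⟩ + ⟨u, Q v⟩ - div (∑ u_a ∇v_a)`.
-/

set_option autoImplicit false
set_option maxSynthPendingDepth 3
set_option linter.unusedSectionVars false

open Filter Topology Set Bundle Manifold Matrix
open scoped ContDiff
open Crest.GeometryTopology.CoordMetric Crest.GeometryTopology.ChartCurvature
  Crest.GeometryTopology.PointedLimit
open Crest.Agent.R202.Tens Crest.Agent.R249.Vf281
  Crest.Agent.R249.Tz1_805 Crest.Agent.R249.Tz2_805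
open Crest.Agent.R247.Bo84 hiding dM
open Crest.Agent.R249.Fr129 Crest.Agent.R249.C2_198
open Crest.Agent.R249.Sg129 (SG germ ev ONF dM dM_mul dM_sub dM_add dM_one dM_transpose sf sv)
open Crest.Agent.R249.Tz805

noncomputable section

namespace Crest.Agent.R249.Wk352

variable {n : ℕ} {M : Type*} [TopologicalSpace M] [ChartedSpace (EuclideanSpace ℝ (Fin n)) M]
  [IsManifold 𝓘(ℝ, EuclideanSpace ℝ (Fin n)) ∞ M]
  [RiemannianBundle (fun x : M => TangentSpace 𝓘(ℝ, EuclideanSpace ℝ (Fin n)) x)]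
  [IsContMDiffRiemannianBundle 𝓘(ℝ, EuclideanSpace ℝ (Fin n)) ∞ (EuclideanSpace ℝ (Fin n))
      (fun x : M => TangentSpace 𝓘(ℝ, EuclideanSpace ℝ (Fin n)) x)]

local notation "𝔼" => EuclideanSpace ℝ (Fin n)
local notation "𝓘E" => 𝓘(ℝ, EuclideanSpace ℝ (Fin n))

variable {κ κ0 κ1 : Type} [Fintype κ] [Fintype κ0] [Fintype κ1]

/-- the value at the centre of the germ of a smooth function -/
lemma ev_fg' {f : M → ℝ} (hf : ContMDiff 𝓘E 𝓘(ℝ, ℝ) ∞ f) (z : M) :
    ev (fg z f : SG (chartCentre n M z)) = f z := Sg129.ev_fg hf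

/-- equality of values from equality of germs -/
lemma eq_of_fg {f g : M → ℝ} {z : M} (hf : ContMDiff 𝓘E 𝓘(ℝ, ℝ) ∞ f)
    (hg : ContMDiff 𝓘E 𝓘(ℝ, ℝ) ∞ g) (hfg : (fg z f : SG (chartCentre n M z)) = fg z g) :
    f z = g z := by
  rw [← ev_fg' hf z, ← ev_fg' hg z, hfg]

lemma sm_dot {u v : κ → M → ℝ} (hu : SmU (n := n) u) (hv : SmU (n := n) v) :
    ContMDiff 𝓘E 𝓘(ℝ, ℝ) ∞ (fun q => ∑ a, u a q * v a q) :=
  sm_sum Finset.univ fun a => sm_mul (hu a) (hv a)

lemma fg_dot (z : M) {u v : κ → M → ℝ} (hu : SmU (n := n) u) (hv : SmU (n := n) v) :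
    (fg z (fun q => ∑ a, u a q * v a q) : SG (chartCentre n M z)) = fU z u ⬝ᵥ fU z v := by
  rw [fg_eq, Sg129.fg_sum (centre_mem z) Finset.univ (F := fun a q => u a q * v a q)
    (fun a => sm_mul (hu a) (hv a)), dotProduct]
  exact Finset.sum_congr rfl fun a _ => Sg129.fg_mul (centre_mem z) (hu a) (hv a)

lemma fg_mat (z : M) {Q : κ0 → κ1 → M → ℝ} (hQ : ∀ a b, ContMDiff 𝓘E 𝓘(ℝ, ℝ) ∞ (Q a b))
    {u : κ1 → M → ℝ} (hu : SmU (n := n) u) (a : κ0) :
    (fg z (fun q => ∑ b, Q a b q * u b q) : SG (chartCentre n M z))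
      = ((Matrix.of fun a b => fg z (Q a b)) *ᵥ fU z u) a := by
  rw [fg_dot z (hQ a) hu]
  rfl

variable {D0 : Bun n M κ0} {D1 : Bun n M κ1}
  {cc : κ1 → κ0 → (p : M) → TangentSpace 𝓘(ℝ, EuclideanSpace ℝ (Fin n)) p}

section germs

variable {z : M} {e : Fin n → EuclideanSpace ℝ (Fin n) → EuclideanSpace ℝ (Fin n)}
  (h : ONF (chartMetric n M z) (chartAt (EuclideanSpace ℝ (Fin n)) z).target
      (chartCentre n M z) e)
  {ι0 ι1 : Type} [Fintype ι0] [DecidableEq ι0] [Fintype ι1] [DecidableEq ι1]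
  {a0 : Fin n → Matrix ι0 ι0 (SG (chartCentre n M z))}
  {a1 : Fin n → Matrix ι1 ι1 (SG (chartCentre n M z))}
  {c : Fin n → Matrix ι1 ι0 (SG (chartCentre n M z))}
  {j0 : Matrix κ0 ι0 (SG (chartCentre n M z))} {j1 : Matrix κ1 ι1 (SG (chartCentre n M z))}
include h

theorem sec_opA_pt (hC : CLoc D0 D1 cc h a0 a1 c j0 j1) (hc : ∀ x y q, VSm n ∞ (cc x y) q)
    {u : κ0 → M → ℝ} (hu : SmU (n := n) u) (hs : D0.Sec u) (x : κ1) :
    ∑ b, D1.p x b z * opA D0 cc u b z = opA D0 cc u x z := by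
  refine eq_of_fg (sm_dot (D1.smp x) (sm_opA hc hu)) (sm_opA hc hu x) ?_
  rw [fg_mat z D1.smp (sm_opA hc hu), ← hC.l1.jjt, fg_opA h hC hc hu hs, Matrix.mulVec_mulVec,
    Matrix.mul_assoc, hC.l1.jtj, Matrix.mul_one, ← fg_opA h hC hc hu hs]
  rfl

theorem comm_potQ_pt (s : PF n M κ) (hC : CLoc D0 D1 cc h a0 a1 c j0 j1)
    (hc : ∀ x y q, VSm n ∞ (cc x y) q) (a b : κ0) :
    ∑ r, potQ s D0 cc a r z * D0.p r b z = ∑ r, D0.p a r z * potQ s D0 cc r b z := by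
  refine eq_of_fg (sm_dot (sm_potQ s hc a) (fun r => D0.smp r b))
    (sm_dot (D0.smp a) (fun r => sm_potQ s hc r b)) ?_
  have h1 := fg_potQ h s hC hc
  have h2 := hC.l0.jjt
  have h3 : j0 * Q h.frameOf a0 c * j0ᵀ * (j0 * j0ᵀ) = j0 * j0ᵀ * (j0 * Q h.frameOf a0 c * j0ᵀ) := by
    have h4 : j0 * Q h.frameOf a0 c * j0ᵀ * (j0 * j0ᵀ)
        = j0 * (Q h.frameOf a0 c * ((j0ᵀ * j0) * j0ᵀ)) := by simp only [Matrix.mul_assoc]
    have h5 : j0 * j0ᵀ * (j0 * Q h.frameOf a0 c * j0ᵀ)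
        = j0 * ((j0ᵀ * j0) * (Q h.frameOf a0 c * j0ᵀ)) := by simp only [Matrix.mul_assoc]
    rw [h4, h5, hC.l0.jtj, Matrix.one_mul, Matrix.one_mul]
  rw [← h1, h2] at h3
  have h6 := congrFun (congrFun h3 a) b
  rw [Matrix.mul_apply, Matrix.mul_apply] at h6
  rw [fg_dot z (sm_potQ s hc a) (fun r => D0.smp r b),
    fg_dot z (D0.smp a) (fun r => sm_potQ s hc r b)]
  exact h6

/-- `⟨A u, w⟩ - ⟨u, B w⟩ = div X`, `X = ∑ u_y w_x cc_xy` -/
theorem adj_pt (hC : CLoc D0 D1 cc h a0 a1 c j0 j1) (hc : ∀ x y q, VSm n ∞ (cc x y) q)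
    {u : κ0 → M → ℝ} (hu : SmU (n := n) u) (hsu : D0.Sec u)
    {w : κ1 → M → ℝ} (hw : SmU (n := n) w) (hsw : D1.Sec w) :
    ∑ x, opA D0 cc u x z * w x z - ∑ y, u y z * opB D1 cc w y z
      = mDiv n (fun q => ∑ x, ∑ y, (w x q * u y q) • cc x y q) z := by
  have sX1 : ∀ x y q, VSm n ∞ (fun q => (w x q * u y q) • cc x y q) q := fun x y q =>
    VSm.smul le_rfl ((sm_mul (hw x) (hu y)) q) (hc x y q)
  have sX2 : ∀ x q, VSm n ∞ (fun q => ∑ y, (w x q * u y q) • cc x y q) q := fun x q =>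
    VSm.sum Finset.univ fun y _ => sX1 x y q
  have sX : ∀ q, VSm n ∞ (fun q => ∑ x, ∑ y, (w x q * u y q) • cc x y q) q := fun q =>
    VSm.sum Finset.univ fun x _ => sX2 x q
  have sA := sm_opA (D0 := D0) hc hu
  have sB := sm_opB (D1 := D1) hc hw
  refine eq_of_fg (sm_sub (sm_dot sA hw) (sm_dot hu sB)) (Sg129.contMDiff_mDiv sX) ?_
  have hvX : ∀ k, h.vg (fun q => ∑ x, ∑ y, (w x q * u y q) • cc x y q) k
      = (c k *ᵥ (j0ᵀ *ᵥ fU z u)) ⬝ᵥ (j1ᵀ *ᵥ fU z w) := by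
    intro k
    rw [h.vg_sum Finset.univ sX2]
    have e1 : ∀ x, h.vg (fun q => ∑ y, (w x q * u y q) • cc x y q) k
        = fU z w x * ((j1 * c k * j0ᵀ) *ᵥ fU z u) x := by
      intro x
      rw [h.vg_sum Finset.univ (sX1 x), Matrix.mulVec, dotProduct, Finset.mul_sum]
      refine Finset.sum_congr rfl fun y _ => ?_
      rw [h.vg_smul (sm_mul (hw x) (hu y)) (hc x y), Sg129.fg_mul h.mem (hw x) (hu y),
        ← hC.sym x y k]
      change fg z (w x) * fg z (u y) * vg z e (cc x y) k = fg z (w x) * (vg z e (cc x y) k * fg z (u y))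
      ring
    simp only [e1]
    have e2 : ∑ x, fU z w x * ((j1 * c k * j0ᵀ) *ᵥ fU z u) x
        = fU z w ⬝ᵥ ((j1 * c k * j0ᵀ) *ᵥ fU z u) := rfl
    rw [e2, dotProduct_comm, ← Matrix.mulVec_mulVec, ← Matrix.mulVec_mulVec,
      ← Matrix.vecMul_transpose, ← Matrix.dotProduct_mulVec]
  rw [fg_eq, fg_eq, h.fg_mDiv sX, Sg129.fg_sub h.mem (sm_dot sA hw) (sm_dot hu sB), ← fg_eq, ← fg_eq,
    fg_dot z sA hw, fg_dot z hu sB, fg_opA h hC hc hu hsu, fg_opB h hC hc hw hsw]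
  have e3 : (j1 *ᵥ dir h.frameOf a0 c (j0ᵀ *ᵥ fU z u)) ⬝ᵥ fU z w
      = dir h.frameOf a0 c (j0ᵀ *ᵥ fU z u) ⬝ᵥ (j1ᵀ *ᵥ fU z w) := by
    rw [← Matrix.vecMul_transpose, ← Matrix.dotProduct_mulVec]
  have e4 : fU z u ⬝ᵥ (j0 *ᵥ dirs h.frameOf a1 c (j1ᵀ *ᵥ fU z w))
      = (j0ᵀ *ᵥ fU z u) ⬝ᵥ dirs h.frameOf a1 c (j1ᵀ *ᵥ fU z w) := by
    rw [Matrix.dotProduct_mulVec, ← Matrix.mulVec_transpose]
  rw [e3, e4, dir_adj (lf_skew h hC.l1) hC.par]
  have e5 : (h.vg fun q => ∑ x, ∑ y, (w x q * u y q) • cc x y q)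
      = fun k => (c k *ᵥ (j0ᵀ *ᵥ fU z u)) ⬝ᵥ (j1ᵀ *ᵥ fU z w) := funext hvX
  rw [e5]
  rfl

/-- `⟨u, B A v⟩ = ⟨∇u, ∇v⟩ + ⟨u, Q v⟩ - div X`, `X = ∑ u_a ∇v_a` -/
theorem weak_pt (s : PF n M κ) (hC : CLoc D0 D1 cc h a0 a1 c j0 j1)
    (hA : ∀ v : κ0 → M → ℝ, SmU (n := n) v → D0.Sec v → D1.Sec (opA D0 cc v))
    (hc : ∀ x y q, VSm n ∞ (cc x y) q)
    {u v : κ0 → M → ℝ} (hu : SmU (n := n) u) (hsu : D0.Sec u) (hv : SmU (n := n) v)
    (hsv : D0.Sec v) :
    ((∑ a, (inner ℝ (D0.cv u a z) (D0.cv v a z) : ℝ))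
        + ∑ a, u a z * ∑ b, potQ s D0 cc a b z * v b z)
      - ∑ y, u y z * opB D1 cc (opA D0 cc v) y z
      = mDiv n (fun q => ∑ a, u a q • D0.cv v a q) z := by
  have sX1 : ∀ a q, VSm n ∞ (fun q => u a q • D0.cv v a q) q := fun a q =>
    VSm.smul le_rfl (hu a q) (VSm_cv hv a q)
  have sX : ∀ q, VSm n ∞ (fun q => ∑ a, u a q • D0.cv v a q) q := fun q =>
    VSm.sum Finset.univ fun a _ => sX1 a q
  have sA := sm_opA (D0 := D0) hc hv
  have sB := sm_opB (D1 := D1) hc sA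
  have sI : ∀ a, ContMDiff 𝓘E 𝓘(ℝ, ℝ) ∞ (fun q => (inner ℝ (D0.cv u a q) (D0.cv v a q) : ℝ)) :=
    fun a => Sg129.contMDiff_inner (VSm_cv hu a) (VSm_cv hv a)
  have sQ : SmU (n := n) (fun a q => ∑ b, potQ s D0 cc a b q * v b q) := fun a =>
    sm_dot (sm_potQ s hc a) hv
  refine eq_of_fg (sm_sub (sm_add (sm_sum Finset.univ sI) (sm_dot hu sQ)) (sm_dot hu sB))
    (Sg129.contMDiff_mDiv sX) ?_
  have hvX : ∀ k, h.vg (fun q => ∑ a, u a q • D0.cv v a q) k
      = (j0ᵀ *ᵥ fU z u) ⬝ᵥ h.frameOf.cov a0 k (j0ᵀ *ᵥ fU z v) := by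
    intro k
    rw [h.vg_sum Finset.univ sX1]
    have e1 : ∀ a, h.vg (fun q => u a q • D0.cv v a q) k
        = fU z u a * (j0 *ᵥ h.frameOf.cov a0 k (j0ᵀ *ᵥ fU z v)) a := by
      intro a
      rw [h.vg_smul (hu a) (VSm_cv hv a), ← vg_eq h, vg_cv_sec h hC.l0 hv hsv]
      rfl
    simp only [e1]
    have e2 : ∑ a, fU z u a * (j0 *ᵥ h.frameOf.cov a0 k (j0ᵀ *ᵥ fU z v)) a
        = fU z u ⬝ᵥ (j0 *ᵥ h.frameOf.cov a0 k (j0ᵀ *ᵥ fU z v)) := rfl
    rw [e2, Matrix.dotProduct_mulVec, ← Matrix.mulVec_transpose]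
  have hI : (fg z (fun q => ∑ a, (inner ℝ (D0.cv u a q) (D0.cv v a q) : ℝ)) : SG (chartCentre n M z))
      = ∑ k, h.frameOf.cov a0 k (j0ᵀ *ᵥ fU z u) ⬝ᵥ h.frameOf.cov a0 k (j0ᵀ *ᵥ fU z v) := by
    rw [fg_eq, Sg129.fg_sum h.mem Finset.univ
      (F := fun a q => (inner ℝ (D0.cv u a q) (D0.cv v a q) : ℝ)) sI]
    have e1 : ∀ a, (Sg129.fg z (fun q => (inner ℝ (D0.cv u a q) (D0.cv v a q) : ℝ)) :
        SG (chartCentre n M z)) = ∑ k, (j0 *ᵥ h.frameOf.cov a0 k (j0ᵀ *ᵥ fU z u)) a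
          * (j0 *ᵥ h.frameOf.cov a0 k (j0ᵀ *ᵥ fU z v)) a := by
      intro a
      rw [h.fg_inner (VSm_cv hu a) (VSm_cv hv a)]
      refine Finset.sum_congr rfl fun k _ => ?_
      rw [← vg_eq h, ← vg_eq h, vg_cv_sec h hC.l0 hv hsv, vg_cv_sec h hC.l0 hu hsu]
    simp only [e1]
    rw [Finset.sum_comm]
    exact Finset.sum_congr rfl fun k _ => dot_j hC.l0.jtj _ _
  have hQ : fU z (fun a q => ∑ b, potQ s D0 cc a b q * v b q)
      = (j0 * Q h.frameOf a0 c * j0ᵀ) *ᵥ fU z v := by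
    funext a
    rw [← fg_potQ h s hC hc]
    exact fg_mat z (sm_potQ s hc) hv a
  rw [fg_eq, fg_eq, h.fg_mDiv sX, Sg129.fg_sub h.mem (sm_add (sm_sum Finset.univ sI) (sm_dot hu sQ))
    (sm_dot hu sB), Sg129.fg_add h.mem (sm_sum Finset.univ sI) (sm_dot hu sQ), ← fg_eq, ← fg_eq,
    ← fg_eq, fg_dot z hu sB, fg_dot z hu sQ, hI, hQ, fg_opB h hC hc sA (hA v hv hsv),
    fg_opA h hC hc hv hsv, jt_j hC.l1.jtj, weitz hC.par hC.cl0]
  have e4 : ∀ x : ι0 → SG (chartCentre n M z), fU z u ⬝ᵥ (j0 *ᵥ x) = (j0ᵀ *ᵥ fU z u) ⬝ᵥ x := by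
    intro x
    rw [Matrix.dotProduct_mulVec, ← Matrix.mulVec_transpose]
  have e5 : (h.vg fun q => ∑ a, u a q • D0.cv v a q)
      = fun k => (j0ᵀ *ᵥ fU z u) ⬝ᵥ h.frameOf.cov a0 k (j0ᵀ *ᵥ fU z v) := funext hvX
  have e6 : ∑ k, h.frameOf.cov h.frameOf.tan k (h.vg fun q => ∑ a, u a q • D0.cv v a q) k
      = dvg h.frameOf (fun k => (j0ᵀ *ᵥ fU z u) ⬝ᵥ h.frameOf.cov a0 k (j0ᵀ *ᵥ fU z v)) := by
    rw [e5]; rfl
  rw [e6, dvg_dot (lf_skew h hC.l0), ← Matrix.mulVec_mulVec, ← Matrix.mulVec_mulVec, e4, e4,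
    dotProduct_add, dotProduct_neg]
  ring

end germs

end Crest.Agent.R249.Wk352
end
end

-- ▼ part R249/WkD_352

/-!
Row 249, part C, leaf WEAK (helper352), part 4: `weakStmt : WeakStmt n M` for closed `M`
(interface of TzM_805).
-/

set_option autoImplicit false
set_option maxSynthPendingDepth 3
set_option linter.unusedSectionVars false

open Filter Topology Set Bundle Manifold Matrix MeasureTheory
open scoped ContDiff ENNReal NNReal
open Crest.GeometryTopology.CoordMetric Crest.GeometryTopology.ChartCurvature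
  Crest.GeometryTopology.PointedLimit
open Crest.Agent.R202.Tens Crest.Agent.R249.Vf281
  Crest.Agent.R249.Tz1_805 Crest.Agent.R249.Tz2_805
open Crest.Agent.R247.Bo84 hiding dM
open Crest.Agent.R249.Fr129 Crest.Agent.R249.C2_198
open Crest.Agent.R249.Sg129 (SG germ ev ONF)
open Crest.Agent.R249.Tv57
open Crest.Agent.R249.Tz805

noncomputable section

namespace Crest.Agent.R249.Wk352

variable {n : ℕ} {M : Type*} [MetricSpace M] [ChartedSpace (EuclideanSpace ℝ (Fin n)) M]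
  [IsManifold (𝓡 n) ∞ M]
  [RiemannianBundle (fun p : M => TangentSpace (𝓡 n) p)]
  [IsContMDiffRiemannianBundle (𝓡 n) ∞ (EuclideanSpace ℝ (Fin n)) (fun p : M => TangentSpace (𝓡 n) p)]
  [IsRiemannianManifold (𝓡 n) M] [MeasurableSpace M] [BorelSpace M]
  [SecondCountableTopology M] [Nonempty M]

local notation "𝔼" => EuclideanSpace ℝ (Fin n)

/-- functions which differ by a divergence have the same integral -/
theorem integral_eq_of_mDiv [CompactSpace M] {f g : M → ℝ} {X : (p : M) → TangentSpace (𝓡 n) p}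
    (hX : ∀ z, VSm n ∞ X z) (hfg : ∀ z, f z - g z = mDiv n X z) :
    ∫ z, f z ∂(μHE[n] : Measure M) = ∫ z, g z ∂(μHE[n] : Measure M) := by
  obtain ⟨hi, h0⟩ := integral_mDiv_eq_zero (n := n) (X := X) isOpen_univ
    (fun z _ => (hX z).of_le (by simp)) isCompact_univ (subset_univ _)
    (fun z hz => absurd (mem_univ z) hz)
  by_cases hf : Integrable f (μHE[n] : Measure M)
  · have hg : Integrable g (μHE[n] : Measure M) := by
      have : g = fun z => f z - mDiv n X z := by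
        funext z; rw [← hfg z]; ring
      rw [this]
      exact hf.sub hi
    have h1 := integral_sub hf hg
    have h2 : ∫ z, (f z - g z) ∂(μHE[n] : Measure M) = 0 := by
      simp only [hfg]
      exact h0
    rw [h2] at h1
    linarith
  · have hg : ¬ Integrable g (μHE[n] : Measure M) := by
      intro hg
      apply hf
      have : f = fun z => g z + mDiv n X z := by
        funext z; rw [← hfg z]; ring
      rw [this]
      exact hg.add hi
    rw [integral_undef hf, integral_undef hg]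

variable {κ κ0 κ1 : Type} [Fintype κ] [Fintype κ0] [Fintype κ1]

/-- the swapped pair -/
def swapP (P : CPair n M κ κ0 κ1) : CPair n M κ κ1 κ0 where
  s := P.s
  D0 := P.D1
  D1 := P.D0
  cc := fun y x => P.cc x y
  smc y x := P.smc x y
  loc z := by
    obtain ⟨e, h, ι0, ι1, i1, i2, i3, i4, a0, a1, c, j0, j1, hC⟩ := P.loc z
    exact ⟨e, h, ι1, ι0, i3, i4, i1, i2, a1, a0, fun i => (c i)ᵀ, j1, j0, hC.swap h⟩
  sym0 := P.sym1
  sym1 := P.sym0

lemma sec_opA (P : CPair n M κ κ0 κ1) {u : κ0 → M → ℝ} (hu : SmU (n := n) u) (hs : P.D0.Sec u) :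
    P.D1.Sec (opA P.D0 P.cc u) := by
  intro x z
  obtain ⟨e, h, ι0, ι1, i1, i2, i3, i4, a0, a1, c, j0, j1, hC⟩ := P.loc z
  exact sec_opA_pt h hC P.smc hu hs x

lemma sec_opB (P : CPair n M κ κ0 κ1) {w : κ1 → M → ℝ} (hw : SmU (n := n) w) (hs : P.D1.Sec w) :
    P.D0.Sec (opB P.D1 P.cc w) := by
  intro y z
  have h1 := sec_opA (swapP P) hw hs y z
  have h2 : ∀ b, opB P.D1 P.cc w b z = - opA P.D1 (fun y x => P.cc x y) w b z := fun b => rfl
  simp only [h2, mul_neg, Finset.sum_neg_distrib]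
  exact congrArg Neg.neg h1

lemma comm_potQ (P : CPair n M κ κ0 κ1) (a b : κ0) (z : M) :
    ∑ r, potQ P.s P.D0 P.cc a r z * P.D0.p r b z = ∑ r, P.D0.p a r z * potQ P.s P.D0 P.cc r b z := by
  obtain ⟨e, h, ι0, ι1, i1, i2, i3, i4, a0, a1, c, j0, j1, hC⟩ := P.loc z
  exact comm_potQ_pt h P.s hC P.smc a b

theorem adj_int [CompactSpace M] (P : CPair n M κ κ0 κ1) {u : κ0 → M → ℝ} {w : κ1 → M → ℝ}
    (hu : SmU (n := n) u) (hw : SmU (n := n) w) (hsu : P.D0.Sec u) (hsw : P.D1.Sec w) :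
    ∫ z, ∑ x, opA P.D0 P.cc u x z * w x z ∂(μHE[n] : Measure M)
      = ∫ z, ∑ y, u y z * opB P.D1 P.cc w y z ∂(μHE[n] : Measure M) := by
  refine integral_eq_of_mDiv (X := fun q => ∑ x, ∑ y, (w x q * u y q) • P.cc x y q) (fun q => ?_)
    fun z => ?_
  · exact VSm.sum Finset.univ fun x _ => VSm.sum Finset.univ fun y _ =>
      VSm.smul le_rfl ((sm_mul (hw x) (hu y)) q) (P.smc x y q)
  · obtain ⟨e, h, ι0, ι1, i1, i2, i3, i4, a0, a1, c, j0, j1, hC⟩ := P.loc z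
    exact adj_pt h hC P.smc hu hsu hw hsw

theorem weak_int [CompactSpace M] (P : CPair n M κ κ0 κ1) {u v : κ0 → M → ℝ}
    (hu : SmU (n := n) u) (hv : SmU (n := n) v) (hsu : P.D0.Sec u) (hsv : P.D0.Sec v) :
    ∫ z, ∑ x, opA P.D0 P.cc u x z * opA P.D0 P.cc v x z ∂(μHE[n] : Measure M)
      = ∫ z, ((∑ a, (inner ℝ (P.D0.cv u a z) (P.D0.cv v a z) : ℝ))
        + ∑ a, u a z * ∑ b, potQ P.s P.D0 P.cc a b z * v b z) ∂(μHE[n] : Measure M) := by
  rw [adj_int P hu (sm_opA P.smc hv) hsu (sec_opA P hv hsv)]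
  symm
  refine integral_eq_of_mDiv (X := fun q => ∑ a, u a q • P.D0.cv v a q) (fun q => ?_) fun z => ?_
  · exact VSm.sum Finset.univ fun a _ => VSm.smul le_rfl (hu a q) (VSm_cv hv a q)
  · obtain ⟨e, h, ι0, ι1, i1, i2, i3, i4, a0, a1, c, j0, j1, hC⟩ := P.loc z
    exact weak_pt h P.s hC (fun v hv hsv => sec_opA P hv hsv) P.smc hu hsu hv hsv

/-- the `Dat` of the first bundle -/
def dat0 (T : ToF n M) (P : CPair n M κ κ0 κ1) : Dat n M κ0 :=
  P.D0.dat T (potQ P.s P.D0 P.cc) (sm_potQ P.s P.smc) P.sym0 (comm_potQ P)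

lemma ed_dat0 (T : ToF n M) (P : CPair n M κ κ0 κ1) {u v : κ0 → M → ℝ}
    (hu : SmU (n := n) u) (hv : SmU (n := n) v) (z : M) :
    (dat0 T P).ed u v z = (∑ a, (inner ℝ (P.D0.cv u a z) (P.D0.cv v a z) : ℝ))
        + ∑ a, u a z * ∑ b, potQ P.s P.D0 P.cc a b z * v b z := by
  unfold Dat.ed
  congr 1
  · refine Finset.sum_congr rfl fun a _ => ?_
    rw [dat0, Bun.cv_dat T P.D0 _ _ _ _ hu, Bun.cv_dat T P.D0 _ _ _ _ hv, T.inner_toF]
  · simp only [Finset.mul_sum]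
    rw [Finset.sum_comm]
    refine Finset.sum_congr rfl fun b _ => Finset.sum_congr rfl fun a _ => ?_
    change potQ P.s P.D0 P.cc a b z * u b z * v a z = _
    rw [P.sym0 a b z]
    ring

lemma opA_lin (D0 : Bun n M κ0) (cc : κ1 → κ0 → (p : M) → TangentSpace (𝓡 n) p) (a b : ℝ)
    (u v : κ0 → M → ℝ) (hu : SmU (n := n) u) (hv : SmU (n := n) v) :
    opA D0 cc (fun x z => a * u x z + b * v x z)
      = fun x z => a * opA D0 cc u x z + b * opA D0 cc v x z := by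
  have h1 : ∀ y z, D0.cv (fun x z => a * u x z + b * v x z) y z
      = a • D0.cv u y z + b • D0.cv v y z := by
    intro y z
    have h2 : mgrad n (fun z => a * u y z + b * v y z) z
        = a • mgrad n (u y) z + b • mgrad n (v y) z := by
      have hu' : MDifferentiableAt (𝓡 n) 𝓘(ℝ, ℝ) (u y) z := (hu y).mdifferentiableAt (by simp)
      have hv' : MDifferentiableAt (𝓡 n) 𝓘(ℝ, ℝ) (v y) z := (hv y).mdifferentiableAt (by simp)
      have h3 : MDifferentiableAt (𝓡 n) 𝓘(ℝ, ℝ) (fun z => a * u y z) z :=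
        mdifferentiableAt_const.mul hu'
      have h4 : MDifferentiableAt (𝓡 n) 𝓘(ℝ, ℝ) (fun z => b * v y z) z :=
        mdifferentiableAt_const.mul hv'
      have h5 := mgrad_add h3 h4
      rw [mgrad_const_mul a hu', mgrad_const_mul b hv'] at h5
      exact h5
    unfold Bun.cv
    rw [h2]
    simp only [smul_add, Finset.smul_sum, add_smul, mul_smul, Finset.sum_add_distrib]
    abel
  funext x z
  simp only [opA, h1, inner_add_left, inner_smul_left, RCLike.conj_to_real, Finset.sum_add_distrib,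
    Finset.mul_sum]

lemma opB_lin (D1 : Bun n M κ1) (cc : κ1 → κ0 → (p : M) → TangentSpace (𝓡 n) p) (a b : ℝ)
    (u v : κ1 → M → ℝ) (hu : SmU (n := n) u) (hv : SmU (n := n) v) :
    opB D1 cc (fun x z => a * u x z + b * v x z)
      = fun x z => a * opB D1 cc u x z + b * opB D1 cc v x z := by
  funext y z
  have h1 := congrFun (congrFun (opA_lin D1 (fun y x => cc x y) a b u v hu hv) y) z
  have h2 : ∀ w, opB D1 cc w y z = - opA D1 (fun y x => cc x y) w y z := fun w => rfl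
  rw [h2, h2, h2, h1]
  ring

/-- the pair of adjoint operators -/
def dpair [CompactSpace M] (T : ToF n M) (P : CPair n M κ κ0 κ1) :
    DPair (dat0 T P) (dat0 T (swapP P)) where
  A := opA P.D0 P.cc
  B := opB P.D1 P.cc
  smA _ hu := sm_opA P.smc hu
  smB _ hw := sm_opB P.smc hw
  secA _ hu hs := sec_opA P hu hs
  secB _ hw hs := sec_opB P hw hs
  linA a b u v hu hv := opA_lin P.D0 P.cc a b u v hu hv
  linB a b u v hu hv := opB_lin P.D1 P.cc a b u v hu hv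
  adj _ _ hu hw hsu hsw := adj_int P hu hw hsu hsw
  w0 u v hu hv hsu hsv := by
    rw [weak_int P hu hv hsu hsv]
    exact integral_congr_ae (Eventually.of_forall fun z => (ed_dat0 T P hu hv z).symm)
  w1 u v hu hv hsu hsv := by
    have h1 := weak_int (swapP P) hu hv hsu hsv
    have h2 : ∀ z, ∑ x, opB P.D1 P.cc u x z * opB P.D1 P.cc v x z
        = ∑ x, opA (swapP P).D0 (swapP P).cc u x z * opA (swapP P).D0 (swapP P).cc v x z := by
      intro z
      refine Finset.sum_congr rfl fun x _ => ?_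
      change (- opA P.D1 (fun y x => P.cc x y) u x z) * (- opA P.D1 (fun y x => P.cc x y) v x z) = _
      rw [neg_mul_neg]
      rfl
    simp only [h2]
    rw [h1]
    exact integral_congr_ae (Eventually.of_forall fun z => (ed_dat0 T (swapP P) hu hv z).symm)

/-- **leaf WEAK** -/
theorem weakStmt [CompactSpace M] : WeakStmt n M := by
  intro T κ κ0 κ1 _ _ _ P
  exact ⟨dat0 T P, dat0 T (swapP P), dpair T P, fun _ _ _ => rfl, rfl, rfl, fun _ _ _ => rfl, rfl,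
    rfl, rfl, rfl⟩

end Crest.Agent.R249.Wk352
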