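import Crest.Agent.R249.HK3A_352
import Crest.Agent.R249.HK9Def_714

-- ▼ part R249/HK8A_286
section

/-!
# Row 249, PART C, leaf HK8 (helper286), part A: the cut-off map `Th`, uniformly bounded families over a compact set.
-/

set_option autoImplicit false
set_option linter.unusedSectionVars false
open scoped ContDiff Topology
open MeasureTheory Set Metric Filter

namespace Crest.Agent.R249.HK8_286
open Crest.Agent.R249.HK286 Crest.Agent.R249.HK352

/-- the bump function -/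
noncomputable def bmp {R : ℝ} (hR : 0 < R) : ContDiffBump (0 : E4) := ⟨R, 2 * R, hR, by linarith⟩

/-- `Θ x = b(x) x`: identity on the ball of radius `R`, values in the ball of radius `2R` -/
noncomputable def Th {R : ℝ} (hR : 0 < R) (x : E4) : E4 := (bmp hR x) • x

variable {R : ℝ} (hR : 0 < R)

theorem Th_eq {x : E4} (hx : ‖x‖ ≤ R) : Th hR x = x := by
  have : bmp hR x = 1 := (bmp hR).one_of_mem_closedBall (by rw [mem_closedBall_zero_iff]; exact hx)
  simp [Th, this]

theorem Th_zero : Th hR 0 = 0 := by simp [Th]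

theorem norm_Th_le (x : E4) : ‖Th hR x‖ ≤ 2 * R := by
  by_cases h : ‖x‖ < 2 * R
  · rw [Th, norm_smul, Real.norm_eq_abs, abs_of_nonneg (bmp hR).nonneg]
    calc bmp hR x * ‖x‖ ≤ 1 * ‖x‖ := mul_le_mul_of_nonneg_right (bmp hR).le_one (norm_nonneg x)
      _ ≤ 2 * R := by linarith
  · have : bmp hR x = 0 := by
      apply (bmp hR).zero_of_le_dist
      rw [dist_zero_right]
      exact not_lt.1 h
    simp [Th, this]
    linarith

theorem Th_smooth : ContDiff ℝ ∞ (Th hR) := ((bmp hR).contDiff).smul contDiff_id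

theorem Th_cpt : HasCompactSupport (Th hR) := by
  have : HasCompactSupport (fun x => bmp hR x • x) := ((bmp hR).hasCompactSupport).smul_right
  exact this

theorem Th_bd (n : ℕ) : ∃ D : ℝ, 0 ≤ D ∧ ∀ x, ‖iteratedFDeriv ℝ n (Th hR) x‖ ≤ D := by
  have h1 : Continuous (iteratedFDeriv ℝ n (Th hR)) :=
    (Th_smooth hR).continuous_iteratedFDeriv (by exact_mod_cast le_top)
  have h2 : HasCompactSupport (iteratedFDeriv ℝ n (Th hR)) := (Th_cpt hR).iteratedFDeriv n
  obtain ⟨D, hD⟩ := h2.exists_bound_of_continuous h1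
  exact ⟨|D|, abs_nonneg _, fun x => (hD x).trans (le_abs_self D)⟩

theorem Th_near : ∀ᶠ x in 𝓝 (0 : E4), Th hR x = x := by
  have : ball (0 : E4) R ∈ 𝓝 (0 : E4) := ball_mem_nhds _ hR
  filter_upwards [this] with x hx
  exact Th_eq hR (by rw [mem_ball_zero_iff] at hx; exact hx.le)

/-- data: compact `C` in the open `V`, all closed balls of radius `2R` about `C` in `V` -/
structure Geo (V C : Set E4) (R : ℝ) : Prop where
  opn : IsOpen V
  cpt : IsCompact C
  pos : 0 < R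
  sub : ∀ y ∈ C, closedBall y (2 * R) ⊆ V

theorem exists_geo {V C : Set E4} (hV : IsOpen V) (hC : IsCompact C) (hCV : C ⊆ V) :
    ∃ R, Geo V C R := by
  obtain ⟨d, hd, hsub⟩ := hC.exists_cthickening_subset_open hV hCV
  refine ⟨d / 2, hV, hC, by positivity, fun y hy => ?_⟩
  have : 2 * (d / 2) = d := by ring
  rw [this]
  exact (closedBall_subset_cthickening hy d).trans hsub

section
variable {V C : Set E4} (G : Geo V C R)
include G

theorem Geo.mem (y : C) (z : E4) (hz : ‖z‖ ≤ 2 * R) : y.1 + z ∈ V := by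
  apply G.sub y.1 y.2
  rw [mem_closedBall, dist_eq_norm]
  simpa using hz

theorem Geo.memTh (y : C) (x : E4) : y.1 + Th G.pos x ∈ V := G.mem y _ (norm_Th_le G.pos x)

/-- the compact set of all values `y + Θ x` -/
theorem Geo.cptK : IsCompact ((fun p : E4 × E4 => p.1 + p.2) '' (C ×ˢ closedBall (0 : E4) (2 * R))) :=
  (G.cpt.prod (isCompact_closedBall _ _)).image (by fun_prop)

theorem Geo.subK : ((fun p : E4 × E4 => p.1 + p.2) '' (C ×ˢ closedBall (0 : E4) (2 * R))) ⊆ V := by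
  rintro _ ⟨⟨y, z⟩, ⟨hy, hz⟩, rfl⟩
  exact G.mem ⟨y, hy⟩ z (by simpa using hz)

theorem Geo.memK (y : C) (x : E4) :
    y.1 + Th G.pos x ∈ ((fun p : E4 × E4 => p.1 + p.2) '' (C ×ˢ closedBall (0 : E4) (2 * R))) :=
  ⟨(y.1, Th G.pos x), ⟨y.2, by simpa using norm_Th_le G.pos x⟩, rfl⟩

theorem Geo.sm {f : E4 → ℝ} (hf : ContDiffOn ℝ ∞ f V) (y : C) : ContDiff ℝ ∞ (fun x => f (y.1 + Th G.pos x)) := by
  have h1 : ContDiff ℝ ∞ (fun x => y.1 + Th G.pos x) := contDiff_const.add (Th_smooth G.pos)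
  exact hf.comp_contDiff h1 fun x => G.memTh y x

/-- families `x ↦ f (y + Θ x)`, `y ∈ C`, are uniformly bounded -/
theorem Geo.ub {f : E4 → ℝ} (hf : ContDiffOn ℝ ∞ f V) : UB (fun (y : C) x => f (y.1 + Th G.pos x)) := by
  refine ⟨fun y => G.sm hf y, fun n => ?_⟩
  -- bounds of the derivatives of f on K
  have hb : ∀ i : ℕ, ∃ B : ℝ, 0 ≤ B ∧ ∀ z ∈ ((fun p : E4 × E4 => p.1 + p.2) '' (C ×ˢ closedBall (0 : E4) (2 * R))),
      ‖iteratedFDerivWithin ℝ i f V z‖ ≤ B := by
    intro i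
    have h1 : ContinuousOn (iteratedFDerivWithin ℝ i f V) V :=
      hf.continuousOn_iteratedFDerivWithin (by exact_mod_cast le_top) G.opn.uniqueDiffOn
    obtain ⟨B, hB⟩ := G.cptK.exists_bound_of_continuousOn (h1.mono G.subK)
    exact ⟨|B|, abs_nonneg _, fun z hz => (hB z hz).trans (le_abs_self B)⟩
  choose B hB0 hB using hb
  choose D hD0 hD using fun m => Th_bd G.pos m
  refine ⟨(n.factorial : ℝ) * (∑ i ∈ Finset.range (n + 1), B i) * (1 + ∑ i ∈ Finset.range (n + 1), D i) ^ n,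
    fun y x => ?_⟩
  have key := norm_iteratedFDeriv_comp_le' (𝕜 := ℝ) (g := f) (f := fun x => y.1 + Th G.pos x) (n := n) (N := ∞)
    (t := V) (by rintro _ ⟨x, rfl⟩; exact G.memTh y x) G.opn.uniqueDiffOn hf
    (contDiff_const.add (Th_smooth G.pos)) (by exact_mod_cast le_top) x
    (C := ∑ i ∈ Finset.range (n + 1), B i) (D := 1 + ∑ i ∈ Finset.range (n + 1), D i)
    (fun i hi => (hB i _ (G.memK y x)).trans
      (Finset.single_le_sum (fun j _ => hB0 j) (Finset.mem_range.2 (Nat.lt_succ_of_le hi))))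
    (fun i hi1 hi2 => by
      have e1 : iteratedFDeriv ℝ i (fun x => y.1 + Th G.pos x) x = iteratedFDeriv ℝ i (Th G.pos) x := by
        have h2 : iteratedFDeriv ℝ i (fun x => y.1 + Th G.pos x) x
            = iteratedFDeriv ℝ i (fun _ : E4 => y.1) x + iteratedFDeriv ℝ i (Th G.pos) x :=
          iteratedFDeriv_add_apply contDiff_const.contDiffAt
            ((Th_smooth G.pos).contDiffAt.of_le (by exact_mod_cast le_top))
        rw [h2, iteratedFDeriv_const_of_ne (by omega)]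
        simp
      rw [e1]
      have h3 : D i ≤ ∑ j ∈ Finset.range (n + 1), D j :=
        Finset.single_le_sum (fun j _ => hD0 j) (Finset.mem_range.2 (Nat.lt_succ_of_le hi2))
      have h4 : (0:ℝ) ≤ ∑ j ∈ Finset.range (n + 1), D j := Finset.sum_nonneg fun j _ => hD0 j
      calc ‖iteratedFDeriv ℝ i (Th G.pos) x‖ ≤ D i := hD i x
        _ ≤ 1 + ∑ j ∈ Finset.range (n + 1), D j := by linarith
        _ ≤ (1 + ∑ j ∈ Finset.range (n + 1), D j) ^ i := by
          refine le_self_pow₀ (by linarith) (by omega))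
  exact key

/-- constants in `x`, bounded in `y` -/
theorem ub_par {ι : Type*} {f : ι → ℝ} (h : ∃ B, ∀ i, |f i| ≤ B) : UB (fun (i : ι) (_ : E4) => f i) := by
  refine ⟨fun _ => contDiff_const, fun n => ?_⟩
  obtain ⟨B, hB⟩ := h
  refine ⟨|B|, fun i x => ?_⟩
  rcases Nat.eq_zero_or_pos n with h0 | h0
  · subst h0
    rw [norm_iteratedFDeriv_zero, Real.norm_eq_abs]
    exact (hB i).trans (le_abs_self B)
  · rw [iteratedFDeriv_const_of_ne h0.ne']
    simp

theorem Geo.ub_val {f : E4 → ℝ} (hf : ContDiffOn ℝ ∞ f V) : UB (fun (y : C) (_ : E4) => f y.1) := by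
  refine ub_par G ?_
  have hCV : C ⊆ V := fun y hy => by
    have := G.mem ⟨y, hy⟩ 0 (by simp [G.pos.le])
    simpa using this
  obtain ⟨B, hB⟩ := G.cpt.exists_bound_of_continuousOn (hf.continuousOn.mono hCV)
  exact ⟨B, fun y => by simpa using hB y.1 y.2⟩

theorem Geo.ub_th (j : Fin 4) : UB (fun (_ : C) x => Th G.pos x j) := by
  have h1 : ContDiff ℝ ∞ (fun x : E4 => Th G.pos x j) := by
    have := Th_smooth G.pos
    rw [contDiff_euclidean] at this
    exact this j
  have h2 : HasCompactSupport (fun x : E4 => Th G.pos x j) := by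
    refine (Th_cpt G.pos).mono' ?_
    intro x hx
    apply subset_tsupport
    rw [Function.mem_support] at hx ⊢
    intro h
    apply hx
    rw [h]; rfl
  refine ⟨fun _ => h1, fun n => ?_⟩
  obtain ⟨D, hD⟩ := (h2.iteratedFDeriv n).exists_bound_of_continuous
    (h1.continuous_iteratedFDeriv (by exact_mod_cast le_top))
  exact ⟨D, fun _ x => hD x⟩

end

/-- `1 / f` for `|f| ≥ c` -/
theorem UB_inv {ι : Type*} {f : ι → E4 → ℝ} (hf : UB f) (h : ∃ c > 0, ∀ i x, c ≤ |f i x|) :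
    UB (fun i x => (f i x)⁻¹) := by
  obtain ⟨c, hc, hfc⟩ := h
  have hne : ∀ i x, f i x ≠ 0 := fun i x h0 => by
    have := hfc i x; rw [h0, abs_zero] at this; linarith
  obtain ⟨M, hM0, hM⟩ := UB.bdd hf
  refine ⟨fun i => (hf.1 i).inv fun x => hne i x, fun n => ?_⟩
  set K : Set ℝ := closedBall (0:ℝ) M ∩ {t | c ≤ |t|} with hK
  have hKc : IsCompact K := (isCompact_closedBall _ _).inter_right (isClosed_le continuous_const continuous_abs)
  have hKs : K ⊆ {t : ℝ | t ≠ 0} := fun t ht h0 => by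
    have h1 : c ≤ |t| := ht.2
    rw [h0, abs_zero] at h1; linarith
  have hO : IsOpen {t : ℝ | t ≠ 0} := isOpen_ne
  have hinv : ContDiffOn ℝ ∞ (fun t : ℝ => t⁻¹) {t : ℝ | t ≠ 0} := fun t ht =>
    (contDiffAt_inv ℝ ht).contDiffWithinAt
  have hb : ∀ i : ℕ, ∃ B : ℝ, 0 ≤ B ∧ ∀ z ∈ K, ‖iteratedFDerivWithin ℝ i (fun t : ℝ => t⁻¹) {t : ℝ | t ≠ 0} z‖ ≤ B := by
    intro i
    have h1 : ContinuousOn (iteratedFDerivWithin ℝ i (fun t : ℝ => t⁻¹) {t : ℝ | t ≠ 0}) {t : ℝ | t ≠ 0} :=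
      hinv.continuousOn_iteratedFDerivWithin (by exact_mod_cast le_top) hO.uniqueDiffOn
    obtain ⟨B, hB⟩ := hKc.exists_bound_of_continuousOn (h1.mono hKs)
    exact ⟨|B|, abs_nonneg _, fun z hz => (hB z hz).trans (le_abs_self B)⟩
  choose B hB0 hB using hb
  choose D hD0 hD using fun m => UB.bd hf m
  refine ⟨(n.factorial : ℝ) * (∑ i ∈ Finset.range (n + 1), B i) * (1 + ∑ i ∈ Finset.range (n + 1), D i) ^ n,
    fun i x => ?_⟩
  have hmem : f i x ∈ K := ⟨by rw [mem_closedBall_zero_iff]; exact hM i x, hfc i x⟩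
  exact norm_iteratedFDeriv_comp_le' (𝕜 := ℝ) (g := fun t : ℝ => t⁻¹) (f := f i) (n := n) (N := ∞)
    (t := {t : ℝ | t ≠ 0}) (by rintro _ ⟨x, rfl⟩; exact hne i x) hO.uniqueDiffOn hinv
    (hf.1 i) (by exact_mod_cast le_top) x
    (C := ∑ i ∈ Finset.range (n + 1), B i) (D := 1 + ∑ i ∈ Finset.range (n + 1), D i)
    (fun j hj => (hB j _ hmem).trans
      (Finset.single_le_sum (fun j _ => hB0 j) (Finset.mem_range.2 (Nat.lt_succ_of_le hj))))
    (fun j hj1 hj2 => by
      have h3 : D j ≤ ∑ j ∈ Finset.range (n + 1), D j :=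
        Finset.single_le_sum (fun j _ => hD0 j) (Finset.mem_range.2 (Nat.lt_succ_of_le hj2))
      have h4 : (0:ℝ) ≤ ∑ j ∈ Finset.range (n + 1), D j := Finset.sum_nonneg fun j _ => hD0 j
      calc ‖iteratedFDeriv ℝ j (f i) x‖ ≤ D j := hD j i x
        _ ≤ 1 + ∑ j ∈ Finset.range (n + 1), D j := by linarith
        _ ≤ (1 + ∑ j ∈ Finset.range (n + 1), D j) ^ j := by
          refine le_self_pow₀ (by linarith) (by omega))

theorem UB_prod {ι α : Type*} (s : Finset α) {f : α → ι → E4 → ℝ} (h : ∀ a ∈ s, UB (f a)) :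
    UB (fun i x => ∏ a ∈ s, f a i x) := by
  classical
  induction s using Finset.induction_on with
  | empty => simpa using UB.const (ι := ι) 1
  | insert a s ha ih =>
    have h1 := UB.mul (h a (Finset.mem_insert_self a s))
      (ih fun b hb => h b (Finset.mem_insert_of_mem hb))
    simpa [Finset.prod_insert ha] using h1

/-- determinants -/
theorem UB_det {ι κ : Type*} [Fintype κ] [DecidableEq κ] {X : ι → E4 → Matrix κ κ ℝ}
    (h : ∀ p q, UB (fun i x => X i x p q)) : UB (fun i x => (X i x).det) := by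
  simp only [Matrix.det_apply']
  exact UB.sum _ fun σ _ => UB.mul (UB.const _) (UB_prod _ fun p _ => h _ _)

theorem UB_adj {ι κ : Type*} [Fintype κ] [DecidableEq κ] {X : ι → E4 → Matrix κ κ ℝ}
    (h : ∀ p q, UB (fun i x => X i x p q)) (p q : κ) : UB (fun i x => (X i x).adjugate p q) := by
  simp only [Matrix.adjugate_apply]
  refine UB_det fun r s => ?_
  simp only [Matrix.updateRow_apply]
  by_cases hr : r = q
  · simp only [hr, if_true]
    exact UB.const _
  · simp only [hr, if_false]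
    exact h r s

theorem UB_mmul {ι κ : Type*} [Fintype κ] {X Y : ι → E4 → Matrix κ κ ℝ}
    (hX : ∀ p q, UB (fun i x => X i x p q)) (hY : ∀ p q, UB (fun i x => Y i x p q)) (p q : κ) :
    UB (fun i x => (X i x * Y i x) p q) := by
  simp only [Matrix.mul_apply]
  exact UB.sum _ fun r _ => UB.mul (hX p r) (hY r q)

end Crest.Agent.R249.HK8_286
end

-- ▼ part R249/HK8B_286
section

/-!
# Row 249, PART C, leaf HK8 (helper286), part B: matrix calculus, the Cayley gauge.
-/

set_option autoImplicit false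
set_option linter.unusedSectionVars false
open scoped ContDiff Topology Matrix
open MeasureTheory Set Metric Filter

namespace Crest.Agent.R249.HK8_286
open Crest.Agent.R249.HK286 Crest.Agent.R249.HK352 Crest.Agent.R249.HK9_714

section calculus
variable {κ : Type*} [Fintype κ]

/-- entrywise derivative -/
noncomputable def dM (j : Fin 4) (X : E4 → Matrix κ κ ℝ) (x : E4) : Matrix κ κ ℝ :=
  Matrix.of fun p q => pd j (fun y => X y p q) x

noncomputable def dV (j : Fin 4) (f : E4 → κ → ℝ) (x : E4) : κ → ℝ := fun p => pd j (fun y => f y p) x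

def DX (X : E4 → Matrix κ κ ℝ) (x : E4) : Prop := ∀ p q, DifferentiableAt ℝ (fun y => X y p q) x
def DXv (f : E4 → κ → ℝ) (x : E4) : Prop := ∀ p, DifferentiableAt ℝ (fun y => f y p) x

theorem DX.mul {X Y : E4 → Matrix κ κ ℝ} {x : E4} (hX : DX X x) (hY : DX Y x) : DX (fun y => X y * Y y) x := by
  intro p q
  simp only [Matrix.mul_apply]
  exact DifferentiableAt.fun_sum fun r _ => (hX p r).mul (hY r q)

theorem DX.mulVec {X : E4 → Matrix κ κ ℝ} {f : E4 → κ → ℝ} {x : E4} (hX : DX X x) (hf : DXv f x) :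
    DXv (fun y => X y *ᵥ f y) x := by
  intro p
  simp only [Matrix.mulVec, dotProduct]
  exact DifferentiableAt.fun_sum fun r _ => (hX p r).mul (hf r)

theorem dM_mul {X Y : E4 → Matrix κ κ ℝ} {x : E4} (hX : DX X x) (hY : DX Y x) (j : Fin 4) :
    dM j (fun y => X y * Y y) x = dM j X x * Y x + X x * dM j Y x := by
  ext p q
  simp only [dM, Matrix.of_apply, Matrix.mul_apply, Matrix.add_apply]
  rw [pd_sum (f := fun r y => X y p r * Y y r q) Finset.univ (fun r _ => (hX p r).mul (hY r q)) j,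
    ← Finset.sum_add_distrib]
  refine Finset.sum_congr rfl fun r _ => ?_
  exact pd_mul (hX p r) (hY r q) j

theorem dV_mulVec {X : E4 → Matrix κ κ ℝ} {f : E4 → κ → ℝ} {x : E4} (hX : DX X x) (hf : DXv f x) (j : Fin 4) :
    dV j (fun y => X y *ᵥ f y) x = dM j X x *ᵥ f x + X x *ᵥ dV j f x := by
  ext p
  simp only [dV, dM, Matrix.mulVec, dotProduct, Matrix.of_apply, Pi.add_apply]
  rw [pd_sum (f := fun r y => X y p r * f y r) Finset.univ (fun r _ => (hX p r).mul (hf r)) j,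
    ← Finset.sum_add_distrib]
  refine Finset.sum_congr rfl fun r _ => ?_
  exact pd_mul (hX p r) (hf r) j

theorem dM_add {X Y : E4 → Matrix κ κ ℝ} {x : E4} (hX : DX X x) (hY : DX Y x) (j : Fin 4) :
    dM j (fun y => X y + Y y) x = dM j X x + dM j Y x := by
  ext p q
  simp only [dM, Matrix.of_apply, Matrix.add_apply]
  exact pd_add (hX p q) (hY p q) j

theorem dM_congr {X Y : E4 → Matrix κ κ ℝ} {x : E4} (h : X =ᶠ[𝓝 x] Y) (j : Fin 4) : dM j X x = dM j Y x := by
  ext p q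
  simp only [dM, Matrix.of_apply]
  exact pd_congr (h.mono fun y hy => by rw [hy]) j

theorem dM_transpose (X : E4 → Matrix κ κ ℝ) (x : E4) (j : Fin 4) :
    dM j (fun y => (X y)ᵀ) x = (dM j X x)ᵀ := by
  ext p q
  simp only [dM, Matrix.of_apply, Matrix.transpose_apply]

theorem dM_smul {X : E4 → Matrix κ κ ℝ} {x : E4} (hX : DX X x) (c : ℝ) (j : Fin 4) :
    dM j (fun y => c • X y) x = c • dM j X x := by
  ext p q
  simp only [dM, Matrix.of_apply, Matrix.smul_apply, smul_eq_mul]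
  exact pd_const_mul (hX p q) c j

theorem dM_const (X : Matrix κ κ ℝ) (x : E4) (j : Fin 4) : dM j (fun _ => X) x = 0 := by
  ext p q
  simp only [dM, Matrix.of_apply, Matrix.zero_apply]
  exact pd_const _ x j

/-- smooth matrix functions -/
def SM (X : E4 → Matrix κ κ ℝ) : Prop := ∀ p q, ContDiff ℝ ∞ (fun y => X y p q)

theorem SM.dx {X : E4 → Matrix κ κ ℝ} (h : SM X) (x : E4) : DX X x := fun p q =>
  ((h p q).differentiable (by simp)) x

theorem SM.d {X : E4 → Matrix κ κ ℝ} (h : SM X) (j : Fin 4) : SM (dM j X) := fun p q => contDiff_pd (h p q) j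

theorem SM.mul {X Y : E4 → Matrix κ κ ℝ} (hX : SM X) (hY : SM Y) : SM (fun y => X y * Y y) := by
  intro p q
  simp only [Matrix.mul_apply]
  exact ContDiff.sum fun r _ => (hX p r).mul (hY r q)

theorem SM.t {X : E4 → Matrix κ κ ℝ} (hX : SM X) : SM (fun y => (X y)ᵀ) := fun p q => hX q p

theorem SM.add {X Y : E4 → Matrix κ κ ℝ} (hX : SM X) (hY : SM Y) : SM (fun y => X y + Y y) := fun p q =>
  (hX p q).add (hY p q)

theorem SM.smul {X : E4 → Matrix κ κ ℝ} (hX : SM X) (c : ℝ) : SM (fun y => c • X y) := fun p q =>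
  contDiff_const.mul (hX p q)

theorem SM.const (X : Matrix κ κ ℝ) : SM (fun _ : E4 => X) := fun _ _ => contDiff_const

end calculus

section cayley
variable {κ : Type} [Fintype κ] [DecidableEq κ] {V C : Set E4} {R : ℝ} (G : Geo V C R) (A : CCon V κ)

/-- `B̃(y,z) = -(1/2) ∑_j (A_j(y+z) + A_j(y)) z_j` -/
noncomputable def Bt (A : CCon V κ) (y z : E4) : Matrix κ κ ℝ :=
  Matrix.of fun p q => -(1 / 2) * ∑ j, (A.a j p q (y + z) + A.a j p q y) * z j

noncomputable def Bm (y : C) (x : E4) : Matrix κ κ ℝ := Bt A y.1 (Th G.pos x)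

include G in
theorem Bt_skew (y : C) (z : E4) (hz : ‖z‖ ≤ 2 * R) : (Bt A y.1 z)ᵀ = -Bt A y.1 z := by
  ext p q
  simp only [Bt, Matrix.transpose_apply, Matrix.of_apply, Matrix.neg_apply]
  have h0 : y.1 ∈ V := by
    have := G.mem y 0 (by simp [G.pos.le])
    simpa using this
  have : ∀ j, A.a j q p (y.1 + z) + A.a j q p y.1 = -(A.a j p q (y.1 + z) + A.a j p q y.1) := fun j => by
    rw [A.askew j q p _ (G.mem y z hz), A.askew j q p _ h0]; ring
  simp only [this, neg_mul, Finset.sum_neg_distrib, mul_neg, neg_neg]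

theorem skew_det_ne {Z : Matrix κ κ ℝ} (h : Zᵀ = -Z) : (1 - (1 / 2 : ℝ) • Z).det ≠ 0 := by
  intro h0
  obtain ⟨v, hv, hv2⟩ := Matrix.exists_mulVec_eq_zero_iff.2 h0
  have h1 : v = (1 / 2 : ℝ) • (Z *ᵥ v) := by
    have := hv2
    rw [Matrix.sub_mulVec, Matrix.one_mulVec, Matrix.smul_mulVec, sub_eq_zero] at this
    exact this
  have h2 : v ⬝ᵥ (Z *ᵥ v) = 0 := by
    have e1 : v ⬝ᵥ (Z *ᵥ v) = (Zᵀ *ᵥ v) ⬝ᵥ v := by
      rw [Matrix.mulVec_transpose, ← Matrix.dotProduct_mulVec]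
    rw [h, Matrix.neg_mulVec, neg_dotProduct, dotProduct_comm (Z *ᵥ v) v] at e1
    linarith
  have h3 : v ⬝ᵥ v = 0 := by
    conv_lhs => rw [h1]
    rw [smul_dotProduct, dotProduct_comm]
    have : ((1/2 : ℝ) • Z *ᵥ v) = v := h1.symm
    rw [this, h2, smul_zero]
  exact hv (dotProduct_self_eq_zero.1 h3)

theorem Bt_contOn (p q : κ) : ContinuousOn (fun u : E4 × E4 => Bt A u.1 u.2 p q) {u | u.1 ∈ V ∧ u.1 + u.2 ∈ V} := by
  simp only [Bt, Matrix.of_apply]
  refine ContinuousOn.mul continuousOn_const (continuousOn_finsetSum _ fun j _ => ContinuousOn.mul (ContinuousOn.add ?_ ?_) ?_)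
  · exact (A.sma j p q).continuousOn.comp (by fun_prop) fun u hu => hu.2
  · exact (A.sma j p q).continuousOn.comp (by fun_prop) fun u hu => hu.1
  · exact Continuous.continuousOn (by fun_prop)

theorem det_low : ∃ c > 0, ∀ (y : C) x, c ≤ |(1 - (1 / 2 : ℝ) • Bm G A y x).det| := by
  have hcpt : IsCompact (C ×ˢ closedBall (0 : E4) (2 * R)) := G.cpt.prod (isCompact_closedBall _ _)
  have hsub : (C ×ˢ closedBall (0 : E4) (2 * R)) ⊆ {u : E4 × E4 | u.1 ∈ V ∧ u.1 + u.2 ∈ V} := by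
    rintro ⟨y, z⟩ ⟨hy, hz⟩
    refine ⟨?_, G.mem ⟨y, hy⟩ z (by simpa using hz)⟩
    have := G.mem ⟨y, hy⟩ 0 (by simp [G.pos.le])
    simpa using this
  have hcont : ContinuousOn (fun u : E4 × E4 => |(1 - (1 / 2 : ℝ) • Bt A u.1 u.2).det|)
      (C ×ˢ closedBall (0 : E4) (2 * R)) := by
    refine ContinuousOn.abs ?_
    simp only [Matrix.det_apply']
    refine continuousOn_finsetSum _ fun σ _ => ContinuousOn.mul continuousOn_const
      (continuousOn_finsetProd _ fun p _ => ?_)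
    simp only [Matrix.sub_apply, Matrix.smul_apply, smul_eq_mul]
    exact ContinuousOn.sub continuousOn_const (ContinuousOn.mul continuousOn_const ((Bt_contOn A _ _).mono hsub))
  have hpos : ∀ u ∈ (C ×ˢ closedBall (0 : E4) (2 * R)), 0 < |(1 - (1 / 2 : ℝ) • Bt A u.1 u.2).det| := by
    rintro ⟨y, z⟩ ⟨hy, hz⟩
    exact abs_pos.2 (skew_det_ne (Bt_skew G A ⟨y, hy⟩ z (by simpa using hz)))
  obtain ⟨b, hb, hb2⟩ := hcpt.exists_forall_le' hcont hpos
  exact ⟨b, hb, fun y x => hb2 (y.1, Th G.pos x) ⟨y.2, by simpa using norm_Th_le G.pos x⟩⟩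

/-- the Cayley gauge -/
noncomputable def Tm (y : C) (x : E4) : Matrix κ κ ℝ :=
  (1 + (1 / 2 : ℝ) • Bm G A y x) * (1 - (1 / 2 : ℝ) • Bm G A y x)⁻¹

theorem Bm_skew (y : C) (x : E4) : (Bm G A y x)ᵀ = -Bm G A y x := Bt_skew G A y _ (norm_Th_le G.pos x)

theorem det_unit (y : C) (x : E4) : IsUnit (1 - (1 / 2 : ℝ) • Bm G A y x).det :=
  isUnit_iff_ne_zero.2 (skew_det_ne (Bm_skew G A y x))

theorem Tm_eq (y : C) (x : E4) : Tm G A y x * (1 - (1 / 2 : ℝ) • Bm G A y x) = 1 + (1 / 2 : ℝ) • Bm G A y x := by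
  rw [Tm, Matrix.mul_assoc, Matrix.nonsing_inv_mul _ (det_unit G A y x), Matrix.mul_one]

theorem Tm_orth (y : C) (x : E4) : (Tm G A y x)ᵀ * Tm G A y x = 1 := by
  set Z := (1 / 2 : ℝ) • Bm G A y x with hZ
  have hs : Zᵀ = -Z := by rw [hZ, Matrix.transpose_smul, Bm_skew]; simp
  have hu : IsUnit (1 - Z).det := det_unit G A y x
  have hu' : IsUnit (1 + Z).det := by
    have : (1 + Z) = (1 - Z)ᵀ := by rw [Matrix.transpose_sub, hs, Matrix.transpose_one, sub_neg_eq_add]
    rw [this, Matrix.det_transpose]; exact hu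
  have hT : Tm G A y x = (1 + Z) * (1 - Z)⁻¹ := rfl
  rw [hT, Matrix.transpose_mul, Matrix.transpose_nonsing_inv]
  have e1 : (1 - Z)ᵀ = 1 + Z := by rw [Matrix.transpose_sub, hs, Matrix.transpose_one, sub_neg_eq_add]
  have e2 : (1 + Z)ᵀ = 1 - Z := by rw [Matrix.transpose_add, hs, Matrix.transpose_one, ← sub_eq_add_neg]
  rw [e1, e2]
  have hc : (1 - Z) * (1 + Z) = (1 + Z) * (1 - Z) := by noncomm_ring
  calc (1 + Z)⁻¹ * (1 - Z) * ((1 + Z) * (1 - Z)⁻¹)
      = (1 + Z)⁻¹ * ((1 - Z) * (1 + Z)) * (1 - Z)⁻¹ := by simp only [Matrix.mul_assoc]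
    _ = (1 + Z)⁻¹ * ((1 + Z) * (1 - Z)) * (1 - Z)⁻¹ := by rw [hc]
    _ = ((1 + Z)⁻¹ * (1 + Z)) * ((1 - Z) * (1 - Z)⁻¹) := by simp only [Matrix.mul_assoc]
    _ = 1 := by rw [Matrix.nonsing_inv_mul _ hu', Matrix.mul_nonsing_inv _ hu, Matrix.mul_one]

theorem Tm_orth' (y : C) (x : E4) : Tm G A y x * (Tm G A y x)ᵀ = 1 :=
  mul_eq_one_comm.1 (Tm_orth G A y x)

theorem ub_Bm (p q : κ) : UB (fun (y : C) x => Bm G A y x p q) := by
  simp only [Bm, Bt, Matrix.of_apply]
  exact UB.mul (UB.const _) (UB.sum _ fun j _ => UB.mul (UB.add (G.ub (A.sma j p q)) (G.ub_val (A.sma j p q))) (G.ub_th j))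

theorem ub_one (p q : κ) : UB (fun (_ : C) (_ : E4) => (1 : Matrix κ κ ℝ) p q) := UB.const _

theorem ub_Tm (p q : κ) : UB (fun (y : C) x => Tm G A y x p q) := by
  have h1 : ∀ p q, UB (fun (y : C) x => (1 - (1 / 2 : ℝ) • Bm G A y x) p q) := fun p q =>
    UB.sub (UB.const _) (UB.mul (UB.const _) (ub_Bm G A p q))
  have h2 : ∀ p q, UB (fun (y : C) x => (1 + (1 / 2 : ℝ) • Bm G A y x) p q) := fun p q =>
    UB.add (UB.const _) (UB.mul (UB.const _) (ub_Bm G A p q))
  have h3 : ∀ p q, UB (fun (y : C) x => (1 - (1 / 2 : ℝ) • Bm G A y x)⁻¹ p q) := by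
    intro p q
    have e : ∀ (y : C) x, (1 - (1 / 2 : ℝ) • Bm G A y x)⁻¹ p q
        = ((1 - (1 / 2 : ℝ) • Bm G A y x).det)⁻¹ * (1 - (1 / 2 : ℝ) • Bm G A y x).adjugate p q := by
      intro y x
      rw [Matrix.inv_def, Matrix.smul_apply, Ring.inverse_eq_inv', smul_eq_mul]
    simp only [e]
    exact UB.mul (UB_inv (UB_det h1) (det_low G A)) (UB_adj h1 p q)
  exact UB_mmul h2 h3 p q

theorem sm_Tm (y : C) : SM (Tm G A y) := fun p q => (ub_Tm G A p q).1 y
theorem sm_Bm (y : C) : SM (Bm G A y) := fun p q => (ub_Bm G A p q).1 y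

theorem Bm_zero (y : C) : Bm G A y 0 = 0 := by
  ext p q
  simp [Bm, Bt, Th_zero]

theorem Tm_zero (y : C) : Tm G A y 0 = 1 := by
  have := Tm_eq G A y 0
  rw [Bm_zero, smul_zero, sub_zero, add_zero, Matrix.mul_one] at this
  exact this

/-- derivative of the Cayley relation -/
theorem dTm (y : C) (l : Fin 4) (x : E4) :
    dM l (Tm G A y) x * (1 - (1 / 2 : ℝ) • Bm G A y x) - (1 / 2 : ℝ) • (Tm G A y x * dM l (Bm G A y) x)
      = (1 / 2 : ℝ) • dM l (Bm G A y) x := by
  have hT := sm_Tm G A y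
  have hB := sm_Bm G A y
  have h1 : dM l (fun x => Tm G A y x * (1 + (-(1 / 2) : ℝ) • Bm G A y x)) x
      = dM l (fun x => 1 + (1 / 2 : ℝ) • Bm G A y x) x := by
    congr 1
    funext z
    have := Tm_eq G A y z
    rw [sub_eq_add_neg, ← neg_smul] at this
    exact this
  rw [dM_mul (hT.dx x) (((SM.const 1).add (hB.smul _)).dx x), dM_add ((SM.const 1).dx x) ((hB.smul _).dx x),
    dM_add ((SM.const 1).dx x) ((hB.smul _).dx x), dM_smul (hB.dx x), dM_smul (hB.dx x), dM_const, zero_add,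
    zero_add] at h1
  rw [← h1]
  rw [sub_eq_add_neg 1, neg_smul, Matrix.mul_smul, neg_smul]
  abel

theorem dTm_zero (y : C) (l : Fin 4) : dM l (Tm G A y) 0 = dM l (Bm G A y) 0 := by
  have h := dTm G A y l 0
  rw [Bm_zero, smul_zero, sub_zero, Matrix.mul_one, Tm_zero, Matrix.one_mul] at h
  have h2 : dM l (Tm G A y) 0 = (1 / 2 : ℝ) • dM l (Bm G A y) 0 + (1 / 2 : ℝ) • dM l (Bm G A y) 0 :=
    sub_eq_iff_eq_add.1 h
  rw [h2, ← add_smul]
  norm_num

theorem ddTm_zero (y : C) (m l : Fin 4) : dM m (dM l (Tm G A y)) 0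
    = dM m (dM l (Bm G A y)) 0 + (1 / 2 : ℝ) • (dM l (Bm G A y) 0 * dM m (Bm G A y) 0
      + dM m (Bm G A y) 0 * dM l (Bm G A y) 0) := by
  have hT := sm_Tm G A y
  have hB := sm_Bm G A y
  have h0 : (fun x => dM l (Tm G A y) x * (1 + (-(1 / 2) : ℝ) • Bm G A y x)
      + (-(1 / 2) : ℝ) • (Tm G A y x * dM l (Bm G A y) x)) = fun x => (1 / 2 : ℝ) • dM l (Bm G A y) x := by
    funext x
    have := dTm G A y l x
    rw [sub_eq_add_neg 1, ← neg_smul, sub_eq_add_neg, ← neg_smul] at this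
    exact this
  have h1 : dM m (fun x => dM l (Tm G A y) x * (1 + (-(1 / 2) : ℝ) • Bm G A y x)
      + (-(1 / 2) : ℝ) • (Tm G A y x * dM l (Bm G A y) x)) 0 = dM m (fun x => (1 / 2 : ℝ) • dM l (Bm G A y) x) 0 :=
    congrArg (fun X : E4 → Matrix κ κ ℝ => dM m X 0) h0
  rw [dM_add (((hT.d l).mul ((SM.const 1).add (hB.smul _))).dx 0) (((hT.mul (hB.d l)).smul _).dx 0),
    dM_mul ((hT.d l).dx 0) (((SM.const 1).add (hB.smul _)).dx 0), dM_add ((SM.const 1).dx 0) ((hB.smul _).dx 0),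
    dM_smul (hB.dx 0), dM_smul ((hT.mul (hB.d l)).dx 0), dM_mul (hT.dx 0) ((hB.d l).dx 0),
    dM_smul ((hB.d l).dx 0), dM_const, zero_add, Bm_zero, smul_zero, add_zero, Matrix.mul_one, Tm_zero,
    Matrix.one_mul, dTm_zero, dTm_zero] at h1
  have h2 : dM m (dM l (Tm G A y)) 0 = (1 / 2 : ℝ) • dM m (dM l (Bm G A y)) 0
      - (dM l (Bm G A y) 0 * (-(1 / 2) : ℝ) • dM m (Bm G A y) 0)
      - (-(1 / 2) : ℝ) • (dM m (Bm G A y) 0 * dM l (Bm G A y) 0 + dM m (dM l (Bm G A y)) 0) := by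
    rw [← h1]; abel
  rw [h2, Matrix.mul_smul]
  ext p q
  simp only [Matrix.sub_apply, Matrix.add_apply, Matrix.smul_apply, smul_eq_mul]
  ring

end cayley

end Crest.Agent.R249.HK8_286
end

-- ▼ part R249/HK8C_286

/-!
# Row 249, PART C, leaf HK8 (helper286), part C: the metric family and the connection family in the adapted gauge.
-/

set_option autoImplicit false
set_option linter.unusedSectionVars false
open scoped ContDiff Topology Matrix
open MeasureTheory Set Metric Filter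

namespace Crest.Agent.R249.HK8_286
open Crest.Agent.R249.HK286 Crest.Agent.R249.HK352 Crest.Agent.R249.HK9_714

section met
variable {V C : Set E4} {R : ℝ} (G : Geo V C R) (m : CMet V)

theorem ell_aux : ∃ c > 0, ∀ (y : C) (x : E4) (v : Fin 4 → ℝ),
    c * ∑ a, v a ^ 2 ≤ ∑ a, ∑ b, m.g a b (y.1 + Th G.pos x) * v a * v b := by
  have hcpt : IsCompact (((fun p : E4 × E4 => p.1 + p.2) '' (C ×ˢ closedBall (0 : E4) (2 * R))) ×ˢ
      (sphere (0 : E4) 1)) := G.cptK.prod (isCompact_sphere _ _)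
  have hcont : ContinuousOn (fun u : E4 × E4 => ∑ a, ∑ b, m.g a b u.1 * u.2 a * u.2 b)
      (((fun p : E4 × E4 => p.1 + p.2) '' (C ×ˢ closedBall (0 : E4) (2 * R))) ×ˢ (sphere (0 : E4) 1)) := by
    refine continuousOn_finsetSum _ fun a _ => continuousOn_finsetSum _ fun b _ => ?_
    refine ContinuousOn.mul (ContinuousOn.mul ?_ ?_) ?_
    · exact (m.smg a b).continuousOn.comp continuous_fst.continuousOn fun u hu => G.subK hu.1
    · exact Continuous.continuousOn (by fun_prop)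
    · exact Continuous.continuousOn (by fun_prop)
  have hpos : ∀ u ∈ (((fun p : E4 × E4 => p.1 + p.2) '' (C ×ˢ closedBall (0 : E4) (2 * R))) ×ˢ
      (sphere (0 : E4) 1)), 0 < ∑ a, ∑ b, m.g a b u.1 * u.2 a * u.2 b := by
    rintro ⟨z, v⟩ ⟨hz, hv⟩
    refine m.pos z (G.subK hz) (fun a => v a) fun h0 => ?_
    have : v = 0 := by
      ext a
      exact congrFun h0 a
    rw [this] at hv
    simp at hv
  obtain ⟨c, hc, hc2⟩ := hcpt.exists_forall_le' hcont hpos
  refine ⟨c, hc, fun y x v => ?_⟩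
  by_cases hv : v = 0
  · subst hv; simp
  set s : ℝ := ∑ a, v a ^ 2 with hs
  have hs0 : 0 < s := by
    obtain ⟨a, ha⟩ := Function.ne_iff.1 hv
    have h1 : 0 < v a ^ 2 := by
      have : v a ≠ 0 := ha
      positivity
    exact lt_of_lt_of_le h1 (Finset.single_le_sum (f := fun a => v a ^ 2) (fun b _ => sq_nonneg _) (Finset.mem_univ a))
  set r : ℝ := Real.sqrt s with hr
  have hr0 : 0 < r := Real.sqrt_pos.2 hs0
  have hrr : r ^ 2 = s := Real.sq_sqrt hs0.le
  set e : E4 := WithLp.toLp 2 (fun a => v a / r) with he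
  have hen : ‖e‖ = 1 := by
    rw [EuclideanSpace.norm_eq]
    have : ∑ a, ‖e a‖ ^ 2 = 1 := by
      have h1 : ∀ a, ‖e a‖ ^ 2 = v a ^ 2 / s := fun a => by
        rw [Real.norm_eq_abs, sq_abs]
        show (v a / r) ^ 2 = _
        rw [div_pow, hrr]
      simp only [h1]
      rw [← Finset.sum_div, ← hs, div_self hs0.ne']
    rw [this, Real.sqrt_one]
  have h2 := hc2 (y.1 + Th G.pos x, e) ⟨G.memK y x, by rw [mem_sphere_zero_iff_norm]; exact hen⟩
  have h3 : ∑ a, ∑ b, m.g a b (y.1 + Th G.pos x) * e a * e b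
      = (∑ a, ∑ b, m.g a b (y.1 + Th G.pos x) * v a * v b) / s := by
    rw [Finset.sum_div]
    refine Finset.sum_congr rfl fun a _ => ?_
    rw [Finset.sum_div]
    refine Finset.sum_congr rfl fun b _ => ?_
    show m.g a b (y.1 + Th G.pos x) * (v a / r) * (v b / r) = _
    rw [← hrr]
    field_simp
  have h4 : c ≤ (∑ a, ∑ b, m.g a b (y.1 + Th G.pos x) * v a * v b) / s := by
    rw [← h3]; exact h2
  rwa [le_div_iff₀ hs0] at h4

theorem wpos_aux : ∃ c > 0, ∀ (y : C) (x : E4), c ≤ m.w (y.1 + Th G.pos x) := by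
  obtain ⟨c, hc, hc2⟩ := G.cptK.exists_forall_le' (m.smw.continuousOn.mono G.subK)
    (fun z hz => m.wpos z (G.subK hz))
  exact ⟨c, hc, fun y x => hc2 _ (G.memK y x)⟩

/-- the family of metrics `g(y + Θ x)` -/
noncomputable def mkM : Met C where
  g y a b x := m.g a b (y.1 + Th G.pos x)
  h y a b x := m.h a b (y.1 + Th G.pos x)
  w y x := m.w (y.1 + Th G.pos x)
  ubg a b := G.ub (m.smg a b)
  ubh a b := G.ub (m.smh a b)
  ubw := G.ub m.smw
  gsymm y a b x := m.gsymm a b _ (G.memTh y x)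
  hsymm y a b x := m.hsymm a b _ (G.memTh y x)
  inv y a b x := m.inv a b _ (G.memTh y x)
  ell := ell_aux G m
  wpos := wpos_aux G m
  wdet y x := m.wdet _ (G.memTh y x)

end met

/-! ### shifted derivatives -/

theorem pd_shift (l : Fin 4) (f : E4 → ℝ) (y x : E4) : pd l (fun z => f (y + z)) x = pd l f (y + x) := by
  rw [pd, pd, fderiv_comp_add_left]

theorem Th_evx {R : ℝ} (hR : 0 < R) {x : E4} (hx : ‖x‖ < R) : ∀ᶠ z in 𝓝 x, Th hR z = z := by
  have : ball (0 : E4) R ∈ 𝓝 x := isOpen_ball.mem_nhds (by rwa [mem_ball_zero_iff])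
  filter_upwards [this] with z hz
  rw [mem_ball_zero_iff] at hz
  exact Th_eq hR hz.le

theorem pd_Th {R : ℝ} (hR : 0 < R) (l : Fin 4) (f : E4 → ℝ) (y : E4) {x : E4} (hx : ‖x‖ < R) :
    pd l (fun z => f (y + Th hR z)) x = pd l f (y + x) := by
  rw [← pd_shift]
  exact pd_congr ((Th_evx hR hx).mono fun z hz => by rw [hz]) l

section con
variable {κ : Type} [Fintype κ] [DecidableEq κ] {V C : Set E4} {R : ℝ} (G : Geo V C R) (A : CCon V κ)

/-- the connection matrices -/
noncomputable def Am (j : Fin 4) (z : E4) : Matrix κ κ ℝ := Matrix.of fun p q => A.a j p q z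
noncomputable def Pm (z : E4) : Matrix κ κ ℝ := Matrix.of fun p q => A.P p q z
noncomputable def Fm (j l : Fin 4) (z : E4) : Matrix κ κ ℝ := Matrix.of fun p q => A.F j l p q z

theorem Am_skew (j : Fin 4) {z : E4} (hz : z ∈ V) : (Am A j z)ᵀ = -Am A j z := by
  ext p q
  simp only [Am, Matrix.transpose_apply, Matrix.of_apply, Matrix.neg_apply]
  exact A.askew j q p z hz

theorem Pm_symm {z : E4} (hz : z ∈ V) : (Pm A z)ᵀ = Pm A z := by
  ext p q
  simp only [Pm, Matrix.transpose_apply, Matrix.of_apply]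
  exact A.Psymm q p z hz

theorem Fm_eq (j l : Fin 4) (z : E4) :
    Fm A j l z = dM j (Am A l) z - dM l (Am A j) z + (Am A j z * Am A l z - Am A l z * Am A j z) := by
  ext p q
  simp only [Fm, Am, dM, Matrix.of_apply, Matrix.add_apply, Matrix.sub_apply, Matrix.mul_apply, CCon.F,
    ← Finset.sum_sub_distrib]

theorem Fm_anti (j l : Fin 4) (z : E4) : Fm A j l z = -Fm A l j z := by
  rw [Fm_eq, Fm_eq]; abel

/-- gauge transformed connection matrices -/
noncomputable def ac (y : C) (j : Fin 4) (x : E4) : Matrix κ κ ℝ :=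
  (Tm G A y x)ᵀ * dM j (Tm G A y) x + (Tm G A y x)ᵀ * (Am A j (y.1 + Th G.pos x) * Tm G A y x)

noncomputable def Pc (y : C) (x : E4) : Matrix κ κ ℝ :=
  (Tm G A y x)ᵀ * (Pm A (y.1 + Th G.pos x) * Tm G A y x)

theorem sm_AmTh (y : C) (j : Fin 4) : SM (fun x => Am A j (y.1 + Th G.pos x)) := fun p q => G.sm (A.sma j p q) y

theorem ub_ac (j : Fin 4) (p q : κ) : UB (fun (y : C) x => ac G A y j x p q) := by
  have h1 : ∀ p q, UB (fun (y : C) x => (Tm G A y x)ᵀ p q) := fun p q => ub_Tm G A q p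
  have h2 : ∀ p q, UB (fun (y : C) x => dM j (Tm G A y) x p q) := fun p q => UB.pd (ub_Tm G A p q) j
  have h3 : ∀ p q, UB (fun (y : C) x => Am A j (y.1 + Th G.pos x) p q) := fun p q => G.ub (A.sma j p q)
  exact UB.add (UB_mmul h1 h2 p q) (UB_mmul h1 (fun p q => UB_mmul h3 (ub_Tm G A) p q) p q)

theorem ub_Pc (p q : κ) : UB (fun (y : C) x => Pc G A y x p q) := by
  have h1 : ∀ p q, UB (fun (y : C) x => (Tm G A y x)ᵀ p q) := fun p q => ub_Tm G A q p
  have h3 : ∀ p q, UB (fun (y : C) x => Pm A (y.1 + Th G.pos x) p q) := fun p q => G.ub (A.smP p q)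
  exact UB_mmul h1 (fun p q => UB_mmul h3 (ub_Tm G A) p q) p q

/-- `(∂_j T)ᵀ T = - Tᵀ ∂_j T` -/
theorem dT_orth (y : C) (j : Fin 4) (x : E4) :
    (dM j (Tm G A y) x)ᵀ * Tm G A y x = -((Tm G A y x)ᵀ * dM j (Tm G A y) x) := by
  have hT := sm_Tm G A y
  have h : dM j (fun x => (Tm G A y x)ᵀ * Tm G A y x) x = 0 := by
    have : (fun x => (Tm G A y x)ᵀ * Tm G A y x) = fun _ => 1 := by
      funext z; exact Tm_orth G A y z
    rw [this, dM_const]
  rw [dM_mul (hT.t.dx x) (hT.dx x), dM_transpose] at h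
  exact eq_neg_of_add_eq_zero_left h

theorem ac_skew (y : C) (j : Fin 4) (x : E4) : (ac G A y j x)ᵀ = -ac G A y j x := by
  rw [ac, Matrix.transpose_add, Matrix.transpose_mul, Matrix.transpose_mul, Matrix.transpose_mul,
    Matrix.transpose_transpose, dT_orth, Am_skew A j (G.memTh y x)]
  rw [neg_add, Matrix.mul_neg, Matrix.neg_mul, Matrix.mul_assoc]

theorem Pc_symm (y : C) (x : E4) : (Pc G A y x)ᵀ = Pc G A y x := by
  rw [Pc, Matrix.transpose_mul, Matrix.transpose_mul, Matrix.transpose_transpose, Pm_symm A (G.memTh y x),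
    Matrix.mul_assoc]

theorem Pc_trace (y : C) (x : E4) : (Pc G A y x).trace = (Pm A (y.1 + Th G.pos x)).trace := by
  rw [Pc, Matrix.trace_mul_comm, Matrix.mul_assoc, Tm_orth', Matrix.mul_one]

include G in
theorem y_mem (y : C) : y.1 ∈ V := by
  have := G.memTh y 0
  rwa [Th_zero, add_zero] at this

/-- first derivative of `B` near the origin -/
theorem dBm_near (y : C) (l : Fin 4) : ∀ᶠ x in 𝓝 (0 : E4), dM l (Bm G A y) x
    = (-(1 / 2) : ℝ) • ((∑ j, x j • dM l (fun z => Am A j (y.1 + Th G.pos z)) x)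
      + (Am A l (y.1 + Th G.pos x) + Am A l y.1)) := by
  have h0 : ∀ᶠ x in 𝓝 (0 : E4), ‖x‖ < R := by
    have : ball (0 : E4) R ∈ 𝓝 (0 : E4) := ball_mem_nhds _ G.pos
    filter_upwards [this] with x hx
    rwa [mem_ball_zero_iff] at hx
  filter_upwards [h0] with x hx
  ext p q
  have e1 : (fun z => Bm G A y z p q) =ᶠ[𝓝 x]
      fun z => -(1 / 2) * ∑ j, (A.a j p q (y.1 + Th G.pos z) + A.a j p q y.1) * z j := by
    filter_upwards [Th_evx G.pos hx] with z hz
    simp only [Bm, Bt, Matrix.of_apply, hz]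
  have hd : ∀ j, DifferentiableAt ℝ (fun z => A.a j p q (y.1 + Th G.pos z)) x := fun j =>
    ((G.sm (A.sma j p q) y).differentiable (by simp)) x
  have hz : ∀ j : Fin 4, DifferentiableAt ℝ (fun z : E4 => z j) x := fun j => by fun_prop
  have hpz : ∀ j : Fin 4, pd l (fun z : E4 => z j) x = if j = l then 1 else 0 := by
    intro j
    have h1 : HasFDerivAt (fun z : E4 => z j) (EuclideanSpace.proj j : E4 →L[ℝ] ℝ) x :=
      (EuclideanSpace.proj j : E4 →L[ℝ] ℝ).hasFDerivAt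
    rw [pd, h1.fderiv]
    simp
  rw [dM, Matrix.of_apply, pd_congr e1 l]
  rw [pd_const_mul (f := fun z => ∑ j, (A.a j p q (y.1 + Th G.pos z) + A.a j p q y.1) * z j)
    (DifferentiableAt.fun_sum fun j _ => ((hd j).add_const _).mul (hz j))]
  rw [pd_sum (f := fun j z => (A.a j p q (y.1 + Th G.pos z) + A.a j p q y.1) * z j) Finset.univ
    (fun j _ => ((hd j).add_const _).mul (hz j))]
  have e2 : ∀ j, pd l (fun z => (A.a j p q (y.1 + Th G.pos z) + A.a j p q y.1) * z j) x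
      = x j * pd l (fun z => A.a j p q (y.1 + Th G.pos z)) x
        + (A.a j p q (y.1 + Th G.pos x) + A.a j p q y.1) * (if j = l then 1 else 0) := by
    intro j
    rw [pd_mul (f := fun z => A.a j p q (y.1 + Th G.pos z) + A.a j p q y.1) ((hd j).add_const _) (hz j) l, hpz,
      pd_add (hd j) (differentiableAt_const _), pd_const]
    ring
  simp only [e2, Finset.sum_add_distrib, mul_ite, mul_one, mul_zero, Finset.sum_ite_eq', Finset.mem_univ, if_true]
  simp only [Matrix.smul_apply, Matrix.add_apply, smul_eq_mul, Matrix.sum_apply, dM, Am, Matrix.of_apply]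

theorem dBm_zero (y : C) (l : Fin 4) : dM l (Bm G A y) 0 = -Am A l y.1 := by
  have h := (dBm_near G A y l).self_of_nhds
  rw [h]
  ext p q
  simp only [PiLp.zero_apply, zero_smul, Finset.sum_const_zero, zero_add, Th_zero, add_zero, Matrix.smul_apply,
    Matrix.add_apply, Matrix.neg_apply, smul_eq_mul]
  ring

theorem ddBm_zero (y : C) (m l : Fin 4) : dM m (dM l (Bm G A y)) 0
    = (-(1 / 2) : ℝ) • (dM l (Am A m) y.1 + dM m (Am A l) y.1) := by
  have h : dM l (Bm G A y) =ᶠ[𝓝 0] _ := dBm_near G A y l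
  rw [dM_congr h m]
  ext p q
  have hd : ∀ j, DifferentiableAt ℝ (fun z => A.a j p q (y.1 + Th G.pos z)) (0:E4) := fun j =>
    ((G.sm (A.sma j p q) y).differentiable (by simp)) 0
  have hdd : ∀ j, DifferentiableAt ℝ (fun x => pd l (fun z => A.a j p q (y.1 + Th G.pos z)) x) (0:E4) := fun j =>
    ((contDiff_pd (G.sm (A.sma j p q) y) l).differentiable (by simp)) 0
  have hz : ∀ j : Fin 4, DifferentiableAt ℝ (fun z : E4 => z j) (0:E4) := fun j => by fun_prop
  have hpz : ∀ j : Fin 4, pd m (fun z : E4 => z j) (0:E4) = if j = m then 1 else 0 := by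
    intro j
    have h1 : HasFDerivAt (fun z : E4 => z j) (EuclideanSpace.proj j : E4 →L[ℝ] ℝ) (0:E4) :=
      (EuclideanSpace.proj j : E4 →L[ℝ] ℝ).hasFDerivAt
    rw [pd, h1.fderiv]
    simp
  have hR : ‖(0:E4)‖ < R := by rw [norm_zero]; exact G.pos
  simp only [dM, Am, Matrix.of_apply, Matrix.smul_apply, Matrix.add_apply, Matrix.sum_apply, smul_eq_mul]
  rw [pd_const_mul (f := fun x : E4 => (∑ j, x j * pd l (fun z => A.a j p q (y.1 + Th G.pos z)) x)
      + (A.a l p q (y.1 + Th G.pos x) + A.a l p q y.1))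
    ((DifferentiableAt.fun_sum fun j _ => (hz j).mul (hdd j)).add ((hd l).add_const _))]
  rw [pd_add (f := fun x : E4 => (∑ j, x j * pd l (fun z => A.a j p q (y.1 + Th G.pos z)) x))
    (DifferentiableAt.fun_sum fun j _ => (hz j).mul (hdd j)) ((hd l).add_const _),
    pd_add (hd l) (differentiableAt_const _), pd_const,
    pd_sum (f := fun j (x : E4) => x j * pd l (fun z => A.a j p q (y.1 + Th G.pos z)) x) Finset.univ
      (fun j _ => (hz j).mul (hdd j))]
  have e2 : ∀ j : Fin 4, pd m (fun x : E4 => x j * pd l (fun z => A.a j p q (y.1 + Th G.pos z)) x) 0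
      = (if j = m then 1 else 0) * pd l (A.a j p q) y.1 := by
    intro j
    rw [pd_mul (f := fun x : E4 => x j) (hz j) (hdd j) m, hpz, pd_Th G.pos l _ _ hR]
    simp
  simp only [e2, ite_mul, one_mul, zero_mul, Finset.sum_ite_eq', Finset.mem_univ, if_true]
  rw [pd_Th G.pos m _ _ hR, add_zero, add_zero]

/-- `a_j = 0` at the origin -/
theorem ac_zero (y : C) (j : Fin 4) : ac G A y j 0 = 0 := by
  rw [ac, Tm_zero, dTm_zero, dBm_zero, Th_zero, add_zero, Matrix.mul_one, Matrix.transpose_one, Matrix.one_mul,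
    Matrix.one_mul, neg_add_cancel]

/-- `∂_l a_j (0) = (1/2) F_{lj}(y)` -/
theorem dac_zero (y : C) (l j : Fin 4) : dM l (ac G A y j) 0 = (1 / 2 : ℝ) • Fm A l j y.1 := by
  have hT := sm_Tm G A y
  have hA := sm_AmTh G A y j
  have hR : ‖(0:E4)‖ < R := by rw [norm_zero]; exact G.pos
  have hdA : dM l (fun x => Am A j (y.1 + Th G.pos x)) 0 = dM l (Am A j) y.1 := by
    ext p q
    simp only [dM, Am, Matrix.of_apply]
    rw [pd_Th G.pos l _ _ hR, add_zero]
  have h1 : dM l (ac G A y j) 0 = dM l (fun x => (Tm G A y x)ᵀ * dM j (Tm G A y) x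
      + (Tm G A y x)ᵀ * (Am A j (y.1 + Th G.pos x) * Tm G A y x)) 0 := rfl
  rw [h1, dM_add ((hT.t.mul (hT.d j)).dx 0) ((hT.t.mul (hA.mul hT)).dx 0), dM_mul (hT.t.dx 0) ((hT.d j).dx 0),
    dM_mul (hT.t.dx 0) ((hA.mul hT).dx 0), dM_mul (hA.dx 0) (hT.dx 0), dM_transpose, Tm_zero, ddTm_zero,
    ddBm_zero, dTm_zero, dTm_zero, dBm_zero, dBm_zero, hdA, Th_zero, add_zero, Fm_eq,
    Matrix.transpose_neg, Am_skew A l (y_mem G y)]
  simp only [Matrix.mul_one, Matrix.transpose_one, Matrix.one_mul, neg_neg, Matrix.mul_neg, Matrix.neg_mul]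
  ext p q
  simp only [Matrix.sub_apply, Matrix.add_apply, Matrix.smul_apply, Matrix.neg_apply, smul_eq_mul]
  ring

/-- the connection family in the adapted gauge -/
noncomputable def mkC (m : CMet V) : Con (mkM G m) κ where
  a y j p q x := ac G A y j x p q
  P y p q x := Pc G A y x p q
  uba j p q := ub_ac G A j p q
  ubP p q := ub_Pc G A p q
  askew y j p q x := by
    have := congrFun (congrFun (ac_skew G A y j x) q) p
    rw [Matrix.transpose_apply, Matrix.neg_apply] at this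
    exact this
  Psymm y p q x := by
    have := congrFun (congrFun (Pc_symm G A y x) q) p
    rw [Matrix.transpose_apply] at this
    exact this
  azero y j p q := by
    show ac G A y j 0 p q = 0
    rw [ac_zero]; rfl
  arad y j l p q := by
    have h1 := congrFun (congrFun (dac_zero G A y l j) p) q
    have h2 := congrFun (congrFun (dac_zero G A y j l) p) q
    rw [Fm_anti] at h1
    simp only [dM, Matrix.of_apply, Matrix.smul_apply, Matrix.neg_apply, smul_eq_mul] at h1 h2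
    show pd l (fun x => ac G A y j x p q) 0 = -pd j (fun x => ac G A y l x p q) 0
    rw [h1, h2]; ring

theorem mkC_dens (m : CMet V) (y : C) : (mkC G A m).dens y = A.dens m.h y.1 := by
  have hP : ∀ p q, (mkC G A m).P y p q 0 = A.P p q y.1 := fun p q => by
    show Pc G A y 0 p q = _
    rw [Pc, Tm_zero, Th_zero, add_zero, Matrix.mul_one, Matrix.transpose_one, Matrix.one_mul]
    rfl
  have hh : ∀ a b, (mkM G m).h y a b 0 = m.h a b y.1 := fun a b => by
    show m.h a b (y.1 + Th G.pos 0) = _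
    rw [Th_zero, add_zero]
  have ha : ∀ l j p q, pd l ((mkC G A m).a y j p q) 0 = -(1 / 2) * A.F j l p q y.1 := fun l j p q => by
    have h1 := congrFun (congrFun (dac_zero G A y l j) p) q
    rw [Fm_anti] at h1
    simp only [dM, Matrix.of_apply, Matrix.smul_apply, Matrix.neg_apply, smul_eq_mul, Fm] at h1
    show pd l (fun x => ac G A y j x p q) 0 = _
    rw [h1]; ring
  simp only [Con.dens, CCon.dens, hP, hh, ha]
  congr 1
  simp only [Finset.mul_sum]
  refine Finset.sum_congr rfl fun j _ => Finset.sum_congr rfl fun k _ => Finset.sum_congr rfl fun l _ =>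
    Finset.sum_congr rfl fun n _ => Finset.sum_congr rfl fun p _ => Finset.sum_congr rfl fun q _ => ?_
  have hpi : Real.pi ≠ 0 := Real.pi_ne_zero
  field_simp
  ring

end con

end Crest.Agent.R249.HK8_286
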