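import Crest.Agent.R249.HKCmp2_286
import Crest.Agent.R249.HK8C_286
import Crest.Agent.R249.HK3A_352
import Crest.Agent.R249.HKCal_286

-- ▼ part R249/HKMain_286
section

/-!
# Row 249, PART C, block HK (helper286): assembly of `MainStmt` from the leaves.
-/

set_option autoImplicit false
set_option linter.unusedSectionVars false
open scoped ContDiff Topology
open MeasureTheory Set Metric Filter

namespace Crest.Agent.R249.HK286

/-- existence of the cut-offs -/
theorem exists_cut {R : ℝ} (hR : 0 < R) : Nonempty (Cut R) := by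
  have h : ∀ m : ℕ, ∃ f : E4 → ℝ, ContDiff ℝ ∞ f ∧ (∀ x, 0 ≤ f x ∧ f x ≤ 1) ∧
      (∀ x, ‖x‖ ≤ 2 * m * R / 8 → f x = 1) ∧ (∀ x, (2 * m + 1) * R / 8 ≤ ‖x‖ → f x = 0) := by
    intro m
    have hm : (0:ℝ) ≤ m := Nat.cast_nonneg m
    let b : ContDiffBump (0 : E4) :=
      ⟨(2 * m + 1 / 2) * R / 8, (2 * m + 1) * R / 8, by positivity, by nlinarith⟩
    refine ⟨b, b.contDiff, fun x => ⟨b.nonneg, b.le_one⟩, fun x hx => ?_, fun x hx => ?_⟩
    · apply b.one_of_mem_closedBall
      rw [mem_closedBall_zero_iff]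
      refine hx.trans ?_
      show 2 * (m:ℝ) * R / 8 ≤ (2 * m + 1 / 2) * R / 8
      nlinarith
    · apply b.zero_of_le_dist
      rw [dist_zero_right]
      exact hx
  choose f hf using h
  exact ⟨⟨f, fun m => (hf m).1, fun m => (hf m).2.1, fun m => (hf m).2.2.1, fun m => (hf m).2.2.2⟩⟩

section
variable {ι : Type*} {M : Met ι} {κ : Type} [Fintype κ] [DecidableEq κ] {R : ℝ}
  {c : Cut R} {D : Con M κ} (hC : Cal M) (hM : InpM M c) (hD : InpD c D)
include hC hM hD

theorem vb_kk (p q : κ) : VB 0 (fun i t x => D.kk c i t x p q) := by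
  have a1 := hC.star_vb 0 (sc (M.HH c 2)) (D.f1 c) le_rfl
    (fun p r => by
      by_cases h : p = r
      · simpa [sc, h] using kw_HH hC hM 2
      · simpa [sc, h] using (kw_zero : KW (fun (_ : ι) (_ : ℝ) (_ _ : E4) => (0 : ℝ))))
    (vb_f1 hC hM hD) p q
  have a2 := hC.star_vb 0 (sc (M.HH c 3)) (D.f2 c) le_rfl
    (fun p r => by
      by_cases h : p = r
      · simpa [sc, h] using kw_HH hC hM 3
      · simpa [sc, h] using (kw_zero : KW (fun (_ : ι) (_ : ℝ) (_ _ : E4) => (0 : ℝ))))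
    (fun r q => vb10 hC hM hD (vb_f2 hC hM hD r q)) p q
  have a3 := hC.vb_smul 0 (if p = q then 1 else 0) _ (vb_h1 hC hM)
  have b1 := hC.vb_mono (0 + 1) 0 _ (by norm_num) a1
  have b2 := hC.vb_mono (0 + 1) 0 _ (by norm_num) a2
  have := hC.vb_add 0 _ _ (hC.vb_sub a3 b1) b2
  have h2 : (fun i t x => D.kk c i t x p q) = fun i t x => (if p = q then 1 else 0) * h1 M c i t x
      - M.star (sc (M.HH c 2)) (D.f1 c) i t x p q + M.star (sc (M.HH c 3)) (D.f2 c) i t x p q := by
    funext i t x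
    simp only [Con.kk, h1]
    split_ifs <;> ring
  rw [h2]; exact this

theorem kk_bd : ∃ C : ℝ, ∀ i, ∀ t ∈ Ioc (0 : ℝ) 1,
    ∫ x, (∑ p, ∑ q, D.kk c i t x p q ^ 2) * M.w i x ≤ C / t ^ 2 := by
  choose C hCb using fun p q => (hC.int_mul 0 0 _ _ le_rfl le_rfl (vb_kk hC hM hD p q) (vb_kk hC hM hD p q)).2
  refine ⟨∑ p, ∑ q, C p q, fun i t ht => ?_⟩
  have i5 := fun p q => (hC.int_mul 0 0 _ _ le_rfl le_rfl (vb_kk hC hM hD p q) (vb_kk hC hM hD p q)).1 i t ht
  have e1 : ∀ x, (∑ p, ∑ q, D.kk c i t x p q ^ 2) * M.w i x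
      = ∑ p, ∑ q, D.kk c i t x p q * D.kk c i t x p q * M.w i x := by
    intro x
    simp only [Finset.sum_mul]
    refine Finset.sum_congr rfl fun p _ => Finset.sum_congr rfl fun q _ => ?_
    ring
  simp only [e1]
  rw [integral_finsetSum _ fun p _ => integrable_finsetSum _ fun q _ => i5 p q, Finset.sum_div]
  refine Finset.sum_le_sum fun p _ => ?_
  rw [integral_finsetSum _ fun q _ => i5 p q, Finset.sum_div]
  refine Finset.sum_le_sum fun q _ => ?_
  refine (le_abs_self _).trans ((hCb p q i t ht).trans (le_of_eq ?_))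
  rw [show (0:ℝ) + 0 - 2 = -2 by norm_num, Real.rpow_neg ht.1.le, div_eq_mul_inv]
  norm_num

end

/-- the assembly -/
theorem mainStmt_of
    (hCal : ∀ (ι : Type) (M : Met ι), Cal M)
    (hInpM : ∀ (ι : Type) (M : Met ι) (R : ℝ) (c : Cut R), 0 < R → InpM M c)
    (hInpD : ∀ (ι : Type) (M : Met ι) (R : ℝ) (c : Cut R) (κ : Type) [Fintype κ] [DecidableEq κ]
      (D : Con M κ), 0 < R → InpD c D)
    (hCore : ∀ (ι : Type) (M : Met ι) (R : ℝ) (c : Cut R) (κ : Type) [Fintype κ] [DecidableEq κ]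
      (D : Con M κ), 0 < R → CoreStmt c D)
    (hLim : ∀ (ι : Type) (M : Met ι) (R : ℝ) (c : Cut R) (κ : Type) [Fintype κ] [DecidableEq κ]
      (D : Con M κ), 0 < R → LimStmt c D) : MainStmt := by
  intro ι M κ κ' _ _ _ _ D D' R K K' _ _ hR hcard htr S S'
  obtain ⟨c⟩ := exists_cut hR
  have hC := hCal ι M
  have hM := hInpM ι M R c hR
  have hD := hInpD ι M R c κ D hR
  have hD' := hInpD ι M R c κ' D' hR
  obtain ⟨C1, h1'⟩ := hCore ι M R c κ D hR K S
  obtain ⟨C2, h2'⟩ := hCore ι M R c κ' D' hR K' S'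
  obtain ⟨C3, h3'⟩ := kk_bd hC hM hD
  obtain ⟨C4, h4'⟩ := kk_bd hC hM hD'
  obtain ⟨C5, h5'⟩ := cmp hC hM hD hD' hcard htr
  obtain ⟨⟨C6, h6'⟩, l1, l2, l3⟩ := hLim ι M R c κ D hR
  obtain ⟨⟨C7, h7'⟩, l1', l2', l3'⟩ := hLim ι M R c κ' D' hR
  -- the main difference
  have key : ∀ i, ∀ t ∈ Ioc (0 : ℝ) 1,
      |(S.diag i t - S'.diag i t) - ((2 * D.m1 c i t + 2 * D.m2 c i t + D.m3 c i t)
        - (2 * D'.m1 c i t + 2 * D'.m2 c i t + D'.m3 c i t))| ≤ (|C1| + |C2| + |C5|) * Real.sqrt t := by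
    intro i t ht
    have e1 := (h1' i t ht).2
    have e2 := (h2' i t ht).2
    have e3 := h5' i t ht
    have hs : t ≤ Real.sqrt t := by
      have h0 := Real.sq_sqrt ht.1.le
      have h1'' : Real.sqrt t ≤ 1 := Real.sqrt_le_one.2 ht.2
      nlinarith [Real.sqrt_nonneg t]
    have hsn := Real.sqrt_nonneg t
    have f1 : |S.diag i t - ∫ x, (∑ p, ∑ q, D.kk c i t x p q ^ 2) * M.w i x| ≤ |C1| * Real.sqrt t :=
      e1.trans ((mul_le_mul_of_nonneg_right (le_abs_self C1) ht.1.le).trans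
        (mul_le_mul_of_nonneg_left hs (abs_nonneg _)))
    have f2 : |S'.diag i t - ∫ x, (∑ p, ∑ q, D'.kk c i t x p q ^ 2) * M.w i x| ≤ |C2| * Real.sqrt t :=
      e2.trans ((mul_le_mul_of_nonneg_right (le_abs_self C2) ht.1.le).trans
        (mul_le_mul_of_nonneg_left hs (abs_nonneg _)))
    have f3 := e3.trans (mul_le_mul_of_nonneg_right (le_abs_self C5) hsn)
    rw [abs_le] at f1 f2 f3 ⊢
    constructor <;> nlinarith [f1.1, f1.2, f2.1, f2.2, f3.1, f3.2]
  refine ⟨⟨|C1| + |C2| + |C5| + |C3| + |C4| + 5 * |C6| + 5 * |C7|, fun i t ht => ?_⟩, fun i => ?_⟩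
  · have ht2 : (0:ℝ) < t ^ 2 := by have := ht.1; positivity
    have hs1 : Real.sqrt t ≤ 1 := Real.sqrt_le_one.2 ht.2
    have ht1 : t ≤ 1 / t ^ 2 := by
      rw [le_div_iff₀ ht2]
      have := ht.1; have := ht.2
      calc t * t ^ 2 = t ^ 3 := by ring
        _ ≤ 1 := pow_le_one₀ ht.1.le ht.2
    have n1 := abs_nonneg C1; have n2 := abs_nonneg C2; have n3 := abs_nonneg C3
    have n4 := abs_nonneg C4; have n5 := abs_nonneg C5; have n6 := abs_nonneg C6
    have n7 := abs_nonneg C7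
    have hinv : (0:ℝ) ≤ 1 / t ^ 2 := by positivity
    refine ⟨(h1' i t ht).1, (h2' i t ht).1, ?_, ?_, ?_⟩
    · have e1 := (abs_le.1 (h1' i t ht).2).2
      have e3 := h3' i t ht
      have a1 : C1 * t ≤ |C1| * (1 / t ^ 2) :=
        (mul_le_mul_of_nonneg_right (le_abs_self C1) ht.1.le).trans (mul_le_mul_of_nonneg_left ht1 n1)
      have a3 : C3 / t ^ 2 ≤ |C3| * (1 / t ^ 2) := by
        rw [mul_one_div]; exact div_le_div_of_nonneg_right (le_abs_self C3) ht2.le
      calc S.diag i t ≤ C1 * t + C3 / t ^ 2 := by linarith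
        _ ≤ (|C1| + |C3|) * (1 / t ^ 2) := by linarith
        _ ≤ (|C1| + |C2| + |C5| + |C3| + |C4| + 5 * |C6| + 5 * |C7|) * (1 / t ^ 2) :=
          mul_le_mul_of_nonneg_right (by linarith) hinv
        _ = _ := by rw [mul_one_div]
    · have e1 := (abs_le.1 (h2' i t ht).2).2
      have e3 := h4' i t ht
      have a1 : C2 * t ≤ |C2| * (1 / t ^ 2) :=
        (mul_le_mul_of_nonneg_right (le_abs_self C2) ht.1.le).trans (mul_le_mul_of_nonneg_left ht1 n2)
      have a3 : C4 / t ^ 2 ≤ |C4| * (1 / t ^ 2) := by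
        rw [mul_one_div]; exact div_le_div_of_nonneg_right (le_abs_self C4) ht2.le
      calc S'.diag i t ≤ C2 * t + C4 / t ^ 2 := by linarith
        _ ≤ (|C2| + |C4|) * (1 / t ^ 2) := by linarith
        _ ≤ (|C1| + |C2| + |C5| + |C3| + |C4| + 5 * |C6| + 5 * |C7|) * (1 / t ^ 2) :=
          mul_le_mul_of_nonneg_right (by linarith) hinv
        _ = _ := by rw [mul_one_div]
    · have k := key i t ht
      have k' : (|C1| + |C2| + |C5|) * Real.sqrt t ≤ |C1| + |C2| + |C5| := by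
        have : 0 ≤ |C1| + |C2| + |C5| := by positivity
        nlinarith
      obtain ⟨u1, u2, u3⟩ := h6' i t ht
      obtain ⟨v1, v2, v3⟩ := h7' i t ht
      have c6 := le_abs_self C6
      have c7 := le_abs_self C7
      rw [abs_le] at k u1 u2 u3 v1 v2 v3 ⊢
      constructor <;> linarith [k.1, k.2, u1.1, u1.2, u2.1, u2.2, u3.1, u3.2, v1.1, v1.2, v2.1, v2.2, v3.1, v3.2]
  · have g1 : Tendsto (fun t => (2 * D.m1 c i t + 2 * D.m2 c i t + D.m3 c i t)
        - (2 * D'.m1 c i t + 2 * D'.m2 c i t + D'.m3 c i t)) (𝓝[>] 0) (𝓝 (D.dens i - D'.dens i)) := by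
      have := ((((l1 i).const_mul 2).add ((l2 i).const_mul 2)).add (l3 i)).sub
        ((((l1' i).const_mul 2).add ((l2' i).const_mul 2)).add (l3' i))
      refine this.congr' ?_ |>.trans (le_of_eq ?_)
      · exact Eventually.of_forall fun t => rfl
      · congr 1
        simp only [Con.dens]
        ring
    have g2 : Tendsto (fun t => (S.diag i t - S'.diag i t) - ((2 * D.m1 c i t + 2 * D.m2 c i t + D.m3 c i t)
        - (2 * D'.m1 c i t + 2 * D'.m2 c i t + D'.m3 c i t))) (𝓝[>] 0) (𝓝 0) := by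
      have hz : Tendsto (fun t : ℝ => (|C1| + |C2| + |C5|) * Real.sqrt t) (𝓝[>] 0) (𝓝 0) := by
        have : Tendsto (fun t : ℝ => (|C1| + |C2| + |C5|) * Real.sqrt t) (𝓝 0)
            (𝓝 ((|C1| + |C2| + |C5|) * Real.sqrt 0)) :=
          (Real.continuous_sqrt.tendsto 0).const_mul _
        rw [Real.sqrt_zero, mul_zero] at this
        exact this.mono_left nhdsWithin_le_nhds
      refine squeeze_zero_norm' ?_ hz
      have hmem : Ioc (0:ℝ) 1 ∈ 𝓝[>] (0:ℝ) := Ioc_mem_nhdsGT (by norm_num)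
      filter_upwards [hmem] with t ht
      rw [Real.norm_eq_abs]
      exact key i t ht
    have := g2.add g1
    simp only [zero_add, sub_add_cancel] at this
    exact this

end Crest.Agent.R249.HK286
end

-- ▼ part R249/HK8D_286
section

/-!
# Row 249, PART C, leaf HK8 (helper286), part D: the Parseval system in the adapted gauge.
-/

set_option autoImplicit false
set_option linter.unusedSectionVars false
open scoped ContDiff Topology Matrix
open MeasureTheory Set Metric Filter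

namespace Crest.Agent.R249.HK8_286
open Crest.Agent.R249.HK286 Crest.Agent.R249.HK352 Crest.Agent.R249.HK9_714

theorem int_pd_zero {φ : E4 → ℝ} (h : ContDiff ℝ ∞ φ) (hc : HasCompactSupport φ) (j : Fin 4) :
    ∫ x, pd j φ x = 0 := by
  have h1 : Continuous (pd j φ) := (contDiff_pd h j).continuous
  have h2 : HasCompactSupport (pd j φ) := (hc.fderiv ℝ).comp_left (g := fun L : E4 →L[ℝ] ℝ => L (EuclideanSpace.single j 1)) (by simp)
  have h3 : Integrable (pd j φ) := h1.integrable_of_hasCompactSupport h2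
  have h4 : Integrable φ := h.continuous.integrable_of_hasCompactSupport hc
  have h5 : Integrable (fun x => (fderiv ℝ φ x) (EuclideanSpace.single j 1) * (1:ℝ)) := by
    simp only [mul_one]; exact h3
  have h6 : Integrable (fun x => φ x * (1:ℝ)) := by
    simp only [mul_one]; exact h4
  have h7 : Integrable (fun x : E4 => φ x * (fderiv ℝ (fun _ : E4 => (1:ℝ)) x) (EuclideanSpace.single j 1)) := by
    simp
  have key := integral_mul_fderiv_eq_neg_fderiv_mul_of_integrable (μ := (volume : Measure E4)) (f := φ)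
    (g := fun _ => (1:ℝ)) (v := EuclideanSpace.single j 1) h5 h7 h6 (fun x _ => (h.differentiable (by simp)) x)
    (fun x _ => differentiableAt_const _)
  simp only [fderiv_fun_const, mul_one, Pi.zero_apply, zero_apply, mul_zero, integral_zero] at key
  have : -∫ x, pd j φ x = 0 := key.symm
  linarith

theorem glue {u X : E4 → ℝ} {r R : ℝ} (hr : r < R) (hu : ContDiffOn ℝ ∞ u (ball 0 R)) (hX : ContDiff ℝ ∞ X)
    (h0 : ∀ x, r < ‖x‖ → X x = 0) :
    ContDiff ℝ ∞ (fun x => u x * X x) ∧ HasCompactSupport (fun x => u x * X x) := by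
  constructor
  · rw [contDiff_iff_contDiffAt]
    intro x
    by_cases hx : ‖x‖ < R
    · exact (hu.contDiffAt (isOpen_ball.mem_nhds (by rwa [mem_ball_zero_iff]))).mul hX.contDiffAt
    · have hx2 : r < ‖x‖ := lt_of_lt_of_le hr (not_lt.1 hx)
      have he : (fun x => u x * X x) =ᶠ[𝓝 x] fun _ => 0 := by
        have : ∀ᶠ z in 𝓝 x, r < ‖z‖ := (continuous_norm.tendsto x).eventually (lt_mem_nhds hx2)
        filter_upwards [this] with z hz
        rw [h0 z hz, mul_zero]
      exact contDiffAt_const.congr_of_eventuallyEq he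
  · refine HasCompactSupport.intro (isCompact_closedBall (0:E4) r) fun x hx => ?_
    rw [mem_closedBall_zero_iff, not_le] at hx
    rw [h0 x hx, mul_zero]

section sys
variable {κ : Type} [Fintype κ] [DecidableEq κ] {V C : Set E4} {R : ℝ} (G : Geo V C R) (m : CMet V) (A : CCon V κ)

/-- pull back of a vector function to the adapted gauge at `y` -/
noncomputable def pb (y : C) (u : E4 → κ → ℝ) (x : E4) : κ → ℝ := (Tm G A y x)ᵀ *ᵥ u (y.1 + x)

/-- push forward -/
noncomputable def pf (y : C) (f : E4 → κ → ℝ) (z : E4) : κ → ℝ := Tm G A y (z - y.1) *ᵥ f (z - y.1)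

theorem pf_pb (y : C) (u : E4 → κ → ℝ) : pf G A y (pb G A y u) = u := by
  funext z
  rw [pf, pb, Matrix.mulVec_mulVec, Tm_orth', Matrix.one_mulVec, add_sub_cancel]

theorem pb_pf (y : C) (f : E4 → κ → ℝ) : pb G A y (pf G A y f) = f := by
  funext x
  rw [pb, pf, add_sub_cancel_left, Matrix.mulVec_mulVec, Tm_orth, Matrix.one_mulVec]

theorem pf_add (y : C) (f : E4 → κ → ℝ) (x : E4) : pf G A y f (y.1 + x) = Tm G A y x *ᵥ f x := by
  rw [pf, add_sub_cancel_left]

theorem dot_T (y : C) (x : E4) (v w : κ → ℝ) :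
    (Tm G A y x *ᵥ v) ⬝ᵥ (Tm G A y x *ᵥ w) = v ⬝ᵥ w := by
  rw [Matrix.dotProduct_mulVec, ← Matrix.mulVec_transpose, Matrix.mulVec_mulVec, Tm_orth, Matrix.one_mulVec]

theorem dot_pf (y : C) (f u : E4 → κ → ℝ) (x : E4) :
    ∑ p, pf G A y f (y.1 + x) p * u (y.1 + x) p = ∑ p, f x p * pb G A y u x p := by
  have h1 : ∑ p, pf G A y f (y.1 + x) p * u (y.1 + x) p = pf G A y f (y.1 + x) ⬝ᵥ u (y.1 + x) := rfl
  have h2 : ∑ p, f x p * pb G A y u x p = f x ⬝ᵥ pb G A y u x := rfl
  rw [h1, h2]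
  conv_lhs => rw [← pf_pb G A y u]
  rw [pf_add, pf_add, dot_T]

theorem cCov_eq (l : Fin 4) (f : E4 → κ → ℝ) (z : E4) : A.cov l f z = dV l f z + Am A l z *ᵥ f z := rfl

theorem cov_eq (y : C) (l : Fin 4) (f : E4 → κ → ℝ) (x : E4) :
    (mkC G A m).cov y l f x = dV l f x + ac G A y l x *ᵥ f x := rfl

theorem cov_pf (y : C) (l : Fin 4) (f : E4 → κ → ℝ) {x : E4} (hx : ‖x‖ < R) (hf : DXv f x) :
    A.cov l (pf G A y f) (y.1 + x) = Tm G A y x *ᵥ (mkC G A m).cov y l f x := by
  have hT := sm_Tm G A y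
  have h1 : dV l (pf G A y f) (y.1 + x) = dV l (fun z => Tm G A y z *ᵥ f z) x := by
    ext p
    rw [dV, dV, ← pd_shift]
    refine pd_congr (Eventually.of_forall fun z => ?_) l
    show pf G A y f (y.1 + z) p = _
    rw [pf_add]
  rw [cCov_eq, cov_eq, h1, dV_mulVec (hT.dx x) hf, pf_add, ac, Th_eq G.pos hx.le, Matrix.mulVec_add,
    Matrix.mulVec_mulVec, Matrix.mulVec_mulVec, Matrix.mul_add, ← Matrix.mul_assoc, ← Matrix.mul_assoc (Tm G A y x),
    Tm_orth', Matrix.one_mul, Matrix.one_mul, Matrix.add_mulVec]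
  abel

/-- inner products against pushed forward functions -/
theorem ip_push (y : C) (f u : E4 → κ → ℝ) (h0 : ∀ x p, R ≤ ‖x‖ → f x p = 0) :
    ∫ z, (∑ p, pf G A y f z p * u z p) * m.w z = (mkM G m).ip y f (pb G A y u) := by
  rw [← integral_add_left_eq_self (μ := volume) (fun z => (∑ p, pf G A y f z p * u z p) * m.w z) y.1]
  rw [Met.ip]
  refine integral_congr_ae (Eventually.of_forall fun x => ?_)
  show (∑ p, pf G A y f (y.1 + x) p * u (y.1 + x) p) * m.w (y.1 + x) = _ * m.w (y.1 + Th G.pos x)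
  rw [dot_pf]
  by_cases hx : ‖x‖ < R
  · rw [Th_eq G.pos hx.le]
  · have : ∑ p, f x p * pb G A y u x p = 0 := Finset.sum_eq_zero fun p _ => by rw [h0 x p (not_lt.1 hx), zero_mul]
    rw [this, zero_mul, zero_mul]

theorem sm_pb (y : C) {u : E4 → κ → ℝ} (hu : ∀ p, ContDiffOn ℝ ∞ (fun x => u x p) V) (p : κ) :
    ContDiffOn ℝ ∞ (fun x => pb G A y u x p) (ball 0 R) := by
  have h1 : (fun x => pb G A y u x p) = fun x => ∑ r, Tm G A y x r p * u (y.1 + x) r := by
    funext x; rfl
  rw [h1]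
  refine ContDiffOn.sum fun r _ => ContDiffOn.mul (sm_Tm G A y r p).contDiffOn ?_
  refine (hu r).comp (contDiff_const.add contDiff_id).contDiffOn fun x hx => ?_
  rw [mem_ball_zero_iff] at hx
  have hx' : ‖x‖ < R := hx
  exact G.mem y x (by linarith [G.pos])

/-- zero derivatives -/
theorem pd_zero_of {f : E4 → ℝ} {x : E4} (h : ∀ᶠ z in 𝓝 x, f z = 0) (j : Fin 4) : pd j f x = 0 := by
  have : pd j f x = pd j (fun _ => (0:ℝ)) x := pd_congr h j
  rw [this, pd_const]

theorem ev_gt {r : ℝ} {x : E4} (hx : r < ‖x‖) : ∀ᶠ z in 𝓝 x, r < ‖z‖ :=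
  (continuous_norm.tendsto x).eventually (lt_mem_nhds hx)

theorem cov_zero_of (y : C) (l : Fin 4) {f : E4 → κ → ℝ} {x : E4} (h : ∀ᶠ z in 𝓝 x, ∀ p, f z p = 0) (p : κ) :
    (mkC G A m).cov y l f x p = 0 := by
  have h0 := h.self_of_nhds
  rw [Con.cov, pd_zero_of (h.mono fun z hz => hz p)]
  simp [h0]

theorem cCov_zero_of (l : Fin 4) {f : E4 → κ → ℝ} {x : E4} (h : ∀ᶠ z in 𝓝 x, ∀ p, f z p = 0) (p : κ) :
    A.cov l f x p = 0 := by
  have h0 := h.self_of_nhds
  rw [CCon.cov, pd_zero_of (h.mono fun z hz => hz p)]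
  simp [h0]

/-- the bilinear form of the operator in the adapted gauge -/
noncomputable def bf (y : C) (u f : E4 → κ → ℝ) (x : E4) : ℝ :=
  (∑ j, ∑ l, (mkM G m).h y j l x * ∑ p, (mkC G A m).cov y j u x p * (mkC G A m).cov y l f x p
    + ∑ p, ∑ q, (mkC G A m).P y p q x * u x q * f x p) * (mkM G m).w y x

theorem bf_push (y : C) {f u : E4 → κ → ℝ} {r : ℝ} (hr : r < R) (hf : ∀ p, ContDiff ℝ ∞ fun x => f x p)
    (h0 : ∀ x p, r ≤ ‖x‖ → f x p = 0) (hu : ∀ p, ContDiffOn ℝ ∞ (fun x => u x p) V) :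
    ∫ z, (∑ j, ∑ l, m.h j l z * ∑ p, A.cov j u z p * A.cov l (pf G A y f) z p
        + ∑ p, ∑ q, A.P p q z * u z q * pf G A y f z p) * m.w z = ∫ x, bf G m A y (pb G A y u) f x := by
  rw [← integral_add_left_eq_self (μ := volume) (fun z => (∑ j, ∑ l, m.h j l z * ∑ p, A.cov j u z p * A.cov l (pf G A y f) z p
        + ∑ p, ∑ q, A.P p q z * u z q * pf G A y f z p) * m.w z) y.1]
  refine integral_congr_ae (Eventually.of_forall fun x => ?_)
  show (∑ j, ∑ l, m.h j l (y.1 + x) * ∑ p, A.cov j u (y.1 + x) p * A.cov l (pf G A y f) (y.1 + x) p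
        + ∑ p, ∑ q, A.P p q (y.1 + x) * u (y.1 + x) q * pf G A y f (y.1 + x) p) * m.w (y.1 + x) = _
  by_cases hx : ‖x‖ < R
  · have hfd : DXv f x := fun p => ((hf p).differentiable (by simp)) x
    have hud : DXv (pb G A y u) x := fun p =>
      ((sm_pb G A y hu p).contDiffAt (isOpen_ball.mem_nhds (by rwa [mem_ball_zero_iff]))).differentiableAt (by simp)
    have e1 : ∀ j, A.cov j u (y.1 + x) = Tm G A y x *ᵥ (mkC G A m).cov y j (pb G A y u) x := fun j => by
      conv_lhs => rw [← pf_pb G A y u]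
      exact cov_pf G m A y j _ hx hud
    have e2 : ∀ l, A.cov l (pf G A y f) (y.1 + x) = Tm G A y x *ᵥ (mkC G A m).cov y l f x := fun l =>
      cov_pf G m A y l f hx hfd
    have e3 : ∀ j l, ∑ p, A.cov j u (y.1 + x) p * A.cov l (pf G A y f) (y.1 + x) p
        = ∑ p, (mkC G A m).cov y j (pb G A y u) x p * (mkC G A m).cov y l f x p := fun j l => by
      rw [e1, e2]
      exact dot_T G A y x _ _
    have e4 : ∑ p, ∑ q, A.P p q (y.1 + x) * u (y.1 + x) q * pf G A y f (y.1 + x) p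
        = ∑ p, ∑ q, (mkC G A m).P y p q x * pb G A y u x q * f x p := by
      have h1 : ∑ p, ∑ q, A.P p q (y.1 + x) * u (y.1 + x) q * pf G A y f (y.1 + x) p
          = (Pm A (y.1 + x) *ᵥ u (y.1 + x)) ⬝ᵥ pf G A y f (y.1 + x) := by
        simp only [Matrix.mulVec, dotProduct, Finset.sum_mul, Pm, Matrix.of_apply]
      have h2 : ∑ p, ∑ q, (mkC G A m).P y p q x * pb G A y u x q * f x p
          = (Pc G A y x *ᵥ pb G A y u x) ⬝ᵥ f x := by
        simp only [Matrix.mulVec, dotProduct, Finset.sum_mul]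
        rfl
      rw [h1, h2, pf_add]
      have h3 : u (y.1 + x) = Tm G A y x *ᵥ pb G A y u x := by
        rw [← pf_add, pf_pb]
      rw [h3, Pc, Th_eq G.pos hx.le, ← Matrix.mulVec_mulVec, ← Matrix.mulVec_mulVec]
      set w1 : κ → ℝ := Pm A (y.1 + x) *ᵥ Tm G A y x *ᵥ pb G A y u x
      rw [dotProduct_comm, dotProduct_comm ((Tm G A y x)ᵀ *ᵥ w1), Matrix.mulVec_transpose,
        dotProduct_comm (f x), ← Matrix.dotProduct_mulVec, dotProduct_comm]
    simp only [e3, e4]
    show _ = bf G m A y (pb G A y u) f x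
    rw [bf]
    have hh : ∀ j l, (mkM G m).h y j l x = m.h j l (y.1 + x) := fun j l => by
      show m.h j l (y.1 + Th G.pos x) = _
      rw [Th_eq G.pos hx.le]
    have hw : (mkM G m).w y x = m.w (y.1 + x) := by
      show m.w (y.1 + Th G.pos x) = _
      rw [Th_eq G.pos hx.le]
    simp only [hh, hw]
  · have hx2 : r < ‖x‖ := lt_of_lt_of_le hr (not_lt.1 hx)
    have hf0 : ∀ᶠ z in 𝓝 x, ∀ p, f z p = 0 := (ev_gt hx2).mono fun z hz p => h0 z p hz.le
    have hpf0 : ∀ᶠ z in 𝓝 (y.1 + x), ∀ p, pf G A y f z p = 0 := by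
      have h1 : Tendsto (fun z : E4 => z - y.1) (𝓝 (y.1 + x)) (𝓝 x) := by
        have : Continuous (fun z : E4 => z - y.1) := by fun_prop
        have h2 := this.tendsto (y.1 + x)
        rwa [add_sub_cancel_left] at h2
      filter_upwards [h1.eventually hf0] with z hz p
      have : f (z - y.1) = 0 := funext hz
      rw [pf, this, Matrix.mulVec_zero]; rfl
    show _ = bf G m A y (pb G A y u) f x
    rw [bf]
    have a1 : ∀ l p, A.cov l (pf G A y f) (y.1 + x) p = 0 := fun l p => cCov_zero_of A l hpf0 p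
    have a2 : ∀ p, pf G A y f (y.1 + x) p = 0 := hpf0.self_of_nhds
    have a3 : ∀ l p, (mkC G A m).cov y l f x p = 0 := fun l p => cov_zero_of G m A y l hf0 p
    have a4 : ∀ p, f x p = 0 := hf0.self_of_nhds
    simp only [a1, a2, a3, a4, mul_zero, Finset.sum_const_zero, add_zero, zero_mul]

/-- `X_{jl,p} = w h^{jl} (cov_l f)_p` -/
noncomputable def XX (y : C) (f : E4 → κ → ℝ) (j l : Fin 4) (p : κ) (x : E4) : ℝ :=
  (mkM G m).w y x * (mkM G m).h y j l x * (mkC G A m).cov y l f x p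

theorem sm_cov (y : C) {f : E4 → κ → ℝ} (hf : ∀ p, ContDiff ℝ ∞ fun x => f x p) (l : Fin 4) (p : κ) :
    ContDiff ℝ ∞ fun x => (mkC G A m).cov y l f x p := by
  show ContDiff ℝ ∞ fun x => pd l (fun y => f y p) x + ∑ q, (mkC G A m).a y l p q x * f x q
  exact (contDiff_pd (hf p) l).add (ContDiff.sum fun q _ => (((mkC G A m).uba l p q).1 y).mul (hf q))

theorem sm_XX (y : C) {f : E4 → κ → ℝ} (hf : ∀ p, ContDiff ℝ ∞ fun x => f x p) (j l : Fin 4) (p : κ) :
    ContDiff ℝ ∞ (XX G m A y f j l p) :=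
  ((((mkM G m).ubw).1 y).mul (((mkM G m).ubh j l).1 y)).mul (sm_cov G m A y hf l p)

theorem XX_zero (y : C) {f : E4 → κ → ℝ} {r : ℝ} (h0 : ∀ x p, r ≤ ‖x‖ → f x p = 0) (j l : Fin 4) (p : κ)
    (x : E4) (hx : r < ‖x‖) : XX G m A y f j l p x = 0 := by
  have hf0 : ∀ᶠ z in 𝓝 x, ∀ p, f z p = 0 := (ev_gt hx).mono fun z hz p => h0 z p hz.le
  rw [XX, cov_zero_of G m A y l hf0 p, mul_zero]

/-- `w (L f)_p` -/
noncomputable def YY (y : C) (f : E4 → κ → ℝ) (p : κ) (x : E4) : ℝ :=
  -(∑ j, ∑ l, (pd j (XX G m A y f j l p) x + ∑ q, (mkC G A m).a y j p q x * XX G m A y f j l q x))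
    + (mkM G m).w y x * ∑ q, (mkC G A m).P y p q x * f x q

theorem w_pos (y : C) (x : E4) : 0 < (mkM G m).w y x := by
  obtain ⟨c, hc, h⟩ := (mkM G m).wpos
  exact lt_of_lt_of_le hc (h y x)

theorem YY_eq (y : C) (f : E4 → κ → ℝ) (p : κ) (x : E4) :
    (mkC G A m).LL y f x p * (mkM G m).w y x = YY G m A y f p x := by
  have hw := (w_pos G m y x).ne'
  rw [Con.LL, YY, add_mul, neg_mul]
  congr 1
  · rw [mul_assoc, mul_comm _ ((mkM G m).w y x), ← mul_assoc, inv_mul_cancel₀ hw, one_mul]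
    rfl
  · ring

theorem sm_YY (y : C) {f : E4 → κ → ℝ} (hf : ∀ p, ContDiff ℝ ∞ fun x => f x p) (p : κ) :
    ContDiff ℝ ∞ (YY G m A y f p) := by
  refine ContDiff.add (ContDiff.neg (ContDiff.sum fun j _ => ContDiff.sum fun l _ => ContDiff.add ?_ ?_))
    ((((mkM G m).ubw).1 y).mul (ContDiff.sum fun q _ => (((mkC G A m).ubP p q).1 y).mul (hf q)))
  · exact contDiff_pd (sm_XX G m A y hf j l p) j
  · exact ContDiff.sum fun q _ => (((mkC G A m).uba j p q).1 y).mul (sm_XX G m A y hf j l q)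

theorem YY_zero (y : C) {f : E4 → κ → ℝ} {r : ℝ} (h0 : ∀ x p, r ≤ ‖x‖ → f x p = 0) (p : κ)
    (x : E4) (hx : r < ‖x‖) : YY G m A y f p x = 0 := by
  have h1 : ∀ j l q, XX G m A y f j l q x = 0 := fun j l q => XX_zero G m A y h0 j l q x hx
  have h2 : ∀ j l, pd j (XX G m A y f j l p) x = 0 := fun j l =>
    pd_zero_of ((ev_gt hx).mono fun z hz => XX_zero G m A y h0 j l p z hz) j
  have h3 : ∀ q, f x q = 0 := fun q => h0 x q hx.le
  simp [YY, h1, h2, h3]

/-- the pointwise integration by parts identity -/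
theorem bf_eq (y : C) {f u : E4 → κ → ℝ} {r : ℝ} (hr : r < R) (hf : ∀ p, ContDiff ℝ ∞ fun x => f x p)
    (h0 : ∀ x p, r ≤ ‖x‖ → f x p = 0) (hu : ∀ p, ContDiffOn ℝ ∞ (fun x => u x p) (ball 0 R)) (x : E4) :
    bf G m A y u f x = (∑ p, u x p * YY G m A y f p x)
      + ∑ j, ∑ l, ∑ p, pd j (fun z => u z p * XX G m A y f j l p z) x := by
  by_cases hx : ‖x‖ < R
  · have hud : ∀ p, DifferentiableAt ℝ (fun x => u x p) x := fun p =>
      ((hu p).contDiffAt (isOpen_ball.mem_nhds (by rwa [mem_ball_zero_iff]))).differentiableAt (by simp)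
    have hXd : ∀ j l p, DifferentiableAt ℝ (XX G m A y f j l p) x := fun j l p =>
      ((sm_XX G m A y hf j l p).differentiable (by simp)) x
    have e1 : ∀ j l p, pd j (fun z => u z p * XX G m A y f j l p z) x
        = pd j (fun z => u z p) x * XX G m A y f j l p x + u x p * pd j (XX G m A y f j l p) x := fun j l p =>
      pd_mul (hud p) (hXd j l p) j
    have e2 : ∀ j l, ∑ p, u x p * ∑ q, (mkC G A m).a y j p q x * XX G m A y f j l q x
        = -∑ p, (∑ q, (mkC G A m).a y j p q x * u x q) * XX G m A y f j l p x := by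
      intro j l
      simp only [Finset.mul_sum, Finset.sum_mul]
      rw [Finset.sum_comm, ← Finset.sum_neg_distrib]
      refine Finset.sum_congr rfl fun p _ => ?_
      rw [← Finset.sum_neg_distrib]
      refine Finset.sum_congr rfl fun q _ => ?_
      rw [(mkC G A m).askew y j q p x]; ring
    have e3 : bf G m A y u f x = ∑ j, ∑ l, (∑ p, pd j (fun z => u z p) x * XX G m A y f j l p x
        + ∑ p, (∑ q, (mkC G A m).a y j p q x * u x q) * XX G m A y f j l p x)
        + (mkM G m).w y x * ∑ p, ∑ q, (mkC G A m).P y p q x * u x q * f x p := by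
      rw [bf, add_mul, Finset.sum_mul]
      congr 1
      · refine Finset.sum_congr rfl fun j _ => ?_
        rw [Finset.sum_mul]
        refine Finset.sum_congr rfl fun l _ => ?_
        rw [← Finset.sum_add_distrib, Finset.mul_sum, Finset.sum_mul]
        refine Finset.sum_congr rfl fun p _ => ?_
        rw [← add_mul]
        show _ * ((pd j (fun z => u z p) x + ∑ q, (mkC G A m).a y j p q x * u x q) * _) * _ = _
        rw [XX]; ring
      · ring
    have e4 : ∑ p, u x p * YY G m A y f p x = -(∑ j, ∑ l, (∑ p, u x p * pd j (XX G m A y f j l p) x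
        + ∑ p, u x p * ∑ q, (mkC G A m).a y j p q x * XX G m A y f j l q x))
        + (mkM G m).w y x * ∑ p, ∑ q, (mkC G A m).P y p q x * u x q * f x p := by
      have h1 : ∀ p, u x p * YY G m A y f p x = -(∑ j, ∑ l, (u x p * pd j (XX G m A y f j l p) x
          + u x p * ∑ q, (mkC G A m).a y j p q x * XX G m A y f j l q x))
          + (mkM G m).w y x * ∑ q, (mkC G A m).P y p q x * u x p * f x q := by
        intro p
        rw [YY, mul_add, mul_neg]
        congr 1
        · congr 1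
          rw [Finset.mul_sum]
          refine Finset.sum_congr rfl fun j _ => ?_
          rw [Finset.mul_sum]
          refine Finset.sum_congr rfl fun l _ => ?_
          ring
        · rw [mul_left_comm, Finset.mul_sum]
          congr 1
          refine Finset.sum_congr rfl fun q _ => ?_
          ring
      simp only [h1]
      rw [Finset.sum_add_distrib, Finset.sum_neg_distrib, ← Finset.mul_sum]
      congr 1
      · congr 1
        rw [Finset.sum_comm]
        refine Finset.sum_congr rfl fun j _ => ?_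
        rw [Finset.sum_comm]
        refine Finset.sum_congr rfl fun l _ => ?_
        rw [Finset.sum_add_distrib]
      · congr 1
        rw [Finset.sum_comm]
        refine Finset.sum_congr rfl fun p _ => Finset.sum_congr rfl fun q _ => ?_
        rw [(mkC G A m).Psymm y q p x]
    rw [e3, e4]
    simp only [e1, e2, Finset.sum_add_distrib, Finset.sum_neg_distrib]
    ring
  · have hx2 : r < ‖x‖ := lt_of_lt_of_le hr (not_lt.1 hx)
    have hf0 : ∀ᶠ z in 𝓝 x, ∀ p, f z p = 0 := (ev_gt hx2).mono fun z hz p => h0 z p hz.le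
    have a1 : ∀ p, YY G m A y f p x = 0 := fun p => YY_zero G m A y h0 p x hx2
    have a2 : ∀ j l p, pd j (fun z => u z p * XX G m A y f j l p z) x = 0 := fun j l p =>
      pd_zero_of ((ev_gt hx2).mono fun z hz => by
        show u z p * XX G m A y f j l p z = 0
        rw [XX_zero G m A y h0 j l p z hz, mul_zero]) j
    have a3 : ∀ l p, (mkC G A m).cov y l f x p = 0 := fun l p => cov_zero_of G m A y l hf0 p
    have a4 : ∀ p, f x p = 0 := hf0.self_of_nhds
    simp only [bf, a1, a2, a3, a4, mul_zero, Finset.sum_const_zero, add_zero, zero_mul]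

theorem bf_int (y : C) {f u : E4 → κ → ℝ} {r : ℝ} (hr : r < R) (hf : ∀ p, ContDiff ℝ ∞ fun x => f x p)
    (h0 : ∀ x p, r ≤ ‖x‖ → f x p = 0) (hu : ∀ p, ContDiffOn ℝ ∞ (fun x => u x p) (ball 0 R)) :
    ∫ x, bf G m A y u f x = (mkM G m).ip y ((mkC G A m).LL y f) u := by
  have h1 : ∀ p, Integrable (fun x => u x p * YY G m A y f p x) := fun p => by
    obtain ⟨g1, g2⟩ := glue hr (hu p) (sm_YY G m A y hf p) (YY_zero G m A y h0 p)
    exact g1.continuous.integrable_of_hasCompactSupport g2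
  have h2 : ∀ j l p, Integrable (fun x => pd j (fun z => u z p * XX G m A y f j l p z) x) := fun j l p => by
    obtain ⟨g1, g2⟩ := glue hr (hu p) (sm_XX G m A y hf j l p) (XX_zero G m A y h0 j l p)
    refine (contDiff_pd g1 j).continuous.integrable_of_hasCompactSupport ?_
    exact (g2.fderiv ℝ).comp_left (g := fun L : E4 →L[ℝ] ℝ => L (EuclideanSpace.single j 1)) (by simp)
  have h3 : ∀ j l p, ∫ x, pd j (fun z => u z p * XX G m A y f j l p z) x = 0 := fun j l p => by
    obtain ⟨g1, g2⟩ := glue hr (hu p) (sm_XX G m A y hf j l p) (XX_zero G m A y h0 j l p)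
    exact int_pd_zero g1 g2 j
  have e : (fun x => bf G m A y u f x) = fun x => (∑ p, u x p * YY G m A y f p x)
      + ∑ j, ∑ l, ∑ p, pd j (fun z => u z p * XX G m A y f j l p z) x :=
    funext fun x => bf_eq G m A y hr hf h0 hu x
  rw [e, integral_add (integrable_finsetSum _ fun p _ => h1 p)
    (integrable_finsetSum _ fun j _ => integrable_finsetSum _ fun l _ => integrable_finsetSum _ fun p _ => h2 j l p),
    integral_finsetSum _ (fun j _ => integrable_finsetSum _ fun l _ => integrable_finsetSum _ fun p _ => h2 j l p)]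
  have h4 : ∀ j, ∫ x, ∑ l, ∑ p, pd j (fun z => u z p * XX G m A y f j l p z) x = 0 := fun j => by
    rw [integral_finsetSum _ (fun l _ => integrable_finsetSum _ fun p _ => h2 j l p)]
    refine Finset.sum_eq_zero fun l _ => ?_
    rw [integral_finsetSum _ (fun p _ => h2 j l p)]
    exact Finset.sum_eq_zero fun p _ => h3 j l p
  simp only [h4, Finset.sum_const_zero, add_zero]
  rw [Met.ip]
  refine integral_congr_ae (Eventually.of_forall fun x => ?_)
  show _ = (∑ p, (mkC G A m).LL y f x p * u x p) * (mkM G m).w y x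
  rw [Finset.sum_mul]
  refine Finset.sum_congr rfl fun p _ => ?_
  rw [← YY_eq]; ring

/-- the system in the adapted gauge -/
noncomputable def mkS {K : Type} (S : CSys m A K) : Sys (mkC G A m) R K where
  u y k := pb G A y (S.u k)
  mu _ k := S.mu k
  mu_nonneg _ k := S.mu_nonneg k
  cont y k p := (sm_pb G A y (S.sm k) p).continuousOn
  eig y k f hf := by
    obtain ⟨hfs, r, hr, h0⟩ := hf
    have hT : TstV V (pf G A y f) := by
      constructor
      · intro p
        have h1 : (fun x => pf G A y f x p) = fun x => ∑ q, Tm G A y (x - y.1) p q * f (x - y.1) q := rfl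
        rw [h1]
        refine ContDiff.sum fun q _ => ContDiff.mul ?_ ?_
        · exact (sm_Tm G A y p q).comp (contDiff_id.sub contDiff_const)
        · exact (hfs q).comp (contDiff_id.sub contDiff_const)
      · refine ⟨closedBall y.1 r, isCompact_closedBall _ _, ?_, fun x hx p => ?_⟩
        · refine (closedBall_subset_closedBall ?_).trans (G.sub y.1 y.2)
          linarith [G.pos]
        · rw [mem_closedBall, dist_eq_norm, not_le] at hx
          have : f (x - y.1) = 0 := funext fun q => h0 _ q hx.le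
          rw [pf, this, Matrix.mulVec_zero]; rfl
    have h1 := S.eig k _ hT
    rw [bf_push G m A y hr hfs h0 (S.sm k), ip_push G m A y f (S.u k) (fun x p hx => h0 x p (hr.le.trans hx)),
      bf_int G m A y hr hfs h0 (sm_pb G A y (S.sm k))] at h1
    exact h1
  pars y f hf := by
    obtain ⟨hfm, ⟨B, hB⟩, r, hr, h0⟩ := hf
    have hbd : BdmV V (pf G A y f) := by
      refine ⟨fun p => ?_, ?_, ?_⟩
      · have h1 : (fun x => pf G A y f x p) = fun x => ∑ q, Tm G A y (x - y.1) p q * f (x - y.1) q := rfl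
        rw [h1]
        refine Finset.measurable_sum _ fun q _ => Measurable.mul ?_ ?_
        · exact ((sm_Tm G A y p q).continuous.measurable).comp (measurable_id.sub_const _)
        · exact (hfm q).comp (measurable_id.sub_const _)
      · choose D hD0 hD using fun pq : κ × κ => UB.bdd (ub_Tm G A pq.1 pq.2)
        refine ⟨∑ p, ∑ q, D (p, q) * |B|, fun x p => ?_⟩
        have h1 : |pf G A y f x p| ≤ ∑ q, D (p, q) * |B| := by
          show |∑ q, Tm G A y (x - y.1) p q * f (x - y.1) q| ≤ _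
          refine (Finset.abs_sum_le_sum_abs _ _).trans (Finset.sum_le_sum fun q _ => ?_)
          rw [abs_mul]
          exact mul_le_mul (hD (p, q) y _) ((hB _ q).trans (le_abs_self B)) (abs_nonneg _) (hD0 _)
        refine h1.trans (Finset.single_le_sum (f := fun p => ∑ q, D (p, q) * |B|) (fun p _ =>
          Finset.sum_nonneg fun q _ => mul_nonneg (hD0 _) (abs_nonneg _)) (Finset.mem_univ p))
      · refine ⟨closedBall y.1 r, isCompact_closedBall _ _, ?_, fun x hx p => ?_⟩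
        · refine (closedBall_subset_closedBall ?_).trans (G.sub y.1 y.2)
          linarith [G.pos]
        · rw [mem_closedBall, dist_eq_norm, not_le] at hx
          have : f (x - y.1) = 0 := funext fun q => h0 _ q hx.le
          rw [pf, this, Matrix.mulVec_zero]; rfl
    have h1 := S.pars _ hbd
    have hz : ∀ x p, R ≤ ‖x‖ → f x p = 0 := fun x p hx => h0 x p (hr.le.trans hx)
    rw [ip_push G m A y f (pf G A y f) hz, pb_pf] at h1
    have h2 : ∀ k, (∫ x, (∑ p, pf G A y f x p * S.u k x p) * m.w x) = (mkM G m).ip y f (pb G A y (S.u k)) :=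
      fun k => ip_push G m A y f (S.u k) hz
    simp only [h2] at h1
    exact h1

theorem mkS_zero {K : Type} (S : CSys m A K) (y : C) (k : K) (p : κ) : (mkS G m A S).u y k 0 p = S.u k y.1 p := by
  show pb G A y (S.u k) 0 p = _
  rw [pb, Tm_zero, Matrix.transpose_one, Matrix.one_mulVec, add_zero]

theorem mkS_diag {K : Type} (S : CSys m A K) (y : C) (t : ℝ) : (mkS G m A S).diag y t = S.diag t y.1 := by
  rw [Sys.diag, CSys.diag]
  simp only [mkS_zero]
  rfl

theorem mkC_tr (y : C) (x : E4) : ∑ p, (mkC G A m).P y p p x = ∑ p, A.P p p (y.1 + Th G.pos x) :=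
  Pc_trace G A y x

end sys

/-- **HK8** -/
theorem chartStmt (hM : MainStmt) : ChartStmt := by
  intro V hV m κ κ' _ _ A A' K K' _ _ hcard htr S S'
  classical
  have key : ∀ C : Set E4, IsCompact C → C ⊆ V →
      (∃ B : ℝ, ∀ x ∈ C, ∀ t ∈ Ioc (0 : ℝ) 1,
        Summable (fun k => Real.exp (-(2 * t * S.mu k)) * ∑ p, S.u k x p ^ 2) ∧
        Summable (fun k => Real.exp (-(2 * t * S'.mu k)) * ∑ p, S'.u k x p ^ 2) ∧
        S.diag t x ≤ B / t ^ 2 ∧ S'.diag t x ≤ B / t ^ 2 ∧
        |S.diag t x - S'.diag t x| ≤ B) ∧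
      ∀ x ∈ C, Tendsto (fun t => S.diag t x - S'.diag t x) (𝓝[>] 0)
        (𝓝 (A.dens m.h x - A'.dens m.h x)) := by
    intro C hC hCV
    obtain ⟨R, G⟩ := exists_geo hV hC hCV
    obtain ⟨⟨B, hB⟩, hlim⟩ := hM C (mkM G m) κ κ' (mkC G A m) (mkC G A' m) R K K' G.pos hcard
      (fun y x => by rw [mkC_tr, mkC_tr]; exact htr _ (G.memTh y x)) (mkS G m A S) (mkS G m A' S')
    refine ⟨⟨B, fun x hx t ht => ?_⟩, fun x hx => ?_⟩
    · have h := hB ⟨x, hx⟩ t ht
      rw [mkS_diag, mkS_diag] at h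
      simp only [mkS_zero] at h
      exact h
    · have h := hlim ⟨x, hx⟩
      simp only [mkS_diag] at h
      rw [mkC_dens, mkC_dens] at h
      exact h
  refine ⟨fun C hC hCV => (key C hC hCV).1, fun x hx => ?_⟩
  exact (key {x} isCompact_singleton (singleton_subset_iff.2 hx)).2 x rfl

end Crest.Agent.R249.HK8_286
end

-- ▼ part R249/HK3B_352
section

/-!
Row 249, Part C, leaf HK3 (helper352), part B: smoothness of the kernels in `x`, first derivative
of `H_m`, and the algebraic identity `(∂_t + L)(H_m e_q) = eM` (`EMStmt`), given the scalar one.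
-/

set_option autoImplicit false
set_option linter.unusedSectionVars false
open scoped ContDiff
open MeasureTheory Set Metric

namespace Crest.Agent.R249.HK352
open Crest.Agent.R249.HK286

variable {ι : Type*} {M : Met ι} {κ : Type*} [Fintype κ] [DecidableEq κ]

theorem contDiff_coord (a : Fin 4) : ContDiff ℝ ∞ (fun x : E4 => x a) :=
  (EuclideanSpace.proj (𝕜 := ℝ) a).contDiff

theorem pd_coord (a j : Fin 4) (x : E4) : pd j (fun x : E4 => x a) x = if a = j then 1 else 0 := by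
  unfold pd
  have h1 : HasFDerivAt (fun x : E4 => x a) (EuclideanSpace.proj (𝕜 := ℝ) a : E4 →L[ℝ] ℝ) x :=
    (EuclideanSpace.proj (𝕜 := ℝ) a : E4 →L[ℝ] ℝ).hasFDerivAt
  rw [h1.fderiv]
  by_cases h : a = j
  · subst h; simp
  · simp [h]

theorem contDiff_rho (M : Met ι) (i : ι) (z : E4) : ContDiff ℝ ∞ (fun x => M.rho i x z) := by
  unfold Met.rho
  refine contDiff_const.mul (ContDiff.sum fun a _ => ContDiff.sum fun b _ => ?_)
  exact ((((M.ubg a b).1 i).add contDiff_const).mul ((contDiff_coord a).sub contDiff_const)).mul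
    ((contDiff_coord b).sub contDiff_const)

theorem contDiff_GG (M : Met ι) (i : ι) (t : ℝ) (z : E4) :
    ContDiff ℝ ∞ (fun x => M.GG i t x z) := by
  unfold Met.GG
  exact contDiff_const.mul (((contDiff_rho M i z).div_const _).neg.exp)

theorem contDiff_HH (M : Met ι) {R : ℝ} (c : Cut R) (m : ℕ) (i : ι) (t : ℝ) (z : E4) :
    ContDiff ℝ ∞ (fun x => M.HH c m i t x z) := by
  unfold Met.HH
  exact (c.smooth m).mul (contDiff_GG M i t z)

theorem pd_rho (M : Met ι) (i : ι) (x z : E4) (j : Fin 4) :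
    pd j (fun x => M.rho i x z) x = M.rx j i x z := by
  have dg : ∀ a b, DifferentiableAt ℝ (fun x => M.g i a b x + M.g i a b z) x := fun a b =>
    (((M.ubg a b).1 i).differentiable (by simp) x).add (differentiableAt_const _)
  have dc : ∀ a, DifferentiableAt ℝ (fun x : E4 => x a - z a) x := fun a =>
    ((contDiff_coord a).differentiable (by simp) x).sub (differentiableAt_const _)
  have pc : ∀ a, pd j (fun x : E4 => x a - z a) x = if a = j then 1 else 0 := by
    intro a
    rw [pd_sub ((contDiff_coord a).differentiable (by simp) x) (differentiableAt_const _),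
      pd_coord, pd_const, sub_zero]
  have pg : ∀ a b, pd j (fun x => M.g i a b x + M.g i a b z) x = pd j (M.g i a b) x := by
    intro a b
    rw [pd_add (((M.ubg a b).1 i).differentiable (by simp) x) (differentiableAt_const _),
      pd_const, add_zero]
  have d3 : ∀ a b, DifferentiableAt ℝ
      (fun x => (M.g i a b x + M.g i a b z) * (x a - z a) * (x b - z b)) x := fun a b =>
    ((dg a b).fun_mul (dc a)).fun_mul (dc b)
  have d2 : ∀ a, DifferentiableAt ℝ
      (fun x => ∑ b, (M.g i a b x + M.g i a b z) * (x a - z a) * (x b - z b)) x := fun a =>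
    DifferentiableAt.fun_sum fun b _ => d3 a b
  have p3 : ∀ a b, pd j (fun x => (M.g i a b x + M.g i a b z) * (x a - z a) * (x b - z b)) x =
      pd j (M.g i a b) x * (x a - z a) * (x b - z b)
      + (M.g i a b x + M.g i a b z) * (if a = j then 1 else 0) * (x b - z b)
      + (M.g i a b x + M.g i a b z) * (x a - z a) * (if b = j then 1 else 0) := by
    intro a b
    rw [pd_mul ((dg a b).fun_mul (dc a)) (dc b), pd_mul (dg a b) (dc a), pc, pc, pg]
    ring
  unfold Met.rho Met.rx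
  rw [pd_const_mul (DifferentiableAt.fun_sum fun a _ => d2 a), pd_sum _ fun a _ => d2 a]
  have p2 : ∀ a, pd j (fun x => ∑ b, (M.g i a b x + M.g i a b z) * (x a - z a) * (x b - z b)) x =
      ∑ b, (pd j (M.g i a b) x * (x a - z a) * (x b - z b)
      + (M.g i a b x + M.g i a b z) * (if a = j then 1 else 0) * (x b - z b)
      + (M.g i a b x + M.g i a b z) * (x a - z a) * (if b = j then 1 else 0)) := by
    intro a
    rw [pd_sum _ fun b _ => d3 a b]
    exact Finset.sum_congr rfl fun b _ => p3 a b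
  simp only [p2, Finset.sum_add_distrib]
  have q1 : ∑ a, ∑ b, (M.g i a b x + M.g i a b z) * (if a = j then (1 : ℝ) else 0) * (x b - z b) =
      ∑ b, (M.g i j b x + M.g i j b z) * (x b - z b) := by
    rw [Finset.sum_comm]
    refine Finset.sum_congr rfl fun b _ => ?_
    simp
  have q2 : ∑ a, ∑ b, (M.g i a b x + M.g i a b z) * (x a - z a) * (if b = j then (1 : ℝ) else 0) =
      ∑ b, (M.g i j b x + M.g i j b z) * (x b - z b) := by
    refine Finset.sum_congr rfl fun a _ => ?_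
    simp only [mul_ite, mul_one, mul_zero, Finset.sum_ite_eq', Finset.mem_univ, if_true]
    rw [M.gsymm i a j x, M.gsymm i a j z]
  rw [q1, q2]
  ring

theorem pd_GG (M : Met ι) (i : ι) (t : ℝ) (x z : E4) (j : Fin 4) :
    pd j (fun x => M.GG i t x z) x = - (M.GG i t x z * (M.rx j i x z / (4 * t))) := by
  have h1 := pd_rho M i x z j
  unfold Met.GG
  unfold pd at h1 ⊢
  have hd : HasFDerivAt (fun x => M.rho i x z) (fderiv ℝ (fun x => M.rho i x z) x) x :=
    ((contDiff_rho M i z).differentiable (by simp) x).hasFDerivAt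
  have h2 := ((hd.mul_const ((4 * t)⁻¹)).fun_neg.exp).const_mul (((4 * Real.pi * t) ^ 2)⁻¹)
  have h3 : (fun x => ((4 * Real.pi * t) ^ 2)⁻¹ * Real.exp (-(M.rho i x z / (4 * t)))) =
      fun x => ((4 * Real.pi * t) ^ 2)⁻¹ * Real.exp (-(M.rho i x z * (4 * t)⁻¹)) := by
    funext x; rw [div_eq_mul_inv]
  rw [h3, h2.fderiv]
  simp only [smul_apply, neg_apply, smul_eq_mul, h1, div_eq_mul_inv]
  ring

theorem pd_HH (M : Met ι) {R : ℝ} (c : Cut R) (m : ℕ) (i : ι) (t : ℝ) (x z : E4) (j : Fin 4) :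
    pd j (fun x => M.HH c m i t x z) x = M.dH c m j i t x z := by
  unfold Met.HH Met.dH
  rw [pd_mul ((c.smooth m).differentiable (by simp) x)
    ((contDiff_GG M i t z).differentiable (by simp) x), pd_GG]
  ring

/-! ### the columns are test functions -/

theorem HH_zero (M : Met ι) {R : ℝ} (c : Cut R) (m : ℕ) (i : ι) (t : ℝ) {x : E4} (z : E4)
    (hx : (2 * m + 1) * R / 8 ≤ ‖x‖) : M.HH c m i t x z = 0 := by
  unfold Met.HH
  rw [c.zero m x hx, zero_mul]

theorem tst_col (M : Met ι) {R : ℝ} (hR : 0 < R) (c : Cut R) {m : ℕ} (hm : m ≤ 3) (i : ι) (t : ℝ)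
    (z : E4) (q : κ) : Tst R (fun y r => if r = q then M.HH c m i t y z else 0) := by
  refine ⟨fun p => ?_, (2 * m + 1) * R / 8, ?_, fun x p hx => ?_⟩
  · by_cases h : p = q
    · simpa only [h, if_true] using contDiff_HH M c m i t z
    · simpa only [h, if_false] using contDiff_const
  · have : (m : ℝ) ≤ 3 := by exact_mod_cast hm
    nlinarith
  · by_cases h : p = q
    · simp only [h, if_true]; exact HH_zero M c m i t z hx
    · simp only [h, if_false]

/-! ### the matrix identity -/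

theorem cov_col (D : Con M κ) {H : E4 → ℝ} (i : ι) (l : Fin 4) (x : E4) (p q : κ) :
    D.cov i l (fun y r => if r = q then H y else 0) x p =
      (if p = q then pd l H x else 0) + D.a i l p q x * H x := by
  unfold Con.cov
  congr 1
  · by_cases h : p = q
    · simp only [h, if_true]
    · simp only [h, if_false]
      exact pd_const 0 x l
  · simp

theorem LL_col (D : Con M κ) {H : E4 → ℝ} (hH : ContDiff ℝ ∞ H) (i : ι) (x : E4) (p q : κ) :
    D.LL i (fun y r => if r = q then H y else 0) x p =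
      (if p = q then - M.lap i H x else 0)
      - (2 * ∑ j, ∑ l, M.h i j l x * pd j H x * D.a i l p q x)
      - H x * D.dv i x p q + H x * (D.P i p q x - D.aa i x p q) := by
  have hw : M.w i x ≠ 0 := by
    obtain ⟨c, hc, h⟩ := M.wpos
    exact (hc.trans_le (h i x)).ne'
  have dw : DifferentiableAt ℝ (M.w i) x := (M.ubw.1 i).differentiable (by simp) x
  have dh : ∀ j l, DifferentiableAt ℝ (M.h i j l) x := fun j l =>
    ((M.ubh j l).1 i).differentiable (by simp) x
  have da : ∀ l p q, DifferentiableAt ℝ (D.a i l p q) x := fun l p q =>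
    ((D.uba l p q).1 i).differentiable (by simp) x
  have dH : DifferentiableAt ℝ H x := hH.differentiable (by simp) x
  have dpH : ∀ l, DifferentiableAt ℝ (pd l H) x := fun l =>
    (contDiff_pd hH l).differentiable (by simp) x
  have dwh : ∀ j l, DifferentiableAt ℝ (fun y => M.w i y * M.h i j l y) x := fun j l =>
    dw.fun_mul (dh j l)
  -- expand the covariant derivatives
  unfold Con.LL
  simp only [cov_col]
  have e1 : ∀ j l, pd j (fun y => M.w i y * M.h i j l y *
      ((if p = q then pd l H y else 0) + D.a i l p q y * H y)) x =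
      (if p = q then pd j (fun y => M.w i y * M.h i j l y * pd l H y) x else 0)
      + pd j (fun y => M.w i y * M.h i j l y * D.a i l p q y) x * H x
      + M.w i x * M.h i j l x * D.a i l p q x * pd j H x := by
    intro j l
    have s1 : (fun y => M.w i y * M.h i j l y *
        ((if p = q then pd l H y else 0) + D.a i l p q y * H y)) =
        fun y => (if p = q then M.w i y * M.h i j l y * pd l H y else 0)
          + (M.w i y * M.h i j l y * D.a i l p q y) * H y := by
      funext y; split_ifs <;> ring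
    rw [s1]
    have d2 : DifferentiableAt ℝ (fun y => (M.w i y * M.h i j l y * D.a i l p q y) * H y) x :=
      ((dwh j l).fun_mul (da l p q)).fun_mul dH
    by_cases h : p = q
    · simp only [h, if_true]
      subst h
      rw [pd_add ((dwh j l).fun_mul (dpH l)) d2, pd_mul ((dwh j l).fun_mul (da l p p)) dH]
      ring
    · simp only [h, if_false]
      rw [pd_add (differentiableAt_const _) d2, pd_const, pd_mul ((dwh j l).fun_mul (da l p q)) dH]
      ring
  have e2 : ∀ j l, ∑ r, D.a i j p r x * (M.w i x * M.h i j l x *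
      ((if r = q then pd l H x else 0) + D.a i l r q x * H x)) =
      M.w i x * (M.h i j l x * D.a i j p q x * pd l H x)
      + M.w i x * H x * (M.h i j l x * ∑ r, D.a i j p r x * D.a i l r q x) := by
    intro j l
    have : ∀ r, D.a i j p r x * (M.w i x * M.h i j l x *
        ((if r = q then pd l H x else 0) + D.a i l r q x * H x)) =
        (if r = q then D.a i j p r x * (M.w i x * M.h i j l x) * pd l H x else 0)
        + M.w i x * H x * M.h i j l x * (D.a i j p r x * D.a i l r q x) := by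
      intro r; split_ifs <;> ring
    simp only [this, Finset.sum_add_distrib, Finset.sum_ite_eq', Finset.mem_univ, if_true,
      ← Finset.mul_sum]
    ring
  simp only [e1, e2]
  have e3 : ∑ q', D.P i p q' x * (if q' = q then H x else 0) = D.P i p q x * H x := by simp
  rw [e3]
  -- collect
  have s0 : (∑ j, ∑ l, ((if p = q then pd j (fun y => M.w i y * M.h i j l y * pd l H y) x else 0)
      + pd j (fun y => M.w i y * M.h i j l y * D.a i l p q y) x * H x
      + M.w i x * M.h i j l x * D.a i l p q x * pd j H x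
      + (M.w i x * (M.h i j l x * D.a i j p q x * pd l H x)
      + M.w i x * H x * (M.h i j l x * ∑ r, D.a i j p r x * D.a i l r q x)))) =
      (if p = q then ∑ j, ∑ l, pd j (fun y => M.w i y * M.h i j l y * pd l H y) x else 0)
      + (∑ j, ∑ l, pd j (fun y => M.w i y * M.h i j l y * D.a i l p q y) x) * H x
      + M.w i x * (∑ j, ∑ l, M.h i j l x * pd j H x * D.a i l p q x)
      + M.w i x * (∑ j, ∑ l, M.h i j l x * D.a i j p q x * pd l H x)
      + M.w i x * H x * (∑ j, ∑ l, M.h i j l x * ∑ r, D.a i j p r x * D.a i l r q x) := by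
    simp only [Finset.sum_add_distrib, Finset.mul_sum, Finset.sum_mul]
    have t1 : (∑ j, ∑ l, (if p = q then pd j (fun y => M.w i y * M.h i j l y * pd l H y) x
        else 0)) = (if p = q then ∑ j, ∑ l, pd j (fun y => M.w i y * M.h i j l y * pd l H y) x
        else 0) := by
      split_ifs <;> simp
    have t2 : (∑ j, ∑ l, M.w i x * M.h i j l x * D.a i l p q x * pd j H x) =
        ∑ j, ∑ l, M.w i x * (M.h i j l x * pd j H x * D.a i l p q x) :=
      Finset.sum_congr rfl fun j _ => Finset.sum_congr rfl fun l _ => by ring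
    rw [t1, t2]
    ring
  have s1 : (∑ j, ∑ l, M.h i j l x * D.a i j p q x * pd l H x) =
      ∑ j, ∑ l, M.h i j l x * pd j H x * D.a i l p q x := by
    rw [Finset.sum_comm]
    refine Finset.sum_congr rfl fun j _ => Finset.sum_congr rfl fun l _ => ?_
    rw [M.hsymm i l j x]; ring
  rw [s0, s1]
  unfold Con.dv Con.aa Met.lap
  set S0 := ∑ j, ∑ l, pd j (fun y => M.w i y * M.h i j l y * pd l H y) x
  set S1 := ∑ j, ∑ l, pd j (fun y => M.w i y * M.h i j l y * D.a i l p q y) x
  set S2 := ∑ j, ∑ l, M.h i j l x * pd j H x * D.a i l p q x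
  set S3 := ∑ j, ∑ l, M.h i j l x * ∑ r, D.a i j p r x * D.a i l r q x
  split_ifs <;> field_simp <;> ring

/-- `EMStmt` from the scalar identity of HK2. -/
theorem em_of_scalar (D : Con M κ) {R : ℝ} (c : Cut R)
    (h0 : ∀ m i t x z, 0 < t → deriv (fun s => M.HH c m i s x z) t
      - M.lap i (fun y => M.HH c m i t y z) x = M.e0 c m i t x z) : EMStmt c D := by
  intro m i t x z p q ht
  rw [LL_col D (contDiff_HH M c m i t z)]
  simp only [pd_HH]
  unfold Con.eM Con.sk Con.sy
  rw [← h0 m i t x z ht]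
  split_ifs <;> ring

end Crest.Agent.R249.HK352
end

-- ▼ part R249/HK3C_352
section

/-!
Row 249, Part C, leaf HK3 (helper352), part C: Gaussian bounds and measurability of the kernels.
-/

set_option autoImplicit false
set_option linter.unusedSectionVars false
open scoped ContDiff
open MeasureTheory Set Metric

namespace Crest.Agent.R249.HK352
open Crest.Agent.R249.HK286

/-! ### Gaussian calculus -/

theorem Gam_nonneg (c t : ℝ) (x : E4) : 0 ≤ Gam c t x := by
  unfold Gam; positivity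

theorem Gam_mono {c c' t : ℝ} (h : c' ≤ c) (ht : 0 < t) (x : E4) : Gam c t x ≤ Gam c' t x := by
  unfold Gam
  have h1 : c' * ‖x‖ ^ 2 / t ≤ c * ‖x‖ ^ 2 / t := by gcongr
  have : Real.exp (-(c * ‖x‖ ^ 2 / t)) ≤ Real.exp (-(c' * ‖x‖ ^ 2 / t)) :=
    Real.exp_le_exp.2 (by linarith)
  exact mul_le_mul_of_nonneg_left this (by positivity)

theorem pow_exp_le (k : ℕ) {δ s : ℝ} (hδ : 0 < δ) (hs : 0 ≤ s) :
    s ^ k * Real.exp (-(δ * s ^ 2)) ≤ (k.factorial : ℝ) * Real.exp (1 / (4 * δ)) := by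
  have h1 : s ^ k ≤ (k.factorial : ℝ) * Real.exp s := by
    have := Real.pow_div_factorial_le_exp s hs k
    rw [div_le_iff₀ (by positivity)] at this
    linarith
  have h2 : s + -(δ * s ^ 2) ≤ 1 / (4 * δ) := by
    rw [le_div_iff₀ (by positivity)]
    nlinarith [sq_nonneg (2 * δ * s - 1)]
  calc s ^ k * Real.exp (-(δ * s ^ 2))
      ≤ (k.factorial : ℝ) * Real.exp s * Real.exp (-(δ * s ^ 2)) := by gcongr
    _ = (k.factorial : ℝ) * Real.exp (s + -(δ * s ^ 2)) := by rw [Real.exp_add]; ring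
    _ ≤ (k.factorial : ℝ) * Real.exp (1 / (4 * δ)) := by
      gcongr

/-- `‖x‖^k Γ_c(t,x) ≤ C (√t)^k Γ_{c'}(t,x)` -/
theorem gauss_pow (k : ℕ) {c c' : ℝ} (h : c' < c) :
    ∃ C : ℝ, 0 ≤ C ∧ ∀ t : ℝ, 0 < t → ∀ x : E4,
      ‖x‖ ^ k * Gam c t x ≤ C * Real.sqrt t ^ k * Gam c' t x := by
  refine ⟨(k.factorial : ℝ) * Real.exp (1 / (4 * (c - c'))), by positivity, fun t ht x => ?_⟩
  have hst : 0 < Real.sqrt t := Real.sqrt_pos.2 ht
  have h1 := pow_exp_le k (s := ‖x‖ / Real.sqrt t) (sub_pos.2 h) (by positivity)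
  have h2 : (‖x‖ / Real.sqrt t) ^ 2 = ‖x‖ ^ 2 / t := by
    rw [div_pow, Real.sq_sqrt ht.le]
  rw [h2] at h1
  have h3 : Real.exp (-(c * ‖x‖ ^ 2 / t)) =
      Real.exp (-((c - c') * (‖x‖ ^ 2 / t))) * Real.exp (-(c' * ‖x‖ ^ 2 / t)) := by
    rw [← Real.exp_add]; congr 1; ring
  unfold Gam
  rw [h3]
  have h4 : ‖x‖ ^ k = Real.sqrt t ^ k * (‖x‖ / Real.sqrt t) ^ k := by
    rw [← mul_pow, mul_div_cancel₀ _ hst.ne']
  rw [h4]
  have h5 : 0 ≤ Real.sqrt t ^ k * ((t ^ 2)⁻¹ * Real.exp (-(c' * ‖x‖ ^ 2 / t))) := by positivity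
  have h6 := mul_le_mul_of_nonneg_left h1 h5
  calc Real.sqrt t ^ k * (‖x‖ / Real.sqrt t) ^ k * ((t ^ 2)⁻¹ *
        (Real.exp (-((c - c') * (‖x‖ ^ 2 / t))) * Real.exp (-(c' * ‖x‖ ^ 2 / t))))
      = Real.sqrt t ^ k * ((t ^ 2)⁻¹ * Real.exp (-(c' * ‖x‖ ^ 2 / t))) *
        ((‖x‖ / Real.sqrt t) ^ k * Real.exp (-((c - c') * (‖x‖ ^ 2 / t)))) := by ring
    _ ≤ Real.sqrt t ^ k * ((t ^ 2)⁻¹ * Real.exp (-(c' * ‖x‖ ^ 2 / t))) *
        ((k.factorial : ℝ) * Real.exp (1 / (4 * (c - c')))) := h6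
    _ = (k.factorial : ℝ) * Real.exp (1 / (4 * (c - c'))) * Real.sqrt t ^ k *
        ((t ^ 2)⁻¹ * Real.exp (-(c' * ‖x‖ ^ 2 / t))) := by ring

theorem sqrt_le_one' {t : ℝ} (ht : t ∈ Ioc (0 : ℝ) 1) : Real.sqrt t ≤ 1 := by
  rw [Real.sqrt_le_iff]; exact ⟨zero_le_one, by simpa using ht.2⟩

theorem one_le_inv_sqrt {t : ℝ} (ht : t ∈ Ioc (0 : ℝ) 1) : 1 ≤ (Real.sqrt t)⁻¹ :=
  one_le_inv_iff₀.2 ⟨Real.sqrt_pos.2 ht.1, sqrt_le_one' ht⟩

variable {ι : Type*} {M : Met ι} {κ : Type*} [Fintype κ] [DecidableEq κ]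

/-! ### bounds of the scalar kernels -/

theorem rho_ge (M : Met ι) : ∃ c : ℝ, 0 < c ∧ ∀ i x z, c * ‖x - z‖ ^ 2 ≤ M.rho i x z := by
  obtain ⟨c, hc, h⟩ := M.ell
  refine ⟨c, hc, fun i x z => ?_⟩
  have h1 := h i x (fun a => x a - z a)
  have h2 := h i z (fun a => x a - z a)
  have h3 : ‖x - z‖ ^ 2 = ∑ a, (x a - z a) ^ 2 := by
    rw [EuclideanSpace.real_norm_sq_eq]; rfl
  have h4 : M.rho i x z = 1 / 2 * ((∑ a, ∑ b, M.g i a b x * (x a - z a) * (x b - z b)) +
      ∑ a, ∑ b, M.g i a b z * (x a - z a) * (x b - z b)) := by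
    unfold Met.rho
    congr 1
    rw [← Finset.sum_add_distrib]
    refine Finset.sum_congr rfl fun a _ => ?_
    rw [← Finset.sum_add_distrib]
    exact Finset.sum_congr rfl fun b _ => by ring
  rw [h3, h4]
  linarith

theorem GG_nonneg (M : Met ι) (i : ι) (t : ℝ) (x z : E4) : 0 ≤ M.GG i t x z := by
  unfold Met.GG; positivity

theorem GG_le (M : Met ι) : ∃ C c : ℝ, 0 ≤ C ∧ 0 < c ∧ ∀ i, ∀ t : ℝ, 0 < t → ∀ x z,
    M.GG i t x z ≤ C * Gam c t (x - z) := by
  obtain ⟨c, hc, h⟩ := rho_ge M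
  refine ⟨((4 * Real.pi) ^ 2)⁻¹, c / 4, by positivity, by positivity, fun i t ht x z => ?_⟩
  unfold Met.GG Gam
  have h1 : ((4 * Real.pi * t) ^ 2)⁻¹ = ((4 * Real.pi) ^ 2)⁻¹ * (t ^ 2)⁻¹ := by
    rw [mul_pow, mul_inv]
  have h2 : Real.exp (-(M.rho i x z / (4 * t))) ≤ Real.exp (-(c / 4 * ‖x - z‖ ^ 2 / t)) := by
    apply Real.exp_le_exp.2
    have h3 : c / 4 * ‖x - z‖ ^ 2 / t = c * ‖x - z‖ ^ 2 / (4 * t) := by
      field_simp
    rw [h3]
    have := h i x z
    have h5 : c * ‖x - z‖ ^ 2 / (4 * t) ≤ M.rho i x z / (4 * t) := by gcongr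
    linarith
  rw [h1, mul_assoc]
  gcongr

theorem HH_nonneg (M : Met ι) {R : ℝ} (c : Cut R) (m : ℕ) (i : ι) (t : ℝ) (x z : E4) :
    0 ≤ M.HH c m i t x z := mul_nonneg (c.mem m x).1 (GG_nonneg M i t x z)

theorem HH_le_GG (M : Met ι) {R : ℝ} (c : Cut R) (m : ℕ) (i : ι) (t : ℝ) (x z : E4) :
    M.HH c m i t x z ≤ M.GG i t x z := by
  have := mul_le_mul_of_nonneg_right (c.mem m x).2 (GG_nonneg M i t x z)
  rwa [one_mul] at this

theorem ps_zero_off {R : ℝ} (c : Cut R) (m : ℕ) :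
    Function.support (c.ps m) ⊆ closedBall (0 : E4) ((2 * m + 1) * R / 8) := by
  intro x hx
  by_contra h
  apply hx
  apply c.zero
  have : ¬ ‖x‖ ≤ (2 * m + 1) * R / 8 := by simpa using h
  linarith

theorem hasCompactSupport_ps {R : ℝ} (c : Cut R) (m : ℕ) : HasCompactSupport (c.ps m) :=
  HasCompactSupport.of_support_subset_isCompact (isCompact_closedBall _ _) (ps_zero_off c m)

theorem pd_ps_bdd {R : ℝ} (c : Cut R) (m : ℕ) :
    ∃ C : ℝ, 0 ≤ C ∧ ∀ j x, |pd j (c.ps m) x| ≤ C := by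
  have h1 : HasCompactSupport (fderiv ℝ (c.ps m)) := (hasCompactSupport_ps c m).fderiv (𝕜 := ℝ)
  have h2 : Continuous (fderiv ℝ (c.ps m)) :=
    (c.smooth m).continuous_fderiv (by simp)
  obtain ⟨C, hC⟩ := h1.exists_bound_of_continuous h2
  refine ⟨C, (norm_nonneg _).trans (hC 0), fun j x => ?_⟩
  unfold pd
  refine ((fderiv ℝ (c.ps m) x).le_opNorm _).trans ?_
  have h3 : ‖(EuclideanSpace.single j (1 : ℝ) : E4)‖ = 1 := by simp
  rw [h3, mul_one]
  exact hC x

theorem abs_sub_coord_le (x z : E4) (a : Fin 4) : |x a - z a| ≤ ‖x - z‖ := by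
  have := abs_coord_le (x - z) a
  simpa using this

theorem rx_le (M : Met ι) : ∃ C : ℝ, 0 ≤ C ∧ ∀ j i x z,
    |M.rx j i x z| ≤ C * (‖x - z‖ + ‖x - z‖ ^ 2) := by
  obtain ⟨C, hC0, hC⟩ := UB.bdd_fin (f := fun ab : Fin 4 × Fin 4 => fun i => M.g i ab.1 ab.2)
    (fun ab => M.ubg ab.1 ab.2)
  obtain ⟨D, hD0, hD⟩ := UB.bdd_fin
    (f := fun jab : Fin 4 × Fin 4 × Fin 4 => fun i => pd jab.1 (M.g i jab.2.1 jab.2.2))
    (fun jab => UB.pd (M.ubg jab.2.1 jab.2.2) jab.1)
  refine ⟨8 * C + 8 * D, by positivity, fun j i x z => ?_⟩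
  unfold Met.rx
  have h1 : |∑ b, (M.g i j b x + M.g i j b z) * (x b - z b)| ≤ 8 * C * ‖x - z‖ := by
    refine (Finset.abs_sum_le_sum_abs _ _).trans ?_
    have : ∀ b ∈ (Finset.univ : Finset (Fin 4)), |(M.g i j b x + M.g i j b z) * (x b - z b)| ≤
        2 * C * ‖x - z‖ := by
      intro b _
      rw [abs_mul]
      have e1 : |M.g i j b x + M.g i j b z| ≤ 2 * C := by
        refine (abs_add_le _ _).trans ?_
        have := hC (j, b) i x
        have := hC (j, b) i z
        simp only at *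
        linarith
      exact mul_le_mul e1 (abs_sub_coord_le x z b) (abs_nonneg _) (by positivity)
    refine (Finset.sum_le_sum this).trans ?_
    simp
    nlinarith [norm_nonneg (x - z)]
  have h2 : |1 / 2 * ∑ a, ∑ b, pd j (M.g i a b) x * (x a - z a) * (x b - z b)| ≤
      8 * D * ‖x - z‖ ^ 2 := by
    rw [abs_mul]
    have : |∑ a, ∑ b, pd j (M.g i a b) x * (x a - z a) * (x b - z b)| ≤
        16 * D * ‖x - z‖ ^ 2 := by
      refine (Finset.abs_sum_le_sum_abs _ _).trans ?_
      have e0 : ∀ a ∈ (Finset.univ : Finset (Fin 4)),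
          |∑ b, pd j (M.g i a b) x * (x a - z a) * (x b - z b)| ≤ 4 * D * ‖x - z‖ ^ 2 := by
        intro a _
        refine (Finset.abs_sum_le_sum_abs _ _).trans ?_
        have e1 : ∀ b ∈ (Finset.univ : Finset (Fin 4)),
            |pd j (M.g i a b) x * (x a - z a) * (x b - z b)| ≤ D * ‖x - z‖ ^ 2 := by
          intro b _
          rw [abs_mul, abs_mul, pow_two, ← mul_assoc]
          exact mul_le_mul (mul_le_mul (hD (j, a, b) i x) (abs_sub_coord_le x z a)
            (abs_nonneg _) hD0) (abs_sub_coord_le x z b) (abs_nonneg _) (by positivity)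
        refine (Finset.sum_le_sum e1).trans ?_
        simp
        nlinarith [norm_nonneg (x - z)]
      refine (Finset.sum_le_sum e0).trans ?_
      simp
      nlinarith [norm_nonneg (x - z)]
    have e2 : |(1 / 2 : ℝ)| = 1 / 2 := abs_of_pos (by norm_num)
    rw [e2]
    linarith
  have h3 := norm_nonneg (x - z)
  refine (abs_add_le _ _).trans ?_
  have h4 : 0 ≤ C * ‖x - z‖ ^ 2 := by positivity
  have h5 : 0 ≤ D * ‖x - z‖ := by positivity
  nlinarith

/-- `|∂_j H_m| ≤ C t^{-1/2} Γ` -/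
theorem dH_le (M : Met ι) {R : ℝ} (c : Cut R) (m : ℕ) :
    ∃ C c' : ℝ, 0 ≤ C ∧ 0 < c' ∧ ∀ j i, ∀ t ∈ Ioc (0 : ℝ) 1, ∀ x z,
      |M.dH c m j i t x z| ≤ C * (Real.sqrt t)⁻¹ * Gam c' t (x - z) := by
  obtain ⟨A, a, hA, ha, hG⟩ := GG_le M
  obtain ⟨B, hB, hp⟩ := pd_ps_bdd c m
  obtain ⟨D, hD, hr⟩ := rx_le M
  obtain ⟨E, hE, h1⟩ := gauss_pow 1 (show a / 2 < a by linarith)
  obtain ⟨F, hF, h2⟩ := gauss_pow 2 (show a / 2 < a by linarith)
  refine ⟨B * A + D * A * E + D * A * F, a / 2, by positivity, by positivity,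
    fun j i t ht x z => ?_⟩
  have ht0 := ht.1
  have hs0 : 0 < Real.sqrt t := Real.sqrt_pos.2 ht0
  have hs1 := one_le_inv_sqrt ht
  have hGm := Gam_mono (show a / 2 ≤ a by linarith) ht0 (x - z)
  have hGn := Gam_nonneg (a / 2) t (x - z)
  have hGa := Gam_nonneg a t (x - z)
  have k1 : |pd j (c.ps m) x * M.GG i t x z| ≤ B * A * (Real.sqrt t)⁻¹ * Gam (a / 2) t (x - z) := by
    rw [abs_mul, abs_of_nonneg (GG_nonneg M i t x z)]
    calc |pd j (c.ps m) x| * M.GG i t x z ≤ B * (A * Gam a t (x - z)) :=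
          mul_le_mul (hp j x) (hG i t ht0 x z) (GG_nonneg M i t x z) hB
      _ ≤ B * (A * Gam (a / 2) t (x - z)) := by gcongr
      _ = B * A * 1 * Gam (a / 2) t (x - z) := by ring
      _ ≤ B * A * (Real.sqrt t)⁻¹ * Gam (a / 2) t (x - z) := by gcongr
  have k2 : |c.ps m x * M.GG i t x z * (M.rx j i x z / (4 * t))| ≤
      (D * A * E + D * A * F) * (Real.sqrt t)⁻¹ * Gam (a / 2) t (x - z) := by
    rw [abs_mul, abs_mul, abs_div, abs_of_nonneg (c.mem m x).1,
      abs_of_nonneg (GG_nonneg M i t x z), abs_of_pos (show 0 < 4 * t by linarith)]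
    have u1 : c.ps m x * M.GG i t x z ≤ A * Gam a t (x - z) := by
      have := HH_le_GG M c m i t x z
      unfold Met.HH at this
      exact this.trans (hG i t ht0 x z)
    have u2 : |M.rx j i x z| / (4 * t) ≤ D * (‖x - z‖ + ‖x - z‖ ^ 2) / t := by
      have := hr j i x z
      rw [div_le_div_iff₀ (by linarith) ht0]
      nlinarith [abs_nonneg (M.rx j i x z), this]
    have u3 := h1 t ht0 (x - z)
    have u4 := h2 t ht0 (x - z)
    rw [pow_one, pow_one] at u3
    have hst : Real.sqrt t * Real.sqrt t = t := Real.mul_self_sqrt ht0.le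
    calc c.ps m x * M.GG i t x z * (|M.rx j i x z| / (4 * t))
        ≤ A * Gam a t (x - z) * (D * (‖x - z‖ + ‖x - z‖ ^ 2) / t) :=
          mul_le_mul u1 u2 (by positivity) (by positivity)
      _ = D * A / t * (‖x - z‖ * Gam a t (x - z) + ‖x - z‖ ^ 2 * Gam a t (x - z)) := by
          field_simp
      _ ≤ D * A / t * (E * Real.sqrt t * Gam (a / 2) t (x - z) +
          F * Real.sqrt t ^ 2 * Gam (a / 2) t (x - z)) := by gcongr
      _ = D * A * E * (Real.sqrt t / t) * Gam (a / 2) t (x - z) +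
          D * A * F * (Real.sqrt t ^ 2 / t) * Gam (a / 2) t (x - z) := by ring
      _ = D * A * E * (Real.sqrt t)⁻¹ * Gam (a / 2) t (x - z) +
          D * A * F * 1 * Gam (a / 2) t (x - z) := by
          have w1 : Real.sqrt t / t = (Real.sqrt t)⁻¹ := by
            rw [div_eq_iff ht0.ne', inv_mul_eq_div, eq_div_iff hs0.ne', hst]
          have w2 : Real.sqrt t ^ 2 / t = 1 := by
            rw [Real.sq_sqrt ht0.le, div_self ht0.ne']
          rw [w1, w2]
      _ ≤ D * A * E * (Real.sqrt t)⁻¹ * Gam (a / 2) t (x - z) +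
          D * A * F * (Real.sqrt t)⁻¹ * Gam (a / 2) t (x - z) := by gcongr
      _ = (D * A * E + D * A * F) * (Real.sqrt t)⁻¹ * Gam (a / 2) t (x - z) := by ring
  unfold Met.dH
  refine (abs_sub _ _).trans ?_
  have := add_le_add k1 k2
  refine this.trans (le_of_eq ?_)
  ring

end Crest.Agent.R249.HK352
end

-- ▼ part R249/HK3D_352
section

/-!
Row 249, Part C, leaf HK3 (helper352), part D: `inpD : InpM M c → InpD c D`.
-/

set_option autoImplicit false
set_option linter.unusedSectionVars false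
open scoped ContDiff
open MeasureTheory Set Metric

namespace Crest.Agent.R249.HK352
open Crest.Agent.R249.HK286

variable {ι : Type*} {M : Met ι} {κ : Type*} [Fintype κ] [DecidableEq κ]

/-! ### the coefficients -/

theorem ub_aa (D : Con M κ) (p q : κ) : UB fun i x => D.aa i x p q := by
  unfold Con.aa
  exact UB.sum _ fun j _ => UB.sum _ fun l _ => UB.mul (M.ubh j l)
    (UB.sum _ fun r _ => UB.mul (D.uba j p r) (D.uba l r q))

theorem a_le (D : Con M κ) : ∃ C : ℝ, 0 ≤ C ∧ ∀ j p q i x, |D.a i j p q x| ≤ C * ‖x‖ := by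
  obtain ⟨C, hC0, hC⟩ := UB.lip0_fin (f := fun jpq : Fin 4 × κ × κ => fun i =>
    D.a i jpq.1 jpq.2.1 jpq.2.2) (fun jpq => D.uba _ _ _) (fun jpq i => D.azero i _ _ _)
  exact ⟨C, hC0, fun j p q i x => hC (j, p, q) i x⟩

theorem h_le (M : Met ι) : ∃ C : ℝ, 0 ≤ C ∧ ∀ j l i x, |M.h i j l x| ≤ C := by
  obtain ⟨C, hC0, hC⟩ := UB.bdd_fin (f := fun jl : Fin 4 × Fin 4 => fun i => M.h i jl.1 jl.2)
    (fun jl => M.ubh _ _)
  exact ⟨C, hC0, fun j l i x => hC (j, l) i x⟩

theorem aa_sq_le (D : Con M κ) (p q : κ) :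
    ∃ C : ℝ, ∀ i x, |D.aa i x p q| ≤ C * ‖x‖ ^ 2 := by
  obtain ⟨A, hA0, hA⟩ := a_le D
  obtain ⟨H, hH0, hH⟩ := h_le M
  refine ⟨∑ _j : Fin 4, ∑ _l : Fin 4, H * ∑ _r : κ, A * A, fun i x => ?_⟩
  unfold Con.aa
  rw [Finset.sum_mul]
  refine (Finset.abs_sum_le_sum_abs _ _).trans (Finset.sum_le_sum fun j _ => ?_)
  rw [Finset.sum_mul]
  refine (Finset.abs_sum_le_sum_abs _ _).trans (Finset.sum_le_sum fun l _ => ?_)
  rw [abs_mul, mul_assoc]
  refine mul_le_mul (hH j l i x) ?_ (abs_nonneg _) hH0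
  rw [Finset.sum_mul]
  refine (Finset.abs_sum_le_sum_abs _ _).trans (Finset.sum_le_sum fun r _ => ?_)
  rw [abs_mul]
  calc |D.a i j p r x| * |D.a i l r q x| ≤ (A * ‖x‖) * (A * ‖x‖) :=
        mul_le_mul (hA _ _ _ _ _) (hA _ _ _ _ _) (abs_nonneg _) (by positivity)
    _ = A * A * ‖x‖ ^ 2 := by ring

theorem aa_symm (D : Con M κ) (i : ι) (x : E4) (p q : κ) : D.aa i x p q = D.aa i x q p := by
  unfold Con.aa
  rw [Finset.sum_comm]
  refine Finset.sum_congr rfl fun l _ => Finset.sum_congr rfl fun j _ => ?_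
  rw [M.hsymm i j l x]
  congr 1
  refine Finset.sum_congr rfl fun r _ => ?_
  rw [D.askew i j p r x, D.askew i l r q x]
  ring

/-- the numerator of `dv` -/
noncomputable def dvN (D : Con M κ) (i : ι) (x : E4) (p q : κ) : ℝ :=
  ∑ j, ∑ l, pd j (fun y => M.w i y * M.h i j l y * D.a i l p q y) x

theorem ub_dvN (D : Con M κ) (p q : κ) : UB fun i x => dvN D i x p q := by
  unfold dvN
  exact UB.sum _ fun j _ => UB.sum _ fun l _ =>
    UB.pd (UB.mul (UB.mul M.ubw (M.ubh j l)) (D.uba l p q)) j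

theorem dvN_zero (D : Con M κ) (i : ι) (p q : κ) : dvN D i 0 p q = 0 := by
  unfold dvN
  have h1 : ∀ j l, pd j (fun y => M.w i y * M.h i j l y * D.a i l p q y) 0 =
      M.w i 0 * M.h i j l 0 * pd j (D.a i l p q) 0 := by
    intro j l
    have hw : DifferentiableAt ℝ (M.w i) 0 := (M.ubw.1 i).differentiable (by simp) 0
    have hh : DifferentiableAt ℝ (M.h i j l) 0 := ((M.ubh j l).1 i).differentiable (by simp) 0
    have ha : DifferentiableAt ℝ (D.a i l p q) 0 := ((D.uba l p q).1 i).differentiable (by simp) 0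
    have hwh : DifferentiableAt ℝ (fun y => M.w i y * M.h i j l y) 0 := hw.fun_mul hh
    rw [pd_mul hwh ha, D.azero, mul_zero, zero_add]
  simp only [h1]
  have h2 : ∑ j, ∑ l, M.w i 0 * M.h i j l 0 * pd j (D.a i l p q) 0 =
      - ∑ j, ∑ l, M.w i 0 * M.h i j l 0 * pd j (D.a i l p q) 0 := by
    conv_lhs => rw [Finset.sum_comm]
    rw [← Finset.sum_neg_distrib]
    refine Finset.sum_congr rfl fun l _ => ?_
    rw [← Finset.sum_neg_distrib]
    refine Finset.sum_congr rfl fun j _ => ?_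
    rw [M.hsymm i j l 0, D.arad i l j p q]
    ring
  linarith

theorem dv_le (D : Con M κ) : ∃ C : ℝ, 0 ≤ C ∧ ∀ p q i x, |D.dv i x p q| ≤ C * ‖x‖ := by
  obtain ⟨A, hA0, hA⟩ := UB.lip0_fin (f := fun pq : κ × κ => fun i x => dvN D i x pq.1 pq.2)
    (fun pq => ub_dvN D _ _) (fun pq i => dvN_zero D i _ _)
  obtain ⟨c, hc, hw⟩ := M.wpos
  refine ⟨c⁻¹ * A, by positivity, fun p q i x => ?_⟩
  have h1 : D.dv i x p q = (M.w i x)⁻¹ * dvN D i x p q := rfl
  rw [h1, abs_mul, mul_assoc]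
  refine mul_le_mul ?_ (hA (p, q) i x) (abs_nonneg _) (by positivity)
  rw [abs_inv, abs_of_pos (hc.trans_le (hw i x))]
  exact inv_anti₀ hc (hw i x)

theorem dv_skew (D : Con M κ) (i : ι) (x : E4) (p q : κ) : D.dv i x p q = - D.dv i x q p := by
  unfold Con.dv
  rw [← mul_neg]
  congr 1
  rw [← Finset.sum_neg_distrib]
  refine Finset.sum_congr rfl fun j _ => ?_
  rw [← Finset.sum_neg_distrib]
  refine Finset.sum_congr rfl fun l _ => ?_
  rw [← pd_neg]
  congr 1
  funext y
  rw [D.askew i l p q y]; ring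

theorem sk_skew (D : Con M κ) {R : ℝ} (c : Cut R) (m : ℕ) (i : ι) (t : ℝ) (x z : E4) (p q : κ) :
    D.sk c m i t x z p q = - D.sk c m i t x z q p := by
  unfold Con.sk
  have h1 : ∑ j, ∑ l, M.h i j l x * M.dH c m j i t x z * D.a i l p q x =
      - ∑ j, ∑ l, M.h i j l x * M.dH c m j i t x z * D.a i l q p x := by
    rw [← Finset.sum_neg_distrib]
    refine Finset.sum_congr rfl fun j _ => ?_
    rw [← Finset.sum_neg_distrib]
    refine Finset.sum_congr rfl fun l _ => ?_
    rw [D.askew i l p q x]; ring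
  rw [h1, dv_skew D i x p q]
  ring

/-! ### measurability -/

theorem measurable_dv (D : Con M κ) (i : ι) (p q : κ) : Measurable fun x => D.dv i x p q := by
  have h1 : (fun x => D.dv i x p q) = fun x => (M.w i x)⁻¹ * dvN D i x p q := rfl
  rw [h1]
  exact ((M.ubw.1 i).continuous.measurable.inv).mul ((ub_dvN D p q).1 i).continuous.measurable

theorem measurable_sk (D : Con M κ) {R : ℝ} (c : Cut R) (hM : InpM M c) (m : ℕ) (i : ι) (p q : κ) :
    Measurable fun z : ℝ × E4 × E4 => D.sk c m i z.1 z.2.1 z.2.2 p q := by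
  unfold Con.sk
  have hx : Measurable fun z : ℝ × E4 × E4 => z.2.1 := measurable_snd.fst
  refine Measurable.sub ?_ ?_
  · refine (Measurable.const_mul (Finset.measurable_sum _ fun j _ =>
      Finset.measurable_sum _ fun l _ => ?_) 2).neg
    exact ((((M.ubh j l).1 i).continuous.measurable.comp hx).mul ((hM.dH m j).1 i)).mul
      (((D.uba l p q).1 i).continuous.measurable.comp hx)
  · exact ((hM.HH m).1 i).mul ((measurable_dv D i p q).comp hx)

/-! ### bounds of the skew part -/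

theorem sk_bound (D : Con M κ) {R : ℝ} (c : Cut R) (m : ℕ) (p q : κ) :
    ∃ C c' : ℝ, 0 ≤ C ∧ 0 < c' ∧ ∀ i, ∀ t ∈ Ioc (0 : ℝ) 1, ∀ x z,
      |D.sk c m i t x z p q| ≤ C * (‖x‖ / Real.sqrt t) * Gam c' t (x - z) := by
  obtain ⟨A, hA0, hA⟩ := a_le D
  obtain ⟨H, hH0, hH⟩ := h_le M
  obtain ⟨V, hV0, hV⟩ := dv_le D
  obtain ⟨B, b, hB0, hb, hB⟩ := dH_le M c m
  obtain ⟨G, g, hG0, hg, hG⟩ := GG_le M
  refine ⟨32 * H * B * A + G * V, min b g, by positivity, lt_min hb hg, fun i t ht x z => ?_⟩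
  have ht0 := ht.1
  have hs1 := one_le_inv_sqrt ht
  have hGm := Gam_mono (min_le_left b g) ht0 (x - z)
  have hGm' := Gam_mono (min_le_right b g) ht0 (x - z)
  have hGn := Gam_nonneg (min b g) t (x - z)
  have hsx : 0 ≤ (Real.sqrt t)⁻¹ := by positivity
  have k1 : |2 * ∑ j, ∑ l, M.h i j l x * M.dH c m j i t x z * D.a i l p q x| ≤
      32 * H * B * A * (‖x‖ / Real.sqrt t) * Gam (min b g) t (x - z) := by
    rw [abs_mul, abs_two]
    have e0 : ∀ j l, |M.h i j l x * M.dH c m j i t x z * D.a i l p q x| ≤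
        H * B * A * (‖x‖ / Real.sqrt t) * Gam (min b g) t (x - z) := by
      intro j l
      rw [abs_mul, abs_mul]
      calc |M.h i j l x| * |M.dH c m j i t x z| * |D.a i l p q x|
          ≤ H * (B * (Real.sqrt t)⁻¹ * Gam b t (x - z)) * (A * ‖x‖) := by
            refine mul_le_mul (mul_le_mul (hH j l i x) (hB j i t ht x z) (abs_nonneg _) hH0)
              (hA l p q i x) (abs_nonneg _) ?_
            have := Gam_nonneg b t (x - z)
            positivity
        _ ≤ H * (B * (Real.sqrt t)⁻¹ * Gam (min b g) t (x - z)) * (A * ‖x‖) := by gcongr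
        _ = H * B * A * (‖x‖ / Real.sqrt t) * Gam (min b g) t (x - z) := by
            rw [div_eq_mul_inv]; ring
    have e1 : |∑ j, ∑ l, M.h i j l x * M.dH c m j i t x z * D.a i l p q x| ≤
        16 * (H * B * A * (‖x‖ / Real.sqrt t) * Gam (min b g) t (x - z)) := by
      refine (Finset.abs_sum_le_sum_abs _ _).trans ?_
      refine (Finset.sum_le_sum fun j _ => (Finset.abs_sum_le_sum_abs _ _).trans
        (Finset.sum_le_sum fun l _ => e0 j l)).trans (le_of_eq ?_)
      simp only [Finset.sum_const, Finset.card_univ, Fintype.card_fin, nsmul_eq_mul]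
      push_cast
      ring
    linarith
  have k2 : |M.HH c m i t x z * D.dv i x p q| ≤
      G * V * (‖x‖ / Real.sqrt t) * Gam (min b g) t (x - z) := by
    rw [abs_mul, abs_of_nonneg (HH_nonneg M c m i t x z)]
    calc M.HH c m i t x z * |D.dv i x p q| ≤ (G * Gam g t (x - z)) * (V * ‖x‖) :=
          mul_le_mul ((HH_le_GG M c m i t x z).trans (hG i t ht0 x z)) (hV p q i x)
            (abs_nonneg _) (by have := Gam_nonneg g t (x - z); positivity)
      _ ≤ (G * Gam (min b g) t (x - z)) * (V * ‖x‖) := by gcongr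
      _ = G * V * (‖x‖ * 1) * Gam (min b g) t (x - z) := by ring
      _ ≤ G * V * (‖x‖ * (Real.sqrt t)⁻¹) * Gam (min b g) t (x - z) := by gcongr
      _ = G * V * (‖x‖ / Real.sqrt t) * Gam (min b g) t (x - z) := by rw [div_eq_mul_inv]
  unfold Con.sk
  refine (abs_sub _ _).trans ?_
  rw [abs_neg]
  refine (add_le_add k1 k2).trans (le_of_eq ?_)
  ring

/-- radial gauge: `|Σ_l x_l a_l(x)| ≤ C ‖x‖³` -/
theorem radial_le (D : Con M κ) (p q : κ) :
    ∃ C : ℝ, 0 ≤ C ∧ ∀ i x, |∑ l, x l * D.a i l p q x| ≤ C * ‖x‖ ^ 3 := by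
  obtain ⟨A, hA0, hA⟩ := UB.taylor_fin (f := fun l : Fin 4 => fun i => D.a i l p q)
    (fun l => D.uba l p q)
  refine ⟨4 * A, by positivity, fun i x => ?_⟩
  have h0 : ∑ l, ∑ k, x l * (x k * pd k (D.a i l p q) 0) = 0 := by
    have : ∑ l, ∑ k, x l * (x k * pd k (D.a i l p q) 0) =
        - ∑ l, ∑ k, x l * (x k * pd k (D.a i l p q) 0) := by
      conv_lhs => rw [Finset.sum_comm]
      rw [← Finset.sum_neg_distrib]
      refine Finset.sum_congr rfl fun l _ => ?_
      rw [← Finset.sum_neg_distrib]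
      refine Finset.sum_congr rfl fun k _ => ?_
      rw [D.arad i k l p q]; ring
    linarith
  have h1 : ∑ l, x l * D.a i l p q x =
      ∑ l, x l * (D.a i l p q x - D.a i l p q 0 - ∑ k, x k * pd k (D.a i l p q) 0) := by
    have : ∀ l, x l * (D.a i l p q x - D.a i l p q 0 - ∑ k, x k * pd k (D.a i l p q) 0) =
        x l * D.a i l p q x - ∑ k, x l * (x k * pd k (D.a i l p q) 0) := by
      intro l
      rw [D.azero, mul_sub, mul_sub, mul_zero, sub_zero, Finset.mul_sum]
    simp only [this, Finset.sum_sub_distrib, h0, sub_zero]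
  rw [h1]
  refine (Finset.abs_sum_le_sum_abs _ _).trans ?_
  have h2 : ∀ l ∈ (Finset.univ : Finset (Fin 4)),
      |x l * (D.a i l p q x - D.a i l p q 0 - ∑ k, x k * pd k (D.a i l p q) 0)| ≤
      A * ‖x‖ ^ 3 := by
    intro l _
    rw [abs_mul]
    calc |x l| * |D.a i l p q x - D.a i l p q 0 - ∑ k, x k * pd k (D.a i l p q) 0|
        ≤ ‖x‖ * (A * ‖x‖ ^ 2) :=
          mul_le_mul (abs_coord_le x l) (hA l i x) (abs_nonneg _) (norm_nonneg _)
      _ = A * ‖x‖ ^ 3 := by ring
  refine (Finset.sum_le_sum h2).trans (le_of_eq ?_)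
  simp only [Finset.sum_const, Finset.card_univ, Fintype.card_fin, nsmul_eq_mul]
  push_cast
  ring

set_option maxHeartbeats 2000000 in
theorem sk0_bound (D : Con M κ) {R : ℝ} (c : Cut R) (hM : InpM M c) (m : ℕ) (p q : κ) :
    ∃ C c' : ℝ, 0 ≤ C ∧ 0 < c' ∧ ∀ i, ∀ t ∈ Ioc (0 : ℝ) 1, ∀ x,
      |D.sk c m i t x 0 p q| ≤ C * Real.sqrt t * Gam c' t x := by
  obtain ⟨A, hA0, hA⟩ := a_le D
  obtain ⟨H, hH0, hH⟩ := h_le M
  obtain ⟨V, hV0, hV⟩ := dv_le D
  obtain ⟨P, hP0, hP⟩ := pd_ps_bdd c m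
  obtain ⟨G, g, hG0, hg, hG⟩ := GG_le M
  obtain ⟨S, hS0, hS⟩ := radial_le D p q
  have hrx : ∃ T : ℝ, 0 ≤ T ∧ ∀ l i x, |∑ j, M.h i j l x * M.rx j i x 0 - 2 * x l| ≤
      T * ‖x‖ ^ 2 := by
    choose T hT using hM.rx0
    refine ⟨∑ l, |T l|, Finset.sum_nonneg fun _ _ => abs_nonneg _, fun l i x => ?_⟩
    refine (hT l i x).trans (mul_le_mul_of_nonneg_right ?_ (by positivity))
    exact (le_abs_self _).trans (Finset.single_le_sum (f := fun l => |T l|)
      (fun _ _ => abs_nonneg _) (Finset.mem_univ l))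
  obtain ⟨T, hT0, hT⟩ := hrx
  obtain ⟨E, hE0, hE⟩ := gauss_pow 1 (show g / 2 < g by linarith)
  obtain ⟨F, hF0, hF⟩ := gauss_pow 3 (show g / 2 < g by linarith)
  refine ⟨(32 * H * P * A + V) * G * E + (2 * S + 4 * T * A) * G * F, g / 2, by positivity,
    by positivity, fun i t ht x => ?_⟩
  have ht0 := ht.1
  have hs0 : 0 < Real.sqrt t := Real.sqrt_pos.2 ht0
  have hx0 := norm_nonneg x
  have hGG := hG i t ht0 x 0
  rw [sub_zero] at hGG
  have hGG0 := GG_nonneg M i t x 0
  have hps := c.mem m x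
  -- split
  have e1 : D.sk c m i t x 0 p q =
      - (2 * ∑ j, ∑ l, M.h i j l x * (pd j (c.ps m) x) * D.a i l p q x) * M.GG i t x 0
      + c.ps m x * M.GG i t x 0 / (2 * t) *
        (∑ l, (∑ j, M.h i j l x * M.rx j i x 0) * D.a i l p q x)
      - M.HH c m i t x 0 * D.dv i x p q := by
    unfold Con.sk Met.dH
    have s1 : ∑ j, ∑ l, M.h i j l x * (pd j (c.ps m) x * M.GG i t x 0 -
        c.ps m x * M.GG i t x 0 * (M.rx j i x 0 / (4 * t))) * D.a i l p q x =
        (∑ j, ∑ l, M.h i j l x * (pd j (c.ps m) x) * D.a i l p q x) * M.GG i t x 0 -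
        c.ps m x * M.GG i t x 0 / (4 * t) *
          (∑ j, ∑ l, M.h i j l x * M.rx j i x 0 * D.a i l p q x) := by
      rw [Finset.sum_mul, Finset.mul_sum, ← Finset.sum_sub_distrib]
      refine Finset.sum_congr rfl fun j _ => ?_
      rw [Finset.sum_mul, Finset.mul_sum, ← Finset.sum_sub_distrib]
      refine Finset.sum_congr rfl fun l _ => ?_
      ring
    have s2 : (∑ l, (∑ j, M.h i j l x * M.rx j i x 0) * D.a i l p q x) =
        ∑ j, ∑ l, M.h i j l x * M.rx j i x 0 * D.a i l p q x := by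
      rw [Finset.sum_comm]
      exact Finset.sum_congr rfl fun l _ => by rw [Finset.sum_mul]
    rw [s1, s2]
    have ht' : t ≠ 0 := ht0.ne'
    field_simp
    ring
  -- first term
  have b1 : |∑ j, ∑ l, M.h i j l x * (pd j (c.ps m) x) * D.a i l p q x| ≤
      16 * (H * P * A) * ‖x‖ := by
    have e0 : ∀ j l, |M.h i j l x * (pd j (c.ps m) x) * D.a i l p q x| ≤ H * P * A * ‖x‖ := by
      intro j l
      rw [abs_mul, abs_mul, mul_assoc (H * P)]
      exact mul_le_mul (mul_le_mul (hH j l i x) (hP j x) (abs_nonneg _) hH0) (hA l p q i x)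
        (abs_nonneg _) (by positivity)
    refine (Finset.abs_sum_le_sum_abs _ _).trans ?_
    refine (Finset.sum_le_sum fun j _ => (Finset.abs_sum_le_sum_abs _ _).trans
      (Finset.sum_le_sum fun l _ => e0 j l)).trans (le_of_eq ?_)
    simp only [Finset.sum_const, Finset.card_univ, Fintype.card_fin, nsmul_eq_mul]
    push_cast
    ring
  -- second term
  have b2 : |∑ l, (∑ j, M.h i j l x * M.rx j i x 0) * D.a i l p q x| ≤
      (2 * S + 4 * T * A) * ‖x‖ ^ 3 := by
    have s1 : ∑ l, (∑ j, M.h i j l x * M.rx j i x 0) * D.a i l p q x =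
        2 * (∑ l, x l * D.a i l p q x) +
        ∑ l, (∑ j, M.h i j l x * M.rx j i x 0 - 2 * x l) * D.a i l p q x := by
      rw [Finset.mul_sum, ← Finset.sum_add_distrib]
      refine Finset.sum_congr rfl fun l _ => ?_
      ring
    rw [s1]
    refine (abs_add_le _ _).trans ?_
    have s2 : |2 * ∑ l, x l * D.a i l p q x| ≤ 2 * S * ‖x‖ ^ 3 := by
      rw [abs_mul, abs_two]
      have := hS i x
      linarith
    have s3 : |∑ l, (∑ j, M.h i j l x * M.rx j i x 0 - 2 * x l) * D.a i l p q x| ≤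
        4 * T * A * ‖x‖ ^ 3 := by
      refine (Finset.abs_sum_le_sum_abs _ _).trans ?_
      have : ∀ l ∈ (Finset.univ : Finset (Fin 4)),
          |(∑ j, M.h i j l x * M.rx j i x 0 - 2 * x l) * D.a i l p q x| ≤ T * A * ‖x‖ ^ 3 := by
        intro l _
        rw [abs_mul]
        calc _ ≤ (T * ‖x‖ ^ 2) * (A * ‖x‖) :=
              mul_le_mul (hT l i x) (hA l p q i x) (abs_nonneg _) (by positivity)
          _ = T * A * ‖x‖ ^ 3 := by ring
      refine (Finset.sum_le_sum this).trans (le_of_eq ?_)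
      simp only [Finset.sum_const, Finset.card_univ, Fintype.card_fin, nsmul_eq_mul]
      push_cast
      ring
    linarith
  have hgx := Gam_nonneg g t x
  have g1 := hE t ht0 x
  have g3 := hF t ht0 x
  rw [pow_one, pow_one] at g1
  have t1 : |-(2 * ∑ j, ∑ l, M.h i j l x * (pd j (c.ps m) x) * D.a i l p q x) * M.GG i t x 0| ≤
      32 * H * P * A * G * E * Real.sqrt t * Gam (g / 2) t x := by
    rw [abs_mul, abs_neg, abs_mul, abs_two, abs_of_nonneg hGG0]
    calc 2 * |∑ j, ∑ l, M.h i j l x * (pd j (c.ps m) x) * D.a i l p q x| * M.GG i t x 0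
        ≤ 2 * (16 * (H * P * A) * ‖x‖) * (G * Gam g t x) := by
          refine mul_le_mul (by linarith) hGG hGG0 (by positivity)
      _ = 32 * H * P * A * G * (‖x‖ * Gam g t x) := by ring
      _ ≤ 32 * H * P * A * G * (E * Real.sqrt t * Gam (g / 2) t x) := by gcongr
      _ = _ := by ring
  have t3 : |M.HH c m i t x 0 * D.dv i x p q| ≤ V * G * E * Real.sqrt t * Gam (g / 2) t x := by
    rw [abs_mul, abs_of_nonneg (HH_nonneg M c m i t x 0)]
    calc M.HH c m i t x 0 * |D.dv i x p q| ≤ (G * Gam g t x) * (V * ‖x‖) :=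
          mul_le_mul ((HH_le_GG M c m i t x 0).trans hGG) (hV p q i x) (abs_nonneg _)
            (by positivity)
      _ = V * G * (‖x‖ * Gam g t x) := by ring
      _ ≤ V * G * (E * Real.sqrt t * Gam (g / 2) t x) := by gcongr
      _ = _ := by ring
  have t2 : |c.ps m x * M.GG i t x 0 / (2 * t) *
      (∑ l, (∑ j, M.h i j l x * M.rx j i x 0) * D.a i l p q x)| ≤
      (2 * S + 4 * T * A) * G * F * Real.sqrt t * Gam (g / 2) t x := by
    rw [abs_mul, abs_div, abs_mul, abs_of_nonneg hps.1, abs_of_nonneg hGG0,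
      abs_of_pos (show 0 < 2 * t by linarith)]
    have u1 : c.ps m x * M.GG i t x 0 / (2 * t) ≤ G * Gam g t x / t := by
      have v1 : c.ps m x * M.GG i t x 0 ≤ G * Gam g t x := by
        calc c.ps m x * M.GG i t x 0 ≤ 1 * M.GG i t x 0 :=
              mul_le_mul_of_nonneg_right hps.2 hGG0
          _ ≤ G * Gam g t x := by rw [one_mul]; exact hGG
      have v2 : 0 ≤ G * Gam g t x := by positivity
      rw [div_le_div_iff₀ (by linarith) ht0]
      nlinarith
    have hst : Real.sqrt t ^ 3 = t * Real.sqrt t := by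
      rw [pow_succ, Real.sq_sqrt ht0.le]
    calc c.ps m x * M.GG i t x 0 / (2 * t) *
        |∑ l, (∑ j, M.h i j l x * M.rx j i x 0) * D.a i l p q x|
        ≤ G * Gam g t x / t * ((2 * S + 4 * T * A) * ‖x‖ ^ 3) :=
          mul_le_mul u1 b2 (abs_nonneg _) (by positivity)
      _ = (2 * S + 4 * T * A) * G / t * (‖x‖ ^ 3 * Gam g t x) := by ring
      _ ≤ (2 * S + 4 * T * A) * G / t * (F * Real.sqrt t ^ 3 * Gam (g / 2) t x) := by gcongr
      _ = (2 * S + 4 * T * A) * G * F * Real.sqrt t * Gam (g / 2) t x := by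
          rw [hst]; field_simp
  rw [e1]
  refine (abs_sub _ _).trans ((add_le_add_left (abs_add_le _ _) _).trans ?_)
  refine (add_le_add (add_le_add t1 t2) t3).trans (le_of_eq ?_)
  ring

/-! ### the interface -/

theorem kw_sk (D : Con M κ) {R : ℝ} (c : Cut R) (hM : InpM M c) (m : ℕ) (p q : κ) :
    KW fun i t x z => D.sk c m i t x z p q := by
  refine ⟨fun i => measurable_sk D c hM m i p q, ?_⟩
  obtain ⟨C, c', hC, hc', h⟩ := sk_bound D c m p q
  refine ⟨C, c', hC, hc', fun i t ht x z => (h i t ht x z).trans ?_⟩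
  have h1 : C * (‖x‖ / Real.sqrt t) ≤ C * (1 + ‖x‖ / Real.sqrt t) := by
    gcongr
    linarith
  exact mul_le_mul_of_nonneg_right h1 (Gam_nonneg _ _ _)

theorem vb_sk0 (D : Con M κ) {R : ℝ} (c : Cut R) (hM : InpM M c) (p q : κ) :
    VB (1 / 2) fun i t x => D.sk c 1 i t x 0 p q := by
  refine ⟨fun i => ?_, ?_⟩
  · have h1 : Measurable (fun z : ℝ × E4 => ((z.1, z.2, (0 : E4)) : ℝ × E4 × E4)) :=
      Measurable.prodMk measurable_fst (Measurable.prodMk measurable_snd measurable_const)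
    have h2 := (measurable_sk D c hM 1 i p q).comp h1
    have h3 : (fun z : ℝ × E4 => (fun (i : ι) (t : ℝ) (x : E4) => D.sk c 1 i t x 0 p q) i z.1 z.2) =
      (fun z : ℝ × E4 × E4 => D.sk c 1 i z.1 z.2.1 z.2.2 p q) ∘
        (fun z : ℝ × E4 => ((z.1, z.2, (0 : E4)) : ℝ × E4 × E4)) := by
      funext z
      rfl
    rw [h3]
    exact h2
  · obtain ⟨C, c', hC, hc', h⟩ := sk0_bound D c hM 1 p q
    refine ⟨C, c', hC, hc', fun i t ht x => ?_⟩
    have h2 := h i t ht x
    rw [Real.sqrt_eq_rpow] at h2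
    exact h2

/-- **HK3.** -/
theorem inpD {R : ℝ} (c : Cut R) (D : Con M κ) (hM : InpM M c) : InpD c D where
  sk := fun m p q => kw_sk D c hM m p q
  sk0 := fun p q => vb_sk0 D c hM p q
  skew := fun m i t x z p q => sk_skew D c m i t x z p q
  aam := fun p q i => ((ub_aa D p q).1 i).continuous.measurable
  aab := fun p q => by
    obtain ⟨C, _, hC⟩ := UB.bdd (ub_aa D p q)
    exact ⟨C, hC⟩
  aa2 := fun p q => aa_sq_le D p q
  aas := fun i x p q => aa_symm D i x p q
  Pm := fun p q i => ((D.ubP p q).1 i).continuous.measurable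
  Pb := fun p q => by
    obtain ⟨C, _, hC⟩ := UB.bdd (D.ubP p q)
    exact ⟨C, hC⟩
  em := em_of_scalar D c fun m i t x z ht => by
    rw [(hM.hd m i t x z ht).deriv]; ring

end Crest.Agent.R249.HK352
end

-- ▼ part R249/HK2A_352
section

/-!
Row 249, Part C, leaf HK2 (helper352), part A: pointwise identities of the metric (Jacobi's formula,
derivative of the inverse), general Taylor formula, the two cancellations
`4ρ - h(∂ρ, ∂ρ) = O(|x-z|^4)` and `Δρ - 8 = O(|x-z|^2)`.
-/

set_option autoImplicit false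
set_option linter.unusedSectionVars false
open scoped ContDiff
open MeasureTheory Set Metric

namespace Crest.Agent.R249.HK352
open Crest.Agent.R249.HK286

/-! ### Jacobi's formula (adapted from R208.N3, helper589) -/

section jacobi

variable {n : ℕ}
attribute [local instance] Matrix.normedAddCommGroup Matrix.normedSpace

theorem det_one_add_deriv (B : Matrix (Fin n) (Fin n) ℝ) :
    HasDerivAt (fun t : ℝ => (1 + t • B).det) B.trace 0 := by
  have h : ∀ t : ℝ, (1 + t • B).det = 1 + B.trace * t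
      + (((1 : Matrix (Fin n) (Fin n) (Polynomial ℝ)) + (Polynomial.X : Polynomial ℝ) •
        B.map Polynomial.C).det.divX.divX.eval t) * t ^ 2 := by
    intro t; exact Matrix.det_one_add_smul _ _
  simp only [h]
  have h0 : HasDerivAt (fun t : ℝ => t) 1 0 := hasDerivAt_id 0
  have h1 := (((1 : Matrix (Fin n) (Fin n) (Polynomial ℝ)) + (Polynomial.X : Polynomial ℝ) •
        B.map Polynomial.C).det.divX.divX).hasDerivAt (0 : ℝ)
  have h2 := ((h0.const_mul B.trace).const_add 1).add (h1.mul (h0.pow 2))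
  refine h2.congr_deriv ?_
  simp

theorem diffAt_det (A : Matrix (Fin n) (Fin n) ℝ) :
    DifferentiableAt ℝ (fun B : Matrix (Fin n) (Fin n) ℝ => B.det) A := by
  simp only [Matrix.det_apply]
  refine DifferentiableAt.fun_sum fun σ _ => ?_
  refine DifferentiableAt.fun_const_smul ?_ _
  have hL : ∀ i : Fin n, ∃ L : Matrix (Fin n) (Fin n) ℝ →L[ℝ] ℝ,
      HasFDerivAt (fun B : Matrix (Fin n) (Fin n) ℝ => B (σ i) i) L A := by
    intro i
    have h1 : HasFDerivAt (fun B : Matrix (Fin n) (Fin n) ℝ => (B (σ i) : Fin n → ℝ))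
        (ContinuousLinearMap.proj (R := ℝ) (φ := fun _ : Fin n => Fin n → ℝ) (σ i)) A :=
      (ContinuousLinearMap.proj (R := ℝ) (φ := fun _ : Fin n => Fin n → ℝ) (σ i)).hasFDerivAt
    have h2 : HasFDerivAt (fun r : Fin n → ℝ => r i)
        (ContinuousLinearMap.proj (R := ℝ) (φ := fun _ : Fin n => ℝ) i) (A (σ i)) :=
      (ContinuousLinearMap.proj (R := ℝ) (φ := fun _ : Fin n => ℝ) i).hasFDerivAt
    exact ⟨_, (h2.comp A h1 : HasFDerivAt ((fun r : Fin n → ℝ => r i) ∘
      (fun B : Matrix (Fin n) (Fin n) ℝ => (B (σ i) : Fin n → ℝ))) _ A)⟩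
  choose L hL using hL
  exact (HasFDerivAt.finsetProd (u := Finset.univ)
    (g := fun i (B : Matrix (Fin n) (Fin n) ℝ) => B (σ i) i) (x := A)
      (fun i _ => hL i)).differentiableAt

theorem det_deriv {A : ℝ → Matrix (Fin n) (Fin n) ℝ} {A' : Matrix (Fin n) (Fin n) ℝ} {t : ℝ}
    (hA : ∀ i j, HasDerivAt (fun t => A t i j) (A' i j) t) (hd : IsUnit (A t).det) :
    HasDerivAt (fun t => (A t).det) ((A t).det * ((A t)⁻¹ * A').trace) t := by
  have hA' : HasDerivAt A A' t := hasDerivAt_pi.2 fun i => hasDerivAt_pi.2 fun j => hA i j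
  have h1 := (diffAt_det (A t)).hasFDerivAt
  have h2 := h1.comp_hasDerivAt t hA'
  refine h2.congr_deriv ?_
  have h3 : HasDerivAt (fun s : ℝ => A t + s • A') A' 0 := by
    have := ((hasDerivAt_id (0 : ℝ)).smul_const A').const_add (A t)
    rw [one_smul] at this
    exact this
  have h4 : HasFDerivAt (fun B : Matrix (Fin n) (Fin n) ℝ => B.det)
      (fderiv ℝ (fun B : Matrix (Fin n) (Fin n) ℝ => B.det) (A t)) (A t + (0 : ℝ) • A') := by
    simpa using h1
  have h5 := h4.comp_hasDerivAt (0 : ℝ) h3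
  have h6 : ((fun B : Matrix (Fin n) (Fin n) ℝ => B.det) ∘ fun s : ℝ => A t + s • A')
      = fun s : ℝ => (A t).det * (1 + s • ((A t)⁻¹ * A')).det := by
    ext s
    simp only [Function.comp]
    rw [← Matrix.det_mul, Matrix.mul_add, Matrix.mul_one, Matrix.mul_smul, ← Matrix.mul_assoc,
      Matrix.mul_nonsing_inv _ hd, Matrix.one_mul]
  rw [h6] at h5
  have h7 := (det_one_add_deriv ((A t)⁻¹ * A')).const_mul (A t).det
  exact h5.unique h7

end jacobi

variable {ι : Type*} {M : Met ι}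

theorem hasDerivAt_line {f : E4 → ℝ} {x : E4} (hf : DifferentiableAt ℝ f x) (k : Fin 4) :
    HasDerivAt (fun t : ℝ => f (x + t • EuclideanSpace.single k 1)) (pd k f x) 0 := by
  have hline : HasDerivAt (fun t : ℝ => x + t • (EuclideanSpace.single k 1 : E4))
      (EuclideanSpace.single k 1 : E4) 0 := by
    have h1 := (hasDerivAt_id (0 : ℝ)).smul_const (EuclideanSpace.single k 1 : E4)
    rw [one_smul] at h1
    exact h1.const_add x
  have hf' : HasFDerivAt f (fderiv ℝ f x) (x + (0 : ℝ) • (EuclideanSpace.single k 1 : E4)) := by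
    simpa using hf.hasFDerivAt
  exact hf'.comp_hasDerivAt 0 hline

theorem w_pos (M : Met ι) (i : ι) (x : E4) : 0 < M.w i x := by
  obtain ⟨c, hc, h⟩ := M.wpos
  exact hc.trans_le (h i x)

theorem dg (M : Met ι) (i : ι) (a b : Fin 4) (x : E4) : DifferentiableAt ℝ (M.g i a b) x :=
  ((M.ubg a b).1 i).differentiable (by simp) x

theorem dh (M : Met ι) (i : ι) (a b : Fin 4) (x : E4) : DifferentiableAt ℝ (M.h i a b) x :=
  ((M.ubh a b).1 i).differentiable (by simp) x

theorem dw (M : Met ι) (i : ι) (x : E4) : DifferentiableAt ℝ (M.w i) x :=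
  (M.ubw.1 i).differentiable (by simp) x

/-- Jacobi: `2 ∂_k w = w tr(h ∂_k g)` -/
theorem jac (M : Met ι) (i : ι) (x : E4) (k : Fin 4) :
    2 * pd k (M.w i) x = M.w i x * ∑ a, ∑ b, M.h i a b x * pd k (M.g i a b) x := by
  set A : ℝ → Matrix (Fin 4) (Fin 4) ℝ := fun t =>
    Matrix.of fun a b => M.g i a b (x + t • EuclideanSpace.single k 1) with hA
  set A' : Matrix (Fin 4) (Fin 4) ℝ := Matrix.of fun a b => pd k (M.g i a b) x with hA'
  have hx0 : x + (0 : ℝ) • (EuclideanSpace.single k 1 : E4) = x := by simp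
  have h1 : ∀ a b, HasDerivAt (fun t => A t a b) (A' a b) 0 := fun a b =>
    hasDerivAt_line (dg M i a b x) k
  have hw := w_pos M i x
  have h2 : (A 0).det = M.w i x ^ 2 := by
    rw [M.wdet i x, hA]; simp only [hx0]
  have h3 : IsUnit (A 0).det := by
    rw [h2]; exact (pow_pos hw 2).ne'.isUnit
  have h4 := det_deriv h1 h3
  have h5 : HasDerivAt (fun t : ℝ => (M.w i (x + t • EuclideanSpace.single k 1)) ^ 2)
      (2 * M.w i x * pd k (M.w i) x) 0 := by
    have := (hasDerivAt_line (dw M i x) k).pow 2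
    refine this.congr_deriv ?_
    rw [hx0]; simp
  have h6 : (fun t => (A t).det) =
      fun t : ℝ => (M.w i (x + t • EuclideanSpace.single k 1)) ^ 2 := by
    funext t; rw [M.wdet]
  rw [h6] at h4
  have h7 := h4.unique h5
  have h8 : (A 0)⁻¹ = Matrix.of fun a b => M.h i a b x := by
    refine Matrix.inv_eq_left_inv ?_
    ext a b
    rw [Matrix.mul_apply, Matrix.one_apply]
    have := M.inv i a b x
    simpa [hA] using this
  have h9 : ((A 0)⁻¹ * A').trace = ∑ a, ∑ b, M.h i a b x * pd k (M.g i a b) x := by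
    rw [h8, Matrix.trace]
    refine Finset.sum_congr rfl fun a _ => ?_
    rw [Matrix.diag_apply, Matrix.mul_apply]
    refine Finset.sum_congr rfl fun b _ => ?_
    simp only [Matrix.of_apply, hA']
    rw [show M.g i b a = M.g i a b from funext fun y => M.gsymm i b a y]
  rw [h2, h9] at h7
  have h10 : M.w i x * (2 * pd k (M.w i) x) =
      M.w i x * (M.w i x * ∑ a, ∑ b, M.h i a b x * pd k (M.g i a b) x) := by
    linarith
  exact mul_left_cancel₀ hw.ne' h10

/-- derivative of `h g = 1` -/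
theorem dinv (M : Met ι) (i : ι) (x : E4) (j a b : Fin 4) :
    ∑ c, pd j (M.h i a c) x * M.g i c b x = - ∑ c, M.h i a c x * pd j (M.g i c b) x := by
  have h1 : pd j (fun y => ∑ c, M.h i a c y * M.g i c b y) x = 0 := by
    have : (fun y => ∑ c, M.h i a c y * M.g i c b y) = fun _ => if a = b then (1 : ℝ) else 0 :=
      funext fun y => M.inv i a b y
    rw [this]
    exact pd_const _ x j
  rw [pd_sum _ fun c _ => (dh M i a c x).fun_mul (dg M i c b x)] at h1
  have h2 : ∀ c, pd j (fun y => M.h i a c y * M.g i c b y) x =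
      pd j (M.h i a c) x * M.g i c b x + M.h i a c x * pd j (M.g i c b) x := fun c =>
    pd_mul (dh M i a c x) (dg M i c b x) j
  simp only [h2, Finset.sum_add_distrib] at h1
  linarith

/-! ### general Taylor formula -/

/-- first order Taylor formula at a general point -/
theorem UB.taylor' {f : ι → E4 → ℝ} (h : UB f) :
    ∃ C : ℝ, 0 ≤ C ∧ ∀ i x z,
      |f i z - f i x + ∑ k, (x k - z k) * HK286.pd k (f i) x| ≤ C * ‖x - z‖ ^ 2 := by
  obtain ⟨C, hC0, hC⟩ := UB.bd h 2
  refine ⟨C, hC0, fun i x z => ?_⟩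
  have hfd : ∀ z, ‖fderiv ℝ (fun y => fderiv ℝ (f i) y) z‖ ≤ C := by
    intro z
    have h1 : ‖iteratedFDeriv ℝ 2 (f i) z‖ = ‖fderiv ℝ (fderiv ℝ (f i)) z‖ := by
      rw [show (2 : ℕ) = 1 + 1 from rfl, ← norm_iteratedFDeriv_fderiv,
        show (1 : ℕ) = 0 + 1 from rfl, ← norm_iteratedFDeriv_fderiv, norm_iteratedFDeriv_zero]
    rw [← h1]; exact hC i z
  have hsm : ContDiff ℝ ∞ (fderiv ℝ (f i)) := (h.1 i).fderiv_right (m := ∞) (by simp)
  have hd : ∀ y, ‖fderiv ℝ (f i) y - fderiv ℝ (f i) x‖ ≤ C * ‖y - x‖ := by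
    intro y
    exact Convex.norm_image_sub_le_of_norm_fderiv_le (𝕜 := ℝ) (f := fderiv ℝ (f i)) (s := univ)
      (C := C) (fun y _ => (hsm.differentiable (by simp)) y) (fun y _ => hfd y) convex_univ
      (mem_univ x) (mem_univ y)
  have key := Convex.norm_image_sub_le_of_norm_hasFDerivWithin_le (𝕜 := ℝ)
    (f := fun y => f i y - fderiv ℝ (f i) x y)
    (f' := fun y => fderiv ℝ (f i) y - fderiv ℝ (f i) x)
    (s := closedBall x ‖z - x‖) (C := C * ‖z - x‖)
    (fun y _ => (((UB.differentiable h i) y).hasFDerivAt.sub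
      (fderiv ℝ (f i) x).hasFDerivAt).hasFDerivWithinAt)
    (fun y hy => (hd y).trans (mul_le_mul_of_nonneg_left (by simpa [dist_eq_norm] using hy) hC0))
    (convex_closedBall x ‖z - x‖) (mem_closedBall_self (norm_nonneg _))
    (by simp [dist_eq_norm] : z ∈ closedBall x ‖z - x‖)
  have e2 : fderiv ℝ (f i) x (x - z) = ∑ k, (x k - z k) * HK286.pd k (f i) x :=
    fderiv_eq_sum_pd x (x - z)
  have e1 : (f i z - fderiv ℝ (f i) x z) - (f i x - fderiv ℝ (f i) x x) =
      f i z - f i x + ∑ k, (x k - z k) * HK286.pd k (f i) x := by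
    rw [← e2, map_sub]; ring
  rw [e1, Real.norm_eq_abs, norm_sub_rev z x] at key
  calc |f i z - f i x + ∑ k, (x k - z k) * HK286.pd k (f i) x| ≤ C * ‖x - z‖ * ‖x - z‖ := key
    _ = C * ‖x - z‖ ^ 2 := by ring

/-! ### the remainders -/

/-- `r = g(z) - g(x) + ∂_v g(x)`, `v = x - z` -/
noncomputable def rr (M : Met ι) (i : ι) (x z : E4) (a b : Fin 4) : ℝ :=
  M.g i a b z - M.g i a b x + ∑ k, (x k - z k) * pd k (M.g i a b) x

/-- `m_l = (g(z) - g(x)) v + (1/2) ∂_l g(x) (v, v)` -/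
noncomputable def mm (M : Met ι) (i : ι) (x z : E4) (l : Fin 4) : ℝ :=
  ∑ b, (M.g i l b z - M.g i l b x) * (x b - z b)
    + 1 / 2 * ∑ a, ∑ b, pd l (M.g i a b) x * (x a - z a) * (x b - z b)

theorem rr_le (M : Met ι) : ∃ C : ℝ, 0 ≤ C ∧ ∀ a b i x z, |rr M i x z a b| ≤ C * ‖x - z‖ ^ 2 := by
  choose C hC0 hC using fun ab : Fin 4 × Fin 4 => UB.taylor' (M.ubg ab.1 ab.2)
  refine ⟨∑ ab, C ab, Finset.sum_nonneg fun _ _ => hC0 _, fun a b i x z => ?_⟩
  exact (hC (a, b) i x z).trans (mul_le_mul_of_nonneg_right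
    (Finset.single_le_sum (fun b _ => hC0 b) (Finset.mem_univ (a, b))) (by positivity))

theorem glip (M : Met ι) : ∃ C : ℝ, 0 ≤ C ∧ ∀ a b i x y, |M.g i a b x - M.g i a b y| ≤
    C * ‖x - y‖ := by
  choose C hC0 hC using fun ab : Fin 4 × Fin 4 => UB.lip (M.ubg ab.1 ab.2)
  refine ⟨∑ ab, C ab, Finset.sum_nonneg fun _ _ => hC0 _, fun a b i x z => ?_⟩
  exact (hC (a, b) i x z).trans (mul_le_mul_of_nonneg_right
    (Finset.single_le_sum (fun b _ => hC0 b) (Finset.mem_univ (a, b))) (by positivity))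

theorem dg_le (M : Met ι) : ∃ C : ℝ, 0 ≤ C ∧ ∀ l a b i x, |pd l (M.g i a b) x| ≤ C := by
  obtain ⟨D, hD0, hD⟩ := UB.bdd_fin
    (f := fun jab : Fin 4 × Fin 4 × Fin 4 => fun i => pd jab.1 (M.g i jab.2.1 jab.2.2))
    (fun jab => UB.pd (M.ubg jab.2.1 jab.2.2) jab.1)
  exact ⟨D, hD0, fun l a b i x => hD (l, a, b) i x⟩

theorem ddg_le (M : Met ι) : ∃ C : ℝ, 0 ≤ C ∧ ∀ j l a b i x,
    |pd j (pd l (M.g i a b)) x| ≤ C := by
  obtain ⟨D, hD0, hD⟩ := UB.bdd_fin
    (f := fun jab : Fin 4 × Fin 4 × Fin 4 × Fin 4 => fun i =>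
      pd jab.1 (pd jab.2.1 (M.g i jab.2.2.1 jab.2.2.2)))
    (fun jab => UB.pd (UB.pd (M.ubg jab.2.2.1 jab.2.2.2) jab.2.1) jab.1)
  exact ⟨D, hD0, fun j l a b i x => hD (j, l, a, b) i x⟩

theorem h_le' (M : Met ι) : ∃ C : ℝ, 0 ≤ C ∧ ∀ j l i x, |M.h i j l x| ≤ C := by
  obtain ⟨C, hC0, hC⟩ := UB.bdd_fin (f := fun jl : Fin 4 × Fin 4 => fun i => M.h i jl.1 jl.2)
    (fun jl => M.ubh _ _)
  exact ⟨C, hC0, fun j l i x => hC (j, l) i x⟩

theorem g_le' (M : Met ι) : ∃ C : ℝ, 0 ≤ C ∧ ∀ j l i x, |M.g i j l x| ≤ C := by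
  obtain ⟨C, hC0, hC⟩ := UB.bdd_fin (f := fun jl : Fin 4 × Fin 4 => fun i => M.g i jl.1 jl.2)
    (fun jl => M.ubg _ _)
  exact ⟨C, hC0, fun j l i x => hC (j, l) i x⟩

/-- sums over two indices -/
theorem abs_sum2_le {f : Fin 4 → Fin 4 → ℝ} {B : ℝ} (h : ∀ a b, |f a b| ≤ B) :
    |∑ a, ∑ b, f a b| ≤ 16 * B := by
  refine (Finset.abs_sum_le_sum_abs _ _).trans ?_
  refine (Finset.sum_le_sum fun j _ => (Finset.abs_sum_le_sum_abs _ _).trans
    (Finset.sum_le_sum fun l _ => h j l)).trans (le_of_eq ?_)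
  simp only [Finset.sum_const, Finset.card_univ, Fintype.card_fin, nsmul_eq_mul]
  push_cast
  ring

theorem abs_sum1_le {f : Fin 4 → ℝ} {B : ℝ} (h : ∀ a, |f a| ≤ B) :
    |∑ a, f a| ≤ 4 * B := by
  refine (Finset.abs_sum_le_sum_abs _ _).trans ?_
  refine (Finset.sum_le_sum fun j _ => h j).trans (le_of_eq ?_)
  simp only [Finset.sum_const, Finset.card_univ, Fintype.card_fin, nsmul_eq_mul]
  push_cast
  ring

/-- quadratic form with entries bounded by `B` -/
theorem quad_le {f : Fin 4 → Fin 4 → ℝ} {B : ℝ} (h : ∀ a b, |f a b| ≤ B) (x z : E4) :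
    |∑ a, ∑ b, f a b * (x a - z a) * (x b - z b)| ≤ 16 * (B * ‖x - z‖ ^ 2) := by
  refine abs_sum2_le fun a b => ?_
  have hB : 0 ≤ B := (abs_nonneg _).trans (h a b)
  rw [abs_mul, abs_mul, pow_two, ← mul_assoc]
  exact mul_le_mul (mul_le_mul (h a b) (abs_sub_coord_le x z a)
    (abs_nonneg _) hB) (abs_sub_coord_le x z b) (abs_nonneg _) (by positivity)

theorem mm_le (M : Met ι) : ∃ C : ℝ, 0 ≤ C ∧ ∀ l i x z, |mm M i x z l| ≤ C * ‖x - z‖ ^ 2 := by
  obtain ⟨C, hC0, hC⟩ := glip M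
  obtain ⟨D, hD0, hD⟩ := dg_le M
  refine ⟨4 * C + 8 * D, by positivity, fun l i x z => ?_⟩
  unfold mm
  have h1 : |∑ b, (M.g i l b z - M.g i l b x) * (x b - z b)| ≤ 4 * (C * ‖x - z‖ ^ 2) := by
    refine abs_sum1_le fun b => ?_
    rw [abs_mul, pow_two, ← mul_assoc]
    have e1 := hC l b i z x
    rw [norm_sub_rev] at e1
    exact mul_le_mul e1 (abs_sub_coord_le x z b) (abs_nonneg _) (by positivity)
  have h2 := quad_le (f := fun a b => pd l (M.g i a b) x) (fun a b => hD l a b i x) x z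
  refine (abs_add_le _ _).trans ?_
  rw [abs_mul, abs_of_pos (show (0 : ℝ) < 1 / 2 by norm_num)]
  linarith

theorem rx_eq (M : Met ι) (j : Fin 4) (i : ι) (x z : E4) :
    M.rx j i x z = 2 * ∑ b, M.g i j b x * (x b - z b) + mm M i x z j := by
  unfold Met.rx mm
  have e1 : ∑ b, (M.g i j b x + M.g i j b z) * (x b - z b) =
      2 * ∑ b, M.g i j b x * (x b - z b) + ∑ b, (M.g i j b z - M.g i j b x) * (x b - z b) := by
    rw [Finset.mul_sum, ← Finset.sum_add_distrib]
    refine Finset.sum_congr rfl fun b _ => ?_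
    ring
  rw [e1]
  ring

/-- `Σ_j h^{jl} g_{jb} = δ_lb` -/
theorem inv' (M : Met ι) (i : ι) (x : E4) (l b : Fin 4) :
    ∑ j, M.h i j l x * M.g i j b x = if l = b then 1 else 0 := by
  rw [← M.inv i l b x]
  exact Finset.sum_congr rfl fun j _ => by rw [M.hsymm i j l x]

theorem h_rx (M : Met ι) (l : Fin 4) (i : ι) (x z : E4) :
    ∑ j, M.h i j l x * M.rx j i x z = 2 * (x l - z l) + ∑ j, M.h i j l x * mm M i x z j := by
  have h1 : ∑ j, M.h i j l x * ∑ b, M.g i j b x * (x b - z b) = x l - z l := by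
    have e1 : ∀ j, M.h i j l x * ∑ b, M.g i j b x * (x b - z b) =
        ∑ b, M.h i j l x * M.g i j b x * (x b - z b) := fun j => by
      rw [Finset.mul_sum]; exact Finset.sum_congr rfl fun b _ => by ring
    simp only [e1]
    rw [Finset.sum_comm]
    have e2 : ∀ b, ∑ j, M.h i j l x * M.g i j b x * (x b - z b) =
        (if l = b then 1 else 0) * (x b - z b) := fun b => by
      rw [← Finset.sum_mul, inv']
    simp only [e2]
    simp
  simp only [rx_eq, mul_add, Finset.sum_add_distrib]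
  congr 1
  rw [← h1, Finset.mul_sum]
  exact Finset.sum_congr rfl fun j _ => by ring

theorem sum_rot (F : Fin 4 → Fin 4 → Fin 4 → ℝ) :
    ∑ a, ∑ b, ∑ k, F a b k = ∑ k, ∑ a, ∑ b, F a b k := by
  calc ∑ a, ∑ b, ∑ k, F a b k = ∑ a, ∑ k, ∑ b, F a b k :=
        Finset.sum_congr rfl fun a _ => Finset.sum_comm
    _ = ∑ k, ∑ a, ∑ b, F a b k := Finset.sum_comm

/-- first cancellation -/
theorem eik (M : Met ι) (i : ι) (x z : E4) :
    4 * M.rho i x z - ∑ j, ∑ l, M.h i j l x * M.rx j i x z * M.rx l i x z =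
      -(2 * ∑ a, ∑ b, rr M i x z a b * (x a - z a) * (x b - z b))
      - ∑ j, ∑ l, M.h i j l x * mm M i x z j * mm M i x z l := by
  -- notation
  set v : Fin 4 → ℝ := fun a => x a - z a with hv
  set Sv : Fin 4 → ℝ := fun j => ∑ b, M.g i j b x * v b with hSv
  set m : Fin 4 → ℝ := fun j => mm M i x z j with hm
  set d : ℝ := ∑ k, ∑ a, ∑ b, pd k (M.g i a b) x * v a * v b * v k with hd
  have hrx : ∀ j, M.rx j i x z = 2 * Sv j + m j := fun j => rx_eq M j i x z
  have hhS : ∀ l, ∑ j, M.h i j l x * Sv j = v l := by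
    intro l
    have e1 : ∀ j, M.h i j l x * Sv j = ∑ b, M.h i j l x * M.g i j b x * v b := fun j => by
      rw [hSv]; simp only; rw [Finset.mul_sum]; exact Finset.sum_congr rfl fun b _ => by ring
    simp only [e1]
    rw [Finset.sum_comm]
    have e2 : ∀ b, ∑ j, M.h i j l x * M.g i j b x * v b = (if l = b then 1 else 0) * v b :=
      fun b => by rw [← Finset.sum_mul, inv']
    simp only [e2]
    simp
  -- expand the quadratic form
  have q1 : ∑ j, ∑ l, M.h i j l x * M.rx j i x z * M.rx l i x z =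
      4 * ∑ l, v l * Sv l + 4 * ∑ l, v l * m l + ∑ j, ∑ l, M.h i j l x * m j * m l := by
    have e1 : ∀ j l, M.h i j l x * M.rx j i x z * M.rx l i x z =
        4 * (M.h i j l x * Sv j * Sv l) + 2 * (M.h i j l x * Sv j * m l)
        + 2 * (M.h i j l x * Sv l * m j) + M.h i j l x * m j * m l := by
      intro j l; rw [hrx j, hrx l]; ring
    simp only [e1, Finset.sum_add_distrib, ← Finset.mul_sum]
    have s1 : ∀ f : Fin 4 → ℝ, ∑ j, ∑ l, M.h i j l x * Sv j * f l = ∑ l, v l * f l := by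
      intro f
      rw [Finset.sum_comm]
      refine Finset.sum_congr rfl fun l _ => ?_
      rw [← Finset.sum_mul, hhS]
    have s2 : ∑ j, ∑ l, M.h i j l x * Sv l * m j = ∑ l, v l * m l := by
      refine Finset.sum_congr rfl fun j _ => ?_
      rw [← Finset.sum_mul]
      congr 1
      rw [← hhS j]
      exact Finset.sum_congr rfl fun l _ => by rw [M.hsymm i j l x]
    rw [s1 Sv, s1 m, s2]
    ring
  -- the terms
  have q2 : ∑ l, v l * m l = ∑ a, ∑ b, rr M i x z a b * v a * v b - d + 1 / 2 * d := by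
    have e1 : ∀ l, v l * m l = ∑ b, (M.g i l b z - M.g i l b x) * v l * v b
        + 1 / 2 * ∑ a, ∑ b, pd l (M.g i a b) x * v a * v b * v l := by
      intro l
      simp only [hm, mm, hv]
      rw [mul_add, Finset.mul_sum]
      congr 1
      · exact Finset.sum_congr rfl fun b _ => by ring
      · rw [← mul_assoc, mul_comm (x l - z l) (1 / 2), mul_assoc, Finset.mul_sum]
        congr 1
        refine Finset.sum_congr rfl fun a _ => ?_
        rw [Finset.mul_sum]
        exact Finset.sum_congr rfl fun b _ => by ring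
    simp only [e1, Finset.sum_add_distrib, ← Finset.mul_sum]
    rw [← hd]
    congr 1
    have e2 : ∀ a b, rr M i x z a b * v a * v b = (M.g i a b z - M.g i a b x) * v a * v b
        + ∑ k, pd k (M.g i a b) x * v a * v b * v k := by
      intro a b
      simp only [rr]
      rw [add_mul, add_mul, Finset.sum_mul, Finset.sum_mul]
      congr 1
      exact Finset.sum_congr rfl fun k _ => by simp only [hv]; ring
    simp only [e2, Finset.sum_add_distrib]
    rw [sum_rot fun a b k => pd k (M.g i a b) x * v a * v b * v k, ← hd]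
    ring
  have q3 : 4 * M.rho i x z = 4 * ∑ l, v l * Sv l
      + 2 * ∑ a, ∑ b, rr M i x z a b * v a * v b - 2 * d := by
    have e1 : ∀ a b, (M.g i a b x + M.g i a b z) * (x a - z a) * (x b - z b) =
        2 * (v a * (M.g i a b x * v b)) + rr M i x z a b * v a * v b
        - ∑ k, pd k (M.g i a b) x * v a * v b * v k := by
      intro a b
      have : ∑ k, pd k (M.g i a b) x * v a * v b * v k =
          (∑ k, (x k - z k) * pd k (M.g i a b) x) * v a * v b := by
        rw [Finset.sum_mul, Finset.sum_mul]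
        exact Finset.sum_congr rfl fun k _ => by simp only [hv]; ring
      rw [this]
      simp only [rr, hv]
      ring
    unfold Met.rho
    simp only [e1, Finset.sum_add_distrib, Finset.sum_sub_distrib, ← Finset.mul_sum]
    rw [sum_rot fun a b k => pd k (M.g i a b) x * v a * v b * v k, ← hd]
    ring
  rw [q1, q2, q3]
  ring

/-- second cancellation -/
theorem lap8 (M : Met ι) (i : ι) (x z : E4) :
    M.lr i x z - 8 = ∑ j, ∑ l, M.h i j l x * rr M i x z j l
      + 1 / 2 * ∑ j, ∑ l, M.h i j l x *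
        ∑ a, ∑ b, pd j (pd l (M.g i a b)) x * (x a - z a) * (x b - z b)
      + ∑ l, M.be l i x * mm M i x z l := by
  set v : Fin 4 → ℝ := fun a => x a - z a with hv
  have hw := w_pos M i x
  -- trace of the inverse
  have t0 : ∑ j, ∑ l, M.h i j l x * M.g i j l x = 4 := by
    have : ∀ j, ∑ l, M.h i j l x * M.g i j l x = 1 := by
      intro j
      have := M.inv i j j x
      rw [if_pos rfl] at this
      rw [← this]
      exact Finset.sum_congr rfl fun l _ => by rw [M.gsymm i j l x]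
    simp only [this]
    simp
  -- first order coefficients
  have tb : ∀ b, ∑ l, M.be l i x * M.g i l b x =
      1 / 2 * (∑ j, ∑ l, M.h i j l x * pd b (M.g i j l) x)
      - ∑ j, ∑ l, M.h i j l x * pd j (M.g i l b) x := by
    intro b
    have e1 : ∀ l, M.be l i x * M.g i l b x =
        (M.w i x)⁻¹ * ∑ j, (pd j (M.w i) x * (M.h i j l x * M.g i l b x)
          + M.w i x * (pd j (M.h i j l) x * M.g i l b x)) := by
      intro l
      unfold Met.be
      rw [mul_assoc, Finset.sum_mul]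
      congr 1
      refine Finset.sum_congr rfl fun j _ => ?_
      rw [pd_mul (dw M i x) (dh M i j l x)]
      ring
    simp only [e1, ← Finset.mul_sum]
    rw [Finset.sum_comm]
    simp only [Finset.sum_add_distrib, ← Finset.mul_sum, M.inv i _ b x, dinv M i x]
    have e2 : ∑ j, pd j (M.w i) x * (if j = b then (1 : ℝ) else 0) = pd b (M.w i) x := by simp
    rw [e2]
    have e3 := jac M i x b
    have e4 : pd b (M.w i) x = M.w i x * (1 / 2 * ∑ a, ∑ c, M.h i a c x * pd b (M.g i a c) x) := by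
      linarith
    rw [e4, ← mul_add, ← mul_assoc, inv_mul_cancel₀ hw.ne', one_mul, Finset.sum_neg_distrib]
    ring
  -- expansion of the second order part
  have p1 : ∑ j, ∑ l, M.h i j l x * M.rxx j l i x z =
      8 + ∑ j, ∑ l, M.h i j l x * rr M i x z j l
      - ∑ b, v b * (∑ j, ∑ l, M.h i j l x * pd b (M.g i j l) x)
      + 2 * ∑ b, v b * (∑ j, ∑ l, M.h i j l x * pd j (M.g i l b) x)
      + 1 / 2 * ∑ j, ∑ l, M.h i j l x *
        ∑ a, ∑ b, pd j (pd l (M.g i a b)) x * v a * v b := by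
    have e1 : ∀ j l, M.h i j l x * M.rxx j l i x z =
        2 * (M.h i j l x * M.g i j l x) + M.h i j l x * rr M i x z j l
        - ∑ b, v b * (M.h i j l x * pd b (M.g i j l) x)
        + ∑ b, v b * (M.h i j l x * pd j (M.g i l b) x)
        + ∑ b, v b * (M.h i j l x * pd l (M.g i j b) x)
        + 1 / 2 * (M.h i j l x * ∑ a, ∑ b, pd j (pd l (M.g i a b)) x * v a * v b) := by
      intro j l
      have s1 : ∑ b, v b * (M.h i j l x * pd b (M.g i j l) x) =
          M.h i j l x * ∑ b, (x b - z b) * pd b (M.g i j l) x := by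
        rw [Finset.mul_sum]; exact Finset.sum_congr rfl fun b _ => by simp only [hv]; ring
      have s2 : ∑ b, v b * (M.h i j l x * pd j (M.g i l b) x) =
          M.h i j l x * ∑ a, pd j (M.g i l a) x * (x a - z a) := by
        rw [Finset.mul_sum]; exact Finset.sum_congr rfl fun b _ => by simp only [hv]; ring
      have s3 : ∑ b, v b * (M.h i j l x * pd l (M.g i j b) x) =
          M.h i j l x * ∑ a, pd l (M.g i j a) x * (x a - z a) := by
        rw [Finset.mul_sum]; exact Finset.sum_congr rfl fun b _ => by simp only [hv]; ring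
      rw [s1, s2, s3]
      simp only [Met.rxx, rr]
      ring
    simp only [e1, Finset.sum_add_distrib, Finset.sum_sub_distrib, ← Finset.mul_sum]
    rw [t0, sum_rot fun j l b => v b * (M.h i j l x * pd b (M.g i j l) x),
      sum_rot fun j l b => v b * (M.h i j l x * pd j (M.g i l b) x),
      sum_rot fun j l b => v b * (M.h i j l x * pd l (M.g i j b) x)]
    have s4 : ∑ b, ∑ j, ∑ l, v b * (M.h i j l x * pd l (M.g i j b) x) =
        ∑ b, ∑ j, ∑ l, v b * (M.h i j l x * pd j (M.g i l b) x) := by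
      refine Finset.sum_congr rfl fun b _ => ?_
      rw [Finset.sum_comm]
      refine Finset.sum_congr rfl fun j _ => Finset.sum_congr rfl fun l _ => ?_
      rw [M.hsymm i l j x]
    rw [s4]
    simp only [← Finset.mul_sum]
    ring
  have p2 : ∑ l, M.be l i x * M.rx l i x z =
      ∑ b, v b * (∑ j, ∑ l, M.h i j l x * pd b (M.g i j l) x)
      - 2 * ∑ b, v b * (∑ j, ∑ l, M.h i j l x * pd j (M.g i l b) x)
      + ∑ l, M.be l i x * mm M i x z l := by
    have e1 : ∀ l, M.be l i x * M.rx l i x z =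
        2 * (∑ b, v b * (M.be l i x * M.g i l b x)) + M.be l i x * mm M i x z l := by
      intro l
      have s1 : ∑ b, v b * (M.be l i x * M.g i l b x) =
          M.be l i x * ∑ b, M.g i l b x * (x b - z b) := by
        rw [Finset.mul_sum]; exact Finset.sum_congr rfl fun b _ => by simp only [hv]; ring
      rw [rx_eq, s1]
      ring
    simp only [e1, Finset.sum_add_distrib, ← Finset.mul_sum]
    rw [Finset.sum_comm]
    simp only [← Finset.mul_sum, tb]
    rw [Finset.mul_sum, Finset.mul_sum, ← Finset.sum_sub_distrib]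
    congr 1
    refine Finset.sum_congr rfl fun b _ => ?_
    ring
  unfold Met.lr
  rw [p1, p2]
  ring

end Crest.Agent.R249.HK352
end

-- ▼ part R249/HK2B_352
section

/-!
Row 249, Part C, leaf HK2 (helper352), part B: second derivatives of `ρ`, the Laplacian of `G` and
`H_m`, time derivative: `∂_t H_m = e0 + Δ H_m`.
-/

set_option autoImplicit false
set_option linter.unusedSectionVars false
open scoped ContDiff
open MeasureTheory Set Metric

namespace Crest.Agent.R249.HK352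
open Crest.Agent.R249.HK286

variable {ι : Type*} {M : Met ι}

theorem contDiff_pdg (M : Met ι) (i : ι) (l a b : Fin 4) : ContDiff ℝ ∞ (pd l (M.g i a b)) :=
  contDiff_pd ((M.ubg a b).1 i) l

theorem pd_sub_coord (a j : Fin 4) (x z : E4) :
    pd j (fun x : E4 => x a - z a) x = if a = j then 1 else 0 := by
  rw [pd_sub ((contDiff_coord a).differentiable (by simp) x) (differentiableAt_const _),
    pd_coord, pd_const, sub_zero]

theorem diff_sub_coord (a : Fin 4) (x z : E4) :
    DifferentiableAt ℝ (fun x : E4 => x a - z a) x :=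
  ((contDiff_coord a).differentiable (by simp) x).sub (differentiableAt_const _)

theorem contDiff_rx (M : Met ι) (l : Fin 4) (i : ι) (z : E4) :
    ContDiff ℝ ∞ (fun x => M.rx l i x z) := by
  have h1 : (fun x => M.rx l i x z) = pd l (fun x => M.rho i x z) :=
    funext fun x => (pd_rho M i x z l).symm
  rw [h1]
  exact contDiff_pd (contDiff_rho M i z) l

theorem pd_rx (M : Met ι) (i : ι) (x z : E4) (j l : Fin 4) :
    pd j (fun x => M.rx l i x z) x = M.rxx j l i x z := by
  have d1 : ∀ b, DifferentiableAt ℝ (fun x => (M.g i l b x + M.g i l b z) * (x b - z b)) x :=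
    fun b => ((dg M i l b x).add (differentiableAt_const _)).fun_mul (diff_sub_coord b x z)
  have d2 : ∀ a b, DifferentiableAt ℝ (fun x => pd l (M.g i a b) x * (x a - z a) * (x b - z b)) x :=
    fun a b => (((contDiff_pdg M i l a b).differentiable (by simp) x).fun_mul
      (diff_sub_coord a x z)).fun_mul (diff_sub_coord b x z)
  have d3 : ∀ a, DifferentiableAt ℝ
      (fun x => ∑ b, pd l (M.g i a b) x * (x a - z a) * (x b - z b)) x := fun a =>
    DifferentiableAt.fun_sum fun b _ => d2 a b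
  have p1 : ∀ b, pd j (fun x => (M.g i l b x + M.g i l b z) * (x b - z b)) x =
      pd j (M.g i l b) x * (x b - z b) + (M.g i l b x + M.g i l b z) * (if b = j then 1 else 0) := by
    intro b
    have e0 : DifferentiableAt ℝ (fun x => M.g i l b x + M.g i l b z) x :=
      (dg M i l b x).add (differentiableAt_const _)
    rw [pd_mul e0 (diff_sub_coord b x z), pd_sub_coord, pd_add (dg M i l b x)
      (differentiableAt_const _), pd_const, add_zero]
  have p2 : ∀ a b, pd j (fun x => pd l (M.g i a b) x * (x a - z a) * (x b - z b)) x =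
      pd j (pd l (M.g i a b)) x * (x a - z a) * (x b - z b)
      + pd l (M.g i a b) x * (if a = j then 1 else 0) * (x b - z b)
      + pd l (M.g i a b) x * (x a - z a) * (if b = j then 1 else 0) := by
    intro a b
    have e0 : DifferentiableAt ℝ (pd l (M.g i a b)) x :=
      (contDiff_pdg M i l a b).differentiable (by simp) x
    have e1 : DifferentiableAt ℝ (fun x => pd l (M.g i a b) x * (x a - z a)) x :=
      e0.fun_mul (diff_sub_coord a x z)
    rw [pd_mul e1 (diff_sub_coord b x z), pd_mul e0 (diff_sub_coord a x z), pd_sub_coord,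
      pd_sub_coord]
    ring
  unfold Met.rx Met.rxx
  rw [pd_add (DifferentiableAt.fun_sum fun b _ => d1 b)
    ((differentiableAt_const _).fun_mul (DifferentiableAt.fun_sum fun a _ => d3 a)),
    pd_sum _ fun b _ => d1 b, pd_const_mul (DifferentiableAt.fun_sum fun a _ => d3 a),
    pd_sum _ fun a _ => d3 a]
  have p3 : ∀ a, pd j (fun x => ∑ b, pd l (M.g i a b) x * (x a - z a) * (x b - z b)) x =
      ∑ b, (pd j (pd l (M.g i a b)) x * (x a - z a) * (x b - z b)
      + pd l (M.g i a b) x * (if a = j then 1 else 0) * (x b - z b)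
      + pd l (M.g i a b) x * (x a - z a) * (if b = j then 1 else 0)) := by
    intro a
    rw [pd_sum _ fun b _ => d2 a b]
    exact Finset.sum_congr rfl fun b _ => p2 a b
  simp only [p1, p3, Finset.sum_add_distrib]
  have q0 : ∑ b, (M.g i l b x + M.g i l b z) * (if b = j then (1 : ℝ) else 0) =
      M.g i j l x + M.g i j l z := by
    simp only [mul_ite, mul_one, mul_zero, Finset.sum_ite_eq', Finset.mem_univ, if_true]
    rw [M.gsymm i l j x, M.gsymm i l j z]
  have q1 : ∑ a, ∑ b, pd l (M.g i a b) x * (if a = j then (1 : ℝ) else 0) * (x b - z b) =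
      ∑ a, pd l (M.g i j a) x * (x a - z a) := by
    rw [Finset.sum_comm]
    refine Finset.sum_congr rfl fun b _ => ?_
    simp
  have q2 : ∑ a, ∑ b, pd l (M.g i a b) x * (x a - z a) * (if b = j then (1 : ℝ) else 0) =
      ∑ a, pd l (M.g i j a) x * (x a - z a) := by
    refine Finset.sum_congr rfl fun a _ => ?_
    simp only [mul_ite, mul_one, mul_zero, Finset.sum_ite_eq', Finset.mem_univ, if_true]
    rw [show M.g i a j = M.g i j a from funext fun y => M.gsymm i a j y]
  rw [q0, q1, q2]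
  ring

/-! ### the Laplacian -/

theorem lap_eq (M : Met ι) (i : ι) {φ : E4 → ℝ} (hφ : ContDiff ℝ ∞ φ) (x : E4) :
    M.lap i φ x = ∑ j, ∑ l, M.h i j l x * pd j (pd l φ) x + ∑ l, M.be l i x * pd l φ x := by
  have hw := w_pos M i x
  have dwh : ∀ j l, DifferentiableAt ℝ (fun y => M.w i y * M.h i j l y) x := fun j l =>
    (dw M i x).fun_mul (dh M i j l x)
  have e1 : ∀ j l, pd j (fun y => M.w i y * M.h i j l y * pd l φ y) x =
      pd j (fun y => M.w i y * M.h i j l y) x * pd l φ x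
      + M.w i x * (M.h i j l x * pd j (pd l φ) x) := by
    intro j l
    rw [pd_mul (dwh j l) ((contDiff_pd hφ l).differentiable (by simp) x)]
    ring
  unfold Met.lap
  simp only [e1, Finset.sum_add_distrib, ← Finset.mul_sum]
  rw [mul_add, ← mul_assoc, inv_mul_cancel₀ hw.ne', one_mul, add_comm]
  congr 1
  unfold Met.be
  rw [Finset.sum_comm, Finset.mul_sum]
  refine Finset.sum_congr rfl fun l _ => ?_
  rw [← Finset.sum_mul]
  ring

theorem pd_pd_mul {φ ψ : E4 → ℝ} (hφ : ContDiff ℝ ∞ φ) (hψ : ContDiff ℝ ∞ ψ) (j l : Fin 4)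
    (x : E4) : pd j (pd l (fun y => φ y * ψ y)) x =
      pd j (pd l φ) x * ψ x + pd l φ x * pd j ψ x + pd j φ x * pd l ψ x
      + φ x * pd j (pd l ψ) x := by
  have h1 : pd l (fun y => φ y * ψ y) = fun y => pd l φ y * ψ y + φ y * pd l ψ y :=
    funext fun y => pd_mul (hφ.differentiable (by simp) y) (hψ.differentiable (by simp) y) l
  have dφ : DifferentiableAt ℝ φ x := hφ.differentiable (by simp) x
  have dψ : DifferentiableAt ℝ ψ x := hψ.differentiable (by simp) x
  have dpφ : DifferentiableAt ℝ (pd l φ) x := (contDiff_pd hφ l).differentiable (by simp) x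
  have dpψ : DifferentiableAt ℝ (pd l ψ) x := (contDiff_pd hψ l).differentiable (by simp) x
  rw [h1, pd_add (dpφ.fun_mul dψ) (dφ.fun_mul dpψ), pd_mul dpφ dψ, pd_mul dφ dpψ]
  ring

theorem lap_mul (M : Met ι) (i : ι) {φ ψ : E4 → ℝ} (hφ : ContDiff ℝ ∞ φ) (hψ : ContDiff ℝ ∞ ψ)
    (x : E4) : M.lap i (fun y => φ y * ψ y) x =
      φ x * M.lap i ψ x + ψ x * M.lap i φ x
      + 2 * ∑ j, ∑ l, M.h i j l x * pd j φ x * pd l ψ x := by
  rw [lap_eq M i (hφ.mul hψ), lap_eq M i hφ, lap_eq M i hψ]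
  have e1 : ∀ l, M.be l i x * pd l (fun y => φ y * ψ y) x =
      φ x * (M.be l i x * pd l ψ x) + ψ x * (M.be l i x * pd l φ x) := by
    intro l
    rw [pd_mul (hφ.differentiable (by simp) x) (hψ.differentiable (by simp) x)]
    ring
  have e2 : ∀ j l, M.h i j l x * pd j (pd l (fun y => φ y * ψ y)) x =
      φ x * (M.h i j l x * pd j (pd l ψ) x) + ψ x * (M.h i j l x * pd j (pd l φ) x)
      + M.h i j l x * pd j φ x * pd l ψ x + M.h i j l x * pd l φ x * pd j ψ x := by
    intro j l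
    rw [pd_pd_mul hφ hψ]
    ring
  simp only [e1, e2, Finset.sum_add_distrib, ← Finset.mul_sum]
  have e3 : ∑ j, ∑ l, M.h i j l x * pd l φ x * pd j ψ x =
      ∑ j, ∑ l, M.h i j l x * pd j φ x * pd l ψ x := by
    rw [Finset.sum_comm]
    refine Finset.sum_congr rfl fun j _ => Finset.sum_congr rfl fun l _ => ?_
    rw [M.hsymm i l j x]
  rw [e3]
  ring

theorem pd_pd_GG (M : Met ι) (i : ι) (t : ℝ) (x z : E4) (j l : Fin 4) :
    pd j (pd l (fun x => M.GG i t x z)) x =
      M.GG i t x z * (M.rx j i x z * M.rx l i x z / (16 * t ^ 2) - M.rxx j l i x z / (4 * t)) := by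
  have h1 : pd l (fun x => M.GG i t x z) =
      fun x => (-(4 * t)⁻¹) * (M.GG i t x z * M.rx l i x z) :=
    funext fun x => by rw [pd_GG]; ring
  have dG : DifferentiableAt ℝ (fun x => M.GG i t x z) x :=
    (contDiff_GG M i t z).differentiable (by simp) x
  have dr : DifferentiableAt ℝ (fun x => M.rx l i x z) x :=
    (contDiff_rx M l i z).differentiable (by simp) x
  rw [h1, pd_const_mul (dG.fun_mul dr), pd_mul dG dr, pd_GG, pd_rx]
  ring

theorem lap_GG (M : Met ι) (i : ι) (t : ℝ) (x z : E4) :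
    M.lap i (fun x => M.GG i t x z) x =
      M.GG i t x z * ((∑ j, ∑ l, M.h i j l x * M.rx j i x z * M.rx l i x z) / (16 * t ^ 2)
        - M.lr i x z / (4 * t)) := by
  rw [lap_eq M i (contDiff_GG M i t z)]
  have e1 : ∀ j l, M.h i j l x * pd j (pd l (fun x => M.GG i t x z)) x =
      M.GG i t x z * (16 * t ^ 2)⁻¹ * (M.h i j l x * M.rx j i x z * M.rx l i x z)
      - M.GG i t x z * (4 * t)⁻¹ * (M.h i j l x * M.rxx j l i x z) := by
    intro j l
    rw [pd_pd_GG]; ring
  have e2 : ∀ l, M.be l i x * pd l (fun x => M.GG i t x z) x =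
      -(M.GG i t x z * (4 * t)⁻¹ * (M.be l i x * M.rx l i x z)) := by
    intro l
    rw [pd_GG]; ring
  simp only [e1, e2, Finset.sum_sub_distrib, Finset.sum_neg_distrib, ← Finset.mul_sum]
  unfold Met.lr
  ring

theorem hasDerivAt_GG (M : Met ι) (i : ι) {t : ℝ} (ht : 0 < t) (x z : E4) :
    HasDerivAt (fun s => M.GG i s x z) (M.GG i t x z * (M.rho i x z / (4 * t ^ 2) - 2 / t)) t := by
  unfold Met.GG
  have h0 : HasDerivAt (fun s : ℝ => s) 1 t := hasDerivAt_id t
  have h1 : HasDerivAt (fun s : ℝ => ((4 * Real.pi * s) ^ 2)⁻¹)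
      (((4 * Real.pi * t) ^ 2)⁻¹ * (-(2 / t))) t := by
    have hne : (4 * Real.pi * t) ^ 2 ≠ 0 := by positivity
    have := ((h0.const_mul (4 * Real.pi)).pow 2).fun_inv hne
    refine this.congr_deriv ?_
    simp only [Pi.pow_apply]
    field_simp
    push_cast
    ring
  have h2 : HasDerivAt (fun s : ℝ => Real.exp (-(M.rho i x z / (4 * s))))
      (Real.exp (-(M.rho i x z / (4 * t))) * (M.rho i x z / (4 * t ^ 2))) t := by
    have hne : 4 * t ≠ 0 := by positivity
    have h3 : HasDerivAt (fun s : ℝ => -(M.rho i x z / (4 * s))) (M.rho i x z / (4 * t ^ 2)) t := by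
      have := (((h0.const_mul 4).fun_inv hne).const_mul (M.rho i x z)).fun_neg
      simp only [← div_eq_mul_inv] at this
      refine this.congr_deriv ?_
      field_simp
    exact h3.exp
  refine (h1.mul h2).congr_deriv ?_
  ring

/-- `∂_t H_m = e0 + Δ H_m` -/
theorem hasDerivAt_HH (M : Met ι) {R : ℝ} (c : Cut R) (m : ℕ) (i : ι) {t : ℝ} (x z : E4)
    (ht : 0 < t) : HasDerivAt (fun s => M.HH c m i s x z)
      (M.e0 c m i t x z + M.lap i (fun y => M.HH c m i t y z) x) t := by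
  have h1 : M.lap i (fun y => M.HH c m i t y z) x =
      c.ps m x * M.lap i (fun y => M.GG i t y z) x + M.GG i t x z * M.lap i (c.ps m) x
      + 2 * ∑ j, ∑ l, M.h i j l x * pd j (c.ps m) x * pd l (fun y => M.GG i t y z) x := by
    unfold Met.HH
    exact lap_mul M i (c.smooth m) (contDiff_GG M i t z) x
  have h2 : ∑ j, ∑ l, M.h i j l x * pd j (c.ps m) x * pd l (fun y => M.GG i t y z) x =
      - ∑ j, ∑ l, M.h i j l x * pd j (c.ps m) x * (M.GG i t x z * (M.rx l i x z / (4 * t))) := by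
    rw [← Finset.sum_neg_distrib]
    refine Finset.sum_congr rfl fun j _ => ?_
    rw [← Finset.sum_neg_distrib]
    refine Finset.sum_congr rfl fun l _ => ?_
    rw [pd_GG]; ring
  have h3 := (hasDerivAt_GG M i ht x z).const_mul (c.ps m x)
  have h4 : (fun s => M.HH c m i s x z) = fun s => c.ps m x * M.GG i s x z := rfl
  rw [h4]
  refine h3.congr_deriv ?_
  rw [h1, h2, lap_GG]
  unfold Met.e0 Met.qq
  field_simp
  ring

end Crest.Agent.R249.HK352
end

-- ▼ part R249/HK2C_352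

/-!
Row 249, Part C, leaf HK2 (helper352), part C: `inpM : InpM M c` (bounds of the scalar kernels).
-/

set_option autoImplicit false
set_option linter.unusedSectionVars false
open scoped ContDiff
open MeasureTheory Set Metric

namespace Crest.Agent.R249.HK352
open Crest.Agent.R249.HK286

variable {ι : Type*} {M : Met ι}

/-! ### measurability -/

theorem measurable_coord (a : Fin 4) : Measurable fun x : E4 => x a :=
  (contDiff_coord a).continuous.measurable

theorem measurable_rho (M : Met ι) (i : ι) : Measurable fun z : ℝ × E4 × E4 =>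
    M.rho i z.2.1 z.2.2 := by
  unfold Met.rho
  have hx : Measurable fun z : ℝ × E4 × E4 => z.2.1 := measurable_snd.fst
  have hz : Measurable fun z : ℝ × E4 × E4 => z.2.2 := measurable_snd.snd
  refine Measurable.const_mul (Finset.measurable_sum _ fun a _ =>
    Finset.measurable_sum _ fun b _ => ?_) _
  exact (((((M.ubg a b).1 i).continuous.measurable.comp hx).add
    (((M.ubg a b).1 i).continuous.measurable.comp hz)).mul
    (((measurable_coord a).comp hx).sub ((measurable_coord a).comp hz))).mul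
    (((measurable_coord b).comp hx).sub ((measurable_coord b).comp hz))

theorem measurable_rx (M : Met ι) (l : Fin 4) (i : ι) : Measurable fun z : ℝ × E4 × E4 =>
    M.rx l i z.2.1 z.2.2 := by
  unfold Met.rx
  have hx : Measurable fun z : ℝ × E4 × E4 => z.2.1 := measurable_snd.fst
  have hz : Measurable fun z : ℝ × E4 × E4 => z.2.2 := measurable_snd.snd
  refine Measurable.add (Finset.measurable_sum _ fun b _ => ?_)
    (Measurable.const_mul (Finset.measurable_sum _ fun a _ =>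
    Finset.measurable_sum _ fun b _ => ?_) _)
  · exact ((((M.ubg l b).1 i).continuous.measurable.comp hx).add
      (((M.ubg l b).1 i).continuous.measurable.comp hz)).mul
      (((measurable_coord b).comp hx).sub ((measurable_coord b).comp hz))
  · exact (((contDiff_pdg M i l a b).continuous.measurable.comp hx).mul
      (((measurable_coord a).comp hx).sub ((measurable_coord a).comp hz))).mul
      (((measurable_coord b).comp hx).sub ((measurable_coord b).comp hz))

theorem measurable_rxx (M : Met ι) (j l : Fin 4) (i : ι) : Measurable fun z : ℝ × E4 × E4 =>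
    M.rxx j l i z.2.1 z.2.2 := by
  unfold Met.rxx
  have hx : Measurable fun z : ℝ × E4 × E4 => z.2.1 := measurable_snd.fst
  have hz : Measurable fun z : ℝ × E4 × E4 => z.2.2 := measurable_snd.snd
  have hc : ∀ a : Fin 4, Measurable fun z : ℝ × E4 × E4 => z.2.1 a - z.2.2 a := fun a =>
    ((measurable_coord a).comp hx).sub ((measurable_coord a).comp hz)
  refine Measurable.add (Measurable.add (Measurable.add ?_ ?_) ?_) ?_
  · exact (((M.ubg j l).1 i).continuous.measurable.comp hx).add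
      (((M.ubg j l).1 i).continuous.measurable.comp hz)
  · exact Finset.measurable_sum _ fun a _ =>
      ((contDiff_pdg M i j l a).continuous.measurable.comp hx).mul (hc a)
  · exact Finset.measurable_sum _ fun a _ =>
      ((contDiff_pdg M i l j a).continuous.measurable.comp hx).mul (hc a)
  · refine Measurable.const_mul (Finset.measurable_sum _ fun a _ =>
      Finset.measurable_sum _ fun b _ => ?_) _
    exact (((contDiff_pd (contDiff_pdg M i l a b) j).continuous.measurable.comp hx).mul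
      (hc a)).mul (hc b)

theorem measurable_GG (M : Met ι) (i : ι) : Measurable fun z : ℝ × E4 × E4 =>
    M.GG i z.1 z.2.1 z.2.2 := by
  unfold Met.GG
  have h1 := measurable_rho M i
  have ht : Measurable fun z : ℝ × E4 × E4 => z.1 := measurable_fst
  exact (((ht.const_mul (4 * Real.pi)).pow_const 2).inv).mul
    (Real.measurable_exp.comp (h1.div (ht.const_mul 4)).neg)

theorem measurable_HH (M : Met ι) {R : ℝ} (c : Cut R) (m : ℕ) (i : ι) :
    Measurable fun z : ℝ × E4 × E4 => M.HH c m i z.1 z.2.1 z.2.2 := by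
  unfold Met.HH
  have hx : Measurable fun z : ℝ × E4 × E4 => z.2.1 := measurable_snd.fst
  exact ((c.smooth m).continuous.measurable.comp hx).mul (measurable_GG M i)

theorem ub_bew (M : Met ι) (l : Fin 4) :
    UB fun i x => ∑ j, pd j (fun y => M.w i y * M.h i j l y) x :=
  UB.sum _ fun j _ => UB.pd (UB.mul M.ubw (M.ubh j l)) j

theorem measurable_be (M : Met ι) (l : Fin 4) (i : ι) : Measurable fun x => M.be l i x := by
  have h1 : (fun x => M.be l i x) = fun x => (M.w i x)⁻¹ *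
    ∑ j, pd j (fun y => M.w i y * M.h i j l y) x := rfl
  rw [h1]
  exact ((M.ubw.1 i).continuous.measurable.inv).mul ((ub_bew M l).1 i).continuous.measurable

theorem be_le (M : Met ι) : ∃ C : ℝ, 0 ≤ C ∧ ∀ l i x, |M.be l i x| ≤ C := by
  obtain ⟨A, hA0, hA⟩ := UB.bdd_fin (f := fun l : Fin 4 => fun i x =>
    ∑ j, pd j (fun y => M.w i y * M.h i j l y) x) (fun l => ub_bew M l)
  obtain ⟨c, hc, hw⟩ := M.wpos
  refine ⟨c⁻¹ * A, by positivity, fun l i x => ?_⟩
  unfold Met.be
  rw [abs_mul]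
  refine mul_le_mul ?_ (hA l i x) (abs_nonneg _) (by positivity)
  rw [abs_inv, abs_of_pos (hc.trans_le (hw i x))]
  exact inv_anti₀ hc (hw i x)

theorem measurable_lr (M : Met ι) (i : ι) : Measurable fun z : ℝ × E4 × E4 =>
    M.lr i z.2.1 z.2.2 := by
  unfold Met.lr
  have hx : Measurable fun z : ℝ × E4 × E4 => z.2.1 := measurable_snd.fst
  refine Measurable.add (Finset.measurable_sum _ fun j _ => Finset.measurable_sum _ fun l _ => ?_)
    (Finset.measurable_sum _ fun l _ => ?_)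
  · exact (((M.ubh j l).1 i).continuous.measurable.comp hx).mul (measurable_rxx M j l i)
  · exact ((measurable_be M l i).comp hx).mul (measurable_rx M l i)

theorem measurable_qq (M : Met ι) (i : ι) : Measurable fun z : ℝ × E4 × E4 =>
    M.qq i z.1 z.2.1 z.2.2 := by
  unfold Met.qq
  have hx : Measurable fun z : ℝ × E4 × E4 => z.2.1 := measurable_snd.fst
  have ht : Measurable fun z : ℝ × E4 × E4 => z.1 := measurable_fst
  refine (measurable_GG M i).mul (Measurable.add (Measurable.div (Measurable.sub ?_ ?_) ?_)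
    (Measurable.div ?_ ?_))
  · exact (measurable_rho M i).const_mul 4
  · exact Finset.measurable_sum _ fun j _ => Finset.measurable_sum _ fun l _ =>
      ((((M.ubh j l).1 i).continuous.measurable.comp hx).mul (measurable_rx M j i)).mul
        (measurable_rx M l i)
  · exact (ht.pow_const 2).const_mul 16
  · exact (measurable_lr M i).sub measurable_const
  · exact ht.const_mul 4

theorem measurable_dH (M : Met ι) {R : ℝ} (c : Cut R) (m : ℕ) (j : Fin 4) (i : ι) :
    Measurable fun z : ℝ × E4 × E4 => M.dH c m j i z.1 z.2.1 z.2.2 := by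
  unfold Met.dH
  have hx : Measurable fun z : ℝ × E4 × E4 => z.2.1 := measurable_snd.fst
  have ht : Measurable fun z : ℝ × E4 × E4 => z.1 := measurable_fst
  refine Measurable.sub ?_ ?_
  · exact ((contDiff_pd (c.smooth m) j).continuous.measurable.comp hx).mul (measurable_GG M i)
  · exact (((c.smooth m).continuous.measurable.comp hx).mul (measurable_GG M i)).mul
      ((measurable_rx M j i).div (ht.const_mul 4))

theorem ub_ps {R : ℝ} (c : Cut R) (m : ℕ) : UB fun (_ : ι) => c.ps m := by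
  refine ⟨fun _ => c.smooth m, fun n => ?_⟩
  have h1 : HasCompactSupport (iteratedFDeriv ℝ n (c.ps m)) :=
    (hasCompactSupport_ps c m).iteratedFDeriv n
  have h2 : Continuous (iteratedFDeriv ℝ n (c.ps m)) :=
    (c.smooth m).continuous_iteratedFDeriv (by exact_mod_cast le_top)
  obtain ⟨C, hC⟩ := h1.exists_bound_of_continuous h2
  exact ⟨C, fun _ x => hC x⟩

theorem ub_lapw (M : Met ι) {R : ℝ} (c : Cut R) (m : ℕ) :
    UB fun i x => ∑ j, ∑ l, pd j (fun y => M.w i y * M.h i j l y * pd l (c.ps m) y) x :=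
  UB.sum _ fun j _ => UB.sum _ fun l _ =>
    UB.pd (UB.mul (UB.mul M.ubw (M.ubh j l)) (UB.pd (ub_ps c m) l)) j

theorem measurable_lap_ps (M : Met ι) {R : ℝ} (c : Cut R) (m : ℕ) (i : ι) :
    Measurable fun x => M.lap i (c.ps m) x := by
  have h1 : (fun x => M.lap i (c.ps m) x) = fun x => (M.w i x)⁻¹ *
    ∑ j, ∑ l, pd j (fun y => M.w i y * M.h i j l y * pd l (c.ps m) y) x := rfl
  rw [h1]
  exact ((M.ubw.1 i).continuous.measurable.inv).mul ((ub_lapw M c m).1 i).continuous.measurable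

theorem lap_ps_le (M : Met ι) {R : ℝ} (c : Cut R) (m : ℕ) :
    ∃ C : ℝ, 0 ≤ C ∧ ∀ i x, |M.lap i (c.ps m) x| ≤ C := by
  obtain ⟨A, hA0, hA⟩ := UB.bdd (ub_lapw M c m)
  obtain ⟨c0, hc, hw⟩ := M.wpos
  refine ⟨c0⁻¹ * A, by positivity, fun i x => ?_⟩
  unfold Met.lap
  rw [abs_mul]
  refine mul_le_mul ?_ (hA i x) (abs_nonneg _) (by positivity)
  rw [abs_inv, abs_of_pos (hc.trans_le (hw i x))]
  exact inv_anti₀ hc (hw i x)

theorem measurable_e0 (M : Met ι) {R : ℝ} (c : Cut R) (m : ℕ) (i : ι) :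
    Measurable fun z : ℝ × E4 × E4 => M.e0 c m i z.1 z.2.1 z.2.2 := by
  unfold Met.e0
  have hx : Measurable fun z : ℝ × E4 × E4 => z.2.1 := measurable_snd.fst
  have ht : Measurable fun z : ℝ × E4 × E4 => z.1 := measurable_fst
  refine Measurable.sub (Measurable.add ?_ ?_) ?_
  · exact ((c.smooth m).continuous.measurable.comp hx).mul (measurable_qq M i)
  · refine Measurable.const_mul (Finset.measurable_sum _ fun j _ =>
      Finset.measurable_sum _ fun l _ => ?_) 2
    exact ((((M.ubh j l).1 i).continuous.measurable.comp hx).mul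
      ((contDiff_pd (c.smooth m) j).continuous.measurable.comp hx)).mul
      ((measurable_GG M i).mul ((measurable_rx M l i).div (ht.const_mul 4)))
  · exact (measurable_GG M i).mul ((measurable_lap_ps M c m i).comp hx)

/-- restriction of a kernel to `z = 0` is measurable -/
theorem meas_zero {F : ℝ → E4 → E4 → ℝ}
    (h : Measurable fun z : ℝ × E4 × E4 => F z.1 z.2.1 z.2.2) :
    Measurable fun z : ℝ × E4 => F z.1 z.2 0 := by
  have h1 : Measurable (fun z : ℝ × E4 => ((z.1, z.2, (0 : E4)) : ℝ × E4 × E4)) :=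
    Measurable.prodMk measurable_fst (Measurable.prodMk measurable_snd measurable_const)
  exact h.comp h1

/-! ### bounds -/

/-- `|4ρ - h(∂ρ,∂ρ)| ≤ C |x-z|^4` -/
theorem eik_le (M : Met ι) : ∃ C : ℝ, 0 ≤ C ∧ ∀ i x z,
    |4 * M.rho i x z - ∑ j, ∑ l, M.h i j l x * M.rx j i x z * M.rx l i x z| ≤
      C * ‖x - z‖ ^ 4 := by
  obtain ⟨A, hA0, hA⟩ := rr_le M
  obtain ⟨B, hB0, hB⟩ := mm_le M
  obtain ⟨H, hH0, hH⟩ := h_le' M
  refine ⟨32 * A + 16 * H * B * B, by positivity, fun i x z => ?_⟩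
  rw [eik]
  have h1 := quad_le (f := fun a b => rr M i x z a b) (fun a b => hA a b i x z) x z
  have h2 : |∑ j, ∑ l, M.h i j l x * mm M i x z j * mm M i x z l| ≤
      16 * (H * (B * ‖x - z‖ ^ 2) * (B * ‖x - z‖ ^ 2)) := by
    refine abs_sum2_le fun j l => ?_
    rw [abs_mul, abs_mul]
    exact mul_le_mul (mul_le_mul (hH j l i x) (hB j i x z) (abs_nonneg _) hH0) (hB l i x z)
      (abs_nonneg _) (by positivity)
  refine (abs_sub _ _).trans ?_
  rw [abs_neg, abs_mul, abs_two]
  nlinarith [h1, h2]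

/-- `|Δρ - 8| ≤ C |x-z|^2` -/
theorem lap8_le (M : Met ι) : ∃ C : ℝ, 0 ≤ C ∧ ∀ i x z,
    |M.lr i x z - 8| ≤ C * ‖x - z‖ ^ 2 := by
  obtain ⟨A, hA0, hA⟩ := rr_le M
  obtain ⟨B, hB0, hB⟩ := mm_le M
  obtain ⟨H, hH0, hH⟩ := h_le' M
  obtain ⟨D, hD0, hD⟩ := ddg_le M
  obtain ⟨E, hE0, hE⟩ := be_le M
  refine ⟨16 * H * A + 128 * H * D + 4 * E * B, by positivity, fun i x z => ?_⟩
  rw [lap8]
  have h1 : |∑ j, ∑ l, M.h i j l x * rr M i x z j l| ≤ 16 * (H * (A * ‖x - z‖ ^ 2)) := by
    refine abs_sum2_le fun j l => ?_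
    rw [abs_mul]
    exact mul_le_mul (hH j l i x) (hA j l i x z) (abs_nonneg _) hH0
  have h2 : |∑ j, ∑ l, M.h i j l x *
      ∑ a, ∑ b, pd j (pd l (M.g i a b)) x * (x a - z a) * (x b - z b)| ≤
      16 * (H * (16 * (D * ‖x - z‖ ^ 2))) := by
    refine abs_sum2_le fun j l => ?_
    rw [abs_mul]
    exact mul_le_mul (hH j l i x) (quad_le (f := fun a b => pd j (pd l (M.g i a b)) x)
      (fun a b => hD j l a b i x) x z) (abs_nonneg _) hH0
  have h3 : |∑ l, M.be l i x * mm M i x z l| ≤ 4 * (E * (B * ‖x - z‖ ^ 2)) := by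
    refine abs_sum1_le fun l => ?_
    rw [abs_mul]
    exact mul_le_mul (hE l i x) (hB l i x z) (abs_nonneg _) hE0
  refine (abs_add_le _ _).trans ((add_le_add_left (abs_add_le _ _) _).trans ?_)
  rw [abs_mul, abs_of_pos (show (0 : ℝ) < 1 / 2 by norm_num)]
  linarith

/-- `|q| ≤ C Γ` -/
theorem qq_le (M : Met ι) : ∃ C c : ℝ, 0 ≤ C ∧ 0 < c ∧ ∀ i, ∀ t : ℝ, 0 < t → ∀ x z,
    |M.qq i t x z| ≤ C * Gam c t (x - z) := by
  obtain ⟨A, a, hA, ha, hG⟩ := GG_le M
  obtain ⟨B, hB0, hB⟩ := eik_le M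
  obtain ⟨D, hD0, hD⟩ := lap8_le M
  obtain ⟨E, hE, h4⟩ := gauss_pow 4 (show a / 2 < a by linarith)
  obtain ⟨F, hF, h2⟩ := gauss_pow 2 (show a / 2 < a by linarith)
  refine ⟨B * A * E + D * A * F, a / 2, by positivity, by positivity, fun i t ht x z => ?_⟩
  have hGn := Gam_nonneg (a / 2) t (x - z)
  have hGa := Gam_nonneg a t (x - z)
  unfold Met.qq
  rw [abs_mul, abs_of_nonneg (GG_nonneg M i t x z)]
  have u1 : |(4 * M.rho i x z - ∑ j, ∑ l, M.h i j l x * M.rx j i x z * M.rx l i x z) /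
      (16 * t ^ 2) + (M.lr i x z - 8) / (4 * t)| ≤ B * ‖x - z‖ ^ 4 / t ^ 2 +
      D * ‖x - z‖ ^ 2 / t := by
    refine (abs_add_le _ _).trans (add_le_add ?_ ?_)
    · rw [abs_div, abs_of_pos (show 0 < 16 * t ^ 2 by positivity)]
      have := hB i x z
      have h0 : 0 ≤ B * ‖x - z‖ ^ 4 := by positivity
      rw [div_le_div_iff₀ (by positivity) (by positivity)]
      nlinarith [pow_pos ht 2]
    · rw [abs_div, abs_of_pos (show 0 < 4 * t by positivity)]
      have := hD i x z
      have h0 : 0 ≤ D * ‖x - z‖ ^ 2 := by positivity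
      rw [div_le_div_iff₀ (by positivity) (by positivity)]
      nlinarith
  have v4 := h4 t ht (x - z)
  have v2 := h2 t ht (x - z)
  have s2 : Real.sqrt t ^ 2 = t := Real.sq_sqrt ht.le
  have s4 : Real.sqrt t ^ 4 = t ^ 2 := by
    rw [show (4 : ℕ) = 2 * 2 from rfl, pow_mul, s2]
  rw [s4] at v4
  rw [s2] at v2
  calc M.GG i t x z * |(4 * M.rho i x z - ∑ j, ∑ l, M.h i j l x * M.rx j i x z * M.rx l i x z) /
      (16 * t ^ 2) + (M.lr i x z - 8) / (4 * t)|
      ≤ A * Gam a t (x - z) * (B * ‖x - z‖ ^ 4 / t ^ 2 + D * ‖x - z‖ ^ 2 / t) :=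
        mul_le_mul (hG i t ht x z) u1 (abs_nonneg _) (by positivity)
    _ = B * A / t ^ 2 * (‖x - z‖ ^ 4 * Gam a t (x - z))
        + D * A / t * (‖x - z‖ ^ 2 * Gam a t (x - z)) := by ring
    _ ≤ B * A / t ^ 2 * (E * t ^ 2 * Gam (a / 2) t (x - z))
        + D * A / t * (F * t * Gam (a / 2) t (x - z)) := by gcongr
    _ = (B * A * E + D * A * F) * Gam (a / 2) t (x - z) := by
        field_simp

/-- the cut-off is maximal at the origin: `|∂_j ψ_m(x)| ≤ C ‖x‖` -/
theorem pd_ps_lip {R : ℝ} (c : Cut R) (m : ℕ) :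
    ∃ C : ℝ, 0 ≤ C ∧ ∀ j x, |pd j (c.ps m) x| ≤ C * ‖x‖ := by
  have hR : 0 < R := by
    by_contra hR
    have h1 := c.one 0 0 (by simp)
    have h2 := c.zero 0 0 (by simp; linarith)
    rw [h1] at h2
    exact one_ne_zero h2
  have h0 : c.ps m 0 = 1 := c.one m 0 (by rw [norm_zero]; positivity)
  have hmax : IsLocalMax (c.ps m) 0 :=
    Filter.Eventually.of_forall fun x => by rw [h0]; exact (c.mem m x).2
  have hfd : fderiv ℝ (c.ps m) 0 = 0 := hmax.fderiv_eq_zero
  obtain ⟨C, hC0, hC⟩ := UB.lip0_fin (ι := Unit) (f := fun j : Fin 4 => fun _ => pd j (c.ps m))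
    (fun j => UB.pd (ub_ps c m) j) (fun j _ => by unfold pd; rw [hfd]; rfl)
  exact ⟨C, hC0, fun j x => hC j () x⟩

/-- the middle term of `e0` -/
theorem mid_le (M : Met ι) {R : ℝ} (c : Cut R) (m : ℕ) :
    ∃ C d : ℝ, 0 ≤ C ∧ 0 < d ∧ ∀ i, ∀ t : ℝ, 0 < t → t ≤ 1 → ∀ x z,
      |2 * ∑ j, ∑ l, M.h i j l x * pd j (c.ps m) x * (M.GG i t x z * (M.rx l i x z / (4 * t)))|
      ≤ C * (‖x‖ / t) * ((‖x - z‖ + ‖x - z‖ ^ 2) * Gam d t (x - z)) := by
  obtain ⟨A, a, hA, ha, hG⟩ := GG_le M
  obtain ⟨H, hH0, hH⟩ := h_le' M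
  obtain ⟨P, hP0, hP⟩ := pd_ps_lip c m
  obtain ⟨D, hD, hr⟩ := rx_le M
  refine ⟨32 * H * P * A * D, a, by positivity, ha, fun i t ht ht1 x z => ?_⟩
  have hGa := Gam_nonneg a t (x - z)
  have h1 : |∑ j, ∑ l, M.h i j l x * pd j (c.ps m) x *
      (M.GG i t x z * (M.rx l i x z / (4 * t)))| ≤
      16 * (H * (P * ‖x‖) * (A * Gam a t (x - z) * (D * (‖x - z‖ + ‖x - z‖ ^ 2) / t))) := by
    refine abs_sum2_le fun j l => ?_
    rw [abs_mul, abs_mul, abs_mul, abs_of_nonneg (GG_nonneg M i t x z)]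
    have u2 : |M.rx l i x z / (4 * t)| ≤ D * (‖x - z‖ + ‖x - z‖ ^ 2) / t := by
      rw [abs_div, abs_of_pos (show 0 < 4 * t by linarith)]
      have := hr l i x z
      have h0 : 0 ≤ D * (‖x - z‖ + ‖x - z‖ ^ 2) := by positivity
      rw [div_le_div_iff₀ (by linarith) ht]
      nlinarith
    exact mul_le_mul (mul_le_mul (hH j l i x) (hP j x) (abs_nonneg _) hH0)
      (mul_le_mul (hG i t ht x z) u2 (abs_nonneg _) (by positivity)) (by
        have := GG_nonneg M i t x z
        positivity) (by positivity)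
  rw [abs_mul, abs_two]
  calc 2 * |∑ j, ∑ l, M.h i j l x * pd j (c.ps m) x *
      (M.GG i t x z * (M.rx l i x z / (4 * t)))|
      ≤ 2 * (16 * (H * (P * ‖x‖) * (A * Gam a t (x - z) *
        (D * (‖x - z‖ + ‖x - z‖ ^ 2) / t)))) := by linarith
    _ = 32 * H * P * A * D * (‖x‖ / t) * ((‖x - z‖ + ‖x - z‖ ^ 2) * Gam a t (x - z)) := by ring

/-- the remaining terms of `e0` -/
theorem side_le (M : Met ι) {R : ℝ} (c : Cut R) (m : ℕ) :
    ∃ C d : ℝ, 0 ≤ C ∧ 0 < d ∧ ∀ i, ∀ t : ℝ, 0 < t → ∀ x z,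
      |c.ps m x * M.qq i t x z| + |M.GG i t x z * M.lap i (c.ps m) x| ≤ C * Gam d t (x - z) := by
  obtain ⟨A, a, hA, ha, hG⟩ := GG_le M
  obtain ⟨B, b, hB, hb, hq⟩ := qq_le M
  obtain ⟨L, hL, hl⟩ := lap_ps_le M c m
  refine ⟨B + A * L, min a b, by positivity, lt_min ha hb, fun i t ht x z => ?_⟩
  have hGm := Gam_mono (min_le_left a b) ht (x - z)
  have hGm' := Gam_mono (min_le_right a b) ht (x - z)
  have h1 : |c.ps m x * M.qq i t x z| ≤ B * Gam (min a b) t (x - z) := by
    rw [abs_mul, abs_of_nonneg (c.mem m x).1]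
    calc c.ps m x * |M.qq i t x z| ≤ 1 * |M.qq i t x z| :=
          mul_le_mul_of_nonneg_right (c.mem m x).2 (abs_nonneg _)
      _ ≤ B * Gam b t (x - z) := by rw [one_mul]; exact hq i t ht x z
      _ ≤ B * Gam (min a b) t (x - z) := by gcongr
  have h2 : |M.GG i t x z * M.lap i (c.ps m) x| ≤ A * L * Gam (min a b) t (x - z) := by
    rw [abs_mul, abs_of_nonneg (GG_nonneg M i t x z)]
    calc M.GG i t x z * |M.lap i (c.ps m) x| ≤ (A * Gam a t (x - z)) * L :=
          mul_le_mul (hG i t ht x z) (hl i x) (abs_nonneg _)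
            (by have := Gam_nonneg a t (x - z); positivity)
      _ ≤ (A * Gam (min a b) t (x - z)) * L := by gcongr
      _ = A * L * Gam (min a b) t (x - z) := by ring
  linarith

theorem e0_kw (M : Met ι) {R : ℝ} (c : Cut R) (m : ℕ) : KW (M.e0 c m) := by
  refine ⟨fun i => measurable_e0 M c m i, ?_⟩
  obtain ⟨A, a, hA, ha, hmid⟩ := mid_le M c m
  obtain ⟨B, b, hB, hb, hs⟩ := side_le M c m
  obtain ⟨E, hE, h1⟩ := gauss_pow 1 (show a / 2 < a by linarith)
  obtain ⟨F, hF, h2⟩ := gauss_pow 2 (show a / 2 < a by linarith)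
  refine ⟨A * E + A * F + B, min (a / 2) b, by positivity, lt_min (by linarith) hb,
    fun i t ht x z => ?_⟩
  have ht0 := ht.1
  have hs0 : 0 < Real.sqrt t := Real.sqrt_pos.2 ht0
  have hs1 := sqrt_le_one' ht
  have g1 := h1 t ht0 (x - z)
  have g2 := h2 t ht0 (x - z)
  rw [pow_one, pow_one] at g1
  have hst : Real.sqrt t * Real.sqrt t = t := Real.mul_self_sqrt ht0.le
  have hGm := Gam_mono (min_le_left (a / 2) b) ht0 (x - z)
  have hGm' := Gam_mono (min_le_right (a / 2) b) ht0 (x - z)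
  have hGn := Gam_nonneg (min (a / 2) b) t (x - z)
  have hGn2 := Gam_nonneg (a / 2) t (x - z)
  have hxt : 0 ≤ ‖x‖ / Real.sqrt t := by positivity
  have k1 : A * (‖x‖ / t) * ((‖x - z‖ + ‖x - z‖ ^ 2) * Gam a t (x - z)) ≤
      (A * E + A * F) * (‖x‖ / Real.sqrt t) * Gam (min (a / 2) b) t (x - z) := by
    calc A * (‖x‖ / t) * ((‖x - z‖ + ‖x - z‖ ^ 2) * Gam a t (x - z))
        = A * (‖x‖ / t) * (‖x - z‖ * Gam a t (x - z) + ‖x - z‖ ^ 2 * Gam a t (x - z)) := by ring
      _ ≤ A * (‖x‖ / t) * (E * Real.sqrt t * Gam (a / 2) t (x - z) +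
          F * Real.sqrt t ^ 2 * Gam (a / 2) t (x - z)) := by gcongr
      _ = A * ‖x‖ * E * (Real.sqrt t / t) * Gam (a / 2) t (x - z) +
          A * ‖x‖ * F * (Real.sqrt t * (Real.sqrt t / t)) * Gam (a / 2) t (x - z) := by ring
      _ = A * ‖x‖ * E * (Real.sqrt t)⁻¹ * Gam (a / 2) t (x - z) +
          A * ‖x‖ * F * (Real.sqrt t * (Real.sqrt t)⁻¹) * Gam (a / 2) t (x - z) := by
          have w1 : Real.sqrt t / t = (Real.sqrt t)⁻¹ := by
            rw [div_eq_iff ht0.ne', inv_mul_eq_div, eq_div_iff hs0.ne', hst]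
          rw [w1]
      _ ≤ A * ‖x‖ * E * (Real.sqrt t)⁻¹ * Gam (a / 2) t (x - z) +
          A * ‖x‖ * F * (1 * (Real.sqrt t)⁻¹) * Gam (a / 2) t (x - z) := by gcongr
      _ = (A * E + A * F) * (‖x‖ / Real.sqrt t) * Gam (a / 2) t (x - z) := by
          rw [div_eq_mul_inv]; ring
      _ ≤ (A * E + A * F) * (‖x‖ / Real.sqrt t) * Gam (min (a / 2) b) t (x - z) := by gcongr
  have k2 := hmid i t ht0 ht.2 x z
  have k3 := hs i t ht0 x z
  have k4 : B * Gam b t (x - z) ≤ B * Gam (min (a / 2) b) t (x - z) := by gcongr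
  have k5 : |M.e0 c m i t x z| ≤ |c.ps m x * M.qq i t x z|
      + |2 * ∑ j, ∑ l, M.h i j l x * pd j (c.ps m) x * (M.GG i t x z * (M.rx l i x z / (4 * t)))|
      + |M.GG i t x z * M.lap i (c.ps m) x| := by
    unfold Met.e0
    exact (abs_sub _ _).trans (add_le_add_left (abs_add_le _ _) _)
  have k6 : 0 ≤ (A * E + A * F) * Gam (min (a / 2) b) t (x - z) := by positivity
  have k7 : 0 ≤ B * (‖x‖ / Real.sqrt t) * Gam (min (a / 2) b) t (x - z) := by positivity
  calc |M.e0 c m i t x z| ≤ (A * E + A * F) * (‖x‖ / Real.sqrt t) * Gam (min (a / 2) b) t (x - z)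
        + B * Gam (min (a / 2) b) t (x - z) := by linarith
    _ ≤ (A * E + A * F + B) * (1 + ‖x‖ / Real.sqrt t) * Gam (min (a / 2) b) t (x - z) := by
        nlinarith

theorem e1_vb (M : Met ι) {R : ℝ} (c : Cut R) (m : ℕ) : VB 0 (fun i t x => M.e0 c m i t x 0) := by
  refine ⟨fun i => meas_zero (F := M.e0 c m i) (measurable_e0 M c m i), ?_⟩
  obtain ⟨A, a, hA, ha, hmid⟩ := mid_le M c m
  obtain ⟨B, b, hB, hb, hs⟩ := side_le M c m
  obtain ⟨E, hE, h2⟩ := gauss_pow 2 (show a / 2 < a by linarith)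
  obtain ⟨F, hF, h3⟩ := gauss_pow 3 (show a / 2 < a by linarith)
  refine ⟨A * E + A * F + B, min (a / 2) b, by positivity, lt_min (by linarith) hb,
    fun i t ht x => ?_⟩
  have ht0 := ht.1
  have hs0 : 0 < Real.sqrt t := Real.sqrt_pos.2 ht0
  have hs1 := sqrt_le_one' ht
  have g2 := h2 t ht0 x
  have g3 := h3 t ht0 x
  have hGm := Gam_mono (min_le_left (a / 2) b) ht0 x
  have hGm' := Gam_mono (min_le_right (a / 2) b) ht0 x
  have hGn2 := Gam_nonneg (a / 2) t x
  have k2 := hmid i t ht0 ht.2 x 0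
  have k3 := hs i t ht0 x 0
  rw [sub_zero] at k2 k3
  have s2 : Real.sqrt t ^ 2 = t := Real.sq_sqrt ht0.le
  have s3 : Real.sqrt t ^ 3 = t * Real.sqrt t := by rw [pow_succ, s2]
  rw [s2] at g2
  rw [s3] at g3
  have k1 : A * (‖x‖ / t) * ((‖x‖ + ‖x‖ ^ 2) * Gam a t x) ≤
      (A * E + A * F) * Gam (min (a / 2) b) t x := by
    calc A * (‖x‖ / t) * ((‖x‖ + ‖x‖ ^ 2) * Gam a t x)
        = A / t * (‖x‖ ^ 2 * Gam a t x) + A / t * (‖x‖ ^ 3 * Gam a t x) := by ring
      _ ≤ A / t * (E * t * Gam (a / 2) t x) + A / t * (F * (t * Real.sqrt t) * Gam (a / 2) t x) := by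
          gcongr
      _ = A * E * Gam (a / 2) t x + A * F * Real.sqrt t * Gam (a / 2) t x := by
          field_simp
      _ ≤ A * E * Gam (a / 2) t x + A * F * 1 * Gam (a / 2) t x := by gcongr
      _ = (A * E + A * F) * Gam (a / 2) t x := by ring
      _ ≤ (A * E + A * F) * Gam (min (a / 2) b) t x := by gcongr
  have k4 : B * Gam b t x ≤ B * Gam (min (a / 2) b) t x := by gcongr
  have k5 : |M.e0 c m i t x 0| ≤ |c.ps m x * M.qq i t x 0|
      + |2 * ∑ j, ∑ l, M.h i j l x * pd j (c.ps m) x * (M.GG i t x 0 * (M.rx l i x 0 / (4 * t)))|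
      + |M.GG i t x 0 * M.lap i (c.ps m) x| := by
    unfold Met.e0
    exact (abs_sub _ _).trans (add_le_add_left (abs_add_le _ _) _)
  rw [Real.rpow_zero, mul_one]
  linarith

theorem rho_le (M : Met ι) : ∃ C : ℝ, ∀ i x z, M.rho i x z ≤ C * ‖x - z‖ ^ 2 := by
  obtain ⟨G, hG0, hG⟩ := g_le' M
  refine ⟨16 * G, fun i x z => ?_⟩
  unfold Met.rho
  have h1 := quad_le (f := fun a b => M.g i a b x + M.g i a b z) (B := 2 * G) (fun a b => by
    refine (abs_add_le _ _).trans ?_
    have := hG a b i x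
    have := hG a b i z
    linarith) x z
  have h2 := (le_abs_self _).trans h1
  linarith

theorem rx0 (M : Met ι) (l : Fin 4) :
    ∃ C : ℝ, ∀ i x, |∑ j, M.h i j l x * M.rx j i x 0 - 2 * x l| ≤ C * ‖x‖ ^ 2 := by
  obtain ⟨B, hB0, hB⟩ := mm_le M
  obtain ⟨H, hH0, hH⟩ := h_le' M
  refine ⟨4 * (H * B), fun i x => ?_⟩
  rw [h_rx]
  have h1 : 2 * (x l - (0 : E4) l) + ∑ j, M.h i j l x * mm M i x 0 j - 2 * x l =
      ∑ j, M.h i j l x * mm M i x 0 j := by
    have : (0 : E4) l = 0 := rfl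
    rw [this]; ring
  rw [h1]
  refine (abs_sum1_le (B := H * (B * ‖x‖ ^ 2)) fun j => ?_).trans (le_of_eq (by ring))
  rw [abs_mul]
  have := hB j i x 0
  rw [sub_zero] at this
  exact mul_le_mul (hH j l i x) this (abs_nonneg _) hH0

theorem kb_HH (M : Met ι) {R : ℝ} (c : Cut R) (m : ℕ) : KB (M.HH c m) := by
  refine ⟨fun i => measurable_HH M c m i, ?_⟩
  obtain ⟨A, a, hA, ha, hG⟩ := GG_le M
  refine ⟨A, a, hA, ha, fun i t ht x z => ?_⟩
  rw [abs_of_nonneg (HH_nonneg M c m i t x z)]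
  exact (HH_le_GG M c m i t x z).trans (hG i t ht.1 x z)

theorem kb_qq (M : Met ι) : KB M.qq := by
  refine ⟨fun i => measurable_qq M i, ?_⟩
  obtain ⟨B, b, hB, hb, hq⟩ := qq_le M
  exact ⟨B, b, hB, hb, fun i t ht x z => hq i t ht.1 x z⟩

theorem vb_HH (M : Met ι) {R : ℝ} (c : Cut R) (m : ℕ) : VB 0 (fun i t x => M.HH c m i t x 0) := by
  refine ⟨fun i => meas_zero (F := M.HH c m i) (measurable_HH M c m i), ?_⟩
  obtain ⟨A, a, hA, ha, hG⟩ := GG_le M
  refine ⟨A, a, hA, ha, fun i t ht x => ?_⟩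
  rw [abs_of_nonneg (HH_nonneg M c m i t x 0), Real.rpow_zero, mul_one]
  have := (HH_le_GG M c m i t x 0).trans (hG i t ht.1 x 0)
  rwa [sub_zero] at this

theorem dH_bd (M : Met ι) {R : ℝ} (c : Cut R) (m : ℕ) (j : Fin 4) :
    ∃ C d : ℝ, 0 ≤ C ∧ 0 < d ∧ ∀ i, ∀ t ∈ Ioc (0 : ℝ) 1, ∀ x z,
      |M.dH c m j i t x z| ≤ C / Real.sqrt t * Gam d t (x - z) := by
  obtain ⟨C, c', hC, hc', h⟩ := dH_le M c m
  refine ⟨C, c', hC, hc', fun i t ht x z => ?_⟩
  have := h j i t ht x z
  rwa [div_eq_mul_inv]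

/-- **HK2.** -/
theorem inpM {R : ℝ} (c : Cut R) : InpM M c where
  HH := fun m => kb_HH M c m
  h0 := fun m => vb_HH M c m
  e0 := fun m => e0_kw M c m
  e1 := e1_vb M c 1
  qq := kb_qq M
  dH := fun m j => ⟨fun i => measurable_dH M c m j i, dH_bd M c m j⟩
  rx0 := fun l => rx0 M l
  rho_ge := by
    obtain ⟨d, hd, h⟩ := rho_ge M
    exact ⟨d, hd, h⟩
  rho_le := rho_le M
  hd := fun m i t x z ht => hasDerivAt_HH M c m i x z ht

end Crest.Agent.R249.HK352
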