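import Crest.Agent.R249.HKDef_286

-- ▼ part R249/HKLim1_274
section

/-!
# R249, PART C, leaf HK7 (helper274), part 1: Gaussians on `E4`
-/

set_option autoImplicit false
open scoped ContDiff
open MeasureTheory Set Metric Filter Topology
open Crest.Agent.R249.HK286

noncomputable section

namespace Crest.Agent.R249.HKLim_274

/-! ### the Gaussian integral -/

theorem gauss_integral {b : ℝ} (hb : 0 < b) (x : E4) :
    ∫ z : E4, Real.exp (-(b * ‖z - x‖ ^ 2)) = (Real.pi / b) ^ 2 := by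
  have h1 : ∫ z : E4, Real.exp (-(b * ‖z - x‖ ^ 2)) = ∫ z : E4, Real.exp (-(b * ‖z‖ ^ 2)) :=
    integral_sub_right_eq_self (fun z : E4 => Real.exp (-(b * ‖z‖ ^ 2))) x
  rw [h1]
  have h2 := GaussianFourier.integral_rexp_neg_mul_sq_norm (V := E4) hb
  simp only [neg_mul] at h2
  rw [h2, finrank_euclideanSpace_fin]
  have : ((4 : ℕ) : ℝ) / 2 = ((2 : ℕ) : ℝ) := by norm_num
  rw [this, Real.rpow_natCast]

theorem gauss_integrable {b : ℝ} (hb : 0 < b) (x : E4) :
    Integrable fun z : E4 => Real.exp (-(b * ‖z - x‖ ^ 2)) := by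
  by_contra h
  have h1 := gauss_integral hb x
  rw [integral_undef h] at h1
  have h2 : 0 < (Real.pi / b) ^ 2 := by positivity
  linarith

/-! ### `Gam` -/

theorem Gam_nonneg (c t : ℝ) (x : E4) : 0 ≤ Gam c t x := by
  unfold Gam; positivity

theorem Gam_anti {c c' t : ℝ} (hc : c' ≤ c) (ht : 0 < t) (x : E4) : Gam c t x ≤ Gam c' t x := by
  unfold Gam
  refine mul_le_mul_of_nonneg_left (Real.exp_le_exp.2 ?_) (by positivity)
  rw [neg_le_neg_iff]
  gcongr

theorem Gam_le {c t : ℝ} (hc : 0 ≤ c) (ht : 0 < t) (x : E4) : Gam c t x ≤ (t ^ 2)⁻¹ := by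
  unfold Gam
  have h : Real.exp (-(c * ‖x‖ ^ 2 / t)) ≤ 1 := Real.exp_le_one_iff.2 (by
    rw [neg_nonpos]; positivity)
  calc (t ^ 2)⁻¹ * Real.exp (-(c * ‖x‖ ^ 2 / t)) ≤ (t ^ 2)⁻¹ * 1 := by gcongr
    _ = _ := mul_one _

theorem Gam_neg (c t : ℝ) (x : E4) : Gam c t (-x) = Gam c t x := by
  unfold Gam; rw [norm_neg]

theorem Gam_sub_comm (c t : ℝ) (x z : E4) : Gam c t (x - z) = Gam c t (z - x) := by
  unfold Gam; rw [norm_sub_rev]

theorem Gam_eq {c t : ℝ} (x : E4) :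
    Gam c t x = (t ^ 2)⁻¹ * Real.exp (-(c / t * ‖x‖ ^ 2)) := by
  unfold Gam
  congr 2
  ring

theorem Gam_cont (c t : ℝ) : Continuous fun x : E4 => Gam c t x := by
  unfold Gam; fun_prop

theorem Gam_meas (c : ℝ) : Measurable fun z : ℝ × E4 => Gam c z.1 z.2 := by
  unfold Gam; fun_prop

theorem Gam_integrable {c t : ℝ} (hc : 0 < c) (ht : 0 < t) (x : E4) :
    Integrable fun z : E4 => Gam c t (z - x) := by
  simp only [Gam_eq]
  exact (gauss_integrable (by positivity) x).const_mul _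

theorem Gam_integral {c t : ℝ} (hc : 0 < c) (ht : 0 < t) (x : E4) :
    ∫ z : E4, Gam c t (z - x) = (Real.pi / c) ^ 2 := by
  simp only [Gam_eq]
  rw [integral_const_mul, gauss_integral (by positivity)]
  field_simp

/-- scaling -/
theorem Gam_scale {c t σ : ℝ} (ht : 0 < t) (x : E4) :
    t ^ 2 * Gam c (t * σ) (Real.sqrt t • x) = Gam c σ x := by
  have h0 : ‖Real.sqrt t • x‖ ^ 2 = t * ‖x‖ ^ 2 := by
    rw [norm_smul, Real.norm_eq_abs, abs_of_nonneg (Real.sqrt_nonneg t), mul_pow,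
      Real.sq_sqrt ht.le]
  unfold Gam
  rw [h0, ← mul_assoc]
  have h1 : t ^ 2 * ((t * σ) ^ 2)⁻¹ = (σ ^ 2)⁻¹ := by
    rw [mul_pow, mul_inv, ← mul_assoc, mul_inv_cancel₀ (by positivity), one_mul]
  have h2 : c * (t * ‖x‖ ^ 2) / (t * σ) = c * ‖x‖ ^ 2 / σ := by
    rw [show c * (t * ‖x‖ ^ 2) = t * (c * ‖x‖ ^ 2) by ring, mul_div_mul_left _ _ ht.ne']
  rw [h1, h2]

/-- absorbing `‖x‖²` -/
theorem sq_mul_Gam_le {c t : ℝ} (hc : 0 < c) (ht : 0 < t) (x : E4) :
    ‖x‖ ^ 2 * Gam c t x ≤ 2 / c * t * Gam (c / 2) t x := by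
  unfold Gam
  have h1 : c / 2 * ‖x‖ ^ 2 / t ≤ Real.exp (c / 2 * ‖x‖ ^ 2 / t) := by
    have := Real.add_one_le_exp (c / 2 * ‖x‖ ^ 2 / t)
    linarith
  have h2 : Real.exp (-(c * ‖x‖ ^ 2 / t)) =
      Real.exp (-(c / 2 * ‖x‖ ^ 2 / t)) * Real.exp (-(c / 2 * ‖x‖ ^ 2 / t)) := by
    rw [← Real.exp_add]; congr 1; ring
  have h3 : c / 2 * ‖x‖ ^ 2 / t * Real.exp (-(c / 2 * ‖x‖ ^ 2 / t)) ≤ 1 := by
    rw [Real.exp_neg, ← div_eq_mul_inv, div_le_one (Real.exp_pos _)]
    exact h1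
  have h4 : ‖x‖ ^ 2 * Real.exp (-(c / 2 * ‖x‖ ^ 2 / t)) ≤ 2 / c * t := by
    calc ‖x‖ ^ 2 * Real.exp (-(c / 2 * ‖x‖ ^ 2 / t))
        = 2 / c * t * (c / 2 * ‖x‖ ^ 2 / t * Real.exp (-(c / 2 * ‖x‖ ^ 2 / t))) := by
          field_simp
      _ ≤ 2 / c * t * 1 := by gcongr
      _ = _ := mul_one _
  rw [h2]
  calc ‖x‖ ^ 2 * ((t ^ 2)⁻¹ * (Real.exp (-(c / 2 * ‖x‖ ^ 2 / t)) *
        Real.exp (-(c / 2 * ‖x‖ ^ 2 / t))))
      = (‖x‖ ^ 2 * Real.exp (-(c / 2 * ‖x‖ ^ 2 / t))) *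
        ((t ^ 2)⁻¹ * Real.exp (-(c / 2 * ‖x‖ ^ 2 / t))) := by ring
    _ ≤ 2 / c * t * ((t ^ 2)⁻¹ * Real.exp (-(c / 2 * ‖x‖ ^ 2 / t))) := by gcongr

/-- completing the square -/
theorem sq_split {s t : ℝ} (hs : 0 < s) (hst : s < t) (x z : E4) :
    ‖x - z‖ ^ 2 / (t - s) + ‖z‖ ^ 2 / s =
      ‖x‖ ^ 2 / t + t / (s * (t - s)) * ‖z - (s / t) • x‖ ^ 2 := by
  have h1 : ‖x - z‖ ^ 2 = ‖x‖ ^ 2 - 2 * inner ℝ x z + ‖z‖ ^ 2 := norm_sub_sq_real x z
  have h2 : ‖z - (s / t) • x‖ ^ 2 =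
      ‖z‖ ^ 2 - 2 * (s / t * inner ℝ x z) + (s / t) ^ 2 * ‖x‖ ^ 2 := by
    rw [norm_sub_sq_real, inner_smul_right, norm_smul, mul_pow, Real.norm_eq_abs, sq_abs,
      real_inner_comm]
  have ht : 0 < t := hs.trans hst
  have hts : t - s ≠ 0 := by linarith [sub_pos.2 hst] |> ne_of_gt
  rw [h1, h2]
  field_simp
  ring

theorem Gam_mul {c s t : ℝ} (hs : 0 < s) (hst : s < t) (x z : E4) :
    Gam c (t - s) (x - z) * Gam c s z =
      Gam c t x * (((s * (t - s)) / t) ^ 2)⁻¹ *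
        Real.exp (-(c * (t / (s * (t - s))) * ‖z - (s / t) • x‖ ^ 2)) := by
  have ht : 0 < t := hs.trans hst
  have hts : 0 < t - s := sub_pos.2 hst
  unfold Gam
  have h1 : Real.exp (-(c * ‖x - z‖ ^ 2 / (t - s))) * Real.exp (-(c * ‖z‖ ^ 2 / s)) =
      Real.exp (-(c * ‖x‖ ^ 2 / t)) *
        Real.exp (-(c * (t / (s * (t - s))) * ‖z - (s / t) • x‖ ^ 2)) := by
    rw [← Real.exp_add, ← Real.exp_add]
    congr 1
    have h := sq_split hs hst x z
    have h' : c * (‖x - z‖ ^ 2 / (t - s) + ‖z‖ ^ 2 / s) =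
      c * (‖x‖ ^ 2 / t + t / (s * (t - s)) * ‖z - (s / t) • x‖ ^ 2) := by rw [h]
    linear_combination -h'
  calc ((t - s) ^ 2)⁻¹ * Real.exp (-(c * ‖x - z‖ ^ 2 / (t - s))) *
        ((s ^ 2)⁻¹ * Real.exp (-(c * ‖z‖ ^ 2 / s)))
      = ((t - s) ^ 2)⁻¹ * (s ^ 2)⁻¹ *
        (Real.exp (-(c * ‖x - z‖ ^ 2 / (t - s))) * Real.exp (-(c * ‖z‖ ^ 2 / s))) := by ring
    _ = ((t - s) ^ 2)⁻¹ * (s ^ 2)⁻¹ * (Real.exp (-(c * ‖x‖ ^ 2 / t)) *
        Real.exp (-(c * (t / (s * (t - s))) * ‖z - (s / t) • x‖ ^ 2))) := by rw [h1]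
    _ = _ := by
      field_simp

theorem Gam_conv_integrable {c s t : ℝ} (hc : 0 < c) (hs : 0 < s) (hst : s < t) (x : E4) :
    Integrable fun z : E4 => Gam c (t - s) (x - z) * Gam c s z := by
  have ht : 0 < t := hs.trans hst
  have hts : 0 < t - s := sub_pos.2 hst
  simp only [Gam_mul hs hst]
  exact (gauss_integrable (by positivity) _).const_mul _

theorem Gam_conv {c s t : ℝ} (hc : 0 < c) (hs : 0 < s) (hst : s < t) (x : E4) :
    ∫ z : E4, Gam c (t - s) (x - z) * Gam c s z = (Real.pi / c) ^ 2 * Gam c t x := by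
  have ht : 0 < t := hs.trans hst
  have hts : 0 < t - s := sub_pos.2 hst
  simp only [Gam_mul hs hst]
  rw [integral_const_mul, gauss_integral (by positivity)]
  field_simp

theorem Gam_mul_self {c t : ℝ} (x : E4) :
    Gam c t x * Gam c t x = (t ^ 2)⁻¹ * Gam (2 * c) t x := by
  unfold Gam
  have : Real.exp (-(2 * c * ‖x‖ ^ 2 / t)) =
      Real.exp (-(c * ‖x‖ ^ 2 / t)) * Real.exp (-(c * ‖x‖ ^ 2 / t)) := by
    rw [← Real.exp_add]; congr 1; ring
  rw [this]; ring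

end Crest.Agent.R249.HKLim_274
end
end

-- ▼ part R249/HKLim2_274
section

/-!
# R249, PART C, leaf HK7 (helper274), part 2: scaled limits of convolutions and pairings

`SF a f f0` : `|f i t x| ≤ C t^a Gam c t x` on `(0,1]` and `t^{2-a} f i (tσ) (√t ξ) → f0 i σ ξ`.
`SK K K0`   : `|K i t x z| ≤ C Gam c t (x-z)` and `t² K i (tσ) (√t ξ) (√t ζ) → K0 i σ ξ ζ`.
`SF.star0`  : `SK K K0 → SF a f f0 → SF (a+1) (M.star0 K f) _`.
`pairing`   : `SF a f f0 → SF b g g0 → a + b = 2 → ∫ f g w` is bounded and converges.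
-/

set_option autoImplicit false
open scoped ContDiff
open MeasureTheory Set Metric Filter Topology
open Crest.Agent.R249.HK286

noncomputable section

namespace Crest.Agent.R249.HKLim_274

variable {ι : Type*}

theorem ub_bdd {f : ι → E4 → ℝ} (h : UB f) : ∃ C, 0 ≤ C ∧ ∀ i x, |f i x| ≤ C := by
  obtain ⟨C, hC⟩ := h.2 0
  refine ⟨|C|, abs_nonneg _, fun i x => ?_⟩
  have := hC i x
  rw [norm_iteratedFDeriv_zero, Real.norm_eq_abs] at this
  exact this.trans (le_abs_self _)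

theorem ub_cont {f : ι → E4 → ℝ} (h : UB f) (i : ι) : Continuous (f i) := (h.1 i).continuous

/-- scaled convergence of functions -/
structure SF (a : ℕ) (f f0 : ι → ℝ → E4 → ℝ) : Prop where
  meas : ∀ i, Measurable fun z : ℝ × E4 => f i z.1 z.2
  bd : ∃ C c : ℝ, 0 ≤ C ∧ 0 < c ∧ ∀ i, ∀ t ∈ Ioc (0 : ℝ) 1, ∀ x, |f i t x| ≤ C * t ^ a * Gam c t x
  lim : ∀ i, ∀ σ ∈ Ioc (0 : ℝ) 1, ∀ ξ,
    Tendsto (fun t : ℝ => t ^ 2 * (t ^ a)⁻¹ * f i (t * σ) (Real.sqrt t • ξ)) (𝓝[>] 0)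
      (𝓝 (f0 i σ ξ))

/-- scaled convergence of kernels -/
structure SK (K K0 : ι → ℝ → E4 → E4 → ℝ) : Prop where
  meas : ∀ i, Measurable fun z : ℝ × E4 × E4 => K i z.1 z.2.1 z.2.2
  bd : ∃ C c : ℝ, 0 ≤ C ∧ 0 < c ∧ ∀ i, ∀ t ∈ Ioc (0 : ℝ) 1, ∀ x z,
    |K i t x z| ≤ C * Gam c t (x - z)
  lim : ∀ i, ∀ σ ∈ Ioc (0 : ℝ) 1, ∀ ξ ζ,
    Tendsto (fun t : ℝ => t ^ 2 * K i (t * σ) (Real.sqrt t • ξ) (Real.sqrt t • ζ)) (𝓝[>] 0)
      (𝓝 (K0 i σ ξ ζ))

theorem ev_Ioc : ∀ᶠ t : ℝ in 𝓝[>] 0, t ∈ Ioc (0 : ℝ) 1 :=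
  Ioc_mem_nhdsGT one_pos

theorem mul_mem {t σ : ℝ} (ht : t ∈ Ioc (0 : ℝ) 1) (hσ : σ ∈ Ioc (0 : ℝ) 1) :
    t * σ ∈ Ioc (0 : ℝ) 1 :=
  ⟨mul_pos ht.1 hσ.1, mul_le_one₀ ht.2 hσ.1.le hσ.2⟩

theorem scaled_bd {a : ℕ} {f : ℝ → E4 → ℝ} {C c : ℝ}
    (h : ∀ t ∈ Ioc (0 : ℝ) 1, ∀ x, |f t x| ≤ C * t ^ a * Gam c t x) {t σ : ℝ}
    (ht : t ∈ Ioc (0 : ℝ) 1) (hσ : σ ∈ Ioc (0 : ℝ) 1) (ξ : E4) :
    |t ^ 2 * (t ^ a)⁻¹ * f (t * σ) (Real.sqrt t • ξ)| ≤ C * σ ^ a * Gam c σ ξ := by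
  have ht0 := ht.1
  have h1 := h (t * σ) (mul_mem ht hσ) (Real.sqrt t • ξ)
  rw [abs_mul, abs_of_pos (by positivity : 0 < t ^ 2 * (t ^ a)⁻¹)]
  calc t ^ 2 * (t ^ a)⁻¹ * |f (t * σ) (Real.sqrt t • ξ)|
      ≤ t ^ 2 * (t ^ a)⁻¹ * (C * (t * σ) ^ a * Gam c (t * σ) (Real.sqrt t • ξ)) := by gcongr
    _ = C * σ ^ a * (t ^ 2 * Gam c (t * σ) (Real.sqrt t • ξ)) := by
        rw [mul_pow]; field_simp
    _ = _ := by rw [Gam_scale ht0]

theorem scaled_bdK {K : ℝ → E4 → E4 → ℝ} {C c : ℝ}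
    (h : ∀ t ∈ Ioc (0 : ℝ) 1, ∀ x z, |K t x z| ≤ C * Gam c t (x - z)) {t σ : ℝ}
    (ht : t ∈ Ioc (0 : ℝ) 1) (hσ : σ ∈ Ioc (0 : ℝ) 1) (ξ ζ : E4) :
    |t ^ 2 * K (t * σ) (Real.sqrt t • ξ) (Real.sqrt t • ζ)| ≤ C * Gam c σ (ξ - ζ) := by
  have ht0 := ht.1
  have h1 := h (t * σ) (mul_mem ht hσ) (Real.sqrt t • ξ) (Real.sqrt t • ζ)
  rw [abs_mul, abs_of_pos (by positivity : 0 < t ^ 2)]
  calc t ^ 2 * |K (t * σ) (Real.sqrt t • ξ) (Real.sqrt t • ζ)|
      ≤ t ^ 2 * (C * Gam c (t * σ) (Real.sqrt t • ξ - Real.sqrt t • ζ)) := by gcongr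
    _ = C * (t ^ 2 * Gam c (t * σ) (Real.sqrt t • (ξ - ζ))) := by rw [smul_sub]; ring
    _ = _ := by rw [Gam_scale ht0]

theorem int_scale {t : ℝ} (ht : 0 < t) (g : E4 → ℝ) :
    ∫ z, g z = t ^ 2 * ∫ z, g (Real.sqrt t • z) := by
  rw [Measure.integral_comp_smul, finrank_euclideanSpace_fin, smul_eq_mul, ← mul_assoc]
  have h1 : Real.sqrt t ^ 4 = t ^ 2 := by
    calc Real.sqrt t ^ 4 = (Real.sqrt t ^ 2) ^ 2 := by ring
      _ = t ^ 2 := by rw [Real.sq_sqrt ht.le]
  rw [h1, abs_of_pos (by positivity), mul_inv_cancel₀ (by positivity), one_mul]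

theorem setint_scale {t σ : ℝ} (ht : 0 < t) (hσ : 0 ≤ σ) (F : ℝ → ℝ) :
    ∫ s in Ioo 0 (t * σ), F s = t * ∫ s in Ioo 0 σ, F (t * s) := by
  have h := intervalIntegral.smul_integral_comp_mul_left (a := 0) (b := σ) F t
  rw [mul_zero, intervalIntegral.integral_of_le hσ,
    intervalIntegral.integral_of_le (by positivity : 0 ≤ t * σ), integral_Ioc_eq_integral_Ioo,
    integral_Ioc_eq_integral_Ioo, smul_eq_mul] at h
  exact h.symm

theorem w_tendsto {w : E4 → ℝ} (hw : Continuous w) (ζ : E4) :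
    Tendsto (fun t : ℝ => w (Real.sqrt t • ζ)) (𝓝[>] 0) (𝓝 (w 0)) := by
  have h : Continuous fun t : ℝ => w (Real.sqrt t • ζ) :=
    hw.comp (Real.continuous_sqrt.smul continuous_const)
  have h1 := h.tendsto 0
  rw [Real.sqrt_zero, zero_smul] at h1
  exact h1.mono_left nhdsWithin_le_nhds

section conv

variable {M : Met ι} {K K0 : ι → ℝ → E4 → E4 → ℝ} {a : ℕ} {f f0 : ι → ℝ → E4 → ℝ}

/-- common constants -/
theorem common (hK : SK K K0) (hf : SF a f f0) : ∃ C₁ C₂ c : ℝ, 0 ≤ C₁ ∧ 0 ≤ C₂ ∧ 0 < c ∧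
    (∀ i, ∀ t ∈ Ioc (0 : ℝ) 1, ∀ x z, |K i t x z| ≤ C₁ * Gam c t (x - z)) ∧
    (∀ i, ∀ t ∈ Ioc (0 : ℝ) 1, ∀ x, |f i t x| ≤ C₂ * t ^ a * Gam c t x) := by
  obtain ⟨C₁, c₁, h1, h1', h1''⟩ := hK.bd
  obtain ⟨C₂, c₂, h2, h2', h2''⟩ := hf.bd
  refine ⟨C₁, C₂, min c₁ c₂, h1, h2, lt_min h1' h2', fun i t ht x z => ?_, fun i t ht x => ?_⟩
  · refine (h1'' i t ht x z).trans ?_
    gcongr
    exact Gam_anti (min_le_left _ _) ht.1 _
  · refine (h2'' i t ht x).trans ?_
    have := ht.1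
    gcongr
    exact Gam_anti (min_le_right _ _) ht.1 _

theorem inner_meas (hK : ∀ i, Measurable fun z : ℝ × E4 × E4 => K i z.1 z.2.1 z.2.2)
    (hf : ∀ i, Measurable fun z : ℝ × E4 => f i z.1 z.2) (i : ι) :
    StronglyMeasurable fun p : (ℝ × E4) × ℝ =>
      ∫ z, K i (p.1.1 - p.2) p.1.2 z * f i p.2 z * M.w i z := by
  have hw : Continuous (M.w i) := ub_cont M.ubw i
  have : Measurable (fun q : ((ℝ × E4) × ℝ) × E4 =>
      K i (q.1.1.1 - q.1.2) q.1.1.2 q.2 * f i q.1.2 q.2 * M.w i q.2) := by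
    have h1 : Measurable (fun q : ((ℝ × E4) × ℝ) × E4 => K i (q.1.1.1 - q.1.2) q.1.1.2 q.2) :=
      (hK i).comp (g := fun z : ℝ × E4 × E4 => K i z.1 z.2.1 z.2.2)
        (f := fun q : ((ℝ × E4) × ℝ) × E4 => (q.1.1.1 - q.1.2, q.1.1.2, q.2)) (by fun_prop)
    have h2 : Measurable (fun q : ((ℝ × E4) × ℝ) × E4 => f i q.1.2 q.2) :=
      (hf i).comp (g := fun z : ℝ × E4 => f i z.1 z.2)
        (f := fun q : ((ℝ × E4) × ℝ) × E4 => (q.1.2, q.2)) (by fun_prop)
    have h3 : Measurable (fun q : ((ℝ × E4) × ℝ) × E4 => M.w i q.2) :=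
      hw.measurable.comp measurable_snd
    exact (h1.mul h2).mul h3
  exact this.stronglyMeasurable.integral_prod_right'

theorem star0_meas (hK : ∀ i, Measurable fun z : ℝ × E4 × E4 => K i z.1 z.2.1 z.2.2)
    (hf : ∀ i, Measurable fun z : ℝ × E4 => f i z.1 z.2) (i : ι) :
    Measurable fun z : ℝ × E4 => M.star0 K f i z.1 z.2 := by
  have h1 := inner_meas (M := M) hK hf i
  have h2 : ∀ z : ℝ × E4, M.star0 K f i z.1 z.2 = ∫ s, ({p : (ℝ × E4) × ℝ | 0 < p.2 ∧ p.2 < p.1.1}.indicator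
      (fun p : (ℝ × E4) × ℝ => ∫ z, K i (p.1.1 - p.2) p.1.2 z * f i p.2 z * M.w i z)) (z, s) := by
    intro z
    unfold Met.star0
    rw [← integral_indicator measurableSet_Ioo]
    rfl
  simp only [h2]
  have h3 : MeasurableSet {p : (ℝ × E4) × ℝ | 0 < p.2 ∧ p.2 < p.1.1} :=
    (measurableSet_lt measurable_const measurable_snd).inter
      (measurableSet_lt measurable_snd (measurable_fst.comp measurable_fst))
  exact (h1.indicator h3).integral_prod_right'.measurable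

/-- pointwise bound of the inner integral -/
theorem inner_bd {k g : E4 → ℝ} {w : E4 → ℝ} {C₁ C₂ W c s t : ℝ} (hc : 0 < c) (hs : 0 < s)
    (hst : s < t) (x : E4)
    (hk : ∀ z, |k z| ≤ C₁ * Gam c (t - s) (x - z)) (hg : ∀ z, |g z| ≤ C₂ * Gam c s z)
    (hw : ∀ z, |w z| ≤ W) :
    |∫ z, k z * g z * w z| ≤ C₁ * C₂ * W * ((Real.pi / c) ^ 2 * Gam c t x) := by
  have h1 : ∀ z, ‖k z * g z * w z‖ ≤ C₁ * C₂ * W * (Gam c (t - s) (x - z) * Gam c s z) := by
    intro z
    rw [Real.norm_eq_abs, abs_mul, abs_mul]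
    have e1 := Gam_nonneg c (t - s) (x - z)
    have e2 := Gam_nonneg c s z
    calc |k z| * |g z| * |w z| ≤ (C₁ * Gam c (t - s) (x - z)) * (C₂ * Gam c s z) * W := by
          have e3 := (abs_nonneg (g z)).trans (hg z)
          have e4 := (abs_nonneg (k z)).trans (hk z)
          exact mul_le_mul (mul_le_mul (hk z) (hg z) (abs_nonneg _) e4) (hw z) (abs_nonneg _)
            (mul_nonneg e4 e3)
      _ = _ := by ring
  have h2 := norm_integral_le_of_norm_le ((Gam_conv_integrable hc hs hst x).const_mul _)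
    (Eventually.of_forall h1)
  rwa [integral_const_mul, Gam_conv hc hs hst, Real.norm_eq_abs] at h2

theorem SF.star0 (hK : SK K K0) (hf : SF a f f0) :
    SF (a + 1) (M.star0 K f)
      (fun i σ ξ => ∫ s in Ioo 0 σ, ∫ z, K0 i (σ - s) ξ z * f0 i s z * M.w i 0) := by
  obtain ⟨C₁, C₂, c, hC₁, hC₂, hc, hb1, hb2⟩ := common hK hf
  obtain ⟨W, hW, hw⟩ := ub_bdd M.ubw
  refine ⟨star0_meas hK.meas hf.meas, ?_, ?_⟩
  · refine ⟨C₁ * C₂ * W * (Real.pi / c) ^ 2, c, by positivity, hc, fun i t ht x => ?_⟩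
    have ht0 := ht.1
    have h1 : ∀ s ∈ Ioo (0 : ℝ) t, ‖∫ z, K i (t - s) x z * f i s z * M.w i z‖ ≤
        C₁ * (C₂ * t ^ a) * W * ((Real.pi / c) ^ 2 * Gam c t x) := by
      intro s hs
      have hs0 := hs.1
      rw [Real.norm_eq_abs]
      refine inner_bd hc hs.1 hs.2 x (fun z => hb1 i (t - s) ?_ x z) (fun z => ?_) (hw i)
      · exact ⟨sub_pos.2 hs.2, by linarith [hs.1, ht.2]⟩
      · refine (hb2 i s ⟨hs.1, hs.2.le.trans ht.2⟩ z).trans ?_
        have := Gam_nonneg c s z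
        have h3 : s ^ a ≤ t ^ a := pow_le_pow_left₀ hs.1.le hs.2.le a
        gcongr
    have h2 := norm_setIntegral_le_of_norm_le_const (μ := volume) (s := Ioo (0 : ℝ) t)
      measure_Ioo_lt_top h1
    rw [Real.norm_eq_abs] at h2
    unfold Met.star0
    refine h2.trans (le_of_eq ?_)
    rw [Measure.real, Real.volume_Ioo, sub_zero, ENNReal.toReal_ofReal ht0.le, pow_succ]
    ring
  · intro i σ hσ ξ
    have hσ0 := hσ.1
    set Φ : ℝ → ℝ → ℝ := fun t s => ∫ ζ, (t ^ 2 * K i (t * (σ - s)) (Real.sqrt t • ξ)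
        (Real.sqrt t • ζ)) * (t ^ 2 * (t ^ a)⁻¹ * f i (t * s) (Real.sqrt t • ζ)) *
        M.w i (Real.sqrt t • ζ) with hΦ
    have hEq : ∀ᶠ t : ℝ in 𝓝[>] 0, ∫ s in Ioo 0 σ, Φ t s =
        t ^ 2 * (t ^ (a + 1))⁻¹ * M.star0 K f i (t * σ) (Real.sqrt t • ξ) := by
      filter_upwards [self_mem_nhdsWithin] with t ht
      have ht0 : 0 < t := ht
      unfold Met.star0
      rw [setint_scale ht0 hσ0.le, ← integral_const_mul, ← integral_const_mul]
      refine setIntegral_congr_fun measurableSet_Ioo fun s _ => ?_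
      have hin := int_scale ht0 (fun z => K i (t * σ - t * s) (Real.sqrt t • ξ) z *
        f i (t * s) z * M.w i z)
      simp only [hΦ]
      rw [hin, ← integral_const_mul, ← integral_const_mul, ← integral_const_mul]
      refine integral_congr_ae (Eventually.of_forall fun ζ => ?_)
      rw [← mul_sub, pow_succ]
      field_simp
      ring
    refine Tendsto.congr' hEq ?_
    -- outer dominated convergence
    have hsmem : ∀ s ∈ Ioo (0 : ℝ) σ, s ∈ Ioc (0 : ℝ) 1 ∧ σ - s ∈ Ioc (0 : ℝ) 1 := by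
      intro s hs
      have h1 := hs.1
      have h2 := hs.2
      have h3 := hσ.2
      exact ⟨⟨h1, by linarith⟩, ⟨by linarith, by linarith⟩⟩
    refine tendsto_integral_filter_of_dominated_convergence
      (fun _ => C₁ * C₂ * W * ((Real.pi / c) ^ 2 * Gam c σ ξ)) ?_ ?_ ?_ ?_
    · refine Eventually.of_forall fun t => ?_
      have hmm : Measurable fun q : ℝ × E4 => (t ^ 2 * K i (t * (σ - q.1)) (Real.sqrt t • ξ)
          (Real.sqrt t • q.2)) * (t ^ 2 * (t ^ a)⁻¹ * f i (t * q.1) (Real.sqrt t • q.2)) *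
          M.w i (Real.sqrt t • q.2) := by
        have h1 : Measurable (fun q : ℝ × E4 => K i (t * (σ - q.1)) (Real.sqrt t • ξ)
            (Real.sqrt t • q.2)) :=
          (hK.meas i).comp (g := fun z : ℝ × E4 × E4 => K i z.1 z.2.1 z.2.2)
            (f := fun q : ℝ × E4 => (t * (σ - q.1), Real.sqrt t • ξ, Real.sqrt t • q.2))
            (by fun_prop)
        have h2 : Measurable (fun q : ℝ × E4 => f i (t * q.1) (Real.sqrt t • q.2)) :=
          (hf.meas i).comp (g := fun z : ℝ × E4 => f i z.1 z.2)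
            (f := fun q : ℝ × E4 => (t * q.1, Real.sqrt t • q.2)) (by fun_prop)
        have h3 : Measurable (fun q : ℝ × E4 => M.w i (Real.sqrt t • q.2)) :=
          (ub_cont M.ubw i).measurable.comp (by fun_prop)
        exact ((h1.const_mul _).mul (h2.const_mul _)).mul h3
      exact hmm.stronglyMeasurable.integral_prod_right'.aestronglyMeasurable
    · filter_upwards [ev_Ioc] with t ht
      refine (ae_restrict_iff' measurableSet_Ioo).2 (Eventually.of_forall fun s hs => ?_)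
      have h1 := hsmem s hs
      rw [Real.norm_eq_abs]
      refine inner_bd hc hs.1 hs.2 ξ (fun z => scaled_bdK (hb1 i) ht h1.2 ξ z) (fun z => ?_)
        (fun z => hw i _)
      refine (scaled_bd (hb2 i) ht h1.1 z).trans ?_
      have h3 : s ^ a ≤ 1 := pow_le_one₀ hs.1.le h1.1.2
      have h4 := Gam_nonneg c s z
      calc C₂ * s ^ a * Gam c s z ≤ C₂ * 1 * Gam c s z := by gcongr
        _ = _ := by ring
    · exact integrableOn_const (by rw [Real.volume_Ioo]; exact ENNReal.ofReal_ne_top)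
    · refine (ae_restrict_iff' measurableSet_Ioo).2 (Eventually.of_forall fun s hs => ?_)
      have h1 := hsmem s hs
      -- inner dominated convergence
      refine tendsto_integral_filter_of_dominated_convergence
        (fun z => C₁ * (C₂ * s ^ a) * W * (Gam c (σ - s) (ξ - z) * Gam c s z)) ?_ ?_ ?_ ?_
      · refine Eventually.of_forall fun t => ?_
        have h1 : Measurable (fun z : E4 => K i (t * (σ - s)) (Real.sqrt t • ξ)
            (Real.sqrt t • z)) :=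
          (hK.meas i).comp (g := fun z : ℝ × E4 × E4 => K i z.1 z.2.1 z.2.2)
            (f := fun z : E4 => (t * (σ - s), Real.sqrt t • ξ, Real.sqrt t • z))
            (by fun_prop)
        have h2 : Measurable (fun z : E4 => f i (t * s) (Real.sqrt t • z)) :=
          (hf.meas i).comp (g := fun z : ℝ × E4 => f i z.1 z.2)
            (f := fun z : E4 => (t * s, Real.sqrt t • z)) (by fun_prop)
        have h3 : Measurable (fun z : E4 => M.w i (Real.sqrt t • z)) :=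
          (ub_cont M.ubw i).measurable.comp (by fun_prop)
        exact (((h1.const_mul _).mul (h2.const_mul _)).mul h3).aestronglyMeasurable
      · filter_upwards [ev_Ioc] with t ht
        refine Eventually.of_forall fun z => ?_
        rw [Real.norm_eq_abs, abs_mul, abs_mul]
        have e1 := scaled_bdK (hb1 i) ht h1.2 ξ z
        have e2 := scaled_bd (hb2 i) ht h1.1 z
        have e3 := (abs_nonneg _).trans e1
        have e4 := (abs_nonneg _).trans e2
        refine (mul_le_mul (mul_le_mul e1 e2 (abs_nonneg _) e3) (hw i _) (abs_nonneg _)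
          (mul_nonneg e3 e4)).trans (le_of_eq ?_)
        ring
      · exact (Gam_conv_integrable hc hs.1 hs.2 ξ).const_mul _
      · refine Eventually.of_forall fun z => ?_
        exact ((hK.lim i (σ - s) h1.2 ξ z).mul (hf.lim i s h1.1 z)).mul
          (w_tendsto (ub_cont M.ubw i) z)

end conv

/-- pairings of total order `2` -/
theorem pairing (M : Met ι) {a b : ℕ} {f f0 g g0 : ι → ℝ → E4 → ℝ} (hf : SF a f f0)
    (hg : SF b g g0) (hab : a + b = 2) :
    (∃ C : ℝ, ∀ i, ∀ t ∈ Ioc (0 : ℝ) 1, |∫ x, f i t x * g i t x * M.w i x| ≤ C) ∧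
    ∀ i, Tendsto (fun t => ∫ x, f i t x * g i t x * M.w i x) (𝓝[>] 0)
      (𝓝 (∫ x, f0 i 1 x * g0 i 1 x * M.w i 0)) := by
  obtain ⟨C₁, c₁, hC₁, hc₁, hb1⟩ := hf.bd
  obtain ⟨C₂, c₂, hC₂, hc₂, hb2⟩ := hg.bd
  obtain ⟨W, hW, hw⟩ := ub_bdd M.ubw
  have h1m : (1 : ℝ) ∈ Ioc (0 : ℝ) 1 := ⟨one_pos, le_rfl⟩
  set Φ : ι → ℝ → E4 → ℝ := fun i t x => (t ^ 2 * (t ^ a)⁻¹ * f i (t * 1) (Real.sqrt t • x)) *
    (t ^ 2 * (t ^ b)⁻¹ * g i (t * 1) (Real.sqrt t • x)) * M.w i (Real.sqrt t • x) with hΦ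
  have hEq : ∀ i t, 0 < t → ∫ x, f i t x * g i t x * M.w i x = ∫ x, Φ i t x := by
    intro i t ht
    rw [int_scale ht, ← integral_const_mul]
    refine integral_congr_ae (Eventually.of_forall fun x => ?_)
    simp only [hΦ, mul_one]
    have h1 : t ^ a * t ^ b = t ^ 2 := by rw [← pow_add, hab]
    have h2 : (t ^ a)⁻¹ * (t ^ b)⁻¹ = (t ^ 2)⁻¹ := by rw [← mul_inv, h1]
    calc t ^ 2 * (f i t (Real.sqrt t • x) * g i t (Real.sqrt t • x) * M.w i (Real.sqrt t • x))
        = (t ^ 2 * t ^ 2 * (t ^ 2)⁻¹) * (f i t (Real.sqrt t • x) * g i t (Real.sqrt t • x) *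
          M.w i (Real.sqrt t • x)) := by
          rw [mul_assoc (t ^ 2), mul_inv_cancel₀ (by positivity), mul_one]
      _ = _ := by rw [← h2]; ring
  set B : E4 → ℝ := fun x => C₁ * C₂ * W * Gam c₁ 1 x with hB
  have hBd : ∀ i, ∀ t ∈ Ioc (0 : ℝ) 1, ∀ x, ‖Φ i t x‖ ≤ B x := by
    intro i t ht x
    rw [Real.norm_eq_abs, abs_mul, abs_mul]
    have e1 := scaled_bd (hb1 i) ht h1m x
    have e2 := scaled_bd (hb2 i) ht h1m x
    rw [one_pow, show C₁ * (1 : ℝ) = C₁ from mul_one _] at e1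
    rw [one_pow, show C₂ * (1 : ℝ) = C₂ from mul_one _] at e2
    have e5 : C₂ * Gam c₂ 1 x ≤ C₂ := by
      have := Gam_le hc₂.le one_pos x
      rw [one_pow, inv_one] at this
      calc C₂ * Gam c₂ 1 x ≤ C₂ * 1 := by gcongr
        _ = C₂ := mul_one _
    have e3 := (abs_nonneg _).trans e1
    refine (mul_le_mul (mul_le_mul e1 (e2.trans e5) (abs_nonneg _) e3) (hw i _) (abs_nonneg _)
      (mul_nonneg e3 hC₂)).trans (le_of_eq ?_)
    simp only [hB]
    ring
  have hBi : Integrable B := by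
    have h := Gam_integrable hc₁ one_pos (0 : E4)
    simp only [sub_zero] at h
    exact h.const_mul _
  refine ⟨⟨∫ x, B x, fun i t ht => ?_⟩, fun i => ?_⟩
  · rw [hEq i t ht.1, ← Real.norm_eq_abs]
    exact norm_integral_le_of_norm_le hBi (Eventually.of_forall (hBd i t ht))
  · have h1 : ∀ᶠ t : ℝ in 𝓝[>] 0, ∫ x, Φ i t x = ∫ x, f i t x * g i t x * M.w i x := by
      filter_upwards [self_mem_nhdsWithin] with t ht
      exact (hEq i t ht).symm
    refine Tendsto.congr' h1 ?_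
    refine tendsto_integral_filter_of_dominated_convergence B ?_ ?_ hBi ?_
    · refine Eventually.of_forall fun t => ?_
      have h1 : Measurable (fun z : E4 => f i (t * 1) (Real.sqrt t • z)) :=
        (hf.meas i).comp (g := fun z : ℝ × E4 => f i z.1 z.2)
          (f := fun z : E4 => (t * 1, Real.sqrt t • z)) (by fun_prop)
      have h2 : Measurable (fun z : E4 => g i (t * 1) (Real.sqrt t • z)) :=
        (hg.meas i).comp (g := fun z : ℝ × E4 => g i z.1 z.2)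
          (f := fun z : E4 => (t * 1, Real.sqrt t • z)) (by fun_prop)
      have h3 : Measurable (fun z : E4 => M.w i (Real.sqrt t • z)) :=
        (ub_cont M.ubw i).measurable.comp (by fun_prop)
      exact (((h1.const_mul _).mul (h2.const_mul _)).mul h3).aestronglyMeasurable
    · filter_upwards [ev_Ioc] with t ht
      exact Eventually.of_forall (hBd i t ht)
    · refine Eventually.of_forall fun x => ?_
      exact ((hf.lim i 1 h1m x).mul (hg.lim i 1 h1m x)).mul (w_tendsto (ub_cont M.ubw i) x)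

end Crest.Agent.R249.HKLim_274
end
end

-- ▼ part R249/HKLim3_274
section

/-!
# R249, PART C, leaf HK7 (helper274), part 3: closure properties, the scalar parametrix, `tr aa`
-/

set_option autoImplicit false
open scoped ContDiff
open MeasureTheory Set Metric Filter Topology
open Crest.Agent.R249.HK286

noncomputable section

namespace Crest.Agent.R249.HKLim_274

variable {ι : Type*}

section closure

variable {a : ℕ} {f f0 g g0 : ι → ℝ → E4 → ℝ}

theorem SF.add (hf : SF a f f0) (hg : SF a g g0) :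
    SF a (fun i t x => f i t x + g i t x) (fun i t x => f0 i t x + g0 i t x) := by
  obtain ⟨C₁, c₁, h1, h1', h1''⟩ := hf.bd
  obtain ⟨C₂, c₂, h2, h2', h2''⟩ := hg.bd
  refine ⟨fun i => (hf.meas i).add (hg.meas i), ⟨C₁ + C₂, min c₁ c₂, by positivity,
    lt_min h1' h2', fun i t ht x => ?_⟩, fun i σ hσ ξ => ?_⟩
  · have e1 := h1'' i t ht x
    have e2 := h2'' i t ht x
    have e3 := Gam_anti (min_le_left c₁ c₂) ht.1 x
    have e4 := Gam_anti (min_le_right c₁ c₂) ht.1 x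
    have ht0 := ht.1
    calc |f i t x + g i t x| ≤ |f i t x| + |g i t x| := abs_add_le _ _
      _ ≤ C₁ * t ^ a * Gam c₁ t x + C₂ * t ^ a * Gam c₂ t x := add_le_add e1 e2
      _ ≤ C₁ * t ^ a * Gam (min c₁ c₂) t x + C₂ * t ^ a * Gam (min c₁ c₂) t x := by gcongr
      _ = _ := by ring
  · refine ((hf.lim i σ hσ ξ).add (hg.lim i σ hσ ξ)).congr fun t => ?_
    ring

theorem SF.zero : SF a (fun (_ : ι) _ _ => (0 : ℝ)) (fun _ _ _ => 0) := by
  refine ⟨fun i => measurable_const, ⟨0, 1, le_rfl, one_pos, fun i t ht x => ?_⟩,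
    fun i σ hσ ξ => ?_⟩
  · simp
  · simp

theorem SF.sum {κ : Type*} (s : Finset κ) {F F0 : κ → ι → ℝ → E4 → ℝ}
    (h : ∀ k ∈ s, SF a (F k) (F0 k)) :
    SF a (fun i t x => ∑ k ∈ s, F k i t x) (fun i t x => ∑ k ∈ s, F0 k i t x) := by
  classical
  induction s using Finset.induction_on with
  | empty => simpa using (SF.zero : SF a (fun (_ : ι) _ _ => (0 : ℝ)) _)
  | insert k s hk ih =>
    simp only [Finset.sum_insert hk]
    exact (h k (Finset.mem_insert_self _ _)).add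
      (ih fun j hj => h j (Finset.mem_insert_of_mem hj))

/-- multiplication by a bounded function of `x` -/
theorem SF.mul_ub (hf : SF a f f0) {φ : ι → E4 → ℝ} (hφ : UB φ) :
    SF a (fun i t x => f i t x * φ i x) (fun i t x => f0 i t x * φ i 0) := by
  obtain ⟨C₁, c₁, h1, h1', h1''⟩ := hf.bd
  obtain ⟨B, hB, hb⟩ := ub_bdd hφ
  refine ⟨fun i => (hf.meas i).mul ((ub_cont hφ i).measurable.comp measurable_snd),
    ⟨C₁ * B, c₁, by positivity, h1', fun i t ht x => ?_⟩, fun i σ hσ ξ => ?_⟩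
  · rw [abs_mul]
    have e1 := h1'' i t ht x
    calc |f i t x| * |φ i x| ≤ (C₁ * t ^ a * Gam c₁ t x) * B :=
          mul_le_mul e1 (hb i x) (abs_nonneg _) ((abs_nonneg _).trans e1)
      _ = _ := by ring
  · refine ((hf.lim i σ hσ ξ).mul (w_tendsto (ub_cont hφ i) ξ)).congr fun t => ?_
    ring

/-- multiplication by a function vanishing to second order -/
theorem SF.mul_quad (hf : SF a f f0) {φ φ0 : ι → E4 → ℝ} (hm : ∀ i, Measurable (φ i)) {B : ℝ}
    (hB : 0 ≤ B) (hb : ∀ i x, |φ i x| ≤ B * ‖x‖ ^ 2)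
    (hl : ∀ i ξ, Tendsto (fun t : ℝ => t⁻¹ * φ i (Real.sqrt t • ξ)) (𝓝[>] 0) (𝓝 (φ0 i ξ))) :
    SF (a + 1) (fun i t x => f i t x * φ i x) (fun i t x => f0 i t x * φ0 i x) := by
  obtain ⟨C₁, c₁, h1, h1', h1''⟩ := hf.bd
  refine ⟨fun i => (hf.meas i).mul ((hm i).comp measurable_snd),
    ⟨C₁ * B * (2 / c₁), c₁ / 2, by positivity, by positivity, fun i t ht x => ?_⟩,
    fun i σ hσ ξ => ?_⟩
  · rw [abs_mul]
    have e1 := h1'' i t ht x
    have ht0 := ht.1
    have e2 := sq_mul_Gam_le h1' ht0 x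
    calc |f i t x| * |φ i x| ≤ (C₁ * t ^ a * Gam c₁ t x) * (B * ‖x‖ ^ 2) :=
          mul_le_mul e1 (hb i x) (abs_nonneg _) ((abs_nonneg _).trans e1)
      _ = C₁ * B * t ^ a * (‖x‖ ^ 2 * Gam c₁ t x) := by ring
      _ ≤ C₁ * B * t ^ a * (2 / c₁ * t * Gam (c₁ / 2) t x) := by gcongr
      _ = _ := by rw [pow_succ t a]; ring
  · refine ((hf.lim i σ hσ ξ).mul (hl i ξ)).congr fun t => ?_
    rw [pow_succ t a, mul_inv]
    ring

theorem SF.congr (hf : SF a f f0) (hm : ∀ i, Measurable fun z : ℝ × E4 => g i z.1 z.2)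
    (h : ∀ i, ∀ t ∈ Ioc (0 : ℝ) 1, ∀ x, g i t x = f i t x) : SF a g f0 := by
  obtain ⟨C₁, c₁, h1, h1', h1''⟩ := hf.bd
  refine ⟨hm, ⟨C₁, c₁, h1, h1', fun i t ht x => by rw [h i t ht x]; exact h1'' i t ht x⟩,
    fun i σ hσ ξ => ?_⟩
  refine (hf.lim i σ hσ ξ).congr' ?_
  filter_upwards [ev_Ioc] with t ht
  rw [h i _ (mul_mem ht hσ)]

theorem SK.mul_ub {K K0 : ι → ℝ → E4 → E4 → ℝ} (hK : SK K K0) {φ : ι → E4 → ℝ} (hφ : UB φ) :
    SK (fun i t x z => K i t x z * φ i x) (fun i t x z => K0 i t x z * φ i 0) := by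
  obtain ⟨C₁, c₁, h1, h1', h1''⟩ := hK.bd
  obtain ⟨B, hB, hb⟩ := ub_bdd hφ
  refine ⟨fun i => (hK.meas i).mul ((ub_cont hφ i).measurable.comp
    (measurable_fst.comp measurable_snd)),
    ⟨C₁ * B, c₁, by positivity, h1', fun i t ht x z => ?_⟩, fun i σ hσ ξ ζ => ?_⟩
  · rw [abs_mul]
    have e1 := h1'' i t ht x z
    calc |K i t x z| * |φ i x| ≤ (C₁ * Gam c₁ t (x - z)) * B :=
          mul_le_mul e1 (hb i x) (abs_nonneg _) ((abs_nonneg _).trans e1)
      _ = _ := by ring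
  · refine ((hK.lim i σ hσ ξ ζ).mul (w_tendsto (ub_cont hφ i) ξ)).congr fun t => ?_
    ring

end closure

/-! ### the scalar parametrix -/

section HH

variable {M : Met ι} {R : ℝ}

theorem Cut.R_pos (c : Cut R) : 0 < R := by
  by_contra h
  push Not at h
  have h1 := c.one 0 0 (by simp)
  have h2 := c.zero 0 0 (by simp; linarith)
  rw [h1] at h2
  exact one_ne_zero h2

theorem Cut.at_zero (c : Cut R) (m : ℕ) : c.ps m 0 = 1 := by
  have := Cut.R_pos c
  exact c.one m 0 (by rw [norm_zero]; positivity)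

variable (M) in
/-- the frozen quadratic form -/
def q0 (i : ι) (v : E4) : ℝ := ∑ a, ∑ b, M.g i a b 0 * v a * v b

variable (M) in
/-- the frozen Gaussian -/
def gam (i : ι) (σ : ℝ) (v : E4) : ℝ := ((4 * Real.pi * σ) ^ 2)⁻¹ * Real.exp (-(q0 M i v / (4 * σ)))

theorem rho_ge : ∃ c : ℝ, 0 < c ∧ ∀ i x z, c * ‖x - z‖ ^ 2 ≤ M.rho i x z := by
  obtain ⟨c, hc, h⟩ := M.ell
  refine ⟨c, hc, fun i x z => ?_⟩
  have h1 := h i x fun a => x a - z a
  have h2 := h i z fun a => x a - z a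
  have h3 : ‖x - z‖ ^ 2 = ∑ a, (x a - z a) ^ 2 := by
    rw [EuclideanSpace.real_norm_sq_eq]
    rfl
  unfold Met.rho
  have h4 : ∑ a, ∑ b, (M.g i a b x + M.g i a b z) * (x a - z a) * (x b - z b) =
      ∑ a, ∑ b, M.g i a b x * (x a - z a) * (x b - z b) +
      ∑ a, ∑ b, M.g i a b z * (x a - z a) * (x b - z b) := by
    rw [← Finset.sum_add_distrib]
    refine Finset.sum_congr rfl fun a _ => ?_
    rw [← Finset.sum_add_distrib]
    refine Finset.sum_congr rfl fun b _ => ?_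
    ring
  rw [h4, h3]
  linarith

theorem GG_nonneg (i : ι) (t : ℝ) (x z : E4) : 0 ≤ M.GG i t x z := by
  unfold Met.GG; positivity

theorem GG_bd : ∃ c : ℝ, 0 < c ∧ ∀ i, ∀ t : ℝ, 0 < t → ∀ x z, M.GG i t x z ≤ Gam c t (x - z) := by
  obtain ⟨c, hc, h⟩ := rho_ge (M := M)
  refine ⟨c / 4, by positivity, fun i t ht x z => ?_⟩
  unfold Met.GG Gam
  have h1 : ((4 * Real.pi * t) ^ 2)⁻¹ ≤ (t ^ 2)⁻¹ := by
    have h2 : 1 ≤ 4 * Real.pi := by linarith [Real.pi_gt_three]
    have h3 : t ^ 2 ≤ (4 * Real.pi * t) ^ 2 := by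
      have : t ≤ 4 * Real.pi * t := by nlinarith
      gcongr
    exact inv_anti₀ (by positivity) h3
  have h4 : Real.exp (-(M.rho i x z / (4 * t))) ≤ Real.exp (-(c / 4 * ‖x - z‖ ^ 2 / t)) := by
    refine Real.exp_le_exp.2 (neg_le_neg ?_)
    rw [div_le_div_iff₀ ht (by positivity)]
    have := h i x z
    nlinarith
  gcongr

theorem rho_cont (i : ι) : Continuous fun z : E4 × E4 => M.rho i z.1 z.2 := by
  have hg : ∀ a b, Continuous (M.g i a b) := fun a b => ub_cont (M.ubg a b) i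
  unfold Met.rho
  refine continuous_const.mul (continuous_finsetSum _ fun a _ => continuous_finsetSum _ fun b _ => ?_)
  have h1 : Continuous fun z : E4 × E4 => M.g i a b z.1 := (hg a b).comp continuous_fst
  have h2 : Continuous fun z : E4 × E4 => M.g i a b z.2 := (hg a b).comp continuous_snd
  fun_prop

theorem GG_meas (i : ι) : Measurable fun z : ℝ × E4 × E4 => M.GG i z.1 z.2.1 z.2.2 := by
  have h1 : Measurable fun z : ℝ × E4 × E4 => M.rho i z.2.1 z.2.2 :=
    (rho_cont i).measurable.comp measurable_snd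
  unfold Met.GG
  fun_prop

theorem HH_meas (c : Cut R) (m : ℕ) (i : ι) :
    Measurable fun z : ℝ × E4 × E4 => M.HH c m i z.1 z.2.1 z.2.2 := by
  have h1 := GG_meas (M := M) i
  have h2 : Measurable fun z : ℝ × E4 × E4 => c.ps m z.2.1 :=
    (c.smooth m).continuous.measurable.comp (measurable_fst.comp measurable_snd)
  unfold Met.HH
  exact h2.mul h1

theorem HH_bd (c : Cut R) : ∃ c' : ℝ, 0 < c' ∧ ∀ m i, ∀ t : ℝ, 0 < t → ∀ x z,
    |M.HH c m i t x z| ≤ Gam c' t (x - z) := by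
  obtain ⟨c', hc', h⟩ := GG_bd (M := M)
  refine ⟨c', hc', fun m i t ht x z => ?_⟩
  unfold Met.HH
  rw [abs_mul, abs_of_nonneg (c.mem m x).1, abs_of_nonneg (GG_nonneg i t x z)]
  calc c.ps m x * M.GG i t x z ≤ 1 * M.GG i t x z :=
        mul_le_mul_of_nonneg_right (c.mem m x).2 (GG_nonneg i t x z)
    _ ≤ _ := by rw [one_mul]; exact h i t ht x z

theorem rho_scale {t : ℝ} (ht : 0 ≤ t) (i : ι) (ξ ζ : E4) :
    M.rho i (Real.sqrt t • ξ) (Real.sqrt t • ζ) = t * (1 / 2 * ∑ a, ∑ b,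
      (M.g i a b (Real.sqrt t • ξ) + M.g i a b (Real.sqrt t • ζ)) * (ξ a - ζ a) * (ξ b - ζ b)) := by
  unfold Met.rho
  rw [mul_left_comm t, Finset.mul_sum (Finset.univ) _ t]
  congr 1
  refine Finset.sum_congr rfl fun a _ => ?_
  rw [Finset.mul_sum]
  refine Finset.sum_congr rfl fun b _ => ?_
  have h : Real.sqrt t * Real.sqrt t = t := Real.mul_self_sqrt ht
  simp only [PiLp.smul_apply, smul_eq_mul]
  calc _ = (Real.sqrt t * Real.sqrt t) * ((M.g i a b (Real.sqrt t • ξ) +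
        M.g i a b (Real.sqrt t • ζ)) * (ξ a - ζ a) * (ξ b - ζ b)) := by ring
    _ = _ := by rw [h]

theorem SK_HH (c : Cut R) (m : ℕ) :
    SK (M.HH c m) (fun i σ ξ ζ => gam M i σ (ξ - ζ)) := by
  obtain ⟨c', hc', h⟩ := HH_bd (M := M) c
  refine ⟨fun i => HH_meas c m i, ⟨1, c', zero_le_one, hc', fun i t ht x z => ?_⟩,
    fun i σ hσ ξ ζ => ?_⟩
  · rw [one_mul]
    exact h m i t ht.1 x z
  · have hσ0 := hσ.1
    have h1 : Tendsto (fun t : ℝ => c.ps m (Real.sqrt t • ξ) * (((4 * Real.pi * σ) ^ 2)⁻¹ *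
        Real.exp (-((1 / 2 * ∑ a, ∑ b, (M.g i a b (Real.sqrt t • ξ) +
          M.g i a b (Real.sqrt t • ζ)) * (ξ a - ζ a) * (ξ b - ζ b)) / (4 * σ))))) (𝓝[>] 0)
        (𝓝 (1 * (((4 * Real.pi * σ) ^ 2)⁻¹ *
        Real.exp (-((1 / 2 * ∑ a, ∑ b, (M.g i a b 0 +
          M.g i a b 0) * (ξ a - ζ a) * (ξ b - ζ b)) / (4 * σ)))))) := by
      have e1 := w_tendsto (c.smooth m).continuous ξ
      rw [Cut.at_zero c m] at e1
      refine e1.mul (tendsto_const_nhds.mul ?_)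
      refine (Real.continuous_exp.tendsto _).comp ?_
      refine Tendsto.neg (Tendsto.div_const (tendsto_const_nhds.mul ?_) _)
      refine tendsto_finsetSum _ fun a _ => tendsto_finsetSum _ fun b _ => ?_
      refine Tendsto.mul_const _ (Tendsto.mul_const _ ?_)
      exact (w_tendsto (ub_cont (M.ubg a b) i) ξ).add (w_tendsto (ub_cont (M.ubg a b) i) ζ)
    have h2 : 1 * (((4 * Real.pi * σ) ^ 2)⁻¹ *
        Real.exp (-((1 / 2 * ∑ a, ∑ b, (M.g i a b 0 +
          M.g i a b 0) * (ξ a - ζ a) * (ξ b - ζ b)) / (4 * σ)))) = gam M i σ (ξ - ζ) := by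
      unfold gam q0
      rw [one_mul]
      congr 3
      rw [Finset.mul_sum]
      congr 1
      refine Finset.sum_congr rfl fun a _ => ?_
      rw [Finset.mul_sum]
      refine Finset.sum_congr rfl fun b _ => ?_
      simp only [PiLp.sub_apply]
      ring
    rw [h2] at h1
    refine h1.congr' ?_
    filter_upwards [self_mem_nhdsWithin] with t ht
    have ht0 : 0 < t := ht
    unfold Met.HH Met.GG
    rw [rho_scale ht0.le]
    set r : ℝ := 1 / 2 * ∑ a, ∑ b, (M.g i a b (Real.sqrt t • ξ) + M.g i a b (Real.sqrt t • ζ)) *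
      (ξ a - ζ a) * (ξ b - ζ b)
    have e1 : t * r / (4 * (t * σ)) = r / (4 * σ) := by
      rw [show 4 * (t * σ) = t * (4 * σ) by ring, mul_div_mul_left _ _ ht0.ne']
    have e2 : ((4 * Real.pi * (t * σ)) ^ 2)⁻¹ = (t ^ 2)⁻¹ * ((4 * Real.pi * σ) ^ 2)⁻¹ := by
      rw [← mul_inv]; congr 1; ring
    rw [e1, e2]
    have e3 : t ^ 2 * (t ^ 2)⁻¹ = 1 := mul_inv_cancel₀ (by positivity)
    calc _ = (t ^ 2 * (t ^ 2)⁻¹) * (c.ps m (Real.sqrt t • ξ) * (((4 * Real.pi * σ) ^ 2)⁻¹ *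
        Real.exp (-(r / (4 * σ))))) := by rw [e3, one_mul]
      _ = _ := by ring

theorem SF_HH (c : Cut R) (m : ℕ) :
    SF 0 (fun i t x => M.HH c m i t x 0) (fun i σ ξ => gam M i σ ξ) := by
  have h := SK_HH (M := M) c m
  obtain ⟨C, c', hC, hc', hb⟩ := h.bd
  refine ⟨fun i => ?_, ⟨C, c', hC, hc', fun i t ht x => ?_⟩, fun i σ hσ ξ => ?_⟩
  · exact (HH_meas c m i).comp (g := fun z : ℝ × E4 × E4 => M.HH c m i z.1 z.2.1 z.2.2)
      (f := fun z : ℝ × E4 => (z.1, z.2, (0 : E4))) (by fun_prop)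
  · have := hb i t ht x 0
    rwa [sub_zero, ← mul_one C, ← pow_zero t] at this
  · have := h.lim i σ hσ ξ 0
    simp only [smul_zero, sub_zero] at this
    simpa using this

end HH

end Crest.Agent.R249.HKLim_274
end
end

-- ▼ part R249/HKLim4_274
section

/-!
# R249, PART C, leaf HK7 (helper274), part 4: Gaussian integrals of the frozen metric
-/

set_option autoImplicit false
open scoped ContDiff
open MeasureTheory Set Metric Filter Topology
open Crest.Agent.R249.HK286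

noncomputable section

namespace Crest.Agent.R249.HKLim_274

open scoped MatrixOrder in
theorem exists_factor {A : Matrix (Fin 4) (Fin 4) ℝ} (hA : A.PosSemidef) :
    ∃ B : Matrix (Fin 4) (Fin 4) ℝ, A = B.transpose * B := by
  obtain ⟨B, hB⟩ := CStarAlgebra.nonneg_iff_eq_star_mul_self.mp hA.nonneg
  refine ⟨B, ?_⟩
  rw [hB]
  congr 1

variable {ι : Type*} (M : Met ι)

/-- the frozen bilinear form -/
def b0 (i : ι) (v w : E4) : ℝ := ∑ a, ∑ b, M.g i a b 0 * v a * w b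

theorem q0_eq (i : ι) (v : E4) : q0 M i v = b0 M i v v := rfl

theorem w_pos (i : ι) (x : E4) : 0 < M.w i x := by
  obtain ⟨c, hc, h⟩ := M.wpos
  exact hc.trans_le (h i x)

/-- a square root of the frozen metric -/
theorem exists_L (i : ι) : ∃ L : E4 →ₗ[ℝ] E4,
    (∀ v w, inner ℝ (L v) (L w) = b0 M i v w) ∧ |LinearMap.det L| = M.w i 0 := by
  set A : Matrix (Fin 4) (Fin 4) ℝ := Matrix.of fun a b => M.g i a b 0 with hA
  obtain ⟨c, hc, hell⟩ := M.ell
  have hpos : A.PosSemidef := by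
    refine Matrix.PosSemidef.of_dotProduct_mulVec_nonneg ?_ fun x => ?_
    · ext a b
      simp only [Matrix.conjTranspose_apply, hA, Matrix.of_apply, star_trivial]
      exact M.gsymm i b a 0
    · have h1 := hell i 0 x
      have h2 : (0 : ℝ) ≤ c * ∑ a, x a ^ 2 := by positivity
      refine (h2.trans h1).trans (le_of_eq ?_)
      simp only [dotProduct, Matrix.mulVec, star_trivial, Finset.mul_sum, hA, Matrix.of_apply,
        Pi.star_apply]
      refine Finset.sum_congr rfl fun a _ => Finset.sum_congr rfl fun b _ => ?_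
      ring
  obtain ⟨B, hB⟩ := exists_factor hpos
  refine ⟨Matrix.toEuclideanLin B, fun v w => ?_, ?_⟩
  · have h1 : ∀ v : E4, ∀ a, (Matrix.toEuclideanLin B v) a = ∑ b, B a b * v b := fun v a => rfl
    have h2 : ∀ a b, M.g i a b 0 = ∑ c, B c a * B c b := by
      intro a b
      have : A a b = (B.transpose * B) a b := by rw [← hB]
      rw [Matrix.mul_apply] at this
      exact this
    rw [PiLp.inner_apply]
    unfold b0
    simp only [h1, h2, RCLike.inner_apply, conj_trivial, Finset.sum_mul, Finset.mul_sum]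
    calc ∑ c, ∑ a, ∑ b, B c b * w b * (B c a * v a)
        = ∑ c, ∑ a, ∑ b, B c a * B c b * v a * w b := by
          refine Finset.sum_congr rfl fun c _ => ?_
          refine Finset.sum_congr rfl fun a _ => Finset.sum_congr rfl fun b _ => ?_
          ring
      _ = ∑ a, ∑ c, ∑ b, B c a * B c b * v a * w b := Finset.sum_comm
      _ = ∑ a, ∑ b, ∑ c, B c a * B c b * v a * w b :=
          Finset.sum_congr rfl fun a _ => Finset.sum_comm
  · have h1 : LinearMap.det (Matrix.toEuclideanLin B : E4 →ₗ[ℝ] E4) = B.det := by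
      rw [Matrix.toEuclideanLin_eq_toLin_orthonormal, LinearMap.det_toLin]
    have h2 : M.w i 0 ^ 2 = B.det ^ 2 := by
      rw [M.wdet i 0, ← hA, hB, Matrix.det_mul, Matrix.det_transpose, sq]
    rw [h1]
    have h3 := (sq_eq_sq_iff_abs_eq_abs _ _).1 h2
    rw [← h3, abs_of_pos (w_pos M i 0)]

/-- linear change of variables -/
theorem chg {L : E4 →ₗ[ℝ] E4} (hL : LinearMap.det L ≠ 0) (F : E4 → ℝ) :
    (∫ v, F (L v)) * |LinearMap.det L| = ∫ v, F v := by
  set e : E4 ≃ₗ[ℝ] E4 := LinearEquiv.ofIsUnitDet (f := L) (v := (EuclideanSpace.basisFun (Fin 4) ℝ).toBasis)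
    (v' := (EuclideanSpace.basisFun (Fin 4) ℝ).toBasis) (by
      rw [LinearMap.det_toMatrix]
      exact isUnit_iff_ne_zero.2 hL) with he
  have h1 : ∀ v, e v = L v := fun v => rfl
  have h2 : Measure.map L (volume : Measure E4) =
      ENNReal.ofReal |(LinearMap.det L)⁻¹| • (volume : Measure E4) :=
    Measure.map_linearMap_addHaar_eq_smul_addHaar _ hL
  have h3 : ∫ v, F (L v) = ∫ y, F y ∂(Measure.map L (volume : Measure E4)) := by
    have hme : MeasurableEmbedding (L : E4 → E4) :=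
      e.toContinuousLinearEquiv.toHomeomorph.measurableEmbedding
    exact (hme.integral_map F).symm
  rw [h3, h2, integral_smul_measure, ENNReal.toReal_ofReal (abs_nonneg _), smul_eq_mul,
    abs_inv]
  have h4 : |LinearMap.det L| ≠ 0 := abs_ne_zero.2 hL
  field_simp

variable {M}

section withL

variable {i : ι} {L : E4 →ₗ[ℝ] E4} (hL : ∀ v w, inner ℝ (L v) (L w) = b0 M i v w)
  (hdet : |LinearMap.det L| = M.w i 0)

include hL in
theorem q0_L (v : E4) : q0 M i v = ‖L v‖ ^ 2 := by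
  rw [q0_eq, ← hL, real_inner_self_eq_norm_sq]

include hL in
theorem gam_L (σ : ℝ) (v : E4) : gam M i σ v = ((4 * Real.pi) ^ 2)⁻¹ * Gam (1 / 4) σ (L v) := by
  unfold gam Gam
  rw [q0_L hL]
  have e1 : -(1 / 4 * ‖L v‖ ^ 2 / σ) = -(‖L v‖ ^ 2 / (4 * σ)) := by
    rw [neg_inj]
    by_cases h : σ = 0
    · subst h; simp
    · field_simp
  rw [e1, mul_pow (4 * Real.pi) σ, mul_inv]
  ring

include hdet in
theorem det_ne : LinearMap.det L ≠ 0 := by
  intro h
  rw [h, abs_zero] at hdet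
  exact (w_pos M i 0).ne hdet

end withL

theorem gam_nonneg (i : ι) (σ : ℝ) (v : E4) : 0 ≤ gam M i σ v := by
  unfold gam; positivity

theorem gam_cont (i : ι) (σ : ℝ) : Continuous (gam M i σ) := by
  unfold gam q0; fun_prop

/-- total mass -/
theorem gam_integral (i : ι) {σ : ℝ} (hσ : 0 < σ) : (∫ v, gam M i σ v) * M.w i 0 = 1 := by
  obtain ⟨L, hL, hdet⟩ := exists_L M i
  simp only [gam_L hL]
  rw [← hdet, chg (det_ne hdet) (fun v => ((4 * Real.pi) ^ 2)⁻¹ * Gam (1 / 4) σ v),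
    integral_const_mul]
  have h := Gam_integral (c := 1 / 4) (by norm_num) hσ (0 : E4)
  simp only [sub_zero] at h
  rw [h]
  have : Real.pi / (1 / 4) = 4 * Real.pi := by ring
  rw [this, inv_mul_cancel₀]
  have := Real.pi_pos
  positivity

/-- domination -/
theorem gam_le (i : ι) : ∃ c : ℝ, 0 < c ∧ ∀ σ : ℝ, 0 < σ → ∀ v, gam M i σ v ≤ Gam c σ v := by
  obtain ⟨c, hc, hell⟩ := M.ell
  refine ⟨c / 4, by positivity, fun σ hσ v => ?_⟩
  unfold gam Gam
  have h1 : ((4 * Real.pi * σ) ^ 2)⁻¹ ≤ (σ ^ 2)⁻¹ := by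
    have h2 : 1 ≤ 4 * Real.pi := by linarith [Real.pi_gt_three]
    have h3 : σ ^ 2 ≤ (4 * Real.pi * σ) ^ 2 := by
      have : σ ≤ 4 * Real.pi * σ := by nlinarith
      gcongr
    exact inv_anti₀ (by positivity) h3
  have h5 : c * ‖v‖ ^ 2 ≤ q0 M i v := by
    have := hell i 0 fun a => v a
    rw [EuclideanSpace.real_norm_sq_eq]
    exact this
  have h4 : Real.exp (-(q0 M i v / (4 * σ))) ≤ Real.exp (-(c / 4 * ‖v‖ ^ 2 / σ)) := by
    refine Real.exp_le_exp.2 (neg_le_neg ?_)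
    rw [div_le_div_iff₀ hσ (by positivity)]
    nlinarith
  gcongr

theorem gam_integrable (i : ι) {σ : ℝ} (hσ : 0 < σ) : Integrable (gam M i σ) := by
  obtain ⟨c, hc, h⟩ := gam_le (M := M) i
  have h1 := Gam_integrable hc hσ (0 : E4)
  simp only [sub_zero] at h1
  refine h1.mono' (gam_cont i σ).aestronglyMeasurable (Eventually.of_forall fun v => ?_)
  rw [Real.norm_eq_abs, abs_of_nonneg (gam_nonneg i σ v)]
  exact h σ hσ v

/-- functions of quadratic growth are integrable against `gam` -/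
theorem quad_integrable (i : ι) {σ : ℝ} (hσ : 0 < σ) {F : E4 → ℝ} (hF : Continuous F) {A B : ℝ}
    (hA : 0 ≤ A) (hB : 0 ≤ B) (hb : ∀ v, |F v| ≤ A + B * ‖v‖ ^ 2) :
    Integrable fun v => F v * gam M i σ v := by
  obtain ⟨c, hc, h⟩ := gam_le (M := M) i
  have h1 := Gam_integrable hc hσ (0 : E4)
  have h2 := Gam_integrable (c := c / 2) (by positivity) hσ (0 : E4)
  simp only [sub_zero] at h1 h2
  refine ((h1.const_mul A).add (h2.const_mul (B * (2 / c * σ)))).mono'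
    (hF.mul (gam_cont i σ)).aestronglyMeasurable (Eventually.of_forall fun v => ?_)
  rw [Real.norm_eq_abs, abs_mul, abs_of_nonneg (gam_nonneg i σ v)]
  have e1 := sq_mul_Gam_le hc hσ v
  have e2 := h σ hσ v
  have e3 := gam_nonneg (M := M) i σ v
  simp only [Pi.add_apply]
  calc |F v| * gam M i σ v ≤ (A + B * ‖v‖ ^ 2) * Gam c σ v := by
        exact mul_le_mul (hb v) e2 e3 (by positivity)
    _ = A * Gam c σ v + B * (‖v‖ ^ 2 * Gam c σ v) := by ring
    _ ≤ A * Gam c σ v + B * (2 / c * σ * Gam (c / 2) σ v) := by gcongr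
    _ = _ := by ring

theorem coord_le (v : E4) (a : Fin 4) : |v a| ≤ ‖v‖ := by
  have := PiLp.norm_apply_le v a
  rwa [Real.norm_eq_abs] at this

theorem coord2_integrable (i : ι) {σ : ℝ} (hσ : 0 < σ) (a b : Fin 4) :
    Integrable fun v : E4 => v a * v b * gam M i σ v := by
  refine quad_integrable i hσ (by fun_prop) (A := 0) (B := 1) le_rfl zero_le_one fun v => ?_
  rw [abs_mul, zero_add, one_mul, sq]
  exact mul_le_mul (coord_le v a) (coord_le v b) (abs_nonneg _) (norm_nonneg _)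

theorem coord_integrable (i : ι) {σ : ℝ} (hσ : 0 < σ) (a : Fin 4) :
    Integrable fun v : E4 => v a * gam M i σ v := by
  refine quad_integrable i hσ (by fun_prop) (A := 1) (B := 1) zero_le_one zero_le_one fun v => ?_
  have h1 := coord_le v a
  have h2 := sq_nonneg (‖v‖ - 1)
  have h3 := norm_nonneg v
  nlinarith

theorem gam_neg (i : ι) (σ : ℝ) (v : E4) : gam M i σ (-v) = gam M i σ v := by
  unfold gam q0
  congr 4
  refine Finset.sum_congr rfl fun a _ => Finset.sum_congr rfl fun b _ => ?_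
  simp only [PiLp.neg_apply]
  ring

/-- odd moments -/
theorem gam_odd (i : ι) (σ : ℝ) (a : Fin 4) : ∫ v : E4, v a * gam M i σ v = 0 := by
  have h1 := integral_neg_eq_self (fun v : E4 => v a * gam M i σ v) (volume : Measure E4)
  have h2 : ∀ v : E4, (-v) a * gam M i σ (-v) = -(v a * gam M i σ v) := by
    intro v
    rw [gam_neg, PiLp.neg_apply]
    ring
  simp only [h2] at h1
  rw [integral_neg] at h1
  linarith

/-- derivative of the Gaussian -/
theorem gam_fderiv (i : ι) (σ : ℝ) (v : E4) (l : Fin 4) :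
    DifferentiableAt ℝ (gam M i σ) v ∧
    fderiv ℝ (gam M i σ) v (EuclideanSpace.single l 1) =
      -((2 * σ)⁻¹ * ∑ b, M.g i l b 0 * v b) * gam M i σ v := by
  obtain ⟨L, hL, hdet⟩ := exists_L M i
  have h1 : HasFDerivAt (fun v : E4 => q0 M i v)
      (2 • (innerSL ℝ (L v)).comp (LinearMap.toContinuousLinearMap L)) v := by
    have h0 : HasFDerivAt (fun v : E4 => L v) (LinearMap.toContinuousLinearMap L) v :=
      (LinearMap.toContinuousLinearMap L).hasFDerivAt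
    have := h0.norm_sq
    refine this.congr_of_eventuallyEq (Eventually.of_forall fun w => ?_)
    exact q0_L hL w
  have h3 := ((h1.const_mul ((4 * σ)⁻¹)).neg.exp).const_mul (((4 * Real.pi * σ) ^ 2)⁻¹)
  have h4 : gam M i σ = fun v => ((4 * Real.pi * σ) ^ 2)⁻¹ *
      Real.exp (-((4 * σ)⁻¹ * q0 M i v)) := by
    funext w
    unfold gam
    rw [div_eq_inv_mul]
  rw [h4]
  refine ⟨h3.differentiableAt, ?_⟩
  have h6 : fderiv ℝ (fun v => ((4 * Real.pi * σ) ^ 2)⁻¹ *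
      Real.exp (-((4 * σ)⁻¹ * q0 M i v))) v = _ := h3.fderiv
  rw [h6]
  have h5 : inner ℝ (L v) (L (EuclideanSpace.single l 1)) = ∑ b, M.g i l b 0 * v b := by
    rw [hL]
    unfold b0
    refine Finset.sum_congr rfl fun a _ => ?_
    rw [Finset.sum_eq_single l]
    · rw [PiLp.single_apply, if_pos rfl, mul_one, M.gsymm]
    · intro b _ hb
      rw [PiLp.single_apply, if_neg hb, mul_zero]
    · intro h; exact absurd (Finset.mem_univ _) h
  simp only [ContinuousLinearMap.smul_apply, ContinuousLinearMap.neg_apply, smul_eq_mul,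
    ContinuousLinearMap.comp_apply, innerSL_apply_apply, LinearMap.coe_toContinuousLinearMap', h5,
    nsmul_eq_mul, Nat.cast_ofNat, Pi.neg_apply]
  by_cases h : σ = 0
  · subst h; simp
  · field_simp
    ring

/-- second moments -/
theorem gam_moment (i : ι) {σ : ℝ} (hσ : 0 < σ) (k m : Fin 4) :
    (∫ v : E4, v k * v m * gam M i σ v) * M.w i 0 = 2 * σ * M.h i k m 0 := by
  have hI := gam_integral (M := M) i hσ
  -- integration by parts
  have key : ∀ l, ∑ b, M.g i l b 0 * ∫ v : E4, v m * v b * gam M i σ v =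
      if l = m then 2 * σ * ∫ v, gam M i σ v else 0 := by
    intro l
    have hd : ∀ v : E4, fderiv ℝ (fun v : E4 => v m) v (EuclideanSpace.single l 1) =
        if l = m then 1 else 0 := by
      intro v
      have h1 : HasFDerivAt (fun v : E4 => v m) (EuclideanSpace.proj (𝕜 := ℝ) m) v :=
        (EuclideanSpace.proj (𝕜 := ℝ) m : E4 →L[ℝ] ℝ).hasFDerivAt
      rw [h1.fderiv]
      show (EuclideanSpace.single l (1:ℝ)) m = _
      rw [PiLp.single_apply]
      by_cases h : l = m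
      · rw [if_pos h, if_pos h.symm]
      · rw [if_neg h, if_neg (Ne.symm h)]
    have hsum : ∀ v : E4, v m * (-((2 * σ)⁻¹ * ∑ b, M.g i l b 0 * v b) * gam M i σ v) =
        -(2 * σ)⁻¹ * ∑ b, M.g i l b 0 * (v m * v b * gam M i σ v) := by
      intro v
      rw [Finset.mul_sum, Finset.mul_sum, ← Finset.sum_neg_distrib, Finset.sum_mul,
        Finset.mul_sum]
      refine Finset.sum_congr rfl fun b _ => ?_
      ring
    have hint : Integrable fun v : E4 => -(2 * σ)⁻¹ * ∑ b, M.g i l b 0 * (v m * v b * gam M i σ v) :=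
      (integrable_finsetSum _ fun b _ => (coord2_integrable i hσ m b).const_mul _).const_mul _
    have h := integral_mul_fderiv_eq_neg_fderiv_mul_of_integrable (μ := (volume : Measure E4))
      (f := fun v : E4 => v m) (g := gam M i σ) (v := EuclideanSpace.single l 1)
      (by simp only [hd]; exact (gam_integrable i hσ).const_mul _)
      (by simp only [(gam_fderiv i σ _ l).2, hsum]; exact hint)
      (coord_integrable i hσ m)
      (fun x _ => (EuclideanSpace.proj (𝕜 := ℝ) m : E4 →L[ℝ] ℝ).differentiableAt)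
      (fun x _ => (gam_fderiv i σ x l).1)
    simp only [hd, (gam_fderiv i σ _ l).2, hsum] at h
    rw [integral_const_mul, integral_const_mul, integral_finsetSum _
      (fun b _ => (coord2_integrable i hσ m b).const_mul _)] at h
    simp only [integral_const_mul] at h
    have h2 : (2 * σ) * (2 * σ)⁻¹ = 1 := mul_inv_cancel₀ (by positivity)
    calc ∑ b, M.g i l b 0 * ∫ v : E4, v m * v b * gam M i σ v
        = -(2 * σ) * (-(2 * σ)⁻¹ * ∑ b, M.g i l b 0 * ∫ v : E4, v m * v b * gam M i σ v) := by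
          rw [← mul_assoc, neg_mul_neg, h2, one_mul]
      _ = (2 * σ) * ((if l = m then 1 else 0) * ∫ v, gam M i σ v) := by rw [h]; ring
      _ = _ := by split_ifs <;> ring
  -- invert the metric
  have h3 : ∫ v : E4, v k * v m * gam M i σ v =
      ∑ l, M.h i k l 0 * ∑ b, M.g i l b 0 * ∫ v : E4, v m * v b * gam M i σ v := by
    have h4 : ∀ b, ∑ l, M.h i k l 0 * M.g i l b 0 = if k = b then 1 else 0 := fun b =>
      M.inv i k b 0
    calc ∫ v : E4, v k * v m * gam M i σ v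
        = ∑ b, (if k = b then 1 else 0) * ∫ v : E4, v m * v b * gam M i σ v := by
          rw [Finset.sum_eq_single k]
          · rw [if_pos rfl, one_mul]
            simp only [mul_comm]
          · intro b _ hb
            rw [if_neg (Ne.symm hb), zero_mul]
          · intro h; exact absurd (Finset.mem_univ _) h
      _ = ∑ b, ∑ l, M.h i k l 0 * (M.g i l b 0 * ∫ v : E4, v m * v b * gam M i σ v) := by
          refine Finset.sum_congr rfl fun b _ => ?_
          rw [← h4 b, Finset.sum_mul]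
          refine Finset.sum_congr rfl fun l _ => ?_
          ring
      _ = _ := by
          rw [Finset.sum_comm]
          refine Finset.sum_congr rfl fun l _ => ?_
          rw [Finset.mul_sum]
  rw [h3]
  simp only [key]
  rw [Finset.sum_eq_single m]
  · rw [if_pos rfl]
    calc M.h i k m 0 * (2 * σ * ∫ v, gam M i σ v) * M.w i 0
        = 2 * σ * M.h i k m 0 * ((∫ v, gam M i σ v) * M.w i 0) := by ring
      _ = _ := by rw [hI, mul_one]
  · intro b _ hb
    rw [if_neg hb, mul_zero]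
  · intro h; exact absurd (Finset.mem_univ _) h

/-- product identity -/
theorem gam_mul (i : ι) {s τ : ℝ} (hs : 0 < s) (hst : s < τ) (ξ ζ : E4) :
    gam M i (τ - s) (ξ - ζ) * gam M i s ζ =
      gam M i τ ξ * gam M i (s * (τ - s) / τ) (ζ - (s / τ) • ξ) := by
  obtain ⟨L, hL, hdet⟩ := exists_L M i
  simp only [gam_L hL, map_sub, map_smul]
  have hτ : 0 < τ := hs.trans hst
  have hts : 0 < τ - s := sub_pos.2 hst
  have h1 := Gam_mul (c := 1 / 4) hs hst (L ξ) (L ζ)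
  have h2 : Gam (1 / 4) (s * (τ - s) / τ) (L ζ - (s / τ) • L ξ) =
      (((s * (τ - s)) / τ) ^ 2)⁻¹ *
        Real.exp (-(1 / 4 * (τ / (s * (τ - s))) * ‖L ζ - (s / τ) • L ξ‖ ^ 2)) := by
    rw [Gam_eq]
    congr 3
    field_simp
  rw [h2]
  calc _ = ((4 * Real.pi) ^ 2)⁻¹ * ((4 * Real.pi) ^ 2)⁻¹ *
        (Gam (1 / 4) (τ - s) (L ξ - L ζ) * Gam (1 / 4) s (L ζ)) := by ring
    _ = _ := by rw [h1]; ring

theorem gam_sq (i : ι) (ξ : E4) :
    gam M i 1 ξ * gam M i 1 ξ = (64 * Real.pi ^ 2)⁻¹ * gam M i (1 / 2) ξ := by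
  unfold gam
  have h1 : Real.exp (-(q0 M i ξ / (4 * (1 / 2)))) =
      Real.exp (-(q0 M i ξ / (4 * 1))) * Real.exp (-(q0 M i ξ / (4 * 1))) := by
    rw [← Real.exp_add]; congr 1; ring
  rw [h1]
  have := Real.pi_pos
  field_simp
  ring

end Crest.Agent.R249.HKLim_274
end
end

-- ▼ part R249/HKLim5_274

/-!
# R249, PART C, leaf HK7 (helper274), part 5: second order functions, pairings, matrix `star`,
explicit limits
-/

set_option autoImplicit false
open scoped ContDiff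
open MeasureTheory Set Metric Filter Topology
open Crest.Agent.R249.HK286

noncomputable section

namespace Crest.Agent.R249.HKLim_274

variable {ι : Type*}

/-! ### functions vanishing to first / second order -/

theorem lin_bd {f : ι → E4 → ℝ} (h : UB f) (h0 : ∀ i, f i 0 = 0) :
    ∃ C, 0 ≤ C ∧ ∀ i x, |f i x| ≤ C * ‖x‖ := by
  obtain ⟨C, hC⟩ := h.2 1
  refine ⟨|C|, abs_nonneg _, fun i x => ?_⟩
  have h1 := (convex_univ (𝕜 := ℝ) (E := E4)).norm_image_sub_le_of_norm_fderiv_le (𝕜 := ℝ) (f := f i)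
    (C := |C|) (x := 0) (y := x)
    (fun y _ => ((h.1 i).differentiable (by simp)).differentiableAt)
    (fun y _ => by
      have := hC i y
      rw [norm_iteratedFDeriv_one] at this
      exact this.trans (le_abs_self _)) (mem_univ _) (mem_univ _)
  rwa [h0, sub_zero, sub_zero, Real.norm_eq_abs] at h1

theorem sqrt_tendsto : Tendsto Real.sqrt (𝓝[>] 0) (𝓝[>] 0) := by
  refine tendsto_nhdsWithin_iff.2 ⟨?_, ?_⟩
  · have := Real.continuous_sqrt.tendsto 0
    rw [Real.sqrt_zero] at this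
    exact this.mono_left nhdsWithin_le_nhds
  · filter_upwards [self_mem_nhdsWithin] with t ht
    exact Real.sqrt_pos.2 ht

theorem lin_lim {f : E4 → ℝ} (h : ContDiff ℝ ∞ f) (h0 : f 0 = 0) (ξ : E4) :
    Tendsto (fun t : ℝ => (Real.sqrt t)⁻¹ * f (Real.sqrt t • ξ)) (𝓝[>] 0)
      (𝓝 (fderiv ℝ f 0 ξ)) := by
  have h1 : HasDerivAt (fun s : ℝ => f (s • ξ)) (fderiv ℝ f 0 ξ) 0 := by
    have h2 : HasFDerivAt f (fderiv ℝ f 0) ((0 : ℝ) • ξ) := by
      rw [zero_smul]
      exact ((h.differentiable (by simp)).differentiableAt).hasFDerivAt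
    have h3 : HasDerivAt (fun s : ℝ => s • ξ) ξ 0 := by
      simpa using (hasDerivAt_id (0 : ℝ)).smul_const ξ
    exact h2.comp_hasDerivAt 0 h3
  have h4 := h1.tendsto_slope_zero_right
  simp only [zero_add, zero_smul, h0, sub_zero, smul_eq_mul] at h4
  exact h4.comp sqrt_tendsto

theorem fderiv_eq_sum (f : E4 → ℝ) (ξ : E4) :
    fderiv ℝ f 0 ξ = ∑ m, pd m f 0 * ξ m := by
  have h : ξ = ∑ m, ξ m • EuclideanSpace.single m (1 : ℝ) := by
    ext a
    rw [WithLp.ofLp_sum, Finset.sum_apply, Finset.sum_eq_single a]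
    · simp
    · intro b _ hb
      simp [hb.symm]
    · intro h; exact absurd (Finset.mem_univ _) h
  conv_lhs => rw [h, map_sum]
  refine Finset.sum_congr rfl fun m _ => ?_
  rw [map_smul, smul_eq_mul, mul_comm]
  rfl

/-- functions vanishing to second order, with their leading part -/
structure QF (φ φ0 : ι → E4 → ℝ) : Prop where
  cont : ∀ i, Continuous (φ i)
  bd : ∃ B, 0 ≤ B ∧ ∀ i x, |φ i x| ≤ B * ‖x‖ ^ 2
  lim : ∀ i ξ, Tendsto (fun t : ℝ => t⁻¹ * φ i (Real.sqrt t • ξ)) (𝓝[>] 0) (𝓝 (φ0 i ξ))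

theorem QF.add {φ φ0 ψ ψ0 : ι → E4 → ℝ} (h1 : QF φ φ0) (h2 : QF ψ ψ0) :
    QF (fun i x => φ i x + ψ i x) (fun i x => φ0 i x + ψ0 i x) := by
  obtain ⟨B₁, e1, e1'⟩ := h1.bd
  obtain ⟨B₂, e2, e2'⟩ := h2.bd
  refine ⟨fun i => (h1.cont i).add (h2.cont i), ⟨B₁ + B₂, by positivity, fun i x => ?_⟩,
    fun i ξ => ?_⟩
  · have := abs_add_le (φ i x) (ψ i x)
    have := e1' i x
    have := e2' i x
    linarith
  · refine ((h1.lim i ξ).add (h2.lim i ξ)).congr fun t => ?_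
    ring

theorem QF.zero : QF (fun (_ : ι) _ => (0 : ℝ)) (fun _ _ => 0) :=
  ⟨fun i => continuous_const, ⟨0, le_rfl, fun i x => by simp⟩, fun i ξ => by simp⟩

theorem QF.sum {κ : Type*} (s : Finset κ) {F F0 : κ → ι → E4 → ℝ}
    (h : ∀ k ∈ s, QF (F k) (F0 k)) :
    QF (fun i x => ∑ k ∈ s, F k i x) (fun i x => ∑ k ∈ s, F0 k i x) := by
  classical
  induction s using Finset.induction_on with
  | empty => simpa using (QF.zero : QF (fun (_ : ι) _ => (0 : ℝ)) _)
  | insert k s hk ih =>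
    simp only [Finset.sum_insert hk]
    exact (h k (Finset.mem_insert_self _ _)).add
      (ih fun j hj => h j (Finset.mem_insert_of_mem hj))

theorem QF.ub_mul {φ φ0 : ι → E4 → ℝ} (h : QF φ φ0) {u : ι → E4 → ℝ} (hu : UB u) :
    QF (fun i x => u i x * φ i x) (fun i x => u i 0 * φ0 i x) := by
  obtain ⟨B₁, e1, e1'⟩ := h.bd
  obtain ⟨B₂, e2, e2'⟩ := ub_bdd hu
  refine ⟨fun i => (ub_cont hu i).mul (h.cont i), ⟨B₂ * B₁, by positivity, fun i x => ?_⟩,
    fun i ξ => ?_⟩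
  · rw [abs_mul, mul_assoc]
    exact mul_le_mul (e2' i x) (e1' i x) (abs_nonneg _) e2
  · refine ((w_tendsto (ub_cont hu i) ξ).mul (h.lim i ξ)).congr fun t => ?_
    ring

theorem QF.of_lin {f g : ι → E4 → ℝ} (hf : UB f) (hf0 : ∀ i, f i 0 = 0) (hg : UB g)
    (hg0 : ∀ i, g i 0 = 0) :
    QF (fun i x => f i x * g i x)
      (fun i x => (∑ m, pd m (f i) 0 * x m) * ∑ m, pd m (g i) 0 * x m) := by
  obtain ⟨B₁, e1, e1'⟩ := lin_bd hf hf0
  obtain ⟨B₂, e2, e2'⟩ := lin_bd hg hg0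
  refine ⟨fun i => (ub_cont hf i).mul (ub_cont hg i), ⟨B₁ * B₂, by positivity, fun i x => ?_⟩,
    fun i ξ => ?_⟩
  · rw [abs_mul]
    calc |f i x| * |g i x| ≤ (B₁ * ‖x‖) * (B₂ * ‖x‖) :=
          mul_le_mul (e1' i x) (e2' i x) (abs_nonneg _) (by positivity)
      _ = _ := by ring
  · have h1 := (lin_lim (hf.1 i) (hf0 i) ξ).mul (lin_lim (hg.1 i) (hg0 i) ξ)
    rw [fderiv_eq_sum, fderiv_eq_sum] at h1
    refine h1.congr' ?_
    filter_upwards [self_mem_nhdsWithin] with t ht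
    have ht0 : 0 < t := ht
    have h2 : (Real.sqrt t)⁻¹ * (Real.sqrt t)⁻¹ = t⁻¹ := by
      rw [← mul_inv, Real.mul_self_sqrt ht0.le]
    rw [← h2]
    ring

/-! ### products of scaled functions, integrated against `w` -/

/-- scaled limits of integrands -/
structure SI (F : ι → ℝ → E4 → ℝ) (F0 : ι → E4 → ℝ) : Prop where
  meas : ∀ i t, Measurable (F i t)
  bd : ∃ C c : ℝ, 0 ≤ C ∧ 0 < c ∧ ∀ i, ∀ t ∈ Ioc (0 : ℝ) 1, ∀ x,
    |t ^ 2 * F i t (Real.sqrt t • x)| ≤ C * Gam c 1 x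
  lim : ∀ i x, Tendsto (fun t : ℝ => t ^ 2 * F i t (Real.sqrt t • x)) (𝓝[>] 0) (𝓝 (F0 i x))

theorem SF.mul {a b : ℕ} {f f0 g g0 : ι → ℝ → E4 → ℝ} (hf : SF a f f0) (hg : SF b g g0)
    (hab : a + b = 2) : SI (fun i t x => f i t x * g i t x) (fun i x => f0 i 1 x * g0 i 1 x) := by
  obtain ⟨C₁, c₁, hC₁, hc₁, hb1⟩ := hf.bd
  obtain ⟨C₂, c₂, hC₂, hc₂, hb2⟩ := hg.bd
  have h1m : (1 : ℝ) ∈ Ioc (0 : ℝ) 1 := ⟨one_pos, le_rfl⟩
  have hEq : ∀ i, ∀ t : ℝ, 0 < t → ∀ x : E4,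
      t ^ 2 * (f i t (Real.sqrt t • x) * g i t (Real.sqrt t • x)) =
      (t ^ 2 * (t ^ a)⁻¹ * f i (t * 1) (Real.sqrt t • x)) *
        (t ^ 2 * (t ^ b)⁻¹ * g i (t * 1) (Real.sqrt t • x)) := by
    intro i t ht x
    have h1 : t ^ a * t ^ b = t ^ 2 := by rw [← pow_add, hab]
    have h2 : (t ^ a)⁻¹ * (t ^ b)⁻¹ = (t ^ 2)⁻¹ := by rw [← mul_inv, h1]
    rw [mul_one]
    calc t ^ 2 * (f i t (Real.sqrt t • x) * g i t (Real.sqrt t • x))
        = (t ^ 2 * t ^ 2 * (t ^ 2)⁻¹) * (f i t (Real.sqrt t • x) * g i t (Real.sqrt t • x)) := by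
          rw [mul_assoc (t ^ 2), mul_inv_cancel₀ (by positivity), mul_one]
      _ = _ := by rw [← h2]; ring
  refine ⟨fun i t => ?_, ⟨C₁ * C₂, c₁, by positivity, hc₁, fun i t ht x => ?_⟩, fun i x => ?_⟩
  · have h1 : Measurable (fun z : E4 => f i t z) :=
      (hf.meas i).comp (g := fun z : ℝ × E4 => f i z.1 z.2) (f := fun z : E4 => (t, z))
        (by fun_prop)
    have h2 : Measurable (fun z : E4 => g i t z) :=
      (hg.meas i).comp (g := fun z : ℝ × E4 => g i z.1 z.2) (f := fun z : E4 => (t, z))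
        (by fun_prop)
    exact h1.mul h2
  · rw [hEq i t ht.1 x, abs_mul]
    have e1 := scaled_bd (hb1 i) ht h1m x
    have e2 := scaled_bd (hb2 i) ht h1m x
    rw [one_pow, show C₁ * (1 : ℝ) = C₁ from mul_one _] at e1
    rw [one_pow, show C₂ * (1 : ℝ) = C₂ from mul_one _] at e2
    have e5 : C₂ * Gam c₂ 1 x ≤ C₂ := by
      have := Gam_le hc₂.le one_pos x
      rw [one_pow, inv_one] at this
      calc C₂ * Gam c₂ 1 x ≤ C₂ * 1 := by gcongr
        _ = C₂ := mul_one _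
    have e3 := (abs_nonneg _).trans e1
    refine (mul_le_mul e1 (e2.trans e5) (abs_nonneg _) e3).trans (le_of_eq ?_)
    ring
  · refine ((hf.lim i 1 h1m x).mul (hg.lim i 1 h1m x)).congr' ?_
    filter_upwards [self_mem_nhdsWithin] with t ht
    exact (hEq i t ht x).symm

theorem SI.add {F F0' G G0' : _} (h1 : SI (ι := ι) F F0') (h2 : SI (ι := ι) G G0') :
    SI (fun i t x => F i t x + G i t x) (fun i x => F0' i x + G0' i x) := by
  obtain ⟨C₁, c₁, hC₁, hc₁, hb1⟩ := h1.bd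
  obtain ⟨C₂, c₂, hC₂, hc₂, hb2⟩ := h2.bd
  refine ⟨fun i t => (h1.meas i t).add (h2.meas i t), ⟨C₁ + C₂, min c₁ c₂, by positivity,
    lt_min hc₁ hc₂, fun i t ht x => ?_⟩, fun i x => ?_⟩
  · have e1 := hb1 i t ht x
    have e2 := hb2 i t ht x
    have e3 := Gam_anti (min_le_left c₁ c₂) one_pos x
    have e4 := Gam_anti (min_le_right c₁ c₂) one_pos x
    rw [mul_add]
    calc _ ≤ |t ^ 2 * F i t (Real.sqrt t • x)| + |t ^ 2 * G i t (Real.sqrt t • x)| :=
          abs_add_le _ _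
      _ ≤ C₁ * Gam c₁ 1 x + C₂ * Gam c₂ 1 x := add_le_add e1 e2
      _ ≤ C₁ * Gam (min c₁ c₂) 1 x + C₂ * Gam (min c₁ c₂) 1 x := by gcongr
      _ = _ := by ring
  · refine ((h1.lim i x).add (h2.lim i x)).congr fun t => ?_
    ring

theorem SI.zero : SI (fun (_ : ι) _ _ => (0 : ℝ)) (fun _ _ => 0) :=
  ⟨fun i t => measurable_const, ⟨0, 1, le_rfl, one_pos, fun i t ht x => by simp⟩,
    fun i x => by simp⟩

theorem SI.sum {κ : Type*} (s : Finset κ) {F : κ → ι → ℝ → E4 → ℝ} {F0 : κ → ι → E4 → ℝ}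
    (h : ∀ k ∈ s, SI (F k) (F0 k)) :
    SI (fun i t x => ∑ k ∈ s, F k i t x) (fun i x => ∑ k ∈ s, F0 k i x) := by
  classical
  induction s using Finset.induction_on with
  | empty => simpa using (SI.zero : SI (fun (_ : ι) _ _ => (0 : ℝ)) _)
  | insert k s hk ih =>
    simp only [Finset.sum_insert hk]
    exact (h k (Finset.mem_insert_self _ _)).add
      (ih fun j hj => h j (Finset.mem_insert_of_mem hj))

theorem SI.integral (M : Met ι) {F : ι → ℝ → E4 → ℝ} {F0 : ι → E4 → ℝ} (h : SI F F0) :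
    (∃ C : ℝ, ∀ i, ∀ t ∈ Ioc (0 : ℝ) 1, |∫ x, F i t x * M.w i x| ≤ C) ∧
    ∀ i, Tendsto (fun t => ∫ x, F i t x * M.w i x) (𝓝[>] 0) (𝓝 (∫ x, F0 i x * M.w i 0)) := by
  obtain ⟨C, c, hC, hc, hb⟩ := h.bd
  obtain ⟨W, hW, hw⟩ := ub_bdd M.ubw
  have hEq : ∀ i t, 0 < t → ∫ x, F i t x * M.w i x =
      ∫ x, (t ^ 2 * F i t (Real.sqrt t • x)) * M.w i (Real.sqrt t • x) := by
    intro i t ht
    rw [int_scale ht, ← integral_const_mul]
    refine integral_congr_ae (Eventually.of_forall fun x => ?_)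
    ring
  have hBd : ∀ i, ∀ t ∈ Ioc (0 : ℝ) 1, ∀ x,
      ‖(t ^ 2 * F i t (Real.sqrt t • x)) * M.w i (Real.sqrt t • x)‖ ≤ C * W * Gam c 1 x := by
    intro i t ht x
    rw [Real.norm_eq_abs, abs_mul]
    have e1 := hb i t ht x
    refine (mul_le_mul e1 (hw i _) (abs_nonneg _) ((abs_nonneg _).trans e1)).trans (le_of_eq ?_)
    ring
  have hBi : Integrable fun x : E4 => C * W * Gam c 1 x := by
    have h := Gam_integrable hc one_pos (0 : E4)
    simp only [sub_zero] at h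
    exact h.const_mul _
  refine ⟨⟨∫ x : E4, C * W * Gam c 1 x, fun i t ht => ?_⟩, fun i => ?_⟩
  · rw [hEq i t ht.1, ← Real.norm_eq_abs]
    exact norm_integral_le_of_norm_le hBi (Eventually.of_forall (hBd i t ht))
  · have h1 : ∀ᶠ t : ℝ in 𝓝[>] 0, ∫ x, (t ^ 2 * F i t (Real.sqrt t • x)) *
        M.w i (Real.sqrt t • x) = ∫ x, F i t x * M.w i x := by
      filter_upwards [self_mem_nhdsWithin] with t ht
      exact (hEq i t ht).symm
    refine Tendsto.congr' h1 ?_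
    refine tendsto_integral_filter_of_dominated_convergence _ ?_ ?_ hBi ?_
    · refine Eventually.of_forall fun t => ?_
      have h2 : Measurable (fun z : E4 => F i t (Real.sqrt t • z)) :=
        (h.meas i t).comp (by fun_prop)
      have h3 : Measurable (fun z : E4 => M.w i (Real.sqrt t • z)) :=
        (ub_cont M.ubw i).measurable.comp (by fun_prop)
      exact ((h2.const_mul _).mul h3).aestronglyMeasurable
    · filter_upwards [ev_Ioc] with t ht
      exact Eventually.of_forall (hBd i t ht)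
    · refine Eventually.of_forall fun x => ?_
      exact (h.lim i x).mul (w_tendsto (ub_cont M.ubw i) x)

/-! ### matrix `star` -/

section star

variable {M : Met ι} {κ : Type*} [Fintype κ] [DecidableEq κ]

theorem star_sc (K : ι → ℝ → E4 → E4 → ℝ) (f : ι → ℝ → E4 → κ → κ → ℝ) (i : ι) (t : ℝ) (x : E4)
    (p q : κ) : M.star (sc K) f i t x p q = M.star0 K (fun i s z => f i s z p q) i t x := by
  unfold Met.star Met.star0 sc
  simp only [ite_mul, zero_mul, Finset.sum_ite_eq, Finset.mem_univ, if_true]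

/-- dominated for all positive times -/
def DK (K : ι → ℝ → E4 → E4 → ℝ) : Prop :=
  (∀ i, Measurable fun z : ℝ × E4 × E4 => K i z.1 z.2.1 z.2.2) ∧
  ∃ C c : ℝ, 0 ≤ C ∧ 0 < c ∧ ∀ i, ∀ t : ℝ, 0 < t → ∀ x z, |K i t x z| ≤ C * Gam c t (x - z)

def DF (f : ι → ℝ → E4 → ℝ) : Prop :=
  (∀ i, Measurable fun z : ℝ × E4 => f i z.1 z.2) ∧
  ∃ C c : ℝ, 0 ≤ C ∧ 0 < c ∧ ∀ i, ∀ t : ℝ, 0 < t → ∀ x, |f i t x| ≤ C * Gam c t x

theorem star_eq_sum {K : ι → ℝ → E4 → E4 → κ → κ → ℝ} {f : ι → ℝ → E4 → κ → κ → ℝ}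
    (hK : ∀ p q, DK fun i t x z => K i t x z p q) (hf : ∀ p q, DF fun i t x => f i t x p q)
    (i : ι) (t : ℝ) (x : E4) (p q : κ) :
    M.star K f i t x p q = ∑ r, M.star0 (fun i t x z => K i t x z p r)
      (fun i t z => f i t z r q) i t x := by
  unfold Met.star Met.star0
  obtain ⟨W, hW, hw⟩ := ub_bdd M.ubw
  -- common constants
  have hc : ∀ r, ∃ C₁ C₂ c : ℝ, 0 ≤ C₁ ∧ 0 ≤ C₂ ∧ 0 < c ∧
      (∀ t : ℝ, 0 < t → ∀ x z, |K i t x z p r| ≤ C₁ * Gam c t (x - z)) ∧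
      (∀ t : ℝ, 0 < t → ∀ x, |f i t x r q| ≤ C₂ * Gam c t x) := by
    intro r
    obtain ⟨-, C₁, c₁, h1, h1', h1''⟩ := hK p r
    obtain ⟨-, C₂, c₂, h2, h2', h2''⟩ := hf r q
    refine ⟨C₁, C₂, min c₁ c₂, h1, h2, lt_min h1' h2', fun t ht x z => ?_, fun t ht x => ?_⟩
    · refine (h1'' i t ht x z).trans ?_
      gcongr
      exact Gam_anti (min_le_left _ _) ht _
    · refine (h2'' i t ht x).trans ?_
      gcongr
      exact Gam_anti (min_le_right _ _) ht _
  have hmeas : ∀ r s, Measurable fun z : E4 => K i (t - s) x z p r * f i s z r q * M.w i z := by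
    intro r s
    have h1 : Measurable (fun z : E4 => K i (t - s) x z p r) :=
      ((hK p r).1 i).comp (g := fun z : ℝ × E4 × E4 => K i z.1 z.2.1 z.2.2 p r)
        (f := fun z : E4 => (t - s, x, z)) (by fun_prop)
    have h2 : Measurable (fun z : E4 => f i s z r q) :=
      ((hf r q).1 i).comp (g := fun z : ℝ × E4 => f i z.1 z.2 r q)
        (f := fun z : E4 => (s, z)) (by fun_prop)
    exact (h1.mul h2).mul (ub_cont M.ubw i).measurable
  have hint : ∀ r, ∀ s ∈ Ioo (0 : ℝ) t,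
      Integrable fun z : E4 => K i (t - s) x z p r * f i s z r q * M.w i z := by
    intro r s hs
    obtain ⟨C₁, C₂, c, hC₁, hC₂, hc, h1, h2⟩ := hc r
    refine ((Gam_conv_integrable hc hs.1 hs.2 x).const_mul (C₁ * C₂ * W)).mono'
      (hmeas r s).aestronglyMeasurable (Eventually.of_forall fun z => ?_)
    rw [Real.norm_eq_abs, abs_mul, abs_mul]
    have e1 := h1 (t - s) (sub_pos.2 hs.2) x z
    have e2 := h2 s hs.1 z
    have e3 := (abs_nonneg _).trans e1
    have e4 := (abs_nonneg _).trans e2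
    refine (mul_le_mul (mul_le_mul e1 e2 (abs_nonneg _) e3) (hw i _) (abs_nonneg _)
      (mul_nonneg e3 e4)).trans (le_of_eq ?_)
    ring
  have h1 : ∫ s in Ioo 0 t, ∫ z, (∑ r, K i (t - s) x z p r * f i s z r q) * M.w i z =
      ∫ s in Ioo 0 t, ∑ r, ∫ z, K i (t - s) x z p r * f i s z r q * M.w i z := by
    refine setIntegral_congr_fun measurableSet_Ioo fun s hs => ?_
    simp only [Finset.sum_mul]
    exact integral_finsetSum _ fun r _ => hint r s hs
  rw [h1]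
  refine integral_finsetSum _ fun r _ => ?_
  obtain ⟨C₁, C₂, c, hC₁, hC₂, hc, h1, h2⟩ := hc r
  refine Measure.integrableOn_of_bounded (M := C₁ * C₂ * W * ((Real.pi / c) ^ 2 * Gam c t x))
    (by rw [Real.volume_Ioo]; exact ENNReal.ofReal_ne_top) ?_ ?_
  · have h3 := inner_meas (M := M) (K := fun i t x z => K i t x z p r)
      (f := fun i t x => f i t x r q) (hK p r).1 (hf r q).1 i
    have h4 : Measurable fun s : ℝ => (((t, x), s) : (ℝ × E4) × ℝ) := by fun_prop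
    exact (h3.comp_measurable h4).aestronglyMeasurable
  · refine (ae_restrict_iff' measurableSet_Ioo).2 (Eventually.of_forall fun s hs => ?_)
    rw [Real.norm_eq_abs]
    exact inner_bd hc hs.1 hs.2 x (fun z => h1 _ (sub_pos.2 hs.2) x z) (fun z => h2 s hs.1 z)
      (hw i)

end star

/-! ### explicit limits -/

section lims

variable {M : Met ι}

theorem conv0 (i : ι) {s σ : ℝ} (hs : 0 < s) (hst : s < σ) (ξ : E4) (A : ℝ) :
    ∫ z, gam M i (σ - s) (ξ - z) * (gam M i s z * A) * M.w i 0 = gam M i σ ξ * A := by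
  have hσ : 0 < σ := hs.trans hst
  have hτ : 0 < s * (σ - s) / σ := div_pos (mul_pos hs (sub_pos.2 hst)) hσ
  have h1 : ∀ z, gam M i (σ - s) (ξ - z) * (gam M i s z * A) * M.w i 0 =
      (gam M i σ ξ * A * M.w i 0) * gam M i (s * (σ - s) / σ) (z - (s / σ) • ξ) := by
    intro z
    have := gam_mul (M := M) i hs hst ξ z
    calc _ = (gam M i (σ - s) (ξ - z) * gam M i s z) * (A * M.w i 0) := by ring
      _ = _ := by rw [this]; ring
  simp only [h1]
  rw [integral_const_mul, integral_sub_right_eq_self (fun z => gam M i (s * (σ - s) / σ) z)]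
  have h2 := gam_integral (M := M) i hτ
  calc _ = gam M i σ ξ * A * ((∫ v, gam M i (s * (σ - s) / σ) v) * M.w i 0) := by ring
    _ = _ := by rw [h2, mul_one]

/-- time-space convolution of frozen Gaussians -/
theorem star_gam (i : ι) {σ : ℝ} (hσ : 0 < σ) (ξ : E4) (A : ℝ) :
    ∫ s in Ioo 0 σ, ∫ z, gam M i (σ - s) (ξ - z) * (gam M i s z * A) * M.w i 0 =
      σ * (gam M i σ ξ * A) := by
  rw [setIntegral_congr_fun measurableSet_Ioo
    (g := fun _ => gam M i σ ξ * A) (fun s hs => conv0 i hs.1 hs.2 ξ A)]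
  rw [setIntegral_const, Measure.real, Real.volume_Ioo, sub_zero, ENNReal.toReal_ofReal hσ.le,
    smul_eq_mul]

theorem star_gam' (i : ι) {σ : ℝ} (hσ : 0 < σ) (ξ : E4) (A : ℝ) :
    ∫ s in Ioo 0 σ, ∫ z, gam M i (σ - s) (ξ - z) * (s * (gam M i s z * A)) * M.w i 0 =
      σ ^ 2 / 2 * (gam M i σ ξ * A) := by
  rw [setIntegral_congr_fun measurableSet_Ioo
    (g := fun s => s * (gam M i σ ξ * A)) (fun s hs => ?_)]
  · rw [integral_mul_const, ← integral_Ioc_eq_integral_Ioo,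
      ← intervalIntegral.integral_of_le hσ.le, integral_id]
    ring
  · have h := conv0 (M := M) i hs.1 hs.2 ξ (s * A)
    simp only
    calc _ = ∫ z, gam M i (σ - s) (ξ - z) * (gam M i s z * (s * A)) * M.w i 0 := by
          refine integral_congr_ae (Eventually.of_forall fun z => ?_)
          ring
      _ = _ := by rw [h]; ring

/-- shifted second moments -/
theorem moment_shift (i : ι) {τ : ℝ} (hτ : 0 < τ) (u : E4) (k m : Fin 4) :
    Integrable (fun v : E4 => (v k + u k) * (v m + u m) * gam M i τ v) ∧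
    (∫ v : E4, (v k + u k) * (v m + u m) * gam M i τ v) * M.w i 0 =
      2 * τ * M.h i k m 0 + u k * u m := by
  have i1 := coord2_integrable (M := M) i hτ k m
  have i2 := coord_integrable (M := M) i hτ k
  have i3 := coord_integrable (M := M) i hτ m
  have i4 := gam_integrable (M := M) i hτ
  have h1 : ∀ v : E4, (v k + u k) * (v m + u m) * gam M i τ v =
      v k * v m * gam M i τ v + (u m * (v k * gam M i τ v) + (u k * (v m * gam M i τ v) +
        u k * u m * gam M i τ v)) := fun v => by ring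
  have j4 := i4.const_mul (u k * u m)
  have j3 := (i3.const_mul (u k)).add j4
  have j2 := (i2.const_mul (u m)).add j3
  simp only [h1]
  refine ⟨i1.add j2, ?_⟩
  have e3 := integral_add (i3.const_mul (u k)) j4
  have e2 := integral_add (i2.const_mul (u m)) j3
  have e1 := integral_add i1 j2
  simp only [Pi.add_apply] at e1 e2 e3
  rw [e1, e2, e3, integral_const_mul, integral_const_mul, integral_const_mul, gam_odd, gam_odd,
    mul_zero, mul_zero, zero_add, zero_add, add_mul, gam_moment i hτ]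
  have h2 := gam_integral (M := M) i hτ
  calc _ = 2 * τ * M.h i k m 0 + u k * u m * ((∫ v, gam M i τ v) * M.w i 0) := by ring
    _ = _ := by rw [h2, mul_one]

variable (q : Fin 4 → Fin 4 → ℝ)

/-- quadratic form with coefficients `q` -/
def Qf (v : E4) : ℝ := ∑ l, ∑ m, q l m * (v l * v m)

theorem Qf_cont : Continuous (Qf q) := by unfold Qf; fun_prop

theorem Qf_shift (i : ι) {τ : ℝ} (hτ : 0 < τ) (u : E4) :
    Integrable (fun v : E4 => Qf q (v + u) * gam M i τ v) ∧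
    (∫ v : E4, Qf q (v + u) * gam M i τ v) * M.w i 0 =
      2 * τ * (∑ l, ∑ m, q l m * M.h i l m 0) + Qf q u := by
  have h1 : ∀ v : E4, Qf q (v + u) * gam M i τ v =
      ∑ l, ∑ m, q l m * ((v l + u l) * (v m + u m) * gam M i τ v) := by
    intro v
    unfold Qf
    simp only [Finset.sum_mul, PiLp.add_apply]
    refine Finset.sum_congr rfl fun l _ => Finset.sum_congr rfl fun m _ => ?_
    ring
  have hi : ∀ l m, Integrable fun v : E4 => q l m * ((v l + u l) * (v m + u m) * gam M i τ v) :=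
    fun l m => ((moment_shift i hτ u l m).1).const_mul _
  simp only [h1]
  refine ⟨integrable_finsetSum _ fun l _ => integrable_finsetSum _ fun m _ => hi l m, ?_⟩
  rw [integral_finsetSum _ fun l _ => integrable_finsetSum _ fun m _ => hi l m, Finset.sum_mul]
  unfold Qf
  rw [Finset.mul_sum, ← Finset.sum_add_distrib]
  refine Finset.sum_congr rfl fun l _ => ?_
  rw [integral_finsetSum _ fun m _ => hi l m, Finset.sum_mul, Finset.mul_sum,
    ← Finset.sum_add_distrib]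
  refine Finset.sum_congr rfl fun m _ => ?_
  rw [integral_const_mul, mul_assoc, (moment_shift i hτ u l m).2]
  ring

theorem Qf_smul (c : ℝ) (v : E4) : Qf q (c • v) = c ^ 2 * Qf q v := by
  unfold Qf
  rw [Finset.mul_sum]
  refine Finset.sum_congr rfl fun l _ => ?_
  rw [Finset.mul_sum]
  refine Finset.sum_congr rfl fun m _ => ?_
  simp only [PiLp.smul_apply, smul_eq_mul]
  ring

theorem convQ (i : ι) {s : ℝ} (hs : 0 < s) (hst : s < 1) (ξ : E4) :
    ∫ z, gam M i (1 - s) (ξ - z) * (gam M i s z * Qf q z) * M.w i 0 =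
      gam M i 1 ξ * (s ^ 2 * Qf q ξ + 2 * (s * (1 - s)) * ∑ l, ∑ m, q l m * M.h i l m 0) := by
  have hτ : 0 < s * (1 - s) / 1 := div_pos (mul_pos hs (sub_pos.2 hst)) one_pos
  have h1 : ∀ z, gam M i (1 - s) (ξ - z) * (gam M i s z * Qf q z) * M.w i 0 =
      (gam M i 1 ξ * M.w i 0) * (Qf q ((z - (s / 1) • ξ) + (s / 1) • ξ) *
        gam M i (s * (1 - s) / 1) (z - (s / 1) • ξ)) := by
    intro z
    have := gam_mul (M := M) i hs hst ξ z
    rw [sub_add_cancel]
    calc _ = (gam M i (1 - s) (ξ - z) * gam M i s z) * (Qf q z * M.w i 0) := by ring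
      _ = _ := by rw [this]; ring
  simp only [h1]
  rw [integral_const_mul, integral_sub_right_eq_self (fun z => Qf q (z + (s / 1) • ξ) *
    gam M i (s * (1 - s) / 1) z)]
  have h2 := (Qf_shift (M := M) q i hτ ((s / 1) • ξ)).2
  rw [Qf_smul] at h2
  calc _ = gam M i 1 ξ * ((∫ v, Qf q (v + (s / 1) • ξ) * gam M i (s * (1 - s) / 1) v) *
        M.w i 0) := by ring
    _ = _ := by rw [h2, div_one, div_one]; ring

theorem star_Q (i : ι) (ξ : E4) :
    ∫ s in Ioo 0 1, ∫ z, gam M i (1 - s) (ξ - z) * (gam M i s z * Qf q z) * M.w i 0 =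
      gam M i 1 ξ * ((1 / 3) * (Qf q ξ + ∑ l, ∑ m, q l m * M.h i l m 0)) := by
  rw [setIntegral_congr_fun measurableSet_Ioo
    (g := fun s => gam M i 1 ξ * (s ^ 2 * Qf q ξ + 2 * (s * (1 - s)) *
      ∑ l, ∑ m, q l m * M.h i l m 0)) (fun s hs => convQ q i hs.1 hs.2 ξ)]
  set T : ℝ := ∑ l, ∑ m, q l m * M.h i l m 0
  rw [integral_const_mul, ← integral_Ioc_eq_integral_Ioo,
    ← intervalIntegral.integral_of_le zero_le_one]
  congr 1
  have h1 : ∀ s : ℝ, s ^ 2 * Qf q ξ + 2 * (s * (1 - s)) * T = s ^ 2 * (Qf q ξ - 2 * T) + s * (2 * T) :=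
    fun s => by ring
  simp only [h1]
  rw [intervalIntegral.integral_add (by apply Continuous.intervalIntegrable; fun_prop)
    (by apply Continuous.intervalIntegrable; fun_prop), intervalIntegral.integral_mul_const,
    intervalIntegral.integral_mul_const, integral_pow, integral_id]
  norm_num
  ring

/-- value of the limit of `m1` -/
theorem m1_value (i : ι) :
    ∫ x, gam M i 1 x * (∫ s in Ioo 0 1, ∫ z, gam M i (1 - s) (x - z) *
      (gam M i s z * Qf q z) * M.w i 0) * M.w i 0 =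
      1 / (96 * Real.pi ^ 2) * ∑ l, ∑ m, q l m * M.h i l m 0 := by
  have hh : (0 : ℝ) < 1 / 2 := by norm_num
  set T : ℝ := ∑ l, ∑ m, q l m * M.h i l m 0 with hT
  have h1 : ∀ x, gam M i 1 x * (∫ s in Ioo 0 1, ∫ z, gam M i (1 - s) (x - z) *
      (gam M i s z * Qf q z) * M.w i 0) * M.w i 0 =
      (64 * Real.pi ^ 2)⁻¹ * (1 / 3) * M.w i 0 * (Qf q (x + 0) * gam M i (1 / 2) x +
        T * gam M i (1 / 2) x) := by
    intro x
    rw [star_Q, add_zero]
    have h2 := gam_sq (M := M) i x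
    calc _ = (gam M i 1 x * gam M i 1 x) * ((1 / 3) * (Qf q x + T) * M.w i 0) := by
          rw [← hT]; ring
      _ = _ := by rw [h2]; ring
  simp only [h1]
  have h3 := Qf_shift (M := M) q i hh 0
  have h4 : Qf q 0 = 0 := by unfold Qf; simp
  rw [integral_const_mul, integral_add h3.1 ((gam_integrable i hh).const_mul T),
    integral_const_mul]
  have h5 := gam_integral (M := M) i hh
  have h6 := h3.2
  rw [h4, add_zero, ← hT] at h6
  calc _ = (64 * Real.pi ^ 2)⁻¹ * (1 / 3) * ((∫ v, Qf q (v + 0) * gam M i (1 / 2) v) * M.w i 0 +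
        T * ((∫ v, gam M i (1 / 2) v) * M.w i 0)) := by ring
    _ = _ := by
      rw [h5, h6]
      have := Real.pi_pos
      field_simp
      ring

theorem sq_value (i : ι) (A : ℝ) :
    ∫ x, gam M i 1 x * (gam M i 1 x * A) * M.w i 0 = 1 / (64 * Real.pi ^ 2) * A := by
  have hh : (0 : ℝ) < 1 / 2 := by norm_num
  have h1 : ∀ x, gam M i 1 x * (gam M i 1 x * A) * M.w i 0 =
      (64 * Real.pi ^ 2)⁻¹ * A * M.w i 0 * gam M i (1 / 2) x := by
    intro x
    have h2 := gam_sq (M := M) i x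
    calc _ = (gam M i 1 x * gam M i 1 x) * (A * M.w i 0) := by ring
      _ = _ := by rw [h2]; ring
  simp only [h1]
  rw [integral_const_mul]
  have h5 := gam_integral (M := M) i hh
  calc _ = (64 * Real.pi ^ 2)⁻¹ * A * ((∫ v, gam M i (1 / 2) v) * M.w i 0) := by ring
    _ = _ := by rw [h5]; ring

end lims

end Crest.Agent.R249.HKLim_274
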