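import Crest.Agent.R249.HK1b_654
import Crest.Agent.R249.HKLim5_274
import Crest.Agent.R249.HK2C_352_Mg
import Crest.Agent.R249.Gau1_654
import Crest.Agent.R249.HK1a_654
import Crest.Agent.R249.HKCal_286
import Crest.Agent.R249.HKCmp_286
import Crest.Agent.R249.HK9f_714

-- ▼ part R249/HK1_654
section

set_option autoImplicit false

open MeasureTheory Filter Topology Set
open scoped RealInnerProductSpace

noncomputable section

namespace Crest.Agent.R249.HK1_654

open Crest.Agent.R249.HK286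

variable {ι : Type*} {M : Met ι}

theorem star0_add_right {K : ι → ℝ → E4 → E4 → ℝ} {f g : ι → ℝ → E4 → ℝ} (hK : KW K)
    (hf : VB 0 f) (hg : VB 0 g) (i : ι) (t : ℝ) (ht : t ∈ Ioc (0 : ℝ) 1) (x : E4) :
    M.star0 K (fun i t x => f i t x + g i t x) i t x = M.star0 K f i t x + M.star0 K g i t x := by
  unfold Met.star0
  rw [← integral_add (outer_integrable le_rfl hK hf i ht x) (outer_integrable le_rfl hK hg i ht x)]
  refine setIntegral_congr_fun measurableSet_Ioo fun s hs => ?_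
  show ∫ z, K i (t - s) x z * (f i s z + g i s z) * M.w i z = _
  rw [← integral_add (inner_integrable hK hf i ht hs x) (inner_integrable hK hg i ht hs x)]
  refine integral_congr_ae (Eventually.of_forall fun z => ?_)
  simp only []
  ring

theorem star0_add_left {K K' : ι → ℝ → E4 → E4 → ℝ} {f : ι → ℝ → E4 → ℝ} (hK : KW K) (hK' : KW K')
    (hf : VB 0 f) (i : ι) (t : ℝ) (ht : t ∈ Ioc (0 : ℝ) 1) (x : E4) :
    M.star0 (fun i t x z => K i t x z + K' i t x z) f i t x
      = M.star0 K f i t x + M.star0 K' f i t x := by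
  unfold Met.star0
  rw [← integral_add (outer_integrable le_rfl hK hf i ht x) (outer_integrable le_rfl hK' hf i ht x)]
  refine setIntegral_congr_fun measurableSet_Ioo fun s hs => ?_
  show ∫ z, (K i (t - s) x z + K' i (t - s) x z) * f i s z * M.w i z = _
  rw [← integral_add (inner_integrable hK hf i ht hs x) (inner_integrable hK' hf i ht hs x)]
  refine integral_congr_ae (Eventually.of_forall fun z => ?_)
  simp only []
  ring

theorem star_eq {κ : Type*} [Fintype κ] {a : ℝ} (ha : 0 ≤ a) {K : ι → ℝ → E4 → E4 → κ → κ → ℝ}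
    {f : ι → ℝ → E4 → κ → κ → ℝ}
    (hK : ∀ p r, KW fun i t x z => K i t x z p r) (hf : ∀ r q, VB a fun i t x => f i t x r q)
    (i : ι) (t : ℝ) (ht : t ∈ Ioc (0 : ℝ) 1) (x : E4) (p q : κ) :
    M.star K f i t x p q
      = ∑ r, M.star0 (fun i t x z => K i t x z p r) (fun i t x => f i t x r q) i t x := by
  unfold Met.star Met.star0
  rw [← integral_finsetSum _ fun r _ => outer_integrable ha (hK p r) (hf r q) i ht x]
  refine setIntegral_congr_fun measurableSet_Ioo fun s hs => ?_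
  show ∫ z, (∑ r, K i (t - s) x z p r * f i s z r q) * M.w i z = _
  rw [← integral_finsetSum _ fun r _ => inner_integrable (hK p r) (hf r q) i ht hs x]
  refine integral_congr_ae (Eventually.of_forall fun z => ?_)
  simp only [Finset.sum_mul]

theorem meas_star {κ : Type*} [Fintype κ] {K : ι → ℝ → E4 → E4 → κ → κ → ℝ}
    {f : ι → ℝ → E4 → κ → κ → ℝ}
    (hK : ∀ i p r, Measurable fun z : ℝ × E4 × E4 => K i z.1 z.2.1 z.2.2 p r)
    (hf : ∀ i r q, Measurable fun z : ℝ × E4 => f i z.1 z.2 r q) (i : ι) (p q : κ) :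
    Measurable fun z : ℝ × E4 => M.star K f i z.1 z.2 p q := by
  have h0 : Measurable fun z : ((ℝ × E4) × ℝ) × E4 =>
      (∑ r, K i (z.1.1.1 - z.1.2) z.1.1.2 z.2 p r * f i z.1.2 z.2 r q) * M.w i z.2 := by
    refine Measurable.mul ?_ ((w_cont M i).measurable.comp measurable_snd)
    refine Finset.measurable_fun_sum _ fun r _ => ?_
    refine Measurable.mul ?_ ?_
    · have h1 : Measurable fun z : ((ℝ × E4) × ℝ) × E4 =>
          ((z.1.1.1 - z.1.2, z.1.1.2, z.2) : ℝ × E4 × E4) := by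
        fun_prop
      exact (hK i p r).comp h1
    · have h1 : Measurable fun z : ((ℝ × E4) × ℝ) × E4 => ((z.1.2, z.2) : ℝ × E4) := by
        fun_prop
      exact (hf i r q).comp h1
  have h := h0.stronglyMeasurable.integral_prod_right' (ν := (volume : Measure E4))
  have hS : MeasurableSet {z : (ℝ × E4) × ℝ | 0 < z.2 ∧ z.2 < z.1.1} :=
    (measurableSet_lt measurable_const measurable_snd).inter
      (measurableSet_lt measurable_snd (measurable_fst.comp measurable_fst))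
  have h2 := (h.indicator hS).integral_prod_right' (ν := (volume : Measure ℝ))
  have h3 : (fun z : ℝ × E4 => M.star K f i z.1 z.2 p q) = fun z : ℝ × E4 => ∫ s : ℝ,
      ({z : (ℝ × E4) × ℝ | 0 < z.2 ∧ z.2 < z.1.1}.indicator (fun z : (ℝ × E4) × ℝ =>
        ∫ y : E4, (∑ r, K i (z.1.1 - z.2) z.1.2 y p r * f i z.2 y r q) * M.w i y)) (z, s) := by
    ext z
    unfold Met.star
    rw [← integral_indicator measurableSet_Ioo]
    refine integral_congr_ae (Eventually.of_forall fun s => ?_)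
    by_cases hs : s ∈ Ioo 0 z.1
    · have hs' : (z, s) ∈ {z : (ℝ × E4) × ℝ | 0 < z.2 ∧ z.2 < z.1.1} := hs
      show (Ioo 0 z.1).indicator _ s = indicator _ _ (z, s)
      rw [indicator_of_mem hs, indicator_of_mem hs']
    · have hs' : (z, s) ∉ {z : (ℝ × E4) × ℝ | 0 < z.2 ∧ z.2 < z.1.1} := hs
      show (Ioo 0 z.1).indicator _ s = indicator _ _ (z, s)
      rw [indicator_of_notMem hs, indicator_of_notMem hs']
  rw [h3]
  exact h2.measurable

theorem vb_zero (a : ℝ) : VB a (fun (_ : ι) (_ : ℝ) (_ : E4) => (0 : ℝ)) := by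
  refine ⟨fun i => measurable_const, 0, 1, le_rfl, one_pos, fun i t ht x => ?_⟩
  simp

theorem vb_sum {κ : Type*} (s : Finset κ) {a : ℝ} {f : κ → ι → ℝ → E4 → ℝ}
    (hf : ∀ r ∈ s, VB a (f r)) : VB a (fun i t x => ∑ r ∈ s, f r i t x) := by
  classical
  induction s using Finset.induction_on with
  | empty => simpa using vb_zero a
  | insert r s hr ih =>
    have h1 := vb_add (hf r (Finset.mem_insert_self r s))
      (ih fun r' hr' => hf r' (Finset.mem_insert_of_mem hr'))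
    simpa [Finset.sum_insert hr] using h1

theorem star_vb {κ : Type*} [Fintype κ] {a : ℝ} (ha : 0 ≤ a) {K : ι → ℝ → E4 → E4 → κ → κ → ℝ}
    {f : ι → ℝ → E4 → κ → κ → ℝ}
    (hK : ∀ p r, KW fun i t x z => K i t x z p r) (hf : ∀ r q, VB a fun i t x => f i t x r q)
    (p q : κ) : VB (a + 1) fun i t x => M.star K f i t x p q := by
  obtain ⟨_, C, c, hC, hc, h⟩ := vb_sum (Finset.univ : Finset κ)
    (f := fun r => M.star0 (fun i t x z => K i t x z p r) (fun i t x => f i t x r q))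
    fun r _ => star0_vb (M := M) ha (hK p r) (hf r q)
  refine ⟨fun i => meas_star (fun i p r => (hK p r).1 i) (fun i r q => (hf r q).1 i) i p q,
    C, c, hC, hc, fun i t ht x => ?_⟩
  show |M.star K f i t x p q| ≤ _
  rw [star_eq ha hK hf i t ht x p q]
  exact h i t ht x

theorem int_mul {a b : ℝ} {f g : ι → ℝ → E4 → ℝ} (hf : VB a f) (hg : VB b g) :
    (∀ i, ∀ t ∈ Ioc (0 : ℝ) 1, Integrable fun x => f i t x * g i t x * M.w i x) ∧
    ∃ C : ℝ, ∀ i, ∀ t ∈ Ioc (0 : ℝ) 1,
      |∫ x, f i t x * g i t x * M.w i x| ≤ C * t ^ (a + b - 2) := by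
  obtain ⟨hfm, C1, c1, hC1, hc1, h1⟩ := hf
  obtain ⟨hgm, C2, c2, hC2, hc2, h2⟩ := hg
  obtain ⟨W, hW, hWb⟩ := w_bound M
  have hb : ∀ i, ∀ t ∈ Ioc (0 : ℝ) 1, ∀ x, ‖f i t x * g i t x * M.w i x‖
      ≤ (C1 * C2 * W * t ^ (a + b - 2)) * Gam c1 t x := by
    intro i t ht x
    have ht0 : 0 < t := ht.1
    have hta : 0 ≤ t ^ a := Real.rpow_nonneg ht0.le _
    have htb : 0 ≤ t ^ b := Real.rpow_nonneg ht0.le _
    have hG1 := Gam_nonneg c1 t x
    have hG2 : Gam c2 t x ≤ (t ^ 2)⁻¹ := by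
      unfold Gam
      have : Real.exp (-(c2 * ‖x‖ ^ 2 / t)) ≤ 1 := by
        rw [Real.exp_le_one_iff]
        have : 0 ≤ c2 * ‖x‖ ^ 2 / t := by positivity
        linarith
      calc (t ^ 2)⁻¹ * Real.exp (-(c2 * ‖x‖ ^ 2 / t)) ≤ (t ^ 2)⁻¹ * 1 :=
            mul_le_mul_of_nonneg_left this (by positivity)
        _ = _ := mul_one _
    have h3 : t ^ (a + b - 2) = t ^ a * t ^ b * (t ^ 2)⁻¹ := by
      rw [Real.rpow_sub ht0, Real.rpow_add ht0]
      rw [div_eq_mul_inv]
      norm_num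
    rw [Real.norm_eq_abs, abs_mul, abs_mul, h3]
    calc |f i t x| * |g i t x| * |M.w i x|
        ≤ (C1 * t ^ a * Gam c1 t x) * (C2 * t ^ b * (t ^ 2)⁻¹) * W := by
          refine mul_le_mul (mul_le_mul (h1 i t ht x) ((h2 i t ht x).trans ?_) (abs_nonneg _) ?_)
            (hWb i x) (abs_nonneg _) ?_
          · exact mul_le_mul_of_nonneg_left hG2 (by positivity)
          · positivity
          · positivity
      _ = _ := by ring
  have hmeas : ∀ i t, Measurable fun x => f i t x * g i t x * M.w i x := by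
    intro i t
    exact (((hfm i).comp (measurable_prodMk_left (x := t))).mul
      ((hgm i).comp (measurable_prodMk_left (x := t)))).mul (w_cont M i).measurable
  refine ⟨fun i t ht => ?_, C1 * C2 * W * (Real.pi / c1) ^ 2, fun i t ht => ?_⟩
  · exact ((integrable_Gam hc1 ht.1).const_mul _).mono' (hmeas i t).aestronglyMeasurable
      (Eventually.of_forall fun x => hb i t ht x)
  · have h4 := norm_integral_le_of_norm_le (f := fun x => f i t x * g i t x * M.w i x)
      ((integrable_Gam hc1 ht.1).const_mul (C1 * C2 * W * t ^ (a + b - 2)))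
      (Eventually.of_forall fun x => hb i t ht x)
    rw [Real.norm_eq_abs] at h4
    refine h4.trans (le_of_eq ?_)
    rw [integral_const_mul, integral_Gam hc1 ht.1]
    ring

/-- **HK1** -/
theorem cal (M : Met ι) : Cal M where
  vb_mono _ _ _ h hf := vb_mono h hf
  vb_add _ _ _ hf hg := vb_add hf hg
  vb_smul _ C _ hf := vb_smul C hf
  vb_mul _ _ _ _ hφm hφ hf := vb_mul hφm hφ hf
  kb_kw _ hK := kb_kw hK
  kw_add _ _ hK hK' := kw_add hK hK'
  kw_mul _ _ hφm hφ hK := kw_mul hφm hφ hK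
  star0_vb _ _ _ ha hK hf := star0_vb ha hK hf
  star0_add_right _ _ _ hK hf hg i t ht x := star0_add_right hK hf hg i t ht x
  star0_add_left _ _ _ hK hK' hf i t ht x := star0_add_left hK hK' hf i t ht x
  star_eq _ _ hK hf i t ht x p q := star_eq le_rfl hK hf i t ht x p q
  star_vb _ _ _ ha hK hf p q := star_vb ha hK hf p q
  int_mul _ _ _ _ _ _ hf hg := int_mul hf hg

end Crest.Agent.R249.HK1_654
end
end

-- ▼ part R249/HKLim6_274
section

/-!
# R249, PART C, leaf HK7 (helper274), part 6: `LimStmt`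
-/

set_option autoImplicit false
open scoped ContDiff
open MeasureTheory Set Metric Filter Topology
open Crest.Agent.R249.HK286

noncomputable section

namespace Crest.Agent.R249.HKLim_274

variable {ι : Type*} {M : Met ι} {κ : Type*} [Fintype κ] [DecidableEq κ] {R : ℝ}

/-! ### the function `tr aa` -/

/-- coefficients of the leading part of `tr aa` -/
def qc (D : Con M κ) (i : ι) (l m : Fin 4) : ℝ :=
  ∑ j, ∑ k, M.h i j k 0 * ∑ p, ∑ q, pd l (D.a i j p q) 0 * pd m (D.a i k q p) 0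

theorem QF_aa (D : Con M κ) :
    QF (fun i z => ∑ p, D.aa i z p p) (fun i z => Qf (qc D i) z) := by
  have h1 : QF (fun i z => ∑ p, D.aa i z p p) (fun i x => ∑ p, ∑ j, ∑ k, M.h i j k 0 *
      ∑ r, (∑ l, pd l (D.a i j p r) 0 * x l) * ∑ m, pd m (D.a i k r p) 0 * x m) := by
    unfold Con.aa
    refine QF.sum _ fun p _ => QF.sum _ fun j _ => QF.sum _ fun k _ => ?_
    refine QF.ub_mul ?_ (M.ubh j k)
    refine QF.sum _ fun r _ => ?_
    exact QF.of_lin (D.uba j p r) (fun i => D.azero i j p r) (D.uba k r p)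
      (fun i => D.azero i k r p)
  have h2 : (fun i x => ∑ p, ∑ j, ∑ k, M.h i j k 0 *
      ∑ r, (∑ l, pd l (D.a i j p r) 0 * x l) * ∑ m, pd m (D.a i k r p) 0 * x m) =
      (fun (i : ι) (z : E4) => Qf (qc D i) z) := by
    funext i x
    unfold Qf qc
    simp only [Finset.mul_sum, Finset.sum_mul]
    -- left: p j k r m l ; right: l m j k p q
    calc ∑ p, ∑ j, ∑ k, ∑ r, ∑ m, ∑ l,
          M.h i j k 0 * (pd l (D.a i j p r) 0 * x l * (pd m (D.a i k r p) 0 * x m))
        = ∑ p, ∑ j, ∑ k, ∑ r, ∑ l, ∑ m,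
          M.h i j k 0 * (pd l (D.a i j p r) 0 * pd m (D.a i k r p) 0) * (x l * x m) := by
          refine Finset.sum_congr rfl fun p _ => Finset.sum_congr rfl fun j _ =>
            Finset.sum_congr rfl fun k _ => Finset.sum_congr rfl fun r _ => ?_
          rw [Finset.sum_comm]
          refine Finset.sum_congr rfl fun l _ => Finset.sum_congr rfl fun m _ => ?_
          ring
      _ = ∑ l, ∑ m, ∑ p, ∑ j, ∑ k, ∑ r,
          M.h i j k 0 * (pd l (D.a i j p r) 0 * pd m (D.a i k r p) 0) * (x l * x m) := by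
          have e1 : ∀ p j k, (∑ r, ∑ l, ∑ m,
              M.h i j k 0 * (pd l (D.a i j p r) 0 * pd m (D.a i k r p) 0) * (x l * x m)) =
              ∑ l, ∑ m, ∑ r,
              M.h i j k 0 * (pd l (D.a i j p r) 0 * pd m (D.a i k r p) 0) * (x l * x m) := by
            intro p j k
            rw [Finset.sum_comm]
            exact Finset.sum_congr rfl fun l _ => Finset.sum_comm
          have e2 : ∀ p j, (∑ k, ∑ r, ∑ l, ∑ m,
              M.h i j k 0 * (pd l (D.a i j p r) 0 * pd m (D.a i k r p) 0) * (x l * x m)) =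
              ∑ l, ∑ m, ∑ k, ∑ r,
              M.h i j k 0 * (pd l (D.a i j p r) 0 * pd m (D.a i k r p) 0) * (x l * x m) := by
            intro p j
            simp only [e1]
            rw [Finset.sum_comm]
            exact Finset.sum_congr rfl fun l _ => Finset.sum_comm
          have e3 : ∀ p, (∑ j, ∑ k, ∑ r, ∑ l, ∑ m,
              M.h i j k 0 * (pd l (D.a i j p r) 0 * pd m (D.a i k r p) 0) * (x l * x m)) =
              ∑ l, ∑ m, ∑ j, ∑ k, ∑ r,
              M.h i j k 0 * (pd l (D.a i j p r) 0 * pd m (D.a i k r p) 0) * (x l * x m) := by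
            intro p
            simp only [e2]
            rw [Finset.sum_comm]
            exact Finset.sum_congr rfl fun l _ => Finset.sum_comm
          simp only [e3]
          rw [Finset.sum_comm]
          exact Finset.sum_congr rfl fun l _ => Finset.sum_comm
      _ = ∑ l, ∑ m, ∑ j, ∑ k, ∑ p, ∑ r,
          M.h i j k 0 * (pd l (D.a i j p r) 0 * pd m (D.a i k r p) 0) * (x l * x m) := by
          refine Finset.sum_congr rfl fun l _ => Finset.sum_congr rfl fun m _ => ?_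
          rw [Finset.sum_comm]
          exact Finset.sum_congr rfl fun j _ => Finset.sum_comm
  rw [h2] at h1
  exact h1

/-! ### `m1` -/

theorem SI_m1 (c : Cut R) (D : Con M κ) :
    SI (fun i t x => M.HH c 1 i t x 0 *
      M.star0 (M.HH c 2) (fun i t z => M.HH c 1 i t z 0 * ∑ p, D.aa i z p p) i t x)
      (fun i x => gam M i 1 x * ∫ s in Ioo 0 1, ∫ z, gam M i (1 - s) (x - z) *
        (gam M i s z * Qf (qc D i) z) * M.w i 0) := by
  have h1 : SF (0 + 1) (fun i t z => M.HH c 1 i t z 0 * ∑ p, D.aa i z p p)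
      (fun i σ ξ => gam M i σ ξ * Qf (qc D i) ξ) := by
    have hq := QF_aa D
    obtain ⟨B, hB, hb⟩ := hq.bd
    exact (SF_HH c 1).mul_quad (fun i => (hq.cont i).measurable) hB hb hq.lim
  have h2 := SF.star0 (M := M) (SK_HH (M := M) c 2) h1
  exact (SF_HH c 1).mul h2 rfl

/-! ### `m3` -/

theorem SF_m3 (c : Cut R) (m m' : ℕ) (D : Con M κ) (p q : κ) :
    SF (0 + 1) (M.star (sc (M.HH c m)) (fun i t z p q => M.HH c m' i t z 0 * D.P i p q z) · · · p q)
      (fun i σ ξ => σ * (gam M i σ ξ * D.P i p q 0)) := by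
  have h1 : SF 0 (fun i t z => M.HH c m' i t z 0 * D.P i p q z)
      (fun i σ ξ => gam M i σ ξ * D.P i p q 0) := (SF_HH c m').mul_ub (D.ubP p q)
  have h2 := SF.star0 (M := M) (SK_HH (M := M) c m) h1
  have h3 : (fun i t x => M.star (sc (M.HH c m))
      (fun i t z p q => M.HH c m' i t z 0 * D.P i p q z) i t x p q) =
      M.star0 (M.HH c m) (fun i t z => M.HH c m' i t z 0 * D.P i p q z) := by
    funext i t x
    exact star_sc _ _ i t x p q
  show SF (0 + 1) (fun i t x => M.star (sc (M.HH c m))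
      (fun i t z p q => M.HH c m' i t z 0 * D.P i p q z) i t x p q) _
  rw [h3]
  refine ⟨h2.meas, h2.bd, fun i σ hσ ξ => ?_⟩
  rw [← star_gam i hσ.1 ξ (D.P i p q 0)]
  exact h2.lim i σ hσ ξ

theorem SI_m3 (c : Cut R) (D : Con M κ) :
    SI (fun i t x => ∑ p, ∑ q, M.star (sc (M.HH c 2))
      (fun i t z p q => M.HH c 1 i t z 0 * D.P i p q z) i t x p q ^ 2)
      (fun i x => ∑ p, ∑ q, (1 * (gam M i 1 x * D.P i p q 0)) * (1 * (gam M i 1 x * D.P i p q 0))) := by
  refine SI.sum _ fun p _ => SI.sum _ fun q _ => ?_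
  have h := SF_m3 c 2 1 D p q
  have h1 := h.mul h rfl
  simp only [← sq] at h1 ⊢
  exact h1

/-! ### `m2` -/

theorem DK_HHP (c : Cut R) (m : ℕ) (D : Con M κ) (p q : κ) :
    DK fun i t x z => M.HH c m i t x z * D.P i p q x := by
  obtain ⟨c', hc', hb⟩ := HH_bd (M := M) c
  obtain ⟨B, hB, hb'⟩ := ub_bdd (D.ubP p q)
  refine ⟨fun i => (HH_meas c m i).mul ((ub_cont (D.ubP p q) i).measurable.comp
    (measurable_fst.comp measurable_snd)), B, c', hB, hc', fun i t ht x z => ?_⟩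
  rw [abs_mul, mul_comm]
  exact mul_le_mul (hb' i x) (hb m i t ht x z) (abs_nonneg _) hB

theorem DF_HHP (c : Cut R) (m : ℕ) (D : Con M κ) (p q : κ) :
    DF fun i t z => M.HH c m i t z 0 * D.P i p q z := by
  obtain ⟨c', hc', hb⟩ := HH_bd (M := M) c
  obtain ⟨B, hB, hb'⟩ := ub_bdd (D.ubP p q)
  refine ⟨fun i => ?_, B, c', hB, hc', fun i t ht x => ?_⟩
  · have h1 : Measurable fun z : ℝ × E4 => M.HH c m i z.1 z.2 0 :=
      (HH_meas c m i).comp (g := fun z : ℝ × E4 × E4 => M.HH c m i z.1 z.2.1 z.2.2)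
        (f := fun z : ℝ × E4 => (z.1, z.2, (0 : E4))) (by fun_prop)
    exact h1.mul ((ub_cont (D.ubP p q) i).measurable.comp measurable_snd)
  · rw [abs_mul, mul_comm]
    have := hb m i t ht x 0
    rw [sub_zero] at this
    exact mul_le_mul (hb' i x) this (abs_nonneg _) hB

/-- the inner convolution of `m2` -/
theorem SF_in (c : Cut R) (D : Con M κ) (p q : κ) :
    SF (0 + 1) (M.star (fun i t x z p q => M.HH c 2 i t x z * D.P i p q x)
      (fun i t z p q => M.HH c 1 i t z 0 * D.P i p q z) · · · p q)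
      (fun i σ ξ => σ * (gam M i σ ξ * ∑ r, D.P i p r 0 * D.P i r q 0)) := by
  have h0 : (fun i t x => M.star (fun i t x z p q => M.HH c 2 i t x z * D.P i p q x)
      (fun i t z p q => M.HH c 1 i t z 0 * D.P i p q z) i t x p q) =
      fun i t x => ∑ r, M.star0 (fun i t x z => M.HH c 2 i t x z * D.P i p r x)
        (fun i t z => M.HH c 1 i t z 0 * D.P i r q z) i t x := by
    funext i t x
    exact star_eq_sum (DK_HHP c 2 D) (DF_HHP c 1 D) i t x p q
  show SF (0 + 1) (fun i t x => M.star (fun i t x z p q => M.HH c 2 i t x z * D.P i p q x)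
      (fun i t z p q => M.HH c 1 i t z 0 * D.P i p q z) i t x p q) _
  rw [h0]
  have h1 : ∀ r, SF (0 + 1) (M.star0 (fun i t x z => M.HH c 2 i t x z * D.P i p r x)
        (fun i t z => M.HH c 1 i t z 0 * D.P i r q z))
      (fun i σ ξ => ∫ s in Ioo 0 σ, ∫ z, (gam M i (σ - s) (ξ - z) * D.P i p r 0) *
        (gam M i s z * D.P i r q 0) * M.w i 0) := fun r =>
    SF.star0 (M := M) ((SK_HH (M := M) c 2).mul_ub (D.ubP p r)) ((SF_HH c 1).mul_ub (D.ubP r q))
  have h2 := SF.sum Finset.univ fun r _ => h1 r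
  refine ⟨h2.meas, h2.bd, fun i σ hσ ξ => ?_⟩
  have h3 := h2.lim i σ hσ ξ
  have h4 : (∑ r, ∫ s in Ioo 0 σ, ∫ z, (gam M i (σ - s) (ξ - z) * D.P i p r 0) *
        (gam M i s z * D.P i r q 0) * M.w i 0) =
      σ * (gam M i σ ξ * ∑ r, D.P i p r 0 * D.P i r q 0) := by
    rw [Finset.mul_sum, Finset.mul_sum]
    refine Finset.sum_congr rfl fun r _ => ?_
    rw [← star_gam i hσ.1 ξ (D.P i p r 0 * D.P i r q 0)]
    refine integral_congr_ae (Eventually.of_forall fun s => ?_)
    refine integral_congr_ae (Eventually.of_forall fun z => ?_)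
    ring
  rw [h4] at h3
  exact h3

theorem SI_m2 (c : Cut R) (D : Con M κ) :
    SI (fun i t x => M.HH c 1 i t x 0 *
      (∑ p, M.star (sc (M.HH c 3)) (M.star (fun i t x z p q => M.HH c 2 i t x z * D.P i p q x)
        (fun i t z p q => M.HH c 1 i t z 0 * D.P i p q z)) i t x p p))
      (fun i x => gam M i 1 x * ∑ p, (1 ^ 2 / 2 * (gam M i 1 x *
        ∑ r, D.P i p r 0 * D.P i r p 0))) := by
  have h1 : ∀ p, SF (0 + 1 + 1) (fun i t x => M.star (sc (M.HH c 3))
      (M.star (fun i t x z p q => M.HH c 2 i t x z * D.P i p q x)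
        (fun i t z p q => M.HH c 1 i t z 0 * D.P i p q z)) i t x p p)
      (fun i σ ξ => σ ^ 2 / 2 * (gam M i σ ξ * ∑ r, D.P i p r 0 * D.P i r p 0)) := by
    intro p
    have h2 := SF.star0 (M := M) (SK_HH (M := M) c 3) (SF_in c D p p)
    have h3 : (fun i t x => M.star (sc (M.HH c 3))
      (M.star (fun i t x z p q => M.HH c 2 i t x z * D.P i p q x)
        (fun i t z p q => M.HH c 1 i t z 0 * D.P i p q z)) i t x p p) =
        M.star0 (M.HH c 3) (fun i t x =>
          M.star (fun i t x z p q => M.HH c 2 i t x z * D.P i p q x)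
            (fun i t z p q => M.HH c 1 i t z 0 * D.P i p q z) i t x p p) := by
      funext i t x
      exact star_sc _ _ i t x p p
    rw [h3]
    refine ⟨h2.meas, h2.bd, fun i σ hσ ξ => ?_⟩
    rw [← star_gam' i hσ.1 ξ (∑ r, D.P i p r 0 * D.P i r p 0)]
    exact h2.lim i σ hσ ξ
  exact (SF_HH c 1).mul (SF.sum Finset.univ fun p _ => h1 p) rfl

/-! ### the theorem -/

/-- **HK7.** -/
theorem limStmt (c : Cut R) (D : Con M κ) : LimStmt c D := by
  obtain ⟨⟨C₁, b1⟩, l1⟩ := (SI_m1 c D).integral M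
  obtain ⟨⟨C₂, b2⟩, l2⟩ := (SI_m2 c D).integral M
  obtain ⟨⟨C₃, b3⟩, l3⟩ := (SI_m3 c D).integral M
  refine ⟨⟨max C₁ (max C₂ C₃), fun i t ht => ⟨?_, ?_, ?_⟩⟩, fun i => ?_, fun i => ?_, fun i => ?_⟩
  · exact (b1 i t ht).trans (le_max_left _ _)
  · exact (b2 i t ht).trans ((le_max_left _ _).trans (le_max_right _ _))
  · exact (b3 i t ht).trans ((le_max_right _ _).trans (le_max_right _ _))
  · have h := l1 i
    rw [m1_value] at h
    have h2 : (∑ l, ∑ m, qc D i l m * M.h i l m 0) =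
        ∑ j, ∑ k, ∑ l, ∑ m, M.h i j k 0 * M.h i l m 0 *
          ∑ p, ∑ q, pd l (D.a i j p q) 0 * pd m (D.a i k q p) 0 := by
      unfold qc
      simp only [Finset.sum_mul]
      calc ∑ l, ∑ m, ∑ j, ∑ k, (M.h i j k 0 *
            ∑ p, ∑ q, pd l (D.a i j p q) 0 * pd m (D.a i k q p) 0) * M.h i l m 0
          = ∑ l, ∑ j, ∑ m, ∑ k, (M.h i j k 0 *
            ∑ p, ∑ q, pd l (D.a i j p q) 0 * pd m (D.a i k q p) 0) * M.h i l m 0 :=
            Finset.sum_congr rfl fun l _ => Finset.sum_comm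
        _ = ∑ j, ∑ l, ∑ m, ∑ k, (M.h i j k 0 *
            ∑ p, ∑ q, pd l (D.a i j p q) 0 * pd m (D.a i k q p) 0) * M.h i l m 0 :=
            Finset.sum_comm
        _ = ∑ j, ∑ k, ∑ l, ∑ m, M.h i j k 0 * M.h i l m 0 *
            ∑ p, ∑ q, pd l (D.a i j p q) 0 * pd m (D.a i k q p) 0 := by
            refine Finset.sum_congr rfl fun j _ => ?_
            calc ∑ l, ∑ m, ∑ k, (M.h i j k 0 *
                  ∑ p, ∑ q, pd l (D.a i j p q) 0 * pd m (D.a i k q p) 0) * M.h i l m 0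
                = ∑ l, ∑ k, ∑ m, (M.h i j k 0 *
                  ∑ p, ∑ q, pd l (D.a i j p q) 0 * pd m (D.a i k q p) 0) * M.h i l m 0 :=
                  Finset.sum_congr rfl fun l _ => Finset.sum_comm
              _ = ∑ k, ∑ l, ∑ m, (M.h i j k 0 *
                  ∑ p, ∑ q, pd l (D.a i j p q) 0 * pd m (D.a i k q p) 0) * M.h i l m 0 :=
                  Finset.sum_comm
              _ = _ := by
                  refine Finset.sum_congr rfl fun k _ => Finset.sum_congr rfl fun l _ =>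
                    Finset.sum_congr rfl fun m _ => ?_
                  ring
    rw [← h2]
    exact h
  · have h := l2 i
    have h3 : (∫ x, (gam M i 1 x * ∑ p, (1 ^ 2 / 2 * (gam M i 1 x *
        ∑ r, D.P i p r 0 * D.P i r p 0))) * M.w i 0) =
        1 / (128 * Real.pi ^ 2) * ∑ p, ∑ q, D.P i p q 0 * D.P i q p 0 := by
      have h4 : ∀ x, (gam M i 1 x * ∑ p, (1 ^ 2 / 2 * (gam M i 1 x *
          ∑ r, D.P i p r 0 * D.P i r p 0))) * M.w i 0 =
          gam M i 1 x * (gam M i 1 x * (1 / 2 * ∑ p, ∑ r, D.P i p r 0 * D.P i r p 0)) *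
            M.w i 0 := by
        intro x
        congr 1
        rw [Finset.mul_sum (Finset.univ) _ (1 / 2 : ℝ), Finset.mul_sum, Finset.mul_sum,
          Finset.mul_sum]
        refine Finset.sum_congr rfl fun p _ => ?_
        ring
      simp only [h4]
      rw [sq_value]
      ring
    rw [h3] at h
    exact h
  · have h := l3 i
    have h3 : (∫ x, (∑ p, ∑ q, (1 * (gam M i 1 x * D.P i p q 0)) *
        (1 * (gam M i 1 x * D.P i p q 0))) * M.w i 0) =
        1 / (64 * Real.pi ^ 2) * ∑ p, ∑ q, D.P i p q 0 * D.P i q p 0 := by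
      have h4 : ∀ x, (∑ p, ∑ q, (1 * (gam M i 1 x * D.P i p q 0)) *
          (1 * (gam M i 1 x * D.P i p q 0))) * M.w i 0 =
          gam M i 1 x * (gam M i 1 x * ∑ p, ∑ q, D.P i p q 0 * D.P i q p 0) * M.w i 0 := by
        intro x
        congr 1
        simp only [Finset.mul_sum]
        refine Finset.sum_congr rfl fun p _ => Finset.sum_congr rfl fun q _ => ?_
        rw [D.Psymm i q p 0]
        ring
      simp only [h4]
      rw [sq_value]
    rw [h3] at h
    exact h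

end Crest.Agent.R249.HKLim_274
end
end

-- ▼ part R249/HKFin_286
section

/-!
# Row 249, PART C (helper286): `MainStmt` and `ChartStmt` from HK2 (`InpM`) and HK5 (`CoreStmt`).
-/

set_option autoImplicit false
open scoped ContDiff Topology
open MeasureTheory Set Metric Filter

namespace Crest.Agent.R249.HK286
open Crest.Agent.R249.HK9_714 (ChartStmt)

theorem mainStmt_of2
    (hInpM : ∀ (ι : Type) (M : Met ι) (R : ℝ) (c : Cut R), 0 < R → InpM M c)
    (hCore : ∀ (ι : Type) (M : Met ι) (R : ℝ) (c : Cut R) (κ : Type) [Fintype κ] [DecidableEq κ]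
      (D : Con M κ), 0 < R → Cal M → InpM M c → InpD c D → CoreStmt c D) : MainStmt :=
  mainStmt_of (fun _ M => HK1_654.cal M) hInpM
    (fun ι M R c κ _ _ D hR => HK352.inpD c D (hInpM ι M R c hR))
    (fun ι M R c κ _ _ D hR => hCore ι M R c κ D hR (HK1_654.cal M) (hInpM ι M R c hR)
      (HK352.inpD c D (hInpM ι M R c hR)))
    (fun _ _ _ c _ _ _ D _ => HKLim_274.limStmt c D)

theorem chartStmt_of2
    (hInpM : ∀ (ι : Type) (M : Met ι) (R : ℝ) (c : Cut R), 0 < R → InpM M c)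
    (hCore : ∀ (ι : Type) (M : Met ι) (R : ℝ) (c : Cut R) (κ : Type) [Fintype κ] [DecidableEq κ]
      (D : Con M κ), 0 < R → Cal M → InpM M c → InpD c D → CoreStmt c D) : ChartStmt :=
  HK8_286.chartStmt (mainStmt_of2 hInpM hCore)

/-- everything except HK5 -/
theorem chartStmt_of_core
    (hCore : ∀ (ι : Type) (M : Met ι) (R : ℝ) (c : Cut R) (κ : Type) [Fintype κ] [DecidableEq κ]
      (D : Con M κ), 0 < R → Cal M → InpM M c → InpD c D → CoreStmt c D) : ChartStmt :=
  chartStmt_of2 (fun _ _ _ c _ => HK352.inpM c) hCore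

end Crest.Agent.R249.HK286
end

-- ▼ part R249/Gau2_654
section

set_option autoImplicit false

open MeasureTheory Filter Topology Set
open scoped RealInnerProductSpace

noncomputable section

namespace Crest.Agent.R249.Gau2_654

open Gau1_654

variable {n : ℕ}

local notation "𝔼" => EuclideanSpace ℝ (Fin n)

/-- the normalising constant `(4π)^(n/2)` -/
def gc (n : ℕ) : ℝ := (4 * Real.pi) ^ ((n : ℝ) / 2)

theorem gc_pos (n : ℕ) : 0 < gc n := Real.rpow_pos_of_pos (by positivity) _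

theorem gc_ne (n : ℕ) : gc n ≠ 0 := (gc_pos n).ne'

theorem integral_gauss : ∫ u : 𝔼, Real.exp (-‖u‖ ^ 2 / 4) = gc n := by
  have h := GaussianFourier.integral_rexp_neg_mul_sq_norm (V := 𝔼) (b := 1 / 4) (by norm_num)
  rw [finrank_euclideanSpace_fin] at h
  have h1 : (fun u : 𝔼 => Real.exp (-‖u‖ ^ 2 / 4)) = fun u : 𝔼 => Real.exp (-(1 / 4) * ‖u‖ ^ 2) := by
    ext u
    congr 1
    ring
  rw [h1, h, gc]
  congr 1
  ring

theorem hasFDerivAt_gauss (u : 𝔼) :
    HasFDerivAt (fun u : 𝔼 => Real.exp (-‖u‖ ^ 2 / 4))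
      (Real.exp (-‖u‖ ^ 2 / 4) • ((-(1 / 2 : ℝ)) • (innerSL ℝ u))) u := by
  have h1 : HasFDerivAt (fun u : 𝔼 => ‖u‖ ^ 2) (2 • (innerSL ℝ u)) u :=
    (hasStrictFDerivAt_norm_sq u).hasFDerivAt
  have h2 : HasFDerivAt (fun u : 𝔼 => -‖u‖ ^ 2 / 4) ((-(1 / 2 : ℝ)) • (innerSL ℝ u)) u := by
    have h3 := (h1.const_mul (-(1 / 4 : ℝ)))
    have h4 : (fun u : 𝔼 => -(1 / 4 : ℝ) * ‖u‖ ^ 2) = fun u : 𝔼 => -‖u‖ ^ 2 / 4 := by
      ext u; ring
    rw [h4] at h3
    have h5 : (-(1 / 4 : ℝ)) • (2 • (innerSL ℝ u)) = (-(1 / 2 : ℝ)) • (innerSL ℝ u) := by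
      rw [← Nat.cast_smul_eq_nsmul ℝ, smul_smul]
      norm_num
    rw [h5] at h3
    exact h3
  exact h2.exp

theorem exp_form (u : 𝔼) : Real.exp (-‖u‖ ^ 2 / 4) = Real.exp (-(1 / 4) * ‖u‖ ^ 2) := by
  congr 1; ring

theorem integrable_of_le {f : 𝔼 → ℝ} (hf : Continuous f) {K : ℝ} {m : ℕ}
    (h : ∀ u, |f u| ≤ K * ‖u‖ ^ m) :
    Integrable (fun u : 𝔼 => Real.exp (-‖u‖ ^ 2 / 4) * f u) := by
  refine ((integrable_pow_mul_gauss (n := n) m (b := 1 / 4) (by norm_num)).const_mul K).mono' ?_ ?_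
  · exact Continuous.aestronglyMeasurable (by fun_prop)
  · refine Eventually.of_forall fun u => ?_
    rw [norm_mul, Real.norm_eq_abs, Real.norm_eq_abs, Real.abs_exp, exp_form]
    calc Real.exp (-(1 / 4) * ‖u‖ ^ 2) * |f u| ≤ Real.exp (-(1 / 4) * ‖u‖ ^ 2) * (K * ‖u‖ ^ m) :=
          mul_le_mul_of_nonneg_left (h u) (Real.exp_pos _).le
      _ = K * (‖u‖ ^ m * Real.exp (-(1 / 4) * ‖u‖ ^ 2)) := by ring

theorem integral_gauss_inner (v w : 𝔼) :
    ∫ u : 𝔼, Real.exp (-‖u‖ ^ 2 / 4) * (⟪u, v⟫ * ⟪u, w⟫) = 2 * ⟪v, w⟫ * gc n := by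
  have hwd : ∀ u : 𝔼, HasFDerivAt (fun u : 𝔼 => ⟪u, w⟫) (innerSL ℝ w) u := by
    intro u
    have h1 := (innerSL ℝ w).hasFDerivAt (x := u)
    refine h1.congr_of_eventuallyEq (Eventually.of_forall fun z => ?_)
    simp [real_inner_comm]
  have hfd : ∀ u : 𝔼, fderiv ℝ (fun u : 𝔼 => ⟪u, w⟫) u v = ⟪v, w⟫ := by
    intro u
    rw [(hwd u).fderiv]
    simp [real_inner_comm]
  have hgd : ∀ u : 𝔼, fderiv ℝ (fun u : 𝔼 => Real.exp (-‖u‖ ^ 2 / 4)) u v
      = -(1 / 2) * (Real.exp (-‖u‖ ^ 2 / 4) * ⟪u, v⟫) := by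
    intro u
    rw [(hasFDerivAt_gauss u).fderiv]
    simp
    ring
  have hb : ∀ u : 𝔼, |⟪u, v⟫ * ⟪u, w⟫| ≤ (‖v‖ * ‖w‖) * ‖u‖ ^ 2 := by
    intro u
    rw [abs_mul]
    calc |⟪u, v⟫| * |⟪u, w⟫| ≤ (‖u‖ * ‖v‖) * (‖u‖ * ‖w‖) :=
          mul_le_mul (abs_real_inner_le_norm _ _) (abs_real_inner_le_norm _ _) (abs_nonneg _)
            (by positivity)
      _ = (‖v‖ * ‖w‖) * ‖u‖ ^ 2 := by ring
  have hi0 : Integrable (fun u : 𝔼 => Real.exp (-‖u‖ ^ 2 / 4) * (⟪u, v⟫ * ⟪u, w⟫)) :=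
    integrable_of_le (by fun_prop) hb
  have hi1 : Integrable (fun u : 𝔼 => Real.exp (-‖u‖ ^ 2 / 4) * ⟪u, w⟫) := by
    refine integrable_of_le (K := ‖w‖) (m := 1) (by fun_prop) fun u => ?_
    rw [pow_one, mul_comm]
    exact abs_real_inner_le_norm _ _
  have hi2 : Integrable (fun u : 𝔼 => Real.exp (-‖u‖ ^ 2 / 4) * (1 : ℝ)) := by
    refine integrable_of_le (K := 1) (m := 0) (by fun_prop) fun u => ?_
    simp
  have h := integral_mul_fderiv_eq_neg_fderiv_mul_of_integrable (μ := (volume : Measure 𝔼))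
    (f := fun u : 𝔼 => ⟪u, w⟫) (g := fun u : 𝔼 => Real.exp (-‖u‖ ^ 2 / 4)) (v := v)
    (by
      refine (hi2.const_mul ⟪v, w⟫).congr (Eventually.of_forall fun u => ?_)
      show ⟪v, w⟫ * (Real.exp (-‖u‖ ^ 2 / 4) * 1)
        = fderiv ℝ (fun u : 𝔼 => ⟪u, w⟫) u v * Real.exp (-‖u‖ ^ 2 / 4)
      rw [hfd, mul_one])
    (by
      refine (hi0.const_mul (-(1 / 2 : ℝ))).congr (Eventually.of_forall fun u => ?_)
      show -(1 / 2) * (Real.exp (-‖u‖ ^ 2 / 4) * (⟪u, v⟫ * ⟪u, w⟫))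
        = ⟪u, w⟫ * fderiv ℝ (fun u : 𝔼 => Real.exp (-‖u‖ ^ 2 / 4)) u v
      rw [hgd]
      ring)
    (by
      refine hi1.congr (Eventually.of_forall fun u => ?_)
      show Real.exp (-‖u‖ ^ 2 / 4) * ⟪u, w⟫ = _
      ring)
    (fun u _ => (hwd u).differentiableAt)
    (fun u _ => (hasFDerivAt_gauss u).differentiableAt)
  have h1 : ∫ u : 𝔼, ⟪u, w⟫ * fderiv ℝ (fun u : 𝔼 => Real.exp (-‖u‖ ^ 2 / 4)) u v
      = -(1 / 2) * ∫ u : 𝔼, Real.exp (-‖u‖ ^ 2 / 4) * (⟪u, v⟫ * ⟪u, w⟫) := by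
    rw [← integral_const_mul]
    congr 1
    ext u
    rw [hgd]
    ring
  have h2 : ∫ u : 𝔼, fderiv ℝ (fun u : 𝔼 => ⟪u, w⟫) u v * Real.exp (-‖u‖ ^ 2 / 4)
      = ⟪v, w⟫ * gc n := by
    rw [← integral_gauss, ← integral_const_mul]
    congr 1
    ext u
    rw [hfd]
  rw [h1, h2] at h
  linarith

theorem integral_gauss_bilin (B : 𝔼 →L[ℝ] 𝔼 →L[ℝ] ℝ) :
    ∫ u : 𝔼, Real.exp (-‖u‖ ^ 2 / 4) * B u u
      = 2 * gc n * ∑ i, B (EuclideanSpace.single i 1) (EuclideanSpace.single i 1) := by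
  have hexp : ∀ u : 𝔼, B u u = ∑ i, ∑ j, (⟪u, EuclideanSpace.single i (1 : ℝ)⟫ *
      ⟪u, EuclideanSpace.single j (1 : ℝ)⟫) * B (EuclideanSpace.single i 1) (EuclideanSpace.single j 1) := by
    intro u
    have hu : u = ∑ i, ⟪u, EuclideanSpace.single i (1 : ℝ)⟫ • EuclideanSpace.single i (1 : ℝ) := by
      conv_lhs => rw [← (EuclideanSpace.basisFun (Fin n) ℝ).sum_repr' u]
      refine Finset.sum_congr rfl fun i _ => ?_
      rw [EuclideanSpace.basisFun_apply, real_inner_comm]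
    conv_lhs => rw [hu]
    simp only [map_sum, map_smul, sum_apply, FunLike.coe_smul, Pi.smul_apply,
      smul_eq_mul, Finset.mul_sum]
    rw [Finset.sum_comm]
    refine Finset.sum_congr rfl fun i _ => Finset.sum_congr rfl fun j _ => ?_
    ring
  have hi : ∀ i j : Fin n, Integrable (fun u : 𝔼 => Real.exp (-‖u‖ ^ 2 / 4) *
      (⟪u, EuclideanSpace.single i (1 : ℝ)⟫ * ⟪u, EuclideanSpace.single j (1 : ℝ)⟫)) := by
    intro i j
    refine integrable_of_le (K := 1) (m := 2) (by fun_prop) fun u => ?_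
    rw [abs_mul]
    calc |⟪u, EuclideanSpace.single i (1 : ℝ)⟫| * |⟪u, EuclideanSpace.single j (1 : ℝ)⟫|
        ≤ (‖u‖ * ‖EuclideanSpace.single i (1 : ℝ)‖) * (‖u‖ * ‖EuclideanSpace.single j (1 : ℝ)‖) :=
          mul_le_mul (abs_real_inner_le_norm _ _) (abs_real_inner_le_norm _ _) (abs_nonneg _)
            (by positivity)
      _ = 1 * ‖u‖ ^ 2 := by simp; ring
  have h0 : (fun u : 𝔼 => Real.exp (-‖u‖ ^ 2 / 4) * B u u) = fun u : 𝔼 => ∑ i, ∑ j,
      (Real.exp (-‖u‖ ^ 2 / 4) * (⟪u, EuclideanSpace.single i (1 : ℝ)⟫ *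
        ⟪u, EuclideanSpace.single j (1 : ℝ)⟫)) *
          B (EuclideanSpace.single i 1) (EuclideanSpace.single j 1) := by
    ext u
    rw [hexp u, Finset.mul_sum]
    refine Finset.sum_congr rfl fun i _ => ?_
    rw [Finset.mul_sum]
    refine Finset.sum_congr rfl fun j _ => ?_
    ring
  rw [h0, integral_finsetSum]
  swap
  · intro i _
    exact integrable_finsetSum _ fun j _ => (hi i j).mul_const _
  have h1 : ∀ i : Fin n, ∫ u : 𝔼, ∑ j, (Real.exp (-‖u‖ ^ 2 / 4) *
      (⟪u, EuclideanSpace.single i (1 : ℝ)⟫ * ⟪u, EuclideanSpace.single j (1 : ℝ)⟫)) *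
          B (EuclideanSpace.single i 1) (EuclideanSpace.single j 1)
      = 2 * gc n * B (EuclideanSpace.single i 1) (EuclideanSpace.single i 1) := by
    intro i
    rw [integral_finsetSum]
    swap
    · intro j _
      exact (hi i j).mul_const _
    rw [Finset.sum_eq_single i]
    · rw [integral_mul_const, integral_gauss_inner]
      simp
    · intro j _ hj
      rw [integral_mul_const, integral_gauss_inner]
      have hij : ⟪(EuclideanSpace.single i 1 : 𝔼), EuclideanSpace.single j (1 : ℝ)⟫ = 0 := by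
        rw [EuclideanSpace.inner_single_left]
        simp [hj.symm]
      rw [hij]
      simp
    · simp
  simp only [h1]
  rw [← Finset.mul_sum]

/-- linear change of variables -/
theorem integral_comp_equiv (A : 𝔼 ≃L[ℝ] 𝔼) (F : 𝔼 → ℝ) :
    ∫ v : 𝔼, F (A v) = |(A : 𝔼 →L[ℝ] 𝔼).det|⁻¹ * ∫ v : 𝔼, F v := by
  have hdet : LinearMap.det ((A : 𝔼 →L[ℝ] 𝔼) : 𝔼 →ₗ[ℝ] 𝔼) ≠ 0 := by
    have h := LinearEquiv.isUnit_det' A.toLinearEquiv
    exact h.ne_zero
  have h1 : Measure.map (fun v => A v) (volume : Measure 𝔼)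
      = ENNReal.ofReal |(LinearMap.det ((A : 𝔼 →L[ℝ] 𝔼) : 𝔼 →ₗ[ℝ] 𝔼))⁻¹| • (volume : Measure 𝔼) :=
    Measure.map_linearMap_addHaar_eq_smul_addHaar _ hdet
  have h2 : ∫ v : 𝔼, F (A v) = ∫ v, F v ∂(Measure.map (fun v => A v) (volume : Measure 𝔼)) :=
    (A.toHomeomorph.measurableEmbedding.integral_map F).symm
  rw [h2, h1, integral_smul_measure, ENNReal.toReal_ofReal (abs_nonneg _), abs_inv, smul_eq_mul]

theorem integral_gauss_comp (A : 𝔼 ≃L[ℝ] 𝔼) :
    ∫ v : 𝔼, Real.exp (-‖A v‖ ^ 2 / 4) = |(A : 𝔼 →L[ℝ] 𝔼).det|⁻¹ * gc n := by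
  rw [integral_comp_equiv A (fun v => Real.exp (-‖v‖ ^ 2 / 4)), integral_gauss]

theorem integral_gauss_bilin_comp (A : 𝔼 ≃L[ℝ] 𝔼) (B : 𝔼 →L[ℝ] 𝔼 →L[ℝ] ℝ) :
    ∫ v : 𝔼, Real.exp (-‖A v‖ ^ 2 / 4) * B v v
      = |(A : 𝔼 →L[ℝ] 𝔼).det|⁻¹ * (2 * gc n * ∑ i, B (A.symm (EuclideanSpace.single i 1))
          (A.symm (EuclideanSpace.single i 1))) := by
  have h := integral_gauss_bilin (n := n)
    (((ContinuousLinearMap.compL ℝ 𝔼 𝔼 ℝ).flip (A.symm : 𝔼 →L[ℝ] 𝔼)).comp
      (B.comp (A.symm : 𝔼 →L[ℝ] 𝔼)))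
  have h1 : (fun v : 𝔼 => Real.exp (-‖A v‖ ^ 2 / 4) * B v v)
      = fun v : 𝔼 => (fun w : 𝔼 => Real.exp (-‖w‖ ^ 2 / 4) * B (A.symm w) (A.symm w)) (A v) := by
    ext v
    simp
  rw [h1, integral_comp_equiv A (fun w : 𝔼 => Real.exp (-‖w‖ ^ 2 / 4) * B (A.symm w) (A.symm w))]
  congr 1

/-- the Gaussian kernel normalisation -/
def nrm (n : ℕ) (σ : ℝ) : ℝ := (4 * Real.pi * σ) ^ (-((n : ℝ) / 2))

theorem nrm_sq {s : ℝ} (hs : 0 < s) : nrm n (s ^ 2) = (gc n)⁻¹ * (s ^ n)⁻¹ := by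
  unfold nrm gc
  rw [Real.mul_rpow (by positivity) (by positivity), Real.rpow_neg (by positivity),
    Real.rpow_neg (by positivity)]
  congr 2
  rw [← Real.rpow_natCast s 2, ← Real.rpow_mul hs.le]
  have h : ((2 : ℕ) : ℝ) * ((n : ℝ) / 2) = (n : ℝ) := by push_cast; ring
  rw [h, Real.rpow_natCast]

theorem tendsto_sqrt_pos : Tendsto Real.sqrt (𝓝[>] 0) (𝓝[>] 0) := by
  refine tendsto_nhdsWithin_iff.2 ⟨?_, ?_⟩
  · have h : Tendsto Real.sqrt (𝓝 0) (𝓝 (Real.sqrt 0)) := Real.continuous_sqrt.tendsto 0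
    rw [Real.sqrt_zero] at h
    exact h.mono_left nhdsWithin_le_nhds
  · filter_upwards [self_mem_nhdsWithin] with s hs
    exact Real.sqrt_pos.2 hs

/-- general form in the variable `σ = s²` -/
theorem tendsto_gauss_general {m : ℕ} {S : Set 𝔼} (hS : S ∈ 𝓝 (0 : 𝔼)) {ρ q ρ₀ h : 𝔼 → ℝ} {c C : ℝ}
    (hc : 0 < c) (hρc : ∀ v ∈ S, c * ‖v‖ ^ 2 ≤ ρ v) (hqC : ∀ v ∈ S, |q v| ≤ C * ‖v‖ ^ m)
    (hρm : Measurable (S.indicator ρ)) (hqm : Measurable (S.indicator q)) (hSm : MeasurableSet S)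
    (hρ₀ : ∀ (s : ℝ) (v : 𝔼), 0 < s → ρ₀ (s • v) = s ^ 2 * ρ₀ v)
    (hh : ∀ (s : ℝ) (v : 𝔼), 0 < s → h (s • v) = s ^ m * h v)
    (hρ : (fun v => ρ v - ρ₀ v) =o[𝓝 0] fun v => ‖v‖ ^ 2)
    (hq : (fun v => q v - h v) =o[𝓝 0] fun v => ‖v‖ ^ m) :
    Tendsto (fun σ : ℝ => (Real.sqrt σ ^ m)⁻¹ * (nrm n σ * ∫ v in S, Real.exp (-ρ v / (4 * σ)) * q v))
      (𝓝[>] 0) (𝓝 ((gc n)⁻¹ * ∫ v, Real.exp (-ρ₀ v / 4) * h v)) := by
  have h1 := (tendsto_gauss hS hc hρc hqC hρm hqm hSm hρ₀ hh hρ hq).comp tendsto_sqrt_pos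
  have h2 := h1.const_mul (gc n)⁻¹
  refine h2.congr' ?_
  filter_upwards [self_mem_nhdsWithin] with σ hσ
  have hs : 0 < Real.sqrt σ := Real.sqrt_pos.2 hσ
  have h3 := nrm_sq (n := n) hs
  have h4 : Real.sqrt σ ^ 2 = σ := Real.sq_sqrt (le_of_lt hσ)
  rw [h4] at h3
  simp only [Function.comp]
  rw [h3, h4, pow_add, mul_inv]
  ring

/-- order zero -/
theorem tendsto_gauss_zero {S : Set 𝔼} (hS : S ∈ 𝓝 (0 : 𝔼)) {ρ q : 𝔼 → ℝ} {c C : ℝ}
    (hc : 0 < c) (hρc : ∀ v ∈ S, c * ‖v‖ ^ 2 ≤ ρ v) (hqC : ∀ v ∈ S, |q v| ≤ C)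
    (hρm : Measurable (S.indicator ρ)) (hqm : Measurable (S.indicator q)) (hSm : MeasurableSet S)
    (A : 𝔼 ≃L[ℝ] 𝔼) (hρ : (fun v => ρ v - ‖A v‖ ^ 2) =o[𝓝 0] fun v => ‖v‖ ^ 2)
    {q₀ : ℝ} (hq : Tendsto q (𝓝 0) (𝓝 q₀)) :
    Tendsto (fun σ : ℝ => nrm n σ * ∫ v in S, Real.exp (-ρ v / (4 * σ)) * q v)
      (𝓝[>] 0) (𝓝 (|(A : 𝔼 →L[ℝ] 𝔼).det|⁻¹ * q₀)) := by
  have h := tendsto_gauss_general (m := 0) (ρ₀ := fun v => ‖A v‖ ^ 2) (h := fun _ => q₀) hS hc hρc
    (C := C) (fun v hv => by simpa using hqC v hv) hρm hqm hSm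
    (fun s v hs => by
      show ‖A (s • v)‖ ^ 2 = s ^ 2 * ‖A v‖ ^ 2
      rw [map_smul, norm_smul, mul_pow, Real.norm_of_nonneg hs.le])
    (fun s v hs => by simp) hρ
    (by
      have h1 : Tendsto (fun v => q v - q₀) (𝓝 0) (𝓝 0) := by
        simpa using hq.sub_const q₀
      simpa using (Asymptotics.isLittleO_one_iff ℝ).2 h1)
  simp only [pow_zero, inv_one, one_mul] at h
  rw [integral_mul_const, integral_gauss_comp] at h
  have h2 : (gc n)⁻¹ * (|(A : 𝔼 →L[ℝ] 𝔼).det|⁻¹ * gc n * q₀) = |(A : 𝔼 →L[ℝ] 𝔼).det|⁻¹ * q₀ := by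
    have := gc_ne n
    field_simp
  rw [h2] at h
  exact h

/-- order two -/
theorem tendsto_gauss_two {S : Set 𝔼} (hS : S ∈ 𝓝 (0 : 𝔼)) {ρ q : 𝔼 → ℝ} {c C : ℝ}
    (hc : 0 < c) (hρc : ∀ v ∈ S, c * ‖v‖ ^ 2 ≤ ρ v) (hqC : ∀ v ∈ S, |q v| ≤ C * ‖v‖ ^ 2)
    (hρm : Measurable (S.indicator ρ)) (hqm : Measurable (S.indicator q)) (hSm : MeasurableSet S)
    (A : 𝔼 ≃L[ℝ] 𝔼) (hρ : (fun v => ρ v - ‖A v‖ ^ 2) =o[𝓝 0] fun v => ‖v‖ ^ 2)
    {B : 𝔼 →L[ℝ] 𝔼 →L[ℝ] ℝ} (hq : (fun v => q v - B v v) =o[𝓝 0] fun v => ‖v‖ ^ 2) :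
    Tendsto (fun σ : ℝ => σ⁻¹ * (nrm n σ * ∫ v in S, Real.exp (-ρ v / (4 * σ)) * q v))
      (𝓝[>] 0) (𝓝 (|(A : 𝔼 →L[ℝ] 𝔼).det|⁻¹ * (2 * ∑ i, B (A.symm (EuclideanSpace.single i 1))
          (A.symm (EuclideanSpace.single i 1))))) := by
  have h := tendsto_gauss_general (m := 2) (ρ₀ := fun v => ‖A v‖ ^ 2) (h := fun v => B v v) hS hc hρc
    (C := C) hqC hρm hqm hSm
    (fun s v hs => by
      show ‖A (s • v)‖ ^ 2 = s ^ 2 * ‖A v‖ ^ 2
      rw [map_smul, norm_smul, mul_pow, Real.norm_of_nonneg hs.le])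
    (fun s v hs => by
      simp only [map_smul, FunLike.coe_smul, Pi.smul_apply, smul_eq_mul]
      ring) hρ hq
  rw [integral_gauss_bilin_comp] at h
  have h2 : (gc n)⁻¹ * (|(A : 𝔼 →L[ℝ] 𝔼).det|⁻¹ * (2 * gc n * ∑ i, B (A.symm (EuclideanSpace.single i 1))
          (A.symm (EuclideanSpace.single i 1)))) = |(A : 𝔼 →L[ℝ] 𝔼).det|⁻¹ *
          (2 * ∑ i, B (A.symm (EuclideanSpace.single i 1)) (A.symm (EuclideanSpace.single i 1))) := by
    have := gc_ne n
    field_simp
  rw [h2] at h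
  refine h.congr' ?_
  filter_upwards [self_mem_nhdsWithin] with σ hσ
  rw [Real.sq_sqrt (le_of_lt hσ)]

end Crest.Agent.R249.Gau2_654
end
end

-- ▼ part R249/HK4_654
section

set_option autoImplicit false

open MeasureTheory Filter Topology Set
open scoped RealInnerProductSpace MatrixOrder ComplexOrder

noncomputable section

namespace Crest.Agent.R249.HK4_654

open Crest.Agent.R249.HK286 Crest.Agent.R249.Gau2_654

variable {ι : Type*}

/-- the quadratic form of the metric -/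
def qf (M : Met ι) (i : ι) (z v : E4) : ℝ := ∑ a, ∑ b, M.g i a b z * v a * v b

theorem norm_sq_eq (v : E4) : ‖v‖ ^ 2 = ∑ a, v a ^ 2 := by
  rw [EuclideanSpace.norm_sq_eq]
  simp

theorem abs_coord_le (v : E4) (a : Fin 4) : |v a| ≤ ‖v‖ := by
  have := PiLp.norm_apply_le v a
  simpa using this

/-- the metric matrix is positive semidefinite -/
theorem posSemidef (M : Met ι) (i : ι) (z : E4) :
    (Matrix.of fun a b => M.g i a b z : Matrix (Fin 4) (Fin 4) ℝ).PosSemidef := by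
  refine Matrix.PosSemidef.of_dotProduct_mulVec_nonneg ?_ ?_
  · ext a b
    simp [M.gsymm i b a z]
  · intro v
    obtain ⟨c, hc, h⟩ := M.ell
    have h1 := h i z v
    have h2 : star v ⬝ᵥ (Matrix.of fun a b => M.g i a b z).mulVec v
        = ∑ a, ∑ b, M.g i a b z * v a * v b := by
      simp only [dotProduct, Matrix.mulVec, Matrix.of_apply, Finset.mul_sum, star_trivial]
      refine Finset.sum_congr rfl fun a _ => Finset.sum_congr rfl fun b _ => ?_
      ring
    rw [h2]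
    refine le_trans ?_ h1
    positivity

theorem exists_equiv (M : Met ι) (i : ι) (z : E4) :
    ∃ A : E4 ≃L[ℝ] E4, (∀ v, ‖A v‖ ^ 2 = qf M i z v) ∧ |(A : E4 →L[ℝ] E4).det| = M.w i z := by
  obtain ⟨B, hB⟩ := CStarAlgebra.nonneg_iff_eq_star_mul_self.mp (posSemidef M i z).nonneg
  rw [Matrix.star_eq_conjTranspose] at hB
  obtain ⟨cw, hcw, hw⟩ := M.wpos
  have hw0 : 0 < M.w i z := lt_of_lt_of_le hcw (hw i z)
  have hdet : B.det ^ 2 = M.w i z ^ 2 := by
    rw [M.wdet, hB, Matrix.det_mul, Matrix.det_conjTranspose]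
    simp [sq]
  have hdet0 : B.det ≠ 0 := by
    intro h
    rw [h] at hdet
    have h1 : 0 < M.w i z ^ 2 := by positivity
    rw [← hdet] at h1
    norm_num at h1
  have hdetT : LinearMap.det (Matrix.toEuclideanLin B : E4 →ₗ[ℝ] E4) = B.det := by
    rw [Matrix.toEuclideanLin_eq_toLin_orthonormal, LinearMap.det_toLin]
  let A0 : E4 ≃ₗ[ℝ] E4 := LinearMap.equivOfDetNeZero (Matrix.toEuclideanLin B : E4 →ₗ[ℝ] E4)
    (by rw [hdetT]; exact hdet0)
  have hA0 : ∀ v, A0 v = Matrix.toEuclideanLin B v := fun v => rfl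
  let A : E4 ≃L[ℝ] E4 := A0.toContinuousLinearEquiv
  have hA : ∀ v, A v = Matrix.toEuclideanLin B v := fun v => rfl
  refine ⟨A, fun v => ?_, ?_⟩
  · rw [hA, norm_sq_eq]
    have h1 : ∀ a, (Matrix.toEuclideanLin B v : E4) a = ∑ b, B a b * v b := by
      intro a
      rw [Matrix.toEuclideanLin_apply]
      simp [Matrix.mulVec, dotProduct]
    simp only [h1]
    unfold qf
    have h2 : ∀ a b, M.g i a b z = ∑ c, B c a * B c b := by
      intro a b
      have := congrFun (congrFun hB a) b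
      simp only [Matrix.of_apply, Matrix.mul_apply, Matrix.conjTranspose_apply, star_trivial] at this
      exact this
    simp only [h2, sq, Finset.sum_mul, Finset.mul_sum]
    rw [Finset.sum_comm' (t' := Finset.univ) (s' := fun _ => Finset.univ) (by simp)]
    refine Finset.sum_congr rfl fun a _ => ?_
    rw [Finset.sum_comm' (t' := Finset.univ) (s' := fun _ => Finset.univ) (by simp)]
    refine Finset.sum_congr rfl fun b _ => ?_
    refine Finset.sum_congr rfl fun c _ => ?_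
    ring
  · have h1 : (A : E4 →L[ℝ] E4).det = B.det := by
      rw [← hdetT]
      rfl
    rw [h1]
    have h2 : |B.det| = |M.w i z| := (sq_eq_sq_iff_abs_eq_abs _ _).1 hdet
    rw [h2, abs_of_pos hw0]

theorem nrm_four {t : ℝ} (ht : 0 < t) : nrm 4 t = ((4 * Real.pi * t) ^ 2)⁻¹ := by
  unfold nrm
  rw [show (-(((4 : ℕ) : ℝ) / 2)) = -((2 : ℕ) : ℝ) by norm_num, Real.rpow_neg (by positivity),
    Real.rpow_natCast]

theorem isLittleO_rho (M : Met ι) (i : ι) (z : E4) {ρ : E4 → ℝ}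
    (hρ : ∀ v, ρ v = 1 / 2 * ∑ a, ∑ b, (M.g i a b (z + v) + M.g i a b z) * v a * v b) :
    (fun v => ρ v - qf M i z v) =o[𝓝 0] fun v : E4 => ‖v‖ ^ 2 := by
  have h1 : (fun v => ρ v - qf M i z v)
      = fun v => ∑ a, ∑ b, (1 / 2 * (M.g i a b (z + v) - M.g i a b z)) * (v a * v b) := by
    ext v
    rw [hρ, qf, Finset.mul_sum, ← Finset.sum_sub_distrib]
    refine Finset.sum_congr rfl fun a _ => ?_
    rw [Finset.mul_sum, ← Finset.sum_sub_distrib]
    refine Finset.sum_congr rfl fun b _ => ?_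
    ring
  rw [h1]
  refine Asymptotics.IsLittleO.fun_sum fun a _ => Asymptotics.IsLittleO.fun_sum fun b _ => ?_
  have h2 : (fun v : E4 => 1 / 2 * (M.g i a b (z + v) - M.g i a b z)) =o[𝓝 0] fun _ => (1 : ℝ) := by
    rw [Asymptotics.isLittleO_one_iff]
    have hc : Continuous fun v : E4 => 1 / 2 * (M.g i a b (z + v) - M.g i a b z) := by
      have := ((M.ubg a b).1 i).continuous
      fun_prop
    have := hc.tendsto 0
    simpa using this
  have h3 : (fun v : E4 => v a * v b) =O[𝓝 0] fun v : E4 => ‖v‖ ^ 2 := by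
    refine Asymptotics.IsBigO.of_bound 1 (Eventually.of_forall fun v => ?_)
    rw [Real.norm_eq_abs, abs_mul, Real.norm_of_nonneg (by positivity), one_mul, sq]
    exact mul_le_mul (abs_coord_le v a) (abs_coord_le v b) (abs_nonneg _) (norm_nonneg _)
  have h4 := h2.mul_isBigO h3
  simpa using h4

theorem main (M : Met ι) (i : ι) (z : E4) {f : E4 → ℝ} (hfm : Measurable f) {B : ℝ}
    (hfB : ∀ x, |f x| ≤ B) (hf : ContinuousAt f z) {ρ : E4 → ℝ}
    (hρ : ∀ v, ρ v = 1 / 2 * ∑ a, ∑ b, (M.g i a b (z + v) + M.g i a b z) * v a * v b) :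
    Tendsto (fun t : ℝ => ∫ v, ((4 * Real.pi * t) ^ 2)⁻¹ * Real.exp (-(ρ v / (4 * t))) *
      f (z + v) * M.w i (z + v)) (𝓝[>] 0) (𝓝 (f z)) := by
  obtain ⟨A, hA, hdet⟩ := exists_equiv M i z
  obtain ⟨c, hc, hell⟩ := M.ell
  obtain ⟨W, hW⟩ := M.ubw.2 0
  have hWb : ∀ x, |M.w i x| ≤ |W| := by
    intro x
    have h := hW i x
    rw [norm_iteratedFDeriv_zero, Real.norm_eq_abs] at h
    exact h.trans (le_abs_self _)
  have hwc : Continuous (M.w i) := (M.ubw.1 i).continuous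
  obtain ⟨cw, hcw, hw⟩ := M.wpos
  have hw0 : 0 < M.w i z := lt_of_lt_of_le hcw (hw i z)
  have hρc : Continuous ρ := by
    have h1 : ρ = fun v => 1 / 2 * ∑ a, ∑ b, (M.g i a b (z + v) + M.g i a b z) * v a * v b :=
      funext hρ
    rw [h1]
    have h2 : ∀ a b, Continuous (M.g i a b) := fun a b => ((M.ubg a b).1 i).continuous
    fun_prop
  have hzv : Measurable fun v : E4 => z + v := measurable_const_add z
  have h := tendsto_gauss_zero (n := 4) (S := univ) (ρ := ρ) (q := fun v => f (z + v) * M.w i (z + v))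
    (c := c) (C := B * |W|) univ_mem hc
    (by
      intro v _
      rw [hρ, norm_sq_eq]
      have h1 := hell i (z + v) v
      have h2 := hell i z v
      have h3 : ∑ a, ∑ b, (M.g i a b (z + v) + M.g i a b z) * v a * v b
          = (∑ a, ∑ b, M.g i a b (z + v) * v a * v b) + ∑ a, ∑ b, M.g i a b z * v a * v b := by
        rw [← Finset.sum_add_distrib]
        refine Finset.sum_congr rfl fun a _ => ?_
        rw [← Finset.sum_add_distrib]
        refine Finset.sum_congr rfl fun b _ => ?_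
        ring
      rw [h3]
      linarith)
    (by
      intro v _
      rw [abs_mul]
      exact mul_le_mul (hfB _) (hWb _) (abs_nonneg _) ((abs_nonneg _).trans (hfB z)))
    (by rw [indicator_univ]; exact hρc.measurable)
    (by rw [indicator_univ]; exact (hfm.comp hzv).mul (hwc.measurable.comp hzv))
    MeasurableSet.univ A
    (by
      have := isLittleO_rho M i z hρ
      refine this.congr_left fun v => ?_
      rw [hA])
    (q₀ := f z * M.w i z)
    (by
      have h1 : Tendsto (fun v : E4 => z + v) (𝓝 0) (𝓝 z) := by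
        have : Tendsto (fun v : E4 => z + v) (𝓝 0) (𝓝 (z + 0)) :=
          (continuous_const.add continuous_id).tendsto 0
        rwa [add_zero] at this
      exact (hf.tendsto.comp h1).mul ((hwc.tendsto z).comp h1))
  rw [hdet] at h
  have h2 : (M.w i z)⁻¹ * (f z * M.w i z) = f z := by field_simp
  rw [h2] at h
  refine h.congr' ?_
  filter_upwards [self_mem_nhdsWithin] with t ht
  rw [nrm_four ht, ← integral_const_mul, Measure.restrict_univ]
  refine integral_congr_ae (Eventually.of_forall fun v => ?_)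
  simp only [neg_div]
  ring

/-- **HK4** -/
theorem hk4 (M : Met ι) (i : ι) (z : E4) {f : E4 → ℝ} (hfm : Measurable f)
    (hfB : ∃ B : ℝ, ∀ x, |f x| ≤ B) (hf : ContinuousAt f z) :
    Tendsto (fun t : ℝ => ∫ x, M.GG i t x z * f x * M.w i x) (𝓝[>] 0) (𝓝 (f z)) := by
  obtain ⟨B, hB⟩ := hfB
  have h := main M i z hfm hB hf (ρ := fun v => M.rho i (z + v) z) (fun v => by
    unfold Met.rho
    simp)
  refine h.congr fun t => ?_
  have h1 := integral_add_left_eq_self (μ := (volume : Measure E4))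
    (fun x => M.GG i t x z * f x * M.w i x) z
  rw [← h1]
  rfl

theorem hk4' (M : Met ι) (i : ι) (z : E4) {f : E4 → ℝ} (hfm : Measurable f)
    (hfB : ∃ B : ℝ, ∀ x, |f x| ≤ B) (hf : ContinuousAt f z) :
    Tendsto (fun t : ℝ => ∫ x, M.GG i t z x * f x * M.w i x) (𝓝[>] 0) (𝓝 (f z)) := by
  obtain ⟨B, hB⟩ := hfB
  have h := main M i z hfm hB hf (ρ := fun v => M.rho i z (z + v)) (fun v => by
    unfold Met.rho
    simp
    refine Finset.sum_congr rfl fun a _ => Finset.sum_congr rfl fun b _ => ?_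
    ring)
  refine h.congr fun t => ?_
  have h1 := integral_add_left_eq_self (μ := (volume : Measure E4))
    (fun x => M.GG i t z x * f x * M.w i x) z
  rw [← h1]
  rfl

end Crest.Agent.R249.HK4_654
end
end

-- ▼ part R249/HK5a_905
section

set_option autoImplicit false

open MeasureTheory Filter Topology Set

noncomputable section

namespace Crest.Agent.R249.HK5_905

open Crest.Agent.R249.HK286 Crest.Agent.R249.HK1_654

variable {ι : Type*} {M : Met ι} {R : ℝ}

/-- bounded measurable functions vanishing off the ball of radius `R` -/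
def BU (R : ℝ) (U : E4 → ℝ) : Prop :=
  Measurable U ∧ (∃ B : ℝ, ∀ x, |U x| ≤ B) ∧ ∀ x, R ≤ ‖x‖ → U x = 0

theorem BU.integrable {U : E4 → ℝ} (h : BU R U) : Integrable U := by
  obtain ⟨hm, ⟨B, hB⟩, h0⟩ := h
  have h1 : IntegrableOn (fun _ : E4 => B) (Metric.ball 0 R) :=
    integrableOn_const (by exact (measure_ball_lt_top).ne)
  have h2 : Integrable ((Metric.ball (0 : E4) R).indicator fun _ : E4 => B) :=
    (integrable_indicator_iff measurableSet_ball).2 h1
  refine h2.mono' hm.aestronglyMeasurable (Eventually.of_forall fun x => ?_)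
  by_cases hx : x ∈ Metric.ball (0 : E4) R
  · rw [indicator_of_mem hx]; exact hB x
  · rw [indicator_of_notMem hx, h0 x (by simpa using hx)]; simp

/-- `∫ K(t,x,z) U(x) w(x) dx` -/
def AA (M : Met ι) (K : ι → ℝ → E4 → E4 → ℝ) (U : E4 → ℝ) (i : ι) (t : ℝ) (z : E4) : ℝ :=
  ∫ x, K i t x z * U x * M.w i x

theorem AA_pt {K : ι → ℝ → E4 → E4 → ℝ} (hK : KW K) {U : E4 → ℝ} (hU : BU R U) :
    ∃ C c : ℝ, 0 ≤ C ∧ 0 < c ∧ ∀ i, ∀ t ∈ Ioc (0 : ℝ) 1, ∀ x z,
      |K i t x z * U x * M.w i x| ≤ C * (1 + (Real.sqrt t)⁻¹) * Gam c t (x - z) := by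
  obtain ⟨_, C1, c1, hC1, hc1, h1⟩ := hK
  obtain ⟨hm, ⟨B, hB⟩, h0⟩ := hU
  obtain ⟨W, hW, hWb⟩ := w_bound M
  have hB0 : 0 ≤ B := (abs_nonneg _).trans (hB 0)
  refine ⟨C1 * (1 + |R|) * B * W, c1, by positivity, hc1, fun i t ht x z => ?_⟩
  have hs : 0 < Real.sqrt t := Real.sqrt_pos.2 ht.1
  have hG := Gam_nonneg c1 t (x - z)
  by_cases hx : R ≤ ‖x‖
  · rw [h0 x hx]
    simp only [mul_zero, zero_mul, abs_zero]
    positivity
  · push Not at hx
    have hxR : ‖x‖ ≤ |R| := hx.le.trans (le_abs_self R)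
    have h2 : 1 + ‖x‖ / Real.sqrt t ≤ (1 + |R|) * (1 + (Real.sqrt t)⁻¹) := by
      have h3 : ‖x‖ / Real.sqrt t ≤ |R| * (Real.sqrt t)⁻¹ := by
        rw [div_eq_mul_inv]
        exact mul_le_mul_of_nonneg_right hxR (by positivity)
      have h4 : 0 ≤ (Real.sqrt t)⁻¹ := by positivity
      nlinarith [abs_nonneg R]
    rw [abs_mul, abs_mul]
    calc |K i t x z| * |U x| * |M.w i x|
        ≤ (C1 * (1 + ‖x‖ / Real.sqrt t) * Gam c1 t (x - z)) * B * W := by
          refine mul_le_mul (mul_le_mul (h1 i t ht x z) (hB x) (abs_nonneg _) (by positivity)) (hWb i x)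
            (abs_nonneg _) (by positivity)
      _ ≤ (C1 * ((1 + |R|) * (1 + (Real.sqrt t)⁻¹)) * Gam c1 t (x - z)) * B * W := by
          gcongr
      _ = _ := by ring

theorem AA_int {K : ι → ℝ → E4 → E4 → ℝ} (hK : KW K) {U : E4 → ℝ} (hU : BU R U) (i : ι) {t : ℝ}
    (ht : t ∈ Ioc (0 : ℝ) 1) (z : E4) : Integrable fun x => K i t x z * U x * M.w i x := by
  obtain ⟨C, c, hC, hc, h⟩ := AA_pt (M := M) hK hU
  have hm : Measurable fun x => K i t x z * U x * M.w i x := by
    refine (Measurable.mul ?_ hU.1).mul (w_cont M i).measurable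
    have h1 : Measurable fun x : E4 => ((t, x, z) : ℝ × E4 × E4) := by fun_prop
    exact (hK.1 i).comp h1
  refine (((integrable_Gam hc ht.1).comp_sub_right z).const_mul (C * (1 + (Real.sqrt t)⁻¹))).mono'
    hm.aestronglyMeasurable (Eventually.of_forall fun x => h i t ht x z)

theorem AA_bound {K : ι → ℝ → E4 → E4 → ℝ} (hK : KW K) {U : E4 → ℝ} (hU : BU R U) :
    ∃ C : ℝ, 0 ≤ C ∧ ∀ i, ∀ t ∈ Ioc (0 : ℝ) 1, ∀ z, |AA M K U i t z| ≤ C * (1 + (Real.sqrt t)⁻¹) := by
  obtain ⟨C, c, hC, hc, h⟩ := AA_pt (M := M) hK hU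
  refine ⟨C * (Real.pi / c) ^ 2, by positivity, fun i t ht z => ?_⟩
  have h1 := norm_integral_le_of_norm_le (f := fun x => K i t x z * U x * M.w i x)
    (((integrable_Gam hc ht.1).comp_sub_right z).const_mul (C * (1 + (Real.sqrt t)⁻¹)))
    (Eventually.of_forall fun x => h i t ht x z)
  rw [Real.norm_eq_abs, integral_const_mul, integral_sub_right_eq_self (fun x : E4 => Gam c t x) z,
    integral_Gam hc ht.1] at h1
  refine h1.trans (le_of_eq ?_)
  ring

theorem AA_meas {K : ι → ℝ → E4 → E4 → ℝ} (hK : KW K) {U : E4 → ℝ} (hU : BU R U) (i : ι) :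
    Measurable fun z : ℝ × E4 => AA M K U i z.1 z.2 := by
  have h : Measurable fun z : (ℝ × E4) × E4 => K i z.1.1 z.2 z.1.2 * U z.2 * M.w i z.2 := by
    refine (Measurable.mul ?_ (hU.1.comp measurable_snd)).mul ((w_cont M i).measurable.comp measurable_snd)
    have h1 : Measurable fun z : (ℝ × E4) × E4 => ((z.1.1, z.2, z.1.2) : ℝ × E4 × E4) := by fun_prop
    exact (hK.1 i).comp h1
  exact h.stronglyMeasurable.integral_prod_right'.measurable

/-- `L¹` bound in space of a function of class `VB 0` -/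
theorem vb_L1 {f : ι → ℝ → E4 → ℝ} (hf : VB 0 f) : ∃ C : ℝ, 0 ≤ C ∧ ∀ i, ∀ s ∈ Ioc (0 : ℝ) 1,
    Integrable (fun z => f i s z) ∧ ∫ z, |f i s z * M.w i z| ≤ C := by
  obtain ⟨hm, C, c, hC, hc, h⟩ := hf
  obtain ⟨W, hW, hWb⟩ := w_bound M
  refine ⟨C * W * (Real.pi / c) ^ 2, by positivity, fun i s hs => ?_⟩
  have hb : ∀ z, ‖f i s z‖ ≤ C * Gam c s z := by
    intro z
    have := h i s hs z
    simpa using this
  have hmz : Measurable fun z => f i s z := (hm i).comp (measurable_prodMk_left (x := s))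
  have hint : Integrable (fun z => f i s z) :=
    ((integrable_Gam hc hs.1).const_mul C).mono' hmz.aestronglyMeasurable (Eventually.of_forall hb)
  refine ⟨hint, ?_⟩
  have h1 : ∫ z, |f i s z * M.w i z| ≤ ∫ z, C * W * Gam c s z := by
    refine integral_mono_of_nonneg (Eventually.of_forall fun z => abs_nonneg _)
      ((integrable_Gam hc hs.1).const_mul _) (Eventually.of_forall fun z => ?_)
    show |f i s z * M.w i z| ≤ C * W * Gam c s z
    rw [abs_mul]
    calc |f i s z| * |M.w i z| ≤ (C * Gam c s z) * W := by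
          refine mul_le_mul (hb z) (hWb i z) (abs_nonneg _) (mul_nonneg hC (Gam_nonneg _ _ _))
      _ = _ := by ring
  refine h1.trans (le_of_eq ?_)
  rw [integral_const_mul, integral_Gam hc hs.1]

/-- the `z`-integral of `A(σ,z) f(s,z) w(z)`: integrability and bound -/
theorem AAf_bound {A : ℝ → E4 → ℝ} {C0 : ℝ} (hA : Measurable fun z : ℝ × E4 => A z.1 z.2)
    (hAb : ∀ t ∈ Ioc (0 : ℝ) 1, ∀ z, |A t z| ≤ C0 * (1 + (Real.sqrt t)⁻¹)) {f : ι → ℝ → E4 → ℝ}
    (hf : VB 0 f) (i : ι) : ∃ C : ℝ, 0 ≤ C ∧ ∀ s ∈ Ioc (0 : ℝ) 1, ∀ σ ∈ Ioc (0 : ℝ) 1,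
      Integrable (fun z => A σ z * f i s z * M.w i z) ∧
      |∫ z, A σ z * f i s z * M.w i z| ≤ C * (1 + (Real.sqrt σ)⁻¹) := by
  obtain ⟨C, hC, h⟩ := vb_L1 (M := M) hf
  have hC0 : 0 ≤ C0 := by
    have := (abs_nonneg _).trans (hAb 1 ⟨one_pos, le_rfl⟩ 0)
    simp at this
    linarith
  refine ⟨C0 * C, by positivity, fun s hs σ hσ => ?_⟩
  obtain ⟨h1, h2⟩ := h i s hs
  obtain ⟨W, hW, hWb⟩ := w_bound M
  have hfw : Integrable (fun z => f i s z * M.w i z) := by
    refine (h1.norm.const_mul W).mono' (h1.aestronglyMeasurable.mul (w_cont M i).aestronglyMeasurable)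
      (Eventually.of_forall fun z => ?_)
    rw [norm_mul, mul_comm]
    exact mul_le_mul_of_nonneg_right (by simpa using hWb i z) (norm_nonneg _)
  have hb : ∀ z, ‖A σ z * f i s z * M.w i z‖ ≤ (C0 * (1 + (Real.sqrt σ)⁻¹)) * |f i s z * M.w i z| := by
    intro z
    rw [mul_assoc, norm_mul, Real.norm_eq_abs, Real.norm_eq_abs]
    exact mul_le_mul_of_nonneg_right (hAb σ hσ z) (abs_nonneg _)
  have hAz : Measurable fun z => A σ z := hA.comp (measurable_prodMk_left (x := σ))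
  have hint : Integrable (fun z => A σ z * f i s z * M.w i z) := by
    refine (hfw.abs.const_mul (C0 * (1 + (Real.sqrt σ)⁻¹))).mono' ?_ (Eventually.of_forall hb)
    exact (hAz.aestronglyMeasurable.mul h1.aestronglyMeasurable).mul (w_cont M i).aestronglyMeasurable
  refine ⟨hint, ?_⟩
  have h3 := norm_integral_le_of_norm_le (f := fun z => A σ z * f i s z * M.w i z)
    (hfw.abs.const_mul (C0 * (1 + (Real.sqrt σ)⁻¹))) (Eventually.of_forall hb)
  rw [Real.norm_eq_abs, integral_const_mul] at h3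
  refine h3.trans ?_
  have : 0 ≤ (1 + (Real.sqrt σ)⁻¹) := by positivity
  calc C0 * (1 + (Real.sqrt σ)⁻¹) * ∫ z, |f i s z * M.w i z| ≤ C0 * (1 + (Real.sqrt σ)⁻¹) * C :=
        mul_le_mul_of_nonneg_left h2 (by positivity)
    _ = _ := by ring

theorem AAf_meas {A : ℝ → E4 → ℝ} (hA : Measurable fun z : ℝ × E4 => A z.1 z.2) {f : ι → ℝ → E4 → ℝ}
    (hf : VB 0 f) (i : ι) : Measurable fun z : ℝ × ℝ => ∫ y, A z.1 y * f i z.2 y * M.w i y := by
  have h : Measurable fun z : (ℝ × ℝ) × E4 => A z.1.1 z.2 * f i z.1.2 z.2 * M.w i z.2 := by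
    refine (Measurable.mul ?_ ?_).mul ((w_cont M i).measurable.comp measurable_snd)
    · have h1 : Measurable fun z : (ℝ × ℝ) × E4 => ((z.1.1, z.2) : ℝ × E4) := by fun_prop
      exact hA.comp h1
    · have h1 : Measurable fun z : (ℝ × ℝ) × E4 => ((z.1.2, z.2) : ℝ × E4) := by fun_prop
      exact (hf.1 i).comp h1
  exact h.stronglyMeasurable.integral_prod_right'.measurable

/-- `∫_0^t (1 + 1/√s) ds` -/
theorem int_w {t : ℝ} (ht : 0 < t) :
    IntegrableOn (fun s : ℝ => 1 + (Real.sqrt s)⁻¹) (Ioo 0 t) := by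
  have h0 : IntervalIntegrable (fun u : ℝ => u ^ (-(1 / 2) : ℝ)) volume 0 t :=
    intervalIntegral.intervalIntegrable_rpow' (by norm_num)
  have h3 := (intervalIntegrable_iff_integrableOn_Ioo_of_le ht.le).1 h0
  have h4 : IntegrableOn (fun s : ℝ => (Real.sqrt s)⁻¹) (Ioo 0 t) := by
    refine h3.congr_fun (fun s hs => ?_) measurableSet_Ioo
    show s ^ (-(1 / 2) : ℝ) = _
    rw [Real.rpow_neg hs.1.le, ← Real.sqrt_eq_rpow]
  exact (integrableOn_const (by simp)).add h4

/-- **Fubini**: pairing of a time-space convolution with a bounded function of compact support -/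
theorem fub {K : ι → ℝ → E4 → E4 → ℝ} (hK : KW K) {f : ι → ℝ → E4 → ℝ} (hf : VB 0 f)
    {U : E4 → ℝ} (hU : BU R U) (i : ι) {t : ℝ} (ht : t ∈ Ioc (0 : ℝ) 1) :
    ∫ x, M.star0 K f i t x * U x * M.w i x
      = ∫ s in Ioo 0 t, ∫ z, AA M K U i (t - s) z * f i s z * M.w i z := by
  obtain ⟨hUm, ⟨B, hB⟩, hU0⟩ := id hU
  have hB0 : 0 ≤ B := (abs_nonneg _).trans (hB 0)
  obtain ⟨W, hW, hWb⟩ := w_bound M
  obtain ⟨C, c, hC, hc, h⟩ := inner_bound (M := M) hK hf
  obtain ⟨C', c', hC', hc', h'⟩ := bounds (M := M) hK hf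
  -- first swap
  have hG1 : ∀ x, M.star0 K f i t x * U x * M.w i x
      = ∫ s in Ioo 0 t, (∫ z, K i (t - s) x z * f i s z * M.w i z) * (U x * M.w i x) := by
    intro x
    rw [integral_mul_const, mul_assoc]
    rfl
  have hmeas : Measurable fun z : E4 × ℝ =>
      (∫ y, K i (t - z.2) z.1 y * f i z.2 y * M.w i y) * (U z.1 * M.w i z.1) := by
    refine Measurable.mul ?_ ((hUm.comp measurable_fst).mul ((w_cont M i).measurable.comp measurable_fst))
    have h1 := (meas_inner (M := M) hK.1 hf.1 i).measurable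
    have h2 : Measurable fun z : E4 × ℝ => (((t, z.1), z.2) : (ℝ × E4) × ℝ) := by fun_prop
    exact h1.comp h2
  have hint : Integrable (fun z : E4 × ℝ =>
      (∫ y, K i (t - z.2) z.1 y * f i z.2 y * M.w i y) * (U z.1 * M.w i z.1))
      ((volume : Measure E4).prod (volume.restrict (Ioo 0 t))) := by
    have hb1 : Integrable (fun x : E4 => C * Gam c t x) := (integrable_Gam hc ht.1).const_mul C
    have hb2 : Integrable (fun s : ℝ => (1 + |R| * (Real.sqrt (t - s))⁻¹) * (B * W))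
        (volume.restrict (Ioo 0 t)) := (outer_weight ht.1 |R|).1.mul_const _
    refine (hb1.mul_prod hb2).mono' hmeas.aestronglyMeasurable ?_
    have hae : ∀ᵐ z : E4 × ℝ ∂((volume : Measure E4).prod (volume.restrict (Ioo 0 t))), z.2 ∈ Ioo 0 t := by
      have h3 : (volume : Measure E4).prod (volume.restrict (Ioo 0 t))
          = ((volume : Measure E4).prod volume).restrict (univ ×ˢ Ioo 0 t) := by
        rw [← Measure.prod_restrict, Measure.restrict_univ]
      rw [h3]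
      filter_upwards [ae_restrict_mem (MeasurableSet.univ.prod measurableSet_Ioo)] with z hz
      exact hz.2
    filter_upwards [hae] with z hz
    rw [Real.norm_eq_abs, abs_mul, abs_mul]
    by_cases hx : R ≤ ‖z.1‖
    · rw [hU0 z.1 hx]
      simp only [abs_zero, zero_mul, mul_zero]
      have := Gam_nonneg c t z.1
      positivity
    · push Not at hx
      have hxR : ‖z.1‖ ≤ |R| := hx.le.trans (le_abs_self R)
      have h5 := h i t ht z.2 hz z.1
      rw [Real.rpow_zero, mul_one] at h5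
      have h6 : 0 ≤ (Real.sqrt (t - z.2))⁻¹ := by positivity
      have hG := Gam_nonneg c t z.1
      calc |∫ y, K i (t - z.2) z.1 y * f i z.2 y * M.w i y| * (|U z.1| * |M.w i z.1|)
          ≤ ((1 + |R| * (Real.sqrt (t - z.2))⁻¹) * (C * Gam c t z.1)) * (B * W) := by
            refine mul_le_mul (h5.trans ?_) (mul_le_mul (hB _) (hWb _ _) (abs_nonneg _) hB0)
              (by positivity) (by positivity)
            refine mul_le_mul_of_nonneg_right ?_ (by positivity)
            have := mul_le_mul_of_nonneg_right hxR h6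
            linarith
        _ = _ := by ring
  rw [integral_congr_ae (Eventually.of_forall hG1)]
  have hsw := integral_integral_swap (μ := (volume : Measure E4)) (ν := volume.restrict (Ioo 0 t))
    (f := fun x s => (∫ z, K i (t - s) x z * f i s z * M.w i z) * (U x * M.w i x)) hint
  rw [hsw]
  refine setIntegral_congr_fun measurableSet_Ioo fun s hs => ?_
  show ∫ x, (∫ z, K i (t - s) x z * f i s z * M.w i z) * (U x * M.w i x) = _
  -- second swap
  have hm2 : Measurable fun z : E4 × E4 => K i (t - s) z.1 z.2 * f i s z.2 * M.w i z.2 *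
      (U z.1 * M.w i z.1) := by
    refine Measurable.mul (Measurable.mul (Measurable.mul ?_ ?_) ((w_cont M i).measurable.comp measurable_snd))
      ((hUm.comp measurable_fst).mul ((w_cont M i).measurable.comp measurable_fst))
    · have h2 : Measurable fun z : E4 × E4 => ((t - s, z.1, z.2) : ℝ × E4 × E4) := by fun_prop
      exact (hK.1 i).comp h2
    · have h2 : Measurable fun z : E4 × E4 => ((s, z.2) : ℝ × E4) := by fun_prop
      exact (hf.1 i).comp h2
  have hint2 : Integrable (fun z : E4 × E4 => K i (t - s) z.1 z.2 * f i s z.2 * M.w i z.2 *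
      (U z.1 * M.w i z.1)) ((volume : Measure E4).prod volume) := by
    have hbase : Integrable (fun z : E4 × E4 => Gam c' (t - s) (z.1 - z.2) * Gam c' s z.2)
        ((volume : Measure E4).prod volume) := by
      rw [integrable_prod_iff]
      · refine ⟨Eventually.of_forall fun x => integrable_conv hc' hs.1 hs.2 x, ?_⟩
        have : ∀ x : E4, ∫ y, ‖Gam c' (t - s) (x - y) * Gam c' s y‖ = (Real.pi / c') ^ 2 * Gam c' t x := by
          intro x
          rw [← integral_conv hc' hs.1 hs.2 x]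
          refine integral_congr_ae (Eventually.of_forall fun y => ?_)
          show ‖_‖ = _
          rw [Real.norm_of_nonneg (mul_nonneg (Gam_nonneg _ _ _) (Gam_nonneg _ _ _))]
        simp only [this]
        exact (integrable_Gam hc' ht.1).const_mul _
      · refine Measurable.aestronglyMeasurable ?_
        refine Measurable.mul ?_ ?_
        · exact (continuous_Gam c' (t - s)).measurable.comp (measurable_fst.sub measurable_snd)
        · exact (continuous_Gam c' s).measurable.comp measurable_snd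
    refine (hbase.const_mul ((C' * (1 + |R| * (Real.sqrt (t - s))⁻¹)) * (B * W))).mono'
      hm2.aestronglyMeasurable (Eventually.of_forall fun z => ?_)
    rw [Real.norm_eq_abs, abs_mul, abs_mul (U z.1)]
    have h6 : 0 ≤ (Real.sqrt (t - s))⁻¹ := by positivity
    have hG1 := Gam_nonneg c' (t - s) (z.1 - z.2)
    have hG2 := Gam_nonneg c' s z.2
    by_cases hx : R ≤ ‖z.1‖
    · rw [hU0 z.1 hx]
      simp only [abs_zero, zero_mul, mul_zero]
      positivity
    · push Not at hx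
      have hxR : ‖z.1‖ ≤ |R| := hx.le.trans (le_abs_self R)
      have h5 := h' i t ht s hs z.1 z.2
      rw [Real.rpow_zero, mul_one] at h5
      calc |K i (t - s) z.1 z.2 * f i s z.2 * M.w i z.2| * (|U z.1| * |M.w i z.1|)
          ≤ ((C' * (1 + |R| * (Real.sqrt (t - s))⁻¹)) * (Gam c' (t - s) (z.1 - z.2) * Gam c' s z.2))
              * (B * W) := by
            refine mul_le_mul (h5.trans ?_) (mul_le_mul (hB _) (hWb _ _) (abs_nonneg _) hB0)
              (by positivity) (by positivity)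
            refine mul_le_mul_of_nonneg_right (mul_le_mul_of_nonneg_left ?_ hC') (by positivity)
            have := mul_le_mul_of_nonneg_right hxR h6
            linarith
        _ = _ := by ring
  have e1 : ∀ x, (∫ z, K i (t - s) x z * f i s z * M.w i z) * (U x * M.w i x)
      = ∫ z, K i (t - s) x z * f i s z * M.w i z * (U x * M.w i x) := fun x => (integral_mul_const _ _).symm
  rw [integral_congr_ae (Eventually.of_forall e1)]
  have hsw2 := integral_integral_swap (μ := (volume : Measure E4)) (ν := (volume : Measure E4))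
    (f := fun x z => K i (t - s) x z * f i s z * M.w i z * (U x * M.w i x)) hint2
  rw [hsw2]
  refine integral_congr_ae (Eventually.of_forall fun z => ?_)
  show ∫ x, K i (t - s) x z * f i s z * M.w i z * (U x * M.w i x)
    = (∫ x, K i (t - s) x z * U x * M.w i x) * f i s z * M.w i z
  rw [mul_assoc, ← integral_mul_const]
  refine integral_congr_ae (Eventually.of_forall fun x => ?_)
  show _ = _
  ring

/-- time convolution with an exponential, iterated integral identity -/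
theorem dt {B : ℝ → ℝ → ℝ} {C : ℝ} (hBm : Measurable fun z : ℝ × ℝ => B z.1 z.2)
    (hB : ∀ s ∈ Ioc (0 : ℝ) 1, ∀ σ ∈ Ioc (0 : ℝ) 1, |B σ s| ≤ C * (1 + (Real.sqrt σ)⁻¹))
    {μ : ℝ} (hμ : 0 ≤ μ) {t : ℝ} (ht : t ∈ Ioc (0 : ℝ) 1) :
    ∫ s in Ioo 0 t, ∫ σ in Ioo 0 (t - s), Real.exp (-(μ * (t - s - σ))) * B σ s
      = ∫ r in Ioo 0 t, Real.exp (-(μ * (t - r))) * ∫ s in Ioo 0 r, B (r - s) s := by
  set S : Set (ℝ × ℝ) := {z | 0 < z.1 ∧ 0 < z.2 ∧ z.1 + z.2 < t} with hS
  have hSm : MeasurableSet S :=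
    (measurableSet_lt measurable_const measurable_fst).inter
      ((measurableSet_lt measurable_const measurable_snd).inter
        (measurableSet_lt (measurable_fst.add measurable_snd) measurable_const))
  set G : ℝ × ℝ → ℝ := S.indicator fun z => Real.exp (-(μ * (t - z.1 - z.2))) * B z.2 z.1 with hG
  have hC0 : 0 ≤ C := by
    have := (abs_nonneg _).trans (hB 1 ⟨one_pos, le_rfl⟩ 1 ⟨one_pos, le_rfl⟩)
    simp at this
    linarith
  have hm0 : Measurable fun z : ℝ × ℝ => Real.exp (-(μ * (t - z.1 - z.2))) * B z.2 z.1 := by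
    refine Measurable.mul (by fun_prop) ?_
    have h2 : Measurable fun z : ℝ × ℝ => ((z.2, z.1) : ℝ × ℝ) := by fun_prop
    exact hBm.comp h2
  have hGm : Measurable G := hm0.indicator hSm
  have hGi : Integrable G ((volume : Measure ℝ).prod volume) := by
    have h1 : Integrable ((Ioo 0 t).indicator fun _ : ℝ => (1 : ℝ)) :=
      (integrable_indicator_iff measurableSet_Ioo).2 (integrableOn_const (by simp))
    have h2 : Integrable ((Ioo 0 t).indicator fun s : ℝ => C * (1 + (Real.sqrt s)⁻¹)) :=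
      (integrable_indicator_iff measurableSet_Ioo).2 ((int_w ht.1).const_mul C)
    refine (h1.mul_prod h2).mono' hGm.aestronglyMeasurable (Eventually.of_forall fun z => ?_)
    by_cases hz : z ∈ S
    · have hz1 : z.1 ∈ Ioo 0 t := ⟨hz.1, by linarith [hz.2.1, hz.2.2]⟩
      have hz2 : z.2 ∈ Ioo 0 t := ⟨hz.2.1, by linarith [hz.1, hz.2.2]⟩
      rw [hG, indicator_of_mem hz, indicator_of_mem hz1, indicator_of_mem hz2, one_mul, norm_mul,
        Real.norm_eq_abs, Real.norm_eq_abs, abs_of_pos (Real.exp_pos _)]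
      have h3 : Real.exp (-(μ * (t - z.1 - z.2))) ≤ 1 := by
        rw [Real.exp_le_one_iff]
        have : 0 ≤ μ * (t - z.1 - z.2) := mul_nonneg hμ (by linarith [hz.2.2])
        linarith
      have h4 := hB z.1 ⟨hz1.1, hz1.2.le.trans ht.2⟩ z.2 ⟨hz2.1, hz2.2.le.trans ht.2⟩
      calc _ ≤ 1 * |B z.2 z.1| := mul_le_mul_of_nonneg_right h3 (abs_nonneg _)
        _ ≤ _ := by rw [one_mul]; exact h4
    · rw [hG, indicator_of_notMem hz, norm_zero]
      refine mul_nonneg ?_ ?_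
      · exact indicator_nonneg (fun _ _ => zero_le_one) _
      · refine indicator_nonneg (fun s _ => ?_) _
        positivity
  have hmp := measurePreserving_prod_sub (volume : Measure ℝ) (volume : Measure ℝ)
  have hGi2 : Integrable (fun z : ℝ × ℝ => G (z.1, z.2 - z.1)) ((volume : Measure ℝ).prod volume) :=
    hmp.integrable_comp_of_integrable hGi
  have hL : ∫ s in Ioo 0 t, ∫ σ in Ioo 0 (t - s), Real.exp (-(μ * (t - s - σ))) * B σ s
      = ∫ s, ∫ σ, G (s, σ) := by
    rw [← integral_indicator measurableSet_Ioo]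
    refine integral_congr_ae (Eventually.of_forall fun s => ?_)
    by_cases hs : s ∈ Ioo 0 t
    · show indicator _ _ s = _
      rw [indicator_of_mem hs, ← integral_indicator measurableSet_Ioo]
      refine integral_congr_ae (Eventually.of_forall fun σ => ?_)
      by_cases hσ : σ ∈ Ioo 0 (t - s)
      · have h1 : (s, σ) ∈ S := ⟨hs.1, hσ.1, by linarith [hσ.2]⟩
        show indicator _ _ σ = G (s, σ)
        rw [indicator_of_mem hσ, hG, indicator_of_mem h1]
      · have h1 : (s, σ) ∉ S := fun h => hσ ⟨h.2.1, by linarith [h.2.2]⟩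
        show indicator _ _ σ = G (s, σ)
        rw [indicator_of_notMem hσ, hG, indicator_of_notMem h1]
    · show indicator _ _ s = _
      rw [indicator_of_notMem hs]
      have h1 : ∀ σ, G (s, σ) = 0 := by
        intro σ
        rw [hG, indicator_of_notMem]
        intro h
        exact hs ⟨h.1, by linarith [h.2.1, h.2.2]⟩
      simp [h1]
  have hR : ∫ r in Ioo 0 t, Real.exp (-(μ * (t - r))) * ∫ s in Ioo 0 r, B (r - s) s
      = ∫ r, ∫ s, G (s, r - s) := by
    rw [← integral_indicator measurableSet_Ioo]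
    refine integral_congr_ae (Eventually.of_forall fun r => ?_)
    by_cases hr : r ∈ Ioo 0 t
    · show indicator _ _ r = _
      rw [indicator_of_mem hr, ← integral_const_mul, ← integral_indicator measurableSet_Ioo]
      refine integral_congr_ae (Eventually.of_forall fun s => ?_)
      by_cases hs : s ∈ Ioo 0 r
      · have h1 : (s, r - s) ∈ S := ⟨hs.1, by simpa using hs.2, by simpa using hr.2⟩
        show indicator _ _ s = G (s, r - s)
        rw [indicator_of_mem hs, hG, indicator_of_mem h1]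
        show _ = Real.exp (-(μ * (t - s - (r - s)))) * _
        congr 3
        ring
      · have h1 : (s, r - s) ∉ S := fun h => hs ⟨h.1, by simpa using h.2.1⟩
        show indicator _ _ s = G (s, r - s)
        rw [indicator_of_notMem hs, hG, indicator_of_notMem h1]
    · show indicator _ _ r = _
      rw [indicator_of_notMem hr]
      have h1 : ∀ s, G (s, r - s) = 0 := by
        intro s
        rw [hG, indicator_of_notMem]
        intro h
        have h2 : 0 < s := h.1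
        have h3 : 0 < r - s := h.2.1
        have h4 : s + (r - s) < t := h.2.2
        exact hr ⟨by linarith, by linarith⟩
      simp [h1]
  rw [hL, hR]
  have e1 : ∀ s : ℝ, ∫ σ, G (s, σ) = ∫ r, G (s, r - s) := fun s =>
    (integral_sub_right_eq_self (fun σ => G (s, σ)) s).symm
  simp only [e1]
  exact integral_integral_swap (f := fun s r => G (s, r - s)) hGi2

end Crest.Agent.R249.HK5_905
end
end

-- ▼ part R249/HK5b_905
section

set_option autoImplicit false

open MeasureTheory Filter Topology Set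
open scoped ContDiff

noncomputable section

namespace Crest.Agent.R249.HK5_905

open Crest.Agent.R249.HK286 Crest.Agent.R249.HK1_654

section scalar
variable {ι : Type*} {M : Met ι} {R : ℝ} {c : Cut R}

theorem hasDeriv_GG (i : ι) (x z : E4) {t : ℝ} (ht : 0 < t) :
    HasDerivAt (fun s => M.GG i s x z) (M.GG i t x z * (M.rho i x z / (4 * t ^ 2) - 2 / t)) t := by
  have hp : (4 * Real.pi * t) ^ 2 ≠ 0 := by positivity
  have h1 : HasDerivAt (fun s : ℝ => ((4 * Real.pi * s) ^ 2)⁻¹)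
      (-(2 * (4 * Real.pi * t) * (4 * Real.pi)) / ((4 * Real.pi * t) ^ 2) ^ 2) t := by
    have h0 : HasDerivAt (fun s : ℝ => (4 * Real.pi * s) ^ 2) (2 * (4 * Real.pi * t) * (4 * Real.pi)) t := by
      have h3 : HasDerivAt (fun s : ℝ => 4 * Real.pi * s) (4 * Real.pi) t := by
        simpa using (hasDerivAt_id t).const_mul (4 * Real.pi)
      refine (h3.fun_pow 2).congr_deriv ?_
      simp
    exact h0.inv hp
  have h2 : HasDerivAt (fun s : ℝ => Real.exp (-(M.rho i x z / (4 * s))))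
      (Real.exp (-(M.rho i x z / (4 * t))) * (M.rho i x z / (4 * t ^ 2))) t := by
    have h0 : HasDerivAt (fun s : ℝ => -(M.rho i x z / (4 * s))) (M.rho i x z / (4 * t ^ 2)) t := by
      have h3 : HasDerivAt (fun s : ℝ => 4 * s) 4 t := by
        simpa using (hasDerivAt_id t).const_mul 4
      have h4 := ((hasDerivAt_const t (M.rho i x z)).div h3 (by positivity)).neg
      refine h4.congr_deriv ?_
      field_simp
      ring
    exact h0.exp
  refine (h1.mul h2).congr_deriv ?_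
  unfold Met.GG
  field_simp
  ring

theorem GG_nonneg (i : ι) (t : ℝ) (x z : E4) : 0 ≤ M.GG i t x z := by
  unfold Met.GG; positivity

theorem contDiff_rho (i : ι) (z : E4) : ContDiff ℝ ∞ fun x => M.rho i x z := by
  unfold Met.rho
  refine contDiff_const.mul (ContDiff.sum fun a _ => ContDiff.sum fun b _ => ?_)
  have h := (M.ubg a b).1 i
  fun_prop

theorem contDiff_GG (i : ι) (t : ℝ) (z : E4) : ContDiff ℝ ∞ fun x => M.GG i t x z := by
  unfold Met.GG
  have h := contDiff_rho (M := M) i z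
  fun_prop

theorem contDiff_HH (m : ℕ) (i : ι) (t : ℝ) (z : E4) : ContDiff ℝ ∞ fun x => M.HH c m i t x z := by
  unfold Met.HH
  exact (c.smooth m).mul (contDiff_GG i t z)

theorem meas_rho (i : ι) (z : E4) : Measurable fun x => M.rho i x z :=
  (contDiff_rho i z).continuous.measurable

/-- derivative of `∫ H_m(t,x,z) U(x) w(x) dx` in time -/
theorem hasDeriv_int (hM : InpM M c) (m : ℕ) (i : ι) {r : ℝ} {U : E4 → ℝ} (hU : BU r U) (z : E4) {t : ℝ}
    (ht : 0 < t) :
    Integrable (fun x => deriv (fun s => M.HH c m i s x z) t * U x * M.w i x) ∧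
    HasDerivAt (fun s => ∫ x, M.HH c m i s x z * U x * M.w i x)
      (∫ x, deriv (fun s => M.HH c m i s x z) t * U x * M.w i x) t := by
  obtain ⟨d, hd, hrho⟩ := hM.rho_ge
  obtain ⟨C, hC⟩ := hM.rho_le
  obtain ⟨W, hW, hWb⟩ := w_bound M
  have hder : ∀ x : E4, ∀ s : ℝ, 0 < s → HasDerivAt (fun s => M.HH c m i s x z)
      (c.ps m x * (M.GG i s x z * (M.rho i x z / (4 * s ^ 2) - 2 / s))) s := fun x s hs =>
    (hasDeriv_GG i x z hs).const_mul (c.ps m x)
  have hD : ∀ x, deriv (fun s => M.HH c m i s x z) t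
      = c.ps m x * (M.GG i t x z * (M.rho i x z / (4 * t ^ 2) - 2 / t)) := fun x => (hder x t ht).deriv
  simp only [hD]
  have hUi := hU.integrable
  obtain ⟨hUm, ⟨B, hB⟩, hU0⟩ := hU
  have hw : Measurable (M.w i) := (w_cont M i).measurable
  set bound : E4 → ℝ := fun x => (((4 * Real.pi * (t / 2)) ^ 2)⁻¹ *
    (|C| * (|r| + ‖z‖) ^ 2 / t ^ 2 + 4 / t)) * W * ‖U x‖ with hbd
  have hbi : Integrable bound := (hUi.norm.const_mul _)
  have hGle : ∀ s x, t / 2 ≤ s → M.GG i s x z ≤ ((4 * Real.pi * (t / 2)) ^ 2)⁻¹ := by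
    intro s x hs
    have hs0 : 0 < s := by linarith
    unfold Met.GG
    have h1 : Real.exp (-(M.rho i x z / (4 * s))) ≤ 1 := by
      rw [Real.exp_le_one_iff]
      have : 0 ≤ M.rho i x z := le_trans (by positivity) (hrho i x z)
      have : 0 ≤ M.rho i x z / (4 * s) := by positivity
      linarith
    have h2 : ((4 * Real.pi * s) ^ 2)⁻¹ ≤ ((4 * Real.pi * (t / 2)) ^ 2)⁻¹ := by
      apply inv_anti₀ (by positivity)
      have : 4 * Real.pi * (t / 2) ≤ 4 * Real.pi * s := by gcongr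
      have h0 : 0 ≤ 4 * Real.pi * (t / 2) := by positivity
      nlinarith
    calc _ ≤ ((4 * Real.pi * s) ^ 2)⁻¹ * 1 := mul_le_mul_of_nonneg_left h1 (by positivity)
      _ ≤ _ := by rw [mul_one]; exact h2
  refine hasDerivAt_integral_of_dominated_loc_of_deriv_le (s := Metric.ball t (t / 2)) (bound := bound)
    (F' := fun s x => c.ps m x * (M.GG i s x z * (M.rho i x z / (4 * s ^ 2) - 2 / s)) * U x * M.w i x)
    (Metric.ball_mem_nhds t (by positivity)) ?_ ?_ ?_ ?_ hbi ?_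
  · refine Eventually.of_forall fun s => ?_
    exact (((contDiff_HH m i s z).continuous.measurable.mul hUm).mul hw).aestronglyMeasurable
  · refine (hUi.norm.const_mul ((((4 * Real.pi * (t / 2)) ^ 2)⁻¹) * W)).mono'
      (((contDiff_HH m i t z).continuous.measurable.mul hUm).mul hw).aestronglyMeasurable
      (Eventually.of_forall fun x => ?_)
    rw [norm_mul, norm_mul]
    have h1 : ‖M.HH c m i t x z‖ ≤ ((4 * Real.pi * (t / 2)) ^ 2)⁻¹ := by
      unfold Met.HH
      rw [Real.norm_eq_abs, abs_of_nonneg (mul_nonneg (c.mem m x).1 (GG_nonneg _ _ _ _))]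
      calc _ ≤ 1 * M.GG i t x z := mul_le_mul_of_nonneg_right (c.mem m x).2 (GG_nonneg _ _ _ _)
        _ ≤ _ := by rw [one_mul]; exact hGle t x (by linarith)
    calc ‖M.HH c m i t x z‖ * ‖U x‖ * ‖M.w i x‖ ≤ ((4 * Real.pi * (t / 2)) ^ 2)⁻¹ * ‖U x‖ * W :=
          mul_le_mul (mul_le_mul_of_nonneg_right h1 (norm_nonneg _)) (hWb i x) (norm_nonneg _) (by positivity)
      _ = _ := by ring
  · refine Measurable.aestronglyMeasurable ?_
    refine (Measurable.mul (Measurable.mul (c.smooth m).continuous.measurable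
      (Measurable.mul (contDiff_GG i t z).continuous.measurable ?_)) hUm).mul hw
    exact ((meas_rho i z).div_const _).sub_const _
  · refine Eventually.of_forall fun x s hs => ?_
    rw [Metric.mem_ball, Real.dist_eq, abs_lt] at hs
    have hs1 : t / 2 ≤ s := by linarith [hs.1]
    have hs0 : 0 < s := by linarith
    rw [norm_mul, norm_mul, norm_mul, norm_mul]
    by_cases hx : r ≤ ‖x‖
    · simp only [hbd, hU0 x hx, norm_zero, mul_zero, zero_mul]
      exact le_rfl
    · push Not at hx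
      have h1 : ‖c.ps m x‖ ≤ 1 := by
        rw [Real.norm_eq_abs, abs_of_nonneg (c.mem m x).1]; exact (c.mem m x).2
      have h2 : ‖M.GG i s x z‖ ≤ ((4 * Real.pi * (t / 2)) ^ 2)⁻¹ := by
        rw [Real.norm_eq_abs, abs_of_nonneg (GG_nonneg _ _ _ _)]; exact hGle s x hs1
      have hr0 : 0 ≤ M.rho i x z := le_trans (by positivity) (hrho i x z)
      have hxz : ‖x - z‖ ≤ |r| + ‖z‖ := (norm_sub_le x z).trans (by linarith [le_abs_self r])
      have h3 : M.rho i x z ≤ |C| * (|r| + ‖z‖) ^ 2 := by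
        refine (hC i x z).trans ?_
        calc C * ‖x - z‖ ^ 2 ≤ |C| * ‖x - z‖ ^ 2 := mul_le_mul_of_nonneg_right (le_abs_self C) (by positivity)
          _ ≤ _ := by gcongr
      have h4 : ‖M.rho i x z / (4 * s ^ 2) - 2 / s‖ ≤ |C| * (|r| + ‖z‖) ^ 2 / t ^ 2 + 4 / t := by
        refine (norm_sub_le _ _).trans ?_
        rw [Real.norm_of_nonneg (by positivity), Real.norm_of_nonneg (by positivity)]
        refine add_le_add ?_ ?_
        · have h5 : t ^ 2 ≤ 4 * s ^ 2 := by nlinarith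
          calc M.rho i x z / (4 * s ^ 2) ≤ M.rho i x z / t ^ 2 := by gcongr
            _ ≤ _ := by gcongr
        · rw [div_le_div_iff₀ hs0 ht]
          linarith
      have h5 : ‖M.w i x‖ ≤ W := hWb i x
      calc ‖c.ps m x‖ * (‖M.GG i s x z‖ * ‖M.rho i x z / (4 * s ^ 2) - 2 / s‖) * ‖U x‖ * ‖M.w i x‖
          ≤ 1 * ((((4 * Real.pi * (t / 2)) ^ 2)⁻¹) * (|C| * (|r| + ‖z‖) ^ 2 / t ^ 2 + 4 / t)) * ‖U x‖ * W := by
            gcongr
        _ = bound x := by simp only [hbd]; ring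
  · refine Eventually.of_forall fun x s hs => ?_
    rw [Metric.mem_ball, Real.dist_eq, abs_lt] at hs
    have hs0 : 0 < s := by linarith [hs.1]
    exact ((hder x s hs0).mul_const (U x)).mul_const (M.w i x)

end scalar

section matrix
variable {ι : Type*} {M : Met ι} {κ : Type} [Fintype κ] [DecidableEq κ] {R : ℝ} {c : Cut R} {D : Con M κ}

theorem pd_eq_zero {f : E4 → ℝ} {x : E4} (h : f =ᶠ[𝓝 x] fun _ => 0) (j : Fin 4) : pd j f x = 0 := by
  unfold pd
  rw [h.fderiv_eq]
  simp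

/-- the error kernel vanishes outside the support of the cut-off -/
theorem eM_zero {m : ℕ} {x : E4} (hx : (2 * m + 1) * R / 8 < ‖x‖) (i : ι) (t : ℝ) (z : E4) (p q : κ) :
    D.eM c m i t x z p q = 0 := by
  have hev : c.ps m =ᶠ[𝓝 x] fun _ => 0 := by
    have : ∀ᶠ y in 𝓝 x, (2 * m + 1) * R / 8 < ‖y‖ := continuous_norm.continuousAt.eventually (lt_mem_nhds hx)
    filter_upwards [this] with y hy
    exact c.zero m y hy.le
  have h0 : c.ps m x = 0 := hev.eq_of_nhds
  have h1 : ∀ j, pd j (c.ps m) x = 0 := fun j => pd_eq_zero hev j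
  have h2 : M.lap i (c.ps m) x = 0 := by
    unfold Met.lap
    have : ∀ j l, pd j (fun y => M.w i y * M.h i j l y * pd l (c.ps m) y) x = 0 := by
      intro j l
      refine pd_eq_zero ?_ j
      filter_upwards [hev.eventuallyEq_nhds] with y hy
      rw [pd_eq_zero hy l, mul_zero]
    simp [this]
  have h3 : M.e0 c m i t x z = 0 := by
    unfold Met.e0
    simp [h0, h1, h2]
  have h4 : D.sk c m i t x z p q = 0 := by
    unfold Con.sk Met.dH Met.HH
    simp [h0, h1]
  have h5 : D.sy c m i t x z p q = 0 := by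
    unfold Con.sy Met.HH
    simp [h0]
  unfold Con.eM
  simp [h3, h4, h5]

theorem HH_zero {m : ℕ} {x : E4} (hx : (2 * m + 1) * R / 8 ≤ ‖x‖) (i : ι) (t : ℝ) (z : E4) :
    M.HH c m i t x z = 0 := by
  unfold Met.HH; rw [c.zero m x hx, zero_mul]

variable {K : Type} (S : Sys D R K)

/-- the eigenfunction cut at radius `15 R / 16` -/
def uu (i : ι) (k : K) (b : κ) : E4 → ℝ := (Metric.ball (0 : E4) (15 * R / 16)).indicator fun x => S.u i k x b

theorem uu_BU (hR : 0 < R) (i : ι) (k : K) (b : κ) : BU (15 * R / 16) (uu S i k b) := by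
  classical
  have hsub : Metric.closedBall (0 : E4) (15 * R / 16) ⊆ Metric.ball 0 R :=
    Metric.closedBall_subset_ball (by linarith)
  have hc := (S.cont i k b).mono hsub
  refine ⟨?_, ?_, ?_⟩
  · have h1 : ContinuousOn (fun x => S.u i k x b) (Metric.ball (0 : E4) (15 * R / 16)) :=
      hc.mono Metric.ball_subset_closedBall
    have h2 := h1.measurable_piecewise (g := fun _ => (0 : ℝ)) continuousOn_const measurableSet_ball
    have h3 : (Metric.ball (0 : E4) (15 * R / 16)).piecewise (fun x => S.u i k x b) (fun _ => (0 : ℝ))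
        = uu S i k b := by
      unfold uu
      rw [← Set.piecewise_eq_indicator]
      rfl
    rw [h3] at h2
    exact h2
  · obtain ⟨B, hB⟩ := (isCompact_closedBall (0 : E4) (15 * R / 16)).exists_bound_of_continuousOn hc
    refine ⟨|B|, fun x => ?_⟩
    unfold uu
    by_cases hx : x ∈ Metric.ball (0 : E4) (15 * R / 16)
    · rw [indicator_of_mem hx]
      exact (hB x (Metric.ball_subset_closedBall hx)).trans (le_abs_self B)
    · rw [indicator_of_notMem hx]; simp
  · intro x hx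
    unfold uu
    rw [indicator_of_notMem]
    simpa using hx

theorem uu_eq {i : ι} {k : K} {b : κ} {x : E4} (hx : ‖x‖ < 15 * R / 16) : uu S i k b x = S.u i k x b := by
  unfold uu
  rw [indicator_of_mem]
  simpa using hx

/-- pairing with `u_k` can be computed with `uu` for functions supported in the ball of radius `15R/16` -/
theorem ip_eq {i : ι} {k : K} {f : E4 → κ → ℝ} (hf : ∀ x p, 15 * R / 16 ≤ ‖x‖ → f x p = 0) :
    M.ip i f (S.u i k) = ∫ x, (∑ p, f x p * uu S i k p x) * M.w i x := by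
  unfold Met.ip
  refine integral_congr_ae (Eventually.of_forall fun x => ?_)
  show (∑ p, f x p * S.u i k x p) * M.w i x = (∑ p, f x p * uu S i k p x) * M.w i x
  congr 1
  refine Finset.sum_congr rfl fun p _ => ?_
  by_cases hx : ‖x‖ < 15 * R / 16
  · rw [uu_eq S hx]
  · rw [hf x p (not_lt.1 hx), zero_mul, zero_mul]

theorem tst_HH (hR : 0 < R) {m : ℕ} (hm : m ≤ 3) (i : ι) (t : ℝ) (z : E4) (b : κ) :
    Tst R (fun y r => if r = b then M.HH c m i t y z else 0) := by
  refine ⟨fun p => ?_, (2 * m + 1) * R / 8, ?_, fun x p hx => ?_⟩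
  · by_cases h : p = b
    · simp only [h, if_true]; exact contDiff_HH m i t z
    · simp only [h, if_false]; exact contDiff_const
  · have : (m : ℝ) ≤ 3 := by exact_mod_cast hm
    nlinarith
  · show (if p = b then M.HH c m i t x z else 0) = 0
    rw [HH_zero hx]; simp

variable (hC : Cal M) (hM : InpM M c) (hD : InpD c D)
include hC hM hD

/-- the error pairing `∑_p ∫ eM(σ,x,z)_{pb} u_p w` -/
def Eb (S : Sys D R K) (c : Cut R) (m : ℕ) (i : ι) (k : K) (b : κ) (σ : ℝ) (z : E4) : ℝ :=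
  ∑ p, AA M (fun i t x z => D.eM c m i t x z p b) (uu S i k p) i σ z

theorem Eb_bound (hR : 0 < R) (m : ℕ) (i : ι) (k : K) (b : κ) :
    ∃ C : ℝ, 0 ≤ C ∧ ∀ t ∈ Ioc (0 : ℝ) 1, ∀ z, |Eb S c m i k b t z| ≤ C * (1 + (Real.sqrt t)⁻¹) := by
  choose C hC0 hCb using fun p => AA_bound (M := M) (kw_eM hC hM hD m p b) (uu_BU S hR i k p)
  refine ⟨∑ p, C p, Finset.sum_nonneg fun p _ => hC0 p, fun t ht z => ?_⟩
  unfold Eb
  refine (Finset.abs_sum_le_sum_abs _ _).trans ?_
  rw [Finset.sum_mul]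
  exact Finset.sum_le_sum fun p _ => hCb p i t ht z

theorem Eb_meas (hR : 0 < R) (m : ℕ) (i : ι) (k : K) (b : κ) :
    Measurable fun z : ℝ × E4 => Eb S c m i k b z.1 z.2 :=
  Finset.measurable_fun_sum _ fun p _ => AA_meas (M := M) (kw_eM hC hM hD m p b) (uu_BU S hR i k p) i

theorem Eb_meas1 (hR : 0 < R) (m : ℕ) (i : ι) (k : K) (b : κ) (z : E4) :
    Measurable fun s : ℝ => Eb S c m i k b s z := by
  have h1 : Measurable fun s : ℝ => ((s, z) : ℝ × E4) := by fun_prop
  have h2 := (Eb_meas S hC hM hD hR m i k b).comp h1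
  exact h2

theorem Eb_meas2 (hR : 0 < R) (m : ℕ) (i : ι) (k : K) (b : κ) (s : ℝ) :
    Measurable fun z : E4 => Eb S c m i k b s z := by
  have h1 : Measurable fun z : E4 => ((s, z) : ℝ × E4) := by fun_prop
  have h2 := (Eb_meas S hC hM hD hR m i k b).comp h1
  exact h2

/-- the differential equation in time -/
theorem hasDeriv_phi (hR : 0 < R) {m : ℕ} (hm : m ≤ 3) (i : ι) (k : K) (b : κ) (z : E4) {t : ℝ}
    (ht : t ∈ Ioc (0 : ℝ) 1) :
    HasDerivAt (fun s => AA M (M.HH c m) (uu S i k b) i s z)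
      (Eb S c m i k b t z - S.mu i k * AA M (M.HH c m) (uu S i k b) i t z) t := by
  obtain ⟨h1, h2⟩ := hasDeriv_int hM m i (uu_BU S hR i k b) z ht.1
  refine h2.congr_deriv ?_
  set f : E4 → κ → ℝ := fun y r => if r = b then M.HH c m i t y z else 0 with hf
  have hmr : (m : ℝ) ≤ 3 := by exact_mod_cast hm
  have hm16 : (2 * m + 1) * R / 8 < 15 * R / 16 := by nlinarith
  have hder0 : ∀ x : E4, 15 * R / 16 ≤ ‖x‖ → deriv (fun s => M.HH c m i s x z) t = 0 := by
    intro x hx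
    have : (fun s => M.HH c m i s x z) = fun _ => (0 : ℝ) := by
      funext s; exact HH_zero (hm16.le.trans hx) i s z
    rw [this]; simp
  have hEM : ∀ x p, D.LL i f x p = D.eM c m i t x z p b
      - (if p = b then deriv (fun s => M.HH c m i s x z) t else 0) := by
    intro x p
    have := hD.em m i t x z p b ht.1
    linarith
  have hLL0 : ∀ x p, 15 * R / 16 ≤ ‖x‖ → D.LL i f x p = 0 := by
    intro x p hx
    rw [hEM, eM_zero (hm16.trans_le hx), hder0 x hx]; simp
  have hf0 : ∀ x p, 15 * R / 16 ≤ ‖x‖ → f x p = 0 := by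
    intro x p hx
    show (if p = b then M.HH c m i t x z else 0) = 0
    rw [HH_zero (hm16.le.trans hx)]; simp
  have heig := S.eig i k f (tst_HH hR hm i t z b)
  rw [ip_eq S hLL0, ip_eq S hf0] at heig
  have e1 : ∫ x, (∑ p, f x p * uu S i k p x) * M.w i x = AA M (M.HH c m) (uu S i k b) i t z := by
    unfold AA
    refine integral_congr_ae (Eventually.of_forall fun x => ?_)
    show (∑ p, f x p * uu S i k p x) * M.w i x = _
    simp [hf, ite_mul]
  have hi : ∀ p, Integrable fun x => D.eM c m i t x z p b * uu S i k p x * M.w i x := fun p =>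
    AA_int (M := M) (kw_eM hC hM hD m p b) (uu_BU S hR i k p) i ht z
  have e2 : ∫ x, (∑ p, D.LL i f x p * uu S i k p x) * M.w i x
      = Eb S c m i k b t z - ∫ x, deriv (fun s => M.HH c m i s x z) t * uu S i k b x * M.w i x := by
    unfold Eb AA
    rw [← integral_finsetSum _ fun p _ => hi p,
      ← integral_sub (integrable_finsetSum _ fun p _ => hi p) h1]
    refine integral_congr_ae (Eventually.of_forall fun x => ?_)
    show (∑ p, D.LL i f x p * uu S i k p x) * M.w i x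
      = (∑ p, D.eM c m i t x z p b * uu S i k p x * M.w i x)
        - deriv (fun s => M.HH c m i s x z) t * uu S i k b x * M.w i x
    simp only [hEM, sub_mul, Finset.sum_sub_distrib, ite_mul, zero_mul, Finset.sum_ite_eq',
      Finset.mem_univ, if_true, Finset.sum_mul]
  rw [e1, e2] at heig
  linarith

/-- **(D1)** -/
theorem duhamel (hR : 0 < R)
    (hk4 : ∀ (i : ι) (z : E4) (f : E4 → ℝ), Measurable f → (∃ B, ∀ x, |f x| ≤ B) → ContinuousAt f z →
      Tendsto (fun t => ∫ x, M.GG i t x z * f x * M.w i x) (𝓝[>] 0) (𝓝 (f z)))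
    {m : ℕ} (hm : m ≤ 3) (i : ι) (k : K) (b : κ) {z : E4} (hz : ‖z‖ < 15 * R / 16) {t : ℝ}
    (ht : t ∈ Ioc (0 : ℝ) 1) :
    AA M (M.HH c m) (uu S i k b) i t z
      = Real.exp (-(S.mu i k * t)) * (c.ps m z * S.u i k z b)
        + ∫ σ in Ioo 0 t, Real.exp (-(S.mu i k * (t - σ))) * Eb S c m i k b σ z := by
  set μ := S.mu i k with hμ
  set φ : ℝ → ℝ := fun s => AA M (M.HH c m) (uu S i k b) i s z with hφ
  have hd : ∀ s ∈ Ioc (0 : ℝ) 1, HasDerivAt φ (Eb S c m i k b s z - μ * φ s) s := fun s hs =>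
    hasDeriv_phi S hC hM hD hR hm i k b z hs
  -- value at zero
  have h0 : Tendsto φ (𝓝[>] 0) (𝓝 (c.ps m z * S.u i k z b)) := by
    obtain ⟨hum, ⟨B, hB⟩, _⟩ := uu_BU S hR i k b
    have h1 := hk4 i z (fun x => c.ps m x * uu S i k b x)
      ((c.smooth m).continuous.measurable.mul hum) ⟨B, fun x => ?_⟩ ?_
    · simp only [uu_eq S hz] at h1
      refine h1.congr fun s => ?_
      simp only [hφ, AA, Met.HH]
      refine integral_congr_ae (Eventually.of_forall fun x => ?_)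
      show M.GG i s x z * (c.ps m x * uu S i k b x) * M.w i x = c.ps m x * M.GG i s x z * uu S i k b x * M.w i x
      ring
    · rw [abs_mul, abs_of_nonneg (c.mem m x).1]
      calc _ ≤ 1 * |uu S i k b x| := mul_le_mul_of_nonneg_right (c.mem m x).2 (abs_nonneg _)
        _ ≤ B := by rw [one_mul]; exact hB x
    · refine ((c.smooth m).continuous.continuousAt).mul ?_
      have hzR : z ∈ Metric.ball (0 : E4) R := by
        rw [mem_ball_zero_iff]; linarith
      have h3 : ContinuousAt (fun x => S.u i k x b) z :=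
        (S.cont i k b).continuousAt (Metric.isOpen_ball.mem_nhds hzR)
      refine h3.congr ?_
      have h4 : Metric.ball (0 : E4) (15 * R / 16) ∈ 𝓝 z := Metric.isOpen_ball.mem_nhds (by simpa using hz)
      filter_upwards [h4] with x hx
      exact (uu_eq S (by simpa using hx)).symm
  -- the integrating factor
  obtain ⟨C, hC0, hCb⟩ := Eb_bound S hC hM hD hR m i k b
  have hEm : Measurable fun s => Eb S c m i k b s z := Eb_meas1 S hC hM hD hR m i k b z
  have hg : ∀ s ∈ Ioc (0 : ℝ) 1, HasDerivAt (fun s => Real.exp (μ * s) * φ s)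
      (Real.exp (μ * s) * Eb S c m i k b s z) s := by
    intro s hs
    have h1 : HasDerivAt (fun s => Real.exp (μ * s)) (Real.exp (μ * s) * μ) s := by
      have : HasDerivAt (fun s => μ * s) μ s := by simpa using (hasDerivAt_id s).const_mul μ
      exact this.exp
    refine (h1.mul (hd s hs)).congr_deriv ?_
    ring
  have hint : IntegrableOn (fun s => Real.exp (μ * s) * Eb S c m i k b s z) (Ioo 0 t) := by
    have h1 : IntegrableOn (fun s : ℝ => (Real.exp (|μ|) * C) * (1 + (Real.sqrt s)⁻¹)) (Ioo 0 t) :=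
      (int_w ht.1).const_mul _
    refine h1.mono' ((by fun_prop : Measurable fun s : ℝ => Real.exp (μ * s)).mul hEm).aestronglyMeasurable ?_
    filter_upwards [ae_restrict_mem measurableSet_Ioo] with s hs
    have hs1 : s ∈ Ioc (0 : ℝ) 1 := ⟨hs.1, hs.2.le.trans ht.2⟩
    rw [norm_mul, Real.norm_eq_abs, Real.norm_eq_abs, abs_of_pos (Real.exp_pos _), mul_assoc]
    refine mul_le_mul (Real.exp_le_exp.2 ?_) (hCb s hs1 z) (abs_nonneg _) (Real.exp_pos _).le
    calc μ * s ≤ |μ| * s := mul_le_mul_of_nonneg_right (le_abs_self μ) hs.1.le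
      _ ≤ |μ| * 1 := mul_le_mul_of_nonneg_left hs1.2 (abs_nonneg _)
      _ = |μ| := mul_one _
  have hII : IntervalIntegrable (fun s => Real.exp (μ * s) * Eb S c m i k b s z) volume 0 t :=
    (intervalIntegrable_iff_integrableOn_Ioo_of_le ht.1.le).2 hint
  have hF := intervalIntegral.integral_eq_sub_of_hasDerivAt_of_tendsto ht.1
    (f := fun s => Real.exp (μ * s) * φ s) (fa := c.ps m z * S.u i k z b) (fb := Real.exp (μ * t) * φ t)
    (fun s hs => hg s ⟨hs.1, hs.2.le.trans ht.2⟩) hII ?_ ?_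
  · rw [intervalIntegral.integral_of_le ht.1.le, integral_Ioc_eq_integral_Ioo] at hF
    have h5 : φ t = Real.exp (-(μ * t)) * (c.ps m z * S.u i k z b
        + ∫ s in Ioo 0 t, Real.exp (μ * s) * Eb S c m i k b s z) := by
      rw [hF]
      have : Real.exp (-(μ * t)) * Real.exp (μ * t) = 1 := by rw [← Real.exp_add]; simp
      have h6 : Real.exp (-(μ * t)) * (c.ps m z * S.u i k z b + (Real.exp (μ * t) * φ t - c.ps m z * S.u i k z b))
          = (Real.exp (-(μ * t)) * Real.exp (μ * t)) * φ t := by ring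
      rw [h6, this, one_mul]
    show φ t = _
    rw [h5, mul_add]
    congr 1
    rw [← integral_const_mul]
    refine setIntegral_congr_fun measurableSet_Ioo fun s _ => ?_
    show Real.exp (-(μ * t)) * (Real.exp (μ * s) * Eb S c m i k b s z) = _
    rw [← mul_assoc, ← Real.exp_add]
    congr 2
    ring
  · have h1 : Tendsto (fun s : ℝ => Real.exp (μ * s)) (𝓝[>] 0) (𝓝 1) := by
      have : Tendsto (fun s : ℝ => Real.exp (μ * s)) (𝓝 0) (𝓝 (Real.exp (μ * 0))) :=
        (by fun_prop : Continuous fun s : ℝ => Real.exp (μ * s)).tendsto 0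
      rw [mul_zero, Real.exp_zero] at this
      exact this.mono_left nhdsWithin_le_nhds
    simpa using h1.mul h0
  · exact ((hg t ht).continuousAt.tendsto).mono_left nhdsWithin_le_nhds

end matrix

end Crest.Agent.R249.HK5_905
end
end

-- ▼ part R249/HK5c_905
section

set_option autoImplicit false

open MeasureTheory Filter Topology Set
open scoped ContDiff

noncomputable section

namespace Crest.Agent.R249.HK5_905

open Crest.Agent.R249.HK286 Crest.Agent.R249.HK1_654

section scalar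
variable {ι : Type*} {M : Met ι} {r : ℝ}

/-- pairing of a time dependent function with `U` -/
def PP (M : Met ι) (h : ι → ℝ → E4 → ℝ) (U : E4 → ℝ) (i : ι) (s : ℝ) : ℝ := ∫ z, h i s z * U z * M.w i z

/-- time convolution of the pairing -/
def TT (M : Met ι) (μ : ℝ) (h : ι → ℝ → E4 → ℝ) (U : E4 → ℝ) (i : ι) (t : ℝ) : ℝ :=
  ∫ s in Ioo 0 t, Real.exp (-(μ * (t - s))) * PP M h U i s

theorem vb_meas_z {h : ι → ℝ → E4 → ℝ} {a : ℝ} (hh : VB a h) (i : ι) (s : ℝ) : Measurable fun z => h i s z :=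
  (hh.1 i).comp (measurable_prodMk_left (x := s))

theorem PP_meas {h : ι → ℝ → E4 → ℝ} (hh : VB 0 h) {U : E4 → ℝ} (hU : BU r U) (i : ι) :
    Measurable fun s => PP M h U i s := by
  have h1 : Measurable fun z : ℝ × E4 => h i z.1 z.2 * U z.2 * M.w i z.2 :=
    ((hh.1 i).mul (hU.1.comp measurable_snd)).mul ((w_cont M i).measurable.comp measurable_snd)
  exact h1.stronglyMeasurable.integral_prod_right'.measurable

theorem PP_bound {h : ι → ℝ → E4 → ℝ} (hh : VB 0 h) {U : E4 → ℝ} (hU : BU r U) :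
    ∃ C : ℝ, 0 ≤ C ∧ ∀ i, ∀ s ∈ Ioc (0 : ℝ) 1,
      Integrable (fun z => h i s z * U z * M.w i z) ∧ |PP M h U i s| ≤ C := by
  obtain ⟨C, hC, hb⟩ := vb_L1 (M := M) hh
  obtain ⟨hUm, ⟨B, hB⟩, _⟩ := id hU
  have hB0 : 0 ≤ B := (abs_nonneg _).trans (hB 0)
  obtain ⟨W, hW, hWb⟩ := w_bound M
  refine ⟨B * C, by positivity, fun i s hs => ?_⟩
  obtain ⟨h1, h2⟩ := hb i s hs
  have hfw : Integrable (fun z => h i s z * M.w i z) := by
    refine (h1.norm.const_mul W).mono' (h1.aestronglyMeasurable.mul (w_cont M i).aestronglyMeasurable)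
      (Eventually.of_forall fun z => ?_)
    rw [norm_mul, mul_comm]
    exact mul_le_mul_of_nonneg_right (by simpa using hWb i z) (norm_nonneg _)
  have hpt : ∀ z, ‖h i s z * U z * M.w i z‖ ≤ B * |h i s z * M.w i z| := by
    intro z
    have : h i s z * U z * M.w i z = U z * (h i s z * M.w i z) := by ring
    rw [this, norm_mul, Real.norm_eq_abs, Real.norm_eq_abs]
    exact mul_le_mul_of_nonneg_right (hB z) (abs_nonneg _)
  have hint : Integrable (fun z => h i s z * U z * M.w i z) := by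
    refine (hfw.abs.const_mul B).mono' ?_ (Eventually.of_forall hpt)
    exact (((vb_meas_z hh i s).mul hUm).mul (w_cont M i).measurable).aestronglyMeasurable
  refine ⟨hint, ?_⟩
  have h3 := norm_integral_le_of_norm_le (hfw.abs.const_mul B) (Eventually.of_forall hpt)
  rw [Real.norm_eq_abs, integral_const_mul] at h3
  exact h3.trans (mul_le_mul_of_nonneg_left h2 hB0)

theorem TT_int {h : ι → ℝ → E4 → ℝ} (hh : VB 0 h) {U : E4 → ℝ} (hU : BU r U) (i : ι) {μ : ℝ} (hμ : 0 ≤ μ)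
    {t : ℝ} (ht : t ∈ Ioc (0 : ℝ) 1) :
    IntegrableOn (fun s => Real.exp (-(μ * (t - s))) * PP M h U i s) (Ioo 0 t) := by
  obtain ⟨C, hC, hb⟩ := PP_bound (M := M) hh hU
  have h0 : IntegrableOn (fun _ : ℝ => C) (Ioo 0 t) := integrableOn_const (by simp)
  refine h0.mono' ?_ ?_
  · exact ((by fun_prop : Measurable fun s : ℝ => Real.exp (-(μ * (t - s)))).mul
      (PP_meas hh hU i)).aestronglyMeasurable
  · filter_upwards [ae_restrict_mem measurableSet_Ioo] with s hs
    have hs1 : s ∈ Ioc (0 : ℝ) 1 := ⟨hs.1, hs.2.le.trans ht.2⟩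
    rw [norm_mul, Real.norm_eq_abs, Real.norm_eq_abs, abs_of_pos (Real.exp_pos _)]
    have h1 : Real.exp (-(μ * (t - s))) ≤ 1 := by
      rw [Real.exp_le_one_iff]
      have : 0 ≤ μ * (t - s) := mul_nonneg hμ (by linarith [hs.2])
      linarith
    calc _ ≤ 1 * C := mul_le_mul h1 (hb i s hs1).2 (abs_nonneg _) zero_le_one
      _ = C := one_mul C

theorem PP_congr {h h' : ι → ℝ → E4 → ℝ} {U : E4 → ℝ} {i : ι} {s : ℝ} (e : ∀ z, h i s z = h' i s z) :
    PP M h U i s = PP M h' U i s := by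
  unfold PP
  simp only [e]

theorem TT_congr {h h' : ι → ℝ → E4 → ℝ} {U : E4 → ℝ} {i : ι} {μ t : ℝ}
    (e : ∀ s ∈ Ioo 0 t, ∀ z, h i s z = h' i s z) : TT M μ h U i t = TT M μ h' U i t := by
  unfold TT
  refine setIntegral_congr_fun measurableSet_Ioo fun s hs => ?_
  show Real.exp _ * PP M h U i s = Real.exp _ * PP M h' U i s
  rw [PP_congr (e s hs)]

theorem PP_sum {α : Type*} (A : Finset α) {h : α → ι → ℝ → E4 → ℝ} (hh : ∀ b, VB 0 (h b)) {U : E4 → ℝ}
    (hU : BU r U) (i : ι) {s : ℝ} (hs : s ∈ Ioc (0 : ℝ) 1) :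
    PP M (fun i t x => ∑ b ∈ A, h b i t x) U i s = ∑ b ∈ A, PP M (h b) U i s := by
  unfold PP
  rw [← integral_finsetSum A fun b _ => ?_]
  · refine integral_congr_ae (Eventually.of_forall fun z => ?_)
    show (∑ b ∈ A, h b i s z) * U z * M.w i z = ∑ b ∈ A, h b i s z * U z * M.w i z
    rw [Finset.sum_mul, Finset.sum_mul]
  · obtain ⟨C, hC, hb⟩ := PP_bound (M := M) (hh b) hU
    exact (hb i s hs).1

theorem TT_sum {α : Type*} (A : Finset α) {h : α → ι → ℝ → E4 → ℝ} (hh : ∀ b, VB 0 (h b)) {U : E4 → ℝ}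
    (hU : BU r U) (i : ι) {μ : ℝ} (hμ : 0 ≤ μ) {t : ℝ} (ht : t ∈ Ioc (0 : ℝ) 1) :
    TT M μ (fun i t x => ∑ b ∈ A, h b i t x) U i t = ∑ b ∈ A, TT M μ (h b) U i t := by
  unfold TT
  rw [← integral_finsetSum A fun b _ => TT_int (hh b) hU i hμ ht]
  refine setIntegral_congr_fun measurableSet_Ioo fun s hs => ?_
  show Real.exp _ * PP M _ U i s = ∑ b ∈ A, Real.exp _ * PP M (h b) U i s
  rw [PP_sum A hh hU i ⟨hs.1, hs.2.le.trans ht.2⟩, Finset.mul_sum]

/-- swap of the time convolution and the space integral -/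
theorem swapE {A : ℝ → E4 → ℝ} {C0 : ℝ} (hA : Measurable fun z : ℝ × E4 => A z.1 z.2)
    (hAb : ∀ t ∈ Ioc (0 : ℝ) 1, ∀ z, |A t z| ≤ C0 * (1 + (Real.sqrt t)⁻¹)) {f : ι → ℝ → E4 → ℝ}
    (hf : VB 0 f) (i : ι) {s : ℝ} (hs : s ∈ Ioc (0 : ℝ) 1) {τ : ℝ} (hτ : τ ∈ Ioc (0 : ℝ) 1) {μ : ℝ} (hμ : 0 ≤ μ) :
    Integrable (fun z => (∫ σ in Ioo 0 τ, Real.exp (-(μ * (τ - σ))) * A σ z) * (f i s z * M.w i z)) ∧
    ∫ z, (∫ σ in Ioo 0 τ, Real.exp (-(μ * (τ - σ))) * A σ z) * (f i s z * M.w i z)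
      = ∫ σ in Ioo 0 τ, Real.exp (-(μ * (τ - σ))) * ∫ z, A σ z * f i s z * M.w i z := by
  obtain ⟨C, hC, hb⟩ := vb_L1 (M := M) hf
  obtain ⟨h1, _⟩ := hb i s hs
  obtain ⟨W, hW, hWb⟩ := w_bound M
  have hfw : Integrable (fun z => f i s z * M.w i z) := by
    refine (h1.norm.const_mul W).mono' (h1.aestronglyMeasurable.mul (w_cont M i).aestronglyMeasurable)
      (Eventually.of_forall fun z => ?_)
    rw [norm_mul, mul_comm]
    exact mul_le_mul_of_nonneg_right (by simpa using hWb i z) (norm_nonneg _)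
  have hmeas : Measurable fun z : E4 × ℝ => Real.exp (-(μ * (τ - z.2))) * A z.2 z.1 * (f i s z.1 * M.w i z.1) := by
    refine Measurable.mul (Measurable.mul (by fun_prop) ?_) ?_
    · have h2 : Measurable fun z : E4 × ℝ => ((z.2, z.1) : ℝ × E4) := by fun_prop
      exact hA.comp h2
    · exact ((vb_meas_z hf i s).mul (w_cont M i).measurable).comp measurable_fst
  have hint : Integrable (fun z : E4 × ℝ =>
      Real.exp (-(μ * (τ - z.2))) * A z.2 z.1 * (f i s z.1 * M.w i z.1))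
      ((volume : Measure E4).prod (volume.restrict (Ioo 0 τ))) := by
    have hb2 : Integrable (fun σ : ℝ => C0 * (1 + (Real.sqrt σ)⁻¹)) (volume.restrict (Ioo 0 τ)) :=
      (int_w hτ.1).const_mul C0
    refine (hfw.abs.mul_prod hb2).mono' hmeas.aestronglyMeasurable ?_
    have hae : ∀ᵐ z : E4 × ℝ ∂((volume : Measure E4).prod (volume.restrict (Ioo 0 τ))), z.2 ∈ Ioo 0 τ := by
      have h3 : (volume : Measure E4).prod (volume.restrict (Ioo 0 τ))
          = ((volume : Measure E4).prod volume).restrict (univ ×ˢ Ioo 0 τ) := by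
        rw [← Measure.prod_restrict, Measure.restrict_univ]
      rw [h3]
      filter_upwards [ae_restrict_mem (MeasurableSet.univ.prod measurableSet_Ioo)] with z hz
      exact hz.2
    filter_upwards [hae] with z hz
    have hz1 : z.2 ∈ Ioc (0 : ℝ) 1 := ⟨hz.1, hz.2.le.trans hτ.2⟩
    rw [norm_mul, norm_mul, Real.norm_eq_abs, Real.norm_eq_abs, Real.norm_eq_abs, abs_of_pos (Real.exp_pos _)]
    have h3 : Real.exp (-(μ * (τ - z.2))) ≤ 1 := by
      rw [Real.exp_le_one_iff]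
      have : 0 ≤ μ * (τ - z.2) := mul_nonneg hμ (by linarith [hz.2])
      linarith
    calc Real.exp (-(μ * (τ - z.2))) * |A z.2 z.1| * |f i s z.1 * M.w i z.1|
        ≤ (1 * (C0 * (1 + (Real.sqrt z.2)⁻¹))) * |f i s z.1 * M.w i z.1| :=
          mul_le_mul_of_nonneg_right (mul_le_mul h3 (hAb z.2 hz1 z.1) (abs_nonneg _) zero_le_one) (abs_nonneg _)
      _ = _ := by ring
  have e1 : ∀ z, (∫ σ in Ioo 0 τ, Real.exp (-(μ * (τ - σ))) * A σ z) * (f i s z * M.w i z)
      = ∫ σ in Ioo 0 τ, Real.exp (-(μ * (τ - σ))) * A σ z * (f i s z * M.w i z) := fun z =>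
    (integral_mul_const _ _).symm
  simp only [e1]
  refine ⟨hint.integral_prod_left, ?_⟩
  have hsw := integral_integral_swap (μ := (volume : Measure E4)) (ν := volume.restrict (Ioo 0 τ))
    (f := fun z σ => Real.exp (-(μ * (τ - σ))) * A σ z * (f i s z * M.w i z)) hint
  rw [hsw]
  refine setIntegral_congr_fun measurableSet_Ioo fun σ _ => ?_
  show _ = Real.exp (-(μ * (τ - σ))) * ∫ z, A σ z * f i s z * M.w i z
  rw [← integral_const_mul]
  refine integral_congr_ae (Eventually.of_forall fun z => ?_)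
  show _ = _
  ring

/-- integrability in time of the inner double integral of `fub` -/
theorem fub_int {A : ℝ → E4 → ℝ} {C0 : ℝ} (hA : Measurable fun z : ℝ × E4 => A z.1 z.2)
    (hAb : ∀ t ∈ Ioc (0 : ℝ) 1, ∀ z, |A t z| ≤ C0 * (1 + (Real.sqrt t)⁻¹)) {f : ι → ℝ → E4 → ℝ}
    (hf : VB 0 f) (i : ι) {t : ℝ} (ht : t ∈ Ioc (0 : ℝ) 1) :
    IntegrableOn (fun s => ∫ z, A (t - s) z * f i s z * M.w i z) (Ioo 0 t) := by
  obtain ⟨C, hC, hb⟩ := AAf_bound (M := M) hA hAb hf i
  have h0 : IntegrableOn (fun s : ℝ => C * (1 + 1 * (Real.sqrt (t - s))⁻¹)) (Ioo 0 t) :=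
    (outer_weight ht.1 1).1.const_mul C
  have hm : Measurable fun s : ℝ => ∫ z, A (t - s) z * f i s z * M.w i z := by
    have h1 := AAf_meas (M := M) hA hf i
    have h2 : Measurable fun s : ℝ => ((t - s, s) : ℝ × ℝ) := by fun_prop
    exact h1.comp h2
  refine h0.mono' hm.aestronglyMeasurable ?_
  filter_upwards [ae_restrict_mem measurableSet_Ioo] with s hs
  rw [one_mul]
  exact (hb s ⟨hs.1, hs.2.le.trans ht.2⟩ (t - s) ⟨by linarith [hs.2], by linarith [hs.1, ht.2]⟩).2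

/-- integrability of the left side of `dt` -/
theorem dt_int {B : ℝ → ℝ → ℝ} {C : ℝ} (hBm : Measurable fun z : ℝ × ℝ => B z.1 z.2)
    (hB : ∀ s ∈ Ioc (0 : ℝ) 1, ∀ σ ∈ Ioc (0 : ℝ) 1, |B σ s| ≤ C * (1 + (Real.sqrt σ)⁻¹))
    {μ : ℝ} (hμ : 0 ≤ μ) {t : ℝ} (ht : t ∈ Ioc (0 : ℝ) 1) :
    IntegrableOn (fun s => ∫ σ in Ioo 0 (t - s), Real.exp (-(μ * (t - s - σ))) * B σ s) (Ioo 0 t) := by
  set S : Set (ℝ × ℝ) := {z | 0 < z.1 ∧ 0 < z.2 ∧ z.1 + z.2 < t} with hS
  have hSm : MeasurableSet S :=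
    (measurableSet_lt measurable_const measurable_fst).inter
      ((measurableSet_lt measurable_const measurable_snd).inter
        (measurableSet_lt (measurable_fst.add measurable_snd) measurable_const))
  set G : ℝ × ℝ → ℝ := S.indicator fun z => Real.exp (-(μ * (t - z.1 - z.2))) * B z.2 z.1 with hG
  have hC0 : 0 ≤ C := by
    have := (abs_nonneg _).trans (hB 1 ⟨one_pos, le_rfl⟩ 1 ⟨one_pos, le_rfl⟩)
    simp at this
    linarith
  have hm0 : Measurable fun z : ℝ × ℝ => Real.exp (-(μ * (t - z.1 - z.2))) * B z.2 z.1 := by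
    refine Measurable.mul (by fun_prop) ?_
    have h2 : Measurable fun z : ℝ × ℝ => ((z.2, z.1) : ℝ × ℝ) := by fun_prop
    exact hBm.comp h2
  have hGm : Measurable G := hm0.indicator hSm
  have hGi : Integrable G ((volume : Measure ℝ).prod volume) := by
    have h1 : Integrable ((Ioo 0 t).indicator fun _ : ℝ => (1 : ℝ)) :=
      (integrable_indicator_iff measurableSet_Ioo).2 (integrableOn_const (by simp))
    have h2 : Integrable ((Ioo 0 t).indicator fun s : ℝ => C * (1 + (Real.sqrt s)⁻¹)) :=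
      (integrable_indicator_iff measurableSet_Ioo).2 ((int_w ht.1).const_mul C)
    refine (h1.mul_prod h2).mono' hGm.aestronglyMeasurable (Eventually.of_forall fun z => ?_)
    by_cases hz : z ∈ S
    · have hz1 : z.1 ∈ Ioo 0 t := ⟨hz.1, by linarith [hz.2.1, hz.2.2]⟩
      have hz2 : z.2 ∈ Ioo 0 t := ⟨hz.2.1, by linarith [hz.1, hz.2.2]⟩
      rw [hG, indicator_of_mem hz, indicator_of_mem hz1, indicator_of_mem hz2, one_mul, norm_mul,
        Real.norm_eq_abs, Real.norm_eq_abs, abs_of_pos (Real.exp_pos _)]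
      have h3 : Real.exp (-(μ * (t - z.1 - z.2))) ≤ 1 := by
        rw [Real.exp_le_one_iff]
        have : 0 ≤ μ * (t - z.1 - z.2) := mul_nonneg hμ (by linarith [hz.2.2])
        linarith
      have h4 := hB z.1 ⟨hz1.1, hz1.2.le.trans ht.2⟩ z.2 ⟨hz2.1, hz2.2.le.trans ht.2⟩
      calc _ ≤ 1 * |B z.2 z.1| := mul_le_mul_of_nonneg_right h3 (abs_nonneg _)
        _ ≤ _ := by rw [one_mul]; exact h4
    · rw [hG, indicator_of_notMem hz, norm_zero]
      refine mul_nonneg ?_ ?_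
      · exact indicator_nonneg (fun _ _ => zero_le_one) _
      · refine indicator_nonneg (fun s _ => ?_) _
        positivity
  have h5 := hGi.integral_prod_left
  refine h5.integrableOn.congr_fun (fun s hs => ?_) measurableSet_Ioo
  show ∫ σ, G (s, σ) = _
  rw [← integral_indicator measurableSet_Ioo]
  refine integral_congr_ae (Eventually.of_forall fun σ => ?_)
  by_cases hσ : σ ∈ Ioo 0 (t - s)
  · have h1 : (s, σ) ∈ S := ⟨hs.1, hσ.1, by linarith [hσ.2]⟩
    show G (s, σ) = indicator _ _ σ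
    rw [indicator_of_mem hσ, hG, indicator_of_mem h1]
  · have h1 : (s, σ) ∉ S := fun h => hσ ⟨h.2.1, by linarith [h.2.2]⟩
    show G (s, σ) = indicator _ _ σ
    rw [indicator_of_notMem hσ, hG, indicator_of_notMem h1]

end scalar

section matrix
variable {ι : Type*} {M : Met ι} {κ : Type} [Fintype κ] [DecidableEq κ] {R : ℝ} {c : Cut R} {D : Con M κ}
variable {K : Type} (S : Sys D R K)
variable (hC : Cal M) (hM : InpM M c) (hD : InpD c D)
include hC hM hD

/-- **the convolution step** -/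
theorem step (hR : 0 < R)
    (hk4 : ∀ (i : ι) (z : E4) (f : E4 → ℝ), Measurable f → (∃ B, ∀ x, |f x| ≤ B) → ContinuousAt f z →
      Tendsto (fun t => ∫ x, M.GG i t x z * f x * M.w i x) (𝓝[>] 0) (𝓝 (f z)))
    {m : ℕ} (hm : m ≤ 3) (i : ι) (k : K) (b : κ) {f : ι → ℝ → E4 → ℝ} (hf : VB 0 f)
    (hs : ∀ s z, f i s z ≠ 0 → c.ps m z = 1 ∧ ‖z‖ < 15 * R / 16) {t : ℝ} (ht : t ∈ Ioc (0 : ℝ) 1) :
    TT M (S.mu i k) f (uu S i k b) i t
      = PP M (M.star0 (M.HH c m) f) (uu S i k b) i t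
        - ∑ p, TT M (S.mu i k) (M.star0 (fun i t x z => D.eM c m i t x z p b) f) (uu S i k p) i t := by
  set μ := S.mu i k with hμ
  have hμ0 : 0 ≤ μ := S.mu_nonneg i k
  set E : ℝ → E4 → ℝ := fun σ z => Eb S c m i k b σ z with hE
  have hEm : Measurable fun z : ℝ × E4 => E z.1 z.2 := Eb_meas S hC hM hD hR m i k b
  obtain ⟨C0, hC0, hEb⟩ := Eb_bound S hC hM hD hR m i k b
  set B : ℝ → ℝ → ℝ := fun σ s => ∫ z, E σ z * f i s z * M.w i z with hB
  have hBm : Measurable fun z : ℝ × ℝ => B z.1 z.2 := AAf_meas (M := M) hEm hf i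
  obtain ⟨C1, hC1, hBb⟩ := AAf_bound (M := M) hEm hEb hf i
  have hBb' : ∀ s ∈ Ioc (0 : ℝ) 1, ∀ σ ∈ Ioc (0 : ℝ) 1, |B σ s| ≤ C1 * (1 + (Real.sqrt σ)⁻¹) :=
    fun s hs σ hσ => (hBb s hs σ hσ).2
  have hfub := fub (M := M) (kw_HH hC hM m) hf (uu_BU S hR i k b) i ht
  have hpp : PP M (M.star0 (M.HH c m) f) (uu S i k b) i t
      = ∫ s in Ioo 0 t, ∫ z, AA M (M.HH c m) (uu S i k b) i (t - s) z * f i s z * M.w i z := hfub
  obtain ⟨C2, hC2, hPb⟩ := PP_bound (M := M) hf (uu_BU S hR i k b)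
  -- the inner identity
  have hin : ∀ s ∈ Ioo 0 t, ∫ z, AA M (M.HH c m) (uu S i k b) i (t - s) z * f i s z * M.w i z
      = Real.exp (-(μ * (t - s))) * PP M f (uu S i k b) i s
        + ∫ σ in Ioo 0 (t - s), Real.exp (-(μ * (t - s - σ))) * B σ s := by
    intro s hs'
    have hs1 : s ∈ Ioc (0 : ℝ) 1 := ⟨hs'.1, hs'.2.le.trans ht.2⟩
    have hτ : t - s ∈ Ioc (0 : ℝ) 1 := ⟨by linarith [hs'.2], by linarith [hs'.1, ht.2]⟩
    obtain ⟨hi1, hi2⟩ := swapE (M := M) hEm hEb hf i hs1 hτ hμ0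
    have hpt : ∀ z, AA M (M.HH c m) (uu S i k b) i (t - s) z * f i s z * M.w i z
        = Real.exp (-(μ * (t - s))) * (f i s z * uu S i k b z * M.w i z)
          + (∫ σ in Ioo 0 (t - s), Real.exp (-(μ * (t - s - σ))) * E σ z) * (f i s z * M.w i z) := by
      intro z
      by_cases hz : f i s z = 0
      · rw [hz]; ring
      · obtain ⟨h1, h2⟩ := hs s z hz
        rw [duhamel S hC hM hD hR hk4 hm i k b h2 hτ, h1, one_mul, uu_eq S h2]
        ring
    simp only [hpt]
    rw [integral_add ((hPb i s hs1).1.const_mul _) hi1, integral_const_mul, hi2]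
    rfl
  have hT := TT_int (M := M) hf (uu_BU S hR i k b) i hμ0 ht
  have hDi := dt_int hBm hBb' hμ0 ht
  have hmain : PP M (M.star0 (M.HH c m) f) (uu S i k b) i t
      = TT M μ f (uu S i k b) i t
        + ∫ r in Ioo 0 t, Real.exp (-(μ * (t - r))) * ∫ s in Ioo 0 r, B (r - s) s := by
    rw [hpp, setIntegral_congr_fun measurableSet_Ioo hin, integral_add hT hDi, dt hBm hBb' hμ0 ht]
    rfl
  have hlast : ∫ r in Ioo 0 t, Real.exp (-(μ * (t - r))) * ∫ s in Ioo 0 r, B (r - s) s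
      = ∑ p, TT M μ (M.star0 (fun i t x z => D.eM c m i t x z p b) f) (uu S i k p) i t := by
    have hvb : ∀ p, VB 0 (M.star0 (fun i t x z => D.eM c m i t x z p b) f) := fun p =>
      hC.vb_mono _ _ _ (by norm_num) (hC.star0_vb 0 _ _ le_rfl (kw_eM hC hM hD m p b) hf)
    unfold TT
    rw [← integral_finsetSum Finset.univ fun p _ => TT_int (hvb p) (uu_BU S hR i k p) i hμ0 ht]
    refine setIntegral_congr_fun measurableSet_Ioo fun q hq => ?_
    have hq1 : q ∈ Ioc (0 : ℝ) 1 := ⟨hq.1, hq.2.le.trans ht.2⟩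
    show Real.exp (-(μ * (t - q))) * ∫ s in Ioo 0 q, B (q - s) s
      = ∑ p, Real.exp (-(μ * (t - q))) * PP M _ (uu S i k p) i q
    rw [← Finset.mul_sum]
    congr 1
    have e1 : ∀ p, PP M (M.star0 (fun i t x z => D.eM c m i t x z p b) f) (uu S i k p) i q
        = ∫ s in Ioo 0 q, ∫ z, AA M (fun i t x z => D.eM c m i t x z p b) (uu S i k p) i (q - s) z
            * f i s z * M.w i z := fun p =>
      fub (M := M) (kw_eM hC hM hD m p b) hf (uu_BU S hR i k p) i hq1
    simp only [e1]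
    have hAm : ∀ p, Measurable fun z : ℝ × E4 =>
        AA M (fun i t x z => D.eM c m i t x z p b) (uu S i k p) i z.1 z.2 := fun p =>
      AA_meas (M := M) (kw_eM hC hM hD m p b) (uu_BU S hR i k p) i
    choose C3 hC3 hAb using fun p => AA_bound (M := M) (kw_eM hC hM hD m p b) (uu_BU S hR i k p)
    rw [← integral_finsetSum Finset.univ fun p _ => fub_int (M := M) (hAm p) (hAb p i) hf i hq1]
    refine setIntegral_congr_fun measurableSet_Ioo fun s hs' => ?_
    have hs1 : s ∈ Ioc (0 : ℝ) 1 := ⟨hs'.1, hs'.2.le.trans hq1.2⟩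
    have hτ : q - s ∈ Ioc (0 : ℝ) 1 := ⟨by linarith [hs'.2], by linarith [hs'.1, hq1.2]⟩
    have hii : ∀ p, Integrable fun z => AA M (fun i t x z => D.eM c m i t x z p b) (uu S i k p) i (q - s) z
            * f i s z * M.w i z := by
      intro p
      obtain ⟨C4, hC4, h4⟩ := AAf_bound (M := M) (hAm p) (hAb p i) hf i
      exact (h4 s hs1 (q - s) hτ).1
    show (∫ z, E (q - s) z * f i s z * M.w i z) = ∑ p, ∫ z, _
    rw [← integral_finsetSum Finset.univ fun p _ => hii p]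
    refine integral_congr_ae (Eventually.of_forall fun z => ?_)
    show Eb S c m i k b (q - s) z * f i s z * M.w i z = ∑ p, _ * f i s z * M.w i z
    rw [← Finset.sum_mul, ← Finset.sum_mul]
    rfl
  rw [hmain, hlast]
  ring

end matrix

end Crest.Agent.R249.HK5_905
end
end

-- ▼ part R249/HK5d_905
section

set_option autoImplicit false

open MeasureTheory Filter Topology Set
open scoped ContDiff

noncomputable section

namespace Crest.Agent.R249.HK5_905

open Crest.Agent.R249.HK286 Crest.Agent.R249.HK1_654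

/-- perturbation of an `ℓ²` norm -/
theorem l2_pert {K : Type*} {a e : K → ℝ} {A E : ℝ} (ha : HasSum (fun k => a k ^ 2) A)
    (he : Summable fun k => e k ^ 2) (hE : ∑' k, e k ^ 2 ≤ E) {ε : ℝ} (hε : 0 < ε) :
    Summable (fun k => (a k - e k) ^ 2) ∧
    |∑' k, (a k - e k) ^ 2 - A| ≤ ε * A + (ε⁻¹ + 1) * E := by
  have hs : Summable fun k => (a k - e k) ^ 2 := by
    refine Summable.of_nonneg_of_le (fun k => sq_nonneg _) (fun k => ?_)
      ((ha.summable.mul_left 2).add (he.mul_left 2))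
    nlinarith [sq_nonneg (a k + e k)]
  refine ⟨hs, ?_⟩
  have h1 : HasSum (fun k => (a k - e k) ^ 2 - a k ^ 2) (∑' k, (a k - e k) ^ 2 - A) := hs.hasSum.sub ha
  have h2 : HasSum (fun k => ε * a k ^ 2 + (ε⁻¹ + 1) * e k ^ 2) (ε * A + (ε⁻¹ + 1) * ∑' k, e k ^ 2) :=
    (ha.mul_left ε).add (he.hasSum.mul_left (ε⁻¹ + 1))
  have h3 : ∀ k, ‖(a k - e k) ^ 2 - a k ^ 2‖ ≤ ε * a k ^ 2 + (ε⁻¹ + 1) * e k ^ 2 := by
    intro k
    rw [Real.norm_eq_abs, abs_le]
    have h4 : 2 * (a k * e k) ≤ ε * a k ^ 2 + ε⁻¹ * e k ^ 2 := by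
      have h5 : 0 ≤ ε⁻¹ * (ε * a k - e k) ^ 2 := by positivity
      have h6 : ε⁻¹ * (ε * a k - e k) ^ 2 = ε * a k ^ 2 - 2 * (a k * e k) + ε⁻¹ * e k ^ 2 := by
        field_simp
        ring
      linarith
    have h7 : -(2 * (a k * e k)) ≤ ε * a k ^ 2 + ε⁻¹ * e k ^ 2 := by
      have h5 : 0 ≤ ε⁻¹ * (ε * a k + e k) ^ 2 := by positivity
      have h6 : ε⁻¹ * (ε * a k + e k) ^ 2 = ε * a k ^ 2 + 2 * (a k * e k) + ε⁻¹ * e k ^ 2 := by
        field_simp
        ring
      linarith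
    constructor
    · nlinarith [sq_nonneg (e k)]
    · nlinarith [sq_nonneg (e k)]
  have h4 := tsum_of_norm_bounded h2 h3
  rw [h1.tsum_eq, Real.norm_eq_abs] at h4
  refine h4.trans ?_
  have : 0 ≤ ε⁻¹ + 1 := by positivity
  have := mul_le_mul_of_nonneg_left hE this
  linarith

/-- Cauchy-Schwarz in time -/
theorem cs_time {w : ℝ → ℝ} {t : ℝ} (ht : 0 < t) (h1 : IntegrableOn w (Ioo 0 t))
    (h2 : IntegrableOn (fun s => w s ^ 2) (Ioo 0 t)) :
    (∫ s in Ioo 0 t, w s) ^ 2 ≤ t * ∫ s in Ioo 0 t, w s ^ 2 := by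
  set I := ∫ s in Ioo 0 t, w s with hI
  set J := ∫ s in Ioo 0 t, w s ^ 2 with hJ
  have h0 : ∫ s in Ioo 0 t, (w s - I / t) ^ 2 = J - 2 * (I / t) * I + (I / t) ^ 2 * t := by
    have e1 : ∀ s, (w s - I / t) ^ 2 = (w s ^ 2 - 2 * (I / t) * w s) + (I / t) ^ 2 := fun s => by ring
    have h3 : IntegrableOn (fun s => 2 * (I / t) * w s) (Ioo 0 t) := h1.const_mul _
    have h4 : IntegrableOn (fun s => w s ^ 2 - 2 * (I / t) * w s) (Ioo 0 t) := h2.sub h3
    have h5 : IntegrableOn (fun _ : ℝ => (I / t) ^ 2) (Ioo 0 t) := integrableOn_const (by simp)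
    have h6 : ∫ _s in Ioo 0 t, (I / t) ^ 2 = (I / t) ^ 2 * t := by
      simp [ht.le, mul_comm]
    simp only [e1]
    rw [integral_add h4 h5, integral_sub h2 h3, integral_const_mul, h6]
  have h3 : 0 ≤ ∫ s in Ioo 0 t, (w s - I / t) ^ 2 := integral_nonneg fun s => sq_nonneg _
  rw [h0] at h3
  have h4 : J - 2 * (I / t) * I + (I / t) ^ 2 * t = J - I ^ 2 / t := by
    field_simp
    ring
  rw [h4] at h3
  have h5 : I ^ 2 / t ≤ J := by linarith
  rw [div_le_iff₀ ht] at h5
  linarith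

section matrix
variable {ι : Type*} {M : Met ι} {κ : Type} [Fintype κ] [DecidableEq κ] {R : ℝ} {c : Cut R} {D : Con M κ}

/-- supports -/
theorem star_zero {Kr : ι → ℝ → E4 → E4 → κ → κ → ℝ} {f : ι → ℝ → E4 → κ → κ → ℝ} {i : ι} {x : E4}
    (h : ∀ t z p r, Kr i t x z p r = 0) (t : ℝ) (p q : κ) : M.star Kr f i t x p q = 0 := by
  unfold Met.star
  simp [h]

theorem f1_zero {i : ι} {t : ℝ} {x : E4} (hx : 3 * R / 8 < ‖x‖) (p q : κ) : D.f1 c i t x p q = 0 := by
  unfold Con.f1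
  refine eM_zero ?_ i t 0 p q
  push_cast; linarith

theorem f2_zero {i : ι} {t : ℝ} {x : E4} (hx : 5 * R / 8 < ‖x‖) (p q : κ) : D.f2 c i t x p q = 0 := by
  unfold Con.f2
  refine star_zero (fun t z p r => eM_zero ?_ i t z p r) t p q
  push_cast; linarith

theorem f3_zero {i : ι} {t : ℝ} {x : E4} (hx : 7 * R / 8 < ‖x‖) (p q : κ) : D.f3 c i t x p q = 0 := by
  unfold Con.f3
  refine star_zero (fun t z p r => eM_zero ?_ i t z p r) t p q
  push_cast; linarith

theorem kk_zero (hR : 0 < R) {i : ι} {t : ℝ} {x : E4} (hx : 7 * R / 8 ≤ ‖x‖) (p q : κ) : D.kk c i t x p q = 0 := by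
  unfold Con.kk
  have h1 : M.HH c 1 i t x 0 = 0 := HH_zero (by push_cast; linarith) i t 0
  have h2 : M.star (sc (M.HH c 2)) (D.f1 c) i t x p q = 0 := by
    refine star_zero (fun t z p r => ?_) t p q
    unfold sc
    rw [HH_zero (by push_cast; linarith) i t z]; simp
  have h3 : M.star (sc (M.HH c 3)) (D.f2 c) i t x p q = 0 := by
    refine star_zero (fun t z p r => ?_) t p q
    unfold sc
    rw [HH_zero (by push_cast; linarith) i t z]; simp
  rw [h1, h2, h3]; simp

variable {K : Type} (S : Sys D R K)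

/-- Parseval for functions of class `VB 0` at a fixed time -/
theorem pars_vb (hR : 0 < R) {h : κ → ι → ℝ → E4 → ℝ} (hh : ∀ p, VB 0 (h p)) {i : ι} {s : ℝ}
    (hs : s ∈ Ioc (0 : ℝ) 1) (h0 : ∀ x p, 15 * R / 16 ≤ ‖x‖ → h p i s x = 0) :
    HasSum (fun k => (∑ p, PP M (h p) (uu S i k p) i s) ^ 2) (∫ x, (∑ p, h p i s x ^ 2) * M.w i x) := by
  have hB : Bdm R (fun x p => h p i s x) := by
    refine ⟨fun p => vb_meas_z (hh p) i s, ?_, 15 * R / 16, by linarith, h0⟩
    choose hm C c' hC hc' hb using hh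
    refine ⟨∑ p, C p * (s ^ 2)⁻¹, fun x p => ?_⟩
    have h1 := hb p i s hs x
    rw [Real.rpow_zero, mul_one] at h1
    have h2 : Gam (c' p) s x ≤ (s ^ 2)⁻¹ := by
      unfold Gam
      have h3 : Real.exp (-(c' p * ‖x‖ ^ 2 / s)) ≤ 1 := by
        rw [Real.exp_le_one_iff]
        have := hc' p
        have := hs.1
        have : 0 ≤ c' p * ‖x‖ ^ 2 / s := by positivity
        linarith
      calc _ ≤ (s ^ 2)⁻¹ * 1 := mul_le_mul_of_nonneg_left h3 (by positivity)
        _ = _ := mul_one _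
    have h4 : |h p i s x| ≤ C p * (s ^ 2)⁻¹ := h1.trans (mul_le_mul_of_nonneg_left h2 (hC p))
    refine h4.trans ?_
    exact Finset.single_le_sum (f := fun p => C p * (s ^ 2)⁻¹) (fun p _ => mul_nonneg (hC p) (by positivity))
      (Finset.mem_univ p)
  have hp := S.pars i _ hB
  have e1 : ∀ k, M.ip i (fun x p => h p i s x) (S.u i k) = ∑ p, PP M (h p) (uu S i k p) i s := by
    intro k
    rw [ip_eq S h0]
    unfold PP
    have hint : ∀ p, Integrable fun z => h p i s z * uu S i k p z * M.w i z := by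
      intro p
      obtain ⟨C, hC, hb⟩ := PP_bound (M := M) (hh p) (uu_BU S hR i k p)
      exact (hb i s hs).1
    rw [← integral_finsetSum Finset.univ fun p _ => hint p]
    refine integral_congr_ae (Eventually.of_forall fun x => ?_)
    show (∑ p, h p i s x * uu S i k p x) * M.w i x = ∑ p, h p i s x * uu S i k p x * M.w i x
    rw [Finset.sum_mul]
  have e2 : M.ip i (fun x p => h p i s x) (fun x p => h p i s x) = ∫ x, (∑ p, h p i s x ^ 2) * M.w i x := by
    unfold Met.ip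
    refine integral_congr_ae (Eventually.of_forall fun x => ?_)
    show (∑ p, h p i s x * h p i s x) * M.w i x = (∑ p, h p i s x ^ 2) * M.w i x
    simp only [pow_two]
  rw [e2] at hp
  simpa only [e1] using hp

variable (hC : Cal M) (hM : InpM M c) (hD : InpD c D)
include hC hM hD

theorem step_sum (hR : 0 < R)
    (hk4 : ∀ (i : ι) (z : E4) (f : E4 → ℝ), Measurable f → (∃ B, ∀ x, |f x| ≤ B) → ContinuousAt f z →
      Tendsto (fun t => ∫ x, M.GG i t x z * f x * M.w i x) (𝓝[>] 0) (𝓝 (f z)))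
    {m : ℕ} (hm : m ≤ 3) (i : ι) (k : K) {F : ι → ℝ → E4 → κ → κ → ℝ}
    (hF : ∀ r q, VB 0 fun i t x => F i t x r q) (q : κ)
    (hs : ∀ s z p, F i s z p q ≠ 0 → c.ps m z = 1 ∧ ‖z‖ < 15 * R / 16) {t : ℝ} (ht : t ∈ Ioc (0 : ℝ) 1) :
    ∑ p, TT M (S.mu i k) (fun i t x => F i t x p q) (uu S i k p) i t
      = ∑ p, PP M (M.star0 (M.HH c m) (fun i t x => F i t x p q)) (uu S i k p) i t
        - ∑ p, TT M (S.mu i k) (fun i t x => M.star (D.eM c m) F i t x p q) (uu S i k p) i t := by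
  have hμ0 : 0 ≤ S.mu i k := S.mu_nonneg i k
  have h1 : ∀ p, TT M (S.mu i k) (fun i t x => F i t x p q) (uu S i k p) i t
      = PP M (M.star0 (M.HH c m) (fun i t x => F i t x p q)) (uu S i k p) i t
        - ∑ r, TT M (S.mu i k) (M.star0 (fun i t x z => D.eM c m i t x z r p) (fun i t x => F i t x p q))
            (uu S i k r) i t := fun p =>
    step S hC hM hD hR hk4 hm i k p (hF p q) (fun s z hz => hs s z p hz) ht
  simp only [h1]
  rw [Finset.sum_sub_distrib, Finset.sum_comm]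
  congr 1
  refine Finset.sum_congr rfl fun r _ => ?_
  have hvb : ∀ p, VB 0 (M.star0 (fun i t x z => D.eM c m i t x z r p) (fun i t x => F i t x p q)) := fun p =>
    hC.vb_mono _ _ _ (by norm_num) (hC.star0_vb 0 _ _ le_rfl (kw_eM hC hM hD m r p) (hF p q))
  rw [← TT_sum Finset.univ (h := fun p => M.star0 (fun i t x z => D.eM c m i t x z r p)
    (fun i t x => F i t x p q)) hvb (uu_BU S hR i k r) i hμ0 ht]
  refine TT_congr fun s hs' z => ?_
  have hs1 : s ∈ Ioc (0 : ℝ) 1 := ⟨hs'.1, hs'.2.le.trans ht.2⟩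
  exact (hC.star_eq (D.eM c m) F (kw_eM hC hM hD m) hF i s hs1 z r q).symm

theorem vb_kk (p q : κ) : VB 0 (fun i t x => D.kk c i t x p q) := by
  have h1 : VB 0 (fun i t x => (if p = q then (1 : ℝ) else 0) * M.HH c 1 i t x 0) := hC.vb_smul 0 _ _ (hM.h0 1)
  have hk : ∀ m, ∀ p r : κ, KW (fun i t x z => (sc (M.HH c m) : ι → ℝ → E4 → E4 → κ → κ → ℝ) i t x z p r) := by
    intro m p r
    by_cases h : p = r
    · simpa [sc, h] using kw_HH hC hM m
    · simpa [sc, h] using (kw_zero : KW (fun (_ : ι) (_ : ℝ) (_ _ : E4) => (0 : ℝ)))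
  have h2 : VB 0 (fun i t x => M.star (sc (M.HH c 2)) (D.f1 c) i t x p q) :=
    hC.vb_mono _ _ _ (by norm_num) (hC.star_vb 0 _ _ le_rfl (hk 2) (vb_f1 hC hM hD) p q)
  have h3 : VB 0 (fun i t x => M.star (sc (M.HH c 3)) (D.f2 c) i t x p q) :=
    hC.vb_mono _ _ _ (by norm_num) (hC.star_vb 1 _ _ (by norm_num) (hk 3) (vb_f2 hC hM hD) p q)
  have h4 := hC.vb_add 0 _ _ (hC.vb_sub h1 h2) h3
  have e : (fun i t x => D.kk c i t x p q) = fun i t x => (if p = q then (1 : ℝ) else 0) * M.HH c 1 i t x 0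
      - M.star (sc (M.HH c 2)) (D.f1 c) i t x p q + M.star (sc (M.HH c 3)) (D.f2 c) i t x p q := by
    funext i t x
    unfold Con.kk
    split_ifs <;> ring
  rw [e]; exact h4

theorem vb_f3 (p q : κ) : VB (1 + 1) (fun i t x => D.f3 c i t x p q) := by
  have := hC.star_vb 1 (D.eM c 3) (D.f2 c) (by norm_num) (kw_eM hC hM hD 3) (vb_f2 hC hM hD) p q
  simpa [Con.f3] using this

/-- **the Duhamel formula** for one eigenfunction -/
theorem ident (hR : 0 < R)
    (hk4 : ∀ (i : ι) (z : E4) (f : E4 → ℝ), Measurable f → (∃ B, ∀ x, |f x| ≤ B) → ContinuousAt f z →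
      Tendsto (fun t => ∫ x, M.GG i t x z * f x * M.w i x) (𝓝[>] 0) (𝓝 (f z)))
    (i : ι) (k : K) (q : κ) {t : ℝ} (ht : t ∈ Ioc (0 : ℝ) 1) :
    Real.exp (-(S.mu i k * t)) * S.u i k 0 q
      = ∑ p, PP M (fun i t x => D.kk c i t x p q) (uu S i k p) i t
        - ∑ p, TT M (S.mu i k) (fun i t x => D.f3 c i t x p q) (uu S i k p) i t := by
  have hμ0 : 0 ≤ S.mu i k := S.mu_nonneg i k
  have hf1 := vb_f1 hC hM hD
  have hf2 : ∀ r q, VB 0 fun i t x => D.f2 c i t x r q := fun r q => vb10 hC hM hD (vb_f2 hC hM hD r q)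
  -- first step
  have hz0 : ‖(0 : E4)‖ < 15 * R / 16 := by rw [norm_zero]; positivity
  have hd := duhamel S hC hM hD hR hk4 (m := 1) (by norm_num) i k q hz0 ht
  have hps : c.ps 1 0 = 1 := c.one 1 0 (by rw [norm_zero]; push_cast; positivity)
  rw [hps, one_mul] at hd
  have e1 : ∫ σ in Ioo 0 t, Real.exp (-(S.mu i k * (t - σ))) * Eb S c 1 i k q σ 0
      = ∑ p, TT M (S.mu i k) (fun i t x => D.f1 c i t x p q) (uu S i k p) i t := by
    unfold TT
    rw [← integral_finsetSum Finset.univ fun p _ => TT_int (hf1 p q) (uu_BU S hR i k p) i hμ0 ht]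
    refine setIntegral_congr_fun measurableSet_Ioo fun σ _ => ?_
    show Real.exp _ * Eb S c 1 i k q σ 0 = ∑ p, Real.exp _ * PP M _ (uu S i k p) i σ
    rw [← Finset.mul_sum]
    rfl
  have e2 : AA M (M.HH c 1) (uu S i k q) i t 0 = PP M (h1 M c) (uu S i k q) i t := rfl
  rw [e1, e2] at hd
  -- second step
  have s2 := step_sum S hC hM hD hR hk4 (m := 2) (by norm_num) i k hf1 q (fun s z p hz => by
    have hz1 : ‖z‖ ≤ 3 * R / 8 := by
      by_contra h
      exact hz (f1_zero (not_le.1 h) p q)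
    exact ⟨c.one 2 z (by push_cast; linarith), by linarith⟩) ht
  have s3 := step_sum S hC hM hD hR hk4 (m := 3) (by norm_num) i k hf2 q (fun s z p hz => by
    have hz1 : ‖z‖ ≤ 5 * R / 8 := by
      by_contra h
      exact hz (f2_zero (not_le.1 h) p q)
    exact ⟨c.one 3 z (by push_cast; linarith), by linarith⟩) ht
  have e3 : ∀ p, TT M (S.mu i k) (fun i t x => M.star (D.eM c 2) (D.f1 c) i t x p q) (uu S i k p) i t
      = TT M (S.mu i k) (fun i t x => D.f2 c i t x p q) (uu S i k p) i t := fun p => rfl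
  have e4 : ∀ p, TT M (S.mu i k) (fun i t x => M.star (D.eM c 3) (D.f2 c) i t x p q) (uu S i k p) i t
      = TT M (S.mu i k) (fun i t x => D.f3 c i t x p q) (uu S i k p) i t := fun p => rfl
  simp only [e3] at s2
  simp only [e4] at s3
  -- the explicit kernel
  have hh2 : ∀ p, VB 0 (M.star0 (M.HH c 2) (fun i t x => D.f1 c i t x p q)) := fun p =>
    hC.vb_mono _ _ _ (by norm_num) (hC.star0_vb 0 _ _ le_rfl (kw_HH hC hM 2) (hf1 p q))
  have hh3 : ∀ p, VB 0 (M.star0 (M.HH c 3) (fun i t x => D.f2 c i t x p q)) := fun p =>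
    hC.vb_mono _ _ _ (by norm_num) (hC.star0_vb 0 _ _ le_rfl (kw_HH hC hM 3) (hf2 p q))
  have ekk : ∀ p, PP M (fun i t x => D.kk c i t x p q) (uu S i k p) i t
      = (if p = q then PP M (h1 M c) (uu S i k p) i t else 0)
        - PP M (M.star0 (M.HH c 2) (fun i t x => D.f1 c i t x p q)) (uu S i k p) i t
        + PP M (M.star0 (M.HH c 3) (fun i t x => D.f2 c i t x p q)) (uu S i k p) i t := by
    intro p
    obtain ⟨C1, _, b1⟩ := PP_bound (M := M) (hC.vb_smul 0 (if p = q then (1 : ℝ) else 0) _ (hM.h0 1))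
      (uu_BU S hR i k p)
    obtain ⟨C2, _, b2⟩ := PP_bound (M := M) (hh2 p) (uu_BU S hR i k p)
    obtain ⟨C3, _, b3⟩ := PP_bound (M := M) (hh3 p) (uu_BU S hR i k p)
    have e5 : ∀ z, D.kk c i t z p q * uu S i k p z * M.w i z
        = (((if p = q then (1 : ℝ) else 0) * M.HH c 1 i t z 0) * uu S i k p z * M.w i z
          - M.star0 (M.HH c 2) (fun i t x => D.f1 c i t x p q) i t z * uu S i k p z * M.w i z)
          + M.star0 (M.HH c 3) (fun i t x => D.f2 c i t x p q) i t z * uu S i k p z * M.w i z := by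
      intro z
      have a1 := star_sc hC hM hD (i := i) (kw_HH hC hM 2) hf1 ht z p q
      have a2 := star_sc hC hM hD (i := i) (kw_HH hC hM 3) hf2 ht z p q
      unfold Con.kk
      rw [a1, a2]
      split_ifs <;> ring
    have e6 : (if p = q then PP M (h1 M c) (uu S i k p) i t else 0)
        = ∫ z, ((if p = q then (1 : ℝ) else 0) * M.HH c 1 i t z 0) * uu S i k p z * M.w i z := by
      by_cases hpq : p = q
      · simp only [hpq, if_true, one_mul]
        rfl
      · simp [hpq]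
    have hsub : Integrable fun z => ((if p = q then (1 : ℝ) else 0) * M.HH c 1 i t z 0) * uu S i k p z * M.w i z
          - M.star0 (M.HH c 2) (fun i t x => D.f1 c i t x p q) i t z * uu S i k p z * M.w i z :=
      ((b1 i t ht).1).sub ((b2 i t ht).1)
    rw [e6]
    unfold PP
    simp only [e5]
    rw [integral_add hsub ((b3 i t ht).1), integral_sub ((b1 i t ht).1) ((b2 i t ht).1)]
  have ekks : ∑ p, PP M (fun i t x => D.kk c i t x p q) (uu S i k p) i t
      = PP M (h1 M c) (uu S i k q) i t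
        - ∑ p, PP M (M.star0 (M.HH c 2) (fun i t x => D.f1 c i t x p q)) (uu S i k p) i t
        + ∑ p, PP M (M.star0 (M.HH c 3) (fun i t x => D.f2 c i t x p q)) (uu S i k p) i t := by
    simp only [ekk]
    rw [Finset.sum_add_distrib, Finset.sum_sub_distrib]
    simp
  rw [ekks]
  linarith

/-- the error terms are small in `ℓ²` -/
theorem err_l2 (hR : 0 < R) (q : κ) : ∃ C : ℝ, ∀ i, ∀ t ∈ Ioc (0 : ℝ) 1,
    Summable (fun k => (∑ p, TT M (S.mu i k) (fun i t x => D.f3 c i t x p q) (uu S i k p) i t) ^ 2) ∧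
    ∑' k, (∑ p, TT M (S.mu i k) (fun i t x => D.f3 c i t x p q) (uu S i k p) i t) ^ 2 ≤ C * t ^ 4 := by
  have hf3 := vb_f3 hC hM hD
  have hf30 : ∀ r q, VB 0 fun i t x => D.f3 c i t x r q := fun r q => hC.vb_mono _ _ _ (by norm_num) (hf3 r q)
  choose hI C hCb using fun p => hC.int_mul (1 + 1) (1 + 1) _ _ (by norm_num) (by norm_num) (hf3 p q) (hf3 p q)
  refine ⟨∑ p, |C p|, fun i t ht => ?_⟩
  -- the energy bound
  have hen : ∀ s ∈ Ioo 0 t, ∫ x, (∑ p, D.f3 c i s x p q ^ 2) * M.w i x ≤ (∑ p, |C p|) * t ^ 2 := by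
    intro s hs
    have hs1 : s ∈ Ioc (0 : ℝ) 1 := ⟨hs.1, hs.2.le.trans ht.2⟩
    have e1 : ∫ x, (∑ p, D.f3 c i s x p q ^ 2) * M.w i x
        = ∑ p, ∫ x, D.f3 c i s x p q * D.f3 c i s x p q * M.w i x := by
      rw [← integral_finsetSum Finset.univ fun p _ => hI p i s hs1]
      refine integral_congr_ae (Eventually.of_forall fun x => ?_)
      show (∑ p, D.f3 c i s x p q ^ 2) * M.w i x = ∑ p, D.f3 c i s x p q * D.f3 c i s x p q * M.w i x
      rw [Finset.sum_mul]
      simp only [pow_two]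
    rw [e1, Finset.sum_mul]
    refine Finset.sum_le_sum fun p _ => ?_
    have h1 := (le_abs_self _).trans (hCb p i s hs1)
    refine h1.trans ?_
    have h2 : s ^ ((1 : ℝ) + 1 + (1 + 1) - 2) = s ^ 2 := by
      rw [← Real.rpow_natCast]; norm_num
    rw [h2]
    calc C p * s ^ 2 ≤ |C p| * s ^ 2 := mul_le_mul_of_nonneg_right (le_abs_self _) (by positivity)
      _ ≤ |C p| * t ^ 2 := by
        refine mul_le_mul_of_nonneg_left ?_ (abs_nonneg _)
        have := hs.1
        have := hs.2.le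
        gcongr
  have hg : ∀ s ∈ Ioo 0 t, HasSum (fun k => (∑ p, PP M (fun i t x => D.f3 c i t x p q) (uu S i k p) i s) ^ 2)
      (∫ x, (∑ p, D.f3 c i s x p q ^ 2) * M.w i x) := by
    intro s hs
    have hs1 : s ∈ Ioc (0 : ℝ) 1 := ⟨hs.1, hs.2.le.trans ht.2⟩
    exact pars_vb S hR (h := fun p i t x => D.f3 c i t x p q) (fun p => hf30 p q) hs1
      (fun x p hx => f3_zero (by linarith) p q)
  set g : K → ℝ → ℝ := fun k s => ∑ p, PP M (fun i t x => D.f3 c i t x p q) (uu S i k p) i s with hgdef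
  have hgm : ∀ k, Measurable (g k) := fun k =>
    Finset.measurable_fun_sum _ fun p _ => PP_meas (hf30 p q) (uu_BU S hR i k p) i
  have hgb : ∀ k, ∀ s ∈ Ioo 0 t, g k s ^ 2 ≤ (∑ p, |C p|) * t ^ 2 := by
    intro k s hs
    have h1 := hg s hs
    have h2 : g k s ^ 2 ≤ ∫ x, (∑ p, D.f3 c i s x p q ^ 2) * M.w i x :=
      le_hasSum h1 k fun j _ => sq_nonneg _
    exact h2.trans (hen s hs)
  have hg2 : ∀ k, IntegrableOn (fun s => g k s ^ 2) (Ioo 0 t) := by
    intro k
    have h0 : IntegrableOn (fun _ : ℝ => (∑ p, |C p|) * t ^ 2) (Ioo 0 t) := integrableOn_const (by simp)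
    refine h0.mono' ((hgm k).pow_const 2).aestronglyMeasurable ?_
    filter_upwards [ae_restrict_mem measurableSet_Ioo] with s hs
    rw [Real.norm_of_nonneg (sq_nonneg _)]
    exact hgb k s hs
  have he : ∀ k, (∑ p, TT M (S.mu i k) (fun i t x => D.f3 c i t x p q) (uu S i k p) i t) ^ 2
      ≤ t * ∫ s in Ioo 0 t, g k s ^ 2 := by
    intro k
    have hμ0 : 0 ≤ S.mu i k := S.mu_nonneg i k
    have e1 : ∑ p, TT M (S.mu i k) (fun i t x => D.f3 c i t x p q) (uu S i k p) i t
        = ∫ s in Ioo 0 t, Real.exp (-(S.mu i k * (t - s))) * g k s := by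
      unfold TT
      rw [← integral_finsetSum Finset.univ fun p _ => TT_int (hf30 p q) (uu_BU S hR i k p) i hμ0 ht]
      refine setIntegral_congr_fun measurableSet_Ioo fun s _ => ?_
      show ∑ p, Real.exp _ * PP M _ (uu S i k p) i s = Real.exp _ * g k s
      rw [← Finset.mul_sum]
    have hle : ∀ s ∈ Ioo 0 t, (Real.exp (-(S.mu i k * (t - s))) * g k s) ^ 2 ≤ g k s ^ 2 := by
      intro s hs
      have h1 : Real.exp (-(S.mu i k * (t - s))) ≤ 1 := by
        rw [Real.exp_le_one_iff]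
        have : 0 ≤ S.mu i k * (t - s) := mul_nonneg hμ0 (by linarith [hs.2])
        linarith
      have h2 : 0 < Real.exp (-(S.mu i k * (t - s))) := Real.exp_pos _
      rw [mul_pow]
      have h3 : Real.exp (-(S.mu i k * (t - s))) ^ 2 ≤ 1 := pow_le_one₀ h2.le h1
      calc _ ≤ 1 * g k s ^ 2 := mul_le_mul_of_nonneg_right h3 (sq_nonneg _)
        _ = _ := one_mul _
    have hmw : Measurable fun s => Real.exp (-(S.mu i k * (t - s))) * g k s :=
      (by fun_prop : Measurable fun s : ℝ => Real.exp (-(S.mu i k * (t - s)))).mul (hgm k)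
    have hw2 : IntegrableOn (fun s => (Real.exp (-(S.mu i k * (t - s))) * g k s) ^ 2) (Ioo 0 t) := by
      refine (hg2 k).mono' (hmw.pow_const 2).aestronglyMeasurable ?_
      filter_upwards [ae_restrict_mem measurableSet_Ioo] with s hs
      rw [Real.norm_of_nonneg (sq_nonneg _)]
      exact hle s hs
    have hw1 : IntegrableOn (fun s => Real.exp (-(S.mu i k * (t - s))) * g k s) (Ioo 0 t) := by
      have h0 : IntegrableOn (fun s : ℝ => 1 + g k s ^ 2) (Ioo 0 t) := (integrableOn_const (by simp)).add (hg2 k)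
      refine h0.mono' hmw.aestronglyMeasurable ?_
      filter_upwards [ae_restrict_mem measurableSet_Ioo] with s hs
      have h1 := hle s hs
      rw [Real.norm_eq_abs]
      have h2 := sq_abs (Real.exp (-(S.mu i k * (t - s))) * g k s)
      nlinarith [sq_nonneg (|Real.exp (-(S.mu i k * (t - s))) * g k s| - 1),
        abs_nonneg (Real.exp (-(S.mu i k * (t - s))) * g k s)]
    rw [e1]
    refine (cs_time ht.1 hw1 hw2).trans (mul_le_mul_of_nonneg_left ?_ ht.1.le)
    exact setIntegral_mono_on hw2 (hg2 k) measurableSet_Ioo hle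
  have hfin : ∀ A : Finset K, ∑ k ∈ A, (∑ p, TT M (S.mu i k) (fun i t x => D.f3 c i t x p q) (uu S i k p) i t) ^ 2
      ≤ (∑ p, |C p|) * t ^ 4 := by
    intro A
    calc _ ≤ ∑ k ∈ A, t * ∫ s in Ioo 0 t, g k s ^ 2 := Finset.sum_le_sum fun k _ => he k
      _ = t * ∫ s in Ioo 0 t, ∑ k ∈ A, g k s ^ 2 := by
        rw [← Finset.mul_sum, integral_finsetSum A fun k _ => hg2 k]
      _ ≤ t * ∫ s in Ioo 0 t, (∑ p, |C p|) * t ^ 2 := by
        refine mul_le_mul_of_nonneg_left ?_ ht.1.le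
        refine setIntegral_mono_on (integrable_finsetSum _ fun k _ => hg2 k) (integrableOn_const (by simp))
          measurableSet_Ioo fun s hs => ?_
        exact (sum_le_hasSum A (fun k _ => sq_nonneg _) (hg s hs)).trans (hen s hs)
      _ = (∑ p, |C p|) * t ^ 4 := by
        simp [ht.1.le]
        ring
  have hsum : Summable (fun k => (∑ p, TT M (S.mu i k) (fun i t x => D.f3 c i t x p q) (uu S i k p) i t) ^ 2) :=
    summable_of_sum_le (fun k => sq_nonneg _) hfin
  exact ⟨hsum, hsum.tsum_le_of_sum_le hfin⟩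

/-- one column -/
theorem column (hR : 0 < R)
    (hk4 : ∀ (i : ι) (z : E4) (f : E4 → ℝ), Measurable f → (∃ B, ∀ x, |f x| ≤ B) → ContinuousAt f z →
      Tendsto (fun t => ∫ x, M.GG i t x z * f x * M.w i x) (𝓝[>] 0) (𝓝 (f z))) (q : κ) :
    ∃ C : ℝ, ∀ i, ∀ t ∈ Ioc (0 : ℝ) 1,
      Summable (fun k => (Real.exp (-(S.mu i k * t)) * S.u i k 0 q) ^ 2) ∧
      |∑' k, (Real.exp (-(S.mu i k * t)) * S.u i k 0 q) ^ 2
        - ∫ x, (∑ p, D.kk c i t x p q ^ 2) * M.w i x| ≤ C * t := by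
  obtain ⟨C1, h1⟩ := err_l2 S hC hM hD hR q
  have hkk := vb_kk hC hM hD
  choose hI C hCb using fun p => hC.int_mul 0 0 _ _ le_rfl le_rfl (hkk p q) (hkk p q)
  refine ⟨(∑ p, |C p|) + 2 * |C1|, fun i t ht => ?_⟩
  obtain ⟨hs, hb⟩ := h1 i t ht
  have hpar := pars_vb S hR (h := fun p i t x => D.kk c i t x p q) (fun p => hkk p q) (i := i) ht
      (fun x p hx => kk_zero hR (by linarith) p q)
  have hE : ∑' k, (∑ p, TT M (S.mu i k) (fun i t x => D.f3 c i t x p q) (uu S i k p) i t) ^ 2 ≤ |C1| * t ^ 4 :=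
    hb.trans (mul_le_mul_of_nonneg_right (le_abs_self _) (by have := ht.1; positivity))
  have ht3 : 0 < t ^ 3 := pow_pos ht.1 3
  obtain ⟨g1, g2⟩ := l2_pert hpar hs hE ht3
  have e1 : ∀ k, Real.exp (-(S.mu i k * t)) * S.u i k 0 q
      = ∑ p, PP M (fun i t x => D.kk c i t x p q) (uu S i k p) i t
        - ∑ p, TT M (S.mu i k) (fun i t x => D.f3 c i t x p q) (uu S i k p) i t := fun k =>
    ident S hC hM hD hR hk4 i k q ht
  simp only [e1]
  refine ⟨g1, g2.trans ?_⟩
  -- the bound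
  have hA : ∫ x, (∑ p, D.kk c i t x p q ^ 2) * M.w i x ≤ (∑ p, |C p|) * (t ^ 2)⁻¹ := by
    have e2 : ∫ x, (∑ p, D.kk c i t x p q ^ 2) * M.w i x
        = ∑ p, ∫ x, D.kk c i t x p q * D.kk c i t x p q * M.w i x := by
      rw [← integral_finsetSum Finset.univ fun p _ => hI p i t ht]
      refine integral_congr_ae (Eventually.of_forall fun x => ?_)
      show (∑ p, D.kk c i t x p q ^ 2) * M.w i x = ∑ p, D.kk c i t x p q * D.kk c i t x p q * M.w i x
      rw [Finset.sum_mul]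
      simp only [pow_two]
    rw [e2, Finset.sum_mul]
    refine Finset.sum_le_sum fun p _ => ?_
    have h3 := (le_abs_self _).trans (hCb p i t ht)
    refine h3.trans ?_
    have h4 : t ^ ((0 : ℝ) + 0 - 2) = (t ^ 2)⁻¹ := by
      rw [show (0 : ℝ) + 0 - 2 = -(2 : ℕ) by norm_num, Real.rpow_neg ht.1.le, Real.rpow_natCast]
    rw [h4]
    exact mul_le_mul_of_nonneg_right (le_abs_self _) (by positivity)
  have ht0 := ht.1
  have hCn : 0 ≤ ∑ p, |C p| := Finset.sum_nonneg fun p _ => abs_nonneg _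
  have b1 : t ^ 3 * ∫ x, (∑ p, D.kk c i t x p q ^ 2) * M.w i x ≤ (∑ p, |C p|) * t := by
    calc _ ≤ t ^ 3 * ((∑ p, |C p|) * (t ^ 2)⁻¹) := mul_le_mul_of_nonneg_left hA ht3.le
      _ = (∑ p, |C p|) * t := by
        field_simp
  have b2 : ((t ^ 3)⁻¹ + 1) * (|C1| * t ^ 4) ≤ 2 * |C1| * t := by
    have e3 : ((t ^ 3)⁻¹ + 1) * (|C1| * t ^ 4) = |C1| * t + |C1| * t ^ 4 := by
      field_simp
    rw [e3]
    have h5 : t ^ 4 ≤ t := by
      have := pow_le_pow_of_le_one ht0.le ht.2 (show 1 ≤ 4 by norm_num)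
      simpa using this
    have := mul_le_mul_of_nonneg_left h5 (abs_nonneg C1)
    linarith
  have b3 := add_le_add b1 b2
  rw [← add_mul] at b3
  exact b3

/-- **HK5** -/
theorem core (hR : 0 < R)
    (hk4 : ∀ (i : ι) (z : E4) (f : E4 → ℝ), Measurable f → (∃ B, ∀ x, |f x| ≤ B) → ContinuousAt f z →
      Tendsto (fun t => ∫ x, M.GG i t x z * f x * M.w i x) (𝓝[>] 0) (𝓝 (f z))) : CoreStmt c D := by
  intro K' _ S'
  choose C hCb using fun q => column S' hC hM hD hR hk4 q
  have hkk := vb_kk hC hM hD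
  refine ⟨∑ q, C q, fun i t ht => ?_⟩
  have hs : ∀ q, Summable (fun k => (Real.exp (-(S'.mu i k * t)) * S'.u i k 0 q) ^ 2) := fun q =>
    (hCb q i t ht).1
  have hb := fun q => (hCb q i t ht).2
  have e1 : ∀ k, Real.exp (-(2 * t * S'.mu i k)) * ∑ p, S'.u i k 0 p ^ 2
      = ∑ q, (Real.exp (-(S'.mu i k * t)) * S'.u i k 0 q) ^ 2 := by
    intro k
    rw [Finset.mul_sum]
    refine Finset.sum_congr rfl fun q _ => ?_
    rw [mul_pow, ← Real.exp_nat_mul]
    congr 2
    push_cast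
    ring
  have hH := hasSum_sum (s := Finset.univ) fun (q : κ) _ => (hs q).hasSum
  have hdiag : S'.diag i t = ∑ q, ∑' k, (Real.exp (-(S'.mu i k * t)) * S'.u i k 0 q) ^ 2 := by
    unfold Sys.diag
    simp only [e1]
    exact hH.tsum_eq
  refine ⟨?_, ?_⟩
  · simp only [e1]
    exact hH.summable
  · have hI : ∀ p q, Integrable fun x => D.kk c i t x p q * D.kk c i t x p q * M.w i x := fun p q =>
      (hC.int_mul 0 0 _ _ le_rfl le_rfl (hkk p q) (hkk p q)).1 i t ht
    have e2 : ∫ x, (∑ p, ∑ q, D.kk c i t x p q ^ 2) * M.w i x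
        = ∑ q, ∫ x, (∑ p, D.kk c i t x p q ^ 2) * M.w i x := by
      rw [← integral_finsetSum Finset.univ fun q _ => ?_]
      · refine integral_congr_ae (Eventually.of_forall fun x => ?_)
        show (∑ p, ∑ q, D.kk c i t x p q ^ 2) * M.w i x = ∑ q, (∑ p, D.kk c i t x p q ^ 2) * M.w i x
        rw [Finset.sum_comm, Finset.sum_mul]
      · have h1 : Integrable fun x => ∑ p, D.kk c i t x p q * D.kk c i t x p q * M.w i x :=
          integrable_finsetSum _ fun p _ => hI p q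
        refine h1.congr (Eventually.of_forall fun x => ?_)
        show ∑ p, D.kk c i t x p q * D.kk c i t x p q * M.w i x = (∑ p, D.kk c i t x p q ^ 2) * M.w i x
        rw [Finset.sum_mul]
        simp only [pow_two]
    rw [hdiag, e2, ← Finset.sum_sub_distrib, Finset.sum_mul]
    exact (Finset.abs_sum_le_sum_abs _ _).trans (Finset.sum_le_sum fun q _ => hb q)

end matrix

end Crest.Agent.R249.HK5_905
end
end

-- ▼ part R249/HKEnd_286

/-!
# Row 249, PART C (helper286): heat trace comparison, unconditional.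
Assembly of the leaves HK1, HK4 (helper654), HK2, HK3 (helper352), HK5 (helper905), HK6, HK8 (helper286),
HK7 (helper274), HK9 (helper714).
-/

set_option autoImplicit false
open scoped ContDiff Topology
open MeasureTheory Set Metric Filter

namespace Crest.Agent.R249.HK286
open Crest.Agent.R249.HK9_714 (ChartStmt)

theorem mainStmt : MainStmt :=
  mainStmt_of2 (fun _ _ _ c _ => HK352.inpM c)
    (fun _ M _ _ _ _ _ _ hR hC hM hD => HK5_905.core hC hM hD hR
      (fun i z _ hf hB hc => HK4_654.hk4 M i z hf hB hc))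

theorem chartStmt : ChartStmt := HK8_286.chartStmt mainStmt

end Crest.Agent.R249.HK286

namespace Crest.Agent.R249.HK286
open scoped Manifold Bundle
open Bundle
open Crest.Agent.R249.HK9_714 Crest.Agent.R249.Tv57

/-- **heat trace comparison** on a closed 4-manifold, no hypothesis left -/
theorem heat_trace {M : Type*} [MetricSpace M] [ChartedSpace (EuclideanSpace ℝ (Fin 4)) M]
    [IsManifold (𝓡 4) ∞ M]
    [RiemannianBundle (fun p : M => TangentSpace (𝓡 4) p)]
    [IsContMDiffRiemannianBundle (𝓡 4) ∞ (EuclideanSpace ℝ (Fin 4)) (fun p : M => TangentSpace (𝓡 4) p)]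
    [IsRiemannianManifold (𝓡 4) M] [MeasurableSpace M] [BorelSpace M]
    [SecondCountableTopology M] [Nonempty M] [CompactSpace M]
    {κ κ' : Type} [Fintype κ] [Fintype κ']
    (D : Dat 4 M κ) (D' : Dat 4 M κ') (S : Spec D) (S' : Spec D')
    (hr : ∀ z, ∑ a, D.p a a z = ∑ a, D'.p a a z)
    (hq : ∀ z, ∑ a, ∑ b, D.Q a b z * D.p a b z = ∑ a, ∑ b, D'.Q a b z * D'.p a b z) :
    (∀ t : ℝ, 0 < t → Summable fun k => Real.exp (-(t * S.μ k))) ∧
    (∀ t : ℝ, 0 < t → Summable fun k => Real.exp (-(t * S'.μ k))) ∧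
    Integrable (fun z => dn D z - dn D' z) (μHE[4] : Measure M) ∧
    Tendsto (fun t => ∑' k, Real.exp (-(t * S.μ k)) - ∑' k, Real.exp (-(t * S'.μ k)))
      (𝓝[>] 0) (𝓝 (∫ z, (dn D z - dn D' z) ∂(μHE[4] : Measure M))) :=
  heat_trace_of chartStmt D D' S S' hr hq

end Crest.Agent.R249.HK286
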