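import Crest.Agent.R247.Mcp2_688

-- ▼ part R249/SobA_982
section

/-!
# R249 (D3-SOB), part A: pointwise Lipschitz bounds and upper gradients along rays

`LG ψ G` : `G` is continuous, `≥ 0` and bounds the pointwise Lipschitz constant of `ψ`.

* closure properties (`comp`, `mul`, `add`, `const`);
* `LG.ray` : `|ψ z - ψ x| ≤ dist x z * ∫₀¹ G (T x t z) dt` for good pairs of a `Rad` structure;
-/

set_option autoImplicit false
set_option linter.unusedSectionVars false
open MeasureTheory Set Filter Topology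
open scoped ENNReal NNReal

noncomputable section
namespace Crest.Agent.R249.SobA_982

open Crest.Agent.R247.Mcp688

section LG
variable {X : Type*} [MetricSpace X]

/-- `G` is continuous, nonnegative, and bounds the pointwise Lipschitz constant of `ψ`. -/
structure LG (ψ G : X → ℝ) : Prop where
  contG : Continuous G
  nonneg : ∀ y, 0 ≤ G y
  lip : ∀ y, ∀ ε : ℝ, 0 < ε → ∀ᶠ z in 𝓝 y, |ψ z - ψ y| ≤ (G y + ε) * dist z y

lemma LG.continuous {ψ G : X → ℝ} (h : LG ψ G) : Continuous ψ := by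
  rw [continuous_iff_continuousAt]
  intro y
  have h1 := h.lip y 1 one_pos
  rw [ContinuousAt, tendsto_iff_dist_tendsto_zero]
  have h2 : Tendsto (fun z => (G y + 1) * dist z y) (𝓝 y) (𝓝 0) := by
    have : Tendsto (fun z => (G y + 1) * dist z y) (𝓝 y) (𝓝 ((G y + 1) * dist y y)) :=
      ((continuous_const.mul (continuous_id.dist continuous_const)).tendsto y)
    simpa using this
  refine squeeze_zero' (Eventually.of_forall fun _ => dist_nonneg) ?_ h2
  filter_upwards [h1] with z hz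
  rwa [Real.dist_eq]

lemma LG.mono {ψ G G' : X → ℝ} (h : LG ψ G) (hc : Continuous G') (hle : ∀ y, G y ≤ G' y) :
    LG ψ G' where
  contG := hc
  nonneg y := (h.nonneg y).trans (hle y)
  lip y ε hε := by
    filter_upwards [h.lip y ε hε] with z hz
    refine hz.trans ?_
    have := hle y
    gcongr

lemma LG.congr {ψ ψ' G G' : X → ℝ} (h : LG ψ G) (h1 : ∀ y, ψ' y = ψ y) (h2 : ∀ y, G' y = G y) :
    LG ψ' G' := by
  have e1 : ψ' = ψ := funext h1
  have e2 : G' = G := funext h2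
  rw [e1, e2]; exact h

lemma LG.const (c : ℝ) : LG (fun _ : X => c) (fun _ => 0) where
  contG := continuous_const
  nonneg _ := le_refl _
  lip y ε hε := by
    refine Eventually.of_forall fun z => ?_
    simp only [sub_self, abs_zero, zero_add]
    positivity

lemma LG.of_lipschitz {ψ : X → ℝ} {K : ℝ} (hK : 0 ≤ K) (h : ∀ x y, |ψ x - ψ y| ≤ K * dist x y) :
    LG ψ (fun _ => K) where
  contG := continuous_const
  nonneg _ := hK
  lip y ε hε := by
    refine Eventually.of_forall fun z => (h z y).trans ?_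
    have : 0 ≤ dist z y := dist_nonneg
    nlinarith

/-- Chain rule for a `C¹` function. -/
lemma LG.comp {ψ G : X → ℝ} (h : LG ψ G) {Φ : ℝ → ℝ} (hΦ : ContDiff ℝ 1 Φ) :
    LG (fun y => Φ (ψ y)) (fun y => |deriv Φ (ψ y)| * G y) where
  contG := ((hΦ.continuous_deriv le_rfl).comp h.continuous).abs.mul h.contG
  nonneg y := mul_nonneg (abs_nonneg _) (h.nonneg y)
  lip y ε hε := by
    have hd : HasDerivAt Φ (deriv Φ (ψ y)) (ψ y) :=
      (hΦ.differentiable (by norm_num)).differentiableAt.hasDerivAt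
    -- choose `δ`
    obtain ⟨δ, hδ, hδε⟩ : ∃ δ : ℝ, 0 < δ ∧ (|deriv Φ (ψ y)| + δ) * (G y + δ) ≤
        |deriv Φ (ψ y)| * G y + ε := by
      set a := |deriv Φ (ψ y)| with ha
      have ha0 : 0 ≤ a := abs_nonneg _
      have hg0 := h.nonneg y
      refine ⟨min 1 (ε / (a + G y + 1)), lt_min one_pos (by positivity), ?_⟩
      set δ := min 1 (ε / (a + G y + 1)) with hδ
      have h1 : δ ≤ 1 := min_le_left _ _
      have h2 : δ ≤ ε / (a + G y + 1) := min_le_right _ _
      have h0 : 0 < δ := lt_min one_pos (by positivity)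
      have h3 : δ * (a + G y + 1) ≤ ε := by
        rwa [le_div_iff₀ (by positivity)] at h2
      nlinarith
    have h1 := h.lip y δ hδ
    have h2 : ∀ᶠ s in 𝓝 (ψ y), |Φ s - Φ (ψ y)| ≤ (|deriv Φ (ψ y)| + δ) * |s - ψ y| := by
      have := hd.isLittleO.bound hδ
      filter_upwards [this] with s hs
      simp only [Real.norm_eq_abs, smul_eq_mul] at hs
      calc |Φ s - Φ (ψ y)| = |(Φ s - Φ (ψ y) - (s - ψ y) * deriv Φ (ψ y)) +
            (s - ψ y) * deriv Φ (ψ y)| := by ring_nf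
        _ ≤ |Φ s - Φ (ψ y) - (s - ψ y) * deriv Φ (ψ y)| + |(s - ψ y) * deriv Φ (ψ y)| :=
            abs_add_le _ _
        _ ≤ δ * |s - ψ y| + |(s - ψ y) * deriv Φ (ψ y)| := by gcongr
        _ = (|deriv Φ (ψ y)| + δ) * |s - ψ y| := by rw [abs_mul]; ring
    filter_upwards [h1, h.continuous.continuousAt.eventually h2] with z hz1 hz2
    calc |Φ (ψ z) - Φ (ψ y)| ≤ (|deriv Φ (ψ y)| + δ) * |ψ z - ψ y| := hz2
      _ ≤ (|deriv Φ (ψ y)| + δ) * ((G y + δ) * dist z y) := by gcongr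
      _ = ((|deriv Φ (ψ y)| + δ) * (G y + δ)) * dist z y := by ring
      _ ≤ _ := by gcongr

lemma LG.add {ψ G φ F : X → ℝ} (h : LG ψ G) (h' : LG φ F) :
    LG (fun y => ψ y + φ y) (fun y => G y + F y) where
  contG := h.contG.add h'.contG
  nonneg y := add_nonneg (h.nonneg y) (h'.nonneg y)
  lip y ε hε := by
    filter_upwards [h.lip y (ε / 2) (by positivity), h'.lip y (ε / 2) (by positivity)]
      with z h1 h2
    calc |ψ z + φ z - (ψ y + φ y)| = |(ψ z - ψ y) + (φ z - φ y)| := by ring_nf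
      _ ≤ |ψ z - ψ y| + |φ z - φ y| := abs_add_le _ _
      _ ≤ (G y + ε / 2) * dist z y + (F y + ε / 2) * dist z y := add_le_add h1 h2
      _ = _ := by ring

lemma LG.neg {ψ G : X → ℝ} (h : LG ψ G) : LG (fun y => - ψ y) G where
  contG := h.contG
  nonneg := h.nonneg
  lip y ε hε := by
    filter_upwards [h.lip y ε hε] with z hz
    rw [← abs_neg]
    convert hz using 2
    ring

lemma LG.abs {ψ G : X → ℝ} (h : LG ψ G) : LG (fun y => |ψ y|) G where
  contG := h.contG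
  nonneg := h.nonneg
  lip y ε hε := by
    filter_upwards [h.lip y ε hε] with z hz
    exact (abs_abs_sub_abs_le _ _).trans hz

lemma LG.sub {ψ G φ F : X → ℝ} (h : LG ψ G) (h' : LG φ F) :
    LG (fun y => ψ y - φ y) (fun y => G y + F y) := by
  have := h.add h'.neg
  simpa only [sub_eq_add_neg] using this

lemma LG.sub_const {ψ G : X → ℝ} (h : LG ψ G) (c : ℝ) : LG (fun y => ψ y - c) G := by
  have := h.sub (LG.const c)
  simpa using this

lemma LG.mul {ψ G φ F : X → ℝ} (h : LG ψ G) (h' : LG φ F) :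
    LG (fun y => ψ y * φ y) (fun y => |ψ y| * F y + |φ y| * G y) where
  contG := (h.continuous.abs.mul h'.contG).add (h'.continuous.abs.mul h.contG)
  nonneg y := add_nonneg (mul_nonneg (abs_nonneg _) (h'.nonneg y))
    (mul_nonneg (abs_nonneg _) (h.nonneg y))
  lip y ε hε := by
    have hg0 := h.nonneg y
    have hf0 := h'.nonneg y
    set a := |ψ y| with ha
    set b := |φ y| with hb
    have ha0 : 0 ≤ a := abs_nonneg _
    have hb0 : 0 ≤ b := abs_nonneg _
    -- `ψ z φ z - ψ y φ y = ψ z (φ z - φ y) + φ y (ψ z - ψ y)`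
    obtain ⟨δ, hδ, hδε⟩ : ∃ δ : ℝ, 0 < δ ∧ (a + δ) * (F y + δ) + b * (G y + δ) ≤
        a * F y + b * G y + ε := by
      refine ⟨min 1 (ε / (a + F y + b + 1)), lt_min one_pos (by positivity), ?_⟩
      set δ := min 1 (ε / (a + F y + b + 1)) with hδ
      have h1 : δ ≤ 1 := min_le_left _ _
      have h2 : δ ≤ ε / (a + F y + b + 1) := min_le_right _ _
      have h0 : 0 < δ := lt_min one_pos (by positivity)
      have h3 : δ * (a + F y + b + 1) ≤ ε := by
        rwa [le_div_iff₀ (by positivity)] at h2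
      nlinarith
    have h3 : ∀ᶠ z in 𝓝 y, |ψ z| ≤ a + δ := by
      have : ∀ᶠ z in 𝓝 y, |ψ z| < a + δ :=
        h.continuous.abs.continuousAt.eventually_lt continuousAt_const (by simp [← ha]; exact hδ)
      filter_upwards [this] with z hz using hz.le
    filter_upwards [h.lip y δ hδ, h'.lip y δ hδ, h3] with z h1 h2 h3
    have hd : 0 ≤ dist z y := dist_nonneg
    calc |ψ z * φ z - ψ y * φ y| = |ψ z * (φ z - φ y) + φ y * (ψ z - ψ y)| := by ring_nf
      _ ≤ |ψ z * (φ z - φ y)| + |φ y * (ψ z - ψ y)| := abs_add_le _ _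
      _ = |ψ z| * |φ z - φ y| + b * |ψ z - ψ y| := by rw [abs_mul, abs_mul]
      _ ≤ (a + δ) * ((F y + δ) * dist z y) + b * ((G y + δ) * dist z y) := by gcongr
      _ = ((a + δ) * (F y + δ) + b * (G y + δ)) * dist z y := by ring
      _ ≤ _ := by gcongr

end LG

section ray
variable {n : ℕ} {κ : ℝ} {X : Type*} [MetricSpace X] [MeasurableSpace X] [BorelSpace X]
  {μ : Measure X} (C : Rad n κ X μ)

include C

/-- along a good ray -/
lemma continuousOn_T {x z : X} (h : (x, z) ∈ C.U) :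
    ContinuousOn (fun t : ℝ => C.T x t z) (Icc 0 1) := by
  refine LipschitzOnWith.continuousOn (K := Real.toNNReal (dist x z)) ?_
  refine LipschitzOnWith.of_dist_le_mul fun s hs t ht => ?_
  rw [C.dist_T x z h s hs t ht, Real.dist_eq, Real.coe_toNNReal _ dist_nonneg, mul_comm]

/-- one-sided ray inequality -/
lemma LG.ray_aux {ψ G : X → ℝ} (hψ : LG ψ G) {x z : X} (h : (x, z) ∈ C.U) :
    ψ z - ψ x ≤ dist x z * ∫ t in (0:ℝ)..1, G (C.T x t z) := by
  set L := dist x z with hL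
  have hL0 : 0 ≤ L := dist_nonneg
  set γ : ℝ → X := fun t => C.T x t z with hγ
  have hγc : ContinuousOn γ (Icc 0 1) := continuousOn_T C h
  -- extend the integrand to a continuous function on the line
  set g : ℝ → ℝ := fun t => G (γ (max 0 (min 1 t))) with hg
  have hgc : Continuous g := by
    have h1 : Continuous fun t : ℝ => γ (max 0 (min 1 t)) := by
      refine hγc.comp_continuous (by fun_prop) fun t => ⟨le_max_left _ _, ?_⟩
      exact max_le zero_le_one (min_le_left _ _)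
    exact hψ.contG.comp h1
  have hgI : ∀ t ∈ Icc (0:ℝ) 1, g t = G (γ t) := by
    intro t ht
    simp only [hg]
    rw [min_eq_right ht.2, max_eq_right ht.1]
  set B : ℝ → ℝ := fun s => ψ x + L * ∫ t in (0:ℝ)..s, g t with hB
  have hBd : ∀ s, HasDerivAt B (L * g s) s := by
    intro s
    have := (hgc.integral_hasStrictDerivAt 0 s).hasDerivAt
    exact (this.const_mul L).const_add (ψ x)
  have key := image_le_of_liminf_slope_right_le_deriv_boundary (f := fun t => ψ (γ t)) (a := 0)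
    (b := 1) (B := B) (B' := fun s => L * g s) (hψ.continuous.comp_continuousOn hγc)
    (by simp [hB, hγ, C.T_zero x z h])
    (fun s _ => (hBd s).continuousAt.continuousWithinAt)
    (fun s _ => (hBd s).hasDerivWithinAt) ?_ (right_mem_Icc.2 zero_le_one)
  · have e1 : γ 1 = z := C.T_one x z h
    have e2 : ∫ t in (0:ℝ)..1, g t = ∫ t in (0:ℝ)..1, G (γ t) := by
      apply intervalIntegral.integral_congr
      intro t ht
      rw [uIcc_of_le zero_le_one] at ht
      exact hgI t ht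
    simp only [e1, hB, e2] at key
    linarith
  · intro s hs r hr
    have hs' : s ∈ Icc (0:ℝ) 1 := ⟨hs.1, hs.2.le⟩
    simp only [hgI s hs'] at hr
    -- choose `ε`
    obtain ⟨ε, hε, hεr⟩ : ∃ ε : ℝ, 0 < ε ∧ L * (G (γ s) + ε) < r := by
      refine ⟨(r - L * G (γ s)) / (2 * (L + 1)), by
        have : 0 < r - L * G (γ s) := by linarith
        positivity, ?_⟩
      have h0 : 0 < r - L * G (γ s) := by linarith
      have h1 : L * ((r - L * G (γ s)) / (2 * (L + 1))) ≤ (r - L * G (γ s)) / 2 := by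
        rw [mul_div_assoc', div_le_div_iff₀ (by positivity) (by norm_num)]
        nlinarith
      rw [mul_add]
      linarith
    have h1 := hψ.lip (γ s) ε hε
    have hcw : Tendsto γ (𝓝[>] s) (𝓝 (γ s)) := by
      have h2 : ContinuousWithinAt γ (Icc 0 1) s := hγc s hs'
      refine h2.tendsto.mono_left ?_
      rw [nhdsWithin_le_iff]
      filter_upwards [Ioo_mem_nhdsGT hs.2] with t ht
      exact ⟨hs.1.trans ht.1.le, ht.2.le⟩
    have h2 : ∀ᶠ t in 𝓝[>] s, |ψ (γ t) - ψ (γ s)| ≤ (G (γ s) + ε) * dist (γ t) (γ s) :=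
      hcw.eventually h1
    have h3 : ∀ᶠ t in 𝓝[>] s, slope (fun t => ψ (γ t)) s t < r := by
      filter_upwards [h2, Ioo_mem_nhdsGT hs.2] with t ht hts
      have hd : dist (γ t) (γ s) = (t - s) * L := by
        rw [C.dist_T x z h t ⟨hs.1.trans hts.1.le, hts.2.le⟩ s hs', abs_of_pos (by linarith [hts.1])]
      rw [slope_def_field]
      have hpos : 0 < t - s := by linarith [hts.1]
      rw [div_lt_iff₀ hpos]
      have h4 : ψ (γ t) - ψ (γ s) ≤ (G (γ s) + ε) * ((t - s) * L) := by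
        rw [← hd]; exact (le_abs_self _).trans ht
      calc ψ (γ t) - ψ (γ s) ≤ (L * (G (γ s) + ε)) * (t - s) := by linarith
        _ < r * (t - s) := by gcongr
    exact h3.frequently

/-- **Ray inequality**: `|ψ z - ψ x| ≤ d(x,z) ∫₀¹ G (T x t z) dt`. -/
lemma LG.ray {ψ G : X → ℝ} (hψ : LG ψ G) {x z : X} (h : (x, z) ∈ C.U) :
    |ψ z - ψ x| ≤ dist x z * ∫ t in (0:ℝ)..1, G (C.T x t z) := by
  rw [abs_le]
  refine ⟨?_, LG.ray_aux C hψ h⟩
  have := LG.ray_aux C hψ.neg h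
  linarith

/-- The ray inequality in `ℝ≥0∞`. -/
lemma LG.ray' {ψ G : X → ℝ} (hψ : LG ψ G) {x z : X} (h : (x, z) ∈ C.U) :
    ENNReal.ofReal |ψ z - ψ x| ≤
      ENNReal.ofReal (dist x z) * ∫⁻ t in Icc (0:ℝ) 1, ENNReal.ofReal (G (C.T x t z)) := by
  have h1 := LG.ray C hψ h
  have hc : ContinuousOn (fun t : ℝ => G (C.T x t z)) (Icc 0 1) :=
    hψ.contG.comp_continuousOn (continuousOn_T C h)
  have h2 : ∫ t in (0:ℝ)..1, G (C.T x t z) = ∫ t in Icc (0:ℝ) 1, G (C.T x t z) := by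
    rw [intervalIntegral.integral_of_le zero_le_one, integral_Icc_eq_integral_Ioc]
  have hi : IntegrableOn (fun t : ℝ => G (C.T x t z)) (Icc 0 1) := hc.integrableOn_Icc
  calc ENNReal.ofReal |ψ z - ψ x|
      ≤ ENNReal.ofReal (dist x z * ∫ t in Icc (0:ℝ) 1, G (C.T x t z)) := by
        apply ENNReal.ofReal_le_ofReal; rw [← h2]; exact h1
    _ = ENNReal.ofReal (dist x z) * ENNReal.ofReal (∫ t in Icc (0:ℝ) 1, G (C.T x t z)) :=
        ENNReal.ofReal_mul dist_nonneg
    _ = _ := by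
        rw [ofReal_integral_eq_lintegral_ofReal hi
          (Eventually.of_forall fun t => hψ.nonneg _)]

/-- squared form (Cauchy–Schwarz). -/
lemma LG.ray_sq {ψ G : X → ℝ} (hψ : LG ψ G) {x z : X} (h : (x, z) ∈ C.U) :
    ENNReal.ofReal ((ψ z - ψ x) ^ 2) ≤
      ENNReal.ofReal (dist x z ^ 2) * ∫⁻ t in Icc (0:ℝ) 1, ENNReal.ofReal (G (C.T x t z) ^ 2) := by
  have h1 := LG.ray C hψ h
  have hc : ContinuousOn (fun t : ℝ => G (C.T x t z)) (Icc 0 1) :=
    hψ.contG.comp_continuousOn (continuousOn_T C h)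
  have h2 : ∫ t in (0:ℝ)..1, G (C.T x t z) = ∫ t in Icc (0:ℝ) 1, G (C.T x t z) := by
    rw [intervalIntegral.integral_of_le zero_le_one, integral_Icc_eq_integral_Ioc]
  rw [h2] at h1
  set I := ∫ t in Icc (0:ℝ) 1, G (C.T x t z) with hI
  have hi : IntegrableOn (fun t : ℝ => G (C.T x t z)) (Icc 0 1) := hc.integrableOn_Icc
  have hi2 : IntegrableOn (fun t : ℝ => G (C.T x t z) ^ 2) (Icc 0 1) := (hc.pow 2).integrableOn_Icc
  have hI0 : 0 ≤ I := integral_nonneg fun t => hψ.nonneg _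
  have hcs : I ^ 2 ≤ ∫ t in Icc (0:ℝ) 1, G (C.T x t z) ^ 2 := by
    have h3 : 0 ≤ ∫ t in Icc (0:ℝ) 1, (G (C.T x t z) - I) ^ 2 := integral_nonneg fun t => sq_nonneg _
    have h4 : ∫ t in Icc (0:ℝ) 1, (G (C.T x t z) - I) ^ 2 =
        (∫ t in Icc (0:ℝ) 1, G (C.T x t z) ^ 2) - 2 * I * I + I ^ 2 := by
      have e : ∀ t : ℝ, (G (C.T x t z) - I) ^ 2 =
          G (C.T x t z) ^ 2 - 2 * I * G (C.T x t z) + I ^ 2 := fun t => by ring
      have a1 : Integrable (fun t : ℝ => G (C.T x t z) ^ 2 - 2 * I * G (C.T x t z))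
          (volume.restrict (Icc (0:ℝ) 1)) := hi2.sub (hi.const_mul (2 * I))
      have a2 : Integrable (fun _ : ℝ => I ^ 2) (volume.restrict (Icc (0:ℝ) 1)) :=
        integrable_const _
      have a3 : Integrable (fun t : ℝ => 2 * I * G (C.T x t z))
          (volume.restrict (Icc (0:ℝ) 1)) := hi.const_mul (2 * I)
      calc ∫ t in Icc (0:ℝ) 1, (G (C.T x t z) - I) ^ 2
          = ∫ t in Icc (0:ℝ) 1, ((G (C.T x t z) ^ 2 - 2 * I * G (C.T x t z)) + I ^ 2) := by
            congr 1; funext t; exact e t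
        _ = (∫ t in Icc (0:ℝ) 1, (G (C.T x t z) ^ 2 - 2 * I * G (C.T x t z))) +
              ∫ _ in Icc (0:ℝ) 1, I ^ 2 := integral_add a1 a2
        _ = ((∫ t in Icc (0:ℝ) 1, G (C.T x t z) ^ 2) -
              ∫ t in Icc (0:ℝ) 1, 2 * I * G (C.T x t z)) + ∫ _ in Icc (0:ℝ) 1, I ^ 2 := by
            rw [integral_sub hi2 a3]
        _ = _ := by
            rw [integral_const_mul, ← hI]
            simp
    nlinarith
  have h5 : (ψ z - ψ x) ^ 2 ≤ dist x z ^ 2 * ∫ t in Icc (0:ℝ) 1, G (C.T x t z) ^ 2 := by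
    have hd : 0 ≤ dist x z := dist_nonneg
    calc (ψ z - ψ x) ^ 2 = |ψ z - ψ x| ^ 2 := (sq_abs _).symm
      _ ≤ (dist x z * I) ^ 2 := by gcongr
      _ = dist x z ^ 2 * I ^ 2 := by ring
      _ ≤ _ := by gcongr
  calc ENNReal.ofReal ((ψ z - ψ x) ^ 2)
      ≤ ENNReal.ofReal (dist x z ^ 2 * ∫ t in Icc (0:ℝ) 1, G (C.T x t z) ^ 2) :=
        ENNReal.ofReal_le_ofReal h5
    _ = ENNReal.ofReal (dist x z ^ 2) *
          ENNReal.ofReal (∫ t in Icc (0:ℝ) 1, G (C.T x t z) ^ 2) :=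
        ENNReal.ofReal_mul (by positivity)
    _ = _ := by
        rw [ofReal_integral_eq_lintegral_ofReal hi2
          (Eventually.of_forall fun t => sq_nonneg _)]

end ray

end Crest.Agent.R249.SobA_982
end
end

-- ▼ part R249/SobB_982
section

/-!
# R249 (D3-SOB), part B: representation formula and the kernel `d(x,y)^{1-n}`

* `ker n x y = (edist x y)⁻¹ ^ (n-1)`;
* `repr` : `μ A * |ψ x| ≤ K * ∫ G(y) ker n x y dμ(y)` if `ψ = 0` on `A`;
* `ker_set` : `∫_E ker n x y dμ(x) ≤ (2ⁿ ω + 1) μ(E)^{1/n}` if `μ(ball y r) ≤ ω rⁿ` for all `r`.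
-/

set_option autoImplicit false
set_option linter.unusedSectionVars false
open MeasureTheory Set Filter Topology
open scoped ENNReal NNReal

noncomputable section
namespace Crest.Agent.R249.SobB_982

open Crest.Agent.R247.Mcp688 Crest.Agent.R249.SobA_982

/-- `∫_a^∞ t^{-n} dt`. -/
lemma lintegral_inv_pow {n : ℕ} (hn : 2 ≤ n) {a : ℝ} (ha : 0 < a) :
    ∫⁻ t in Ici a, ENNReal.ofReal ((t⁻¹) ^ n) ≤ ENNReal.ofReal ((a⁻¹) ^ (n - 1)) := by
  have hn' : (1:ℝ) < n := by exact_mod_cast hn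
  have hlt : (-(n:ℝ)) < -1 := by linarith
  have h1 : IntegrableOn (fun t : ℝ => t ^ (-(n:ℝ))) (Ioi a) := integrableOn_Ioi_rpow_of_lt hlt ha
  have h2 : ∫ t in Ioi a, t ^ (-(n:ℝ)) = -a ^ (-(n:ℝ) + 1) / (-(n:ℝ) + 1) :=
    integral_Ioi_rpow_of_lt hlt ha
  have e1 : ∀ t ∈ Ioi a, (t⁻¹) ^ n = t ^ (-(n:ℝ)) := by
    intro t ht
    have : 0 < t := ha.trans ht
    rw [Real.rpow_neg this.le, Real.rpow_natCast, inv_pow]
  rw [setLIntegral_congr Ioi_ae_eq_Ici.symm]
  rw [setLIntegral_congr_fun measurableSet_Ioi (fun t ht => by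
    show ENNReal.ofReal ((t⁻¹) ^ n) = ENNReal.ofReal (t ^ (-(n:ℝ)))
    rw [e1 t ht])]
  rw [← ofReal_integral_eq_lintegral_ofReal h1 ?_, h2]
  · apply ENNReal.ofReal_le_ofReal
    have e2 : a ^ (-(n:ℝ) + 1) = (a⁻¹) ^ (n - 1) := by
      rw [inv_pow, ← Real.rpow_natCast, ← Real.rpow_neg ha.le, Nat.cast_sub (by omega)]
      congr 1
      push_cast
      ring
    have e3 : -a ^ (-(n:ℝ) + 1) / (-(n:ℝ) + 1) = (a⁻¹) ^ (n - 1) / (n - 1) := by
      rw [e2, ← neg_div_neg_eq]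
      congr 1 <;> ring
    rw [e3]
    apply div_le_self (by positivity)
    have : (2:ℝ) ≤ n := by exact_mod_cast hn
    linarith
  · filter_upwards [ae_restrict_mem measurableSet_Ioi] with t ht
    exact Real.rpow_nonneg (ha.trans ht).le _

section defs
variable {X : Type*} [MetricSpace X]

/-- the kernel `d(x,y)^{1-n}` -/
def ker (n : ℕ) (x y : X) : ℝ≥0∞ := ((edist x y)⁻¹) ^ (n - 1)

lemma ker_symm (n : ℕ) (x y : X) : ker n x y = ker n y x := by
  unfold ker; rw [edist_comm]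

lemma ker_eq {n : ℕ} {x y : X} (h : x ≠ y) :
    ker n x y = ENNReal.ofReal (((dist x y)⁻¹) ^ (n - 1)) := by
  have : 0 < dist x y := dist_pos.2 h
  rw [ker, edist_dist, ← ENNReal.ofReal_inv_of_pos this, ENNReal.ofReal_pow (by positivity)]

lemma ker_self {n : ℕ} (hn : 2 ≤ n) (x : X) : ker n x x = ⊤ := by
  have : n - 1 ≠ 0 := by omega
  simp [ker, this]

variable [MeasurableSpace X] [BorelSpace X] [SecondCountableTopology X]

lemma measurable_ker (n : ℕ) : Measurable (fun p : X × X => ker n p.1 p.2) := by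
  unfold ker
  exact (measurable_edist.inv).pow_const _

end defs

section repr
variable {n : ℕ} {κ : ℝ} {X : Type*} [MetricSpace X] [MeasurableSpace X] [BorelSpace X]
  {μ : Measure X} (C : Rad n κ X μ)

include C

/-- **Representation formula.** -/
theorem repr [SFinite μ] (hκ : 0 ≤ κ) (hn : 2 ≤ n) {ψ G : X → ℝ} (hψ : LG ψ G) {x : X} {A : Set X}
    (hA : MeasurableSet A) (hA0 : ∀ z ∈ A, ψ z = 0) {D : ℝ} (hD : 0 < D)
    (hAD : ∀ z ∈ A, dist x z ≤ D) :
    μ A * ENNReal.ofReal |ψ x| ≤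
      ENNReal.ofReal (Real.exp (κ * D ^ 2 / 2) * D ^ n) *
        ∫⁻ y, ENNReal.ofReal (G y) * ker n x y ∂μ := by
  set g : X → ℝ≥0∞ := fun y => ENNReal.ofReal (G y) with hg
  have hgm : Measurable g := ENNReal.measurable_ofReal.comp hψ.contG.measurable
  have hTm : Measurable (fun p : ℝ × X => g (C.T x p.1 p.2)) := hgm.comp (C.measT_x x)
  -- step 1
  have h1 : μ A * ENNReal.ofReal |ψ x| ≤ ENNReal.ofReal D *
      ∫⁻ z in A, ∫⁻ t in Icc (0:ℝ) 1, g (C.T x t z) ∂volume ∂μ := by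
    rw [← lintegral_const_mul']
    · rw [mul_comm, ← setLIntegral_const]
      apply lintegral_mono_ae
      filter_upwards [ae_restrict_of_ae (C.ae_U x), ae_restrict_mem hA] with z hz hzA
      have := LG.ray' C hψ hz
      rw [hA0 z hzA, zero_sub, abs_neg] at this
      refine this.trans ?_
      gcongr
      exact hAD z hzA
    · exact ENNReal.ofReal_ne_top
  -- step 2 : swap
  have h2 : ∫⁻ z in A, ∫⁻ t in Icc (0:ℝ) 1, g (C.T x t z) ∂volume ∂μ =
      ∫⁻ t in Ioc (0:ℝ) 1, ∫⁻ z in A, g (C.T x t z) ∂μ ∂volume := by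
    rw [lintegral_lintegral_swap]
    · exact setLIntegral_congr Ioc_ae_eq_Icc.symm
    · exact (hTm.comp measurable_swap).aemeasurable
  -- step 3 : contraction
  have h3 : ∀ t ∈ Ioc (0:ℝ) 1, ∫⁻ z in A, g (C.T x t z) ∂μ ≤
      ENNReal.ofReal (Real.exp (κ * D ^ 2 / 2)) *
        ∫⁻ y, g y * (ENNReal.ofReal ((t⁻¹) ^ n) *
          (Metric.closedBall x (t * D)).indicator 1 y) ∂μ := by
    intro t ht
    have hW : MeasurableSet (Metric.closedBall x (t * D)) := Metric.isClosed_closedBall.measurableSet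
    refine (C.setLIntegral_T_le hκ x ht hA hW hAD (fun z hz hU => ?_) hgm).trans ?_
    · rw [Metric.mem_closedBall, dist_comm, C.dist_left hU ⟨ht.1.le, ht.2⟩]
      exact mul_le_mul_of_nonneg_left (hAD z hz) ht.1.le
    · rw [ENNReal.ofReal_mul (Real.exp_pos _).le, mul_assoc]
      gcongr
      rw [← lintegral_indicator hW, ← lintegral_const_mul _ (hgm.indicator hW)]
      apply lintegral_mono
      intro y
      by_cases hy : y ∈ Metric.closedBall x (t * D)
      · simp only [indicator_of_mem hy, Pi.one_apply, mul_one]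
        rw [mul_comm]
      · simp only [indicator_of_notMem hy, mul_zero]; exact le_rfl
  -- step 4
  have hm4 : Measurable (fun p : X × ℝ => g p.1 * (ENNReal.ofReal ((p.2⁻¹) ^ n) *
          (Metric.closedBall x (p.2 * D)).indicator 1 p.1)) := by
    have e : (fun p : X × ℝ => (Metric.closedBall x (p.2 * D)).indicator (1 : X → ℝ≥0∞) p.1) =
        {p : X × ℝ | dist p.1 x ≤ p.2 * D}.indicator 1 := by
      funext p
      by_cases hp : dist p.1 x ≤ p.2 * D
      · rw [indicator_of_mem (by simpa using hp), indicator_of_mem (by simpa using hp)]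
        rfl
      · rw [indicator_of_notMem (by simpa using hp), indicator_of_notMem (by simpa using hp)]
    have hms : MeasurableSet {p : X × ℝ | dist p.1 x ≤ p.2 * D} := by
      apply measurableSet_le
      · exact ((continuous_id.dist continuous_const).measurable).comp measurable_fst
      · exact measurable_snd.mul_const _
    refine (hgm.comp measurable_fst).mul (Measurable.mul ?_ ?_)
    · exact ENNReal.measurable_ofReal.comp ((measurable_snd.inv).pow_const _)
    · rw [e]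
      exact measurable_one.indicator hms
  have hm5 : Measurable (Function.uncurry fun (t : ℝ) (y : X) => g y *
      (ENNReal.ofReal ((t⁻¹) ^ n) * (Metric.closedBall x (t * D)).indicator 1 y)) :=
    hm4.comp measurable_swap
  have h4 : ∫⁻ t in Ioc (0:ℝ) 1, ∫⁻ z in A, g (C.T x t z) ∂μ ∂volume ≤
      ENNReal.ofReal (Real.exp (κ * D ^ 2 / 2)) *
        ∫⁻ y, g y * (ENNReal.ofReal (D ^ (n - 1)) * ker n x y) ∂μ := by
    calc ∫⁻ t in Ioc (0:ℝ) 1, ∫⁻ z in A, g (C.T x t z) ∂μ ∂volume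
        ≤ ∫⁻ t in Ioc (0:ℝ) 1, ENNReal.ofReal (Real.exp (κ * D ^ 2 / 2)) *
        ∫⁻ y, g y * (ENNReal.ofReal ((t⁻¹) ^ n) *
          (Metric.closedBall x (t * D)).indicator 1 y) ∂μ := by
          apply setLIntegral_mono' measurableSet_Ioc
          exact h3
      _ = ENNReal.ofReal (Real.exp (κ * D ^ 2 / 2)) * ∫⁻ t in Ioc (0:ℝ) 1,
        ∫⁻ y, g y * (ENNReal.ofReal ((t⁻¹) ^ n) *
          (Metric.closedBall x (t * D)).indicator 1 y) ∂μ := by
          rw [lintegral_const_mul' _ _ ENNReal.ofReal_ne_top]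
      _ ≤ _ := by
          gcongr
          rw [lintegral_lintegral_swap hm5.aemeasurable]
          apply lintegral_mono
          intro y
          show ∫⁻ t in Ioc (0:ℝ) 1, g y * (ENNReal.ofReal ((t⁻¹) ^ n) *
            (Metric.closedBall x (t * D)).indicator 1 y) ≤ g y * (ENNReal.ofReal (D ^ (n - 1)) * ker n x y)
          rw [lintegral_const_mul' _ _ ENNReal.ofReal_ne_top]
          gcongr
          by_cases hxy : x = y
          · subst hxy
            rw [ker_self hn, ENNReal.mul_top]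
            · exact le_top
            · simp only [ne_eq, ENNReal.ofReal_eq_zero, not_le]
              positivity
          · have hd : 0 < dist x y := dist_pos.2 hxy
            have ha : 0 < dist x y / D := by positivity
            calc ∫⁻ t in Ioc (0:ℝ) 1, ENNReal.ofReal ((t⁻¹) ^ n) *
                  (Metric.closedBall x (t * D)).indicator 1 y
                ≤ ∫⁻ t, (Ici (dist x y / D)).indicator
                    (fun t : ℝ => ENNReal.ofReal ((t⁻¹) ^ n)) t := by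
                  refine (lintegral_mono' Measure.restrict_le_self ?_)
                  intro t
                  beta_reduce
                  by_cases ht : y ∈ Metric.closedBall x (t * D)
                  · rw [indicator_of_mem ht, indicator_of_mem]
                    · simp
                    · rw [Metric.mem_closedBall, dist_comm] at ht
                      rw [mem_Ici, div_le_iff₀ hD]
                      exact ht
                  · rw [indicator_of_notMem ht, mul_zero]; exact bot_le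
              _ = ∫⁻ t in Ici (dist x y / D), ENNReal.ofReal ((t⁻¹) ^ n) := by
                  rw [lintegral_indicator measurableSet_Ici]
              _ ≤ ENNReal.ofReal (((dist x y / D)⁻¹) ^ (n - 1)) := lintegral_inv_pow hn ha
              _ = ENNReal.ofReal (D ^ (n - 1)) * ker n x y := by
                  rw [ker_eq hxy, ← ENNReal.ofReal_mul (by positivity), inv_div, div_pow, inv_pow]
                  rfl
  have h5 : ∫⁻ y, g y * (ENNReal.ofReal (D ^ (n - 1)) * ker n x y) ∂μ =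
      ENNReal.ofReal (D ^ (n - 1)) * ∫⁻ y, g y * ker n x y ∂μ := by
    rw [← lintegral_const_mul' _ _ ENNReal.ofReal_ne_top]
    congr 1
    funext y
    ring
  calc μ A * ENNReal.ofReal |ψ x|
      ≤ ENNReal.ofReal D * ∫⁻ z in A, ∫⁻ t in Icc (0:ℝ) 1, g (C.T x t z) ∂volume ∂μ := h1
    _ = ENNReal.ofReal D * ∫⁻ t in Ioc (0:ℝ) 1, ∫⁻ z in A, g (C.T x t z) ∂μ ∂volume := by rw [h2]
    _ ≤ ENNReal.ofReal D * (ENNReal.ofReal (Real.exp (κ * D ^ 2 / 2)) *
        ∫⁻ y, g y * (ENNReal.ofReal (D ^ (n - 1)) * ker n x y) ∂μ) := by gcongr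
    _ = (ENNReal.ofReal D * ENNReal.ofReal (Real.exp (κ * D ^ 2 / 2)) *
          ENNReal.ofReal (D ^ (n - 1))) * ∫⁻ y, g y * ker n x y ∂μ := by rw [h5]; ring
    _ = _ := by
        rw [← ENNReal.ofReal_mul hD.le, ← ENNReal.ofReal_mul (by positivity)]
        congr 2
        have : D ^ n = D * D ^ (n - 1) := by
          rw [← pow_succ']
          congr 1
          omega
        rw [this]
        ring

end repr

section kernel
variable {X : Type*} [MetricSpace X] [MeasurableSpace X] [BorelSpace X] {μ : Measure X}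

/-- the kernel over a ball -/
lemma ker_ball {n : ℕ} (hn : 2 ≤ n) {ω : ℝ} (hω : 0 ≤ ω) {y : X}
    (hup : ∀ r : ℝ, 0 < r → μ (Metric.ball y r) ≤ ENNReal.ofReal (ω * r ^ n)) {r : ℝ} (hr : 0 < r) :
    ∫⁻ x in Metric.ball y r, ker n x y ∂μ ≤ ENNReal.ofReal (4 ^ n * ω * r) := by
  have hy0 : μ {y} = 0 := by
    by_contra hne
    have hpos : 0 < μ {y} := pos_iff_ne_zero.2 hne
    have hle : ∀ s : ℝ, 0 < s → μ {y} ≤ ENNReal.ofReal (ω * s ^ n) := fun s hs =>
      (measure_mono (by simpa using hs)).trans (hup s hs)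
    have ht : Tendsto (fun s : ℝ => ENNReal.ofReal (ω * s ^ n)) (𝓝[>] 0) (𝓝 0) := by
      have : Tendsto (fun s : ℝ => ENNReal.ofReal (ω * s ^ n)) (𝓝 0) (𝓝 (ENNReal.ofReal (ω * 0 ^ n))) :=
        (ENNReal.continuous_ofReal.comp (by fun_prop)).tendsto 0
      rw [zero_pow (by omega), mul_zero, ENNReal.ofReal_zero] at this
      exact this.mono_left nhdsWithin_le_nhds
    have h0 : μ {y} ≤ 0 := by
      refine ge_of_tendsto ht ?_
      filter_upwards [self_mem_nhdsWithin] with s hs using hle s hs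
    exact absurd h0 (not_le.2 hpos)
  set S : ℕ → Set X := fun k => {x | (1/2)^(k+1) * r < dist x y ∧ dist x y ≤ (1/2)^k * r} with hS
  have hcov : Metric.ball y r ⊆ {y} ∪ ⋃ k, S k := by
    intro x hx
    by_cases hxy : x = y
    · exact Or.inl hxy
    · right
      have hd : 0 < dist x y := dist_pos.2 hxy
      have hdr : dist x y / r < 1 := by rw [div_lt_one hr]; exact hx
      obtain ⟨k, hk1, hk2⟩ := exists_nat_pow_near_of_lt_one (x := dist x y / r) (y := 1/2)
        (by positivity) hdr.le (by norm_num) (by norm_num)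
      refine mem_iUnion.2 ⟨k, ?_⟩
      rw [lt_div_iff₀ hr] at hk1
      rw [div_le_iff₀ hr] at hk2
      exact ⟨hk1, hk2⟩
  have hSk : ∀ k, ∫⁻ x in S k, ker n x y ∂μ ≤ ENNReal.ofReal ((4 ^ n * ω * r * (1/2)) * (1/2)^k) := by
    intro k
    have hρ : 0 < (1/2 : ℝ)^(k+1) * r := by positivity
    have hm : MeasurableSet (S k) := by
      have hdm : Measurable fun x : X => dist x y :=
        (continuous_id.dist continuous_const).measurable
      exact (measurableSet_lt measurable_const hdm).inter (measurableSet_le hdm measurable_const)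
    have hb : ∀ x ∈ S k, ker n x y ≤ ENNReal.ofReal ((((1/2 : ℝ)^(k+1) * r)⁻¹) ^ (n - 1)) := by
      intro x hx
      have hxy : x ≠ y := by
        rintro rfl
        have := hx.1
        rw [dist_self] at this
        linarith
      rw [ker_eq hxy]
      apply ENNReal.ofReal_le_ofReal
      have := hx.1.le
      gcongr
    have hμ : μ (S k) ≤ ENNReal.ofReal (ω * (2 * ((1/2)^k * r)) ^ n) := by
      refine (measure_mono ?_).trans (hup (2 * ((1/2)^k * r)) (by positivity))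
      intro x hx
      rw [Metric.mem_ball]
      have h1 : 0 < (1/2:ℝ)^k * r := by positivity
      linarith [hx.2]
    calc ∫⁻ x in S k, ker n x y ∂μ
        ≤ ∫⁻ _ in S k, ENNReal.ofReal ((((1/2 : ℝ)^(k+1) * r)⁻¹) ^ (n - 1)) ∂μ :=
          setLIntegral_mono' hm hb
      _ = ENNReal.ofReal ((((1/2 : ℝ)^(k+1) * r)⁻¹) ^ (n - 1)) * μ (S k) := setLIntegral_const _ _
      _ ≤ ENNReal.ofReal ((((1/2 : ℝ)^(k+1) * r)⁻¹) ^ (n - 1)) *
            ENNReal.ofReal (ω * (2 * ((1/2)^k * r)) ^ n) := by gcongr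
      _ = ENNReal.ofReal (4 ^ n * ω * ((1/2 : ℝ)^(k+1) * r)) := by
          rw [← ENNReal.ofReal_mul (by positivity)]
          congr 1
          have e : 2 * ((1/2:ℝ)^k * r) = 4 * ((1/2 : ℝ)^(k+1) * r) := by rw [pow_succ]; ring
          rw [e]
          set a := (1/2 : ℝ)^(k+1) * r with ha
          have e2 : a ^ n = a ^ (n-1) * a := by
            rw [← pow_succ]; congr 1; omega
          have ha0 : a ≠ 0 := by positivity
          rw [mul_pow, e2, inv_pow]
          have ha1 : a ^ (n-1) ≠ 0 := pow_ne_zero _ ha0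
          field_simp
      _ = _ := by
          congr 1
          rw [pow_succ]
          ring
  calc ∫⁻ x in Metric.ball y r, ker n x y ∂μ
      ≤ ∫⁻ x in {y} ∪ ⋃ k, S k, ker n x y ∂μ := lintegral_mono_set hcov
    _ ≤ ∫⁻ x in {y}, ker n x y ∂μ + ∫⁻ x in ⋃ k, S k, ker n x y ∂μ := lintegral_union_le _ _ _
    _ ≤ 0 + ∑' k, ∫⁻ x in S k, ker n x y ∂μ := by
        gcongr
        · exact (setLIntegral_measure_zero _ _ hy0).le
        · exact lintegral_iUnion_le _ _
    _ ≤ 0 + ∑' k : ℕ, ENNReal.ofReal ((4 ^ n * ω * r * (1/2)) * (1/2)^k) := by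
        gcongr with k
        exact hSk k
    _ = ENNReal.ofReal (∑' k : ℕ, (4 ^ n * ω * r * (1/2)) * (1/2)^k) := by
        rw [zero_add, ENNReal.ofReal_tsum_of_nonneg]
        · intro k; positivity
        · exact (summable_geometric_of_lt_one (by norm_num) (by norm_num)).mul_left _
    _ = _ := by
        congr 1
        rw [tsum_mul_left, tsum_geometric_of_lt_one (by norm_num) (by norm_num)]
        ring

/-- the kernel over a set of finite measure -/
lemma ker_set {n : ℕ} (hn : 2 ≤ n) {ω : ℝ} (hω : 0 ≤ ω) {y : X}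
    (hup : ∀ r : ℝ, 0 < r → μ (Metric.ball y r) ≤ ENNReal.ofReal (ω * r ^ n)) {E : Set X}
    (hE : MeasurableSet E) (hfin : μ E ≠ ∞) :
    ∫⁻ x in E, ker n x y ∂μ ≤ ENNReal.ofReal (4 ^ n * ω + 1) * μ E ^ (1 / (n:ℝ)) := by
  have hn0 : (0:ℝ) < n := by
    have : (2:ℝ) ≤ n := by exact_mod_cast hn
    linarith
  by_cases h0 : μ E = 0
  · rw [setLIntegral_measure_zero _ _ h0]; exact bot_le
  set m := (μ E).toReal with hm
  have hm0 : 0 < m := ENNReal.toReal_pos h0 hfin
  have hmE : μ E = ENNReal.ofReal m := (ENNReal.ofReal_toReal hfin).symm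
  set r := m ^ (1 / (n:ℝ)) with hr
  have hr0 : 0 < r := Real.rpow_pos_of_pos hm0 _
  have hrn : r ^ n = m := by
    rw [hr, ← Real.rpow_natCast, ← Real.rpow_mul hm0.le, one_div_mul_cancel hn0.ne', Real.rpow_one]
  have hb : ∀ x ∈ E \ Metric.ball y r, ker n x y ≤ ENNReal.ofReal ((r⁻¹) ^ (n - 1)) := by
    intro x hx
    have hd : r ≤ dist x y := by
      have := hx.2
      rw [Metric.mem_ball, not_lt] at this
      exact this
    have hxy : x ≠ y := by
      rintro rfl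
      rw [dist_self] at hd
      linarith
    rw [ker_eq hxy]
    apply ENNReal.ofReal_le_ofReal
    gcongr
  calc ∫⁻ x in E, ker n x y ∂μ
      ≤ ∫⁻ x in Metric.ball y r ∪ (E \ Metric.ball y r), ker n x y ∂μ := by
        apply lintegral_mono_set
        intro x hx
        by_cases h : x ∈ Metric.ball y r
        · exact Or.inl h
        · exact Or.inr ⟨hx, h⟩
    _ ≤ ∫⁻ x in Metric.ball y r, ker n x y ∂μ + ∫⁻ x in E \ Metric.ball y r, ker n x y ∂μ :=
        lintegral_union_le _ _ _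
    _ ≤ ENNReal.ofReal (4 ^ n * ω * r) + ENNReal.ofReal ((r⁻¹) ^ (n - 1)) * μ E := by
        gcongr
        · exact ker_ball hn hω hup hr0
        · calc ∫⁻ x in E \ Metric.ball y r, ker n x y ∂μ
              ≤ ∫⁻ _ in E \ Metric.ball y r, ENNReal.ofReal ((r⁻¹) ^ (n - 1)) ∂μ :=
                setLIntegral_mono' (hE.diff Metric.isOpen_ball.measurableSet) hb
            _ = ENNReal.ofReal ((r⁻¹) ^ (n - 1)) * μ (E \ Metric.ball y r) := setLIntegral_const _ _
            _ ≤ _ := by gcongr; exact sdiff_subset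
    _ = ENNReal.ofReal ((4 ^ n * ω + 1) * r) := by
        rw [hmE, ← ENNReal.ofReal_mul (by positivity), ← ENNReal.ofReal_add (by positivity)
          (by positivity)]
        congr 1
        rw [← hrn]
        have e2 : r ^ n = r ^ (n-1) * r := by
          rw [← pow_succ]; congr 1; omega
        rw [e2, inv_pow]
        have ha1 : r ^ (n-1) ≠ 0 := pow_ne_zero _ hr0.ne'
        field_simp
    _ = _ := by
        rw [ENNReal.ofReal_mul (by positivity), hmE, hr, ENNReal.ofReal_rpow_of_pos hm0]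

end kernel

end Crest.Agent.R249.SobB_982
end
end

-- ▼ part R249/SobC_982
section

/-!
# R249 (D3-SOB), part C: weak type estimate, truncation, the `L¹` Sobolev inequality,
and the `L²` Sobolev inequality in dimension 4

`Sup n ω μ` : `μ (ball y r) ≤ ω rⁿ` for all `y`, `r > 0`.

`sobolev_one` : `∫ ψ^q ≤ (C ∫ G)^q`, `q = n/(n-1)`; `sobolev_four` : `n = 4`,
`(∫ ψ⁴)^{1/2} ≤ C ∫ G²`.
-/

set_option autoImplicit false
set_option linter.unusedSectionVars false
open MeasureTheory Set Filter Topology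
open scoped ENNReal NNReal

noncomputable section
namespace Crest.Agent.R249.SobC_982

open Crest.Agent.R247.Mcp688 Crest.Agent.R249.SobA_982 Crest.Agent.R249.SobB_982

/-! ### the cut-off `θ` -/

/-- `θ = 0` on `(-∞,1]`, `θ = 1` on `[2,∞)`, smooth. -/
def th (s : ℝ) : ℝ := Real.smoothTransition (s - 1)

lemma contDiff_th : ContDiff ℝ 1 th :=
  (Real.smoothTransition.contDiff (n := 1)).comp (contDiff_id.sub contDiff_const)

lemma th_nonneg (s : ℝ) : 0 ≤ th s := Real.smoothTransition.nonneg _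

lemma th_zero {s : ℝ} (h : s ≤ 1) : th s = 0 :=
  Real.smoothTransition.zero_of_nonpos (by linarith)

lemma th_one {s : ℝ} (h : 2 ≤ s) : th s = 1 :=
  Real.smoothTransition.one_of_one_le (by linarith)

lemma continuous_deriv_th : Continuous (deriv th) := contDiff_th.continuous_deriv le_rfl

lemma deriv_th_lo {s : ℝ} (h : s ≤ 1) : deriv th s = 0 := by
  have hcl : IsClosed {s : ℝ | deriv th s = 0} := isClosed_eq continuous_deriv_th continuous_const
  have hsub : Iio (1:ℝ) ⊆ {s : ℝ | deriv th s = 0} := by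
    intro t ht
    have : th =ᶠ[𝓝 t] fun _ => 0 := by
      filter_upwards [Iio_mem_nhds ht] with u hu
      exact th_zero (le_of_lt hu)
    show deriv th t = 0
    rw [this.deriv_eq, deriv_const]
  have := hcl.closure_subset_iff.2 hsub
  rw [closure_Iio] at this
  exact this h

lemma deriv_th_hi {s : ℝ} (h : 2 ≤ s) : deriv th s = 0 := by
  have hcl : IsClosed {s : ℝ | deriv th s = 0} := isClosed_eq continuous_deriv_th continuous_const
  have hsub : Ioi (2:ℝ) ⊆ {s : ℝ | deriv th s = 0} := by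
    intro t ht
    have : th =ᶠ[𝓝 t] fun _ => 1 := by
      filter_upwards [Ioi_mem_nhds ht] with u hu
      exact th_one (le_of_lt hu)
    show deriv th t = 0
    rw [this.deriv_eq, deriv_const]
  have := hcl.closure_subset_iff.2 hsub
  rw [closure_Ioi] at this
  exact this h

lemma exists_bound_th : ∃ K : ℝ, 0 < K ∧ ∀ s, |deriv th s| ≤ K := by
  obtain ⟨K, hK⟩ := (isCompact_Icc (a := (1:ℝ)) (b := 2)).exists_bound_of_continuousOn
    continuous_deriv_th.continuousOn
  refine ⟨max K 1, lt_max_of_lt_right one_pos, fun s => ?_⟩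
  rcases le_total s 1 with h | h
  · rw [deriv_th_lo h, abs_zero]; exact le_max_of_le_right zero_le_one
  rcases le_total 2 s with h' | h'
  · rw [deriv_th_hi h', abs_zero]; exact le_max_of_le_right zero_le_one
  · exact (hK s ⟨h, h'⟩).trans (le_max_left _ _)

/-- the constant -/
def Cth : ℝ := exists_bound_th.choose

lemma Cth_pos : 0 < Cth := exists_bound_th.choose_spec.1

lemma abs_deriv_th_le (s : ℝ) : |deriv th s| ≤ Cth := exists_bound_th.choose_spec.2 s

/-- at most one dyadic level is active -/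
lemma tsum_deriv_th (s : ℝ) : ∑' k : ℤ, ENNReal.ofReal |deriv th (s * (2:ℝ) ^ (-k))| ≤
    ENNReal.ofReal Cth := by
  rcases le_or_gt s 0 with hs | hs
  · have : ∀ k : ℤ, ENNReal.ofReal |deriv th (s * (2:ℝ) ^ (-k))| = 0 := by
      intro k
      have h1 : s * (2:ℝ) ^ (-k) ≤ 1 := by
        have : 0 < (2:ℝ) ^ (-k) := by positivity
        nlinarith
      rw [deriv_th_lo h1, abs_zero, ENNReal.ofReal_zero]
    simp only [this, tsum_zero]
    exact bot_le
  · obtain ⟨k0, hk1, hk2⟩ := exists_mem_Ico_zpow hs (one_lt_two : (1:ℝ) < 2)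
    rw [tsum_eq_single k0]
    · exact ENNReal.ofReal_le_ofReal (abs_deriv_th_le _)
    · intro k hk
      rcases lt_or_gt_of_ne hk with h | h
      · have h1 : 2 ≤ s * (2:ℝ) ^ (-k) := by
          have h2 : (2:ℝ) ^ (k + 1) ≤ (2:ℝ) ^ k0 := zpow_le_zpow_right₀ (by norm_num) (by omega)
          have h3 : (2:ℝ) ^ (k + 1) ≤ s := h2.trans hk1
          have h4 : 0 < (2:ℝ) ^ (-k) := by positivity
          calc (2:ℝ) = (2:ℝ) ^ (k + 1) * (2:ℝ) ^ (-k) := by
                rw [← zpow_add₀ (by norm_num)]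
                norm_num
            _ ≤ _ := by gcongr
        rw [deriv_th_hi h1, abs_zero, ENNReal.ofReal_zero]
      · have h1 : s * (2:ℝ) ^ (-k) ≤ 1 := by
          have h2 : (2:ℝ) ^ (k0 + 1) ≤ (2:ℝ) ^ k := zpow_le_zpow_right₀ (by norm_num) (by omega)
          have h3 : s ≤ (2:ℝ) ^ k := hk2.le.trans h2
          have h4 : 0 < (2:ℝ) ^ (-k) := by positivity
          calc s * (2:ℝ) ^ (-k) ≤ (2:ℝ) ^ k * (2:ℝ) ^ (-k) := by gcongr
            _ = 1 := by
                rw [← zpow_add₀ (by norm_num)]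
                norm_num
        rw [deriv_th_lo h1, abs_zero, ENNReal.ofReal_zero]

/-! ### measures with the upper volume bound -/

section main
variable {n : ℕ} {κ : ℝ} {X : Type*} [MetricSpace X] [MeasurableSpace X] [BorelSpace X]
  [SecondCountableTopology X] {μ : Measure X} [SFinite μ] (C : Rad n κ X μ)

include C

/-- **weak type estimate** -/
theorem weak (hκ : 0 ≤ κ) (hn : 2 ≤ n) {ω : ℝ} (hω : 0 ≤ ω)
    (hup : ∀ (y : X) (r : ℝ), 0 < r → μ (Metric.ball y r) ≤ ENNReal.ofReal (ω * r ^ n))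
    {ψ G : X → ℝ} (hψ : LG ψ G) {S A : Set X} (hA : MeasurableSet A)
    (hS0 : ∀ x ∉ S, ψ x = 0) (hA0 : ∀ z ∈ A, ψ z = 0) {D : ℝ} (hD : 0 < D)
    (hAD : ∀ x ∈ S, ∀ z ∈ A, dist x z ≤ D) {lam : ℝ} (hlam : 0 < lam)
    (hfin : μ {x | lam ≤ |ψ x|} ≠ ∞) :
    μ A * (ENNReal.ofReal lam * μ {x | lam ≤ |ψ x|} ^ (1 - 1 / (n:ℝ))) ≤
      ENNReal.ofReal (Real.exp (κ * D ^ 2 / 2) * D ^ n) * ENNReal.ofReal (4 ^ n * ω + 1) *
        ∫⁻ y, ENNReal.ofReal (G y) ∂μ := by
  have hnr : (2:ℝ) ≤ n := by exact_mod_cast hn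
  have hn0 : (0:ℝ) < n := by linarith
  have hexp : 0 < 1 - 1 / (n:ℝ) := by
    have : 1 / (n:ℝ) < 1 := by rw [div_lt_one hn0]; linarith
    linarith
  set E : Set X := {x | lam ≤ |ψ x|} with hE
  have hEm : MeasurableSet E := by
    exact (isClosed_le continuous_const hψ.continuous.abs).measurableSet
  set K : ℝ≥0∞ := ENNReal.ofReal (Real.exp (κ * D ^ 2 / 2) * D ^ n) with hK
  set M : ℝ≥0∞ := ENNReal.ofReal (4 ^ n * ω + 1) with hM
  by_cases h0 : μ E = 0
  · rw [h0, ENNReal.zero_rpow_of_pos hexp, mul_zero, mul_zero]; exact bot_le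
  have hGm : Measurable fun y => ENNReal.ofReal (G y) :=
    ENNReal.measurable_ofReal.comp hψ.contG.measurable
  have h1 : μ A * ENNReal.ofReal lam * μ E ≤ K * M * μ E ^ (1 / (n:ℝ)) *
      ∫⁻ y, ENNReal.ofReal (G y) ∂μ := by
    calc μ A * ENNReal.ofReal lam * μ E = ∫⁻ _ in E, μ A * ENNReal.ofReal lam ∂μ :=
          (setLIntegral_const _ _).symm
      _ ≤ ∫⁻ x in E, K * ∫⁻ y, ENNReal.ofReal (G y) * ker n x y ∂μ ∂μ := by
          apply setLIntegral_mono' hEm
          intro x hx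
          have hxS : x ∈ S := by
            by_contra h
            have h2 : lam ≤ |ψ x| := hx
            rw [hS0 x h, abs_zero] at h2
            linarith
          refine le_trans ?_ (SobB_982.repr C hκ hn hψ hA hA0 hD (hAD x hxS))
          gcongr
          exact hx
      _ = K * ∫⁻ x in E, ∫⁻ y, ENNReal.ofReal (G y) * ker n x y ∂μ ∂μ :=
          lintegral_const_mul' _ _ ENNReal.ofReal_ne_top
      _ = K * ∫⁻ y, ∫⁻ x in E, ENNReal.ofReal (G y) * ker n x y ∂μ ∂μ := by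
          rw [lintegral_lintegral_swap]
          exact ((hGm.comp measurable_snd).mul (measurable_ker n)).aemeasurable
      _ ≤ K * ∫⁻ y, ENNReal.ofReal (G y) * (M * μ E ^ (1 / (n:ℝ))) ∂μ := by
          gcongr with y
          rw [lintegral_const_mul' _ _ ENNReal.ofReal_ne_top]
          gcongr
          exact ker_set hn hω (hup y) hEm hfin
      _ = K * ((∫⁻ y, ENNReal.ofReal (G y) ∂μ) * (M * μ E ^ (1 / (n:ℝ)))) := by
          rw [lintegral_mul_const _ hGm]
      _ = _ := by ring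
  have hp0 : μ E ^ (1 / (n:ℝ)) ≠ 0 := by
    rw [ne_eq, ENNReal.rpow_eq_zero_iff]
    rintro (⟨h, _⟩ | ⟨h, _⟩)
    · exact h0 h
    · exact hfin h
  have hpt : μ E ^ (1 / (n:ℝ)) ≠ ∞ := ENNReal.rpow_ne_top_of_nonneg (by positivity) hfin
  have hsplit : μ E = μ E ^ (1 - 1 / (n:ℝ)) * μ E ^ (1 / (n:ℝ)) := by
    rw [← ENNReal.rpow_add _ _ h0 hfin, sub_add_cancel, ENNReal.rpow_one]
  have h2 : (μ A * (ENNReal.ofReal lam * μ E ^ (1 - 1 / (n:ℝ)))) * μ E ^ (1 / (n:ℝ)) ≤
      (K * M * ∫⁻ y, ENNReal.ofReal (G y) ∂μ) * μ E ^ (1 / (n:ℝ)) := by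
    calc (μ A * (ENNReal.ofReal lam * μ E ^ (1 - 1 / (n:ℝ)))) * μ E ^ (1 / (n:ℝ))
        = μ A * ENNReal.ofReal lam * (μ E ^ (1 - 1 / (n:ℝ)) * μ E ^ (1 / (n:ℝ))) := by ring
      _ = μ A * ENNReal.ofReal lam * μ E := by rw [← hsplit]
      _ ≤ _ := h1
      _ = _ := by ring
  exact (ENNReal.mul_le_mul_iff_left hp0 hpt).1 h2

/-- **`L¹` Sobolev inequality** for `ψ ≥ 0` vanishing off `S` and on `A`. -/
theorem sobolev_one (hκ : 0 ≤ κ) (hn : 2 ≤ n) {ω : ℝ} (hω : 0 ≤ ω)
    (hup : ∀ (y : X) (r : ℝ), 0 < r → μ (Metric.ball y r) ≤ ENNReal.ofReal (ω * r ^ n))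
    {ψ G : X → ℝ} (hψ : LG ψ G) (hψ0 : ∀ x, 0 ≤ ψ x) {S A : Set X} (hA : MeasurableSet A)
    (hS0 : ∀ x ∉ S, ψ x = 0) (hA0 : ∀ z ∈ A, ψ z = 0) {D : ℝ} (hD : 0 < D)
    (hAD : ∀ x ∈ S, ∀ z ∈ A, dist x z ≤ D) (hSfin : μ S ≠ ∞) {v : ℝ} (hv : 0 < v)
    (hvA : ENNReal.ofReal v ≤ μ A) :
    ∫⁻ x, ENNReal.ofReal (ψ x) ^ ((n:ℝ) / (n - 1)) ∂μ ≤
      (ENNReal.ofReal (4 * (Real.exp (κ * D ^ 2 / 2) * D ^ n) * (4 ^ n * ω + 1) * Cth / v) *
        ∫⁻ y, ENNReal.ofReal (G y) ∂μ) ^ ((n:ℝ) / (n - 1)) := by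
  have hnr : (2:ℝ) ≤ n := by exact_mod_cast hn
  have hn0 : (0:ℝ) < n := by linarith
  have hn1 : (0:ℝ) < n - 1 := by linarith
  set q : ℝ := (n:ℝ) / (n - 1) with hq
  have hq0 : 0 < q := by positivity
  have hq1 : 1 ≤ q := by rw [hq, le_div_iff₀ hn1]; linarith
  have hqi : 1 - 1 / (n:ℝ) = q⁻¹ := by rw [hq]; field_simp
  set K0 : ℝ := (Real.exp (κ * D ^ 2 / 2) * D ^ n) * (4 ^ n * ω + 1) with hK0
  have hK0p : 0 < K0 := by positivity
  set B : ℤ → ℝ≥0∞ := fun k =>
    ∫⁻ y, ENNReal.ofReal (|deriv th (ψ y * (2:ℝ) ^ (-k))| * G y) ∂μ with hB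
  set a : ℤ → ℝ≥0∞ := fun k => μ {x | (2:ℝ) ^ (k + 1) ≤ ψ x} with ha
  -- weak type at level `k`
  have hak : ∀ k : ℤ, a k ≤ (ENNReal.ofReal (K0 / v * (2:ℝ) ^ (-k)) * B k) ^ q := by
    intro k
    have h2k : 0 < (2:ℝ) ^ (-k) := by positivity
    set Φ : ℝ → ℝ := fun s => th (s * (2:ℝ) ^ (-k)) with hΦ
    have hΦc : ContDiff ℝ 1 Φ := contDiff_th.comp (contDiff_id.mul contDiff_const)
    have hΦd : ∀ s, deriv Φ s = deriv th (s * (2:ℝ) ^ (-k)) * (2:ℝ) ^ (-k) := by
      intro s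
      have h1 : HasDerivAt th (deriv th (s * (2:ℝ) ^ (-k))) (s * (2:ℝ) ^ (-k)) :=
        (contDiff_th.differentiable (by norm_num)).differentiableAt.hasDerivAt
      have h2 : HasDerivAt (fun s : ℝ => s * (2:ℝ) ^ (-k)) ((2:ℝ) ^ (-k)) s := by
        simpa using (hasDerivAt_id s).mul_const ((2:ℝ) ^ (-k))
      exact (h1.comp s h2).deriv
    have hLG := hψ.comp hΦc
    have hz : ∀ x, ψ x = 0 → Φ (ψ x) = 0 := by
      intro x hx
      simp only [hΦ, hx, zero_mul]
      exact th_zero zero_le_one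
    have hfin : μ {x | 1 ≤ |Φ (ψ x)|} ≠ ∞ := by
      refine ne_top_of_le_ne_top hSfin (measure_mono fun x hx => ?_)
      by_contra h
      have h1 : 1 ≤ |Φ (ψ x)| := hx
      rw [hz x (hS0 x h), abs_zero] at h1
      linarith
    have hw := weak C hκ hn hω hup hLG (S := S) hA (fun x hx => hz x (hS0 x hx))
      (fun x hx => hz x (hA0 x hx)) hD hAD one_pos hfin
    rw [ENNReal.ofReal_one, one_mul, hqi] at hw
    have hint : ∫⁻ y, ENNReal.ofReal (|deriv Φ (ψ y)| * G y) ∂μ =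
        ENNReal.ofReal ((2:ℝ) ^ (-k)) * B k := by
      rw [hB, ← lintegral_const_mul' _ _ ENNReal.ofReal_ne_top]
      congr 1
      funext y
      rw [← ENNReal.ofReal_mul h2k.le]
      congr 1
      rw [hΦd, abs_mul, abs_of_pos h2k]
      ring
    rw [hint] at hw
    have hmono : a k ≤ μ {x | 1 ≤ |Φ (ψ x)|} := by
      apply measure_mono
      intro x hx
      have h1 : (2:ℝ) ^ (k + 1) ≤ ψ x := hx
      have h2 : 2 ≤ ψ x * (2:ℝ) ^ (-k) := by
        calc (2:ℝ) = (2:ℝ) ^ (k + 1) * (2:ℝ) ^ (-k) := by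
              rw [← zpow_add₀ (by norm_num)]
              norm_num
          _ ≤ _ := by gcongr
      show 1 ≤ |Φ (ψ x)|
      simp only [hΦ]
      rw [th_one h2, abs_one]
    have h3 : ENNReal.ofReal v * (a k) ^ q⁻¹ ≤
        ENNReal.ofReal K0 * (ENNReal.ofReal ((2:ℝ) ^ (-k)) * B k) := by
      calc ENNReal.ofReal v * (a k) ^ q⁻¹ ≤ μ A * μ {x | 1 ≤ |Φ (ψ x)|} ^ q⁻¹ := by gcongr
        _ ≤ _ := hw
        _ = _ := by rw [hK0, ← ENNReal.ofReal_mul (by positivity)]
    have hv0 : ENNReal.ofReal v ≠ 0 := by simpa using hv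
    have h4 : (a k) ^ q⁻¹ ≤ ENNReal.ofReal (K0 / v * (2:ℝ) ^ (-k)) * B k := by
      have h5 : (a k) ^ q⁻¹ ≤ (ENNReal.ofReal v)⁻¹ * (ENNReal.ofReal K0 * (ENNReal.ofReal ((2:ℝ) ^ (-k)) * B k)) := by
        calc (a k) ^ q⁻¹ = (ENNReal.ofReal v)⁻¹ * (ENNReal.ofReal v * (a k) ^ q⁻¹) := by
              rw [← mul_assoc, ENNReal.inv_mul_cancel hv0 ENNReal.ofReal_ne_top, one_mul]
          _ ≤ _ := by gcongr
      refine h5.trans (le_of_eq ?_)
      rw [← ENNReal.ofReal_inv_of_pos hv, ← mul_assoc, ← mul_assoc,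
        ← ENNReal.ofReal_mul (by positivity), ← ENNReal.ofReal_mul (by positivity)]
      congr 2
      ring
    calc a k = ((a k) ^ q⁻¹) ^ q := by
          rw [← ENNReal.rpow_mul, inv_mul_cancel₀ hq0.ne', ENNReal.rpow_one]
      _ ≤ _ := by gcongr
  -- sum of the `B k`
  have hBsum : ∑' k, B k ≤ ENNReal.ofReal Cth * ∫⁻ y, ENNReal.ofReal (G y) ∂μ := by
    have hm : ∀ k : ℤ, AEMeasurable (fun y => ENNReal.ofReal (|deriv th (ψ y * (2:ℝ) ^ (-k))| * G y)) μ := by
      intro k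
      apply Measurable.aemeasurable
      apply ENNReal.measurable_ofReal.comp
      refine (Continuous.measurable ?_).mul hψ.contG.measurable
      exact (continuous_deriv_th.comp (hψ.continuous.mul continuous_const)).abs
    rw [← lintegral_tsum hm, ← lintegral_const_mul' _ _ ENNReal.ofReal_ne_top]
    apply lintegral_mono
    intro y
    show ∑' k : ℤ, ENNReal.ofReal (|deriv th (ψ y * (2:ℝ) ^ (-k))| * G y) ≤ _
    have e : ∀ k : ℤ, ENNReal.ofReal (|deriv th (ψ y * (2:ℝ) ^ (-k))| * G y) =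
        ENNReal.ofReal |deriv th (ψ y * (2:ℝ) ^ (-k))| * ENNReal.ofReal (G y) := fun k =>
      ENNReal.ofReal_mul (abs_nonneg _)
    simp_rw [e]
    rw [ENNReal.tsum_mul_right]
    gcongr
    exact tsum_deriv_th _
  -- layer decomposition
  have hlayer : ∫⁻ x, ENNReal.ofReal (ψ x) ^ q ∂μ ≤
      ∑' k : ℤ, ENNReal.ofReal ((2:ℝ) ^ (k + 2)) ^ q * a k := by
    have hm : ∀ k : ℤ, AEMeasurable (fun x => {x | (2:ℝ) ^ (k + 1) ≤ ψ x}.indicator
        (fun _ => ENNReal.ofReal ((2:ℝ) ^ (k + 2)) ^ q) x) μ := by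
      intro k
      apply Measurable.aemeasurable
      exact measurable_const.indicator (isClosed_le continuous_const hψ.continuous).measurableSet
    calc ∫⁻ x, ENNReal.ofReal (ψ x) ^ q ∂μ
        ≤ ∫⁻ x, ∑' k : ℤ, {x | (2:ℝ) ^ (k + 1) ≤ ψ x}.indicator
          (fun _ => ENNReal.ofReal ((2:ℝ) ^ (k + 2)) ^ q) x ∂μ := by
          apply lintegral_mono
          intro x
          beta_reduce
          rcases (hψ0 x).eq_or_lt with h | h
          · rw [← h, ENNReal.ofReal_zero, ENNReal.zero_rpow_of_pos hq0]; exact bot_le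
          · obtain ⟨k0, hk1, hk2⟩ := exists_mem_Ico_zpow h (one_lt_two : (1:ℝ) < 2)
            refine le_trans ?_ (ENNReal.le_tsum (k0 - 1))
            rw [indicator_of_mem]
            · gcongr
              have : (k0 - 1 + 2 : ℤ) = k0 + 1 := by ring
              rw [this]
              exact hk2.le
            · show (2:ℝ) ^ (k0 - 1 + 1) ≤ ψ x
              rw [sub_add_cancel]
              exact hk1
      _ = ∑' k : ℤ, ∫⁻ x, {x | (2:ℝ) ^ (k + 1) ≤ ψ x}.indicator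
          (fun _ => ENNReal.ofReal ((2:ℝ) ^ (k + 2)) ^ q) x ∂μ := lintegral_tsum hm
      _ = _ := by
          congr 1
          funext k
          rw [lintegral_indicator (isClosed_le continuous_const hψ.continuous).measurableSet,
            setLIntegral_const]
  -- conclusion
  set Bs := ∑' k, B k with hBs
  have hterm : ∀ k : ℤ, ENNReal.ofReal ((2:ℝ) ^ (k + 2)) ^ q * a k ≤
      ENNReal.ofReal (4 * K0 / v) ^ q * (B k * Bs ^ (q - 1)) := by
    intro k
    calc ENNReal.ofReal ((2:ℝ) ^ (k + 2)) ^ q * a k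
        ≤ ENNReal.ofReal ((2:ℝ) ^ (k + 2)) ^ q *
            (ENNReal.ofReal (K0 / v * (2:ℝ) ^ (-k)) * B k) ^ q := by gcongr; exact hak k
      _ = (ENNReal.ofReal (4 * K0 / v) * B k) ^ q := by
          rw [← ENNReal.mul_rpow_of_nonneg _ _ hq0.le, ← mul_assoc,
            ← ENNReal.ofReal_mul (by positivity)]
          congr 3
          have : (2:ℝ) ^ (k + 2) * (2:ℝ) ^ (-k) = 4 := by
            rw [← zpow_add₀ (by norm_num)]
            norm_num
          calc (2:ℝ) ^ (k + 2) * (K0 / v * (2:ℝ) ^ (-k)) = ((2:ℝ) ^ (k + 2) * (2:ℝ) ^ (-k)) * (K0 / v) := by ring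
            _ = _ := by rw [this]; ring
      _ = ENNReal.ofReal (4 * K0 / v) ^ q * (B k) ^ q := ENNReal.mul_rpow_of_nonneg _ _ hq0.le
      _ ≤ _ := by
          gcongr
          by_cases hb0 : B k = 0
          · rw [hb0, ENNReal.zero_rpow_of_pos hq0, zero_mul]
          calc B k ^ q = B k ^ (1 + (q - 1)) := by congr 1; ring
            _ = B k ^ (1:ℝ) * B k ^ (q - 1) := ENNReal.rpow_add_of_nonneg _ _ (by norm_num) (by linarith)
            _ ≤ B k * Bs ^ (q - 1) := by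
                rw [ENNReal.rpow_one]
                exact mul_le_mul_right (ENNReal.rpow_le_rpow (ENNReal.le_tsum k) (by linarith)) _
  calc ∫⁻ x, ENNReal.ofReal (ψ x) ^ q ∂μ
      ≤ ∑' k : ℤ, ENNReal.ofReal ((2:ℝ) ^ (k + 2)) ^ q * a k := hlayer
    _ ≤ ∑' k : ℤ, ENNReal.ofReal (4 * K0 / v) ^ q * (B k * Bs ^ (q - 1)) := ENNReal.tsum_le_tsum hterm
    _ = ENNReal.ofReal (4 * K0 / v) ^ q * (Bs * Bs ^ (q - 1)) := by
        rw [ENNReal.tsum_mul_left, ENNReal.tsum_mul_right]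
    _ = ENNReal.ofReal (4 * K0 / v) ^ q * Bs ^ q := by
        congr 1
        calc Bs * Bs ^ (q - 1) = Bs ^ (1:ℝ) * Bs ^ (q - 1) := by rw [ENNReal.rpow_one]
          _ = Bs ^ (1 + (q - 1)) := (ENNReal.rpow_add_of_nonneg _ _ (by norm_num) (by linarith)).symm
          _ = _ := by congr 1; ring
    _ = (ENNReal.ofReal (4 * K0 / v) * Bs) ^ q := (ENNReal.mul_rpow_of_nonneg _ _ hq0.le).symm
    _ ≤ (ENNReal.ofReal (4 * K0 / v) * (ENNReal.ofReal Cth * ∫⁻ y, ENNReal.ofReal (G y) ∂μ)) ^ q := by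
        gcongr
    _ = _ := by
        rw [← mul_assoc, ← ENNReal.ofReal_mul (by positivity)]
        congr 3
        rw [hK0]
        ring

omit C in
/-- **`L²` Sobolev inequality in dimension 4** for `ψ` vanishing off `S` and on `A`. -/
theorem sobolev_four {κ : ℝ} (C : Rad 4 κ X μ) (hκ : 0 ≤ κ) {ω : ℝ} (hω : 0 ≤ ω)
    (hup : ∀ (y : X) (r : ℝ), 0 < r → μ (Metric.ball y r) ≤ ENNReal.ofReal (ω * r ^ 4))
    {ψ G : X → ℝ} (hψ : LG ψ G) {S A : Set X} (hA : MeasurableSet A)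
    (hS0 : ∀ x ∉ S, ψ x = 0) (hA0 : ∀ z ∈ A, ψ z = 0) {D : ℝ} (hD : 0 < D)
    (hAD : ∀ x ∈ S, ∀ z ∈ A, dist x z ≤ D) (hSfin : μ S ≠ ∞) {v : ℝ} (hv : 0 < v)
    (hvA : ENNReal.ofReal v ≤ μ A) (hb : ∃ b, ∀ x, |ψ x| ≤ b) :
    (∫⁻ x, ENNReal.ofReal (ψ x ^ 4) ∂μ) ^ (1 / 2 : ℝ) ≤
      ENNReal.ofReal ((12 * (Real.exp (κ * D ^ 2 / 2) * D ^ 4) * (4 ^ 4 * ω + 1) * Cth / v) ^ 2) *
        ∫⁻ y, ENNReal.ofReal (G y ^ 2) ∂μ := by
  set Φ : ℝ → ℝ := fun s => s ^ 3 with hΦ
  have hΦc : ContDiff ℝ 1 Φ := by fun_prop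
  have hΦd : ∀ s, deriv Φ s = 3 * s ^ 2 := by
    intro s
    simp [hΦ]
  set K1 : ℝ := 4 * (Real.exp (κ * D ^ 2 / 2) * D ^ 4) * (4 ^ 4 * ω + 1) * Cth / v with hK1
  have hK1p : 0 < K1 := by
    have := Cth_pos
    positivity
  have hLG := hψ.abs.comp hΦc
  have h1 := sobolev_one C hκ (by norm_num) hω hup hLG
    (fun x => by simp only [hΦ]; positivity) (S := S) hA
    (fun x hx => by simp [hΦ, hS0 x hx]) (fun x hx => by simp [hΦ, hA0 x hx]) hD hAD hSfin hv hvA
  have hq : (((4:ℕ):ℝ) / (((4:ℕ):ℝ) - 1)) = 4 / 3 := by norm_num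
  rw [hq, ← hK1] at h1
  set I : ℝ≥0∞ := ∫⁻ x, ENNReal.ofReal (ψ x ^ 4) ∂μ with hI
  set J : ℝ≥0∞ := ∫⁻ y, ENNReal.ofReal (G y ^ 2) ∂μ with hJ
  have hIeq : ∫⁻ x, ENNReal.ofReal (Φ |ψ x|) ^ (4 / 3 : ℝ) ∂μ = I := by
    rw [hI]
    congr 1
    funext x
    simp only [hΦ]
    rw [ENNReal.ofReal_rpow_of_nonneg (by positivity) (by norm_num)]
    congr 1
    rw [← Real.rpow_natCast, ← Real.rpow_mul (abs_nonneg _)]
    norm_num
    rw [pow_abs]
    exact abs_of_nonneg (by positivity : (0:ℝ) ≤ ψ x ^ 4)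
  -- Cauchy-Schwarz for `∫ 3 ψ² G`
  have hcs : ∫⁻ y, ENNReal.ofReal (|deriv Φ (|ψ y|)| * G y) ∂μ ≤
      3 * (I ^ (1/2:ℝ) * J ^ (1/2:ℝ)) := by
    have e : ∀ y, ENNReal.ofReal (|deriv Φ (|ψ y|)| * G y) =
        3 * (ENNReal.ofReal (ψ y ^ 2) * ENNReal.ofReal (G y)) := by
      intro y
      rw [hΦd, sq_abs, abs_of_nonneg (by positivity), ← ENNReal.ofReal_mul (by positivity),
        show (3 : ℝ≥0∞) = ENNReal.ofReal 3 by norm_num, ← ENNReal.ofReal_mul (by norm_num)]
      congr 1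
      ring
    simp_rw [e]
    rw [lintegral_const_mul' _ _ (by norm_num)]
    gcongr
    have hm1 : AEMeasurable (fun y => ENNReal.ofReal (ψ y ^ 2)) μ :=
      (ENNReal.measurable_ofReal.comp (hψ.continuous.pow 2).measurable).aemeasurable
    have hm2 : AEMeasurable (fun y => ENNReal.ofReal (G y)) μ :=
      (ENNReal.measurable_ofReal.comp hψ.contG.measurable).aemeasurable
    have := ENNReal.lintegral_mul_le_Lp_mul_Lq μ (p := 2) (q := 2)
      (Real.holderConjugate_iff.2 ⟨by norm_num, by norm_num⟩) hm1 hm2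
    refine this.trans (le_of_eq ?_)
    congr 2
    · rw [hI]
      congr 1
      funext y
      rw [ENNReal.rpow_two, ← ENNReal.ofReal_pow (by positivity)]
      congr 1
      ring
    · rw [hJ]
      congr 1
      funext y
      rw [ENNReal.rpow_two, ← ENNReal.ofReal_pow (hψ.nonneg y)]
  have hIfin : I ≠ ∞ := by
    obtain ⟨b, hb⟩ := hb
    have h2 : I ≤ ENNReal.ofReal (b ^ 4) * μ S := by
      calc I ≤ ∫⁻ x, (toMeasurable μ S).indicator (fun _ => ENNReal.ofReal (b ^ 4)) x ∂μ := by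
            rw [hI]
            apply lintegral_mono
            intro x
            beta_reduce
            by_cases hx : x ∈ S
            · rw [indicator_of_mem (subset_toMeasurable μ S hx)]
              apply ENNReal.ofReal_le_ofReal
              have h3 := hb x
              have h4 : 0 ≤ |ψ x| := abs_nonneg _
              calc ψ x ^ 4 = |ψ x| ^ 4 := by
                    rw [pow_abs, abs_of_nonneg (by positivity)]
                _ ≤ b ^ 4 := by gcongr
            · rw [hS0 x hx]; simp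
        _ = ENNReal.ofReal (b ^ 4) * μ S := by
            rw [lintegral_indicator (measurableSet_toMeasurable μ S), setLIntegral_const,
              measure_toMeasurable]
    exact ne_top_of_le_ne_top (ENNReal.mul_ne_top ENNReal.ofReal_ne_top hSfin) h2
  by_cases hI0 : I = 0
  · rw [hI0, ENNReal.zero_rpow_of_pos (by norm_num)]; exact bot_le
  have h5 : I ≤ (ENNReal.ofReal (3 * K1)) ^ (4/3:ℝ) * J ^ (2/3:ℝ) * I ^ (2/3:ℝ) := by
    calc I = ∫⁻ x, ENNReal.ofReal (Φ |ψ x|) ^ (4 / 3 : ℝ) ∂μ := hIeq.symm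
      _ ≤ (ENNReal.ofReal K1 * ∫⁻ y, ENNReal.ofReal (|deriv Φ (|ψ y|)| * G y) ∂μ) ^ (4/3:ℝ) := h1
      _ ≤ (ENNReal.ofReal K1 * (3 * (I ^ (1/2:ℝ) * J ^ (1/2:ℝ)))) ^ (4/3:ℝ) := by gcongr
      _ = (ENNReal.ofReal (3 * K1) * (I ^ (1/2:ℝ) * J ^ (1/2:ℝ))) ^ (4/3:ℝ) := by
          congr 1
          rw [ENNReal.ofReal_mul (by norm_num), show ENNReal.ofReal 3 = (3 : ℝ≥0∞) by norm_num]
          ring
      _ = _ := by
          rw [ENNReal.mul_rpow_of_nonneg _ _ (by norm_num), ENNReal.mul_rpow_of_nonneg _ _ (by norm_num),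
            ← ENNReal.rpow_mul, ← ENNReal.rpow_mul]
          norm_num
          ring
  have h6 : I ^ (1/3:ℝ) ≤ (ENNReal.ofReal (3 * K1)) ^ (4/3:ℝ) * J ^ (2/3:ℝ) := by
    have hp0 : I ^ (2/3:ℝ) ≠ 0 := by
      rw [ne_eq, ENNReal.rpow_eq_zero_iff]
      rintro (⟨h, _⟩ | ⟨h, _⟩)
      · exact hI0 h
      · exact hIfin h
    have hpt : I ^ (2/3:ℝ) ≠ ∞ := ENNReal.rpow_ne_top_of_nonneg (by norm_num) hIfin
    refine (ENNReal.mul_le_mul_iff_left hp0 hpt).1 ?_
    rw [← ENNReal.rpow_add _ _ hI0 hIfin]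
    norm_num
    convert h5 using 1
    norm_num
  calc I ^ (1/2:ℝ) = (I ^ (1/3:ℝ)) ^ (3/2:ℝ) := by rw [← ENNReal.rpow_mul]; norm_num
    _ ≤ ((ENNReal.ofReal (3 * K1)) ^ (4/3:ℝ) * J ^ (2/3:ℝ)) ^ (3/2:ℝ) := by gcongr
    _ = (ENNReal.ofReal (3 * K1)) ^ (2:ℝ) * J := by
        rw [ENNReal.mul_rpow_of_nonneg _ _ (by norm_num), ← ENNReal.rpow_mul, ← ENNReal.rpow_mul]
        norm_num
    _ = _ := by
        rw [ENNReal.rpow_two, ← ENNReal.ofReal_pow (by positivity)]
        congr 3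
        rw [hK1]
        ring

end main

end Crest.Agent.R249.SobC_982
end
end

-- ▼ part R249/SobD_982

/-!
# R249 (D3-SOB), part D: cut-offs, Neumann–Poincaré inequalities on balls, and the local
Sobolev–Poincaré inequality in dimension 4

* `cut x0 r` : `1` on `closedBall x0 r`, `0` off `ball x0 (2r)`, in `[0,1]`, with `LG` bound
  `≤ Cth / r` supported in the annulus;
* `poinc_one`, `poinc_two` : `∫_B |f - f_B| ≤ C r ∫_{2B} G`, `∫_B (f - f_B)² ≤ C r² ∫_{2B} G²`;
* `sobpoinc` : `n = 4`, `(∫_{B_r} (f-c)⁴)^{1/2} ≤ C ∫_{B_{4r}} G²`, `c` = mean over `B_{2r}`.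
-/

set_option autoImplicit false
set_option linter.unusedSectionVars false
open MeasureTheory Set Filter Topology
open scoped ENNReal NNReal

noncomputable section
namespace Crest.Agent.R249.SobD_982

open Crest.Agent.R247.Mcp688 Crest.Agent.R249.SobA_982 Crest.Agent.R249.SobB_982
  Crest.Agent.R249.SobC_982

section cut
variable {X : Type*} [MetricSpace X]

/-- cut-off -/
def cut (x0 : X) (r : ℝ) (y : X) : ℝ := 1 - th (dist y x0 / r)

/-- its gradient bound -/
def dcut (x0 : X) (r : ℝ) (y : X) : ℝ := |deriv th (dist y x0 / r)| / r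

lemma cut_nonneg (x0 : X) (r : ℝ) (y : X) : 0 ≤ cut x0 r y := by
  unfold cut
  have : th (dist y x0 / r) ≤ 1 := Real.smoothTransition.le_one _
  linarith

lemma cut_le_one (x0 : X) (r : ℝ) (y : X) : cut x0 r y ≤ 1 := by
  unfold cut
  have := th_nonneg (dist y x0 / r)
  linarith

lemma cut_one {x0 : X} {r : ℝ} (hr : 0 < r) {y : X} (h : dist y x0 ≤ r) : cut x0 r y = 1 := by
  unfold cut
  rw [th_zero, sub_zero]
  rwa [div_le_one hr]

lemma cut_zero {x0 : X} {r : ℝ} (hr : 0 < r) {y : X} (h : 2 * r ≤ dist y x0) :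
    cut x0 r y = 0 := by
  unfold cut
  rw [th_one, sub_self]
  rwa [le_div_iff₀ hr]

lemma dcut_zero {x0 : X} {r : ℝ} (hr : 0 < r) {y : X} (h : 2 * r ≤ dist y x0) :
    dcut x0 r y = 0 := by
  unfold dcut
  rw [deriv_th_hi, abs_zero, zero_div]
  rwa [le_div_iff₀ hr]

lemma dcut_zero' {x0 : X} {r : ℝ} (hr : 0 < r) {y : X} (h : dist y x0 ≤ r) :
    dcut x0 r y = 0 := by
  unfold dcut
  rw [deriv_th_lo, abs_zero, zero_div]
  rwa [div_le_one hr]

lemma dcut_nonneg {x0 : X} {r : ℝ} (hr : 0 < r) (y : X) : 0 ≤ dcut x0 r y := by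
  unfold dcut; positivity

lemma dcut_le {x0 : X} {r : ℝ} (hr : 0 < r) (y : X) : dcut x0 r y ≤ Cth / r := by
  unfold dcut
  have := abs_deriv_th_le (dist y x0 / r)
  gcongr

lemma LG_dist (x0 : X) : LG (fun y : X => dist y x0) (fun _ => 1) :=
  LG.of_lipschitz zero_le_one fun x y => by
    rw [one_mul]; exact abs_dist_sub_le x y x0

lemma LG_cut (x0 : X) {r : ℝ} (hr : 0 < r) : LG (cut x0 r) (dcut x0 r) := by
  set Φ : ℝ → ℝ := fun s => 1 - th (s / r) with hΦ
  have hΦc : ContDiff ℝ 1 Φ := contDiff_const.sub (contDiff_th.comp (contDiff_id.div_const r))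
  have h := (LG_dist x0).comp hΦc
  refine h.congr (fun y => rfl) fun y => ?_
  have h1 : HasDerivAt Φ (-(deriv th (dist y x0 / r) * (1 / r))) (dist y x0) := by
    have h2 : HasDerivAt th (deriv th (dist y x0 / r)) (dist y x0 / r) :=
      (contDiff_th.differentiable (by norm_num)).differentiableAt.hasDerivAt
    have h3 : HasDerivAt (fun s : ℝ => s / r) (1 / r) (dist y x0) := by
      simpa using (hasDerivAt_id (dist y x0)).div_const r
    exact (h2.comp (dist y x0) h3).const_sub 1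
  rw [h1.deriv, abs_neg, abs_mul, abs_of_pos (by positivity : (0:ℝ) < 1 / r), mul_one, dcut]
  ring

end cut

section poinc
variable {n : ℕ} {κ : ℝ} {X : Type*} [MetricSpace X] [MeasurableSpace X] [BorelSpace X]
  {μ : Measure X} [SFinite μ] (C : Rad n κ X μ)

include C

lemma geo_ball {x0 x z : X} {r : ℝ} (hx : x ∈ Metric.ball x0 r) (hz : z ∈ Metric.ball x0 r)
    (hU : (x, z) ∈ C.U) {t : ℝ} (ht : t ∈ Icc (0:ℝ) 1) : C.T x t z ∈ Metric.ball x0 (2 * r) := by
  rw [Metric.mem_ball] at *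
  have h1 := C.dist_left hU ht
  have h2 := C.dist_right hU ht
  have h3 : dist x z < 2 * r := by
    have := dist_triangle_right x z x0
    linarith
  have h0 : 0 ≤ dist x z := dist_nonneg
  have h4 := dist_triangle (C.T x t z) x x0
  have h5 := dist_triangle (C.T x t z) z x0
  rw [dist_comm (C.T x t z) x, h1] at h4
  rw [h2] at h5
  rcases le_total t (1/2) with h | h
  · nlinarith
  · nlinarith

/-- double integral form, exponent 2 -/
theorem dbl_two (hκ : 0 ≤ κ) {f G : X → ℝ} (hf : LG f G) (x0 : X) {r : ℝ} (hr : 0 < r) :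
    ∫⁻ x in Metric.ball x0 r, ∫⁻ z in Metric.ball x0 r, ENNReal.ofReal ((f x - f z) ^ 2) ∂μ ∂μ ≤
      ENNReal.ofReal (8 * r ^ 2 * (Real.exp (2 * κ * r ^ 2) * 2 ^ n)) * μ (Metric.ball x0 r) *
        ∫⁻ y in Metric.ball x0 (2 * r), ENNReal.ofReal (G y ^ 2) ∂μ := by
  set B := Metric.ball x0 r with hB
  have hBm : MeasurableSet B := Metric.isOpen_ball.measurableSet
  have hg : Measurable fun y => ENNReal.ofReal (G y ^ 2) :=
    ENNReal.measurable_ofReal.comp (hf.contG.pow 2).measurable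
  have hmeas : Measurable (fun p : X × ℝ × X => ENNReal.ofReal (G (C.T p.1 p.2.1 p.2.2) ^ 2)) :=
    hg.comp C.measT
  have h1 : ∫⁻ x in B, ∫⁻ z in B, ENNReal.ofReal ((f x - f z) ^ 2) ∂μ ∂μ ≤
      ∫⁻ x in B, ∫⁻ z in B, ENNReal.ofReal ((2 * r) ^ 2) *
        ∫⁻ t in Icc (0:ℝ) 1, ENNReal.ofReal (G (C.T x t z) ^ 2) ∂volume ∂μ ∂μ := by
    apply setLIntegral_mono' hBm
    intro x hx
    apply lintegral_mono_ae
    filter_upwards [ae_restrict_of_ae (C.ae_U x), ae_restrict_mem hBm] with z hz hzB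
    have := LG.ray_sq C hf hz
    have e : (f x - f z) ^ 2 = (f z - f x) ^ 2 := by ring
    rw [e]
    refine this.trans ?_
    gcongr
    have := dist_triangle_right x z x0
    rw [hB, Metric.mem_ball] at hx hzB
    linarith
  refine h1.trans ?_
  have h2 : ∀ x, ∫⁻ z in B, ENNReal.ofReal ((2 * r) ^ 2) *
        ∫⁻ t in Icc (0:ℝ) 1, ENNReal.ofReal (G (C.T x t z) ^ 2) ∂volume ∂μ =
      ENNReal.ofReal ((2 * r) ^ 2) * ∫⁻ z in B,
        ∫⁻ t in Icc (0:ℝ) 1, ENNReal.ofReal (G (C.T x t z) ^ 2) ∂volume ∂μ := fun x =>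
    lintegral_const_mul' _ _ ENNReal.ofReal_ne_top
  simp_rw [h2]
  rw [lintegral_const_mul' _ _ ENNReal.ofReal_ne_top]
  have h3 := C.segment_le hκ (A := B) (B := B) (W := Metric.ball x0 (2 * r)) hBm hBm
    Metric.isOpen_ball.measurableSet (D := 2 * r)
    (fun x hx z hz => by
      have := dist_triangle_right x z x0
      rw [hB, Metric.mem_ball] at hx hz
      linarith)
    (fun x hx z hz hU t ht => geo_ball C hx hz hU ht) hg
  calc ENNReal.ofReal ((2 * r) ^ 2) * ∫⁻ x in B, ∫⁻ z in B,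
        ∫⁻ t in Icc (0:ℝ) 1, ENNReal.ofReal (G (C.T x t z) ^ 2) ∂volume ∂μ ∂μ
      ≤ ENNReal.ofReal ((2 * r) ^ 2) * (ENNReal.ofReal (Real.exp (κ * (2 * r) ^ 2 / 2) * 2 ^ n) *
          (μ B + μ B) * ∫⁻ y in Metric.ball x0 (2 * r), ENNReal.ofReal (G y ^ 2) ∂μ) := by gcongr
    _ = (ENNReal.ofReal ((2 * r) ^ 2) * ENNReal.ofReal (Real.exp (κ * (2 * r) ^ 2 / 2) * 2 ^ n) * 2) *
          μ B * ∫⁻ y in Metric.ball x0 (2 * r), ENNReal.ofReal (G y ^ 2) ∂μ := by ring
    _ = _ := by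
        congr 2
        rw [← ENNReal.ofReal_mul (by positivity), show (2:ℝ≥0∞) = ENNReal.ofReal 2 by norm_num,
          ← ENNReal.ofReal_mul (by positivity)]
        congr 1
        rw [show κ * (2 * r) ^ 2 / 2 = 2 * κ * r ^ 2 by ring]
        ring

/-- double integral form, exponent 1 -/
theorem dbl_one (hκ : 0 ≤ κ) {f G : X → ℝ} (hf : LG f G) (x0 : X) {r : ℝ} (hr : 0 < r) :
    ∫⁻ x in Metric.ball x0 r, ∫⁻ z in Metric.ball x0 r, ENNReal.ofReal |f x - f z| ∂μ ∂μ ≤
      ENNReal.ofReal (4 * r * (Real.exp (2 * κ * r ^ 2) * 2 ^ n)) * μ (Metric.ball x0 r) *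
        ∫⁻ y in Metric.ball x0 (2 * r), ENNReal.ofReal (G y) ∂μ := by
  set B := Metric.ball x0 r with hB
  have hBm : MeasurableSet B := Metric.isOpen_ball.measurableSet
  have hg : Measurable fun y => ENNReal.ofReal (G y) :=
    ENNReal.measurable_ofReal.comp hf.contG.measurable
  have h1 : ∫⁻ x in B, ∫⁻ z in B, ENNReal.ofReal |f x - f z| ∂μ ∂μ ≤
      ∫⁻ x in B, ∫⁻ z in B, ENNReal.ofReal (2 * r) *
        ∫⁻ t in Icc (0:ℝ) 1, ENNReal.ofReal (G (C.T x t z)) ∂volume ∂μ ∂μ := by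
    apply setLIntegral_mono' hBm
    intro x hx
    apply lintegral_mono_ae
    filter_upwards [ae_restrict_of_ae (C.ae_U x), ae_restrict_mem hBm] with z hz hzB
    have := LG.ray' C hf hz
    rw [abs_sub_comm]
    refine this.trans ?_
    gcongr
    have := dist_triangle_right x z x0
    rw [hB, Metric.mem_ball] at hx hzB
    linarith
  refine h1.trans ?_
  have h2 : ∀ x, ∫⁻ z in B, ENNReal.ofReal (2 * r) *
        ∫⁻ t in Icc (0:ℝ) 1, ENNReal.ofReal (G (C.T x t z)) ∂volume ∂μ =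
      ENNReal.ofReal (2 * r) * ∫⁻ z in B,
        ∫⁻ t in Icc (0:ℝ) 1, ENNReal.ofReal (G (C.T x t z)) ∂volume ∂μ := fun x =>
    lintegral_const_mul' _ _ ENNReal.ofReal_ne_top
  simp_rw [h2]
  rw [lintegral_const_mul' _ _ ENNReal.ofReal_ne_top]
  have h3 := C.segment_le hκ (A := B) (B := B) (W := Metric.ball x0 (2 * r)) hBm hBm
    Metric.isOpen_ball.measurableSet (D := 2 * r)
    (fun x hx z hz => by
      have := dist_triangle_right x z x0
      rw [hB, Metric.mem_ball] at hx hz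
      linarith)
    (fun x hx z hz hU t ht => geo_ball C hx hz hU ht) hg
  calc ENNReal.ofReal (2 * r) * ∫⁻ x in B, ∫⁻ z in B,
        ∫⁻ t in Icc (0:ℝ) 1, ENNReal.ofReal (G (C.T x t z)) ∂volume ∂μ ∂μ
      ≤ ENNReal.ofReal (2 * r) * (ENNReal.ofReal (Real.exp (κ * (2 * r) ^ 2 / 2) * 2 ^ n) *
          (μ B + μ B) * ∫⁻ y in Metric.ball x0 (2 * r), ENNReal.ofReal (G y) ∂μ) := by gcongr
    _ = (ENNReal.ofReal (2 * r) * ENNReal.ofReal (Real.exp (κ * (2 * r) ^ 2 / 2) * 2 ^ n) * 2) *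
          μ B * ∫⁻ y in Metric.ball x0 (2 * r), ENNReal.ofReal (G y) ∂μ := by ring
    _ = _ := by
        congr 2
        rw [← ENNReal.ofReal_mul (by positivity), show (2:ℝ≥0∞) = ENNReal.ofReal 2 by norm_num,
          ← ENNReal.ofReal_mul (by positivity)]
        congr 1
        rw [show κ * (2 * r) ^ 2 / 2 = 2 * κ * r ^ 2 by ring]
        ring

omit C

/-- variance is dominated by the double integral -/
lemma var_le {B : Set X} (hB : MeasurableSet B) (hBf : μ B ≠ ∞) {f : X → ℝ}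
    (hf : IntegrableOn f B μ) (hf2 : IntegrableOn (fun x => f x ^ 2) B μ) (a : ℝ) :
    μ B * ENNReal.ofReal ((a - ⨍ x in B, f x ∂μ) ^ 2) ≤
      ∫⁻ z in B, ENNReal.ofReal ((a - f z) ^ 2) ∂μ := by
  by_cases h0 : μ B = 0
  · rw [h0, zero_mul]; exact bot_le
  set m := ⨍ x in B, f x ∂μ with hm
  set V := μ.real B with hV
  have hVp : 0 < V := ENNReal.toReal_pos h0 hBf
  have hmV : V * m = ∫ x in B, f x ∂μ := by
    rw [hm, setAverage_eq, smul_eq_mul, ← mul_assoc, mul_inv_cancel₀ hVp.ne', one_mul]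
  have : IsFiniteMeasure (μ.restrict B) := ⟨by rw [Measure.restrict_apply_univ]; exact hBf.lt_top⟩
  have hc : ∀ c : ℝ, Integrable (fun _ : X => c) (μ.restrict B) := fun c => integrable_const c
  have hi : Integrable (fun z => (a - f z) ^ 2) (μ.restrict B) := by
    have e : (fun z => (a - f z) ^ 2) = fun z => a ^ 2 - 2 * a * f z + f z ^ 2 := by
      funext z; ring
    rw [e]
    exact ((hc _).sub (hf.const_mul (2 * a))).add hf2
  have hint : ∫ z in B, (a - f z) ^ 2 ∂μ = V * (a - m) ^ 2 + ∫ z in B, (m - f z) ^ 2 ∂μ := by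
    have e1 : ∫ z in B, (m - f z) ∂μ = 0 := by
      rw [integral_sub (hc m) hf, setIntegral_const, smul_eq_mul, ← hmV, ← hV, sub_self]
    have hi1 : Integrable (fun z => (m - f z)) (μ.restrict B) := (hc m).sub hf
    have hi2 : Integrable (fun z => (m - f z) ^ 2) (μ.restrict B) := by
      have e : (fun z => (m - f z) ^ 2) = fun z => m ^ 2 - 2 * m * f z + f z ^ 2 := by
        funext z; ring
      rw [e]
      exact ((hc _).sub (hf.const_mul (2 * m))).add hf2
    calc ∫ z in B, (a - f z) ^ 2 ∂μ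
        = ∫ z in B, (((a - m) ^ 2 + 2 * (a - m) * (m - f z)) + (m - f z) ^ 2) ∂μ := by
          congr 1; funext z; ring
      _ = (∫ z in B, ((a - m) ^ 2 + 2 * (a - m) * (m - f z)) ∂μ) + ∫ z in B, (m - f z) ^ 2 ∂μ :=
          integral_add ((hc _).add (hi1.const_mul _)) hi2
      _ = ((∫ z in B, (a - m) ^ 2 ∂μ) + ∫ z in B, 2 * (a - m) * (m - f z) ∂μ) +
            ∫ z in B, (m - f z) ^ 2 ∂μ := by rw [integral_add (hc _) (hi1.const_mul _)]
      _ = _ := by
          rw [integral_const_mul, e1, mul_zero, add_zero, setIntegral_const, smul_eq_mul]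
  have h0' : 0 ≤ ∫ z in B, (m - f z) ^ 2 ∂μ := integral_nonneg fun z => sq_nonneg _
  calc μ B * ENNReal.ofReal ((a - m) ^ 2)
      = ENNReal.ofReal (V * (a - m) ^ 2) := by
        rw [ENNReal.ofReal_mul hVp.le, hV, Measure.real, ENNReal.ofReal_toReal hBf]
    _ ≤ ENNReal.ofReal (∫ z in B, (a - f z) ^ 2 ∂μ) := ENNReal.ofReal_le_ofReal (by linarith)
    _ = _ := ofReal_integral_eq_lintegral_ofReal hi (Eventually.of_forall fun z => sq_nonneg _)

/-- `L¹` version -/
lemma dev_le {B : Set X} (hB : MeasurableSet B) (hBf : μ B ≠ ∞) {f : X → ℝ}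
    (hf : IntegrableOn f B μ) (a : ℝ) :
    μ B * ENNReal.ofReal |a - ⨍ x in B, f x ∂μ| ≤
      ∫⁻ z in B, ENNReal.ofReal |a - f z| ∂μ := by
  by_cases h0 : μ B = 0
  · rw [h0, zero_mul]; exact bot_le
  set m := ⨍ x in B, f x ∂μ with hm
  set V := μ.real B with hV
  have hVp : 0 < V := ENNReal.toReal_pos h0 hBf
  have hmV : V * m = ∫ x in B, f x ∂μ := by
    rw [hm, setAverage_eq, smul_eq_mul, ← mul_assoc, mul_inv_cancel₀ hVp.ne', one_mul]
  have : IsFiniteMeasure (μ.restrict B) := ⟨by rw [Measure.restrict_apply_univ]; exact hBf.lt_top⟩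
  have hc : ∀ c : ℝ, Integrable (fun _ : X => c) (μ.restrict B) := fun c => integrable_const c
  have hi : Integrable (fun z => a - f z) (μ.restrict B) := (hc a).sub hf
  have hint : V * (a - m) = ∫ z in B, (a - f z) ∂μ := by
    rw [integral_sub (hc a) hf, setIntegral_const, smul_eq_mul, ← hmV, ← hV]
    ring
  calc μ B * ENNReal.ofReal |a - m|
      = ENNReal.ofReal (V * |a - m|) := by
        rw [ENNReal.ofReal_mul hVp.le, hV, Measure.real, ENNReal.ofReal_toReal hBf]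
    _ ≤ ENNReal.ofReal (∫ z in B, |a - f z| ∂μ) := by
        apply ENNReal.ofReal_le_ofReal
        rw [← abs_of_pos hVp, ← abs_mul, hint]
        exact abs_integral_le_integral_abs
    _ = _ := ofReal_integral_eq_lintegral_ofReal hi.abs (Eventually.of_forall fun z => abs_nonneg _)

include C

/-- **Neumann–Poincaré inequality**, exponent 2. -/
theorem poinc_two (hκ : 0 ≤ κ) {f G : X → ℝ} (hf : LG f G) (x0 : X) {r : ℝ} (hr : 0 < r)
    (hBf : μ (Metric.ball x0 r) ≠ ∞) (hfi : IntegrableOn f (Metric.ball x0 r) μ)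
    (hfi2 : IntegrableOn (fun x => f x ^ 2) (Metric.ball x0 r) μ) :
    ∫⁻ x in Metric.ball x0 r, ENNReal.ofReal ((f x - ⨍ z in Metric.ball x0 r, f z ∂μ) ^ 2) ∂μ ≤
      ENNReal.ofReal (8 * r ^ 2 * (Real.exp (2 * κ * r ^ 2) * 2 ^ n)) *
        ∫⁻ y in Metric.ball x0 (2 * r), ENNReal.ofReal (G y ^ 2) ∂μ := by
  set B := Metric.ball x0 r with hB
  have hBm : MeasurableSet B := Metric.isOpen_ball.measurableSet
  by_cases h0 : μ B = 0
  · rw [setLIntegral_measure_zero _ _ h0]; exact bot_le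
  have h1 : μ B * ∫⁻ x in B, ENNReal.ofReal ((f x - ⨍ z in B, f z ∂μ) ^ 2) ∂μ ≤
      μ B * (ENNReal.ofReal (8 * r ^ 2 * (Real.exp (2 * κ * r ^ 2) * 2 ^ n)) *
        ∫⁻ y in Metric.ball x0 (2 * r), ENNReal.ofReal (G y ^ 2) ∂μ) := by
    rw [← lintegral_const_mul' _ _ hBf]
    calc ∫⁻ x in B, μ B * ENNReal.ofReal ((f x - ⨍ z in B, f z ∂μ) ^ 2) ∂μ
        ≤ ∫⁻ x in B, ∫⁻ z in B, ENNReal.ofReal ((f x - f z) ^ 2) ∂μ ∂μ :=
          lintegral_mono fun x => var_le hBm hBf hfi hfi2 (f x)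
      _ ≤ _ := dbl_two C hκ hf x0 hr
      _ = _ := by ring
  exact (ENNReal.mul_le_mul_iff_right h0 hBf).1 h1

/-- **Neumann–Poincaré inequality**, exponent 1. -/
theorem poinc_one (hκ : 0 ≤ κ) {f G : X → ℝ} (hf : LG f G) (x0 : X) {r : ℝ} (hr : 0 < r)
    (hBf : μ (Metric.ball x0 r) ≠ ∞) (hfi : IntegrableOn f (Metric.ball x0 r) μ) :
    ∫⁻ x in Metric.ball x0 r, ENNReal.ofReal |f x - ⨍ z in Metric.ball x0 r, f z ∂μ| ∂μ ≤
      ENNReal.ofReal (4 * r * (Real.exp (2 * κ * r ^ 2) * 2 ^ n)) *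
        ∫⁻ y in Metric.ball x0 (2 * r), ENNReal.ofReal (G y) ∂μ := by
  set B := Metric.ball x0 r with hB
  have hBm : MeasurableSet B := Metric.isOpen_ball.measurableSet
  by_cases h0 : μ B = 0
  · rw [setLIntegral_measure_zero _ _ h0]; exact bot_le
  have h1 : μ B * ∫⁻ x in B, ENNReal.ofReal |f x - ⨍ z in B, f z ∂μ| ∂μ ≤
      μ B * (ENNReal.ofReal (4 * r * (Real.exp (2 * κ * r ^ 2) * 2 ^ n)) *
        ∫⁻ y in Metric.ball x0 (2 * r), ENNReal.ofReal (G y) ∂μ) := by
    rw [← lintegral_const_mul' _ _ hBf]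
    calc ∫⁻ x in B, μ B * ENNReal.ofReal |f x - ⨍ z in B, f z ∂μ| ∂μ
        ≤ ∫⁻ x in B, ∫⁻ z in B, ENNReal.ofReal |f x - f z| ∂μ ∂μ :=
          lintegral_mono fun x => dev_le hBm hBf hfi (f x)
      _ ≤ _ := dbl_one C hκ hf x0 hr
      _ = _ := by ring
  exact (ENNReal.mul_le_mul_iff_right h0 hBf).1 h1

end poinc

end Crest.Agent.R249.SobD_982
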