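import Crest.Agent.R249.Tv7_57
import Crest.Agent.R247.Loc3_710
import Crest.Agent.R249.SobD_982
import Mathlib.Analysis.Normed.Operator.Compact.Basic
import Crest.Agent.R247.Bgr3_546
import Crest.Agent.R247.Ray5_97

-- ▼ part R249/Tv8_57
section

/-!
# R249 (C-TV), part 8: weak eigensections are smooth; gluing. (helper57)
-/

set_option autoImplicit false
set_option linter.unusedSectionVars false
set_option maxSynthPendingDepth 3
open scoped ContDiff ENNReal NNReal Topology Manifold Bundle RealInnerProductSpace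
open MeasureTheory Set Filter Metric Bundle

noncomputable section
namespace Crest.Agent.R249.Tv57

open Crest.Agent.R247.Dir593 Crest.Agent.R247.Ms322 Crest.Agent.R247.Frd657
open Crest.GeometryTopology.CoordMetric Crest.GeometryTopology.ChartCurvature
open Crest.Agent.R202.Ell

theorem l2on_of_L2On {n : ℕ} {U : Set (EuclideanSpace ℝ (Fin n))} (hU : IsOpen U)
    {g : EuclideanSpace ℝ (Fin n) → ℝ} (h : L2On U g) : Crest.Agent.R249.SReg352.L2on U g := by
  refine ⟨?_, ?_⟩
  · rw [locallyIntegrableOn_iff hU.isLocallyClosed]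
    intro K hKU hK
    have hfin : IsFiniteMeasure ((volume : Measure (EuclideanSpace ℝ (Fin n))).restrict K) :=
      ⟨by rw [Measure.restrict_apply_univ]; exact hK.measure_lt_top⟩
    exact (h K hKU hK).integrable (by norm_num)
  · rw [locallyIntegrableOn_iff hU.isLocallyClosed]
    intro K hKU hK
    exact (h K hKU hK).integrable_sq

variable {n : ℕ} {M : Type*} [MetricSpace M] [ChartedSpace (EuclideanSpace ℝ (Fin n)) M]
  [IsManifold (𝓡 n) ∞ M]
  [RiemannianBundle (fun p : M => TangentSpace (𝓡 n) p)]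
  [IsContMDiffRiemannianBundle (𝓡 n) ∞ (EuclideanSpace ℝ (Fin n)) (fun p : M => TangentSpace (𝓡 n) p)]
  [IsRiemannianManifold (𝓡 n) M] [MeasurableSpace M] [BorelSpace M]
  [SecondCountableTopology M] [Nonempty M]

local notation "𝔼" => EuclideanSpace ℝ (Fin n)

/-- gluing of smooth representatives -/
theorem glue {f : M → ℝ} (h : ∀ x₀ : M, ∃ v : EuclideanSpace ℝ (Fin n) → ℝ,
    ContDiffOn ℝ ∞ v (chartAt 𝔼 x₀).target ∧
      ∀ᵐ b : 𝔼, b ∈ (chartAt 𝔼 x₀).target → v b = f ((chartAt 𝔼 x₀).symm b)) :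
    ∃ φ : M → ℝ, ContMDiff (𝓡 n) 𝓘(ℝ, ℝ) ∞ φ ∧ φ =ᵐ[(μHE[n] : Measure M)] f := by
  have := isOpenPosMeasure n M
  choose v hv hve using h
  set w : M → M → ℝ := fun x₀ z => v x₀ (chartAt 𝔼 x₀ z) with hw
  have hwc : ∀ x₀, ContinuousOn (w x₀) (chartAt 𝔼 x₀).source := fun x₀ =>
    (hv x₀).continuousOn.comp (chartAt 𝔼 x₀).continuousOn fun z hz => (chartAt 𝔼 x₀).map_source hz
  have hwe : ∀ x₀, ∀ᵐ z ∂(μHE[n] : Measure M), z ∈ (chartAt 𝔼 x₀).source → w x₀ z = f z := by
    intro x₀
    filter_upwards [ae_manifold x₀ (hve x₀)] with z hz hzs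
    have := hz hzs
    rwa [(chartAt 𝔼 x₀).left_inv hzs] at this
  have hcmp : ∀ x₀ x₁, EqOn (w x₀) (w x₁) ((chartAt 𝔼 x₀).source ∩ (chartAt 𝔼 x₁).source) := by
    intro x₀ x₁
    have hO : IsOpen ((chartAt 𝔼 x₀).source ∩ (chartAt 𝔼 x₁).source) :=
      (chartAt 𝔼 x₀).open_source.inter (chartAt 𝔼 x₁).open_source
    refine Measure.eqOn_open_of_ae_eq (μ := (μHE[n] : Measure M)) ?_ hO
      ((hwc x₀).mono inter_subset_left) ((hwc x₁).mono inter_subset_right)
    rw [Filter.EventuallyEq, ae_restrict_iff' hO.measurableSet]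
    filter_upwards [hwe x₀, hwe x₁] with z e1 e2 hz
    rw [e1 hz.1, e2 hz.2]
  set φ : M → ℝ := fun z => w z z with hφ
  have hφw : ∀ x₀ z, z ∈ (chartAt 𝔼 x₀).source → φ z = w x₀ z := fun x₀ z hz =>
    hcmp z x₀ ⟨mem_chart_source 𝔼 z, hz⟩
  refine ⟨φ, contMDiff_of_charts fun x₀ => (hv x₀).congr fun b hb => ?_, ?_⟩
  · rw [hφw x₀ _ ((chartAt 𝔼 x₀).map_target hb), hw]
    simp only [(chartAt 𝔼 x₀).right_inv hb]
  · have h1 : ∀ᵐ z ∂(μHE[n] : Measure M), ∀ k : ℕ, z ∈ (chartAt 𝔼 (cen n M k)).source →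
        w (cen n M k) z = f z := ae_all_iff.2 fun k => hwe _
    filter_upwards [h1] with z hz
    have h2 : z ∈ (chartAt 𝔼 (cen n M (idx n z))).source := mem_sel z
    rw [hφw _ _ h2]
    exact hz _ h2

variable [CompactSpace M] [IsFiniteMeasureOnCompacts (μHE[n] : Measure M)] {κ : Type} [Fintype κ]

open Classical in
/-- **regularity of weak eigensections in a chart** -/
theorem chart_reg (D : Dat n M κ) {u : HH (μHE[n] : Measure M) κ} (hu : ∀ a, u a ∈ (gradS n M).V)
    {lam : ℝ} (h : ∀ v : HH (μHE[n] : Measure M) κ, (∀ a, v a ∈ (gradS n M).V) →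
      ∫ x, D.toAD.en u v x ∂(μHE[n] : Measure M) = lam * ⟪u, v⟫) (x₀ : M) :
    ∃ v : κ → EuclideanSpace ℝ (Fin n) → ℝ, (∀ a, ContDiffOn ℝ ∞ (v a) (chartAt 𝔼 x₀).target) ∧
      ∀ a, ∀ᵐ b : 𝔼, b ∈ (chartAt 𝔼 x₀).target → v a b = u a ((chartAt 𝔼 x₀).symm b) := by
  have hU := (chartAt 𝔼 x₀).open_target
  have hA := coefOn_Ac (n := n) x₀
  have hsymm : ∀ b ∈ (chartAt 𝔼 x₀).target, ∀ i j, Ac (n := n) x₀ i j b = Ac x₀ j i b := by
    intro b hb i j
    rw [Ac, Ac, inv_symm x₀ hb]
  obtain ⟨v, h1, h2, -⟩ := sys_reg_div (κ := κ) hU (A := Ac (n := n) x₀) hA.smooth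
    (fun b hb => by
      rw [Matrix.posDef_iff_dotProduct_mulVec]
      refine ⟨?_, fun ξ hξ => ?_⟩
      · ext i j
        simp only [Matrix.conjTranspose_apply, Matrix.of_apply, star_trivial]
        exact hsymm b hb j i
      · refine lt_of_lt_of_eq (hA.pos b hb ξ hξ) ?_
        simp only [star_trivial, dotProduct, Matrix.mulVec, Matrix.of_apply, Finset.mul_sum]
        refine Finset.sum_congr rfl fun i _ => Finset.sum_congr rfl fun j _ => ?_
        ring)
    (W := fun a b j => cf x₀ j (D.X a b)) (fun a b j => D.smX a b x₀ j)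
    (q := fun a b y => dens (n := n) x₀ y * (D.Q a b ((chartAt 𝔼 x₀).symm y) -
      lam * if a = b then 1 else 0))
    (fun a b => (contDiffOn_dens x₀).mul ((chart_smooth (D.smQ a b) x₀).sub contDiffOn_const))
    (u := fun a b => u a ((chartAt 𝔼 x₀).symm b))
    (u' := fun i a => cf x₀ i ((gradS n M).D (u a)))
    (fun a => l2on_of_L2On hU (L2On_chart fun K _ => (Lp.memLp (u a)).restrict K))
    (fun i a => l2on_of_L2On hU (L2On_cf x₀ i (Lp.memLp _)))
    (fun i a φ hφ1 hφ2 hφ3 => wdOn_cf (gradS n M) (fun f => rfl) x₀ i (hu a) φ ⟨hφ1, hφ2⟩ hφ3)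
    (fun a φ hφ1 hφ2 hφ3 => by
      have h3 := weak_eq_chart (n := n) (F := D.toAD.cvf u a) (f := D.toAD.low u lam a)
        (fun p hp => D.toAD.weak_div h a hp) x₀ ⟨hφ1, hφ2⟩ hφ3
      have hcf : ∀ c j b, cf x₀ j (D.toAD.cvf u c) b = cf x₀ j ((gradS n M).D (u c)) b +
          ∑ b', u b' ((chartAt 𝔼 x₀).symm b) * cf x₀ j (D.X c b') b := by
        intro c j b
        simp only [cf, AD.cvf, inner_add_right, inner_sum, real_inner_smul_right]
        rfl
      have e1 : ∫ b, ∑ i, ∑ j, Ac (n := n) x₀ i j b * (cf x₀ j ((gradS n M).D (u a)) b +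
          ∑ b', u b' ((chartAt 𝔼 x₀).symm b) * cf x₀ j (D.X a b') b) * pderiv i φ b =
          ∫ b, ∑ i, ∑ j, Ac x₀ i j b * cf x₀ j (D.toAD.cvf u a) b * pderiv i φ b := by
        simp only [hcf]
      rw [e1, h3]
      congr 1
      refine integral_congr_ae (Eventually.of_forall fun b => ?_)
      simp only
      by_cases hb : b ∈ (chartAt 𝔼 x₀).target
      · congr 1
        rw [AD.low]
        have e2 : ∀ c, dens (n := n) x₀ b * ⟪D.toAD.cvf u c ((chartAt 𝔼 x₀).symm b),
            D.toAD.w c a ((chartAt 𝔼 x₀).symm b)⟫ = ∑ i, ∑ j, Ac x₀ i j b *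
            (cf x₀ j ((gradS n M).D (u c)) b + ∑ b', u b' ((chartAt 𝔼 x₀).symm b) *
              cf x₀ j (D.X c b') b) * cf x₀ i (D.X c a) b := by
          intro c
          have h5 := inner_cf x₀ (D.toAD.cvf u c) (D.X c a) hb
          rw [show D.toAD.w c a = D.X c a from rfl, h5, Finset.mul_sum]
          refine Finset.sum_congr rfl fun i _ => ?_
          rw [Finset.mul_sum]
          refine Finset.sum_congr rfl fun j _ => ?_
          rw [hcf, Ac]
          ring
        rw [mul_sub, mul_add, Finset.mul_sum, Finset.sum_congr rfl fun c _ => e2 c]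
        have e3 : ∑ b', dens (n := n) x₀ b * (D.Q a b' ((chartAt 𝔼 x₀).symm b) -
            lam * if a = b' then 1 else 0) * u b' ((chartAt 𝔼 x₀).symm b) =
            dens (n := n) x₀ b * (∑ b', D.toAD.q a b' ((chartAt 𝔼 x₀).symm b) *
              u b' ((chartAt 𝔼 x₀).symm b)) - dens (n := n) x₀ b *
                (lam * u a ((chartAt 𝔼 x₀).symm b)) := by
          have e4 : u a ((chartAt 𝔼 x₀).symm b) = ∑ b', (if a = b' then 1 else 0) *
              u b' ((chartAt 𝔼 x₀).symm b) := by simp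
          rw [e4, Finset.mul_sum, Finset.mul_sum, Finset.mul_sum, ← Finset.sum_sub_distrib]
          refine Finset.sum_congr rfl fun b' _ => ?_
          rw [show D.toAD.q a b' = D.Q a b' from rfl]
          ring
        rw [e3]
        ring
      · have : φ b = 0 := image_eq_zero_of_notMem_tsupport fun h => hb (hφ3 h)
        rw [this, mul_zero, mul_zero])
  exact ⟨v, h1, h2⟩

/-- **weak eigensections are smooth** -/
theorem smooth_rep (D : Dat n M κ) {u : HH (μHE[n] : Measure M) κ} (hu : ∀ a, u a ∈ (gradS n M).V)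
    {lam : ℝ} (h : ∀ v : HH (μHE[n] : Measure M) κ, (∀ a, v a ∈ (gradS n M).V) →
      ∫ x, D.toAD.en u v x ∂(μHE[n] : Measure M) = lam * ⟪u, v⟫) :
    ∃ φ : κ → M → ℝ, (∀ a, ContMDiff (𝓡 n) 𝓘(ℝ, ℝ) ∞ (φ a)) ∧
      ∀ᵐ z ∂(μHE[n] : Measure M), ∀ a, (u a : M → ℝ) z = φ a z := by
  have h1 : ∀ a, ∃ φ : M → ℝ, ContMDiff (𝓡 n) 𝓘(ℝ, ℝ) ∞ φ ∧ φ =ᵐ[(μHE[n] : Measure M)] (u a : M → ℝ) := by
    intro a
    refine glue fun x₀ => ?_
    obtain ⟨v, h1, h2⟩ := chart_reg D hu h x₀
    exact ⟨v a, h1 a, h2 a⟩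
  choose φ h2 h3 using h1
  refine ⟨φ, h2, ae_all_iff.2 fun a => ?_⟩
  filter_upwards [h3 a] with z hz using hz.symm

end Crest.Agent.R249.Tv57
end
end

-- ▼ part R249/Tv1_57
section

/-!
# R249 (C-TV), part 1: Rellich's theorem for the form domain `V` of a gradient structure on a
compact space carrying a radial contraction structure.

* `pair_sq`    : `(P u - P v)² ≤ d(u,v)² ∫₀¹ |∇P|²` along almost every segment, `P` locally Lipschitz;
* `dbl_V`      : the double integral over a ball;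
* `poinc_V`    : Neumann–Poincaré inequality on balls for locally Lipschitz functions;
* `exists_net` : maximal separated nets, `overlap_le` : bounded overlap;
* `friedrichs` : for every `ε` a finite rank operator `T` of `L²` with
  `‖u - T u‖ ≤ ε ‖S.D u‖` for all `u ∈ S.V`.
(helper57)
-/

set_option autoImplicit false
set_option linter.unusedSectionVars false
open MeasureTheory Set Filter Topology
open scoped ENNReal NNReal RealInnerProductSpace

noncomputable section
namespace Crest.Agent.R249.Tv57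

open Crest.Agent.R247.Mcp688 Crest.Agent.R247.Dir593 Crest.Agent.R247.Loc710
  Crest.Agent.R247.Hes124 Crest.Agent.R249.SobD_982 Crest.Agent.R247.Pyt710

section pair

variable {n : ℕ} {κ : ℝ} {X : Type*} [MetricSpace X] [MeasurableSpace X] [BorelSpace X]
  {μ : Measure X} [IsFiniteMeasureOnCompacts μ] [SFinite μ]

/-- squared pair inequality -/
lemma pair_sq [ProperSpace X] (S : GradS X (F n) μ) (C : Rad n κ X μ) (hR : RDG S C)
    {P : X → ℝ} (hP : LocallyLipschitz P) (u : X) :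
    ∀ᵐ v ∂μ, ENNReal.ofReal ((P u - P v) ^ 2) ≤ ENNReal.ofReal (dist u v ^ 2) *
      ∫⁻ t in Icc (0 : ℝ) 1, ENNReal.ofReal (‖(S.meas hP).mk _ (C.T u t v)‖ ^ 2) := by
  set g : X → F n := (S.meas hP).mk _ with hg
  have hgm : StronglyMeasurable g := (S.meas hP).stronglyMeasurable_mk
  have hcong : (fun x => ENNReal.ofReal ‖S.G P x‖) =ᵐ[μ] fun x => ENNReal.ofReal ‖g x‖ := by
    filter_upwards [(S.meas hP).ae_eq_mk] with x hx
    rw [hx]
  filter_upwards [pair_le S C hR (unitA_of_rdg hR) hP u, seg_congr C hcong u] with v h1 h2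
  rw [h2] at h1
  have hm : Measurable fun t : ℝ => ENNReal.ofReal ‖g (C.T u t v)‖ := by
    have : Measurable fun t : ℝ => C.T u t v :=
      C.measT.comp (measurable_const.prodMk (measurable_id.prodMk measurable_const))
    exact ENNReal.measurable_ofReal.comp ((hgm.measurable.comp this).norm)
  have h3 := sq_lintegral_le (volume.restrict (Icc (0:ℝ) 1)) hm.aemeasurable
  rw [Measure.restrict_apply_univ, Real.volume_Icc, sub_zero, ENNReal.ofReal_one, one_mul] at h3
  have e1 : ENNReal.ofReal ((P u - P v) ^ 2) = ENNReal.ofReal |P u - P v| ^ 2 := by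
    rw [← sq_abs, ENNReal.ofReal_pow (abs_nonneg _)]
  have e2 : ENNReal.ofReal (dist u v ^ 2) = ENNReal.ofReal (dist u v) ^ 2 :=
    ENNReal.ofReal_pow dist_nonneg 2
  have e3 : ∀ t : ℝ, ENNReal.ofReal (‖g (C.T u t v)‖ ^ 2) =
      ENNReal.ofReal ‖g (C.T u t v)‖ ^ 2 := fun t => ENNReal.ofReal_pow (norm_nonneg _) 2
  rw [e1, e2]
  simp_rw [e3]
  calc ENNReal.ofReal |P u - P v| ^ 2
      ≤ (ENNReal.ofReal (dist u v) * ∫⁻ t in Icc (0 : ℝ) 1, ENNReal.ofReal ‖g (C.T u t v)‖) ^ 2 := by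
        gcongr
    _ = ENNReal.ofReal (dist u v) ^ 2 *
          (∫⁻ t in Icc (0 : ℝ) 1, ENNReal.ofReal ‖g (C.T u t v)‖) ^ 2 := by ring
    _ ≤ _ := by gcongr

/-- double integral over a ball -/
theorem dbl_V [ProperSpace X] (S : GradS X (F n) μ) (C : Rad n κ X μ) (hR : RDG S C)
    (hκ : 0 ≤ κ) {P : X → ℝ} (hP : LocallyLipschitz P) (x0 : X) {r : ℝ} (hr : 0 < r) :
    ∫⁻ x in Metric.ball x0 r, ∫⁻ z in Metric.ball x0 r, ENNReal.ofReal ((P x - P z) ^ 2) ∂μ ∂μ ≤
      ENNReal.ofReal (8 * r ^ 2 * (Real.exp (2 * κ * r ^ 2) * 2 ^ n)) * μ (Metric.ball x0 r) *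
        ∫⁻ y in Metric.ball x0 (2 * r), ENNReal.ofReal (‖S.G P y‖ ^ 2) ∂μ := by
  set B := Metric.ball x0 r with hB
  have hBm : MeasurableSet B := Metric.isOpen_ball.measurableSet
  set g : X → F n := (S.meas hP).mk _ with hgdef
  have hgm : StronglyMeasurable g := (S.meas hP).stronglyMeasurable_mk
  have hg : Measurable fun y => ENNReal.ofReal (‖g y‖ ^ 2) :=
    ENNReal.measurable_ofReal.comp ((hgm.measurable.norm).pow_const 2)
  have hmeas : Measurable (fun p : X × ℝ × X => ENNReal.ofReal (‖g (C.T p.1 p.2.1 p.2.2)‖ ^ 2)) :=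
    hg.comp C.measT
  have h1 : ∫⁻ x in B, ∫⁻ z in B, ENNReal.ofReal ((P x - P z) ^ 2) ∂μ ∂μ ≤
      ∫⁻ x in B, ∫⁻ z in B, ENNReal.ofReal ((2 * r) ^ 2) *
        ∫⁻ t in Icc (0:ℝ) 1, ENNReal.ofReal (‖g (C.T x t z)‖ ^ 2) ∂volume ∂μ ∂μ := by
    apply setLIntegral_mono' hBm
    intro x hx
    apply lintegral_mono_ae
    filter_upwards [ae_restrict_of_ae (pair_sq S C hR hP x), ae_restrict_mem hBm] with z hz hzB
    refine hz.trans ?_
    gcongr
    have := dist_triangle_right x z x0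
    rw [hB, Metric.mem_ball] at hx hzB
    linarith
  refine h1.trans ?_
  have h2 : ∀ x, ∫⁻ z in B, ENNReal.ofReal ((2 * r) ^ 2) *
        ∫⁻ t in Icc (0:ℝ) 1, ENNReal.ofReal (‖g (C.T x t z)‖ ^ 2) ∂volume ∂μ =
      ENNReal.ofReal ((2 * r) ^ 2) * ∫⁻ z in B,
        ∫⁻ t in Icc (0:ℝ) 1, ENNReal.ofReal (‖g (C.T x t z)‖ ^ 2) ∂volume ∂μ := fun x =>
    lintegral_const_mul' _ _ ENNReal.ofReal_ne_top
  simp_rw [h2]
  rw [lintegral_const_mul' _ _ ENNReal.ofReal_ne_top]
  have h3 := C.segment_le hκ (A := B) (B := B) (W := Metric.ball x0 (2 * r)) hBm hBm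
    Metric.isOpen_ball.measurableSet (D := 2 * r)
    (fun x hx z hz => by
      have := dist_triangle_right x z x0
      rw [hB, Metric.mem_ball] at hx hz
      linarith)
    (fun x hx z hz hU t ht => geo_ball C hx hz hU ht) hg
  have h4 : ∫⁻ y in Metric.ball x0 (2 * r), ENNReal.ofReal (‖S.G P y‖ ^ 2) ∂μ =
      ∫⁻ y in Metric.ball x0 (2 * r), ENNReal.ofReal (‖g y‖ ^ 2) ∂μ := by
    apply lintegral_congr_ae
    filter_upwards [ae_restrict_of_ae (S.meas hP).ae_eq_mk] with y hy
    rw [hy]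
  rw [h4]
  calc ENNReal.ofReal ((2 * r) ^ 2) * ∫⁻ x in B, ∫⁻ z in B,
        ∫⁻ t in Icc (0:ℝ) 1, ENNReal.ofReal (‖g (C.T x t z)‖ ^ 2) ∂volume ∂μ ∂μ
      ≤ ENNReal.ofReal ((2 * r) ^ 2) * (ENNReal.ofReal (Real.exp (κ * (2 * r) ^ 2 / 2) * 2 ^ n) *
          (μ B + μ B) * ∫⁻ y in Metric.ball x0 (2 * r), ENNReal.ofReal (‖g y‖ ^ 2) ∂μ) := by gcongr
    _ = (ENNReal.ofReal ((2 * r) ^ 2) * ENNReal.ofReal (Real.exp (κ * (2 * r) ^ 2 / 2) * 2 ^ n) * 2) *
          μ B * ∫⁻ y in Metric.ball x0 (2 * r), ENNReal.ofReal (‖g y‖ ^ 2) ∂μ := by ring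
    _ = _ := by
        congr 2
        rw [← ENNReal.ofReal_mul (by positivity), show (2:ℝ≥0∞) = ENNReal.ofReal 2 by norm_num,
          ← ENNReal.ofReal_mul (by positivity)]
        congr 1
        rw [show κ * (2 * r) ^ 2 / 2 = 2 * κ * r ^ 2 by ring]
        ring

/-- **Neumann–Poincaré inequality** for locally Lipschitz functions, exponent 2 -/
theorem poinc_V [ProperSpace X] (S : GradS X (F n) μ) (C : Rad n κ X μ) (hR : RDG S C)
    (hκ : 0 ≤ κ) {P : X → ℝ} (hP : LocallyLipschitz P) (x0 : X) {r : ℝ} (hr : 0 < r)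
    (hBf : μ (Metric.ball x0 r) ≠ ∞) (hfi : IntegrableOn P (Metric.ball x0 r) μ)
    (hfi2 : IntegrableOn (fun x => P x ^ 2) (Metric.ball x0 r) μ) :
    ∫⁻ x in Metric.ball x0 r, ENNReal.ofReal ((P x - ⨍ z in Metric.ball x0 r, P z ∂μ) ^ 2) ∂μ ≤
      ENNReal.ofReal (8 * r ^ 2 * (Real.exp (2 * κ * r ^ 2) * 2 ^ n)) *
        ∫⁻ y in Metric.ball x0 (2 * r), ENNReal.ofReal (‖S.G P y‖ ^ 2) ∂μ := by
  set B := Metric.ball x0 r with hB
  have hBm : MeasurableSet B := Metric.isOpen_ball.measurableSet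
  by_cases h0 : μ B = 0
  · rw [setLIntegral_measure_zero _ _ h0]; exact bot_le
  have h1 : μ B * ∫⁻ x in B, ENNReal.ofReal ((P x - ⨍ z in B, P z ∂μ) ^ 2) ∂μ ≤
      μ B * (ENNReal.ofReal (8 * r ^ 2 * (Real.exp (2 * κ * r ^ 2) * 2 ^ n)) *
        ∫⁻ y in Metric.ball x0 (2 * r), ENNReal.ofReal (‖S.G P y‖ ^ 2) ∂μ) := by
    rw [← lintegral_const_mul' _ _ hBf]
    calc ∫⁻ x in B, μ B * ENNReal.ofReal ((P x - ⨍ z in B, P z ∂μ) ^ 2) ∂μ
        ≤ ∫⁻ x in B, ∫⁻ z in B, ENNReal.ofReal ((P x - P z) ^ 2) ∂μ ∂μ :=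
          lintegral_mono fun x => var_le hBm hBf hfi hfi2 (P x)
      _ ≤ _ := dbl_V S C hR hκ hP x0 hr
      _ = _ := by ring
  exact (ENNReal.mul_le_mul_iff_right h0 hBf).1 h1

end pair

section net

variable {n : ℕ} {κ : ℝ} {X : Type*} [MetricSpace X] [MeasurableSpace X] [BorelSpace X]
  {μ : Measure X} [IsFiniteMeasureOnCompacts μ] [SFinite μ]

/-- `s` is `r`-separated -/
def Sep (r : ℝ) (s : Finset X) : Prop := ∀ y ∈ s, ∀ z ∈ s, y ≠ z → r ≤ dist y z

/-- bounded overlap of the balls of radius `2 r` with centres in an `r`-separated set -/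
lemma overlap_le [ProperSpace X] [μ.IsOpenPosMeasure] (C : Rad n κ X μ) (hκ : 0 ≤ κ) {r : ℝ}
    (hr : 0 < r) (hr1 : r ≤ 1) {s : Finset X} (hs : Sep r s) (x : X) :
    (((s.filter fun c => dist x c < 2 * r)).card : ℝ) ≤ Real.exp (18 * κ) * 12 ^ n := by
  classical
  have h := C.packing hκ x (r := r / 2) (R := 2 * r) (by linarith) (by linarith)
    (Metric.isOpen_ball.measure_pos μ ⟨x, Metric.mem_ball_self (by linarith)⟩).ne'
    (Metric.isBounded_ball.measure_lt_top.ne) (s.filter fun c => dist x c < 2 * r)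
    (fun y hy => (Finset.mem_filter.1 hy).2)
    (fun y hy z hz hyz => by
      have := hs y (Finset.mem_filter.1 hy).1 z (Finset.mem_filter.1 hz).1 hyz
      linarith)
  refine h.trans ?_
  have e : 3 * (2 * r) / (r / 2) = 12 := by field_simp; norm_num
  rw [e]
  gcongr
  have h2 : r ^ 2 ≤ 1 := by nlinarith
  nlinarith

/-- maximal separated nets -/
lemma exists_net [CompactSpace X] [Nonempty X] [μ.IsOpenPosMeasure] (C : Rad n κ X μ)
    (hκ : 0 ≤ κ) {r : ℝ} (hr : 0 < r) :
    ∃ s : Finset X, Sep r s ∧ ∀ x, ∃ c ∈ s, dist x c < r := by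
  classical
  obtain ⟨x0⟩ := ‹Nonempty X›
  obtain ⟨R0, hR0⟩ := (isCompact_univ (X := X)).isBounded.subset_ball x0
  set R := max R0 (r / 2) with hR
  have hall : ∀ x : X, dist x0 x < R := fun x => by
    have := hR0 (mem_univ x)
    rw [Metric.mem_ball, dist_comm] at this
    exact lt_of_lt_of_le this (le_max_left _ _)
  have hRpos : 0 < R := lt_of_lt_of_le (by linarith : 0 < r / 2) (le_max_right _ _)
  set K : ℝ := Real.exp (κ * (3 * R) ^ 2 / 2) * (3 * R / (r / 2)) ^ n with hK
  have hcard : ∀ s : Finset X, Sep r s → s.card ≤ ⌊K⌋₊ := by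
    intro s hs
    apply Nat.le_floor
    exact C.packing hκ x0 (r := r / 2) (R := R) (by linarith) (le_max_right _ _)
      (Metric.isOpen_ball.measure_pos μ ⟨x0, Metric.mem_ball_self (by linarith)⟩).ne'
      (Metric.isBounded_ball.measure_lt_top.ne) s (fun y _ => hall y)
      (fun y hy z hz hyz => by have := hs y hy z hz hyz; linarith)
  have hex : ∃ k, ∃ s : Finset X, Sep r s ∧ s.card = k := ⟨0, ∅, by simp [Sep], rfl⟩
  obtain ⟨s, hs, hsm⟩ : ∃ s : Finset X, Sep r s ∧ ∀ t : Finset X, Sep r t → t.card ≤ s.card := by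
    set k := Nat.findGreatest (fun k => ∃ s : Finset X, Sep r s ∧ s.card = k) ⌊K⌋₊ with hk
    obtain ⟨s, hs, hsk⟩ := Nat.findGreatest_spec (P := fun k => ∃ s : Finset X, Sep r s ∧ s.card = k)
      (Nat.zero_le ⌊K⌋₊) ⟨∅, by simp [Sep], rfl⟩
    refine ⟨s, hs, fun t ht => ?_⟩
    rw [hsk]
    exact Nat.le_findGreatest (hcard t ht) ⟨t, ht, rfl⟩
  refine ⟨s, hs, fun x => ?_⟩
  by_contra hcon
  push Not at hcon
  have hx : x ∉ s := fun h => by have := hcon x h; rw [dist_self] at this; linarith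
  have h1 : Sep r (insert x s) := by
    intro y hy z hz hyz
    rw [Finset.mem_insert] at hy hz
    rcases hy with rfl | hy <;> rcases hz with rfl | hz
    · exact absurd rfl hyz
    · exact hcon z hz
    · rw [dist_comm]; exact hcon y hy
    · exact hs y hy z hz hyz
  have h2 := hsm _ h1
  rw [Finset.card_insert_of_notMem hx] at h2
  omega

end net

end Crest.Agent.R249.Tv57
end
end

-- ▼ part R249/Tv2_57
section

/-!
# R249 (C-TV), part 2: the Friedrichs inequality and Rellich's theorem for `S.V`.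

* `friedrichs`  : finite rank operators `T_r` of `L²` with `‖u - T_r u‖ ≤ K r ‖S.D u‖` on `S.V`;
(helper57)
-/

set_option autoImplicit false
set_option linter.unusedSectionVars false
open MeasureTheory Set Filter Topology
open scoped ENNReal NNReal RealInnerProductSpace

noncomputable section
namespace Crest.Agent.R249.Tv57

open Crest.Agent.R247.Mcp688 Crest.Agent.R247.Dir593 Crest.Agent.R247.Loc710
  Crest.Agent.R247.Hes124 Crest.Agent.R249.SobD_982 Crest.Agent.R247.Pyt710

section L2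
variable {X : Type*} [MeasurableSpace X] {μ : Measure X} {G : Type*} [NormedAddCommGroup G]
  [InnerProductSpace ℝ G]

lemma ofReal_norm_sq (w : Lp G 2 μ) :
    ENNReal.ofReal (‖w‖ ^ 2) = ∫⁻ x, ENNReal.ofReal (‖w x‖ ^ 2) ∂μ := by
  have h1 : ‖w‖ ^ 2 = ∫ x, ‖w x‖ ^ 2 ∂μ := by
    rw [← real_inner_self_eq_norm_sq, L2.inner_def]
    exact integral_congr_ae (Eventually.of_forall fun x => real_inner_self_eq_norm_sq _)
  rw [h1]
  apply ofReal_integral_eq_lintegral_ofReal
  · exact (Lp.memLp w).integrable_norm_pow (by norm_num)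
  · exact Eventually.of_forall fun x => sq_nonneg _

end L2

section sel
variable {X : Type*} [MetricSpace X] [MeasurableSpace X] [BorelSpace X]

/-- measurable choice of a nearby point of a finite net -/
lemma exists_sel (x0 : X) (r : ℝ) (s : Finset X) : ∃ c : X → X, Measurable c ∧
    ∀ x, (∃ a ∈ s, dist x a < r) → c x ∈ s ∧ dist x (c x) < r := by
  classical
  induction s using Finset.induction_on with
  | empty => exact ⟨fun _ => x0, measurable_const, fun x ⟨a, ha, _⟩ => absurd ha (by simp)⟩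
  | insert a s _ ih =>
    obtain ⟨c, hc, hcs⟩ := ih
    refine ⟨fun x => if dist x a < r then a else c x, ?_, fun x hx => ?_⟩
    · exact Measurable.ite (measurableSet_lt (by fun_prop) measurable_const) measurable_const hc
    · by_cases h : dist x a < r
      · simp only [if_pos h]
        exact ⟨Finset.mem_insert_self _ _, h⟩
      · simp only [if_neg h]
        obtain ⟨b, hb, hbx⟩ := hx
        rw [Finset.mem_insert] at hb
        rcases hb with rfl | hb
        · exact absurd hbx h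
        · obtain ⟨h1, h2⟩ := hcs x ⟨b, hb, hbx⟩
          exact ⟨Finset.mem_insert_of_mem h1, h2⟩

end sel

section T
variable {n : ℕ} {κ : ℝ} {X : Type*} [MetricSpace X] [MeasurableSpace X] [BorelSpace X]
  {μ : Measure X} [IsFiniteMeasureOnCompacts μ] [SFinite μ]

/-- the constant of the Friedrichs inequality -/
def KF (n : ℕ) (κ : ℝ) : ℝ := √(8 * Real.exp (20 * κ) * 24 ^ n)

lemma KF_nonneg (n : ℕ) (κ : ℝ) : 0 ≤ KF n κ := Real.sqrt_nonneg _

lemma KF_sq (n : ℕ) (κ : ℝ) : KF n κ ^ 2 = 8 * Real.exp (20 * κ) * 24 ^ n :=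
  Real.sq_sqrt (by positivity)

/-- **Friedrichs inequality** -/
theorem friedrichs [CompactSpace X] [Nonempty X] [μ.IsOpenPosMeasure] (S : GradS X (F n) μ)
    (C : Rad n κ X μ) (hR : RDG S C) (hκ : 0 ≤ κ) {r : ℝ} (hr : 0 < r) (hr1 : r ≤ 1) :
    ∃ T : Lp ℝ 2 μ →L[ℝ] Lp ℝ 2 μ, IsCompactOperator T ∧
      ∀ u ∈ S.V, ‖u - T u‖ ≤ KF n κ * r * ‖S.D u‖ := by
  classical
  obtain ⟨x0⟩ := id ‹Nonempty X›
  obtain ⟨s, hsep, hcov⟩ := exists_net C hκ hr
  obtain ⟨c, hcm, hc⟩ := exists_sel x0 r s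
  have hc' : ∀ x, c x ∈ s ∧ dist x (c x) < r := fun x => hc x (hcov x)
  have hfin : ∀ A : Set X, μ A ≠ ∞ := fun A =>
    (lt_of_le_of_lt (measure_mono (subset_univ A)) (isCompact_univ.measure_lt_top)).ne
  have : IsFiniteMeasure μ := ⟨isCompact_univ.measure_lt_top⟩
  have hBm : ∀ a : X, MeasurableSet (Metric.ball a r) := fun a => Metric.isOpen_ball.measurableSet
  have hAm : ∀ a : X, MeasurableSet (c ⁻¹' {a}) := fun a => hcm (measurableSet_singleton a)
  -- averages
  set m : X → Lp ℝ 2 μ → ℝ := fun a u => (μ.real (Metric.ball a r))⁻¹ *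
    ⟪(ind (hBm a) (hfin _) : Lp ℝ 2 μ), u⟫ with hm
  have hmavg : ∀ (a : X) (u : Lp ℝ 2 μ), m a u = ⨍ z in Metric.ball a r, u z ∂μ := by
    intro a u
    rw [hm, setAverage_eq, smul_eq_mul]
    simp only
    rw [real_inner_comm, inner_ind]
  set T : Lp ℝ 2 μ →L[ℝ] Lp ℝ 2 μ := ∑ a ∈ s, ((μ.real (Metric.ball a r))⁻¹ •
    innerSL ℝ (ind (hBm a) (hfin _) : Lp ℝ 2 μ)).smulRight (ind (hAm a) (hfin _)) with hT
  have hTapp : ∀ u, T u = ∑ a ∈ s, m a u • ind (hAm a) (hfin _) := by
    intro u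
    rw [hT]
    simp [hm]
  have hTcoe : ∀ u : Lp ℝ 2 μ, ∀ᵐ x ∂μ, (T u : Lp ℝ 2 μ) x = m (c x) u := by
    intro u
    have h1 : ∀ᵐ x ∂μ, ∀ a ∈ s, (m a u • (ind (hAm a) (hfin _) : Lp ℝ 2 μ) : Lp ℝ 2 μ) x =
        m a u * (if c x = a then 1 else 0) := by
      rw [Filter.eventually_all_finset]
      intro a _
      filter_upwards [Lp.coeFn_smul (m a u) (ind (hAm a) (hfin _) : Lp ℝ 2 μ),
        coe_ind (hAm a) (hfin _)] with x e1 e2
      rw [e1, Pi.smul_apply, e2, smul_eq_mul]
      by_cases h : c x = a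
      · rw [if_pos h, indicator_of_mem (by simpa using h)]
      · rw [if_neg h, indicator_of_notMem (by simpa using h)]
    have h2 : (T u : Lp ℝ 2 μ) =ᵐ[μ] fun x => ∑ a ∈ s,
        (m a u • (ind (hAm a) (hfin _) : Lp ℝ 2 μ) : Lp ℝ 2 μ) x := by
      rw [hTapp]
      exact Lp.coeFn_fun_finsetSum s (fun a => m a u • (ind (hAm a) (hfin _) : Lp ℝ 2 μ))
    filter_upwards [h1, h2] with x e1 e2
    rw [e2, Finset.sum_congr rfl e1]
    simp [(hc' x).1]
  refine ⟨T, ?_, ?_⟩
  · -- finite rank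
    rw [hT]
    have : ∀ (t : Finset X), IsCompactOperator (∑ a ∈ t, ((μ.real (Metric.ball a r))⁻¹ •
        innerSL ℝ (ind (hBm a) (hfin _) : Lp ℝ 2 μ)).smulRight
          (ind (hAm a) (hfin _) : Lp ℝ 2 μ) : Lp ℝ 2 μ →L[ℝ] Lp ℝ 2 μ) := by
      intro t
      induction t using Finset.induction_on with
      | empty => simpa using isCompactOperator_zero
      | insert a t ha ih =>
        rw [Finset.sum_insert ha]
        refine IsCompactOperator.add ?_ ih
        have h1 : IsCompactOperator (((μ.real (Metric.ball a r))⁻¹ •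
          innerSL ℝ (ind (hBm a) (hfin _) : Lp ℝ 2 μ)) : Lp ℝ 2 μ →L[ℝ] ℝ) :=
          isCompactOperator_of_locallyCompactSpace_dom _
        have h2 := h1.clm_comp ((ContinuousLinearMap.id ℝ ℝ).smulRight
          (ind (hAm a) (hfin _) : Lp ℝ 2 μ))
        convert h2 using 1
        ext u
        simp
    exact this s
  · -- the estimate for test functions
    have key : ∀ f : X → ℝ, ∀ hf : GradS.IsT f,
        ‖(GradS.tL hf : Lp ℝ 2 μ) - T (GradS.tL hf)‖ ≤
          KF n κ * r * ‖S.D (GradS.tL hf : Lp ℝ 2 μ)‖ := by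
      intro f hf
      set u : Lp ℝ 2 μ := GradS.tL hf with hu
      have hcoe : (u : X → ℝ) =ᵐ[μ] f := GradS.coe_tL hf
      have hfc : Continuous f := hf.1.continuous
      have hint : Integrable f μ := hf.memLp.integrable (by norm_num)
      have hint2 : Integrable (fun x => f x ^ 2) μ := hf.memLp.integrable_sq
      have hmf : ∀ a, m a u = ⨍ z in Metric.ball a r, f z ∂μ := by
        intro a
        rw [hmavg]
        exact setAverage_congr_fun (hBm a) (by filter_upwards [hcoe] with x hx _ using hx)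
      have h1 : ENNReal.ofReal (‖u - T u‖ ^ 2) ≤
          ∑ a ∈ s, ∫⁻ x in Metric.ball a r, ENNReal.ofReal ((f x - m a u) ^ 2) ∂μ := by
        rw [ofReal_norm_sq]
        calc ∫⁻ x, ENNReal.ofReal (‖(u - T u : Lp ℝ 2 μ) x‖ ^ 2) ∂μ
            ≤ ∫⁻ x, ∑ a ∈ s, (Metric.ball a r).indicator
                (fun x => ENNReal.ofReal ((f x - m a u) ^ 2)) x ∂μ := by
              apply lintegral_mono_ae
              filter_upwards [Lp.coeFn_sub u (T u), hcoe, hTcoe u] with x e1 e2 e3
              rw [e1, Pi.sub_apply, e2, e3, Real.norm_eq_abs, sq_abs]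
              refine le_trans (le_of_eq ?_) (Finset.single_le_sum
                (f := fun a => (Metric.ball a r).indicator
                  (fun x => ENNReal.ofReal ((f x - m a u) ^ 2)) x)
                (fun _ _ => bot_le) (hc' x).1)
              rw [indicator_of_mem]
              exact (hc' x).2
          _ = _ := by
              rw [lintegral_finsetSum']
              · refine Finset.sum_congr rfl fun a _ => ?_
                rw [lintegral_indicator (hBm a)]
              · intro a _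
                exact ((by fun_prop : Measurable fun x => ENNReal.ofReal ((f x - m a u) ^ 2)).indicator
                  (hBm a)).aemeasurable
      have h2 : ∀ a ∈ s, ∫⁻ x in Metric.ball a r, ENNReal.ofReal ((f x - m a u) ^ 2) ∂μ ≤
          ENNReal.ofReal (8 * r ^ 2 * (Real.exp (2 * κ * r ^ 2) * 2 ^ n)) *
            ∫⁻ y in Metric.ball a (2 * r), ENNReal.ofReal (‖S.G f y‖ ^ 2) ∂μ := by
        intro a _
        rw [hmf]
        exact poinc_V S C hR hκ hf.1 a hr (hfin _) hint.integrableOn hint2.integrableOn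
      have hGm : AEMeasurable (fun y => ENNReal.ofReal (‖S.G f y‖ ^ 2)) μ :=
        (((S.meas hf.1).norm.aemeasurable).pow_const 2).ennreal_ofReal
      have h3 : ∑ a ∈ s, ∫⁻ y in Metric.ball a (2 * r), ENNReal.ofReal (‖S.G f y‖ ^ 2) ∂μ ≤
          ENNReal.ofReal (Real.exp (18 * κ) * 12 ^ n) *
            ∫⁻ y, ENNReal.ofReal (‖S.G f y‖ ^ 2) ∂μ := by
        calc ∑ a ∈ s, ∫⁻ y in Metric.ball a (2 * r), ENNReal.ofReal (‖S.G f y‖ ^ 2) ∂μ
            = ∫⁻ y, ∑ a ∈ s, (Metric.ball a (2 * r)).indicator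
                (fun y => ENNReal.ofReal (‖S.G f y‖ ^ 2)) y ∂μ := by
              rw [lintegral_finsetSum']
              · refine Finset.sum_congr rfl fun a _ => ?_
                rw [lintegral_indicator Metric.isOpen_ball.measurableSet]
              · intro a _
                exact hGm.indicator Metric.isOpen_ball.measurableSet
          _ ≤ ∫⁻ y, ENNReal.ofReal (Real.exp (18 * κ) * 12 ^ n) *
                ENNReal.ofReal (‖S.G f y‖ ^ 2) ∂μ := by
              apply lintegral_mono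
              intro y
              simp only
              have e : ∑ a ∈ s, (Metric.ball a (2 * r)).indicator
                  (fun y => ENNReal.ofReal (‖S.G f y‖ ^ 2)) y =
                  ((s.filter fun a => dist y a < 2 * r).card : ℝ≥0∞) *
                    ENNReal.ofReal (‖S.G f y‖ ^ 2) := by
                rw [← nsmul_eq_mul, ← Finset.sum_const, Finset.sum_filter]
                refine Finset.sum_congr rfl fun a _ => ?_
                by_cases h : dist y a < 2 * r
                · rw [if_pos h, indicator_of_mem (by simpa using h)]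
                · rw [if_neg h, indicator_of_notMem (by simpa using h)]
              rw [e]
              gcongr
              have := overlap_le (μ := μ) C hκ hr hr1 hsep y
              rw [← ENNReal.ofReal_natCast]
              exact ENNReal.ofReal_le_ofReal this
          _ = _ := lintegral_const_mul' _ _ ENNReal.ofReal_ne_top
      have h4 : ∫⁻ y, ENNReal.ofReal (‖S.G f y‖ ^ 2) ∂μ = ENNReal.ofReal (‖S.D u‖ ^ 2) := by
        rw [ofReal_norm_sq]
        apply lintegral_congr_ae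
        filter_upwards [S.D_tL hf] with x hx
        rw [hx]
      have h5 : ENNReal.ofReal (‖u - T u‖ ^ 2) ≤
          ENNReal.ofReal ((KF n κ * r * ‖S.D u‖) ^ 2) := by
        calc ENNReal.ofReal (‖u - T u‖ ^ 2)
            ≤ ∑ a ∈ s, ENNReal.ofReal (8 * r ^ 2 * (Real.exp (2 * κ * r ^ 2) * 2 ^ n)) *
                ∫⁻ y in Metric.ball a (2 * r), ENNReal.ofReal (‖S.G f y‖ ^ 2) ∂μ :=
              h1.trans (Finset.sum_le_sum h2)
          _ = ENNReal.ofReal (8 * r ^ 2 * (Real.exp (2 * κ * r ^ 2) * 2 ^ n)) *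
                ∑ a ∈ s, ∫⁻ y in Metric.ball a (2 * r), ENNReal.ofReal (‖S.G f y‖ ^ 2) ∂μ := by
              rw [Finset.mul_sum]
          _ ≤ ENNReal.ofReal (8 * r ^ 2 * (Real.exp (2 * κ) * 2 ^ n)) *
                (ENNReal.ofReal (Real.exp (18 * κ) * 12 ^ n) * ENNReal.ofReal (‖S.D u‖ ^ 2)) := by
              rw [← h4]
              have hexp : Real.exp (2 * κ * r ^ 2) ≤ Real.exp (2 * κ) := by
                apply Real.exp_le_exp.2
                have : r ^ 2 ≤ 1 := by nlinarith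
                nlinarith
              gcongr
          _ = ENNReal.ofReal ((KF n κ * r * ‖S.D u‖) ^ 2) := by
              rw [← ENNReal.ofReal_mul (by positivity), ← ENNReal.ofReal_mul (by positivity)]
              congr 1
              rw [mul_pow, mul_pow, KF_sq, show (20:ℝ) * κ = 2 * κ + 18 * κ by ring, Real.exp_add,
                show (24:ℝ) = 2 * 12 by norm_num, mul_pow]
              ring
      have h6 := (ENNReal.ofReal_le_ofReal_iff (sq_nonneg _)).1 h5
      have h7 : 0 ≤ KF n κ * r * ‖S.D u‖ := by have := KF_nonneg n κ; positivity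
      exact (pow_le_pow_iff_left₀ (norm_nonneg _) h7 two_ne_zero).1 h6
    intro u hu
    obtain ⟨f, hf, t1, t2⟩ := S.exists_seq hu
    have t3 : Tendsto (fun k => ‖(GradS.tL (hf k) : Lp ℝ 2 μ) - T (GradS.tL (hf k))‖) atTop
        (𝓝 ‖u - T u‖) := (t1.sub ((T.continuous.tendsto _).comp t1)).norm
    have t4 : Tendsto (fun k => KF n κ * r * ‖S.D (GradS.tL (hf k) : Lp ℝ 2 μ)‖) atTop
        (𝓝 (KF n κ * r * ‖S.D u‖)) := t2.norm.const_mul _
    exact le_of_tendsto_of_tendsto' t3 t4 fun k => key (f k) (hf k)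

end T

end Crest.Agent.R249.Tv57
end
end

-- ▼ part R249/Tv9_57

/-!
# R249 (C-TV), part 9: **the spectral theorem for `D* D + Q`** on a closed manifold.

`exists_spec : 1 ≤ n → 0 ≤ k → HasRicciLowerBound n M (-k) → D.p a a z ≠ 0 → Nonempty (Spec D)`
(helper57)
-/

set_option autoImplicit false
set_option linter.unusedSectionVars false
set_option maxSynthPendingDepth 3
open scoped ContDiff ENNReal NNReal Topology Manifold Bundle RealInnerProductSpace
open MeasureTheory Set Filter Metric Bundle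

noncomputable section
namespace Crest.Agent.R249.Tv57

open Crest.Agent.R247.Dir593 Crest.Agent.R247.Ms322 Crest.Agent.R247.Frd657
open Crest.Agent.R247.Mcp688
open Crest.GeometryTopology.CoordMetric Crest.GeometryTopology.ChartCurvature
open Crest.GeometryTopology.PointedLimit

lemma inner_HH {X : Type*} [MeasurableSpace X] {μ : Measure X} {κ : Type} [Fintype κ]
    (u v : HH μ κ) {f g : κ → X → ℝ} (hf : ∀ᵐ x ∂μ, ∀ a, (u a : X → ℝ) x = f a x)
    (hg : ∀ᵐ x ∂μ, ∀ a, (v a : X → ℝ) x = g a x) : ⟪u, v⟫ = ∫ x, ∑ a, f a x * g a x ∂μ := by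
  rw [PiLp.inner_apply]
  simp only [L2.inner_def]
  rw [← integral_finsetSum]
  · refine integral_congr_ae ?_
    filter_upwards [hf, hg] with x e1 e2
    refine Finset.sum_congr rfl fun a _ => ?_
    rw [e1 a, e2 a, rin]
  · intro a _
    exact L2.integrable_inner _ _

universe v
variable {n : ℕ} {M : Type v} [MetricSpace M] [CompactSpace M] [ConnectedSpace M]
    [ChartedSpace (EuclideanSpace ℝ (Fin n)) M]
    [IsManifold (𝓡 n) ∞ M]
    [RiemannianBundle (fun p : M => TangentSpace (𝓡 n) p)]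
    [IsContMDiffRiemannianBundle (𝓡 n) ∞ (EuclideanSpace ℝ (Fin n))
      (fun p : M => TangentSpace (𝓡 n) p)]
    [IsRiemannianManifold (𝓡 n) M]
    [MeasurableSpace M] [BorelSpace M] [SecondCountableTopology M] [Nonempty M]

local notation "𝔼" => EuclideanSpace ℝ (Fin n)

/-- the scalar Rellich theorem on `M` -/
theorem fried_M [IsFiniteMeasureOnCompacts (μHE[n] : Measure M)] (hn : 1 ≤ n) {k : ℝ} (hk : 0 ≤ k)
    (hRic : HasRicciLowerBound n M (-k)) : AD.Fried (gradS n M) := by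
  have := Crest.Agent.R247.HR216.properSpace_of_riemannian n M
  have := isOpenPosMeasure n M
  have hnt : Nontrivial M := by
    by_contra h
    have : Subsingleton M := not_nontrivial_iff_subsingleton.1 h
    obtain ⟨x⟩ := ‹Nonempty M›
    have h1 : (μHE[n] : Measure M) {x} = 0 := muHE_singleton n hn x
    have h2 : ({x} : Set M) = univ := eq_univ_of_forall fun y => Subsingleton.elim y x
    rw [h2] at h1
    exact (isOpen_univ.measure_pos (μHE[n] : Measure M) ⟨x, mem_univ x⟩).ne' h1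
  obtain ⟨C⟩ := Crest.Agent.R247.Bgr546.rad_all n k hk M hRic
  have hR := Crest.Agent.R247.Ray97.rdg hk (Crest.Agent.R247.Bgr546.exM_of_riemannian n M) C (gradS n M) rfl
  intro ε hε
  set K := KF n k with hK
  have hK0 : 0 ≤ K := Real.sqrt_nonneg _
  set r : ℝ := min 1 (ε / (K + 1)) with hr
  have hr0 : 0 < r := lt_min one_pos (by positivity)
  obtain ⟨T, hT, h⟩ := friedrichs (gradS n M) C hR hk hr0 (min_le_left _ _)
  refine ⟨T, hT, fun u hu => (h u hu).trans ?_⟩
  refine mul_le_mul_of_nonneg_right ?_ (norm_nonneg _)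
  calc K * r ≤ (K + 1) * (ε / (K + 1)) :=
        mul_le_mul (by linarith) (min_le_right _ _) hr0.le (by linarith)
    _ = ε := by field_simp

theorem exists_spec (hn : 1 ≤ n) {k : ℝ} (hk : 0 ≤ k) (hRic : HasRicciLowerBound n M (-k))
    {κ : Type} [Fintype κ] (D : Dat n M κ) {a : κ} {z : M} (hz : D.p a a z ≠ 0) :
    Nonempty (Spec D) := by
  have := Crest.Agent.R247.HR216.properSpace_of_riemannian n M
  have := isLocallyFinite_muHE n M
  have := isOpenPosMeasure n M
  have : IsFiniteMeasure (μHE[n] : Measure M) := ⟨isCompact_univ.measure_lt_top⟩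
  obtain ⟨u, lam, hV, hP, hmono, hlim, hortho, hpars, heig⟩ := D.toAD.exists_weak
    (fried_M hn hk hRic) (gradS n M).dense_V
    (D.toAD.not_finiteDimensional (fun x => muHE_singleton n hn x) (a := a) (x0 := z) hz)
  choose φ hφs hφe using fun k => smooth_rep D (hV k) (heig k)
  -- the gradient
  have hD : ∀ k, ∀ᵐ x ∂(μHE[n] : Measure M), ∀ a,
      ((gradS n M).D (u k a) : M → 𝔼) x = Gr (n := n) (φ k a) x := by
    intro k
    rw [ae_all_iff]
    intro a
    have h1 : u k a = GradS.tL (isT_smooth (hφs k a)) := by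
      ext1
      filter_upwards [hφe k, GradS.coe_tL (μ := (μHE[n] : Measure M)) (isT_smooth (hφs k a))]
        with x e1 e2
      rw [e1 a, e2]
    rw [h1]
    exact (gradS n M).D_tL _
  refine ⟨⟨φ, lam, hφs, ?_, hmono, hlim, ?_, ?_, ?_⟩⟩
  · -- sections
    intro k a
    have hc : Continuous fun z => ∑ b, D.p a b z * φ k b z :=
      continuous_finsetSum _ fun b _ => (D.smp a b).continuous.mul (hφs k b).continuous
    have h1 : (fun z => ∑ b, D.p a b z * φ k b z) =ᵐ[(μHE[n] : Measure M)] φ k a := by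
      have h2 := D.toAD.coe_P (u k)
      rw [hP k] at h2
      filter_upwards [h2, hφe k] with z e1 e2
      rw [← e2 a, e1 a]
      refine Finset.sum_congr rfl fun b _ => ?_
      rw [e2 b]
      rfl
    intro z
    exact congrFun ((hc.ae_eq_iff_eq _ (hφs k a).continuous).1 h1) z
  · intro k l
    rw [← inner_HH (u k) (u l) (hφe k) (hφe l)]
    exact hortho k l
  · intro k v hv
    set V : HH (μHE[n] : Measure M) κ := WithLp.toLp 2 (fun a => GradS.tL (isT_smooth (hv a))) with hVd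
    have hVa : ∀ a, V a = GradS.tL (isT_smooth (hv a)) := fun a => rfl
    have hVe : ∀ᵐ x ∂(μHE[n] : Measure M), ∀ a, (V a : M → ℝ) x = v a x := by
      rw [ae_all_iff]
      intro a
      exact GradS.coe_tL (isT_smooth (hv a))
    have hVD : ∀ᵐ x ∂(μHE[n] : Measure M), ∀ a, ((gradS n M).D (V a) : M → 𝔼) x =
        Gr (n := n) (v a) x := by
      rw [ae_all_iff]
      intro a
      exact (gradS n M).D_tL (isT_smooth (hv a))
    have h1 := heig k V (fun a => (gradS n M).tL_mem (isT_smooth (hv a)))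
    rw [inner_HH (u k) V (hφe k) hVe] at h1
    rw [← h1]
    refine integral_congr_ae ?_
    filter_upwards [hφe k, hVe, hD k, hVD] with x e1 e2 e3 e4
    rw [AD.en, Dat.ed]
    congr 1
    · refine Finset.sum_congr rfl fun a _ => ?_
      have c1 : D.cv (φ k) a x = D.toAD.cvf (u k) a x := by
        rw [Dat.cv, AD.cvf, e3 a]
        congr 1
        exact Finset.sum_congr rfl fun b _ => by rw [e1 b]; rfl
      have c2 : D.cv v a x = D.toAD.cvf V a x := by
        rw [Dat.cv, AD.cvf, e4 a]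
        congr 1
        exact Finset.sum_congr rfl fun b _ => by rw [e2 b]; rfl
      rw [c1, c2]
    · refine Finset.sum_congr rfl fun a _ => Finset.sum_congr rfl fun b _ => ?_
      rw [e1 b, e2 a]
      rfl
  · intro f hf hpf
    set V : HH (μHE[n] : Measure M) κ := WithLp.toLp 2 (fun a => (hf a).toLp (f a)) with hVd
    have hVe : ∀ᵐ x ∂(μHE[n] : Measure M), ∀ a, (V a : M → ℝ) x = f a x := by
      rw [ae_all_iff]
      intro a
      exact (hf a).coeFn_toLp
    have hPV : D.toAD.P V = V := by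
      ext a
      filter_upwards [D.toAD.coe_P V, hVe, hpf] with x e1 e2 e3
      rw [e1 a, e2 a, ← e3 a]
      exact Finset.sum_congr rfl fun b _ => by rw [e2 b]; rfl
    have h1 := hpars V hPV
    have h2 : ‖V‖ ^ 2 = ∫ z, ∑ a, f a z ^ 2 ∂(μHE[n] : Measure M) := by
      rw [← real_inner_self_eq_norm_sq, inner_HH V V hVe hVe]
      refine integral_congr_ae (Eventually.of_forall fun x => ?_)
      exact Finset.sum_congr rfl fun a _ => by ring
    rw [h2] at h1
    have h3 : (fun k => ⟪V, u k⟫ ^ 2) =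
        fun k => (∫ z, ∑ a, f a z * φ k a z ∂(μHE[n] : Measure M)) ^ 2 := by
      funext k
      rw [inner_HH V (u k) hVe (hφe k)]
    rwa [h3] at h1

end Crest.Agent.R249.Tv57
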