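import Crest.Agent.R247.Mcp2_688
import Crest.Agent.R247.Ray5_97
import Crest.Agent.R247.Bgr3_546
import Crest.Agent.R247.Ms10_322
import Crest.Agent.R247.Bs2_84
import Crest.Agent.R247.GluM1_923
import Crest.Agent.R249.VE_222
import Crest.Agent.R249.Ch1_174
import Crest.Agent.R249.WH1_509

-- ▼ part R249/Two1_709
section

/-!
R249 (helper709), leaf D3-LIM-G2, file 1 (abstract): the two-point estimate over a `Rad` structure.

`exists_pair`: for two balls `A = ball z a`, `B = ball z' a` there is a good pair `(x, y) ∈ A × B`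
with `D x + 2 d ∫₀¹ H (T x t y) dt ≤ (average of D over A) + C d (1/μA + 1/μB) ∫_W H`.
`two_point`: if `| ‖U y - U x‖ - dist x y | ≤ dist x y (D x + dist x y ∫₀¹ H)` for good pairs then
`| ‖U z' - U z‖ - d | ≤ (2Λ+2) a + 2 d (C (d/a)^n) (avg D + 2 d avg H)`.
-/

set_option autoImplicit false
set_option linter.unusedSectionVars false

open Set Filter Topology Metric MeasureTheory
open scoped ENNReal NNReal
open Crest.Agent.R247.Mcp688

noncomputable section

namespace Crest.Agent.R249.Two709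

variable {X : Type*} [MetricSpace X] [MeasurableSpace X] [BorelSpace X] {μ : Measure X} {n : ℕ}
  {κ : ℝ} (C : Rad n κ X μ)

include C

theorem measurable_G {D H : X → ℝ≥0∞} (hD : Measurable D) (hH : Measurable H) (c : ℝ≥0∞) :
    Measurable (fun p : X × X => D p.1 + c * ∫⁻ t in Icc (0 : ℝ) 1, H (C.T p.1 t p.2)) := by
  refine (hD.comp measurable_fst).add (Measurable.const_mul ?_ c)
  have h : Measurable (fun q : (X × X) × ℝ => H (C.T q.1.1 q.2 q.1.2)) :=
    hH.comp (C.measT.comp ((measurable_fst.comp measurable_fst).prodMk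
      (measurable_snd.prodMk (measurable_snd.comp measurable_fst))))
  exact h.lintegral_prod_right' (ν := volume.restrict (Icc (0 : ℝ) 1))


theorem exists_pair [SFinite μ] (hκ : 0 ≤ κ) (hfin : ∀ x r, μ (ball x r) ≠ ∞)
    (hpos : ∀ (x : X) (r : ℝ), 0 < r → μ (ball x r) ≠ 0) {z z' : X} {a Δ : ℝ} (ha : 0 < a)
    (hΔ : dist z z' + 2 * a ≤ Δ) {W : Set X} (hW : MeasurableSet W)
    (hTW : ∀ x ∈ ball z a, ∀ y ∈ ball z' a, (x, y) ∈ C.U → ∀ t ∈ Icc (0 : ℝ) 1, C.T x t y ∈ W)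
    {D H : X → ℝ≥0∞} (hD : Measurable D) (hH : Measurable H)
    {P : X → X → Prop} (hP : ∀ x, ∀ᵐ y ∂μ, P x y) :
    ∃ x ∈ ball z a, ∃ y ∈ ball z' a, P x y ∧ (x, y) ∈ C.U ∧
      D x + ENNReal.ofReal Δ * ∫⁻ t in Icc (0 : ℝ) 1, H (C.T x t y) ≤
        (μ (ball z a))⁻¹ * ∫⁻ x in ball z a, D x ∂μ +
        ENNReal.ofReal Δ *
          (ENNReal.ofReal (Real.exp (κ * Δ ^ 2 / 2) * 2 ^ n) *
            ((μ (ball z a))⁻¹ + (μ (ball z' a))⁻¹) * ∫⁻ y in W, H y ∂μ) := by
  set d := dist z z' with hd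
  set A := ball z a with hA
  set B := ball z' a with hB
  set K : ℝ≥0∞ := ENNReal.ofReal (Real.exp (κ * Δ ^ 2 / 2) * 2 ^ n) with hK
  set c : ℝ≥0∞ := ENNReal.ofReal Δ with hc
  set G : X → X → ℝ≥0∞ := fun x y => D x + c * ∫⁻ t in Icc (0 : ℝ) 1, H (C.T x t y) with hG
  have hGm : Measurable (fun p : X × X => G p.1 p.2) := measurable_G C hD hH c
  have hA0 : μ A ≠ 0 := hpos z a ha
  have hB0 : μ B ≠ 0 := hpos z' a ha
  have hAf : μ A ≠ ∞ := hfin z a
  have hBf : μ B ≠ ∞ := hfin z' a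
  have hrA : μ.restrict A ≠ 0 := by
    rw [Ne, Measure.restrict_eq_zero]; exact hA0
  have hrB : μ.restrict B ≠ 0 := by
    rw [Ne, Measure.restrict_eq_zero]; exact hB0
  have : IsFiniteMeasure (μ.restrict A) := ⟨by
    rw [Measure.restrict_apply_univ]; exact lt_top_iff_ne_top.2 hAf⟩
  have : IsFiniteMeasure (μ.restrict B) := ⟨by
    rw [Measure.restrict_apply_univ]; exact lt_top_iff_ne_top.2 hBf⟩
  -- `x`
  have hfm : AEMeasurable (fun x => ∫⁻ y in B, G x y ∂μ) (μ.restrict A) :=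
    (hGm.lintegral_prod_right' (ν := μ.restrict B)).aemeasurable
  have hNA : (μ.restrict A) Aᶜ = 0 := by
    rw [Measure.restrict_apply measurableSet_ball.compl, compl_inter_self, measure_empty]
  obtain ⟨x, hxA, hx⟩ := exists_notMem_null_le_laverage hrA hfm hNA
  have hxA' : x ∈ A := notMem_compl_iff.1 hxA
  rw [laverage_eq, Measure.restrict_apply_univ] at hx
  -- `y`
  have hGx : AEMeasurable (fun y => G x y) (μ.restrict B) :=
    (hGm.comp (measurable_const.prodMk measurable_id)).aemeasurable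
  have hNB : (μ.restrict B) (Bᶜ ∪ {y | ¬ (P x y ∧ (x, y) ∈ C.U)}) = 0 := by
    apply measure_union_null
    · rw [Measure.restrict_apply measurableSet_ball.compl, compl_inter_self, measure_empty]
    · have h : ∀ᵐ y ∂μ, P x y ∧ (x, y) ∈ C.U := (hP x).and (C.ae_U x)
      exact (ae_restrict_of_ae h)
  obtain ⟨y, hyB, hy⟩ := exists_notMem_null_le_laverage hrB hGx hNB
  have hyB1 : y ∈ B := by
    by_contra h
    exact hyB (Or.inl h)
  have hyB2 : P x y ∧ (x, y) ∈ C.U := by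
    by_contra h
    exact hyB (Or.inr h)
  rw [laverage_eq, Measure.restrict_apply_univ] at hy
  refine ⟨x, hxA', y, hyB1, hyB2.1, hyB2.2, ?_⟩
  refine hy.trans ?_
  -- the total integral
  have hseg := C.segment_le hκ (A := A) (B := B) (W := W)
    measurableSet_ball measurableSet_ball hW (D := Δ)
    (fun p hp q hq => by
      rw [hA, mem_ball] at hp
      rw [hB, mem_ball] at hq
      have h1 := dist_triangle p z q
      have h2 := dist_triangle z z' q
      rw [dist_comm z' q] at h2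
      linarith) hTW hH
  have htot : ∫⁻ x in A, ∫⁻ y in B, G x y ∂μ ∂μ ≤
      μ B * ∫⁻ x in A, D x ∂μ + c * (K * (μ A + μ B) * ∫⁻ y in W, H y ∂μ) := by
    have e1 : ∀ x, ∫⁻ y in B, G x y ∂μ = μ B * D x +
        c * ∫⁻ y in B, ∫⁻ t in Icc (0 : ℝ) 1, H (C.T x t y) ∂volume ∂μ := by
      intro x
      simp only [hG]
      rw [lintegral_add_left measurable_const, setLIntegral_const, mul_comm (D x),
        lintegral_const_mul' _ _ ENNReal.ofReal_ne_top]
    calc ∫⁻ x in A, ∫⁻ y in B, G x y ∂μ ∂μ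
        = ∫⁻ x in A, (μ B * D x +
            c * ∫⁻ y in B, ∫⁻ t in Icc (0 : ℝ) 1, H (C.T x t y) ∂volume ∂μ) ∂μ := by
          refine lintegral_congr fun x => e1 x
      _ = μ B * ∫⁻ x in A, D x ∂μ +
            c * ∫⁻ x in A, ∫⁻ y in B, ∫⁻ t in Icc (0 : ℝ) 1, H (C.T x t y) ∂volume ∂μ ∂μ := by
          rw [lintegral_add_left (hD.const_mul _), lintegral_const_mul' _ _ hBf,
            lintegral_const_mul' _ _ ENNReal.ofReal_ne_top]
      _ ≤ _ := by gcongr
  calc (∫⁻ y in B, G x y ∂μ) / μ B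
      ≤ ((∫⁻ x in A, ∫⁻ y in B, G x y ∂μ ∂μ) / μ A) / μ B := by gcongr
    _ ≤ ((μ B * ∫⁻ x in A, D x ∂μ + c * (K * (μ A + μ B) * ∫⁻ y in W, H y ∂μ)) / μ A) / μ B := by
        gcongr
    _ = _ := by
        rw [ENNReal.div_eq_inv_mul, ENNReal.div_eq_inv_mul, mul_add, mul_add]
        congr 1
        · calc (μ B)⁻¹ * ((μ A)⁻¹ * (μ B * ∫⁻ x in A, D x ∂μ))
              = ((μ B)⁻¹ * μ B) * ((μ A)⁻¹ * ∫⁻ x in A, D x ∂μ) := by ring
            _ = _ := by rw [ENNReal.inv_mul_cancel hB0 hBf, one_mul]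
        · calc (μ B)⁻¹ * ((μ A)⁻¹ * (c * (K * (μ A + μ B) * ∫⁻ y in W, H y ∂μ)))
              = c * (K * (((μ A)⁻¹ * μ A) * (μ B)⁻¹ + ((μ B)⁻¹ * μ B) * (μ A)⁻¹) *
                  ∫⁻ y in W, H y ∂μ) := by ring
            _ = _ := by
              rw [ENNReal.inv_mul_cancel hB0 hBf, ENNReal.inv_mul_cancel hA0 hAf, one_mul, one_mul,
                add_comm (μ B)⁻¹]

/-- **the abstract two-point estimate, general form** -/
theorem two_point_gen [SFinite μ] (hκ : 0 ≤ κ) (hfin : ∀ x r, μ (ball x r) ≠ ∞)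
    (hpos : ∀ (x : X) (r : ℝ), 0 < r → μ (ball x r) ≠ 0) {E : Type*} [NormedAddCommGroup E]
    {U : X → E} {z z' : X} {a Λ Δ : ℝ} (ha : 0 < a) (hΔ : dist z z' + 2 * a ≤ Δ)
    (hΛ : 0 ≤ Λ)
    (hL : ∀ x ∈ ball z a, ‖U x - U z‖ ≤ Λ * dist x z)
    (hL' : ∀ y ∈ ball z' a, ‖U y - U z'‖ ≤ Λ * dist y z') {W : Set X} (hW : MeasurableSet W)
    (hTW : ∀ x ∈ ball z a, ∀ y ∈ ball z' a, (x, y) ∈ C.U → ∀ t ∈ Icc (0 : ℝ) 1, C.T x t y ∈ W)
    {D H : X → ℝ≥0∞} (hD : Measurable D) (hH : Measurable H)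
    (hpt : ∀ x ∈ ball z a, ∀ᵐ y ∂μ, y ∈ ball z' a → (x, y) ∈ C.U →
      ENNReal.ofReal |‖U y - U x‖ - dist x y| ≤ ENNReal.ofReal (dist x y) *
        (D x + ENNReal.ofReal (dist x y) * ∫⁻ t in Icc (0 : ℝ) 1, H (C.T x t y))) :
    ENNReal.ofReal |‖U z' - U z‖ - dist z z'| ≤
      ENNReal.ofReal ((2 * Λ + 2) * a) +
      ENNReal.ofReal Δ * ((μ (ball z a))⁻¹ * ∫⁻ x in ball z a, D x ∂μ +
        ENNReal.ofReal Δ * (ENNReal.ofReal (Real.exp (κ * Δ ^ 2 / 2) * 2 ^ n) *
            ((μ (ball z a))⁻¹ + (μ (ball z' a))⁻¹) * ∫⁻ y in W, H y ∂μ)) := by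
  obtain ⟨x, hx, y, hy, hxy, hU, hle⟩ := exists_pair C hκ hfin hpos ha hΔ hW hTW hD hH
    (P := fun x y => x ∈ ball z a → y ∈ ball z' a → (x, y) ∈ C.U →
      ENNReal.ofReal |‖U y - U x‖ - dist x y| ≤ ENNReal.ofReal (dist x y) *
        (D x + ENNReal.ofReal (dist x y) * ∫⁻ t in Icc (0 : ℝ) 1, H (C.T x t y)))
    (fun x => by
      by_cases hx : x ∈ ball z a
      · filter_upwards [hpt x hx] with y hy _ using hy
      · exact Eventually.of_forall fun y h => absurd h hx)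
  have hxy := hxy hx hy hU
  set d := dist z z' with hd
  have hd0 : 0 ≤ d := dist_nonneg
  -- distances
  have hx1 : dist x z < a := mem_ball.1 hx
  have hy1 : dist y z' < a := mem_ball.1 hy
  have hδ : |dist x y - d| ≤ 2 * a := by
    have h1 := dist_triangle x z y
    have h2 := dist_triangle z z' y
    have h3 := dist_triangle z x z'
    have h4 := dist_triangle x y z'
    rw [dist_comm z' y] at h2
    rw [dist_comm z x] at h3
    rw [abs_le]
    constructor <;> linarith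
  have hδ2 : dist x y ≤ Δ := by
    have := (abs_le.1 hδ).2
    linarith
  have hU1 : |‖U z' - U z‖ - ‖U y - U x‖| ≤ 2 * Λ * a := by
    have h1 := hL x hx
    have h2 := hL' y hy
    have h3 : Λ * dist x z ≤ Λ * a := mul_le_mul_of_nonneg_left hx1.le hΛ
    have h4 : Λ * dist y z' ≤ Λ * a := mul_le_mul_of_nonneg_left hy1.le hΛ
    have h5 : |‖U z' - U z‖ - ‖U y - U x‖| ≤ ‖(U z' - U z) - (U y - U x)‖ :=
      abs_norm_sub_norm_le _ _
    have h6 : (U z' - U z) - (U y - U x) = (U x - U z) - (U y - U z') := by abel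
    rw [h6] at h5
    have h7 := norm_sub_le (U x - U z) (U y - U z')
    linarith
  have htri : |‖U z' - U z‖ - d| ≤ (2 * Λ + 2) * a + |‖U y - U x‖ - dist x y| := by
    have h1 : ‖U z' - U z‖ - d = (‖U z' - U z‖ - ‖U y - U x‖) + (‖U y - U x‖ - dist x y) +
      (dist x y - d) := by ring
    rw [h1]
    refine (abs_add_three _ _ _).trans ?_
    linarith
  refine (ENNReal.ofReal_le_ofReal htri).trans ?_
  rw [ENNReal.ofReal_add (by positivity) (abs_nonneg _)]
  refine add_le_add le_rfl ?_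
  calc ENNReal.ofReal |‖U y - U x‖ - dist x y|
      ≤ ENNReal.ofReal Δ * (D x + ENNReal.ofReal Δ *
          ∫⁻ t in Icc (0 : ℝ) 1, H (C.T x t y)) := by
        refine hxy.trans ?_
        gcongr
    _ ≤ _ := mul_le_mul_right hle _

omit C [BorelSpace X] in
theorem exp_le_three {t : ℝ} (h : t ≤ 1) : Real.exp t ≤ 3 :=
  (Real.exp_le_exp.2 h).trans (Real.exp_one_lt_d9.le.trans (by norm_num))



end Crest.Agent.R249.Two709
end
end

-- ▼ part R249/Two2_709
section

/-!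
R249 (helper709), leaf D3-LIM-G2, file 2: the pointwise estimate along a good pair.

For `u : Fin n → M → ℝ` of class `C²` near the ray from `x` to `y`:
`| ‖u y - u x‖ - dist x y | ≤ dist x y * (|⟨du_a, du_b⟩ - δ_ab|(x) + dist x y * ∫₀¹ Σ_a |Hess u_a|)`.
-/

set_option autoImplicit false
set_option maxSynthPendingDepth 3
set_option linter.unusedSectionVars false

open Bundle Set Filter Topology Metric MeasureTheory
open scoped Manifold ContDiff NNReal ENNReal
open Crest.GeometryTopology.CoordMetric Crest.GeometryTopology.ChartCurvature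
open Crest.GeometryTopology.MTW Crest.Agent.R244 Crest.Agent.R226
open Crest.Agent.R226.CutSmooth77 (SC)
open Crest.Agent.R247.Bo84 (mGam mHess mgrad mGam_eq_inner mGam_self mHess_smul_left
  mHess_smul_right mHessSq mHessSq_nonneg abs_mHess_le)
open Crest.Agent.R247.Sm879 Crest.Agent.R247.Mcp688
open Crest.Agent.R247.Ms322 Crest.Agent.R247.Ray97
open Crest.Agent.R247.Ib939 (inner_Gr_mGam)

noncomputable section

namespace Crest.Agent.R249.Two709

section alg

/-- if the Gram matrix of `n` vectors of `ℝⁿ` is close to the identity then the map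
`w ↦ (⟨g_a, w⟩)_a` is close to an isometry. -/
theorem gram_close {n : ℕ} (g : Fin n → EuclideanSpace ℝ (Fin n)) (w : EuclideanSpace ℝ (Fin n)) :
    |∑ a, (inner ℝ (g a) w) ^ 2 - ‖w‖ ^ 2| ≤
      Real.sqrt (∑ a, ∑ b, (inner ℝ (g a) (g b) - if a = b then (1 : ℝ) else 0) ^ 2) *
        ‖w‖ ^ 2 := by
  set A : Matrix (Fin n) (Fin n) ℝ := Matrix.of fun a i => g a i with hA
  set X := A * A.transpose - 1 with hX
  set Y := A.transpose * A - 1 with hY
  have hin : ∀ a b, inner ℝ (g a) (g b) = (A * A.transpose) a b := by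
    intro a b
    rw [PiLp.inner_apply, Matrix.mul_apply]
    refine Finset.sum_congr rfl fun i _ => ?_
    simp [hA, mul_comm]
  have hXe : ∑ a, ∑ b, (inner ℝ (g a) (g b) - if a = b then (1 : ℝ) else 0) ^ 2 =
      (X.transpose * X).trace := by
    rw [Matrix.trace, Finset.sum_comm]
    refine Finset.sum_congr rfl fun b _ => ?_
    rw [Matrix.diag_apply, Matrix.mul_apply]
    refine Finset.sum_congr rfl fun a _ => ?_
    rw [Matrix.transpose_apply, hX, Matrix.sub_apply, Matrix.one_apply, hin, sq]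
  have hYe : ∑ i, ∑ j, (Y i j) ^ 2 = (Y.transpose * Y).trace := by
    rw [Matrix.trace, Finset.sum_comm]
    refine Finset.sum_congr rfl fun b _ => ?_
    rw [Matrix.diag_apply, Matrix.mul_apply]
    refine Finset.sum_congr rfl fun a _ => ?_
    rw [Matrix.transpose_apply, sq]
  have htr : (X.transpose * X).trace = (Y.transpose * Y).trace := by
    have h1 : X.transpose * X = A * A.transpose * (A * A.transpose) - 2 • (A * A.transpose) + 1 := by
      rw [hX, Matrix.transpose_sub, Matrix.transpose_mul, Matrix.transpose_transpose,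
        Matrix.transpose_one]
      noncomm_ring
    have h2 : Y.transpose * Y = A.transpose * A * (A.transpose * A) - 2 • (A.transpose * A) + 1 := by
      rw [hY, Matrix.transpose_sub, Matrix.transpose_mul, Matrix.transpose_transpose,
        Matrix.transpose_one]
      noncomm_ring
    rw [h1, h2, Matrix.trace_add, Matrix.trace_add, Matrix.trace_sub, Matrix.trace_sub,
      Matrix.trace_smul, Matrix.trace_smul, Matrix.trace_mul_comm A.transpose A]
    congr 2
    rw [Matrix.mul_assoc, Matrix.trace_mul_comm]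
    simp only [Matrix.mul_assoc]
  have hq : ∑ a, (inner ℝ (g a) w) ^ 2 - ‖w‖ ^ 2 = ∑ i, ∑ j, Y i j * (w i * w j) := by
    have e1 : ∀ a, inner ℝ (g a) w = ∑ i, A a i * w i := by
      intro a
      rw [PiLp.inner_apply]
      refine Finset.sum_congr rfl fun i _ => ?_
      simp [hA, mul_comm]
    have e2 : ∑ a, (inner ℝ (g a) w) ^ 2 = ∑ i, ∑ j, (A.transpose * A) i j * (w i * w j) := by
      have e4 : ∀ a, (inner ℝ (g a) w) ^ 2 = ∑ i, ∑ j, A a i * A a j * (w i * w j) := by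
        intro a
        rw [e1, sq, Finset.sum_mul_sum]
        refine Finset.sum_congr rfl fun i _ => Finset.sum_congr rfl fun j _ => ?_
        ring
      simp only [e4, Matrix.mul_apply, Matrix.transpose_apply, Finset.sum_mul]
      rw [Finset.sum_comm]
      refine Finset.sum_congr rfl fun i _ => ?_
      rw [Finset.sum_comm]
    have e3 : ‖w‖ ^ 2 = ∑ i, ∑ j, (1 : Matrix (Fin n) (Fin n) ℝ) i j * (w i * w j) := by
      rw [EuclideanSpace.norm_sq_eq]
      refine Finset.sum_congr rfl fun i _ => ?_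
      rw [Finset.sum_eq_single i]
      · rw [Matrix.one_apply_eq, one_mul, Real.norm_eq_abs, sq_abs, sq]
      · intro j _ hj
        rw [Matrix.one_apply_ne (Ne.symm hj), zero_mul]
      · intro h
        exact absurd (Finset.mem_univ i) h
    rw [e2, e3, ← Finset.sum_sub_distrib]
    refine Finset.sum_congr rfl fun i _ => ?_
    rw [← Finset.sum_sub_distrib]
    refine Finset.sum_congr rfl fun j _ => ?_
    rw [hY, Matrix.sub_apply]
    ring
  rw [hXe, htr, ← hYe, hq]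
  -- Cauchy–Schwarz
  have hcs := Finset.sum_mul_sq_le_sq_mul_sq (Finset.univ : Finset (Fin n × Fin n))
    (fun p => Y p.1 p.2) (fun p => w p.1 * w p.2)
  rw [Fintype.sum_prod_type, Fintype.sum_prod_type, Fintype.sum_prod_type] at hcs
  have hw4 : ∑ i, ∑ j, (w i * w j) ^ 2 = (‖w‖ ^ 2) ^ 2 := by
    rw [EuclideanSpace.norm_sq_eq, sq (∑ i, ‖w i‖ ^ 2), Finset.sum_mul_sum]
    refine Finset.sum_congr rfl fun i _ => Finset.sum_congr rfl fun j _ => ?_
    rw [Real.norm_eq_abs, Real.norm_eq_abs, sq_abs, sq_abs, mul_pow]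
  simp only at hcs
  rw [hw4] at hcs
  have hS : 0 ≤ ∑ i, ∑ j, (Y i j) ^ 2 :=
    Finset.sum_nonneg fun i _ => Finset.sum_nonneg fun j _ => sq_nonneg _
  have h5 := Real.abs_le_sqrt hcs
  rw [Real.sqrt_mul hS, Real.sqrt_sq (sq_nonneg _)] at h5
  exact h5

end alg

section mfd

variable {n : ℕ} {M : Type*} [MetricSpace M] [ChartedSpace (EuclideanSpace ℝ (Fin n)) M]
  [IsManifold (𝓡 n) ∞ M]
  [RiemannianBundle (fun p : M => TangentSpace (𝓡 n) p)]
  [IsContMDiffRiemannianBundle (𝓡 n) ∞ (EuclideanSpace ℝ (Fin n)) (fun p : M => TangentSpace (𝓡 n) p)]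
  [IsRiemannianManifold (𝓡 n) M] [ProperSpace M]

local notation "𝔼" => EuclideanSpace ℝ (Fin n)

/-- second order Taylor inequality without the metric term. -/
theorem isRay_taylor0 {x : M} {γ : ℝ → M} {ℓ : ℝ} (hm : ExM M) (h : IsRay x γ ℓ 1)
    (hSC : SC n (γ 1) x) {w : M → ℝ}
    (hw : ∀ t ∈ Icc (0 : ℝ) 1, ContMDiffAt (𝓡 n) 𝓘(ℝ, ℝ) 2 w (γ t)) {K : M → ℝ≥0∞}
    (hK : ∀ t ∈ Ioo (0 : ℝ) 1, ∀ ξ : TangentSpace (𝓡 n) (γ t),
      ENNReal.ofReal |mHess n w (γ t) ξ ξ| ≤ K (γ t) * ENNReal.ofReal (‖ξ‖ ^ 2)) :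
    ENNReal.ofReal |mGam n w (halfDistSq (γ 1)) x - w x + w (γ 1)| ≤
      ENNReal.ofReal (ℓ ^ 2) * ∫⁻ t in Icc (0 : ℝ) 1, K (γ t) := by
  have hwd : ∀ t ∈ Icc (0 : ℝ) 1, MDifferentiableAt (𝓡 n) 𝓘(ℝ, ℝ) w (γ t) := fun t ht =>
    (hw t ht).mdifferentiableAt (by norm_num)
  have hcont : ContinuousOn (fun t => w (γ t)) (Icc 0 1) := fun t ht =>
    ((hw t ht).continuousAt.comp_continuousWithinAt (h.continuousOn t ht))
  have h1 := taylor_1d (φ := fun t => w (γ t))
    (φ' := fun t => t⁻¹ * mGam n w (halfDistSq x) (γ t))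
    (φ'' := fun t => t⁻¹ ^ 2 * mHess n w (γ t) (mgrad n (halfDistSq x) (γ t))
      (mgrad n (halfDistSq x) (γ t)))
    (d0 := -((1 : ℝ)⁻¹ * mGam n w (halfDistSq (γ 1)) x)) (c := 0)
    (K := fun t => K (γ t) * ENNReal.ofReal (ℓ ^ 2)) hcont
    (fun t ht => h.hasDerivAt_comp hm ht (hwd t (Ioo_subset_Icc_self ht)))
    (fun t ht => h.hasDerivAt_mGam hm ht (hw t (Ioo_subset_Icc_self ht)))
    (h.tendsto_deriv hm hSC (by
      have := hw 0 (by simp)
      rwa [h.zero] at this))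
    (fun t ht => by
      have h2 := h.norm_vel (n := n) hm ht
      have h3 := hK t ht (t⁻¹ • mgrad n (halfDistSq x) (γ t))
      have hwt := hw t (Ioo_subset_Icc_self ht)
      rw [mHess_smul_left, mHess_smul_right, h2, ← mul_assoc, ← sq] at h3
      rw [sub_zero]
      exact h3)
  have h0 : γ 0 = x := h.zero
  have e : w (γ 1) - w (γ 0) - -((1 : ℝ)⁻¹ * mGam n w (halfDistSq (γ 1)) x) - 0 / 2 =
      mGam n w (halfDistSq (γ 1)) x - w x + w (γ 1) := by
    rw [h0, inv_one]; ring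
  rw [e] at h1
  refine h1.trans ?_
  rw [← lintegral_const_mul' _ _ ENNReal.ofReal_ne_top]
  refine lintegral_mono_ae ?_
  filter_upwards [ae_restrict_mem measurableSet_Icc] with t ht
  calc ENNReal.ofReal (1 - t) * (K (γ t) * ENNReal.ofReal (ℓ ^ 2))
      ≤ 1 * (K (γ t) * ENNReal.ofReal (ℓ ^ 2)) := by
        gcongr
        exact ENNReal.ofReal_le_one.2 (by linarith [ht.1])
    _ = _ := by rw [one_mul, mul_comm]

variable [Nonempty M]

theorem norm_Gr_half (hm : ExM M) {x p : M} (h : SC n x p) :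
    ‖Gr (n := n) (halfDistSq x) p‖ = dist x p := by
  have h1 := norm_mgrad_halfDistSq (n := n) hm h
  have h2 : ‖Gr (n := n) (halfDistSq x) p‖ ^ 2 = ‖mgrad n (halfDistSq x) p‖ ^ 2 := by
    rw [← real_inner_self_eq_norm_sq, inner_Gr_mGam, mGam_self]
  rw [← h1]
  exact (pow_left_inj₀ (norm_nonneg _) (norm_nonneg _) (by norm_num)).1 h2

variable [MeasurableSpace M] [BorelSpace M] {κ' : ℝ} {μ : Measure M}

/-- **pointwise Taylor inequality** along a good pair -/
theorem taylor0_pt (hm : ExM M) (C : Rad n κ' M μ) {w : M → ℝ} {x y : M} (hU : (x, y) ∈ C.U)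
    (hSC : SC n y x)
    (hw : ∀ t ∈ Icc (0 : ℝ) 1, ContMDiffAt (𝓡 n) 𝓘(ℝ, ℝ) 2 w (C.T x t y)) :
    ENNReal.ofReal |inner ℝ (Gr (n := n) w x) (Gr (n := n) (halfDistSq y) x) - w x + w y| ≤
      ENNReal.ofReal (dist x y ^ 2) *
        ∫⁻ t in Icc (0 : ℝ) 1, ENNReal.ofReal (Real.sqrt (mHessSq n w (C.T x t y))) := by
  rcases eq_or_ne x y with rfl | huv
  · have h1 := norm_Gr_half (n := n) hm hSC
    rw [dist_self, norm_eq_zero] at h1
    rw [h1, inner_zero_right]
    simp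
  · have h := isRay_of_U C hU huv
    have h1 : C.T x 1 y = y := C.T_one x y hU
    have key := isRay_taylor0 (n := n) hm h (by simpa only [h1] using hSC) (w := w) hw
      (K := fun z => ENNReal.ofReal (Real.sqrt (mHessSq n w z))) (fun t ht ξ => by
        rw [← ENNReal.ofReal_mul (Real.sqrt_nonneg _)]
        refine ENNReal.ofReal_le_ofReal ?_
        have h2 := Crest.Agent.R247.Bo84.abs_mHess_le (hw t (Ioo_subset_Icc_self ht)) ξ ξ
        rwa [mul_assoc, ← sq] at h2)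
    simp only [h1] at key
    rw [inner_Gr_mGam]
    exact key

/-- the map with components `u a`. -/
def uv (u : Fin n → M → ℝ) (x : M) : 𝔼 := WithLp.toLp 2 fun a => u a x

omit [ChartedSpace (EuclideanSpace ℝ (Fin n)) M] [IsManifold (𝓡 n) ∞ M]
  [RiemannianBundle (fun p : M => TangentSpace (𝓡 n) p)]
  [IsContMDiffRiemannianBundle (𝓡 n) ∞ (EuclideanSpace ℝ (Fin n)) (fun p : M => TangentSpace (𝓡 n) p)]
  [IsRiemannianManifold (𝓡 n) M] [ProperSpace M] [MeasurableSpace M] [BorelSpace M] [Nonempty M]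
  [MetricSpace M] in
theorem sum_lintegral_le {α ι : Type*} [MeasurableSpace α] {ν : Measure α} (s : Finset ι)
    (f : ι → α → ℝ≥0∞) : ∑ i ∈ s, ∫⁻ x, f i x ∂ν ≤ ∫⁻ x, ∑ i ∈ s, f i x ∂ν := by
  classical
  induction s using Finset.induction_on with
  | empty => simp
  | insert i s hi ih =>
    simp only [Finset.sum_insert hi]
    exact (add_le_add le_rfl ih).trans (le_lintegral_add _ _)

/-- norm of a vector with small components -/
theorem norm_le_sum_abs (e : 𝔼) : ‖e‖ ≤ ∑ a, |e a| := by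
  rw [EuclideanSpace.norm_eq]
  apply Real.sqrt_le_iff.2
  refine ⟨Finset.sum_nonneg fun a _ => abs_nonneg _, ?_⟩
  have h := Finset.sum_sq_le_sq_sum_of_nonneg (s := (Finset.univ : Finset (Fin n)))
    (f := fun a => |e a|) (fun a _ => abs_nonneg _)
  simpa only [Real.norm_eq_abs] using h


end mfd

end Crest.Agent.R249.Two709
end
end

-- ▼ part R249/Two3_709
section

/-!
R249 (helper709), leaf D3-LIM-G2 / L-NI, file 3: the two-point estimate on manifolds.
-/

set_option autoImplicit false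
set_option maxSynthPendingDepth 3
set_option linter.unusedSectionVars false

open Bundle Set Filter Topology Metric MeasureTheory
open scoped Manifold ContDiff NNReal ENNReal
open Crest.GeometryTopology.CoordMetric Crest.GeometryTopology.ChartCurvature
  Crest.GeometryTopology.PointedLimit
open Crest.GeometryTopology.MTW Crest.Agent.R244 Crest.Agent.R226
open Crest.Agent.R226.CutSmooth77 (SC)
open Crest.Agent.R247.Bo84 (mGam mHess mgrad mGam_eq_inner mGam_self mHessSq mHessSq_nonneg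
  contMDiffAt_mGam)
open Crest.Agent.R247.Sm879 Crest.Agent.R247.Mcp688 Crest.Agent.R247.Rdg879
open Crest.Agent.R247.Ms322 Crest.Agent.R247.Ray97
open Crest.Agent.R247.Ib939 (inner_Gr_mGam)
open Crest.Agent.R247

noncomputable section

namespace Crest.Agent.R249.Two709

section mfd

variable {n : ℕ} {M : Type*} [MetricSpace M] [ChartedSpace (EuclideanSpace ℝ (Fin n)) M]
  [IsManifold (𝓡 n) ∞ M]
  [RiemannianBundle (fun p : M => TangentSpace (𝓡 n) p)]
  [IsContMDiffRiemannianBundle (𝓡 n) ∞ (EuclideanSpace ℝ (Fin n)) (fun p : M => TangentSpace (𝓡 n) p)]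
  [IsRiemannianManifold (𝓡 n) M] [ProperSpace M]

local notation "𝔼" => EuclideanSpace ℝ (Fin n)

/-- the map with components `∑ b, B a b * u b`. -/
def bv (B : Matrix (Fin n) (Fin n) ℝ) (u : Fin n → M → ℝ) (x : M) : 𝔼 :=
  WithLp.toLp 2 fun a => ∑ b, B a b * u b x

/-- the sum of the absolute values of the entries. -/
def nB (B : Matrix (Fin n) (Fin n) ℝ) : ℝ := ∑ a, ∑ b, |B a b|

theorem nB_nonneg (B : Matrix (Fin n) (Fin n) ℝ) : 0 ≤ nB B :=
  Finset.sum_nonneg fun a _ => Finset.sum_nonneg fun b _ => abs_nonneg _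

theorem norm_mul_le (B : Matrix (Fin n) (Fin n) ℝ) (e : Fin n → ℝ) :
    ‖(WithLp.toLp 2 fun a => ∑ b, B a b * e b : 𝔼)‖ ≤ nB B * ∑ b, |e b| := by
  refine (norm_le_sum_abs _).trans ?_
  have h1 : ∀ a, |∑ b, B a b * e b| ≤ (∑ b, |B a b|) * ∑ b, |e b| := by
    intro a
    calc |∑ b, B a b * e b| ≤ ∑ b, |B a b * e b| := Finset.abs_sum_le_sum_abs _ _
      _ = ∑ b, |B a b| * |e b| := by simp only [abs_mul]
      _ ≤ ∑ b, |B a b| * ∑ c, |e c| := by
          refine Finset.sum_le_sum fun b _ => ?_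
          refine mul_le_mul_of_nonneg_left ?_ (abs_nonneg _)
          exact Finset.single_le_sum (f := fun c => |e c|) (fun c _ => abs_nonneg _)
            (Finset.mem_univ b)
      _ = _ := by rw [Finset.sum_mul]
  calc ∑ a, |∑ b, B a b * e b| ≤ ∑ a, (∑ b, |B a b|) * ∑ b, |e b| :=
        Finset.sum_le_sum fun a _ => h1 a
    _ = nB B * ∑ b, |e b| := by rw [nB, Finset.sum_mul]

/-- the Gram deviation of the transformed functions. -/
theorem gram_dev_le {B A F : Matrix (Fin n) (Fin n) ℝ} (hBA : B * A * B.transpose = 1) :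
    Real.sqrt (∑ a, ∑ b, ((B * F * B.transpose) a b - if a = b then (1 : ℝ) else 0) ^ 2) ≤
      nB B ^ 2 * ∑ c, ∑ d, |F c d - A c d| := by
  have h1 : ∀ a b, (B * F * B.transpose) a b - (if a = b then (1 : ℝ) else 0) =
      ∑ c, ∑ d, B a c * B b d * (F c d - A c d) := by
    intro a b
    have h2 : (if a = b then (1 : ℝ) else 0) = (1 : Matrix (Fin n) (Fin n) ℝ) a b := by
      rw [Matrix.one_apply]
    rw [h2, ← hBA, ← Matrix.sub_apply, ← Matrix.sub_mul, ← Matrix.mul_sub, Matrix.mul_apply]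
    simp only [Matrix.mul_apply, Matrix.transpose_apply, Finset.sum_mul, Matrix.sub_apply]
    rw [Finset.sum_comm]
    refine Finset.sum_congr rfl fun c _ => Finset.sum_congr rfl fun d _ => ?_
    ring
  have h3 : ∀ a b, |(B * F * B.transpose) a b - if a = b then (1 : ℝ) else 0| ≤
      (∑ c, |B a c|) * (∑ d, |B b d|) * ∑ c, ∑ d, |F c d - A c d| := by
    intro a b
    rw [h1]
    calc |∑ c, ∑ d, B a c * B b d * (F c d - A c d)|
        ≤ ∑ c, ∑ d, |B a c| * |B b d| * |F c d - A c d| := by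
          refine (Finset.abs_sum_le_sum_abs _ _).trans (Finset.sum_le_sum fun c _ => ?_)
          refine (Finset.abs_sum_le_sum_abs _ _).trans (Finset.sum_le_sum fun d _ => ?_)
          rw [abs_mul, abs_mul]
      _ ≤ ∑ c, ∑ d, |B a c| * |B b d| * ∑ c, ∑ d, |F c d - A c d| := by
          refine Finset.sum_le_sum fun c _ => Finset.sum_le_sum fun d _ => ?_
          refine mul_le_mul_of_nonneg_left ?_ (by positivity)
          calc |F c d - A c d| ≤ ∑ d, |F c d - A c d| :=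
                Finset.single_le_sum (f := fun d => |F c d - A c d|) (fun d _ => abs_nonneg _)
                  (Finset.mem_univ d)
            _ ≤ ∑ c, ∑ d, |F c d - A c d| :=
                Finset.single_le_sum (f := fun c => ∑ d, |F c d - A c d|)
                  (fun c _ => Finset.sum_nonneg fun d _ => abs_nonneg _) (Finset.mem_univ c)
      _ = _ := by
          rw [Finset.sum_mul_sum, Finset.sum_mul]
          refine Finset.sum_congr rfl fun c _ => ?_
          rw [Finset.sum_mul]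
  apply Real.sqrt_le_iff.2
  have hS : 0 ≤ ∑ c, ∑ d, |F c d - A c d| :=
    Finset.sum_nonneg fun a _ => Finset.sum_nonneg fun b _ => abs_nonneg _
  refine ⟨mul_nonneg (sq_nonneg _) hS, ?_⟩
  set S := ∑ c, ∑ d, |F c d - A c d| with hSdef
  set x : Fin n → ℝ := fun a => ∑ c, |B a c| with hx
  have hx0 : ∀ a, 0 ≤ x a := fun a => Finset.sum_nonneg fun c _ => abs_nonneg _
  have hnB : nB B = ∑ a, x a := rfl
  calc ∑ a, ∑ b, ((B * F * B.transpose) a b - if a = b then (1 : ℝ) else 0) ^ 2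
      ≤ ∑ a, ∑ b, (x a * x b * S) ^ 2 := by
        refine Finset.sum_le_sum fun a _ => Finset.sum_le_sum fun b _ => ?_
        rw [← sq_abs]
        exact pow_le_pow_left₀ (abs_nonneg _) (h3 a b) 2
    _ = (∑ a, x a ^ 2) * (∑ b, x b ^ 2) * S ^ 2 := by
        rw [Finset.sum_mul_sum, Finset.sum_mul]
        refine Finset.sum_congr rfl fun a _ => ?_
        rw [Finset.sum_mul]
        refine Finset.sum_congr rfl fun b _ => ?_
        ring
    _ ≤ (∑ a, x a) ^ 2 * (∑ b, x b) ^ 2 * S ^ 2 := by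
        have := Finset.sum_sq_le_sq_sum_of_nonneg (s := (Finset.univ : Finset (Fin n))) (f := x)
          (fun a _ => hx0 a)
        gcongr
    _ = (nB B ^ 2 * S) ^ 2 := by rw [hnB]; ring

variable [MeasurableSpace M] [BorelSpace M] {κ' : ℝ} {μ : Measure M} [Nonempty M]

/-- **the pointwise two-point estimate along a good pair, general constant matrix** -/
theorem pt_pair_B (hm : ExM M) (C : Rad n κ' M μ) {A B : Matrix (Fin n) (Fin n) ℝ}
    (hBA : B * A * B.transpose = 1) {u : Fin n → M → ℝ} {W : Set M} {D H : M → ℝ≥0∞}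
    (hu : ∀ a, ∀ x ∈ W, ContMDiffAt (𝓡 n) 𝓘(ℝ, ℝ) 2 (u a) x)
    (hD : ∀ x ∈ W, ENNReal.ofReal (nB B ^ 2 * ∑ a, ∑ b, |mGam n (u a) (u b) x - A a b|) ≤ D x)
    (hH : ∀ x ∈ W, ENNReal.ofReal (nB B * ∑ a, Real.sqrt (mHessSq n (u a) x)) ≤ H x)
    {x y : M} (hU : (x, y) ∈ C.U) (hT : ∀ t ∈ Icc (0 : ℝ) 1, C.T x t y ∈ W) (hSC : SC n y x) :
    ENNReal.ofReal |‖bv B u y - bv B u x‖ - dist x y| ≤
      ENNReal.ofReal (dist x y) *
        (D x + ENNReal.ofReal (dist x y) * ∫⁻ t in Icc (0 : ℝ) 1, H (C.T x t y)) := by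
  have hxW : x ∈ W := by
    have := hT 0 ⟨le_rfl, zero_le_one⟩
    rwa [C.T_zero x y hU] at this
  set δ := dist x y with hδ
  have hδ0 : 0 ≤ δ := dist_nonneg
  set w : 𝔼 := Gr (n := n) (halfDistSq y) x with hw
  have hwn : ‖w‖ = δ := by rw [hw, norm_Gr_half hm hSC, dist_comm]
  set g : Fin n → 𝔼 := fun a => ∑ b, B a b • Gr (n := n) (u b) x with hg
  set L : 𝔼 := WithLp.toLp 2 fun a => inner ℝ (g a) w with hL
  set e : Fin n → ℝ := fun b => inner ℝ (Gr (n := n) (u b) x) w - u b x + u b y with he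
  set Be : 𝔼 := WithLp.toLp 2 fun a => ∑ b, B a b * e b with hBe
  have hgw : ∀ a, inner ℝ (g a) w = ∑ b, B a b * inner ℝ (Gr (n := n) (u b) x) w := by
    intro a
    rw [hg, sum_inner]
    refine Finset.sum_congr rfl fun b _ => ?_
    rw [inner_smul_left]
    simp
  have hee : bv B u y - bv B u x = Be - L := by
    ext a
    simp only [bv, hBe, hL, he, PiLp.sub_apply, hgw]
    rw [← Finset.sum_sub_distrib, ← Finset.sum_sub_distrib]
    refine Finset.sum_congr rfl fun b _ => ?_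
    ring
  -- the Hessian term
  have heb : ENNReal.ofReal ‖Be‖ ≤ ENNReal.ofReal (δ ^ 2) *
      ∫⁻ t in Icc (0 : ℝ) 1, H (C.T x t y) := by
    calc ENNReal.ofReal ‖Be‖ ≤ ENNReal.ofReal (nB B * ∑ b, |e b|) :=
          ENNReal.ofReal_le_ofReal (norm_mul_le B e)
      _ = ENNReal.ofReal (nB B) * ∑ a, ENNReal.ofReal |e a| := by
          rw [ENNReal.ofReal_mul (nB_nonneg B), ENNReal.ofReal_sum_of_nonneg fun a _ => abs_nonneg _]
      _ ≤ ENNReal.ofReal (nB B) * ∑ a, ENNReal.ofReal (δ ^ 2) *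
          ∫⁻ t in Icc (0 : ℝ) 1, ENNReal.ofReal (Real.sqrt (mHessSq n (u a) (C.T x t y))) :=
          mul_le_mul_right (Finset.sum_le_sum fun a _ =>
            taylor0_pt hm C hU hSC fun t ht => hu a _ (hT t ht)) _
      _ = ENNReal.ofReal (δ ^ 2) * (ENNReal.ofReal (nB B) * ∑ a,
          ∫⁻ t in Icc (0 : ℝ) 1, ENNReal.ofReal (Real.sqrt (mHessSq n (u a) (C.T x t y)))) := by
          rw [← Finset.mul_sum]; ring
      _ ≤ _ := by
          refine mul_le_mul_right ?_ _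
          calc ENNReal.ofReal (nB B) * ∑ a,
              ∫⁻ t in Icc (0 : ℝ) 1, ENNReal.ofReal (Real.sqrt (mHessSq n (u a) (C.T x t y)))
              ≤ ENNReal.ofReal (nB B) * ∫⁻ t in Icc (0 : ℝ) 1,
                ∑ a, ENNReal.ofReal (Real.sqrt (mHessSq n (u a) (C.T x t y))) :=
                mul_le_mul_right (sum_lintegral_le _ _) _
            _ = ∫⁻ t in Icc (0 : ℝ) 1, ENNReal.ofReal (nB B) *
                ∑ a, ENNReal.ofReal (Real.sqrt (mHessSq n (u a) (C.T x t y))) := by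
                rw [lintegral_const_mul' _ _ ENNReal.ofReal_ne_top]
            _ ≤ _ := by
                refine lintegral_mono_ae ?_
                filter_upwards [ae_restrict_mem measurableSet_Icc] with t ht
                refine le_trans (le_of_eq ?_) (hH _ (hT t ht))
                rw [ENNReal.ofReal_mul (nB_nonneg B),
                  ENNReal.ofReal_sum_of_nonneg fun a _ => Real.sqrt_nonneg _]
  -- the Gram term
  set S := nB B ^ 2 * ∑ a, ∑ b, |mGam n (u a) (u b) x - A a b| with hS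
  have hS0 : 0 ≤ S := mul_nonneg (sq_nonneg _)
    (Finset.sum_nonneg fun a _ => Finset.sum_nonneg fun b _ => abs_nonneg _)
  have hgram : |‖L‖ ^ 2 - δ ^ 2| ≤ S * δ ^ 2 := by
    have h1 := gram_close g w
    have h2 : ∑ a, (inner ℝ (g a) w) ^ 2 = ‖L‖ ^ 2 := by
      rw [EuclideanSpace.norm_sq_eq]
      refine Finset.sum_congr rfl fun a _ => ?_
      rw [Real.norm_eq_abs, sq_abs]
    rw [h2, hwn] at h1
    refine h1.trans (mul_le_mul_of_nonneg_right ?_ (sq_nonneg _))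
    set F : Matrix (Fin n) (Fin n) ℝ := Matrix.of fun a b => mGam n (u a) (u b) x with hF
    have h3 : ∀ a b, inner ℝ (g a) (g b) = (B * F * B.transpose) a b := by
      intro a b
      rw [hg, Matrix.mul_apply]
      simp only [Matrix.mul_apply, Matrix.transpose_apply]
      rw [sum_inner]
      simp only [inner_sum, inner_smul_left, inner_smul_right, inner_Gr_mGam, Finset.sum_mul]
      rw [Finset.sum_comm]
      refine Finset.sum_congr rfl fun c _ => Finset.sum_congr rfl fun d _ => ?_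
      simp [hF]
      ring
    simp only [h3]
    exact gram_dev_le hBA
  have hLb : |‖L‖ - δ| ≤ S * δ := by
    rcases hδ0.eq_or_lt with h0 | h0
    · rw [← h0] at hgram ⊢
      have h3 : ‖L‖ ^ 2 = 0 := by
        have : |‖L‖ ^ 2 - 0 ^ 2| ≤ 0 := by simpa using hgram
        have := abs_nonpos_iff.1 this
        linarith
      have h4 : ‖L‖ = 0 := (pow_eq_zero_iff (two_ne_zero)).1 h3
      rw [h4]
      simp
    · have h3 : |‖L‖ ^ 2 - δ ^ 2| = |‖L‖ - δ| * (‖L‖ + δ) := by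
        rw [sq_sub_sq, abs_mul, abs_of_nonneg (by positivity : (0:ℝ) ≤ ‖L‖ + δ), mul_comm]
      rw [h3] at hgram
      have h4 : |‖L‖ - δ| * δ ≤ (S * δ) * δ := by
        calc |‖L‖ - δ| * δ ≤ |‖L‖ - δ| * (‖L‖ + δ) := by
              apply mul_le_mul_of_nonneg_left _ (abs_nonneg _)
              linarith [norm_nonneg L]
          _ ≤ _ := by linarith
      exact le_of_mul_le_mul_right h4 h0
  have hfin : |‖bv B u y - bv B u x‖ - δ| ≤ ‖Be‖ + S * δ := by
    rw [hee]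
    have h1 : |‖Be - L‖ - ‖L‖| ≤ ‖Be‖ := by
      rw [norm_sub_rev Be L]
      have h2 := abs_norm_sub_norm_le (L - Be) L
      have h3 : L - Be - L = -Be := by abel
      rwa [h3, norm_neg] at h2
    have h2 : ‖Be - L‖ - δ = (‖Be - L‖ - ‖L‖) + (‖L‖ - δ) := by ring
    rw [h2]
    exact (abs_add_le _ _).trans (add_le_add h1 hLb)
  refine (ENNReal.ofReal_le_ofReal hfin).trans ?_
  rw [ENNReal.ofReal_add (norm_nonneg _) (by positivity), mul_add, add_comm]
  refine add_le_add ?_ ?_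
  · rw [ENNReal.ofReal_mul hS0, mul_comm]
    exact mul_le_mul_right (hD x hxW) _
  · rw [← mul_assoc, ← ENNReal.ofReal_mul hδ0, ← sq]
    exact heb

end mfd

end Crest.Agent.R249.Two709
end
end

-- ▼ part R249/Two4_709
section

/-!
R249 (helper709), leaf D3-LIM-G2 / L-NI, file 4: the two-point estimate on manifolds.

* `lip_of_grad`: Lipschitz bound from a gradient bound on a ball;
* `two_M`: general form; `two_point_M`: the form with `W = ball z (4 d)`.
-/

set_option autoImplicit false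
set_option maxSynthPendingDepth 3
set_option linter.unusedSectionVars false

open Bundle Set Filter Topology Metric MeasureTheory
open scoped Manifold ContDiff NNReal ENNReal
open Crest.GeometryTopology.CoordMetric Crest.GeometryTopology.ChartCurvature
  Crest.GeometryTopology.PointedLimit
open Crest.GeometryTopology.MTW Crest.Agent.R244 Crest.Agent.R226
open Crest.Agent.R226.CutSmooth77 (SC)
open Crest.Agent.R247.Bo84 (mGam mHess mgrad mGam_eq_inner mGam_self mHessSq mHessSq_nonneg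
  contMDiffAt_mGam)
open Crest.Agent.R247.Sm879 Crest.Agent.R247.Mcp688 Crest.Agent.R247.Rdg879
open Crest.Agent.R247.Ms322 Crest.Agent.R247.Ray97
open Crest.Agent.R247.Ib939 (inner_Gr_mGam)
open Crest.Agent.R247

noncomputable section

namespace Crest.Agent.R249.Two709

theorem measurable_ind {X : Type*} [TopologicalSpace X] [MeasurableSpace X] [OpensMeasurableSpace X]
    {W : Set X} (hW : IsOpen W) {f : X → ℝ} (hf : ContinuousOn f W) :
    Measurable (W.indicator fun x => ENNReal.ofReal (f x)) := by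
  classical
  have h1 : Measurable (W.indicator f) := by
    have h2 := hf.measurable_piecewise (g := fun _ => (0:ℝ)) (s := W) continuousOn_const
      hW.measurableSet
    have h3 : W.piecewise f (fun _ => (0:ℝ)) = W.indicator f := by
      ext x
      by_cases hx : x ∈ W
      · rw [piecewise_eq_of_mem _ _ _ hx, indicator_of_mem hx]
      · rw [piecewise_eq_of_notMem _ _ _ hx, indicator_of_notMem hx]
    rwa [h3] at h2
  have h4 : (W.indicator fun x => ENNReal.ofReal (f x)) =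
      fun x => ENNReal.ofReal (W.indicator f x) := by
    ext x
    by_cases hx : x ∈ W
    · rw [indicator_of_mem hx, indicator_of_mem hx]
    · rw [indicator_of_notMem hx, indicator_of_notMem hx, ENNReal.ofReal_zero]
  rw [h4]
  exact ENNReal.measurable_ofReal.comp h1

section mfd

variable {n : ℕ} {M : Type*} [MetricSpace M] [ChartedSpace (EuclideanSpace ℝ (Fin n)) M]
  [IsManifold (𝓡 n) ∞ M]
  [RiemannianBundle (fun p : M => TangentSpace (𝓡 n) p)]
  [IsContMDiffRiemannianBundle (𝓡 n) ∞ (EuclideanSpace ℝ (Fin n)) (fun p : M => TangentSpace (𝓡 n) p)]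
  [IsRiemannianManifold (𝓡 n) M] [ProperSpace M]
  [MeasurableSpace M] [BorelSpace M] {κ : ℝ} {μ : Measure M} [Nonempty M]

local notation "𝔼" => EuclideanSpace ℝ (Fin n)

/-- gradient bound on a ball gives a Lipschitz bound with respect to the centre. -/
theorem lip_of_grad [μ.IsOpenPosMeasure] (hm : ExM M) (C : Rad n κ M μ) {w : M → ℝ} {p : M}
    {r Λ : ℝ} (hw : ∀ x ∈ ball p r, MDifferentiableAt (𝓡 n) 𝓘(ℝ, ℝ) w x) (hΛ : 0 ≤ Λ)
    (hg : ∀ x ∈ ball p r, mGam n w w x ≤ Λ ^ 2) {y : M} (hy : y ∈ ball p r) :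
    |w y - w p| ≤ Λ * dist y p := by
  by_contra hcon
  push Not at hcon
  have hae : ∀ᵐ q ∂μ, q ∈ ball p r → |w q - w p| ≤ Λ * dist q p := by
    filter_upwards [C.ae_U p] with q hU hq
    have hT : ∀ t ∈ Icc (0 : ℝ) 1, C.T p t q ∈ ball p r := by
      intro t ht
      rw [mem_ball] at hq ⊢
      have h3 := C.dist_T p q hU 0 ⟨le_rfl, zero_le_one⟩ t ht
      rw [C.T_zero p q hU, zero_sub, abs_neg, abs_of_nonneg ht.1] at h3
      rw [dist_comm, h3]
      have h5 : t * dist p q ≤ 1 * dist p q := mul_le_mul_of_nonneg_right ht.2 dist_nonneg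
      rw [dist_comm q p] at hq
      linarith
    have h1 := ftc_pt (n := n) hm C hU (w := w) (fun t ht => hw _ (hT t ht))
    have h2 : ∫⁻ t in Icc (0 : ℝ) 1, ENNReal.ofReal ‖Gr (n := n) w (C.T p t q)‖ ≤
        ENNReal.ofReal Λ := by
      calc ∫⁻ t in Icc (0 : ℝ) 1, ENNReal.ofReal ‖Gr (n := n) w (C.T p t q)‖
          ≤ ∫⁻ _ in Icc (0 : ℝ) 1, ENNReal.ofReal Λ := by
            refine lintegral_mono_ae ?_
            filter_upwards [ae_restrict_mem measurableSet_Icc] with t ht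
            apply ENNReal.ofReal_le_ofReal
            have h3 := hg _ (hT t ht)
            rw [← inner_Gr_mGam, real_inner_self_eq_norm_sq] at h3
            exact abs_le_of_sq_le_sq' h3 hΛ |>.2
        _ = ENNReal.ofReal Λ := by simp
    have h3 : ENNReal.ofReal |w q - w p| ≤ ENNReal.ofReal (dist p q * Λ) := by
      rw [ENNReal.ofReal_mul dist_nonneg]
      exact h1.trans (mul_le_mul_right h2 _)
    have h4 := (ENNReal.ofReal_le_ofReal_iff (by positivity)).1 h3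
    rw [dist_comm q p, mul_comm]
    exact h4
  have hev : ∀ᶠ q in 𝓝 y, q ∈ ball p r ∧ Λ * dist q p < |w q - w p| := by
    have hc : ContinuousAt w y := (hw y hy).continuousAt
    have h1 : ContinuousAt (fun q => |w q - w p| - Λ * dist q p) y :=
      ((hc.sub continuousAt_const).abs).sub
        (continuousAt_const.mul ((continuous_id.dist continuous_const).continuousAt))
    have h2 : ∀ᶠ q in 𝓝 y, 0 < |w q - w p| - Λ * dist q p :=
      h1.eventually (lt_mem_nhds (by linarith))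
    filter_upwards [h2, isOpen_ball.mem_nhds hy] with q hq1 hq2 using ⟨hq2, by linarith⟩
  obtain ⟨O, hO1, hO2, hO3⟩ := _root_.eventually_nhds_iff.1 hev
  have hpos : μ O ≠ 0 := (hO2.measure_pos μ ⟨y, hO3⟩).ne'
  apply hpos
  refine measure_mono_null ?_ hae
  intro q hq
  rw [mem_compl_iff, mem_ofPred_eq]
  intro h
  have := hO1 q hq
  exact absurd (h this.1) (not_le.2 this.2)

theorem lip_bv [μ.IsOpenPosMeasure] (hm : ExM M) (C : Rad n κ M μ) (B : Matrix (Fin n) (Fin n) ℝ)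
    {u : Fin n → M → ℝ} {p : M}
    {r Λ : ℝ} (hw : ∀ a, ∀ x ∈ ball p r, MDifferentiableAt (𝓡 n) 𝓘(ℝ, ℝ) (u a) x) (hΛ : 0 ≤ Λ)
    (hg : ∀ a, ∀ x ∈ ball p r, mGam n (u a) (u a) x ≤ Λ ^ 2) {y : M} (hy : y ∈ ball p r) :
    ‖bv B u y - bv B u p‖ ≤ nB B * n * Λ * dist y p := by
  have h1 : bv B u y - bv B u p = WithLp.toLp 2 fun a => ∑ b, B a b * (u b y - u b p) := by
    ext a
    simp only [bv, PiLp.sub_apply]
    rw [← Finset.sum_sub_distrib]
    refine Finset.sum_congr rfl fun b _ => ?_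
    ring
  rw [h1]
  refine (norm_mul_le B fun b => u b y - u b p).trans ?_
  have h2 : ∑ b, |u b y - u b p| ≤ ∑ _b : Fin n, Λ * dist y p :=
    Finset.sum_le_sum fun b _ => lip_of_grad hm C (hw b) hΛ (hg b) hy
  rw [Finset.sum_const, Finset.card_univ, Fintype.card_fin, nsmul_eq_mul] at h2
  calc nB B * ∑ b, |u b y - u b p| ≤ nB B * (n * (Λ * dist y p)) :=
        mul_le_mul_of_nonneg_left h2 (nB_nonneg B)
    _ = _ := by ring

end mfd

section final

universe u

variable {n : ℕ} {M : Type u} [MetricSpace M] [CompleteSpace M] [ConnectedSpace M]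
  [ChartedSpace (EuclideanSpace ℝ (Fin n)) M]
  [IsManifold 𝓘(ℝ, EuclideanSpace ℝ (Fin n)) ∞ M]
  [RiemannianBundle (fun x : M => TangentSpace 𝓘(ℝ, EuclideanSpace ℝ (Fin n)) x)]
  [IsContMDiffRiemannianBundle 𝓘(ℝ, EuclideanSpace ℝ (Fin n)) ∞ (EuclideanSpace ℝ (Fin n))
    (fun x : M => TangentSpace 𝓘(ℝ, EuclideanSpace ℝ (Fin n)) x)]
  [IsRiemannianManifold 𝓘(ℝ, EuclideanSpace ℝ (Fin n)) M]
  [MeasurableSpace M] [BorelSpace M]

/-- the deviation of the Gram matrix from a constant matrix -/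
def gdev (A : Matrix (Fin n) (Fin n) ℝ) (u : Fin n → M → ℝ) (x : M) : ℝ :=
  ∑ a, ∑ b, |mGam n (u a) (u b) x - A a b|

/-- the sum of the norms of the Hessians -/
def hsum (u : Fin n → M → ℝ) (x : M) : ℝ := ∑ a, Real.sqrt (mHessSq n (u a) x)

theorem gdev_nonneg (A : Matrix (Fin n) (Fin n) ℝ) (u : Fin n → M → ℝ) (x : M) : 0 ≤ gdev A u x :=
  Finset.sum_nonneg fun a _ => Finset.sum_nonneg fun b _ => abs_nonneg _

theorem hsum_nonneg (u : Fin n → M → ℝ) (x : M) : 0 ≤ hsum u x :=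
  Finset.sum_nonneg fun a _ => Real.sqrt_nonneg _

theorem continuousOn_gdev (A : Matrix (Fin n) (Fin n) ℝ) {u : Fin n → M → ℝ} {W : Set M}
    (hu : ∀ a, ∀ x ∈ W, ContMDiffAt (𝓡 n) 𝓘(ℝ, ℝ) 2 (u a) x) : ContinuousOn (gdev A u) W := by
  intro x hx
  refine ContinuousAt.continuousWithinAt ?_
  unfold gdev
  refine tendsto_finsetSum _ fun a _ => tendsto_finsetSum _ fun b _ => ?_
  have h1 : ContMDiffAt (𝓡 n) 𝓘(ℝ, ℝ) 1 (mGam n (u a) (u b)) x :=
    contMDiffAt_mGam (hu a x hx) (hu b x hx) (by norm_num) Crest.Agent.R247.Bo84.two_le_infty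
  exact ((h1.continuousAt.sub continuousAt_const).abs)

theorem continuousOn_hsum {u : Fin n → M → ℝ} {W : Set M}
    (hu : ∀ a, ∀ x ∈ W, ContMDiffAt (𝓡 n) 𝓘(ℝ, ℝ) 2 (u a) x) : ContinuousOn (hsum u) W := by
  intro x hx
  refine ContinuousAt.continuousWithinAt ?_
  unfold hsum
  refine tendsto_finsetSum _ fun a _ => ?_
  exact (Real.continuous_sqrt.continuousAt.comp (Bs84.continuousAt_mHessSq (hu a x hx)))

/-- **the two-point estimate, general form**. -/
theorem two_M {κ : ℝ} (hκ : 0 ≤ κ) (hric : HasRicciLowerBound n M (-κ)) {z z' : M} (hzz : z ≠ z')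
    {a Δ Λ : ℝ} (ha : 0 < a) (hΔ : dist z z' + 2 * a ≤ Δ) (hΛ : 0 ≤ Λ)
    {W : Set M} (hWo : IsOpen W) (hWz : ball z a ⊆ W) (hWz' : ball z' a ⊆ W)
    (hWm : ∀ p ∈ ball z a, ∀ q ∈ ball z' a, ∀ m, dist p m + dist m q = dist p q → m ∈ W)
    {A B : Matrix (Fin n) (Fin n) ℝ} (hBA : B * A * B.transpose = 1) {u : Fin n → M → ℝ}
    (hu : ∀ b, ∀ x ∈ W, ContMDiffAt (𝓡 n) 𝓘(ℝ, ℝ) 2 (u b) x)
    (hg : ∀ b, ∀ x ∈ W, mGam n (u b) (u b) x ≤ Λ ^ 2) :
    ENNReal.ofReal |‖bv B u z' - bv B u z‖ - dist z z'| ≤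
      ENNReal.ofReal ((2 * (nB B * n * Λ) + 2) * a) +
      ENNReal.ofReal Δ * ((μHE[n] (ball z a))⁻¹ *
          ∫⁻ x in ball z a, ENNReal.ofReal (nB B ^ 2 * gdev A u x) ∂μHE[n] +
        ENNReal.ofReal Δ * (ENNReal.ofReal (Real.exp (κ * Δ ^ 2 / 2) * 2 ^ n) *
            ((μHE[n] (ball z a))⁻¹ + (μHE[n] (ball z' a))⁻¹) *
              ∫⁻ x in W, ENNReal.ofReal (nB B * hsum u x) ∂μHE[n])) := by
  have := HR216.properSpace_of_riemannian n M
  have := GluM923.isLocallyFinite n M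
  have := Ms322.isOpenPosMeasure n M
  have : Nonempty M := ⟨z⟩
  have : Nontrivial M := ⟨z, z', hzz⟩
  have hm := Bgr546.exM_of_riemannian n M
  obtain ⟨C⟩ := Bgr546.rad_all n κ hκ M hric
  have hfin : ∀ (x : M) r, (μHE[n] : Measure M) (ball x r) ≠ ⊤ := fun x r =>
    (GluM923.ball_lt_top n M x r).ne
  have hpos : ∀ (x : M) (r : ℝ), 0 < r → (μHE[n] : Measure M) (ball x r) ≠ 0 := fun x r hr =>
    (measure_ball_pos _ _ hr).ne'
  have hTW : ∀ x ∈ ball z a, ∀ y ∈ ball z' a, (x, y) ∈ C.U → ∀ t ∈ Icc (0 : ℝ) 1,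
      C.T x t y ∈ W := by
    intro x hx y hy hU t ht
    refine hWm x hx y hy _ ?_
    have h1 := C.dist_T x y hU 0 ⟨le_rfl, zero_le_one⟩ t ht
    have h2 := C.dist_T x y hU t ht 1 ⟨zero_le_one, le_rfl⟩
    rw [C.T_zero x y hU, zero_sub, abs_neg, abs_of_nonneg ht.1] at h1
    rw [C.T_one x y hU, abs_sub_comm, abs_of_nonneg (by linarith [ht.2])] at h2
    rw [h1, h2]
    ring
  set D : M → ℝ≥0∞ := W.indicator fun x => ENNReal.ofReal (nB B ^ 2 * gdev A u x) with hDdef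
  set H : M → ℝ≥0∞ := W.indicator fun x => ENNReal.ofReal (nB B * hsum u x) with hHdef
  have hD : Measurable D :=
    measurable_ind hWo (continuousOn_const.mul (continuousOn_gdev A hu))
  have hH : Measurable H :=
    measurable_ind hWo (continuousOn_const.mul (continuousOn_hsum hu))
  have hmd : ∀ b, ∀ x ∈ W, MDifferentiableAt (𝓡 n) 𝓘(ℝ, ℝ) (u b) x := fun b x hx =>
    (hu b x hx).mdifferentiableAt (by norm_num)
  have hΛ' : 0 ≤ nB B * n * Λ := mul_nonneg (mul_nonneg (nB_nonneg B) (Nat.cast_nonneg n)) hΛ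
  have key := two_point_gen C hκ hfin hpos (U := bv B u) ha hΔ hΛ'
    (fun x hx => lip_bv hm C B (fun b x hx => hmd b x (hWz hx)) hΛ
      (fun b x hx => hg b x (hWz hx)) hx)
    (fun x hx => lip_bv hm C B (fun b x hx => hmd b x (hWz' hx)) hΛ
      (fun b x hx => hg b x (hWz' hx)) hx)
    hWo.measurableSet hTW hD hH
    (fun x hx => by
      filter_upwards [ae_SC C hκ hm x] with y hSC hy hU
      exact pt_pair_B hm C hBA (W := W) hu
        (fun p hp => by rw [hDdef, indicator_of_mem hp]; exact le_rfl)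
        (fun p hp => by rw [hHdef, indicator_of_mem hp]; exact le_rfl) hU (hTW x hx y hy hU) hSC)
  have e1 : ∫⁻ x in ball z a, D x ∂μHE[n] =
      ∫⁻ x in ball z a, ENNReal.ofReal (nB B ^ 2 * gdev A u x) ∂μHE[n] := by
    refine setLIntegral_congr_fun measurableSet_ball fun x hx => ?_
    rw [hDdef, indicator_of_mem (hWz hx)]
  have e2 : ∫⁻ x in W, H x ∂μHE[n] =
      ∫⁻ x in W, ENNReal.ofReal (nB B * hsum u x) ∂μHE[n] := by
    refine setLIntegral_congr_fun hWo.measurableSet fun x hx => ?_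
    rw [hHdef, indicator_of_mem hx]
  rwa [e1, e2] at key


end final

end Crest.Agent.R249.Two709
end
end

-- ▼ part R249/Two5_709
section

/-!
R249 (helper709), leaf D3-LIM / L-NI: near isometry from small Hessian and small Gram deviation.
-/

set_option autoImplicit false
set_option maxSynthPendingDepth 3
set_option linter.unusedSectionVars false
set_option linter.unusedVariables false

open Bundle Set Filter Topology Metric MeasureTheory
open scoped Manifold ContDiff NNReal ENNReal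
open Crest.GeometryTopology.CoordMetric Crest.GeometryTopology.ChartCurvature
  Crest.GeometryTopology.PointedLimit
open Crest.Agent.R247.Bo84 (mGam mHessSq)
open Crest.Agent.R247

noncomputable section

namespace Crest.Agent.R249.Two709

universe u

/-- the volume of the unit ball as a real number -/
def om (n : ℕ) : ℝ := (volume (ball (0 : EuclideanSpace ℝ (Fin n)) 1)).toReal

theorem om_pos (n : ℕ) : 0 < om n :=
  ENNReal.toReal_pos (measure_ball_pos _ _ one_pos).ne' measure_ball_lt_top.ne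

theorem volume_ball_eq (n : ℕ) {s : ℝ} (hs : 0 < s) :
    volume (ball (0 : EuclideanSpace ℝ (Fin n)) s) = ENNReal.ofReal (s ^ n * om n) := by
  rw [Measure.addHaar_ball_of_pos _ _ hs, finrank_euclideanSpace_fin, om,
    ENNReal.ofReal_mul (by positivity), ENNReal.ofReal_toReal measure_ball_lt_top.ne]

section final

variable {n : ℕ} {M : Type u} [MetricSpace M] [CompleteSpace M] [ConnectedSpace M]
  [ChartedSpace (EuclideanSpace ℝ (Fin n)) M]
  [IsManifold 𝓘(ℝ, EuclideanSpace ℝ (Fin n)) ∞ M]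
  [RiemannianBundle (fun x : M => TangentSpace 𝓘(ℝ, EuclideanSpace ℝ (Fin n)) x)]
  [IsContMDiffRiemannianBundle 𝓘(ℝ, EuclideanSpace ℝ (Fin n)) ∞ (EuclideanSpace ℝ (Fin n))
    (fun x : M => TangentSpace 𝓘(ℝ, EuclideanSpace ℝ (Fin n)) x)]
  [IsRiemannianManifold 𝓘(ℝ, EuclideanSpace ℝ (Fin n)) M]
  [MeasurableSpace M] [BorelSpace M]

/-- inverse volume bound of the small balls. -/
theorem inv_ball_le {κ : ℝ} (hκ : 0 ≤ κ) (hric : HasRicciLowerBound n M (-κ)) {x y : M}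
    {s η c : ℝ} (hs : 0 < s) (hη : 0 < η) (hη1 : η ≤ 1 / 2) (hc : 0 < c)
    (hκs : κ * (4 * s) ^ 2 ≤ 2)
    (hvol : ENNReal.ofReal c * volume (ball (0 : EuclideanSpace ℝ (Fin n)) s) ≤
      μHE[n] (ball x s)) (hy : y ∈ ball x s) :
    (μHE[n] (ball y (η * s)))⁻¹ ≤ ENNReal.ofReal (3 * (2 / η) ^ n / (c * om n) / s ^ n) := by
  have hηs : 0 < η * s := mul_pos hη hs
  have h1 := Bgr546.bgr_all n κ hκ M y (η * s) (2 * s) hric hηs (by nlinarith)
  have h2 : Real.exp (κ * (2 * s) ^ 2 / 2) ≤ 3 := exp_le_three (by nlinarith)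
  have h3 : 2 * s / (η * s) = 2 / η := by
    field_simp
  have h4 : μHE[n] (ball x s) ≤ μHE[n] (ball y (2 * s)) := by
    apply measure_mono
    intro z hz
    rw [mem_ball] at *
    have := dist_triangle z x y
    rw [dist_comm x y] at this
    linarith
  have hom := om_pos n
  have h5 : ENNReal.ofReal (c * (s ^ n * om n)) ≤
      ENNReal.ofReal (3 * (2 / η) ^ n) * μHE[n] (ball y (η * s)) := by
    calc ENNReal.ofReal (c * (s ^ n * om n))
        = ENNReal.ofReal c * volume (ball (0 : EuclideanSpace ℝ (Fin n)) s) := by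
          rw [volume_ball_eq n hs, ENNReal.ofReal_mul hc.le]
      _ ≤ μHE[n] (ball x s) := hvol
      _ ≤ μHE[n] (ball y (2 * s)) := h4
      _ ≤ _ := h1
      _ ≤ _ := by
          rw [h3]
          gcongr
  have h6 : 0 < 3 * (2 / η) ^ n := by positivity
  have h7 : ENNReal.ofReal (c * om n * s ^ n / (3 * (2 / η) ^ n)) ≤ μHE[n] (ball y (η * s)) := by
    rw [ENNReal.ofReal_div_of_pos h6]
    refine ENNReal.div_le_of_le_mul' ?_
    refine le_trans (le_of_eq ?_) h5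
    congr 1
    ring
  calc (μHE[n] (ball y (η * s)))⁻¹ ≤ (ENNReal.ofReal (c * om n * s ^ n / (3 * (2 / η) ^ n)))⁻¹ :=
        ENNReal.inv_le_inv.2 h7
    _ = ENNReal.ofReal ((c * om n * s ^ n / (3 * (2 / η) ^ n))⁻¹) := by
        rw [ENNReal.ofReal_inv_of_pos (by positivity)]
    _ = _ := by
        congr 1
        field_simp

/-- the constant of `ni_pair` -/
def Q5 (n : ℕ) (c η : ℝ) : ℝ := 3 * (2 / η) ^ n / (c * om n)

theorem Q5_pos {c η : ℝ} (hc : 0 < c) (hη : 0 < η) : 0 < Q5 n c η := by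
  unfold Q5
  have := om_pos n
  positivity

/-- **L-NI, quantitative form**. -/
theorem ni_pair {κ : ℝ} (hκ : 0 ≤ κ) (hric : HasRicciLowerBound n M (-κ)) {x : M}
    {s η c β Λ δ : ℝ} (hs : 0 < s) (hη : 0 < η) (hη1 : η ≤ 1 / 2) (hc : 0 < c)
    (hκs : κ * (4 * s) ^ 2 ≤ 2) (hβ : 0 ≤ β) (hΛ : 0 ≤ Λ) (hδ : 0 ≤ δ)
    (hvol : ENNReal.ofReal c * volume (ball (0 : EuclideanSpace ℝ (Fin n)) s) ≤
      μHE[n] (ball x s))
    {A B : Matrix (Fin n) (Fin n) ℝ} (hBA : B * A * B.transpose = 1) (hB : nB B ≤ β)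
    {u : Fin n → M → ℝ}
    (hu : ∀ b, ∀ y ∈ ball x (6 * s), ContMDiffAt (𝓡 n) 𝓘(ℝ, ℝ) 2 (u b) y)
    (hg : ∀ b, ∀ y ∈ ball x (6 * s), mGam n (u b) (u b) y ≤ Λ ^ 2)
    (hG : ∫⁻ y in ball x (6 * s), ENNReal.ofReal (gdev A u y) ∂μHE[n] ≤
      ENNReal.ofReal (δ * s ^ n))
    (hH : ENNReal.ofReal s * ∫⁻ y in ball x (6 * s), ENNReal.ofReal (hsum u y) ∂μHE[n] ≤
      ENNReal.ofReal (δ * s ^ n)) {y y' : M} (hy : y ∈ ball x s) (hy' : y' ∈ ball x s) :
    |‖bv B u y - bv B u y'‖ - dist y y'| ≤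
      (2 * (β * n * Λ) + 2) * η * s +
        4 * s * (Q5 n c η * (β ^ 2 + 24 * 2 ^ n * β) * δ) := by
  have hQ := Q5_pos (n := n) hc hη
  have hsn : 0 < s ^ n := pow_pos hs n
  have hnB := nB_nonneg B
  rcases eq_or_ne y' y with rfl | hne
  · rw [sub_self, norm_zero, dist_self, sub_self, abs_zero]
    positivity
  have hηs : 0 < η * s := mul_pos hη hs
  have hηs2 : η * s ≤ s / 2 := by nlinarith
  rw [mem_ball] at hy hy'
  have hd : dist y' y < 2 * s := by
    have := dist_triangle y' x y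
    rw [dist_comm x y] at this
    linarith
  have key := two_M (n := n) (M := M) hκ hric (z := y') (z' := y) hne (a := η * s) (Δ := 4 * s)
    (Λ := Λ) hηs (by linarith) hΛ (W := ball x (6 * s)) isOpen_ball
    (fun p hp => by
      rw [mem_ball] at *
      have := dist_triangle p y' x
      linarith)
    (fun p hp => by
      rw [mem_ball] at *
      have := dist_triangle p y x
      linarith)
    (fun p hp q hq m hm => by
      rw [mem_ball] at *
      have h1 := dist_triangle p y' x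
      have h2 := dist_triangle q y x
      have h3 := dist_triangle p x q
      have h4 := dist_triangle m p x
      have h5 := dist_triangle m q x
      rw [dist_comm x q] at h3
      rw [dist_comm m p] at h4
      linarith) hBA hu hg
  have hv := inv_ball_le (n := n) (M := M) hκ hric hs hη hη1 hc hκs hvol
    (y := y) (mem_ball.2 hy)
  have hv' := inv_ball_le (n := n) (M := M) hκ hric hs hη hη1 hc hκs hvol
    (y := y') (mem_ball.2 hy')
  change _ ≤ ENNReal.ofReal (Q5 n c η / s ^ n) at hv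
  change _ ≤ ENNReal.ofReal (Q5 n c η / s ^ n) at hv'
  -- the first integral
  have hI1 : ∫⁻ z in ball y' (η * s), ENNReal.ofReal (nB B ^ 2 * gdev A u z) ∂μHE[n] ≤
      ENNReal.ofReal (β ^ 2 * (δ * s ^ n)) := by
    calc ∫⁻ z in ball y' (η * s), ENNReal.ofReal (nB B ^ 2 * gdev A u z) ∂μHE[n]
        ≤ ∫⁻ z in ball x (6 * s), ENNReal.ofReal (nB B ^ 2 * gdev A u z) ∂μHE[n] := by
          refine lintegral_mono_set fun p hp => ?_
          rw [mem_ball] at *
          have := dist_triangle p y' x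
          linarith
      _ ≤ ∫⁻ z in ball x (6 * s), ENNReal.ofReal (β ^ 2) * ENNReal.ofReal (gdev A u z) ∂μHE[n] := by
          refine lintegral_mono fun z => ?_
          rw [← ENNReal.ofReal_mul (by positivity)]
          apply ENNReal.ofReal_le_ofReal
          have := gdev_nonneg A u z
          gcongr
      _ = ENNReal.ofReal (β ^ 2) * ∫⁻ z in ball x (6 * s), ENNReal.ofReal (gdev A u z) ∂μHE[n] := by
          rw [lintegral_const_mul' _ _ ENNReal.ofReal_ne_top]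
      _ ≤ ENNReal.ofReal (β ^ 2) * ENNReal.ofReal (δ * s ^ n) := by gcongr
      _ = _ := by rw [← ENNReal.ofReal_mul (by positivity)]
  -- the second integral
  have hI2 : ENNReal.ofReal (4 * s) *
      ∫⁻ z in ball x (6 * s), ENNReal.ofReal (nB B * hsum u z) ∂μHE[n] ≤
      ENNReal.ofReal (4 * β * (δ * s ^ n)) := by
    calc ENNReal.ofReal (4 * s) *
        ∫⁻ z in ball x (6 * s), ENNReal.ofReal (nB B * hsum u z) ∂μHE[n]
        ≤ ENNReal.ofReal (4 * s) *
        ∫⁻ z in ball x (6 * s), ENNReal.ofReal β * ENNReal.ofReal (hsum u z) ∂μHE[n] := by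
          refine mul_le_mul_right (lintegral_mono fun z => ?_) _
          rw [← ENNReal.ofReal_mul hβ]
          apply ENNReal.ofReal_le_ofReal
          have := hsum_nonneg u z
          gcongr
      _ = ENNReal.ofReal (4 * β) * (ENNReal.ofReal s *
            ∫⁻ z in ball x (6 * s), ENNReal.ofReal (hsum u z) ∂μHE[n]) := by
          rw [lintegral_const_mul' _ _ ENNReal.ofReal_ne_top, ← mul_assoc, ← mul_assoc,
            ← ENNReal.ofReal_mul (by positivity), ← ENNReal.ofReal_mul (by positivity)]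
          congr 2
          ring
      _ ≤ ENNReal.ofReal (4 * β) * ENNReal.ofReal (δ * s ^ n) := by gcongr
      _ = _ := by rw [← ENNReal.ofReal_mul (by positivity)]
  have hexp : Real.exp (κ * (4 * s) ^ 2 / 2) ≤ 3 := exp_le_three (by linarith)
  have hfin : ENNReal.ofReal |‖bv B u y - bv B u y'‖ - dist y' y| ≤
      ENNReal.ofReal ((2 * (β * n * Λ) + 2) * η * s +
        4 * s * (Q5 n c η * (β ^ 2 + 24 * 2 ^ n * β) * δ)) := by
    refine key.trans ?_
    rw [ENNReal.ofReal_add (by positivity) (by positivity)]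
    refine add_le_add ?_ ?_
    · apply ENNReal.ofReal_le_ofReal
      have : nB B * n * Λ ≤ β * n * Λ := by gcongr
      calc (2 * (nB B * n * Λ) + 2) * (η * s) ≤ (2 * (β * n * Λ) + 2) * (η * s) := by gcongr
        _ = _ := by ring
    · calc ENNReal.ofReal (4 * s) * ((μHE[n] (ball y' (η * s)))⁻¹ *
            ∫⁻ z in ball y' (η * s), ENNReal.ofReal (nB B ^ 2 * gdev A u z) ∂μHE[n] +
          ENNReal.ofReal (4 * s) * (ENNReal.ofReal (Real.exp (κ * (4 * s) ^ 2 / 2) * 2 ^ n) *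
            ((μHE[n] (ball y' (η * s)))⁻¹ + (μHE[n] (ball y (η * s)))⁻¹) *
              ∫⁻ z in ball x (6 * s), ENNReal.ofReal (nB B * hsum u z) ∂μHE[n]))
          = ENNReal.ofReal (4 * s) * ((μHE[n] (ball y' (η * s)))⁻¹ *
            ∫⁻ z in ball y' (η * s), ENNReal.ofReal (nB B ^ 2 * gdev A u z) ∂μHE[n] +
          ENNReal.ofReal (Real.exp (κ * (4 * s) ^ 2 / 2) * 2 ^ n) *
            ((μHE[n] (ball y' (η * s)))⁻¹ + (μHE[n] (ball y (η * s)))⁻¹) *
              (ENNReal.ofReal (4 * s) *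
                ∫⁻ z in ball x (6 * s), ENNReal.ofReal (nB B * hsum u z) ∂μHE[n])) := by ring
        _ ≤ ENNReal.ofReal (4 * s) * (ENNReal.ofReal (Q5 n c η / s ^ n) *
            ENNReal.ofReal (β ^ 2 * (δ * s ^ n)) +
          ENNReal.ofReal (3 * 2 ^ n) *
            (ENNReal.ofReal (Q5 n c η / s ^ n) + ENNReal.ofReal (Q5 n c η / s ^ n)) *
              ENNReal.ofReal (4 * β * (δ * s ^ n))) := by
            gcongr
        _ = _ := by
            have hq : 0 ≤ Q5 n c η / s ^ n := by positivity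
            rw [← ENNReal.ofReal_add hq hq, ← ENNReal.ofReal_mul hq,
              ← ENNReal.ofReal_mul (by positivity), ← ENNReal.ofReal_mul (by positivity),
              ← ENNReal.ofReal_add (by positivity) (by positivity),
              ← ENNReal.ofReal_mul (by positivity)]
            congr 1
            field_simp
            ring
  rw [dist_comm y' y] at hfin
  exact (ENNReal.ofReal_le_ofReal_iff (by positivity)).1 hfin

end final

/-- **L-NI** (leaf of post 1495), for a general normalising matrix `B`. -/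
theorem ni_B (n : ℕ) {ε c β Λ : ℝ} (hε : 0 < ε) (hc : 0 < c) (hβ : 0 ≤ β) (hΛ : 0 ≤ Λ) :
    ∃ δ : ℝ, 0 < δ ∧ ∀ (M : Type u) [MetricSpace M] [CompleteSpace M] [ConnectedSpace M]
      [ChartedSpace (EuclideanSpace ℝ (Fin n)) M]
      [IsManifold 𝓘(ℝ, EuclideanSpace ℝ (Fin n)) ∞ M]
      [RiemannianBundle (fun x : M => TangentSpace 𝓘(ℝ, EuclideanSpace ℝ (Fin n)) x)]
      [IsContMDiffRiemannianBundle 𝓘(ℝ, EuclideanSpace ℝ (Fin n)) ∞ (EuclideanSpace ℝ (Fin n))
        (fun x : M => TangentSpace 𝓘(ℝ, EuclideanSpace ℝ (Fin n)) x)]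
      [IsRiemannianManifold 𝓘(ℝ, EuclideanSpace ℝ (Fin n)) M]
      [MeasurableSpace M] [BorelSpace M] (κ : ℝ) (_ : 0 ≤ κ)
      (_ : HasRicciLowerBound n M (-κ)) (x : M) (s : ℝ) (_ : 0 < s) (_ : κ * (4 * s) ^ 2 ≤ 2)
      (_ : ENNReal.ofReal c * volume (ball (0 : EuclideanSpace ℝ (Fin n)) s) ≤
        μHE[n] (ball x s))
      (A B : Matrix (Fin n) (Fin n) ℝ) (_ : B * A * B.transpose = 1) (_ : nB B ≤ β)
      (u : Fin n → M → ℝ)
      (_ : ∀ b, ∀ y ∈ ball x (6 * s), ContMDiffAt (𝓡 n) 𝓘(ℝ, ℝ) 2 (u b) y)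
      (_ : ∀ b, ∀ y ∈ ball x (6 * s), mGam n (u b) (u b) y ≤ Λ ^ 2)
      (_ : ∫⁻ y in ball x (6 * s), ENNReal.ofReal (gdev A u y) ∂μHE[n] ≤
        ENNReal.ofReal (δ * s ^ n))
      (_ : ENNReal.ofReal s * ∫⁻ y in ball x (6 * s), ENNReal.ofReal (hsum u y) ∂μHE[n] ≤
        ENNReal.ofReal (δ * s ^ n)) (y y' : M) (_ : y ∈ ball x s) (_ : y' ∈ ball x s),
      |‖bv B u y - bv B u y'‖ - dist y y'| ≤ ε * s := by
  set K : ℝ := 2 * (β * n * Λ) + 2 with hK
  have hK0 : 0 < K := by positivity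
  set η : ℝ := min (1 / 2) (ε / (2 * K)) with hη
  have hη0 : 0 < η := lt_min (by norm_num) (by positivity)
  have hη1 : η ≤ 1 / 2 := min_le_left _ _
  have hη2 : K * η ≤ ε / 2 := by
    have : η ≤ ε / (2 * K) := min_le_right _ _
    calc K * η ≤ K * (ε / (2 * K)) := by gcongr
      _ = ε / 2 := by field_simp
  set R : ℝ := Q5 n c η * (β ^ 2 + 24 * 2 ^ n * β) with hR
  have hR0 : 0 ≤ R := by
    have := Q5_pos (n := n) hc hη0
    positivity
  refine ⟨ε / (8 * (R + 1)), by positivity, ?_⟩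
  intro M _ _ _ _ _ _ _ _ _ _ κ hκ hric x s hs hκs hvol A B hBA hB u hu hg hG hH y y' hy hy'
  have h1 := ni_pair (n := n) (M := M) hκ hric hs hη0 hη1 hc hκs hβ hΛ
    (δ := ε / (8 * (R + 1))) (by positivity) hvol hBA hB hu hg hG hH hy hy'
  refine h1.trans ?_
  have h2 : R * (ε / (8 * (R + 1))) ≤ ε / 8 := by
    rw [mul_div_assoc', div_le_div_iff₀ (by positivity) (by norm_num)]
    nlinarith
  calc K * η * s + 4 * s * (R * (ε / (8 * (R + 1)))) ≤ ε / 2 * s + 4 * s * (ε / 8) := by gcongr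
    _ = ε * s := by ring

end Crest.Agent.R249.Two709
end
end

-- ▼ part R249/Two6_709
section

/-!
R249 (helper709), leaf D3-LIM / L-NI, final form with the norm of `A⁻¹`.
-/

set_option autoImplicit false
set_option maxSynthPendingDepth 3
set_option linter.unusedSectionVars false
set_option linter.unusedVariables false

open Bundle Set Filter Topology Metric MeasureTheory
open scoped Manifold ContDiff NNReal ENNReal Matrix
open Crest.GeometryTopology.CoordMetric Crest.GeometryTopology.ChartCurvature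
  Crest.GeometryTopology.PointedLimit
open Crest.Agent.R247.Bo84 (mGam mHessSq)
open Crest.Agent.R247
open Crest.Agent.R249.VE_222 (qf qf_star_mul posDef_of_bounds qf_inv_bounds)

noncomputable section

namespace Crest.Agent.R249.Two709

universe u

/-- a normalising matrix: `B A Bᵀ = 1`, `‖B v‖² = v A⁻¹ v`, entries bounded. -/
theorem exists_B {n : ℕ} {A : Matrix (Fin n) (Fin n) ℝ} (hs : A.IsSymm) {L : ℝ} (hL : 0 < L)
    (hl : ∀ v, L⁻¹ * ‖v‖ ^ 2 ≤ qf A v) (hu : ∀ v, qf A v ≤ L * ‖v‖ ^ 2) :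
    ∃ B : Matrix (Fin n) (Fin n) ℝ, B * A * B.transpose = 1 ∧
      (∀ v, qf A⁻¹ v = ‖(WithLp.toLp 2 fun a => ∑ b, B a b * v b : EuclideanSpace ℝ (Fin n))‖ ^ 2) ∧
      nB B ≤ n ^ 2 * Real.sqrt L := by
  have hpd := posDef_of_bounds hs (inv_pos.2 hL) hl
  obtain ⟨D, hD⟩ : ∃ D : Matrix (Fin n) (Fin n) ℝ, A = star D * D := by
    open scoped MatrixOrder in
    exact CStarAlgebra.nonneg_iff_eq_star_mul_self.mp hpd.posSemidef.nonneg
  have hD0 : IsUnit D.det := by
    have hdet := hpd.det_pos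
    rw [hD, Matrix.det_mul] at hdet
    exact isUnit_iff_ne_zero.2 (right_ne_zero_of_mul hdet.ne')
  set B : Matrix (Fin n) (Fin n) ℝ := star D⁻¹ with hB
  have hinv : A⁻¹ = star B * B := by
    rw [hB, star_star, hD, Matrix.mul_inv_rev, Matrix.star_eq_conjTranspose,
      Matrix.star_eq_conjTranspose, Matrix.conjTranspose_nonsing_inv]
  have hq : ∀ v, qf A⁻¹ v =
      ‖(WithLp.toLp 2 fun a => ∑ b, B a b * v b : EuclideanSpace ℝ (Fin n))‖ ^ 2 := by
    intro v
    rw [hinv, qf_star_mul]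
    rfl
  refine ⟨B, ?_, hq, ?_⟩
  · have h1 : B.transpose = D⁻¹ := by
      rw [hB, Matrix.star_eq_conjTranspose, Matrix.conjTranspose_eq_transpose_of_trivial,
        Matrix.transpose_transpose]
    have h2 : B * star D = 1 := by
      rw [hB, Matrix.star_eq_conjTranspose, Matrix.star_eq_conjTranspose,
        ← Matrix.conjTranspose_mul, Matrix.mul_nonsing_inv _ hD0, Matrix.conjTranspose_one]
    rw [h1, hD, ← Matrix.mul_assoc, h2, Matrix.one_mul, Matrix.mul_nonsing_inv _ hD0]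
  · have hent : ∀ a b, |B a b| ≤ Real.sqrt L := by
      intro a b
      have h1 := (qf_inv_bounds hs hL hl hu).2 (EuclideanSpace.single b (1:ℝ))
      rw [hq, EuclideanSpace.norm_single, norm_one, one_pow, mul_one] at h1
      apply Real.abs_le_sqrt
      refine le_trans ?_ h1
      rw [EuclideanSpace.norm_sq_eq]
      have h2 : ∀ i, (∑ j, B i j * (EuclideanSpace.single b (1:ℝ) : EuclideanSpace ℝ (Fin n)) j) =
          B i b := by
        intro i
        rw [Finset.sum_eq_single b]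
        · simp
        · intro j _ hj
          simp [hj]
        · intro h
          exact absurd (Finset.mem_univ b) h
      calc B a b ^ 2 = ‖∑ j, B a j * (EuclideanSpace.single b (1:ℝ) : EuclideanSpace ℝ (Fin n)) j‖ ^ 2 := by
            rw [h2, Real.norm_eq_abs, sq_abs]
        _ ≤ _ := Finset.single_le_sum (f := fun i =>
            ‖∑ j, B i j * (EuclideanSpace.single b (1:ℝ) : EuclideanSpace ℝ (Fin n)) j‖ ^ 2)
            (fun i _ => sq_nonneg _) (Finset.mem_univ a)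
    unfold nB
    calc ∑ a, ∑ b, |B a b| ≤ ∑ _a : Fin n, ∑ _b : Fin n, Real.sqrt L :=
          Finset.sum_le_sum fun a _ => Finset.sum_le_sum fun b _ => hent a b
      _ = _ := by
          simp only [Finset.sum_const, Finset.card_univ, Fintype.card_fin, nsmul_eq_mul]
          ring

theorem norm_bv_sub {n : ℕ} {X : Type*} {A B : Matrix (Fin n) (Fin n) ℝ}
    (hq : ∀ v, qf A⁻¹ v =
      ‖(WithLp.toLp 2 fun a => ∑ b, B a b * v b : EuclideanSpace ℝ (Fin n))‖ ^ 2)
    (u : Fin n → X → ℝ) (y y' : X) :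
    ‖bv B u y - bv B u y'‖ = Real.sqrt (qf A⁻¹ (uv u y - uv u y')) := by
  rw [hq, Real.sqrt_sq (norm_nonneg _)]
  congr 1
  ext a
  simp only [bv, uv, PiLp.sub_apply]
  rw [← Finset.sum_sub_distrib]
  refine Finset.sum_congr rfl fun b _ => ?_
  ring

/-- **L-NI**: near isometry with respect to the norm `|v|_{A⁻¹}`. -/
theorem ni (n : ℕ) {ε c L Λ : ℝ} (hε : 0 < ε) (hc : 0 < c) (hL : 0 < L) (hΛ : 0 ≤ Λ) :
    ∃ δ : ℝ, 0 < δ ∧ ∀ (M : Type u) [MetricSpace M] [CompleteSpace M] [ConnectedSpace M]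
      [ChartedSpace (EuclideanSpace ℝ (Fin n)) M]
      [IsManifold 𝓘(ℝ, EuclideanSpace ℝ (Fin n)) ∞ M]
      [RiemannianBundle (fun x : M => TangentSpace 𝓘(ℝ, EuclideanSpace ℝ (Fin n)) x)]
      [IsContMDiffRiemannianBundle 𝓘(ℝ, EuclideanSpace ℝ (Fin n)) ∞ (EuclideanSpace ℝ (Fin n))
        (fun x : M => TangentSpace 𝓘(ℝ, EuclideanSpace ℝ (Fin n)) x)]
      [IsRiemannianManifold 𝓘(ℝ, EuclideanSpace ℝ (Fin n)) M]
      [MeasurableSpace M] [BorelSpace M] (κ : ℝ) (_ : 0 ≤ κ)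
      (_ : HasRicciLowerBound n M (-κ)) (x : M) (s : ℝ) (_ : 0 < s) (_ : κ * (4 * s) ^ 2 ≤ 2)
      (_ : ENNReal.ofReal c * volume (ball (0 : EuclideanSpace ℝ (Fin n)) s) ≤
        μHE[n] (ball x s))
      (A : Matrix (Fin n) (Fin n) ℝ) (_ : A.IsSymm) (_ : ∀ v, L⁻¹ * ‖v‖ ^ 2 ≤ qf A v)
      (_ : ∀ v, qf A v ≤ L * ‖v‖ ^ 2) (u : Fin n → M → ℝ)
      (_ : ∀ b, ∀ y ∈ ball x (6 * s), ContMDiffAt (𝓡 n) 𝓘(ℝ, ℝ) 2 (u b) y)
      (_ : ∀ b, ∀ y ∈ ball x (6 * s), mGam n (u b) (u b) y ≤ Λ ^ 2)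
      (_ : ∫⁻ y in ball x (6 * s), ENNReal.ofReal (gdev A u y) ∂μHE[n] ≤
        ENNReal.ofReal (δ * s ^ n))
      (_ : ENNReal.ofReal s * ∫⁻ y in ball x (6 * s), ENNReal.ofReal (hsum u y) ∂μHE[n] ≤
        ENNReal.ofReal (δ * s ^ n)) (y y' : M) (_ : y ∈ ball x s) (_ : y' ∈ ball x s),
      |Real.sqrt (qf A⁻¹ (uv u y - uv u y')) - dist y y'| ≤ ε * s := by
  obtain ⟨δ, hδ, h⟩ := ni_B.{u} n (ε := ε) (c := c) (β := n ^ 2 * Real.sqrt L) (Λ := Λ) hε hc
    (by positivity) hΛ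
  refine ⟨δ, hδ, ?_⟩
  intro M _ _ _ _ _ _ _ _ _ _ κ hκ hric x s hs hκs hvol A hA hl hup u hu hg hG hH y y' hy hy'
  obtain ⟨B, hB1, hB2, hB3⟩ := exists_B hA hL hl hup
  have key := h M κ hκ hric x s hs hκs hvol A B hB1 hB3 u hu hg hG hH y y' hy hy'
  rwa [norm_bv_sub hB2] at key

end Crest.Agent.R249.Two709
end
end

-- ▼ part R249/Ch2_174
section

/-!
# R249 (helper174), D3-LIM/CH: the chart

* `sqrt_qf_inv_sub`, `qf_near` : matrices near each other, resp. near `1`;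
* `ev_ni`, `ul_ni` : near isometry with respect to `h z` at small scales;
* `chStmt : ChStmt`.
-/

set_option autoImplicit false
noncomputable section
open Set Filter Topology Bundle MeasureTheory Metric
open scoped ContDiff Manifold ENNReal NNReal Matrix
open Crest.GeometryTopology.CoordMetric Crest.GeometryTopology.ChartCurvature
  Crest.GeometryTopology.RicciEnergy Crest.GeometryTopology.PointedLimit
open Crest.Agent.R247.Bo84
open Crest.Agent.R249.D1Def104 Crest.Agent.R249.Ul174 Crest.Agent.R249.Len47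
open Crest.Agent.R249.AsmD832 Crest.Agent.R249.LimDef41 Crest.Agent.R249.St174
open Crest.Agent.R249.VE_222 Crest.Agent.R249.Two709

namespace Crest.Agent.R249.Ch174

/-! ### matrices -/

section mat

variable {n : ℕ}

local notation "𝔼" => EuclideanSpace ℝ (Fin n)

theorem abs_coord_le (v : 𝔼) (i : Fin n) : |v i| ≤ ‖v‖ := by
  have := PiLp.norm_apply_le v i
  simpa using this

theorem abs_bilin_le (S : Matrix (Fin n) (Fin n) ℝ) (a b : 𝔼) :
    |∑ i, ∑ j, S i j * (a i * b j)| ≤ (∑ i, ∑ j, |S i j|) * (‖a‖ * ‖b‖) := by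
  calc |∑ i, ∑ j, S i j * (a i * b j)| ≤ ∑ i, |∑ j, S i j * (a i * b j)| :=
        Finset.abs_sum_le_sum_abs _ _
    _ ≤ ∑ i, ∑ j, |S i j * (a i * b j)| :=
        Finset.sum_le_sum fun i _ => Finset.abs_sum_le_sum_abs _ _
    _ ≤ ∑ i, ∑ j, |S i j| * (‖a‖ * ‖b‖) := by
        refine Finset.sum_le_sum fun i _ => Finset.sum_le_sum fun j _ => ?_
        rw [abs_mul, abs_mul]
        gcongr
        · exact abs_coord_le a i
        · exact abs_coord_le b j
    _ = (∑ i, ∑ j, |S i j|) * (‖a‖ * ‖b‖) := by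
        rw [Finset.sum_mul]
        refine Finset.sum_congr rfl fun i _ => ?_
        rw [Finset.sum_mul]

theorem qf_eq_sum (A : Matrix (Fin n) (Fin n) ℝ) (v : 𝔼) :
    qf A v = ∑ i, ∑ j, A i j * (v i * v j) := by
  unfold qf
  simp only [dotProduct, Matrix.mulVec, Finset.mul_sum]
  exact Finset.sum_congr rfl fun i _ => Finset.sum_congr rfl fun j _ => by ring

theorem norm_sq_eq_sum (v : 𝔼) : ‖v‖ ^ 2 = ∑ i, ∑ j, (if i = j then (1 : ℝ) else 0) * (v i * v j) := by
  rw [EuclideanSpace.real_norm_sq_eq]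
  refine Finset.sum_congr rfl fun i _ => ?_
  rw [Finset.sum_eq_single i]
  · simp [sq]
  · intro j _ hj
    simp [Ne.symm hj]
  · intro h; exact absurd (Finset.mem_univ i) h

/-- matrices near `1` -/
theorem qf_near {A : Matrix (Fin n) (Fin n) ℝ} {ε : ℝ}
    (hA : ∑ a, ∑ b, |A a b - if a = b then 1 else 0| ≤ ε) (v : 𝔼) :
    |qf A v - ‖v‖ ^ 2| ≤ ε * ‖v‖ ^ 2 := by
  rw [qf_eq_sum, norm_sq_eq_sum, ← Finset.sum_sub_distrib]
  simp_rw [← Finset.sum_sub_distrib, ← sub_mul]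
  have h1 := abs_bilin_le (fun i j => A i j - if i = j then 1 else 0) v v
  refine h1.trans ?_
  rw [← norm_sq_eq_sum, sq]
  gcongr

/-- symmetric matrix with the bounds `1/2`, `2` -/
structure Nr (A : Matrix (Fin n) (Fin n) ℝ) : Prop where
  sym : A.IsSymm
  low : ∀ v : 𝔼, (2 : ℝ)⁻¹ * ‖v‖ ^ 2 ≤ qf A v
  up : ∀ v : 𝔼, qf A v ≤ 2 * ‖v‖ ^ 2

theorem Nr.of_near {A : Matrix (Fin n) (Fin n) ℝ} (hs : A.IsSymm) {ε : ℝ} (hε : ε ≤ 1 / 2)
    (hA : ∑ a, ∑ b, |A a b - if a = b then 1 else 0| ≤ ε) : Nr A := by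
  refine ⟨hs, fun v => ?_, fun v => ?_⟩
  · have h1 := (abs_le.1 (qf_near hA v)).1
    have h2 : 0 ≤ ‖v‖ ^ 2 := by positivity
    nlinarith
  · have h1 := (abs_le.1 (qf_near hA v)).2
    have h2 : 0 ≤ ‖v‖ ^ 2 := by positivity
    nlinarith

theorem Nr.isUnit {A : Matrix (Fin n) (Fin n) ℝ} (h : Nr A) : IsUnit A.det := by
  have := (posDef_of_bounds h.sym (c := (2 : ℝ)⁻¹) (by norm_num) h.low).det_pos
  exact (isUnit_iff_ne_zero).2 this.ne'

/-- the vector `A⁻¹ v` -/
theorem Nr.norm_inv_le {A : Matrix (Fin n) (Fin n) ℝ} (h : Nr A) (v : 𝔼) :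
    ‖(WithLp.toLp 2 (A⁻¹ *ᵥ v.ofLp) : 𝔼)‖ ≤ 2 * ‖v‖ := by
  set a : 𝔼 := WithLp.toLp 2 (A⁻¹ *ᵥ v.ofLp) with ha
  have h1 : A *ᵥ a.ofLp = v.ofLp := by
    rw [ha]
    change A *ᵥ (A⁻¹ *ᵥ v.ofLp) = v.ofLp
    rw [Matrix.mulVec_mulVec, Matrix.mul_nonsing_inv _ h.isUnit, Matrix.one_mulVec]
  have h2 : qf A a = ∑ i, a i * v i := by
    unfold qf
    rw [h1]
    rfl
  have h3 : qf A a ≤ ‖a‖ * ‖v‖ := by
    rw [h2]
    have h4 := real_inner_le_norm a v
    have h5 : inner ℝ a v = ∑ i, a i * v i := by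
      rw [EuclideanSpace.inner_eq_star_dotProduct]
      simp only [dotProduct, star_trivial]
      exact Finset.sum_congr rfl fun i _ => by
        simp [mul_comm]
    rw [← h5]
    exact h4
  have h4 := h.low a
  by_contra hc
  push Not at hc
  have h5 : 0 ≤ ‖v‖ := norm_nonneg _
  have h6 : 0 < ‖a‖ := by linarith
  nlinarith

/-- continuity of the dual norm in the matrix -/
theorem abs_qf_inv_sub {A A' : Matrix (Fin n) (Fin n) ℝ} (h : Nr A) (h' : Nr A') (v : 𝔼) :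
    |qf A⁻¹ v - qf A'⁻¹ v| ≤ 4 * (∑ a, ∑ b, |A a b - A' a b|) * ‖v‖ ^ 2 := by
  set a : 𝔼 := WithLp.toLp 2 (A⁻¹ *ᵥ v.ofLp) with ha
  set a' : 𝔼 := WithLp.toLp 2 (A'⁻¹ *ᵥ v.ofLp) with ha'
  have h1 : A *ᵥ a.ofLp = v.ofLp := by
    rw [ha]
    change A *ᵥ (A⁻¹ *ᵥ v.ofLp) = v.ofLp
    rw [Matrix.mulVec_mulVec, Matrix.mul_nonsing_inv _ h.isUnit, Matrix.one_mulVec]
  have h1' : A' *ᵥ a'.ofLp = v.ofLp := by
    rw [ha']
    change A' *ᵥ (A'⁻¹ *ᵥ v.ofLp) = v.ofLp
    rw [Matrix.mulVec_mulVec, Matrix.mul_nonsing_inv _ h'.isUnit, Matrix.one_mulVec]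
  have h2 : qf A⁻¹ v = ∑ i, ∑ j, A' i j * (a i * a' j) := by
    have : qf A⁻¹ v = ∑ i, v i * a i := rfl
    rw [this]
    refine Finset.sum_congr rfl fun i _ => ?_
    have h3 : v i = ∑ j, A' i j * a' j := (congrFun h1' i).symm
    rw [h3, Finset.sum_mul]
    exact Finset.sum_congr rfl fun j _ => by ring
  have h2' : qf A'⁻¹ v = ∑ i, ∑ j, A i j * (a i * a' j) := by
    have : qf A'⁻¹ v = ∑ j, v j * a' j := rfl
    rw [this, Finset.sum_comm]
    refine Finset.sum_congr rfl fun j _ => ?_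
    have h3 : v j = ∑ i, A j i * a i := (congrFun h1 j).symm
    rw [h3, Finset.sum_mul]
    refine Finset.sum_congr rfl fun i _ => ?_
    rw [h.sym.apply i j]
    ring
  have h3 : qf A⁻¹ v - qf A'⁻¹ v = -∑ i, ∑ j, (A i j - A' i j) * (a i * a' j) := by
    rw [h2, h2', ← Finset.sum_sub_distrib, ← Finset.sum_neg_distrib]
    refine Finset.sum_congr rfl fun i _ => ?_
    rw [← Finset.sum_sub_distrib, ← Finset.sum_neg_distrib]
    exact Finset.sum_congr rfl fun j _ => by ring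
  rw [h3, abs_neg]
  refine (abs_bilin_le (fun i j => A i j - A' i j) a a').trans ?_
  have h4 : ‖a‖ * ‖a'‖ ≤ (2 * ‖v‖) * (2 * ‖v‖) :=
    mul_le_mul (h.norm_inv_le v) (h'.norm_inv_le v) (norm_nonneg _) (by positivity)
  have h5 : 0 ≤ ∑ a, ∑ b, |A a b - A' a b| :=
    Finset.sum_nonneg fun _ _ => Finset.sum_nonneg fun _ _ => abs_nonneg _
  calc (∑ i, ∑ j, |A i j - A' i j|) * (‖a‖ * ‖a'‖)
      ≤ (∑ i, ∑ j, |A i j - A' i j|) * ((2 * ‖v‖) * (2 * ‖v‖)) :=
        mul_le_mul_of_nonneg_left h4 h5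
    _ = _ := by ring

theorem Nr.inv_low {A : Matrix (Fin n) (Fin n) ℝ} (h : Nr A) (v : 𝔼) :
    (2 : ℝ)⁻¹ * ‖v‖ ^ 2 ≤ qf A⁻¹ v := (qf_inv_bounds h.sym two_pos h.low h.up).1 v


theorem Nr.sqrt_low {A : Matrix (Fin n) (Fin n) ℝ} (h : Nr A) (v : 𝔼) :
    ‖v‖ / 2 ≤ √(qf A⁻¹ v) := by
  refine Real.le_sqrt_of_sq_le ?_
  have h1 := h.inv_low v
  have h2 : 0 ≤ ‖v‖ ^ 2 := by positivity
  nlinarith

theorem sqrt_qf_inv_sub {A A' : Matrix (Fin n) (Fin n) ℝ} (h : Nr A) (h' : Nr A') (v : 𝔼) :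
    |√(qf A⁻¹ v) - √(qf A'⁻¹ v)| ≤ 4 * (∑ a, ∑ b, |A a b - A' a b|) * ‖v‖ := by
  rcases eq_or_ne v 0 with rfl | hv
  · have : ∀ B : Matrix (Fin n) (Fin n) ℝ, qf B (0 : 𝔼) = 0 := fun B => by
      rw [qf_eq_sum]; simp
    rw [this, this]; simp
  have hv0 : 0 < ‖v‖ := norm_pos_iff.2 hv
  have h1 := abs_qf_inv_sub h h' v
  have hX : 0 ≤ qf A⁻¹ v := le_trans (by positivity) (h.inv_low v)
  have hY : 0 ≤ qf A'⁻¹ v := le_trans (by positivity) (h'.inv_low v)
  have h2 : |√(qf A⁻¹ v) - √(qf A'⁻¹ v)| * (√(qf A⁻¹ v) + √(qf A'⁻¹ v)) =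
      |qf A⁻¹ v - qf A'⁻¹ v| := by
    rw [← abs_of_nonneg (add_nonneg (Real.sqrt_nonneg (qf A⁻¹ v)) (Real.sqrt_nonneg (qf A'⁻¹ v))),
      ← abs_mul]
    congr 1
    have h3 := Real.sq_sqrt hX
    have h4 := Real.sq_sqrt hY
    linear_combination h3 - h4
  have h3 : ‖v‖ ≤ √(qf A⁻¹ v) + √(qf A'⁻¹ v) := by
    linarith [h.sqrt_low v, h'.sqrt_low v]
  have h4 : |√(qf A⁻¹ v) - √(qf A'⁻¹ v)| * ‖v‖ ≤
      4 * (∑ a, ∑ b, |A a b - A' a b|) * ‖v‖ * ‖v‖ := by
    calc _ ≤ |√(qf A⁻¹ v) - √(qf A'⁻¹ v)| * (√(qf A⁻¹ v) + √(qf A'⁻¹ v)) :=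
          mul_le_mul_of_nonneg_left h3 (abs_nonneg _)
      _ = |qf A⁻¹ v - qf A'⁻¹ v| := h2
      _ ≤ 4 * (∑ a, ∑ b, |A a b - A' a b|) * ‖v‖ ^ 2 := h1
      _ = _ := by ring
  exact le_of_mul_le_mul_right h4 hv0

theorem Nr.one : Nr (1 : Matrix (Fin n) (Fin n) ℝ) :=
  Nr.of_near (by simp [Matrix.IsSymm]) (ε := 0) (by norm_num) (by
    simp [Matrix.one_apply])

theorem qf_one (v : 𝔼) : qf (1 : Matrix (Fin n) (Fin n) ℝ) v = ‖v‖ ^ 2 := by
  rw [qf_eq_sum, norm_sq_eq_sum]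
  simp [Matrix.one_apply]

/-- matrices near `1`: the dual norm is near the norm -/
theorem sqrt_qf_inv_near {A : Matrix (Fin n) (Fin n) ℝ} (hs : A.IsSymm) {ε : ℝ} (hε : ε ≤ 1 / 2)
    (hA : ∑ a, ∑ b, |A a b - if a = b then 1 else 0| ≤ ε) (v : 𝔼) :
    |√(qf A⁻¹ v) - ‖v‖| ≤ 4 * ε * ‖v‖ := by
  have h1 := sqrt_qf_inv_sub (Nr.of_near hs hε hA) Nr.one v
  rw [inv_one, qf_one, Real.sqrt_sq (norm_nonneg _)] at h1
  refine h1.trans ?_
  simp only [Matrix.one_apply]
  gcongr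

end mat


/-! ### one manifold -/

section one

local notation "𝔼" => EuclideanSpace ℝ (Fin 4)

variable {M : Type} [MetricSpace M] [CompleteSpace M] [ConnectedSpace M]
  [ChartedSpace (EuclideanSpace ℝ (Fin 4)) M]
  [IsManifold 𝓘(ℝ, EuclideanSpace ℝ (Fin 4)) ∞ M]
  [RiemannianBundle (fun x : M => TangentSpace 𝓘(ℝ, EuclideanSpace ℝ (Fin 4)) x)]
  [IsContMDiffRiemannianBundle 𝓘(ℝ, EuclideanSpace ℝ (Fin 4)) ∞ (EuclideanSpace ℝ (Fin 4))
    (fun x : M => TangentSpace 𝓘(ℝ, EuclideanSpace ℝ (Fin 4)) x)]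
  [IsRiemannianManifold 𝓘(ℝ, EuclideanSpace ℝ (Fin 4)) M]
  [MeasurableSpace M] [BorelSpace M]

theorem contMDiffAt_two {u : Fin 4 → M → ℝ} {x : M} {W : ℝ}
    (hu : ∀ a, ContMDiffOn 𝓘(ℝ, 𝔼) 𝓘(ℝ, ℝ) ∞ (u a) (ball x W)) (a : Fin 4) {y : M}
    (hy : y ∈ ball x W) : ContMDiffAt 𝓘(ℝ, 𝔼) 𝓘(ℝ, ℝ) 2 (u a) y :=
  ((hu a).contMDiffAt (isOpen_ball.mem_nhds hy)).of_le two_le_infty

/-- the `L¹` bound of the Hessians from the Morrey bound -/
theorem hsum_le (hRic : HasRicciLowerBound 4 M 0) {u : Fin 4 → M → ℝ} {x : M} {W : ℝ}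
    (hu : ∀ a, ContMDiffOn 𝓘(ℝ, 𝔼) 𝓘(ℝ, ℝ) ∞ (u a) (ball x W)) {z : M} {r B l : ℝ} (hr : 0 < r)
    (hl : 0 < l) (hz : closedBall z r ⊆ ball x W)
    (hB : ∫ y in ball z r, ∑ a, mHessSq 4 (u a) y ∂(μHE[4] : Measure M) ≤ B) :
    ∫⁻ y in ball z r, ENNReal.ofReal (hsum u y) ∂(μHE[4] : Measure M) ≤
      ENNReal.ofReal (l / 2 * B + 2 / l * (om4 * r ^ 4)) := by
  have := Crest.Agent.R247.HR216.properSpace_of_riemannian 4 M
  have := Crest.Agent.R247.GluM923.isLocallyFinite 4 M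
  have hcont : ContinuousOn (fun y => ∑ a, mHessSq 4 (u a) y) (closedBall z r) := by
    intro y hy
    refine ContinuousAt.continuousWithinAt ?_
    refine tendsto_finsetSum _ fun a _ => ?_
    exact Crest.Agent.R247.Bs84.continuousAt_mHessSq (contMDiffAt_two hu a (hz hy))
  have hi : IntegrableOn (fun y => ∑ a, mHessSq 4 (u a) y) (ball z r) (μHE[4] : Measure M) :=
    (hcont.integrableOn_compact (isCompact_closedBall z r)).mono_set ball_subset_closedBall
  have hfin : (μHE[4] : Measure M) (ball z r) ≠ ⊤ := measure_ball_lt_top.ne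
  have hi2 : IntegrableOn (fun y => l / 2 * (∑ a, mHessSq 4 (u a) y) + 2 / l) (ball z r)
      (μHE[4] : Measure M) := (hi.const_mul _).add (integrableOn_const hfin)
  have hn : ∀ a, ∀ y ∈ ball z r, 0 ≤ mHessSq 4 (u a) y := fun a y hy =>
    mHessSq_nonneg (contMDiffAt_two hu a (hz (ball_subset_closedBall hy)))
  have hpt : ∀ y ∈ ball z r, hsum u y ≤ l / 2 * (∑ a, mHessSq 4 (u a) y) + 2 / l := by
    intro y hy
    unfold hsum
    have h1 : ∀ a, √(mHessSq 4 (u a) y) ≤ l / 2 * mHessSq 4 (u a) y + 1 / (2 * l) := by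
      intro a
      have h2 := Real.sq_sqrt (hn a y hy)
      set t := √(mHessSq 4 (u a) y) with ht
      rw [← h2]
      have h3 : 0 ≤ (l * t - 1) ^ 2 / (2 * l) := by positivity
      have h4 : (l * t - 1) ^ 2 / (2 * l) = l / 2 * t ^ 2 + 1 / (2 * l) - t := by
        field_simp
        ring
      linarith
    calc ∑ a, √(mHessSq 4 (u a) y) ≤ ∑ a, (l / 2 * mHessSq 4 (u a) y + 1 / (2 * l)) :=
          Finset.sum_le_sum fun a _ => h1 a
      _ = l / 2 * (∑ a, mHessSq 4 (u a) y) + 2 / l := by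
          rw [Finset.sum_add_distrib, Finset.mul_sum, Finset.sum_const, Finset.card_univ,
            Fintype.card_fin, nsmul_eq_mul]
          push_cast
          field_simp
          ring
  calc ∫⁻ y in ball z r, ENNReal.ofReal (hsum u y) ∂(μHE[4] : Measure M)
      ≤ ∫⁻ y in ball z r, ENNReal.ofReal (l / 2 * (∑ a, mHessSq 4 (u a) y) + 2 / l)
          ∂(μHE[4] : Measure M) := setLIntegral_mono' measurableSet_ball fun y hy =>
            ENNReal.ofReal_le_ofReal (hpt y hy)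
    _ = ENNReal.ofReal (∫ y in ball z r, (l / 2 * (∑ a, mHessSq 4 (u a) y) + 2 / l)
          ∂(μHE[4] : Measure M)) := by
        rw [ofReal_integral_eq_lintegral_ofReal hi2]
        refine (ae_restrict_iff' measurableSet_ball).2 (Eventually.of_forall fun y hy => ?_)
        have : 0 ≤ ∑ a, mHessSq 4 (u a) y := Finset.sum_nonneg fun a _ => hn a y hy
        change 0 ≤ l / 2 * (∑ a, mHessSq 4 (u a) y) + 2 / l
        positivity
    _ ≤ _ := by
        refine ENNReal.ofReal_le_ofReal ?_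
        rw [integral_add (hi.const_mul _) (integrableOn_const hfin), integral_const_mul,
          setIntegral_const, smul_eq_mul]
        have h1 : (μHE[4] : Measure M).real (ball z r) ≤ om4 * r ^ 4 :=
          ENNReal.toReal_le_of_le_ofReal (by have := om4_pos; positivity) (vol_le hRic z hr)
        have h2 : 0 ≤ 2 / l := by positivity
        have h3 : l / 2 * (∫ y in ball z r, ∑ a, mHessSq 4 (u a) y ∂(μHE[4] : Measure M)) ≤
            l / 2 * B := mul_le_mul_of_nonneg_left hB (by positivity)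
        nlinarith

/-- the integral of the deviation as a lower integral -/
theorem gdev_le {u : Fin 4 → M → ℝ} {x : M} {W : ℝ}
    (hu : ∀ a, ContMDiffOn 𝓘(ℝ, 𝔼) 𝓘(ℝ, ℝ) ∞ (u a) (ball x W)) {z : M} {r B : ℝ}
    (A : Matrix (Fin 4) (Fin 4) ℝ) (hz : closedBall z r ⊆ ball x W)
    (hB : ∫ y in ball z r, ∑ a, ∑ b, |mGam 4 (u a) (u b) y - A a b| ∂(μHE[4] : Measure M) ≤ B) :
    ∫⁻ y in ball z r, ENNReal.ofReal (gdev A u y) ∂(μHE[4] : Measure M) ≤ ENNReal.ofReal B := by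
  have hi := integrableOn_dev hu A hz 1
  simp only [one_mul] at hi
  have h1 : ∫⁻ y in ball z r, ENNReal.ofReal (gdev A u y) ∂(μHE[4] : Measure M) =
      ENNReal.ofReal (∫ y in ball z r, ∑ a, ∑ b, |mGam 4 (u a) (u b) y - A a b|
        ∂(μHE[4] : Measure M)) := by
    rw [ofReal_integral_eq_lintegral_ofReal hi]
    · rfl
    · exact Eventually.of_forall fun y =>
        Finset.sum_nonneg fun _ _ => Finset.sum_nonneg fun _ _ => abs_nonneg _
  rw [h1]
  exact ENNReal.ofReal_le_ofReal hB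

end one

/-! ### the sequence -/

section seq

local notation "𝔼" => EuclideanSpace ℝ (Fin 4)

variable {M : ℕ → Type} [∀ k, MetricSpace (M k)] [∀ k, CompleteSpace (M k)]
  [∀ k, ConnectedSpace (M k)] [∀ k, ChartedSpace (EuclideanSpace ℝ (Fin 4)) (M k)]
  [∀ k, IsManifold 𝓘(ℝ, EuclideanSpace ℝ (Fin 4)) ∞ (M k)]
  [∀ k, RiemannianBundle (fun x : M k => TangentSpace 𝓘(ℝ, EuclideanSpace ℝ (Fin 4)) x)]
  [∀ k, IsContMDiffRiemannianBundle 𝓘(ℝ, EuclideanSpace ℝ (Fin 4)) ∞ (EuclideanSpace ℝ (Fin 4))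
    (fun x : M k => TangentSpace 𝓘(ℝ, EuclideanSpace ℝ (Fin 4)) x)]
  [∀ k, IsRiemannianManifold 𝓘(ℝ, EuclideanSpace ℝ (Fin 4)) (M k)]
  [∀ k, MeasurableSpace (M k)] [∀ k, BorelSpace (M k)] {q : ∀ k, M k}
  {x : ∀ k, M k} {hx : Bd q x} {ρ α C C' ε ε₁ δ lam : ℝ} {lamk : ℕ → ℝ}
  {u : ∀ k, Fin 4 → M k → ℝ} {h : UL q → Matrix (Fin 4) (Fin 4) ℝ}

/-- near isometry along the sequence, at small scales -/
theorem ev_ni (hδ : δ ≤ 1 / 2) (hε : ε₁ ≤ 1 / 2) (hD : HData x ρ α C ε δ lam lamk u)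
    (hA : AvOut x hx ρ α C' ε₁ u h) {η : ℝ} (hη : 0 < η) :
    ∃ s₁ : ℝ, 0 < s₁ ∧ s₁ ≤ ρ / 6 ∧ ∀ z ∈ ball (UL.mk x hx) (4 * ρ), ∀ s : ℝ, 0 < s → s ≤ s₁ →
      ∀ᶠ k in om, ∀ y ∈ ball (z.rep k) s, ∀ y' ∈ ball (z.rep k) s,
        |√(qf (h z)⁻¹ (uv (u k) y - uv (u k) y')) - dist y y'| ≤ η * s := by
  have hρ := hD.ρ_pos
  have hα0 : 0 < α := by linarith [hD.α_gt]
  have hα1 := hD.α_lt
  have hC := hD.C_pos
  have hw := om4_pos
  obtain ⟨d, hd, key⟩ := ni.{0} 4 (ε := η) (c := 1 / 2) (L := 2) (Λ := 2) hη (by norm_num)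
    (by norm_num) (by norm_num)
  set D : ℝ := |C'| with hDdef
  have hD0 : 0 ≤ D := abs_nonneg _
  -- the constants
  set K₁ : ℝ := D * 7776 with hK₁
  set K₂ : ℝ := C / 2 * 1296 + 2 * (om4 * 1296) with hK₂
  have hK₁0 : 0 ≤ K₁ := by positivity
  have hK₂0 : 0 < K₂ := by positivity
  -- the scale
  have ht : ∀ K : ℝ, ∀ᶠ s : ℝ in 𝓝[>] 0, K * s ^ α < d := by
    intro K
    have h1 : Tendsto (fun s : ℝ => s ^ α) (𝓝[>] 0) (𝓝 0) := by
      have h2 := (Real.continuousAt_rpow_const (0 : ℝ) α (Or.inr hα0.le)).tendsto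
      rw [Real.zero_rpow hα0.ne'] at h2
      exact h2.mono_left nhdsWithin_le_nhds
    have h3 : Tendsto (fun s : ℝ => K * s ^ α) (𝓝[>] 0) (𝓝 0) := by simpa using h1.const_mul K
    exact (tendsto_order.1 h3).2 d hd
  have h2 : ∀ᶠ s : ℝ in 𝓝[>] 0, s ∈ Ioo (0 : ℝ) (min (ρ / 6) 1) :=
    Ioo_mem_nhdsGT (lt_min (by positivity) one_pos)
  obtain ⟨s₁, ⟨hs1, hs2⟩, hs3⟩ := (((ht K₁).and (ht K₂)).and h2).exists
  refine ⟨s₁, hs3.1, hs3.2.le.trans (min_le_left _ _), ?_⟩
  intro z hz s hs hss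
  have hs6 : s ≤ ρ / 6 := hss.trans (hs3.2.le.trans (min_le_left _ _))
  have hs11 : s ≤ 1 := hss.trans (hs3.2.le.trans (min_le_right _ _))
  have hN : Nr (h z) := Nr.of_near (by
    ext a b; exact hA.symm z b a) hε (hA.near z hz)
  have hmono : ∀ K : ℝ, 0 ≤ K → K * s₁ ^ α < d → K * s ^ α ≤ d := by
    intro K hK h1
    have h3 : s ^ α ≤ s₁ ^ α := Real.rpow_le_rpow hs.le hss hα0.le
    nlinarith
  have hmem : ∀ᶠ k in om, z.rep k ∈ ball (x k) (4 * ρ) := by
    refine UL.ev_lt z.bd_rep hx ?_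
    rw [UL.mk_rep]
    exact hz
  have hav := hA.av z hz (6 * s) (by positivity) (by linarith)
  filter_upwards [hD.ric, hD.pinch, hD.smooth, hD.harm, hmem, hav,
    hD.hess (6 * s) (by positivity)] with k hric hpin hsm hharm hmem hav hhess
  intro y hy y' hy'
  have hcb : closedBall (z.rep k) (6 * s) ⊆ ball (x k) (16 * ρ) := by
    intro w hw
    have h1 := mem_closedBall.1 hw
    have h2 := mem_ball.1 hmem
    have h3 := dist_triangle w (z.rep k) (x k)
    rw [mem_ball]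
    linarith
  have hzk8 : z.rep k ∈ ball (x k) (8 * ρ) := ball_subset_ball (by linarith) hmem
  have hzk16 : z.rep k ∈ ball (x k) (16 * ρ) := ball_subset_ball (by linarith) hmem
  refine key (M k) 0 le_rfl (by simpa using hric) (z.rep k) s hs (by simp) ?_ (h z) hN.sym
    hN.low hN.up (u k) (fun b w hw => contMDiffAt_two hsm b (hcb (ball_subset_closedBall hw)))
    (fun b w hw => ?_) ?_ ?_ y y' hy hy'
  · refine le_trans ?_ (hpin (z.rep k) hzk16 s hs (by linarith))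
    gcongr
    linarith
  · have h1 := (hharm b w (hcb (ball_subset_closedBall hw))).2
    linarith
  · refine (gdev_le hsm (h z) hcb hav).trans (ENNReal.ofReal_le_ofReal ?_)
    have h1 : (6 * s) ^ (4 + α) ≤ 7776 * s ^ 4 * s ^ α := by
      rw [Real.rpow_add (by positivity), Real.mul_rpow (by norm_num) hs.le (z := α)]
      have h1 : (6 : ℝ) ^ α ≤ 6 := by
        calc (6 : ℝ) ^ α ≤ 6 ^ (1 : ℝ) := Real.rpow_le_rpow_of_exponent_le (by norm_num) hα1.le
          _ = 6 := Real.rpow_one 6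
      have h2 : (6 * s) ^ (4 : ℝ) = 1296 * s ^ 4 := by
        rw [show (4 : ℝ) = ((4 : ℕ) : ℝ) by norm_num, Real.rpow_natCast]; ring
      rw [h2]
      have h4 : 0 ≤ s ^ 4 * s ^ α := by positivity
      nlinarith
    calc C' * (6 * s) ^ (4 + α) ≤ D * (6 * s) ^ (4 + α) := by
          gcongr
          exact le_abs_self _
      _ ≤ D * (7776 * s ^ 4 * s ^ α) := by gcongr
      _ = K₁ * s ^ α * s ^ 4 := by rw [hK₁]; ring
      _ ≤ d * s ^ 4 := by
          gcongr
          exact hmono K₁ hK₁0 hs1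
  · have hh := hhess (z.rep k) hzk8 (6 * s) le_rfl (by linarith)
    have hl : 0 < s ^ (1 - α) := by positivity
    have h1 := hsum_le hric hsm (z := z.rep k) (r := 6 * s) (l := s ^ (1 - α)) (by positivity) hl
      hcb hh
    calc ENNReal.ofReal s * ∫⁻ w in ball (z.rep k) (6 * s), ENNReal.ofReal (hsum (u k) w)
          ∂(μHE[4] : Measure (M k))
        ≤ ENNReal.ofReal s * ENNReal.ofReal (s ^ (1 - α) / 2 * (C * (6 * s) ^ (2 + 2 * α)) +
          2 / s ^ (1 - α) * (om4 * (6 * s) ^ 4)) := by gcongr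
      _ = ENNReal.ofReal (s * (s ^ (1 - α) / 2 * (C * (6 * s) ^ (2 + 2 * α)) +
          2 / s ^ (1 - α) * (om4 * (6 * s) ^ 4))) := by rw [ENNReal.ofReal_mul hs.le]
      _ ≤ ENNReal.ofReal (d * s ^ 4) := by
          refine ENNReal.ofReal_le_ofReal ?_
          have e1 : (6 * s) ^ (2 + 2 * α) ≤ 1296 * (s ^ 2 * (s ^ α * s ^ α)) := by
            rw [Real.mul_rpow (by norm_num) hs.le]
            have h2 : (6 : ℝ) ^ (2 + 2 * α) ≤ 1296 := by
              calc (6 : ℝ) ^ (2 + 2 * α) ≤ 6 ^ (4 : ℝ) :=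
                    Real.rpow_le_rpow_of_exponent_le (by norm_num) (by linarith)
                _ = 1296 := by
                    rw [show (4 : ℝ) = ((4 : ℕ) : ℝ) by norm_num, Real.rpow_natCast]; norm_num
            have h3 : s ^ (2 + 2 * α) = s ^ 2 * (s ^ α * s ^ α) := by
              rw [Real.rpow_add hs, ← Real.rpow_add hs α α, ← two_mul]
              congr 1
              rw [show (2 : ℝ) = ((2 : ℕ) : ℝ) by norm_num, Real.rpow_natCast]
            rw [h3]
            have h4 : 0 ≤ s ^ 2 * (s ^ α * s ^ α) := by positivity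
            nlinarith
          have e2 : s ^ (1 - α) * s ^ α = s := by
            rw [← Real.rpow_add hs]; simp
          have e3 : 2 / s ^ (1 - α) = 2 * s ^ α / s := by
            have e2' : s ^ α * s ^ (1 - α) = s := by rw [mul_comm]; exact e2
            rw [div_eq_div_iff hl.ne' hs.ne', mul_assoc, e2']
          have e4 : s * (s ^ (1 - α) / 2 * (C * (6 * s) ^ (2 + 2 * α))) ≤
              C / 2 * 1296 * s ^ α * s ^ 4 := by
            calc s * (s ^ (1 - α) / 2 * (C * (6 * s) ^ (2 + 2 * α)))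
                ≤ s * (s ^ (1 - α) / 2 * (C * (1296 * (s ^ 2 * (s ^ α * s ^ α))))) := by gcongr
              _ = C / 2 * 1296 * s ^ α * (s * s ^ 2 * (s ^ (1 - α) * s ^ α)) := by ring
              _ = _ := by rw [e2]; ring
          have e5 : s * (2 / s ^ (1 - α) * (om4 * (6 * s) ^ 4)) =
              2 * (om4 * 1296) * s ^ α * s ^ 4 := by
            rw [e3]
            field_simp
            ring
          calc s * (s ^ (1 - α) / 2 * (C * (6 * s) ^ (2 + 2 * α)) +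
                2 / s ^ (1 - α) * (om4 * (6 * s) ^ 4))
              = s * (s ^ (1 - α) / 2 * (C * (6 * s) ^ (2 + 2 * α))) +
                s * (2 / s ^ (1 - α) * (om4 * (6 * s) ^ 4)) := by ring
            _ ≤ C / 2 * 1296 * s ^ α * s ^ 4 + 2 * (om4 * 1296) * s ^ α * s ^ 4 := by
                rw [e5]; gcongr
            _ = K₂ * s ^ α * s ^ 4 := by rw [hK₂]; ring
            _ ≤ d * s ^ 4 := by
                gcongr
                exact hmono K₂ hK₂0.le hs2

/-- the limit of the maps -/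
theorem exists_U (hD : HData x ρ α C ε δ lam lamk u) : ∃ U : UL q → EuclideanSpace ℝ (Fin 4),
    (∀ a, LimOn (ball (UL.mk x hx) (8 * ρ)) (fun k => u k a) fun y => U y a) ∧
      U (UL.mk x hx) = 0 := by
  have hρ := hD.ρ_pos
  set T : UL q ≃ᵢ UL x := UL.rebase hx with hT
  have hE : ∀ a, EqC x (fun k => u k a) (8 * ρ) := by
    intro a
    refine EqC.of_lipschitz (L := 2) ?_ ⟨0, 0, ?_⟩
    · filter_upwards [hD.smooth, hD.harm] with k hsm hharm y z hy hz
      have h1 := WH_509.lip_of_grad (n := 4) (f := u k a) (Λ := 2) (r := 16 * ρ) (x := x k)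
        two_pos (fun w hw => ((hsm a).contMDiffAt (isOpen_ball.mem_nhds hw)).of_le (by simp))
        (fun w hw => by have := (hharm a w hw).2; linarith)
        (y := y) (z := z) (by rw [mem_ball, dist_comm]; linarith)
        (by rw [mem_ball, dist_comm]; linarith)
      rw [Real.dist_eq]
      exact h1
    · filter_upwards [hD.zero] with k hk
      rw [hk a, dist_self]
  refine ⟨fun y => WithLp.toLp 2 fun a => UL.flim (fun k => u k a) (T y), ?_, ?_⟩
  · intro a y hy hyb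
    have h1 : T (UL.mk y hy) = UL.mk y (hx.bd_iff.1 hy) := UL.rebase_mk hx hy
    have h2 : dist (UL.base x) (UL.mk y (hx.bd_iff.1 hy)) < 8 * ρ := by
      rw [← h1, ← UL.rebase_base hx, ← hT, T.dist_eq, dist_comm]
      exact hyb
    have h3 := (hE a).tendsto_flim (hx.bd_iff.1 hy) h2
    change Tendsto (fun k => u k a (y k)) om (𝓝 (UL.flim (fun k => u k a) (T (UL.mk y hy))))
    rw [h1]
    exact h3
  · ext a
    have h1 : T (UL.mk x hx) = UL.base x := UL.rebase_base hx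
    have h2 := (hE a).tendsto_flim (Bd.refl x) (by
      change dist (UL.base x) (UL.base x) < 8 * ρ
      rw [dist_self]; positivity)
    have h3 : Tendsto (fun k => u k a (x k)) om (𝓝 0) :=
      tendsto_const_nhds.congr' (hD.zero.mono fun k hk => (hk a).symm)
    change UL.flim (fun k => u k a) (T (UL.mk x hx)) = 0
    rw [h1]
    exact tendsto_nhds_unique h2 h3

theorem tendsto_uv {U : UL q → EuclideanSpace ℝ (Fin 4)} {R : ℝ}
    (hlim : ∀ a, LimOn (ball (UL.mk x hx) R) (fun k => u k a) fun y => U y a) {y : UL q}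
    (hy : y ∈ ball (UL.mk x hx) R) :
    Tendsto (fun k => uv (u k) (y.rep k)) om (𝓝 (U y)) := by
  have h2 : Tendsto (fun k => (fun a => u k a (y.rep k) : Fin 4 → ℝ)) om
      (𝓝 fun a => U y a) := by
    rw [tendsto_pi_nhds]
    intro a
    have h3 := hlim a y.rep y.bd_rep (by rw [UL.mk_rep]; exact hy)
    rwa [UL.mk_rep] at h3
  exact ((PiLp.continuous_toLp 2 _).tendsto _).comp h2

/-- near isometry of the limit map at small scales -/
theorem ul_ni (hδ : δ ≤ 1 / 2) (hε : ε₁ ≤ 1 / 2) (hD : HData x ρ α C ε δ lam lamk u)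
    (hA : AvOut x hx ρ α C' ε₁ u h) {U : UL q → EuclideanSpace ℝ (Fin 4)}
    (hlim : ∀ a, LimOn (ball (UL.mk x hx) (8 * ρ)) (fun k => u k a) fun y => U y a)
    {η : ℝ} (hη : 0 < η) :
    ∃ s₁ : ℝ, 0 < s₁ ∧ s₁ ≤ ρ / 6 ∧ ∀ z ∈ ball (UL.mk x hx) (4 * ρ), ∀ s : ℝ, 0 < s → s ≤ s₁ →
      ∀ y ∈ ball z s, ∀ y' ∈ ball z s,
        |√(qf (h z)⁻¹ (U y - U y')) - dist y y'| ≤ η * s := by
  have hρ := hD.ρ_pos
  obtain ⟨s₁, h1, h2, h3⟩ := ev_ni hδ hε hD hA hη
  refine ⟨s₁, h1, h2, ?_⟩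
  intro z hz s hs hss y hy y' hy'
  have hmem : ∀ w ∈ ball z s, w ∈ ball (UL.mk x hx) (8 * ρ) := by
    intro w hw
    have e1 := mem_ball.1 hw
    have e2 := mem_ball.1 hz
    have e3 := dist_triangle w z (UL.mk x hx)
    rw [mem_ball]
    linarith
  have hev : ∀ w ∈ ball z s, ∀ᶠ k in om, w.rep k ∈ ball (z.rep k) s := by
    intro w hw
    refine UL.ev_lt w.bd_rep z.bd_rep ?_
    rw [UL.mk_rep, UL.mk_rep]
    exact hw
  have ht : Tendsto (fun k => |√(qf (h z)⁻¹ (uv (u k) (y.rep k) - uv (u k) (y'.rep k))) -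
      dist (y.rep k) (y'.rep k)|) om (𝓝 |√(qf (h z)⁻¹ (U y - U y')) - dist y y'|) := by
    have e1 := (tendsto_uv hlim (hmem y hy)).sub (tendsto_uv hlim (hmem y' hy'))
    have e2 := (((continuous_qf (h z)⁻¹).tendsto _).comp e1).sqrt
    exact (e2.sub (UL.tendsto_dist_rep y y')).abs
  refine le_of_tendsto ht ?_
  filter_upwards [h3 z hz s hs hss, hev y hy, hev y' hy'] with k hk hk1 hk2
  exact hk _ hk1 _ hk2

end seq

end Crest.Agent.R249.Ch174
end
end

-- ▼ part R249/Ch3_174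

/-!
# R249 (helper174), D3-LIM/CH: the chart, final statement `chStmt : ChStmt`
-/

set_option autoImplicit false
noncomputable section
open Set Filter Topology Bundle MeasureTheory Metric
open scoped ContDiff Manifold ENNReal NNReal Matrix
open Crest.GeometryTopology.CoordMetric Crest.GeometryTopology.ChartCurvature
  Crest.GeometryTopology.RicciEnergy Crest.GeometryTopology.PointedLimit
open Crest.Agent.R247.Bo84
open Crest.Agent.R249.D1Def104 Crest.Agent.R249.Ul174 Crest.Agent.R249.Len47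
open Crest.Agent.R249.AsmD832 Crest.Agent.R249.LimDef41 Crest.Agent.R249.St174
open Crest.Agent.R249.VE_222 Crest.Agent.R249.Two709
open Crest.Agent.R249.UH1_544 Crest.Agent.R249.UH3_544

namespace Crest.Agent.R249.Ch174

section seq

local notation "𝔼" => EuclideanSpace ℝ (Fin 4)

variable {M : ℕ → Type} [∀ k, MetricSpace (M k)] [∀ k, CompleteSpace (M k)]
  [∀ k, ConnectedSpace (M k)] [∀ k, ChartedSpace (EuclideanSpace ℝ (Fin 4)) (M k)]
  [∀ k, IsManifold 𝓘(ℝ, EuclideanSpace ℝ (Fin 4)) ∞ (M k)]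
  [∀ k, RiemannianBundle (fun x : M k => TangentSpace 𝓘(ℝ, EuclideanSpace ℝ (Fin 4)) x)]
  [∀ k, IsContMDiffRiemannianBundle 𝓘(ℝ, EuclideanSpace ℝ (Fin 4)) ∞ (EuclideanSpace ℝ (Fin 4))
    (fun x : M k => TangentSpace 𝓘(ℝ, EuclideanSpace ℝ (Fin 4)) x)]
  [∀ k, IsRiemannianManifold 𝓘(ℝ, EuclideanSpace ℝ (Fin 4)) (M k)]
  [∀ k, MeasurableSpace (M k)] [∀ k, BorelSpace (M k)] {q : ∀ k, M k}
  {x : ∀ k, M k} {hx : Bd q x} {ρ α C C' ε ε₁ δ lam : ℝ} {lamk : ℕ → ℝ}
  {u : ∀ k, Fin 4 → M k → ℝ} {h : UL q → Matrix (Fin 4) (Fin 4) ℝ}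
  {U : UL q → EuclideanSpace ℝ (Fin 4)}

/-- the limit map is a near isometry, with respect to the Euclidean norm -/
theorem ul_ni_one (hδ : δ ≤ 1 / 2) {ε₀ : ℝ} (hε₀ : 0 < ε₀) (hε₀1 : ε₀ ≤ 1 / 2)
    (hε : ε₁ ≤ ε₀ / 16) (hD : HData x ρ α C ε δ lam lamk u)
    (hA : AvOut x hx ρ α C' ε₁ u h)
    (hlim : ∀ a, LimOn (ball (UL.mk x hx) (8 * ρ)) (fun k => u k a) fun y => U y a) :
    ∃ s₁ : ℝ, 0 < s₁ ∧ s₁ ≤ ρ ∧ ∀ y ∈ ball (UL.mk x hx) (4 * ρ),
      ∀ y' ∈ ball (UL.mk x hx) (4 * ρ), dist y y' < s₁ →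
      |dist (U y) (U y') - dist y y'| ≤ ε₀ * dist y y' := by
  have hρ := hD.ρ_pos
  have hε2 : ε₁ ≤ 1 / 2 := by linarith
  obtain ⟨s₁, h1, h2, h3⟩ := ul_ni hδ hε2 hD hA hlim (η := ε₀ / 8) (by positivity)
  refine ⟨s₁ / 2, by positivity, by linarith, ?_⟩
  intro y hy y' hy' hd
  rcases eq_or_ne y y' with rfl | hne
  · simp
  have hd0 : 0 < dist y y' := dist_pos.2 hne
  set d := dist y y' with hdd
  have e1 := h3 y hy (2 * d) (by positivity) (by linarith) y (mem_ball_self (by positivity)) y'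
    (by rw [mem_ball, dist_comm, ← hdd]; linarith)
  have hsym : (h y).IsSymm := by
    ext a b; exact hA.symm y b a
  have hε10 : 0 ≤ ε₁ := le_trans (Finset.sum_nonneg fun _ _ => Finset.sum_nonneg fun _ _ =>
    abs_nonneg _) (hA.near y hy)
  have e2 := sqrt_qf_inv_near hsym hε2 (hA.near y hy) (U y - U y')
  rw [← dist_eq_norm] at e2
  set D := dist (U y) (U y') with hDD
  have hDn : 0 ≤ D := dist_nonneg
  have e3 := abs_le.1 e1
  have e4 := abs_le.1 e2
  -- `D ≤ 2 d`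
  have e5 : D ≤ 2 * d := by nlinarith [e3.1, e3.2, e4.1, e4.2]
  have e6 : 4 * ε₁ * D ≤ ε₀ / 2 * d := by nlinarith
  rw [abs_le]
  constructor <;> nlinarith [e3.1, e3.2, e4.1, e4.2]

/-- the infinitesimal scale, uniformly -/
theorem ul_inf (hδ : δ ≤ 1 / 2) (hε : ε₁ ≤ 1 / 2) (hD : HData x ρ α C ε δ lam lamk u)
    (hA : AvOut x hx ρ α C' ε₁ u h)
    (hlim : ∀ a, LimOn (ball (UL.mk x hx) (8 * ρ)) (fun k => u k a) fun y => U y a) {r₀ : ℝ}
    (hr : 4 * r₀ ≤ ρ)
    (hni : ∀ y ∈ ball (UL.mk x hx) (4 * r₀), ∀ y' ∈ ball (UL.mk x hx) (4 * r₀),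
      |dist (U y) (U y') - dist y y'| ≤ 1 / 10 * dist y y') {η : ℝ} (hη : 0 < η) :
    ∃ r : ℝ, 0 < r ∧ ∀ y ∈ ball (UL.mk x hx) (4 * r₀),
      ∀ y' ∈ ball (UL.mk x hx) (4 * r₀), ∀ y'' ∈ ball (UL.mk x hx) (4 * r₀), dist y y' < r →
        dist y y'' < r → |√(qf (h y)⁻¹ (U y' - U y'')) - dist y' y''| ≤ η * dist y' y'' := by
  have hρ := hD.ρ_pos
  have hα0 : 0 < α := by linarith [hD.α_gt]
  obtain ⟨s₁, h1, h2, h3⟩ := ul_ni hδ hε hD hA hlim (η := η / 4) (by positivity)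
  set D : ℝ := |C'| with hDdef
  have hD0 : 0 ≤ D := abs_nonneg _
  have ht : ∀ᶠ r : ℝ in 𝓝[>] 0, (256 * D) * r ^ α < η := by
    have e1 : Tendsto (fun s : ℝ => s ^ α) (𝓝[>] 0) (𝓝 0) := by
      have e2 := (Real.continuousAt_rpow_const (0 : ℝ) α (Or.inr hα0.le)).tendsto
      rw [Real.zero_rpow hα0.ne'] at e2
      exact e2.mono_left nhdsWithin_le_nhds
    have e3 : Tendsto (fun s : ℝ => (256 * D) * s ^ α) (𝓝[>] 0) (𝓝 0) := by
      simpa using e1.const_mul (256 * D)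
    exact (tendsto_order.1 e3).2 η hη
  have ht2 : ∀ᶠ r : ℝ in 𝓝[>] 0, r ∈ Ioo (0 : ℝ) (s₁ / 4) := Ioo_mem_nhdsGT (by positivity)
  obtain ⟨r, hr1, hr2⟩ := (ht.and ht2).exists
  refine ⟨r, hr2.1, ?_⟩
  intro y hy y' hy' y'' hy'' hd1 hd2
  have h4 : ∀ w ∈ ball (UL.mk x hx) (4 * r₀), w ∈ ball (UL.mk x hx) (4 * ρ) := fun w hw =>
    ball_subset_ball (by linarith) hw
  rcases eq_or_ne y' y'' with rfl | hne
  · have : qf (h y)⁻¹ (U y' - U y') = 0 := by
      rw [sub_self, qf_eq_sum]; simp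
    rw [this]; simp
  have hd0 : 0 < dist y' y'' := dist_pos.2 hne
  set d := dist y' y'' with hdd
  have hd3 : d < 2 * r := by
    have := dist_triangle_left y' y'' y
    linarith
  have e1 := h3 y' (h4 y' hy') (2 * d) (by positivity) (by linarith [hr2.2]) y'
    (mem_ball_self (by positivity)) y'' (by rw [mem_ball, dist_comm, ← hdd]; linarith)
  have hN : ∀ w ∈ ball (UL.mk x hx) (4 * r₀), Nr (h w) := fun w hw =>
    Nr.of_near (by ext a b; exact hA.symm w b a) hε (hA.near w (h4 w hw))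
  have e2 := sqrt_qf_inv_sub (hN y hy) (hN y' hy') (U y' - U y'')
  have hS : ∑ a, ∑ b, |h y a b - h y' a b| ≤ 16 * (D * r ^ α) := by
    calc ∑ a, ∑ b, |h y a b - h y' a b| ≤ ∑ _a : Fin 4, ∑ _b : Fin 4, D * r ^ α := by
          refine Finset.sum_le_sum fun a _ => Finset.sum_le_sum fun b _ => ?_
          refine (hA.hold y (h4 y hy) y' (h4 y' hy') a b).trans ?_
          calc C' * dist y y' ^ α ≤ D * dist y y' ^ α := by
                gcongr
                exact le_abs_self _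
            _ ≤ D * r ^ α :=
                mul_le_mul_of_nonneg_left (Real.rpow_le_rpow dist_nonneg hd1.le hα0.le) hD0
      _ = 16 * (D * r ^ α) := by
          simp only [Finset.sum_const, Finset.card_univ, Fintype.card_fin, nsmul_eq_mul]
          push_cast
          ring
  have e3 : ‖U y' - U y''‖ ≤ 2 * d := by
    rw [← dist_eq_norm]
    have := (abs_le.1 (hni y' hy' y'' hy'')).2
    linarith
  have e4 : 4 * (∑ a, ∑ b, |h y a b - h y' a b|) * ‖U y' - U y''‖ ≤ η / 2 * d := by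
    have h5 : 0 ≤ ∑ a, ∑ b, |h y a b - h y' a b| :=
      Finset.sum_nonneg fun _ _ => Finset.sum_nonneg fun _ _ => abs_nonneg _
    calc 4 * (∑ a, ∑ b, |h y a b - h y' a b|) * ‖U y' - U y''‖
        ≤ 4 * (16 * (D * r ^ α)) * (2 * d) :=
          mul_le_mul (mul_le_mul_of_nonneg_left hS (by norm_num)) e3 (norm_nonneg _)
            (mul_nonneg (by norm_num) (h5.trans hS))
      _ = (256 * D) * r ^ α / 2 * d := by ring
      _ ≤ η / 2 * d := by gcongr
  calc |√(qf (h y)⁻¹ (U y' - U y'')) - d|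
      = |(√(qf (h y)⁻¹ (U y' - U y'')) - √(qf (h y')⁻¹ (U y' - U y''))) +
        (√(qf (h y')⁻¹ (U y' - U y'')) - d)| := by ring_nf
    _ ≤ |√(qf (h y)⁻¹ (U y' - U y'')) - √(qf (h y')⁻¹ (U y' - U y''))| +
        |√(qf (h y')⁻¹ (U y' - U y'')) - d| := abs_add_le _ _
    _ ≤ η / 2 * d + η / 4 * (2 * d) := add_le_add (e2.trans e4) e1
    _ = η * d := by ring

end seq

/-- **CH** -/
theorem chStmt : ChStmt := by
  obtain ⟨ε₀, hε₀, hε₀1, hε₀η, hnum⟩ := num 4 (1 / 10) (by norm_num)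
  obtain ⟨c, hc, δ', hδ', H⟩ := ul_chart_R.{0} 4 ε₀ hε₀
  refine ⟨ε₀ / 16, min (1 / 2) δ', by positivity, by positivity, ?_⟩
  intro M _ _ _ _ _ _ _ _ _ _ q x hx ρ α C C' ε δ lam lamk u h hδ hD hA
  have hρ := hD.ρ_pos
  have hδ1 : δ ≤ 1 / 2 := hδ.trans (min_le_left _ _)
  have hδ2 : δ ≤ δ' := hδ.trans (min_le_right _ _)
  obtain ⟨U, hlim, hU0⟩ := exists_U (hx := hx) hD
  obtain ⟨s₁, hs1, hs1ρ, hni1⟩ := ul_ni_one hδ1 hε₀ hε₀1 le_rfl hD hA hlim
  -- the radius
  set r₀ : ℝ := min (s₁ / 16) (4 * c * ρ) with hr₀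
  have hr0 : 0 < r₀ := by positivity
  have hr1 : r₀ ≤ s₁ / 16 := min_le_left _ _
  have hr2 : 4 * r₀ ≤ c * (16 * ρ) := by
    have : r₀ ≤ 4 * c * ρ := min_le_right _ _
    linarith
  have hr3 : 4 * r₀ ≤ ρ := by linarith
  set p : UL q := UL.mk x hx with hp
  have hNI : NI U p (4 * r₀) ε₀ := by
    intro y y' hy hy'
    have e1 := dist_triangle_left y y' p
    exact hni1 y (by rw [mem_ball, dist_comm]; linarith) y' (by rw [mem_ball, dist_comm]; linarith)
      (by linarith)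
  let _ : MeasurableSpace (UL q) := borel _
  have _ : BorelSpace (UL q) := ⟨rfl⟩
  obtain ⟨-, -, -, -, hV⟩ := H M q x hx (16 * ρ) (by positivity) hD.ric (by
    filter_upwards [hD.pinch] with k hk y hy r hr hr'
    refine le_trans ?_ (hk y hy r hr hr')
    gcongr)
  have hVL : VolLow p (4 * r₀) 4 ε₀ := (hV.1).mono hr2 le_rfl
  have hFull : Full U p (4 * r₀) ε₀ :=
    hNI.full hε₀.le (by linarith) (hnum ε₀ hε₀.le le_rfl).1 hVL
  obtain ⟨e, he1, he2, he3⟩ := homeo hε₀.le (by linarith) (hNI.mono (R' := r₀) (by linarith) le_rfl)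
    (hFull.mono (R' := r₀) (by linarith) le_rfl)
  have hni : ∀ y ∈ ball p (4 * r₀), ∀ y' ∈ ball p (4 * r₀),
      |dist (U y) (U y') - dist y y'| ≤ 1 / 10 * dist y y' := by
    intro y hy y' hy'
    refine (hNI y y' (by rw [dist_comm]; exact hy) (by rw [dist_comm]; exact hy')).trans ?_
    gcongr
  have hsrc : e.source = ball p r₀ := he1
  refine ⟨r₀, U, e, ⟨hr0, hr3, hlim, he3, hsrc, ?_, hni, ?_⟩, ?_⟩
  · intro w hw
    rw [he2]
    obtain ⟨z, hz1, hz2⟩ := hFull p r₀ hr0 (fun y hy => by linarith) w (by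
      rw [hU0, dist_comm]
      have : dist w 0 < r₀ / 2 := hw
      nlinarith)
    exact ⟨z, by rw [mem_ball, dist_comm]; exact hz1, hz2⟩
  · intro η hη
    exact ul_inf hδ1 (by linarith) hD hA hlim hr3 hni hη
  · exact spOut (R := 8 * ρ) hr0 (by linarith) hlim he3 hsrc hni

end Crest.Agent.R249.Ch174
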