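import Mathlib
import Crest.Agent.R249.Ul2_174
import Crest.Agent.R249.Ul4_174
import Crest.Agent.R249.Vm_274
import Crest.Agent.R249.Dens_274
import Crest.Agent.R249.D1Def_104

-- ▼ part R249/Fl1_174
section

/-!
# R249 (helper174), leaf D2-FLAT (1): isometric pieces of Euclidean space

* `affine_of_isom` : a map which is distance preserving on a ball of `ℝⁿ` into `ℝⁿ` is there
  `v ↦ f x + L (v - x)` with a linear isometry `L`;
* `Cht n z ρ` : the ball of radius `ρ` about `z : Y` is isometric to the Euclidean one;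
* `Cht.move`, `exists_uniform` : charts of nearby points, uniform radius on compact sets.
-/

set_option autoImplicit false
noncomputable section
open Set Filter Topology Metric

namespace Crest.Agent.R249.Fl174

/-- Euclidean space -/
abbrev E (n : ℕ) : Type := EuclideanSpace ℝ (Fin n)

variable {n : ℕ}

/-! ### isometric maps of balls are affine -/

theorem affine_of_isom {f : E n → E n} {x : E n} {r : ℝ} (hr : 0 < r)
    (h : ∀ v ∈ ball x r, ∀ w ∈ ball x r, dist (f v) (f w) = dist v w) :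
    ∃ L : E n ≃ₗᵢ[ℝ] E n, ∀ v ∈ ball x r, f v = f x + L (v - x) := by
  classical
  set F : E n → E n := fun v => f (x + v) - f x with hF
  have hmem : ∀ v : E n, ‖v‖ < r → x + v ∈ ball x r := by
    intro v hv
    rw [mem_ball, dist_eq_norm, add_sub_cancel_left]
    exact hv
  have hd : ∀ v w : E n, ‖v‖ < r → ‖w‖ < r → ‖F v - F w‖ = ‖v - w‖ := by
    intro v w hv hw
    have := h _ (hmem v hv) _ (hmem w hw)
    rw [dist_eq_norm, dist_eq_norm, add_sub_add_left_eq_sub] at this
    rw [← this]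
    simp only [hF]
    congr 1
    abel
  have hF0 : F 0 = 0 := by simp [hF]
  have hn : ∀ v : E n, ‖v‖ < r → ‖F v‖ = ‖v‖ := by
    intro v hv
    have := hd v 0 hv (by simpa using hr)
    rwa [hF0, sub_zero, sub_zero] at this
  have hi : ∀ v w : E n, ‖v‖ < r → ‖w‖ < r → inner ℝ (F v) (F w) = inner ℝ v w := by
    intro v w hv hw
    rw [real_inner_eq_norm_mul_self_add_norm_mul_self_sub_norm_sub_mul_self_div_two,
      real_inner_eq_norm_mul_self_add_norm_mul_self_sub_norm_sub_mul_self_div_two,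
      hd v w hv hw, hn v hv, hn w hw]
  set t : ℝ := r / 2 with ht
  have ht0 : 0 < t := by positivity
  set e : Fin n → E n := fun i => EuclideanSpace.basisFun (Fin n) ℝ i with he
  have he1 : Orthonormal ℝ e := (EuclideanSpace.basisFun (Fin n) ℝ).orthonormal
  have hte : ∀ i, ‖t • e i‖ < r := by
    intro i
    rw [norm_smul, he1.1 i, Real.norm_eq_abs, abs_of_pos ht0, mul_one]
    linarith
  set b : Fin n → E n := fun i => t⁻¹ • F (t • e i) with hb
  have hbo : Orthonormal ℝ b := by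
    rw [orthonormal_iff_ite]
    intro i j
    have h1 := (orthonormal_iff_ite.1 he1) i j
    simp only [hb]
    rw [real_inner_smul_left, real_inner_smul_right, hi _ _ (hte i) (hte j),
      real_inner_smul_left, real_inner_smul_right, h1]
    field_simp
  have hcard : Module.finrank ℝ (E n) = Fintype.card (Fin n) := by simp
  obtain ⟨B, hB⟩ := Orthonormal.exists_orthonormalBasis_extension_of_card_eq hcard
    (v := b) (s := Set.univ) (hbo.comp _ Subtype.val_injective)
  have hBb : ∀ i, B i = b i := fun i => hB i (mem_univ i)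
  set L : E n ≃ₗᵢ[ℝ] E n := (EuclideanSpace.basisFun (Fin n) ℝ).equiv B (Equiv.refl _) with hL
  have hLe : ∀ i, L (e i) = b i := by
    intro i
    rw [hL, he, OrthonormalBasis.equiv_apply_basis]
    exact hBb i
  refine ⟨L, ?_⟩
  have hmain : ∀ v : E n, ‖v‖ < r → F v = L v := by
    intro v hv
    apply B.repr.injective
    ext i
    rw [B.repr_apply_apply, B.repr_apply_apply, hBb]
    have h1 : inner ℝ (b i) (F v) = inner ℝ (e i) v := by
      simp only [hb]
      rw [real_inner_smul_left, hi _ _ (hte i) hv, real_inner_smul_left]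
      field_simp
    rw [h1, ← hLe, L.inner_map_map]
  intro v hv
  have h1 : ‖v - x‖ < r := by rwa [← dist_eq_norm]
  have h2 := hmain (v - x) h1
  simp only [hF, add_sub_cancel] at h2
  rw [← h2]
  abel

/-- linear isometries are determined on an open set -/
theorem lin_eq_of_eventually {L L' : E n ≃ₗᵢ[ℝ] E n} {a a' x s : E n}
    (h : ∀ᶠ v in 𝓝 s, a + L (v - x) = a' + L' (v - x)) : a = a' ∧ L = L' := by
  obtain ⟨ε, hε, hb⟩ := Metric.eventually_nhds_iff_ball.1 h
  have hL : ∀ w : E n, L w = L' w := by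
    intro w
    have h1 := hb s (mem_ball_self hε)
    set t : ℝ := ε / (2 * (‖w‖ + 1)) with ht
    have hw : 0 < ‖w‖ + 1 := by positivity
    have ht0 : 0 < t := by positivity
    have h2 := hb (s + t • w) (by
      rw [mem_ball, dist_eq_norm, add_sub_cancel_left, norm_smul, Real.norm_eq_abs,
        abs_of_pos ht0, ht, div_mul_eq_mul_div, div_lt_iff₀ (by positivity)]
      nlinarith [norm_nonneg w])
    have h3 : t • L w = t • L' w := by
      have h4 : s + t • w - x = (s - x) + t • w := by abel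
      rw [h4, map_add, map_add, map_smul, map_smul, ← add_assoc, ← add_assoc, h1] at h2
      exact add_left_cancel h2
    exact smul_right_injective _ ht0.ne' h3
  refine ⟨?_, by ext1 w; exact hL w⟩
  have h1 := hb s (mem_ball_self hε)
  rw [hL] at h1
  exact add_right_cancel h1

/-! ### Euclidean balls in a metric space -/

variable {Y : Type*} [MetricSpace Y]

/-- the ball of radius `ρ` about `z` is isometric to the Euclidean ball, by `φ` -/
structure IsCht (φ : E n → Y) (z : Y) (ρ : ℝ) : Prop where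
  zero : φ 0 = z
  isom : ∀ v ∈ ball (0 : E n) ρ, ∀ w ∈ ball (0 : E n) ρ, dist (φ v) (φ w) = dist v w
  surj : ball z ρ ⊆ φ '' ball 0 ρ

/-- the ball of radius `ρ` about `z` is isometric to the Euclidean ball -/
def Cht (n : ℕ) {Y : Type*} [MetricSpace Y] (z : Y) (ρ : ℝ) : Prop :=
  ∃ φ : E n → Y, IsCht φ z ρ

theorem IsCht.mapsTo {φ : E n → Y} {z : Y} {ρ : ℝ} (h : IsCht φ z ρ) {v : E n}
    (hv : v ∈ ball (0 : E n) ρ) : dist z (φ v) = ‖v‖ := by
  have h0 : (0 : E n) ∈ ball (0 : E n) ρ := mem_ball_self (by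
    have := mem_ball.1 hv
    exact lt_of_le_of_lt dist_nonneg this)
  have := h.isom 0 h0 v hv
  rw [h.zero] at this
  rw [this, dist_zero_left]

theorem IsCht.mono {φ : E n → Y} {z : Y} {ρ ρ' : ℝ} (h : IsCht φ z ρ) (hρ : ρ' ≤ ρ) :
    IsCht φ z ρ' := by
  have hs : ball (0 : E n) ρ' ⊆ ball 0 ρ := ball_subset_ball hρ
  refine ⟨h.zero, fun v hv w hw => h.isom v (hs hv) w (hs hw), fun y hy => ?_⟩
  obtain ⟨v, hv, rfl⟩ := h.surj (ball_subset_ball hρ hy)
  refine ⟨v, ?_, rfl⟩
  have h1 := h.mapsTo hv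
  rw [mem_ball, dist_comm, h1] at hy
  simpa using hy

theorem Cht.mono {z : Y} {ρ ρ' : ℝ} (h : Cht n z ρ) (hρ : ρ' ≤ ρ) : Cht n z ρ' := by
  obtain ⟨φ, hφ⟩ := h
  exact ⟨φ, hφ.mono hρ⟩

theorem Cht.move {z z' : Y} {ρ ρ' : ℝ} (h : Cht n z ρ) (hz : dist z z' + ρ' ≤ ρ)
    (hρ' : 0 < ρ') : Cht n z' ρ' := by
  obtain ⟨φ, hφ⟩ := h
  have hz' : z' ∈ ball z ρ := by
    rw [mem_ball, dist_comm]
    linarith
  obtain ⟨a, ha, haz⟩ := hφ.surj hz'
  have hna : ‖a‖ = dist z z' := by rw [← haz, hφ.mapsTo ha]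
  have hsub : ∀ v ∈ ball (0 : E n) ρ', a + v ∈ ball (0 : E n) ρ := by
    intro v hv
    have h1 : ‖v‖ < ρ' := by simpa using hv
    have h2 := norm_add_le a v
    simp only [mem_ball, dist_zero_right]
    linarith
  refine ⟨fun v => φ (a + v), by simpa using haz, ?_, ?_⟩
  · intro v hv w hw
    rw [hφ.isom _ (hsub v hv) _ (hsub w hw), dist_add_left]
  · intro y hy
    have hy' : y ∈ ball z ρ := by
      rw [mem_ball] at hy ⊢
      have := dist_triangle y z' z
      rw [dist_comm z' z] at this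
      linarith
    obtain ⟨b, hb, hby⟩ := hφ.surj hy'
    refine ⟨b - a, ?_, ?_⟩
    · have h1 := hφ.isom b hb a ha
      rw [hby, haz] at h1
      rw [mem_ball] at hy
      rw [mem_ball, dist_zero_right, ← dist_eq_norm, ← h1]
      exact hy
    · simp only [add_sub_cancel]
      exact hby

/-- a uniform radius on compact sets -/
theorem exists_uniform (h : ∀ z : Y, ∃ ρ > 0, Cht n z ρ) {K : Set Y} (hK : IsCompact K) :
    ∃ ρ > 0, ∀ z ∈ K, Cht n z ρ := by
  classical
  choose ρ hρ hc using h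
  obtain ⟨t, -, ht⟩ := hK.elim_nhds_subcover (fun z => ball z (ρ z / 2))
    (fun z _ => ball_mem_nhds z (by have := hρ z; positivity))
  obtain ⟨δ, hδ, hδt⟩ : ∃ δ > 0, ∀ z ∈ t, δ ≤ ρ z / 2 := by
    rcases t.eq_empty_or_nonempty with rfl | hne
    · exact ⟨1, one_pos, by simp⟩
    · obtain ⟨z0, hz0, hmin⟩ := t.exists_min_image (fun z => ρ z / 2) hne
      exact ⟨ρ z0 / 2, by have := hρ z0; positivity, hmin⟩
  refine ⟨δ, hδ, fun z hz => ?_⟩
  obtain ⟨y, hy, hzy⟩ := mem_iUnion₂.1 (ht hz)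
  refine (hc y).move (z' := z) ?_ hδ
  have h1 := hδt y hy
  rw [mem_ball, dist_comm] at hzy
  linarith

end Crest.Agent.R249.Fl174
end
end

-- ▼ part R249/Fl2_174
section

/-!
# R249 (helper174), leaf D2-FLAT (2): the developing map of a locally Euclidean metric space

* `Ext G x r` : `G` maps `ball x r` isometrically onto `ball (G x) r`;
* `LI U D` : `D` is locally (near every point of the open set `U`) of this form;
* `identity_principle`, `exists_ext`, `LI.lip`, `LI.extend`, `exists_developing`.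
-/

set_option autoImplicit false
noncomputable section
open Set Filter Topology Metric

namespace Crest.Agent.R249.Fl174

variable {n : ℕ} {Y : Type*} [MetricSpace Y]

/-- `G` maps `ball x r` isometrically onto `ball (G x) r` -/
structure Ext (G : E n → Y) (x : E n) (r : ℝ) : Prop where
  isom : ∀ v ∈ ball x r, ∀ w ∈ ball x r, dist (G v) (G w) = dist v w
  surj : ball (G x) r ⊆ G '' ball x r

theorem Ext.mono {G : E n → Y} {x : E n} {r r' : ℝ} (h : Ext G x r) (hr : r' ≤ r) :
    Ext G x r' := by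
  have hs : ball x r' ⊆ ball x r := ball_subset_ball hr
  refine ⟨fun v hv w hw => h.isom v (hs hv) w (hs hw), fun y hy => ?_⟩
  obtain ⟨v, hv, rfl⟩ := h.surj (ball_subset_ball hr hy)
  refine ⟨v, ?_, rfl⟩
  have hx : x ∈ ball x r := mem_ball_self (lt_of_le_of_lt dist_nonneg (mem_ball.1 hv))
  rwa [mem_ball, h.isom v hv x hx] at hy

theorem Ext.move {G : E n → Y} {x y : E n} {r s : ℝ} (h : Ext G x r) (hs : 0 < s)
    (hy : dist x y + s ≤ r) : Ext G y s := by
  have hsub : ball y s ⊆ ball x r := ball_subset_ball' (by rw [dist_comm y x]; linarith)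
  have hyr : y ∈ ball x r := hsub (mem_ball_self hs)
  have hx : x ∈ ball x r := mem_ball_self (lt_of_le_of_lt dist_nonneg (mem_ball.1 hyr))
  refine ⟨fun v hv w hw => h.isom v (hsub hv) w (hsub hw), fun z hz => ?_⟩
  have hzr : z ∈ ball (G x) r := by
    rw [mem_ball] at hz ⊢
    have h1 := dist_triangle z (G y) (G x)
    rw [h.isom y hyr x hx, dist_comm y x] at h1
    linarith
  obtain ⟨v, hv, rfl⟩ := h.surj hzr
  refine ⟨v, ?_, rfl⟩
  rwa [mem_ball, h.isom v hv y hyr] at hz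

theorem Ext.congr {G G' : E n → Y} {x : E n} {r : ℝ} (hr : 0 < r) (h : Ext G x r)
    (hG : ∀ v ∈ ball x r, G' v = G v) : Ext G' x r := by
  refine ⟨fun v hv w hw => by rw [hG v hv, hG w hw]; exact h.isom v hv w hw, ?_⟩
  rw [hG x (mem_ball_self hr)]
  intro y hy
  obtain ⟨v, hv, rfl⟩ := h.surj hy
  exact ⟨v, hv, hG v hv⟩

/-- locally an isometry onto an open set -/
def LI (U : Set (E n)) (D : E n → Y) : Prop :=
  ∀ x ∈ U, ∃ r > 0, ball x r ⊆ U ∧ Ext D x r

theorem LI.mono {U V : Set (E n)} {D : E n → Y} (h : LI U D) (hVU : V ⊆ U) (hV : IsOpen V) :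
    LI V D := by
  intro x hx
  obtain ⟨r, hr, -, hE⟩ := h x (hVU hx)
  obtain ⟨s, hs, hsV⟩ := Metric.isOpen_iff.1 hV x hx
  refine ⟨min r s, lt_min hr hs, ?_, hE.mono (min_le_left _ _)⟩
  exact (ball_subset_ball (min_le_right _ _)).trans hsV

theorem LI.congr {U : Set (E n)} {D D' : E n → Y} (h : LI U D) (hD : ∀ x ∈ U, D' x = D x) :
    LI U D' := by
  intro x hx
  obtain ⟨r, hr, hU, hE⟩ := h x hx
  exact ⟨r, hr, hU, hE.congr hr fun v hv => hD v (hU hv)⟩

/-- distance preserving near `x` -/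
def IsoAt (D : E n → Y) (x : E n) : Prop :=
  ∃ r > 0, ∀ v ∈ ball x r, ∀ w ∈ ball x r, dist (D v) (D w) = dist v w

theorem LI.isoAt {U : Set (E n)} {D : E n → Y} (h : LI U D) {x : E n} (hx : x ∈ U) :
    IsoAt D x := by
  obtain ⟨r, hr, -, hE⟩ := h x hx
  exact ⟨r, hr, hE.isom⟩

theorem Ext.isoAt {G : E n → Y} {x y : E n} {r : ℝ} (h : Ext G x r) (hy : y ∈ ball x r) :
    IsoAt G y := by
  have h1 : dist y x < r := hy
  refine ⟨r - dist y x, by linarith, (h.move (s := r - dist y x) (by linarith) ?_).isom⟩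
  rw [dist_comm x y]
  linarith

/-- factorisation through a Euclidean chart -/
theorem factor {D : E n → Y} {x : E n} {r ρ : ℝ}
    (hD : ∀ v ∈ ball x r, ∀ w ∈ ball x r, dist (D v) (D w) = dist v w) (hr : 0 < r) (hrρ : r ≤ ρ)
    {φ : E n → Y} (hφ : IsCht φ (D x) ρ) :
    ∃ L : E n ≃ₗᵢ[ℝ] E n, ∀ v ∈ ball x r, D v = φ (L (v - x)) := by
  classical
  have hx : x ∈ ball x r := mem_ball_self hr
  have h1 : ∀ v : E n, ∃ a ∈ ball (0 : E n) ρ, v ∈ ball x r → φ a = D v := by
    intro v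
    by_cases hv : v ∈ ball x r
    · have h2 : D v ∈ ball (D x) ρ := by
        rw [mem_ball, hD v hv x hx]
        exact lt_of_lt_of_le (mem_ball.1 hv) hrρ
      obtain ⟨a, ha, hav⟩ := hφ.surj h2
      exact ⟨a, ha, fun _ => hav⟩
    · exact ⟨0, mem_ball_self (lt_of_lt_of_le hr hrρ), fun h => absurd h hv⟩
  choose ψ hψ1 hψ2 using h1
  have hψ : ∀ v ∈ ball x r, ∀ w ∈ ball x r, dist (ψ v) (ψ w) = dist v w := by
    intro v hv w hw
    rw [← hφ.isom _ (hψ1 v) _ (hψ1 w), hψ2 v hv, hψ2 w hw, hD v hv w hw]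
  obtain ⟨L, hL⟩ := affine_of_isom hr hψ
  have hψx : ψ x = 0 := by
    have h2 := hφ.isom _ (hψ1 x) 0 (mem_ball_self (lt_of_lt_of_le hr hrρ))
    rw [hψ2 x hx, hφ.zero, dist_self] at h2
    exact dist_eq_zero.1 h2.symm
  refine ⟨L, fun v hv => ?_⟩
  rw [← hψ2 v hv, hL v hv, hψx, zero_add]

/-- **extension**: a germ of isometry extends to the full size of a Euclidean chart -/
theorem exists_ext {D : E n → Y} {x : E n} {r : ℝ} (hr : 0 < r) (hD : IsoAt D x)
    (hc : Cht n (D x) r) : ∃ G : E n → Y, Ext G x r ∧ G =ᶠ[𝓝 x] D := by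
  obtain ⟨ε, hε, hD⟩ := hD
  obtain ⟨φ, hφ⟩ := hc
  have hm : 0 < min ε r := lt_min hε hr
  have hsub : ball x (min ε r) ⊆ ball x ε := ball_subset_ball (min_le_left _ _)
  obtain ⟨L, hL⟩ := factor (fun v hv w hw => hD v (hsub hv) w (hsub hw)) hm (min_le_right _ _) hφ
  have hmem : ∀ v ∈ ball x r, L (v - x) ∈ ball (0 : E n) r := by
    intro v hv
    rw [mem_ball, dist_zero_right, L.norm_map, ← dist_eq_norm]
    exact hv
  refine ⟨fun v => φ (L (v - x)), ⟨?_, ?_⟩, ?_⟩
  · intro v hv w hw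
    rw [hφ.isom _ (hmem v hv) _ (hmem w hw), L.dist_map, dist_sub_right]
  · intro y hy
    simp only [sub_self, map_zero, hφ.zero] at hy
    obtain ⟨b, hb, hby⟩ := hφ.surj hy
    refine ⟨x + L.symm b, ?_, ?_⟩
    · rw [mem_ball, dist_eq_norm, add_sub_cancel_left, L.symm.norm_map]
      simpa using hb
    · simp only [add_sub_cancel_left, LinearIsometryEquiv.apply_symm_apply]
      exact hby
  · filter_upwards [ball_mem_nhds x hm] with v hv
    exact (hL v hv).symm

/-- **identity principle** -/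
theorem identity_principle (hY : ∀ z : Y, ∃ ρ > 0, Cht n z ρ) {U : Set (E n)}
    (hU : IsPreconnected U) {D D' : E n → Y} (hD : ∀ x ∈ U, IsoAt D x)
    (hD' : ∀ x ∈ U, IsoAt D' x) {x₀ : E n} (hx₀ : x₀ ∈ U) (h₀ : D =ᶠ[𝓝 x₀] D') :
    ∀ x ∈ U, D =ᶠ[𝓝 x] D' := by
  set S : Set (E n) := {x | D =ᶠ[𝓝 x] D'} with hS
  have hSo : IsOpen S := isOpen_iff_mem_nhds.2 fun x hx => eventually_eventually_nhds.2 hx
  refine hU.subset_of_closure_inter_subset hSo ⟨x₀, hx₀, h₀⟩ ?_
  rintro x ⟨hxc, hxU⟩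
  obtain ⟨r, hr, hDr⟩ := hD x hxU
  obtain ⟨r', hr', hDr'⟩ := hD' x hxU
  obtain ⟨ρ, hρ, φ, hφ⟩ := hY (D x)
  set ε : ℝ := min (min r r') ρ with hε
  have hε0 : 0 < ε := lt_min (lt_min hr hr') hρ
  have hs1 : ball x ε ⊆ ball x r :=
    ball_subset_ball ((min_le_left _ _).trans (min_le_left _ _))
  have hs2 : ball x ε ⊆ ball x r' :=
    ball_subset_ball ((min_le_left _ _).trans (min_le_right _ _))
  have hx : x ∈ ball x ε := mem_ball_self hε0
  have hi1 : ∀ v ∈ ball x ε, ∀ w ∈ ball x ε, dist (D v) (D w) = dist v w :=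
    fun v hv w hw => hDr v (hs1 hv) w (hs1 hw)
  have hi2 : ∀ v ∈ ball x ε, ∀ w ∈ ball x ε, dist (D' v) (D' w) = dist v w :=
    fun v hv w hw => hDr' v (hs2 hv) w (hs2 hw)
  have hxx : D' x = D x := by
    by_contra hne
    have hpos : 0 < dist (D' x) (D x) := dist_pos.2 hne
    obtain ⟨s, hs, hsx⟩ := Metric.mem_closure_iff.1 hxc (min ε (dist (D' x) (D x) / 2))
      (lt_min hε0 (by positivity))
    have hsε : s ∈ ball x ε := by
      rw [mem_ball, dist_comm]
      exact lt_of_lt_of_le hsx (min_le_left _ _)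
    have h1 : D s = D' s := (show D =ᶠ[𝓝 s] D' from hs).self_of_nhds
    have h2 := dist_triangle (D' x) (D' s) (D x)
    rw [hi2 x hx s hsε, ← h1, dist_comm (D s) (D x), hi1 x hx s hsε] at h2
    have h3 := lt_of_lt_of_le hsx (min_le_right _ _)
    linarith
  obtain ⟨L, hL⟩ := factor hi1 hε0 (min_le_right _ _) hφ
  obtain ⟨L', hL'⟩ := factor (φ := φ) hi2 hε0 (min_le_right _ _) (by rw [hxx]; exact hφ)
  obtain ⟨s, hs, hsx⟩ := Metric.mem_closure_iff.1 hxc ε hε0
  have hsε : s ∈ ball x ε := by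
    rw [mem_ball, dist_comm]
    exact hsx
  have hLL : L = L' := by
    have h1 : ∀ᶠ v in 𝓝 s, (0 : E n) + L (v - x) = 0 + L' (v - x) := by
      filter_upwards [(show D =ᶠ[𝓝 s] D' from hs), isOpen_ball.mem_nhds hsε] with v hv hvε
      have h2 : φ (L (v - x)) = φ (L' (v - x)) := by rw [← hL v hvε, ← hL' v hvε, hv]
      have hn : ‖v - x‖ < ρ := by
        rw [← dist_eq_norm]
        exact lt_of_lt_of_le (mem_ball.1 hvε) (min_le_right _ _)
      have h3 := hφ.isom (L (v - x)) (by rw [mem_ball, dist_zero_right, L.norm_map]; exact hn)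
        (L' (v - x)) (by rw [mem_ball, dist_zero_right, L'.norm_map]; exact hn)
      rw [h2, dist_self] at h3
      rw [zero_add, zero_add]
      exact dist_eq_zero.1 h3.symm
    exact (lin_eq_of_eventually h1).2
  change D =ᶠ[𝓝 x] D'
  filter_upwards [ball_mem_nhds x hε0] with v hv
  rw [hL v hv, hL' v hv, hLL]

/-- two isometric pieces which agree near a point of a convex set agree on it -/
theorem eq_on_convex (hY : ∀ z : Y, ∃ ρ > 0, Cht n z ρ) {U : Set (E n)}
    (hU : Convex ℝ U) {D D' : E n → Y} (hD : ∀ x ∈ U, IsoAt D x)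
    (hD' : ∀ x ∈ U, IsoAt D' x) {x₀ : E n} (hx₀ : x₀ ∈ U) (h₀ : D =ᶠ[𝓝 x₀] D')
    {x : E n} (hx : x ∈ U) : D x = D' x :=
  (identity_principle hY hU.isPreconnected hD hD' hx₀ h₀ x hx).self_of_nhds

/-- a local isometry on a convex set has Lipschitz constant one -/
theorem lip_of_isoAt {U : Set (E n)} (hU : Convex ℝ U) {D : E n → Y} (hD : ∀ x ∈ U, IsoAt D x)
    {a b : E n} (ha : a ∈ U) (hb : b ∈ U) : dist (D a) (D b) ≤ dist a b := by
  set γ : ℝ → E n := fun t => a + t • (b - a) with hγ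
  have hγd : ∀ s t : ℝ, dist (γ s) (γ t) = |s - t| * dist a b := by
    intro s t
    rw [dist_eq_norm]
    have : γ s - γ t = (s - t) • (b - a) := by simp only [hγ]; module
    rw [this, norm_smul, Real.norm_eq_abs, dist_comm, dist_eq_norm]
  have hγU : ∀ t ∈ Icc (0 : ℝ) 1, γ t ∈ U := by
    intro t ht
    have := hU.add_smul_sub_mem ha hb ht
    exact this
  have hγc : Continuous γ := by simp only [hγ]; fun_prop
  set S : Set ℝ := {t | dist (D a) (D (γ t)) ≤ t * dist a b} with hS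
  have hDc : ∀ t ∈ Icc (0 : ℝ) 1, ContinuousAt (fun t => D (γ t)) t := by
    intro t ht
    obtain ⟨r, hr, hi⟩ := hD _ (hγU t ht)
    have : ContinuousAt D (γ t) := by
      rw [Metric.continuousAt_iff]
      intro ε hε
      refine ⟨min r ε, lt_min hr hε, fun {y} hy => ?_⟩
      rw [hi y (lt_of_lt_of_le hy (min_le_left _ _)) _ (mem_ball_self hr)]
      exact lt_of_lt_of_le hy (min_le_right _ _)
    exact this.comp hγc.continuousAt
  have hcl : IsClosed (S ∩ Icc 0 1) := by
    have h1 : ContinuousOn (fun t => dist (D a) (D (γ t)) - t * dist a b) (Icc (0:ℝ) 1) := by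
      intro t ht
      have h2 : ContinuousAt (fun t => dist (D a) (D (γ t))) t :=
        Tendsto.dist continuousAt_const (hDc t ht)
      have h3 : ContinuousAt (fun t : ℝ => t * dist a b) t := by fun_prop
      exact (h2.sub h3).continuousWithinAt
    have h2 := h1.preimage_isClosed_of_isClosed isClosed_Icc (isClosed_Iic (a := (0:ℝ)))
    convert h2 using 1
    ext t
    simp only [hS, mem_inter_iff, mem_ofPred_eq, mem_preimage, mem_Iic, sub_nonpos]
    exact and_comm
  have h0 : (0:ℝ) ∈ S := by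
    simp [hS, hγ]
  have hgt : ∀ t ∈ S ∩ Ico (0:ℝ) 1, ∀ y ∈ Ioi t, (S ∩ Ioc t y).Nonempty := by
    rintro t ⟨htS, ht0, ht1⟩ y hy
    obtain ⟨r, hr, hi⟩ := hD _ (hγU t ⟨ht0, ht1.le⟩)
    set d : ℝ := min (y - t) (r / (2 * (dist a b + 1))) with hd
    have hdab : 0 ≤ dist a b := dist_nonneg
    have hd0 : 0 < d := lt_min (by simpa using hy) (by positivity)
    refine ⟨t + d, ?_, by linarith, by linarith [min_le_left (y - t) (r / (2 * (dist a b + 1)))]⟩
    have h1 : dist (γ t) (γ (t + d)) = d * dist a b := by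
      rw [hγd]
      congr 1
      rw [show t - (t + d) = -d by ring, abs_neg, abs_of_pos hd0]
    have h2 : d * dist a b < r := by
      have h3 : d ≤ r / (2 * (dist a b + 1)) := min_le_right _ _
      have h4 : d * (dist a b + 1) ≤ r / 2 := by
        calc d * (dist a b + 1) ≤ r / (2 * (dist a b + 1)) * (dist a b + 1) := by gcongr
          _ = r / 2 := by field_simp
      nlinarith
    have h5 : dist (D (γ t)) (D (γ (t + d))) = d * dist a b := by
      rw [hi _ (mem_ball_self hr) _ (by rw [mem_ball, dist_comm, h1]; exact h2), h1]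
    have h6 : dist (D a) (D (γ t)) ≤ t * dist a b := htS
    have h7 := dist_triangle (D a) (D (γ t)) (D (γ (t + d)))
    change dist (D a) (D (γ (t + d))) ≤ (t + d) * dist a b
    linarith
  have h1 := IsClosed.Icc_subset_of_forall_exists_gt hcl h0 hgt (right_mem_Icc.2 zero_le_one)
  have h2 : dist (D a) (D (γ 1)) ≤ 1 * dist a b := h1
  simpa [hγ] using h2

/-- **one extension step** -/
theorem LI.extend (hY : ∀ z : Y, ∃ ρ > 0, Cht n z ρ) {R r : ℝ} (hr : 0 < r) (hrR : r ≤ R)
    {D : E n → Y} (hD : LI (ball 0 R) D) (hc : ∀ x ∈ ball (0 : E n) R, Cht n (D x) r) :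
    ∃ D' : E n → Y, LI (ball 0 (R + r / 8)) D' ∧ ∀ x ∈ ball (0 : E n) R, D' x = D x := by
  classical
  have hR : 0 < R := lt_of_lt_of_le hr hrR
  have hG : ∀ x : E n, ∃ G : E n → Y, x ∈ ball (0 : E n) R → Ext G x r ∧ G =ᶠ[𝓝 x] D := by
    intro x
    by_cases hx : x ∈ ball (0 : E n) R
    · obtain ⟨G, h1, h2⟩ := exists_ext hr (hD.isoAt hx) (hc x hx)
      exact ⟨G, fun _ => ⟨h1, h2⟩⟩
    · exact ⟨D, fun h => absurd h hx⟩
  choose G hG using hG
  -- `G x = D` on the common domain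
  have hGD : ∀ x ∈ ball (0 : E n) R, ∀ v ∈ ball x r, v ∈ ball (0 : E n) R → G x v = D v := by
    intro x hx v hv hvR
    refine eq_on_convex hY ((convex_ball x r).inter (convex_ball (0 : E n) R))
      (fun y hy => (hG x hx).1.isoAt hy.1) (fun y hy => hD.isoAt hy.2)
      (x₀ := x) ⟨mem_ball_self hr, hx⟩ (hG x hx).2 ⟨hv, hvR⟩
  -- the projection
  set p : E n → E n := fun z => ((R - r / 8) / ‖z‖) • z with hp
  have hpn : ∀ z : E n, R ≤ ‖z‖ → ‖p z‖ = R - r / 8 := by
    intro z hz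
    have hz0 : 0 < ‖z‖ := lt_of_lt_of_le hR hz
    simp only [hp]
    rw [norm_smul, Real.norm_eq_abs, abs_div, abs_of_pos hz0, abs_of_nonneg (by linarith)]
    field_simp
  have hpd : ∀ z : E n, R ≤ ‖z‖ → dist z (p z) = ‖z‖ - (R - r / 8) := by
    intro z hz
    have hz0 : 0 < ‖z‖ := lt_of_lt_of_le hR hz
    rw [dist_eq_norm]
    have : z - p z = (1 - (R - r / 8) / ‖z‖) • z := by
      simp only [hp]; module
    rw [this, norm_smul, Real.norm_eq_abs, abs_of_nonneg]
    · field_simp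
    · rw [sub_nonneg, div_le_one hz0]
      linarith
  have hpR : ∀ z : E n, R ≤ ‖z‖ → p z ∈ ball (0 : E n) R := by
    intro z hz
    rw [mem_ball, dist_zero_right, hpn z hz]
    linarith
  set D' : E n → Y := fun z => if ‖z‖ < R then D z else G (p z) z with hD'
  have hD'1 : ∀ z ∈ ball (0 : E n) R, D' z = D z := by
    intro z hz
    have : ‖z‖ < R := by simpa using hz
    simp only [hD', if_pos this]
  refine ⟨D', ?_, hD'1⟩
  intro z hz
  by_cases hzR : ‖z‖ < R
  · have hz' : z ∈ ball (0 : E n) R := by simpa using hzR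
    obtain ⟨s, hs, hsU, hE⟩ := hD z hz'
    refine ⟨s, hs, hsU.trans (ball_subset_ball (by linarith)), ?_⟩
    exact hE.congr hs fun v hv => hD'1 v (hsU hv)
  · push Not at hzR
    have hzn : ‖z‖ < R + r / 8 := by simpa using hz
    set x := p z with hx
    have hxR : x ∈ ball (0 : E n) R := hpR z hzR
    have hzx : dist z x < r / 4 := by
      rw [hx, hpd z hzR]
      linarith
    -- a small ball
    set s : ℝ := min (r / 8) (R + r / 8 - ‖z‖) with hs
    have hs0 : 0 < s := lt_min (by positivity) (by linarith)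
    have hs8 : s ≤ r / 8 := min_le_left _ _
    have hsub : ball z s ⊆ ball (0 : E n) (R + r / 8) := by
      refine ball_subset_ball' ?_
      rw [dist_zero_right]
      linarith [min_le_right (r / 8) (R + r / 8 - ‖z‖)]
    have hkey : ∀ v ∈ ball z s, D' v = G x v := by
      intro v hv
      have hvz : dist v z < r / 8 := lt_of_lt_of_le (mem_ball.1 hv) hs8
      have hvx : v ∈ ball x r := by
        rw [mem_ball]
        have := dist_triangle v z x
        linarith
      by_cases hvR : ‖v‖ < R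
      · have hvR' : v ∈ ball (0 : E n) R := by simpa using hvR
        rw [hD'1 v hvR', hGD x hxR v hvx hvR']
      · push Not at hvR
        have hvn : ‖v‖ < R + r / 8 := by simpa using hsub hv
        simp only [hD', if_neg (not_lt.2 hvR)]
        set x' := p v with hx'
        have hx'R : x' ∈ ball (0 : E n) R := hpR v hvR
        have hvx' : dist v x' < r / 4 := by
          rw [hx', hpd v hvR]
          linarith
        have hxx' : x ∈ ball x' r := by
          rw [mem_ball]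
          have h1 := dist_triangle x z x'
          have h2 := dist_triangle z v x'
          rw [dist_comm x z] at h1
          rw [dist_comm z v] at h2
          linarith
        refine eq_on_convex hY ((convex_ball x r).inter (convex_ball x' r))
          (fun y hy => (hG x' hx'R).1.isoAt hy.2) (fun y hy => (hG x hxR).1.isoAt hy.1)
          (x₀ := x) ⟨mem_ball_self hr, hxx'⟩ ?_ ⟨hvx, ?_⟩
        · filter_upwards [(hG x hxR).2, isOpen_ball.mem_nhds hxx', isOpen_ball.mem_nhds hxR]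
            with w hw1 hw2 hw3
          rw [hw1, hGD x' hx'R w hw2 hw3]
        · rw [mem_ball]
          linarith
    refine ⟨s, hs0, hsub, ?_⟩
    refine Ext.congr hs0 ((hG x hxR).1.move hs0 ?_) hkey
    rw [dist_comm x z]
    linarith

/-- **the developing map** -/
theorem exists_developing [ProperSpace Y] (hY : ∀ z : Y, ∃ ρ > 0, Cht n z ρ) (y₀ : Y) :
    ∃ D : E n → Y, LI univ D ∧ D 0 = y₀ := by
  classical
  obtain ⟨ρ₀, hρ₀, φ₀, hφ₀⟩ := hY y₀
  set S : ℝ → Prop := fun R => ∃ D : E n → Y, LI (ball 0 R) D ∧ D =ᶠ[𝓝 0] φ₀ with hS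
  have hSmono : ∀ R R', R' ≤ R → S R → S R' := by
    rintro R R' h ⟨D, h1, h2⟩
    exact ⟨D, h1.mono (ball_subset_ball h) isOpen_ball, h2⟩
  have hφE : Ext φ₀ 0 ρ₀ := ⟨hφ₀.isom, by rw [hφ₀.zero]; exact hφ₀.surj⟩
  have hS0 : S ρ₀ := by
    refine ⟨φ₀, fun x hx => ?_, EventuallyEq.rfl⟩
    have h1 : ‖x‖ < ρ₀ := by simpa using hx
    refine ⟨ρ₀ - ‖x‖, by linarith, ball_subset_ball' (by rw [dist_zero_right]; linarith), ?_⟩
    exact hφE.move (by linarith) (by rw [dist_zero_left]; linarith)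
  have hSN : ∀ N : ℝ, S N := by
    intro N
    obtain ⟨r₁, hr₁, hu⟩ := exists_uniform hY (isCompact_closedBall y₀ N)
    set r : ℝ := min r₁ ρ₀ with hr
    have hr0 : 0 < r := lt_min hr₁ hρ₀
    have hclaim : ∀ m : ℕ, ∃ R, S R ∧ ρ₀ ≤ R ∧ (N ≤ R ∨ ρ₀ + m * (r / 8) ≤ R) := by
      intro m
      induction m with
      | zero => exact ⟨ρ₀, hS0, le_rfl, Or.inr (by simp)⟩
      | succ m ih =>
        obtain ⟨R, hSR, hRρ, hR⟩ := ih
        rcases hR with hR | hR
        · exact ⟨R, hSR, hRρ, Or.inl hR⟩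
        · by_cases hRN : N ≤ R
          · exact ⟨R, hSR, hRρ, Or.inl hRN⟩
          · push Not at hRN
            obtain ⟨D, hD1, hD2⟩ := hSR
            have hRpos : 0 < R := lt_of_lt_of_le hρ₀ hRρ
            have hD0 : D 0 = y₀ := by rw [hD2.self_of_nhds, hφ₀.zero]
            have hcc : ∀ x ∈ ball (0 : E n) R, Cht n (D x) r := by
              intro x hx
              refine (hu (D x) ?_).mono (min_le_left _ _)
              have h1 := lip_of_isoAt (convex_ball (0 : E n) R) (fun y hy => hD1.isoAt hy)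
                hx (mem_ball_self hRpos)
              rw [hD0] at h1
              have h2 : dist x 0 < R := hx
              rw [mem_closedBall]
              linarith
            obtain ⟨D', h1, h2⟩ := hD1.extend hY hr0 ((min_le_right _ _).trans hRρ) hcc
            refine ⟨R + r / 8, ⟨D', h1, ?_⟩, by linarith, Or.inr ?_⟩
            · refine EventuallyEq.trans ?_ hD2
              filter_upwards [ball_mem_nhds (0 : E n) hRpos] with v hv
              exact h2 v hv
            · push_cast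
              linarith
    obtain ⟨m, hm⟩ := exists_nat_gt (N / (r / 8))
    obtain ⟨R, hSR, -, hR⟩ := hclaim m
    refine hSmono R N ?_ hSR
    rcases hR with hR | hR
    · exact hR
    · rw [div_lt_iff₀ (by positivity)] at hm
      linarith
  have h1 : ∀ N : ℕ, ∃ D : E n → Y, LI (ball 0 ((N : ℝ) + 1)) D ∧ D =ᶠ[𝓝 0] φ₀ :=
    fun N => hSN _
  choose DD hDD1 hDD2 using h1
  have hDD : ∀ (N N' : ℕ) (x : E n), ‖x‖ < N + 1 → ‖x‖ < N' + 1 → DD N x = DD N' x := by
    intro N N' x h h'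
    refine eq_on_convex hY ((convex_ball (0 : E n) ((N : ℝ) + 1)).inter
      (convex_ball (0 : E n) ((N' : ℝ) + 1)))
      (fun y hy => (hDD1 N).isoAt hy.1) (fun y hy => (hDD1 N').isoAt hy.2)
      (x₀ := 0) ⟨mem_ball_self (by positivity), mem_ball_self (by positivity)⟩
      ((hDD2 N).trans (hDD2 N').symm) ⟨by simpa using h, by simpa using h'⟩
  set D : E n → Y := fun x => DD ⌈‖x‖⌉₊ x with hD
  have hDe : ∀ (N : ℕ) (x : E n), ‖x‖ < N + 1 → D x = DD N x := by
    intro N x hx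
    refine hDD _ _ x ?_ hx
    have := Nat.le_ceil ‖x‖
    linarith
  refine ⟨D, ?_, ?_⟩
  · intro x _
    obtain ⟨N, hN⟩ := exists_nat_gt ‖x‖
    obtain ⟨r, hr, hrU, hE⟩ := hDD1 N x (by simp; linarith)
    refine ⟨r, hr, subset_univ _, hE.congr hr fun v hv => hDe N v ?_⟩
    simpa using hrU hv
  · rw [hDe 0 0 (by simp), (hDD2 0).self_of_nhds, hφ₀.zero]

end Crest.Agent.R249.Fl174
end
end

-- ▼ part R249/Fl3_174
section

/-!
# R249 (helper174), leaf D2-FLAT (3): locally Euclidean + Euclidean packing growth ⇒ Euclidean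

`flat_isometric` : `Y` proper, with intermediate points, locally isometric to `ℝⁿ`, with at least
`c Rⁿ` points at mutual distances `≥ ρ₀` in every large ball about `y₀` : then `Y` is isometric to
`ℝⁿ`.
-/

set_option autoImplicit false
noncomputable section
open Set Filter Topology Metric MeasureTheory
open scoped ENNReal

namespace Crest.Agent.R249.Fl174

open Crest.Agent.R249.Ul174

variable {n : ℕ} {Y : Type*} [MetricSpace Y]

/-- a globally defined local isometry is an isometry on the full size of the charts -/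
theorem LI.ext_of_cht (hY : ∀ z : Y, ∃ ρ > 0, Cht n z ρ) {D : E n → Y} (hD : LI univ D)
    {x : E n} {r : ℝ} (hr : 0 < r) (hc : Cht n (D x) r) : Ext D x r := by
  obtain ⟨G, hG1, hG2⟩ := exists_ext hr (hD.isoAt (mem_univ x)) hc
  refine hG1.congr hr fun v hv => ?_
  exact (eq_on_convex hY (convex_ball x r) (fun y hy => hG1.isoAt hy)
    (fun y _ => hD.isoAt (mem_univ y)) (mem_ball_self hr) hG2 hv).symm

/-- **lifting**: the developing map attains distances -/
theorem LI.lift [ProperSpace Y] (hY : ∀ z : Y, ∃ ρ > 0, Cht n z ρ) (hM : Mid Y) {D : E n → Y}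
    (hD : LI univ D) (a : E n) (y : Y) : ∃ x, D x = y ∧ dist a x ≤ dist (D a) y := by
  set K : Set Y := closedBall (D a) (dist (D a) y) with hK
  obtain ⟨r, hr, hu⟩ := exists_uniform hY (isCompact_closedBall (D a) (dist (D a) y))
  have hstep : ∀ m : ℕ, ∀ a' : E n, dist (D a') y ≤ m * (r / 2) →
      dist (D a) (D a') + dist (D a') y ≤ dist (D a) y →
      ∃ x, D x = y ∧ dist a' x ≤ dist (D a') y := by
    intro m
    induction m with
    | zero =>
      intro a' h _
      refine ⟨a', ?_, ?_⟩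
      · apply dist_le_zero.1
        simpa using h
      · rw [dist_self]; exact dist_nonneg
    | succ m ih =>
      intro a' h h'
      by_cases hsm : dist (D a') y < r
      · have hcht : Cht n (D a') r := hu _ (by
          rw [mem_closedBall, dist_comm]
          linarith [dist_nonneg (x := D a') (y := y)])
        have hE := hD.ext_of_cht hY hr hcht
        obtain ⟨x, hx, rfl⟩ := hE.surj (show y ∈ ball (D a') r by rwa [mem_ball, dist_comm])
        refine ⟨x, rfl, ?_⟩
        rw [hE.isom a' (mem_ball_self hr) x hx]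
      · push Not at hsm
        set R := dist (D a') y with hR
        have hR0 : 0 < R := lt_of_lt_of_le hr hsm
        obtain ⟨c, hc1, hc2⟩ := hM (D a') y ((r / 2) / R)
          ⟨by positivity, by rw [div_le_one hR0]; linarith⟩
        rw [← hR] at hc1 hc2
        have hc1' : dist (D a') c = r / 2 := by rw [hc1]; field_simp
        have hc2' : dist c y = R - r / 2 := by rw [hc2]; field_simp
        have hcht : Cht n (D a') r := hu _ (by
          rw [mem_closedBall, dist_comm]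
          linarith)
        have hE := hD.ext_of_cht hY hr hcht
        obtain ⟨b, hb, hbc⟩ := hE.surj (show c ∈ ball (D a') r by
          rw [mem_ball, dist_comm, hc1']; linarith)
        have hab : dist a' b = r / 2 := by
          rw [← hE.isom a' (mem_ball_self hr) b hb, hbc, hc1']
        obtain ⟨x, hx1, hx2⟩ := ih b (by
          rw [hbc, hc2']
          push_cast at h
          linarith) (by
          rw [hbc, hc2']
          have := dist_triangle (D a) (D a') c
          linarith)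
        refine ⟨x, hx1, ?_⟩
        rw [hbc, hc2'] at hx2
        have := dist_triangle a' b x
        linarith
  obtain ⟨m, hm⟩ := exists_nat_ge (dist (D a) y / (r / 2))
  rw [div_le_iff₀ (by positivity)] at hm
  exact hstep m a hm (by rw [dist_self, zero_add])

theorem LI.lip {D : E n → Y} (hD : LI univ D) (a b : E n) : dist (D a) (D b) ≤ dist a b :=
  lip_of_isoAt convex_univ (fun x _ => hD.isoAt (mem_univ x)) (mem_univ a) (mem_univ b)

/-- an injective developing map is an isometry -/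
theorem LI.isometry_of_injective [ProperSpace Y] (hY : ∀ z : Y, ∃ ρ > 0, Cht n z ρ) (hM : Mid Y)
    {D : E n → Y} (hD : LI univ D) (hi : Function.Injective D) :
    ∃ e : E n ≃ᵢ Y, ∀ x, e x = D x := by
  have hiso : Isometry D := by
    refine Isometry.of_dist_eq fun a b => le_antisymm (hD.lip a b) ?_
    obtain ⟨x, hx, hxd⟩ := hD.lift hY hM a (D b)
    rw [← hi hx]
    rw [hi hx] at hxd ⊢
    exact hxd
  have hs : Function.Surjective D := fun y => by
    obtain ⟨x, hx, -⟩ := hD.lift hY hM 0 y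
    exact ⟨x, hx⟩
  exact ⟨IsometryEquiv.mk' D (Function.surjInv hs) (Function.surjInv_eq hs) hiso, fun x => rfl⟩

/-- **deck transformations**: if `D a = D b` there is a rigid motion `v ↦ b + L (v - a)` with
`D ∘ g = D`. -/
theorem LI.deck (hY : ∀ z : Y, ∃ ρ > 0, Cht n z ρ) {D : E n → Y} (hD : LI univ D) {a b : E n}
    (hab : D a = D b) : ∃ L : E n ≃ₗᵢ[ℝ] E n, ∀ v, D (b + L (v - a)) = D v := by
  obtain ⟨ρ, hρ, φ, hφ⟩ := hY (D a)
  obtain ⟨r₁, hr₁, -, hE₁⟩ := hD a (mem_univ a)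
  obtain ⟨r₂, hr₂, -, hE₂⟩ := hD b (mem_univ b)
  set r := min (min r₁ r₂) ρ with hr
  have hr0 : 0 < r := lt_min (lt_min hr₁ hr₂) hρ
  have hE₁' := hE₁.mono (show r ≤ r₁ from (min_le_left _ _).trans (min_le_left _ _))
  have hE₂' := hE₂.mono (show r ≤ r₂ from (min_le_left _ _).trans (min_le_right _ _))
  obtain ⟨L₁, hL₁⟩ := factor hE₁'.isom hr0 (min_le_right _ _) hφ
  obtain ⟨L₂, hL₂⟩ := factor (φ := φ) hE₂'.isom hr0 (min_le_right _ _) (by rw [← hab]; exact hφ)
  set L : E n ≃ₗᵢ[ℝ] E n := L₁.trans L₂.symm with hL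
  refine ⟨L, ?_⟩
  set g : E n → E n := fun v => b + L (v - a) with hg
  have hgd : ∀ v w, dist (g v) (g w) = dist v w := by
    intro v w
    simp only [hg]
    rw [dist_add_left, L.dist_map, dist_sub_right]
  have hiso : ∀ x ∈ (univ : Set (E n)), IsoAt (fun v => D (g v)) x := by
    intro x _
    obtain ⟨s, hs, hi⟩ := hD.isoAt (mem_univ (g x))
    refine ⟨s, hs, fun v hv w hw => ?_⟩
    rw [hi _ (by rw [mem_ball, hgd]; exact hv) _ (by rw [mem_ball, hgd]; exact hw), hgd]
  have h0 : (fun v => D (g v)) =ᶠ[𝓝 a] D := by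
    filter_upwards [ball_mem_nhds a hr0] with v hv
    have h1 : g v ∈ ball b r := by
      have : dist (g v) (g a) < r := by rw [hgd]; exact hv
      simpa [hg] using this
    rw [hL₂ _ h1, hL₁ v hv]
    simp [hg, hL]
  intro v
  exact eq_on_convex hY convex_univ hiso (fun x _ => hD.isoAt (mem_univ x)) (mem_univ a) h0
    (mem_univ v)

/-- Euclidean packing bound -/
theorem card_le_euclidean {p : E n} {R ρ : ℝ} (hρ : 0 < ρ) (hR : 0 ≤ R) (s : Finset (E n))
    (hs : ∀ x ∈ s, dist p x ≤ R) (hsep : Sep ρ s) :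
    (s.card : ℝ) ≤ ((2 * R + ρ) / ρ) ^ n := by
  have hdisj : (s : Set (E n)).PairwiseDisjoint fun a => ball a (ρ / 2) := by
    intro a ha b hb hab
    apply ball_disjoint_ball
    have := hsep a ha b hb hab
    linarith
  have hsub : ⋃ a ∈ s, ball a (ρ / 2) ⊆ ball p (R + ρ / 2) := by
    intro z hz
    simp only [mem_iUnion, mem_ball, exists_prop] at hz ⊢
    obtain ⟨a, ha, hz⟩ := hz
    have h2 := hs a ha
    have h3 := dist_triangle z a p
    rw [dist_comm a p] at h3
    linarith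
  have hsum : ∑ a ∈ s, volume (ball a (ρ / 2)) ≤ volume (ball p (R + ρ / 2)) := by
    rw [← measure_biUnion_finset hdisj fun a _ => measurableSet_ball]
    exact measure_mono hsub
  have hv : ∀ (a : E n) (r : ℝ), 0 < r → volume (ball a r) =
      ENNReal.ofReal (r ^ n) * volume (ball (0 : E n) 1) := by
    intro a r hr
    have := Measure.addHaar_ball_of_pos (volume : Measure (E n)) a hr
    simpa using this
  have h1 : (s.card : ℝ≥0∞) * (ENNReal.ofReal ((ρ / 2) ^ n) * volume (ball (0 : E n) 1)) ≤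
      ENNReal.ofReal ((R + ρ / 2) ^ n) * volume (ball (0 : E n) 1) := by
    rw [← hv p (R + ρ / 2) (by positivity)]
    refine le_trans (le_of_eq ?_) hsum
    rw [Finset.sum_congr rfl fun a _ => hv a (ρ / 2) (by positivity), Finset.sum_const,
      nsmul_eq_mul]
  rw [← mul_assoc] at h1
  have h2 := (ENNReal.mul_le_mul_iff_left (measure_ball_pos volume (0 : E n) one_pos).ne'
    measure_ball_lt_top.ne).1 h1
  have h3 : (s.card : ℝ) * (ρ / 2) ^ n ≤ (R + ρ / 2) ^ n := by
    rw [← ENNReal.ofReal_natCast, ← ENNReal.ofReal_mul (by positivity)] at h2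
    exact (ENNReal.ofReal_le_ofReal_iff (by positivity)).1 h2
  have h4 : ((2 * R + ρ) / ρ) ^ n = (R + ρ / 2) ^ n / (ρ / 2) ^ n := by
    rw [← div_pow]
    congr 1
    field_simp
  rw [h4, le_div_iff₀ (by positivity)]
  exact h3

/-- Euclidean packing growth at `y₀` -/
def Growth (n : ℕ) (y₀ : Y) : Prop :=
  ∃ c ρ₀ : ℝ, 0 < c ∧ 0 < ρ₀ ∧ ∃ R₁ : ℝ, ∀ R : ℝ, R₁ ≤ R → ∃ s : Finset Y,
    (∀ y ∈ s, dist y₀ y ≤ R) ∧ Sep ρ₀ s ∧ c * R ^ n ≤ s.card

/-- the developing map of a space of Euclidean packing growth is injective -/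
theorem LI.injective_of_growth [ProperSpace Y] (hY : ∀ z : Y, ∃ ρ > 0, Cht n z ρ) (hM : Mid Y)
    {D : E n → Y} (hD : LI univ D) {y₀ : Y} (hG : Growth n y₀) : Function.Injective D := by
  classical
  intro a b hab
  by_contra hne
  obtain ⟨L, hL⟩ := hD.deck hY hab
  set c : E n := b - L a with hc
  have hg : ∀ v, b + L (v - a) = L v + c := by
    intro v
    rw [hc, map_sub]
    abel
  have hDg : ∀ v, D (L v + c) = D v := fun v => by rw [← hg]; exact hL v
  -- the fixed part of the translation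
  set S : Submodule ℝ (E n) := LinearMap.range
    (LinearMap.id - (L.toLinearEquiv : E n →ₗ[ℝ] E n)) with hS
  obtain ⟨c₁, hc₁, c₀, hc₀, hcc⟩ := Submodule.exists_add_mem_mem_orthogonal (K := S) c
  obtain ⟨p, hp⟩ := hc₁
  have hp' : p - L p = c₁ := by simpa using hp
  have hc₀L : L c₀ = c₀ := by
    have h1 : inner ℝ (c₀ - L c₀) c₀ = 0 := by
      refine hc₀ (c₀ - L c₀) ⟨c₀, by simp⟩
    have h2 : ‖L c₀ - c₀‖ ^ 2 = 0 := by
      rw [@norm_sub_sq_real, L.norm_map]
      rw [inner_sub_left, real_inner_self_eq_norm_sq] at h1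
      linarith
    have h3 : ‖L c₀ - c₀‖ = 0 := by simpa using h2
    exact sub_eq_zero.1 (norm_eq_zero.1 h3)
  -- the conjugated motion
  have hgp : ∀ x : E n, L (p + x) + c = p + (L x + c₀) := by
    intro x
    rw [map_add, hcc, ← hp']
    abel
  have hDp : ∀ x : E n, D (p + (L x + c₀)) = D (p + x) := by
    intro x
    rw [← hgp, hDg]
  have hc₀0 : c₀ ≠ 0 := by
    intro h0
    -- `p` is a fixed point: `D` is injective near `p`, so the motion is the identity
    obtain ⟨r, hr, hi⟩ := hD.isoAt (mem_univ p)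
    have hLid : ∀ x : E n, L x = x := by
      have h2 : ∀ x : E n, ‖x‖ < r → L x = x := by
        intro x hx
        have h3 := hDp x
        rw [h0, add_zero] at h3
        have h4 := hi (p + L x) (by rw [mem_ball, dist_eq_norm, add_sub_cancel_left, L.norm_map]; exact hx)
          (p + x) (by rw [mem_ball, dist_eq_norm, add_sub_cancel_left]; exact hx)
        rw [h3, dist_self] at h4
        have h5 := dist_eq_zero.1 h4.symm
        exact add_left_cancel h5
      intro x
      set t : ℝ := r / (2 * (‖x‖ + 1)) with ht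
      have ht0 : 0 < t := by positivity
      have h3 := h2 (t • x) (by
        rw [norm_smul, Real.norm_eq_abs, abs_of_pos ht0, ht, div_mul_eq_mul_div,
          div_lt_iff₀ (by positivity)]
        nlinarith [norm_nonneg x])
      rw [map_smul] at h3
      exact smul_right_injective _ ht0.ne' h3
    have h6 : c = 0 := by
      rw [hcc, h0, ← hp', hLid p]
      simp
    apply hne
    rw [hc, hLid a, sub_eq_zero] at h6
    exact h6.symm
  have hc₀n : 0 < ‖c₀‖ := norm_pos_iff.2 hc₀0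
  -- powers
  have hpow : ∀ (k : ℕ) (x : E n), ∃ x' : E n, ‖x'‖ ≤ ‖x‖ + k * ‖c₀‖ ∧
      inner ℝ x' c₀ = inner ℝ x c₀ + k * ‖c₀‖ ^ 2 ∧ D (p + x') = D (p + x) := by
    intro k
    induction k with
    | zero => intro x; exact ⟨x, by simp, by simp, rfl⟩
    | succ k ih =>
      intro x
      obtain ⟨x', h1, h2, h3⟩ := ih x
      refine ⟨L x' + c₀, ?_, ?_, ?_⟩
      · have := norm_add_le (L x') c₀
        rw [L.norm_map] at this
        push_cast
        linarith
      · rw [inner_add_left, real_inner_self_eq_norm_sq]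
        have h4 : inner ℝ (L x') c₀ = inner ℝ x' c₀ := by
          conv_lhs => rw [← hc₀L]
          exact L.inner_map_map x' c₀
        rw [h4, h2]
        push_cast
        ring
      · rw [hDp, h3]
  choose P hP1 hP2 hP3 using hpow
  -- the growth
  obtain ⟨cg, ρ₀, hcg, hρ₀, R₁, hgr⟩ := hG
  obtain ⟨m, hm⟩ := exists_nat_gt (ρ₀ / ‖c₀‖)
  rw [div_lt_iff₀ hc₀n] at hm
  have hm0 : (0:ℝ) < m := by
    by_contra h
    have : (m:ℝ) = 0 := le_antisymm (not_lt.1 h) (by positivity)
    rw [this, zero_mul] at hm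
    linarith
  set δ : ℝ := m * ‖c₀‖ with hδ
  have hδ0 : 0 < δ := by positivity
  set d₁ : ℝ := dist (D p) y₀ with hd₁
  -- key inequality
  have hkey : ∀ R : ℝ, R₁ ≤ R → 0 ≤ R → ∀ K : ℕ, (K : ℝ) * δ ≤ R →
      (K : ℝ) * (cg * R ^ n) ≤ ((2 * (2 * R + d₁) + ρ₀) / ρ₀) ^ n := by
    intro R hR hR0 K hK
    obtain ⟨s, hs1, hs2, hs3⟩ := hgr R hR
    have hlift : ∀ y : Y, ∃ x : E n, D (p + x) = y ∧ ‖x‖ ≤ dist (D p) y := by
      intro y
      obtain ⟨x, hx1, hx2⟩ := hD.lift hY hM p y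
      refine ⟨x - p, by rwa [add_sub_cancel], ?_⟩
      rwa [dist_comm, dist_eq_norm] at hx2
    choose X hX1 hX2 using hlift
    set f : Y × ℕ → E n := fun z => p + P (m * z.2) (X z.1) with hf
    have hDf : ∀ z, D (f z) = z.1 := by
      intro z
      simp only [hf]
      rw [hP3, hX1]
    set T : Finset (Y × ℕ) := s ×ˢ Finset.range K with hT
    have hsepf : ∀ z ∈ T, ∀ w ∈ T, z ≠ w → ρ₀ ≤ dist (f z) (f w) := by
      intro z hz w hw hzw
      rw [hT, Finset.mem_product] at hz hw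
      by_cases h1 : z.1 = w.1
      · have h2 : z.2 ≠ w.2 := fun h2 => hzw (Prod.ext h1 h2)
        have h3 : inner ℝ (f z - f w) c₀ = (m : ℝ) * ((z.2 : ℝ) - w.2) * ‖c₀‖ ^ 2 := by
          simp only [hf, add_sub_add_left_eq_sub]
          rw [inner_sub_left, hP2, hP2, h1]
          push_cast
          ring
        have h4 := abs_real_inner_le_norm (f z - f w) c₀
        rw [h3, abs_mul, abs_mul, abs_of_pos hm0, abs_of_pos (by positivity : 0 < ‖c₀‖ ^ 2)] at h4
        have h5 : (1 : ℝ) ≤ |(z.2 : ℝ) - w.2| := by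
          have h6 : (1 : ℤ) ≤ |(z.2 : ℤ) - w.2| := by
            apply Int.one_le_abs
            intro h7
            apply h2
            omega
          exact_mod_cast h6
        rw [dist_eq_norm]
        have h6 : (m : ℝ) * ‖c₀‖ ^ 2 ≤ ‖f z - f w‖ * ‖c₀‖ := by
          calc (m : ℝ) * ‖c₀‖ ^ 2 = m * 1 * ‖c₀‖ ^ 2 := by ring
            _ ≤ m * |(z.2 : ℝ) - w.2| * ‖c₀‖ ^ 2 := by gcongr
            _ ≤ _ := h4
        have h7 : (m : ℝ) * ‖c₀‖ ≤ ‖f z - f w‖ := by
          rw [pow_two, ← mul_assoc] at h6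
          exact le_of_mul_le_mul_right h6 hc₀n
        linarith
      · have h2 := hD.lip (f z) (f w)
        rw [hDf, hDf] at h2
        exact (hs2 _ hz.1 _ hw.1 h1).trans h2
    have hinj : Set.InjOn f (T : Set (Y × ℕ)) := by
      intro z hz w hw hzw
      by_contra h
      have := hsepf z hz w hw h
      rw [hzw, dist_self] at this
      linarith
    have hcard : (T.image f).card = T.card := Finset.card_image_of_injOn hinj
    have hTc : T.card = s.card * K := by
      rw [hT, Finset.card_product, Finset.card_range]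
    have hball : ∀ x ∈ T.image f, dist p x ≤ 2 * R + d₁ := by
      intro x hx
      obtain ⟨z, hz, rfl⟩ := Finset.mem_image.1 hx
      rw [hT, Finset.mem_product, Finset.mem_range] at hz
      simp only [hf]
      rw [dist_eq_norm, sub_add_cancel_left, norm_neg]
      have h1 := hP1 (m * z.2) (X z.1)
      have h2 := hX2 z.1
      have h3 := hs1 _ hz.1
      have h4 := dist_triangle (D p) y₀ z.1
      have h5 : ((m * z.2 : ℕ) : ℝ) * ‖c₀‖ ≤ K * δ := by
        have h6 : (z.2 : ℝ) ≤ K := by exact_mod_cast hz.2.le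
        push_cast
        rw [hδ]
        calc (m : ℝ) * z.2 * ‖c₀‖ = z.2 * (m * ‖c₀‖) := by ring
          _ ≤ K * (m * ‖c₀‖) := by gcongr
      linarith
    have hsep' : Sep ρ₀ (T.image f) := by
      intro x hx y hy hxy
      obtain ⟨z, hz, rfl⟩ := Finset.mem_image.1 hx
      obtain ⟨w, hw, rfl⟩ := Finset.mem_image.1 hy
      exact hsepf z hz w hw fun h => hxy (by rw [h])
    have h1 := card_le_euclidean hρ₀ (by positivity) (T.image f) hball hsep'
    rw [hcard, hTc] at h1
    refine le_trans ?_ h1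
    push_cast
    rw [mul_comm]
    gcongr
  -- conclusion
  set C : ℝ := ((4 + 2 * d₁ + ρ₀) / ρ₀) ^ n with hC
  have hC0 : 0 < C := by positivity
  obtain ⟨K, hK⟩ := exists_nat_gt (C / cg)
  rw [div_lt_iff₀ hcg] at hK
  set R : ℝ := max (max R₁ (K * δ)) 1 with hR
  have hR1 : 1 ≤ R := le_max_right _ _
  have h1 := hkey R ((le_max_left _ _).trans (le_max_left _ _)) (by linarith) K
    ((le_max_right _ _).trans (le_max_left _ _))
  have h2 : ((2 * (2 * R + d₁) + ρ₀) / ρ₀) ^ n ≤ C * R ^ n := by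
    rw [hC, ← mul_pow]
    have h3 : (2 * (2 * R + d₁) + ρ₀) / ρ₀ ≤ (4 + 2 * d₁ + ρ₀) / ρ₀ * R := by
      rw [div_mul_eq_mul_div]
      gcongr
      have h4 : 0 ≤ d₁ := dist_nonneg
      nlinarith
    gcongr
  have h3 : (K : ℝ) * cg * R ^ n ≤ C * R ^ n := by
    rw [mul_assoc]
    exact h1.trans h2
  have h4 := le_of_mul_le_mul_right h3 (by positivity)
  linarith

/-- **D2b**: a proper locally Euclidean length space of Euclidean packing growth is Euclidean. -/
theorem flat_isometric [ProperSpace Y] (hY : ∀ z : Y, ∃ ρ > 0, Cht n z ρ) (hM : Mid Y) (y₀ : Y)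
    (hG : Growth n y₀) : ∃ e : Y ≃ᵢ EuclideanSpace ℝ (Fin n), e y₀ = 0 := by
  obtain ⟨D, hD, hD0⟩ := exists_developing hY y₀
  obtain ⟨e, he⟩ := hD.isometry_of_injective hY hM (hD.injective_of_growth hY hM hG)
  refine ⟨e.symm, ?_⟩
  rw [IsometryEquiv.symm_apply_eq, he, hD0]

end Crest.Agent.R249.Fl174
end
end

-- ▼ part R249/Bad1_174
section

/-!
# R249 (helper174), D2 (1): tools for the first bad scale

* `cht_rebase`, `cht_of_isometry` : Euclidean balls under isometries;
* `exists_sep_UL` : separated sets of bounded cardinality pass to the ultralimit;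
* `mRicDev_sc`, `lintegral_mRicDev_sc` : scaling of `|Ric - c g|²` and scale invariance (`n = 4`);
* `growth_UL` : `vol(ball (q k) R) ≥ v Rⁿ` and `vol(ball y 1) ≤ w` give packing growth of `UL q`.
-/

set_option autoImplicit false
noncomputable section
open Set Filter Topology Metric MeasureTheory
open scoped ContDiff Manifold ENNReal
open Bundle Crest.GeometryTopology.CoordMetric Crest.GeometryTopology.ChartCurvature
  Crest.GeometryTopology.PointedLimit Crest.GeometryTopology.RicciEnergy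

namespace Crest.Agent.R249.Bad174

open Crest.Agent.R249.Ul174 Crest.Agent.R249.Fl174 Crest.Agent.R249.D1Def104
open Crest.Agent.R247.Scal386

universe u

/-! ### Euclidean balls under isometries -/

theorem cht_of_isometry {n : ℕ} {Y Z : Type*} [MetricSpace Y] [MetricSpace Z] (e : Y ≃ᵢ Z) {z : Y}
    {ρ : ℝ} (h : Cht n z ρ) : Cht n (e z) ρ := by
  obtain ⟨φ, hφ⟩ := h
  refine ⟨fun v => e (φ v), by rw [hφ.zero], ?_, ?_⟩
  · intro v hv w hw
    rw [e.dist_eq]
    exact hφ.isom v hv w hw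
  · intro y hy
    have h1 : e.symm y ∈ ball z ρ := by
      rw [mem_ball, ← e.dist_eq, e.apply_symm_apply]
      exact hy
    obtain ⟨v, hv, hvy⟩ := hφ.surj h1
    exact ⟨v, hv, by
      change e (φ v) = y
      rw [hvy, e.apply_symm_apply]⟩

variable {M : ℕ → Type u} [∀ k, MetricSpace (M k)] {q : ∀ k, M k}

/-- Euclidean balls of the ultralimit may be found after a change of the base point -/
theorem cht_rebase {n : ℕ} {y : ∀ k, M k} (hy : Bd q y) {ρ : ℝ} (h : Cht n (UL.base y) ρ) :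
    Cht n (UL.mk y hy) ρ := by
  have h1 := cht_of_isometry (UL.rebase hy).symm h
  have h2 : (UL.rebase hy).symm (UL.base y) = UL.mk y hy := by
    rw [IsometryEquiv.symm_apply_eq, UL.rebase_base]
  rwa [h2] at h1

/-! ### separated sets pass to the ultralimit -/

theorem exists_sep_UL {R ε : ℝ} (hε : 0 < ε) {N : ℕ}
    (h : ∀ᶠ k in om, ∃ s : Finset (M k), (∀ x ∈ s, dist (q k) x ≤ R) ∧ Sep ε s ∧ N ≤ s.card) :
    ∃ s : Finset (UL q), (∀ y ∈ s, dist (UL.base q) y ≤ R) ∧ Sep ε s ∧ N ≤ s.card := by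
  classical
  -- enumerate
  have h1 : ∀ k, ∃ f : Fin N → M k,
      (∃ s : Finset (M k), (∀ x ∈ s, dist (q k) x ≤ R) ∧ Sep ε s ∧ N ≤ s.card) →
      (∀ i, dist (q k) (f i) ≤ R) ∧ ∀ i j, i ≠ j → ε ≤ dist (f i) (f j) := by
    intro k
    by_cases hk : ∃ s : Finset (M k), (∀ x ∈ s, dist (q k) x ≤ R) ∧ Sep ε s ∧ N ≤ s.card
    · obtain ⟨s, hs1, hs2, hs3⟩ := hk
      obtain ⟨t, hts, htc⟩ := Finset.exists_subset_card_eq hs3
      set e := (t.equivFinOfCardEq htc).symm with he
      refine ⟨fun i => (e i : M k), fun _ => ⟨fun i => hs1 _ (hts (e i).2), fun i j hij => ?_⟩⟩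
      refine hs2 _ (hts (e i).2) _ (hts (e j).2) fun h => hij ?_
      exact e.injective (Subtype.ext h)
    · exact ⟨fun _ => q k, fun h => absurd h hk⟩
  choose f hf using h1
  have hb : ∀ i, Bd q (fun k => f k i) := fun i =>
    ⟨R, h.mono fun k hk => (hf k hk).1 i⟩
  set F : Fin N → UL q := fun i => UL.mk (fun k => f k i) (hb i) with hF
  have hFd : ∀ i j, i ≠ j → ε ≤ dist (F i) (F j) := fun i j hij =>
    UL.le_dist _ _ (h.mono fun k hk => (hf k hk).2 i j hij)
  have hinj : Function.Injective F := by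
    intro i j hij
    by_contra hne
    have := hFd i j hne
    rw [hij, dist_self] at this
    linarith
  refine ⟨Finset.univ.image F, ?_, ?_, ?_⟩
  · intro y hy
    obtain ⟨i, -, rfl⟩ := Finset.mem_image.1 hy
    exact UL.dist_le (Bd.refl q) _ (h.mono fun k hk => (hf k hk).1 i)
  · intro x hx y hy hxy
    obtain ⟨i, -, rfl⟩ := Finset.mem_image.1 hx
    obtain ⟨j, -, rfl⟩ := Finset.mem_image.1 hy
    exact hFd i j fun h => hxy (by rw [h])
  · rw [Finset.card_image_of_injective _ hinj, Finset.card_univ, Fintype.card_fin]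

/-- covering by unit balls: many separated points -/
theorem exists_sep_of_volume {X : Type*} [MetricSpace X] [MeasurableSpace X] [BorelSpace X]
    (μ : Measure X) {q : X} {R v w : ℝ} (hw : 0 < w) {N₀ : ℕ}
    (hup : ∀ y : X, μ (ball y 1) ≤ ENNReal.ofReal w)
    (hlo : ENNReal.ofReal v ≤ μ (ball q R))
    (hpack : ∀ s : Finset X, (∀ y ∈ s, dist q y < R) → Sep 1 s → s.card ≤ N₀) :
    ∃ s : Finset X, (∀ x ∈ s, dist q x ≤ R) ∧ Sep 1 s ∧ v / w ≤ s.card := by
  obtain ⟨s, hs1, hs2, hs3⟩ := exists_net (S := {y | dist q y < R}) one_pos hpack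
  refine ⟨s, fun x hx => (hs1 x hx).le, hs2, ?_⟩
  have h1 : ball q R ⊆ ⋃ y ∈ s, ball y 1 := by
    intro x hx
    obtain ⟨y, hy, hxy⟩ := hs3 x (by rw [mem_ball, dist_comm] at hx; exact hx)
    exact mem_iUnion₂.2 ⟨y, hy, hxy⟩
  have h2 : ENNReal.ofReal v ≤ (s.card : ℝ≥0∞) * ENNReal.ofReal w := by
    calc ENNReal.ofReal v ≤ μ (ball q R) := hlo
      _ ≤ μ (⋃ y ∈ s, ball y 1) := measure_mono h1
      _ ≤ ∑ y ∈ s, μ (ball y 1) := measure_biUnion_finset_le _ _
      _ ≤ ∑ _y ∈ s, ENNReal.ofReal w := Finset.sum_le_sum fun y _ => hup y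
      _ = (s.card : ℝ≥0∞) * ENNReal.ofReal w := by rw [Finset.sum_const, nsmul_eq_mul]
  rw [← ENNReal.ofReal_natCast, ← ENNReal.ofReal_mul (by positivity)] at h2
  have h3 := (ENNReal.ofReal_le_ofReal_iff (by positivity)).1 h2
  rw [div_le_iff₀ hw]
  exact h3

/-- **packing growth of the ultralimit** -/
theorem growth_UL {n : ℕ} [∀ k, MeasurableSpace (M k)] [∀ k, BorelSpace (M k)]
    (μ : ∀ k, Measure (M k)) (hP : Pack q) {v w : ℝ} (hv : 0 < v) (hw : 0 < w)
    (hup : ∀ᶠ k in om, ∀ y : M k, μ k (ball y 1) ≤ ENNReal.ofReal w)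
    (hlo : ∀ R : ℝ, 1 ≤ R → ∀ᶠ k in om, ENNReal.ofReal (v * R ^ n) ≤ μ k (ball (q k) R)) :
    Growth n (UL.base q) := by
  refine ⟨v / w, 1, by positivity, one_pos, 1, fun R hR => ?_⟩
  obtain ⟨N₀, hN₀⟩ := hP R 1 one_pos
  set N : ℕ := ⌈v * R ^ n / w⌉₊ with hN
  have h1 : ∀ᶠ k in om, ∃ s : Finset (M k), (∀ x ∈ s, dist (q k) x ≤ R) ∧ Sep 1 s ∧
      N ≤ s.card := by
    filter_upwards [hup, hlo R hR, hN₀] with k hk1 hk2 hk3
    obtain ⟨s, hs1, hs2, hs3⟩ := exists_sep_of_volume (μ k) hw hk1 hk2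
      (fun s hs hs' => hk3 s (fun y hy => (hs y hy).le) hs')
    exact ⟨s, hs1, hs2, Nat.ceil_le.2 hs3⟩
  obtain ⟨s, hs1, hs2, hs3⟩ := exists_sep_UL one_pos h1
  refine ⟨s, hs1, hs2, ?_⟩
  calc v / w * R ^ n = v * R ^ n / w := by ring
    _ ≤ N := Nat.le_ceil _
    _ ≤ s.card := by exact_mod_cast hs3

/-! ### scaling of the Ricci deviation -/

theorem ricDev_smul {n : ℕ} {c : ℝ} (hc : c ≠ 0) (l : ℝ) (g : MetricField n)
    (x : EuclideanSpace ℝ (Fin n)) :
    ricDev l (fun y => c • g y) x = (c ^ 2)⁻¹ * ricDev (l * c) g x := by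
  unfold ricDev
  simp only [inverseField_smul hc, ricci_smul hc, Matrix.smul_apply, smul_eq_mul, Finset.mul_sum]
  refine Finset.sum_congr rfl fun _ _ => Finset.sum_congr rfl fun _ _ =>
    Finset.sum_congr rfl fun _ _ => Finset.sum_congr rfl fun _ _ => ?_
  field_simp

theorem mRicDev_sc {n : ℕ} {X : Type*} (r : {r : ℝ // 0 < r}) [MetricSpace X]
    [ChartedSpace (EuclideanSpace ℝ (Fin n)) X]
    [RiemannianBundle (fun x : X => TangentSpace 𝓘(ℝ, EuclideanSpace ℝ (Fin n)) x)] (l : ℝ)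
    (x : Sc r X) : mRicDev n (Sc r X) (l * r.1 ^ 2) x = r.1 ^ 4 * mRicDev n X l (ofSc r x) := by
  have hr := r.2
  have hc : (r.1 ^ 2)⁻¹ ≠ 0 := by positivity
  unfold mRicDev
  rw [chartMetric_sc', chartCentre_sc, ricDev_smul hc]
  have h1 : l * r.1 ^ 2 * (r.1 ^ 2)⁻¹ = l := by field_simp
  rw [h1]
  congr 1
  rw [inv_pow, inv_inv]
  ring

/-- scale invariance of `∫ |Ric - c g|²` in dimension four -/
theorem lintegral_mRicDev_sc {X : Type*} (r : {r : ℝ // 0 < r}) [MetricSpace X]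
    [ChartedSpace (EuclideanSpace ℝ (Fin 4)) X]
    [RiemannianBundle (fun x : X => TangentSpace 𝓘(ℝ, EuclideanSpace ℝ (Fin 4)) x)]
    [MeasurableSpace X] [BorelSpace X] (l : ℝ) :
    ∫⁻ x, ENNReal.ofReal (mRicDev 4 (Sc r X) (l * r.1 ^ 2) x) ∂(μHE[4] : Measure (Sc r X)) =
      ∫⁻ x, ENNReal.ofReal (mRicDev 4 X l x) ∂(μHE[4] : Measure X) := by
  have hr := r.2
  rw [lintegral_sc]
  have h1 : ∀ x : X, ENNReal.ofReal (mRicDev 4 (Sc r X) (l * r.1 ^ 2) (toSc r x)) =
      ENNReal.ofReal (r.1 ^ 4) * ENNReal.ofReal (mRicDev 4 X l x) := by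
    intro x
    rw [mRicDev_sc, ENNReal.ofReal_mul (by positivity)]
    rfl
  simp_rw [h1]
  rw [lintegral_const_mul' _ _ ENNReal.ofReal_ne_top, ← mul_assoc,
    ← ENNReal.ofReal_mul (by positivity), ← mul_pow, inv_mul_cancel₀ hr.ne', one_pow,
    ENNReal.ofReal_one, one_mul]

end Crest.Agent.R249.Bad174
end
end

-- ▼ part R249/Bad2_174

/-!
# R249 (helper174), D2 (2): no collapse of the volume ratio — the first bad scale

* `FlatR` : the local structure theorem in the case `λ → 0` (interface D3 → D2);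
* `RicNN` : `K ≥ 0 ⇒ Ric ≥ 0`;
* `pinching` : for a sequence of closed 4-manifolds with `K ≥ 0`, `∫ |Ric - 3g|² → 0`, volume `≥ v`,
  diameter `≤ D`, and every `δ > 0` there is `r₀ > 0` such that for almost every `k` ALL balls of
  radius `≤ r₀` have volume ratio `≥ 1 - δ`.
-/

set_option autoImplicit false
noncomputable section
open Set Filter Topology Metric MeasureTheory
open scoped ContDiff Manifold ENNReal
open Bundle Crest.GeometryTopology.CoordMetric Crest.GeometryTopology.ChartCurvature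
  Crest.GeometryTopology.PointedLimit Crest.GeometryTopology.RicciEnergy

namespace Crest.Agent.R249.Bad174

open Crest.Agent.R249.Ul174 Crest.Agent.R249.Fl174 Crest.Agent.R249.D1Def104
open Crest.Agent.R247.Scal386

/-- all balls of radius `≤ T` with centre in `S` have volume ratio `≥ 1 - δ` -/
def Pinch (n : ℕ) {X : Type*} [MetricSpace X] [MeasurableSpace X] [BorelSpace X] (S : Set X)
    (T δ : ℝ) : Prop :=
  ∀ x ∈ S, ∀ r : ℝ, 0 < r → r ≤ T →
    ENNReal.ofReal (1 - δ) * volume (ball (0 : EuclideanSpace ℝ (Fin n)) r) ≤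
      (μHE[n] : Measure X) (ball x r)

/-- **Local structure theorem, flat case** (interface D3 → D2). -/
def FlatR : Prop :=
  ∃ δ₀ T R : ℝ, 0 < δ₀ ∧ 0 < T ∧ 0 < R ∧
    ∀ (M : ℕ → Type) [∀ k, MetricSpace (M k)] [∀ k, CompactSpace (M k)]
      [∀ k, ConnectedSpace (M k)] [∀ k, ChartedSpace (EuclideanSpace ℝ (Fin 4)) (M k)]
      [∀ k, IsManifold 𝓘(ℝ, EuclideanSpace ℝ (Fin 4)) ∞ (M k)]
      [∀ k, RiemannianBundle (fun x : M k => TangentSpace 𝓘(ℝ, EuclideanSpace ℝ (Fin 4)) x)]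
      [∀ k, IsContMDiffRiemannianBundle 𝓘(ℝ, EuclideanSpace ℝ (Fin 4)) ∞
        (EuclideanSpace ℝ (Fin 4)) (fun x : M k => TangentSpace 𝓘(ℝ, EuclideanSpace ℝ (Fin 4)) x)]
      [∀ k, IsRiemannianManifold 𝓘(ℝ, EuclideanSpace ℝ (Fin 4)) (M k)]
      [∀ k, MeasurableSpace (M k)] [∀ k, BorelSpace (M k)] (q : ∀ k, M k) (lam : ℕ → ℝ),
      (∀ k, HasNonnegSectionalCurvature 4 (M k)) → Tendsto lam om (𝓝 0) →
      Tendsto (fun k => ∫⁻ x in ball (q k) R, ENNReal.ofReal (mRicDev 4 (M k) (lam k) x)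
        ∂(μHE[4] : Measure (M k))) om (𝓝 0) →
      (∀ᶠ k in om, Pinch 4 (ball (q k) R) T δ₀) →
      ∃ ρ > 0, Cht 4 (UL.base q) ρ

/-- `K ≥ 0 ⇒ Ric ≥ 0` -/
def RicNN : Prop :=
  ∀ (M : Type) [MetricSpace M] [CompactSpace M] [ConnectedSpace M]
    [ChartedSpace (EuclideanSpace ℝ (Fin 4)) M]
    [IsManifold 𝓘(ℝ, EuclideanSpace ℝ (Fin 4)) ∞ M]
    [RiemannianBundle (fun x : M => TangentSpace 𝓘(ℝ, EuclideanSpace ℝ (Fin 4)) x)]
    [IsContMDiffRiemannianBundle 𝓘(ℝ, EuclideanSpace ℝ (Fin 4)) ∞ (EuclideanSpace ℝ (Fin 4))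
      (fun x : M => TangentSpace 𝓘(ℝ, EuclideanSpace ℝ (Fin 4)) x)]
    [IsRiemannianManifold 𝓘(ℝ, EuclideanSpace ℝ (Fin 4)) M],
    HasNonnegSectionalCurvature 4 M → HasRicciLowerBound 4 M 0

theorem toSc_preimage_ball {X : Type*} [MetricSpace X] (r : {r : ℝ // 0 < r}) (x : Sc r X)
    (s : ℝ) : (toSc r ⁻¹' (ball x s) : Set X) = ball (ofSc r x) (r.1 * s) := by
  have hr := r.2
  ext y
  rw [mem_preimage, mem_ball, mem_ball, dist_sc, inv_mul_lt_iff₀ hr]
  rfl

/-- volume ratios are scale invariant -/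
theorem ratio_sc {n : ℕ} {X : Type*} [MetricSpace X] [MeasurableSpace X] [BorelSpace X]
    (r : {r : ℝ // 0 < r}) (x : Sc r X) {s c : ℝ} (hs : 0 < s) :
    ENNReal.ofReal c * volume (ball (0 : EuclideanSpace ℝ (Fin n)) s) ≤
      (μHE[n] : Measure (Sc r X)) (ball x s) ↔
    ENNReal.ofReal c * volume (ball (0 : EuclideanSpace ℝ (Fin n)) (r.1 * s)) ≤
      (μHE[n] : Measure X) (ball (ofSc r x) (r.1 * s)) := by
  have hr := r.2
  rw [D1Def104.muHE_sc_eq, toSc_preimage_ball, Dens_274.vol_ball 0 hs,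
    Dens_274.vol_ball 0 (mul_pos hr hs), mul_pow, ENNReal.ofReal_mul (by positivity)]
  set V := volume (ball (0 : EuclideanSpace ℝ (Fin n)) 1)
  set m := (μHE[n] : Measure X) (ball (ofSc r x) (r.1 * s))
  have h1 : ENNReal.ofReal (r.1⁻¹ ^ n) * ENNReal.ofReal (r.1 ^ n) = 1 := by
    rw [← ENNReal.ofReal_mul (by positivity), ← mul_pow, inv_mul_cancel₀ hr.ne', one_pow,
      ENNReal.ofReal_one]
  have h2 : ENNReal.ofReal (r.1 ^ n) * ENNReal.ofReal (r.1⁻¹ ^ n) = 1 := by
    rw [mul_comm]; exact h1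
  constructor
  · intro h
    calc ENNReal.ofReal c * (ENNReal.ofReal (r.1 ^ n) * ENNReal.ofReal (s ^ n) * V)
        = ENNReal.ofReal (r.1 ^ n) * (ENNReal.ofReal c * (ENNReal.ofReal (s ^ n) * V)) := by ring
      _ ≤ ENNReal.ofReal (r.1 ^ n) * (ENNReal.ofReal (r.1⁻¹ ^ n) * m) := by gcongr
      _ = m := by rw [← mul_assoc, h2, one_mul]
  · intro h
    calc ENNReal.ofReal c * (ENNReal.ofReal (s ^ n) * V)
        = (ENNReal.ofReal (r.1⁻¹ ^ n) * ENNReal.ofReal (r.1 ^ n)) *
          (ENNReal.ofReal c * (ENNReal.ofReal (s ^ n) * V)) := by rw [h1, one_mul]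
      _ = ENNReal.ofReal (r.1⁻¹ ^ n) *
          (ENNReal.ofReal c * (ENNReal.ofReal (r.1 ^ n) * ENNReal.ofReal (s ^ n) * V)) := by ring
      _ ≤ ENNReal.ofReal (r.1⁻¹ ^ n) * m := by gcongr

section one
variable {n : ℕ} {M : Type} [MetricSpace M] [CompactSpace M] [ConnectedSpace M]
    [ChartedSpace (EuclideanSpace ℝ (Fin n)) M]
    [IsManifold 𝓘(ℝ, EuclideanSpace ℝ (Fin n)) ∞ M]
    [RiemannianBundle (fun x : M => TangentSpace 𝓘(ℝ, EuclideanSpace ℝ (Fin n)) x)]
    [IsContMDiffRiemannianBundle 𝓘(ℝ, EuclideanSpace ℝ (Fin n)) ∞ (EuclideanSpace ℝ (Fin n))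
      (fun x : M => TangentSpace 𝓘(ℝ, EuclideanSpace ℝ (Fin n)) x)]
    [IsRiemannianManifold 𝓘(ℝ, EuclideanSpace ℝ (Fin n)) M] [MeasurableSpace M] [BorelSpace M]

/-- lower volume ratios pass to smaller radii -/
theorem ratio_mono (hRic : HasRicciLowerBound n M 0) (x : M) {r R c : ℝ} (hr : 0 < r)
    (hrR : r ≤ R)
    (h : ENNReal.ofReal c * volume (ball (0 : EuclideanSpace ℝ (Fin n)) R) ≤
      (μHE[n] : Measure M) (ball x R)) :
    ENNReal.ofReal c * volume (ball (0 : EuclideanSpace ℝ (Fin n)) r) ≤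
      (μHE[n] : Measure M) (ball x r) := by
  have h1 := Dens_274.ge_of_ge (κ := 0) le_rfl (by simpa using hRic) x hr hrR h
  simpa using h1

/-- a lower volume ratio at all scales from total volume and diameter -/
theorem ratio_of_volume (hRic : HasRicciLowerBound n M 0) {v D : ℝ} (hv : 0 < v) (hD : 0 < D)
    (hvol : ENNReal.ofReal v ≤ (μHE[n] : Measure M) univ) (hdiam : ∀ x y : M, dist x y ≤ D)
    (x : M) {r : ℝ} (hr : 0 < r) (hrD : r ≤ D + 1) :
    ENNReal.ofReal (v / ((D + 1) ^ n * (volume (ball (0 : EuclideanSpace ℝ (Fin n)) 1)).toReal)) *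
      volume (ball (0 : EuclideanSpace ℝ (Fin n)) r) ≤ (μHE[n] : Measure M) (ball x r) := by
  refine ratio_mono hRic x hr hrD ?_
  have hb : ball x (D + 1) = univ := by
    refine eq_univ_of_forall fun y => ?_
    rw [mem_ball]
    linarith [hdiam y x]
  rw [hb]
  refine le_trans (le_of_eq ?_) hvol
  have hV0 := Dens_274.vol_ball_one_ne_zero (n := n)
  have hVt := Dens_274.vol_ball_one_ne_top (n := n)
  have hV : 0 < (volume (ball (0 : EuclideanSpace ℝ (Fin n)) 1)).toReal :=
    ENNReal.toReal_pos hV0 hVt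
  rw [Dens_274.vol_ball 0 (by linarith : (0:ℝ) < D + 1)]
  conv_lhs => rw [← ENNReal.ofReal_toReal hVt]
  rw [← ENNReal.ofReal_mul (by positivity), ← ENNReal.ofReal_mul (by positivity),
    ENNReal.toReal_ofReal hV.le]
  congr 1
  field_simp

end one

/-- **D2**: no small balls of small volume ratio. -/
theorem pinching (hF : FlatR) (hN : RicNN) {v D : ℝ} (hv : 0 < v) (hD : 0 < D)
    (M : ℕ → Type) [∀ k, MetricSpace (M k)] [∀ k, CompactSpace (M k)]
    [∀ k, ConnectedSpace (M k)] [∀ k, ChartedSpace (EuclideanSpace ℝ (Fin 4)) (M k)]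
    [∀ k, IsManifold 𝓘(ℝ, EuclideanSpace ℝ (Fin 4)) ∞ (M k)]
    [∀ k, RiemannianBundle (fun x : M k => TangentSpace 𝓘(ℝ, EuclideanSpace ℝ (Fin 4)) x)]
    [∀ k, IsContMDiffRiemannianBundle 𝓘(ℝ, EuclideanSpace ℝ (Fin 4)) ∞
      (EuclideanSpace ℝ (Fin 4)) (fun x : M k => TangentSpace 𝓘(ℝ, EuclideanSpace ℝ (Fin 4)) x)]
    [∀ k, IsRiemannianManifold 𝓘(ℝ, EuclideanSpace ℝ (Fin 4)) (M k)]
    [∀ k, MeasurableSpace (M k)] [∀ k, BorelSpace (M k)]
    (hK : ∀ k, HasNonnegSectionalCurvature 4 (M k)) {a : ℕ → ℝ} (ha : Tendsto a om (𝓝 0))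
    (hG : ∀ᶠ k in om, Good v D (a k) (M k)) {δ : ℝ} (hδ : 0 < δ) :
    ∃ r₀ > 0, ∀ᶠ k in om, Pinch 4 (univ : Set (M k)) r₀ δ := by
  classical
  obtain ⟨δ₀, T, R, hδ₀, hT, hR, hF⟩ := hF
  set δ₁ : ℝ := min δ δ₀ with hδ₁
  have hδ₁0 : 0 < δ₁ := lt_min hδ hδ₀
  have hRic : ∀ k, HasRicciLowerBound 4 (M k) 0 := fun k => hN (M k) (hK k)
  suffices H : ∃ r₀ > 0, ∀ᶠ k in om, Pinch 4 (univ : Set (M k)) r₀ δ₁ by
    obtain ⟨r₀, hr₀, h⟩ := H
    refine ⟨r₀, hr₀, h.mono fun k hk x hx r hr hr' => le_trans ?_ (hk x hx r hr hr')⟩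
    gcongr
    exact min_le_left _ _
  by_contra hcon
  have hcon : ∀ r₀ : ℝ, 0 < r₀ → ¬ ∀ᶠ k in om, Pinch 4 (univ : Set (M k)) r₀ δ₁ :=
    fun r₀ h h' => hcon ⟨r₀, h, h'⟩
  -- dyadic first good scale
  have hex : ∀ k, ∃ j : ℕ, Pinch 4 (univ : Set (M k)) ((1 / 2 : ℝ) ^ j) δ₁ := by
    intro k
    obtain ⟨r₀, hr₀, h⟩ := Dens_274.uniform_dens (M := M k) (κ := 0) le_rfl
      (by simpa using hRic k) hδ₁0
    obtain ⟨j, hj⟩ := exists_pow_lt_of_lt_one hr₀ (by norm_num : (1 / 2 : ℝ) < 1)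
    exact ⟨j, fun x _ r hr hrj => h x r hr (hrj.trans hj.le)⟩
  set j : ℕ → ℕ := fun k => Nat.find (hex k) with hj
  have hjP : ∀ k, Pinch 4 (univ : Set (M k)) ((1 / 2 : ℝ) ^ j k) δ₁ := fun k =>
    Nat.find_spec (hex k)
  have hjm : ∀ m : ℕ, ∀ᶠ k in om, m < j k := by
    intro m
    have h1 : ∀ᶠ k in om, ¬ Pinch 4 (univ : Set (M k)) ((1 / 2 : ℝ) ^ m) δ₁ := by
      rcases ev_or_not (fun k => Pinch 4 (univ : Set (M k)) ((1 / 2 : ℝ) ^ m) δ₁) with h | h
      · exact absurd h (hcon ((1 / 2 : ℝ) ^ m) (by positivity))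
      · exact h
    filter_upwards [h1] with k hk
    by_contra hle
    push Not at hle
    refine hk fun x hx r hr hrm => hjP k x hx r hr (hrm.trans ?_)
    exact pow_le_pow_of_le_one (by norm_num) (by norm_num) hle
  set ρ : ℕ → ℝ := fun k => (1 / 2 : ℝ) ^ j k with hρ
  have hρ0 : ∀ k, 0 < ρ k := fun k => by simp only [hρ]; positivity
  have hρlim : Tendsto ρ om (𝓝 0) := by
    rw [Metric.tendsto_nhds]
    intro ε hε
    obtain ⟨m, hm⟩ := exists_pow_lt_of_lt_one hε (by norm_num : (1 / 2 : ℝ) < 1)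
    filter_upwards [hjm m] with k hk
    rw [Real.dist_eq, sub_zero, abs_of_pos (hρ0 k)]
    refine lt_of_le_of_lt ?_ hm
    exact pow_le_pow_of_le_one (by norm_num) (by norm_num) hk.le
  -- the bad points
  have hbad : ∀ k, ∃ x : M k, 0 < j k →
      (μHE[4] : Measure (M k)) (ball x (2 * ρ k)) <
        ENNReal.ofReal (1 - δ₁) * volume (ball (0 : EuclideanSpace ℝ (Fin 4)) (2 * ρ k)) := by
    intro k
    by_cases hk : 0 < j k
    · have h1 : ¬ Pinch 4 (univ : Set (M k)) ((1 / 2 : ℝ) ^ (j k - 1)) δ₁ :=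
        Nat.find_min (hex k) (show j k - 1 < j k by omega)
      have h2 : ((1 / 2 : ℝ)) ^ (j k - 1) = 2 * ρ k := by
        simp only [hρ]
        obtain ⟨i, hi⟩ : ∃ i, j k = i + 1 := ⟨j k - 1, by omega⟩
        rw [hi, Nat.add_sub_cancel, pow_succ]
        ring
      rw [h2] at h1
      unfold Pinch at h1
      push Not at h1
      obtain ⟨x, -, s, hs, hs2, h3⟩ := h1
      refine ⟨x, fun _ => ?_⟩
      by_contra hle
      push Not at hle
      exact absurd (ratio_mono (hRic k) x hs hs2 hle) (not_le.2 h3)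
    · obtain ⟨x⟩ := (inferInstance : Nonempty (M k))
      exact ⟨x, fun h => absurd h hk⟩
  choose x hx using hbad
  -- the rescaled manifolds
  set σ : ℕ → {r : ℝ // 0 < r} := fun k => ⟨ρ k / T, div_pos (hρ0 k) hT⟩ with hσ
  have hσT : ∀ k, (σ k).1 * T = ρ k := fun k => by
    change ρ k / T * T = ρ k
    field_simp
  have hσlim : Tendsto (fun k => (σ k).1) om (𝓝 0) := by
    have := hρlim.div_const T
    simpa using this
  set q : ∀ k, Sc (σ k) (M k) := fun k => toSc (σ k) (x k) with hq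
  have hK' : ∀ k, HasNonnegSectionalCurvature 4 (Sc (σ k) (M k)) := fun k =>
    nonnegSec_sc (σ k) (hK k)
  have hRic' : ∀ k, HasRicciLowerBound 4 (Sc (σ k) (M k)) 0 := fun k =>
    hN (Sc (σ k) (M k)) (hK' k)
  have hlam : Tendsto (fun k => 3 * (σ k).1 ^ 2) om (𝓝 0) := by
    have := (hσlim.pow 2).const_mul 3
    simpa using this
  have hint : ∀ y : ∀ k, Sc (σ k) (M k), Tendsto (fun k => ∫⁻ z in ball (y k) R,
      ENNReal.ofReal (mRicDev 4 (Sc (σ k) (M k)) (3 * (σ k).1 ^ 2) z)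
        ∂(μHE[4] : Measure (Sc (σ k) (M k)))) om (𝓝 0) := by
    intro y
    have h0 : Tendsto (fun k => ENNReal.ofReal (a k)) om (𝓝 0) := by
      have := (ENNReal.continuous_ofReal.tendsto 0).comp ha
      rw [ENNReal.ofReal_zero] at this
      exact this
    refine tendsto_of_tendsto_of_tendsto_of_le_of_le' tendsto_const_nhds h0
      (Eventually.of_forall fun _ => bot_le) ?_
    filter_upwards [hG] with k hk
    refine (setLIntegral_le_lintegral _ _).trans ?_
    rw [lintegral_mRicDev_sc]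
    exact hk.2.2
  have hpin : ∀ k, Pinch 4 (univ : Set (Sc (σ k) (M k))) T δ₁ := by
    intro k z _ s hs hsT
    rw [ratio_sc (σ k) z hs]
    refine hjP k _ (mem_univ _) _ (mul_pos (σ k).2 hs) ?_
    calc (σ k).1 * s ≤ (σ k).1 * T := mul_le_mul_of_nonneg_left hsT (σ k).2.le
      _ = ρ k := hσT k
  have hpin' : ∀ (y : ∀ k, Sc (σ k) (M k)), ∀ᶠ k in om, Pinch 4 (ball (y k) R) T δ₀ := by
    intro y
    refine Eventually.of_forall fun k z _ s hs hsT => le_trans ?_ (hpin k z (mem_univ _) s hs hsT)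
    gcongr
    exact min_le_right _ _
  -- the ultralimit
  have hpack : Pack q := pack_of_ricci (n := 4) (κ := 0) le_rfl q
    (Eventually.of_forall fun k => by simpa using hRic' k)
  have hprop : ProperSpace (UL q) := hpack.properSpace
  have hmid : Mid (UL q) := mid_UL (Eventually.of_forall fun k => mid_of_riemannian 4 _)
  have hcht : ∀ z : UL q, ∃ r > 0, Cht 4 z r := by
    intro z
    obtain ⟨y, hy, rfl⟩ := z.exists_rep
    obtain ⟨r, hr, h⟩ := hF (fun k => Sc (σ k) (M k)) y (fun k => 3 * (σ k).1 ^ 2) hK' hlam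
      (hint y) (hpin' y)
    exact ⟨r, hr, cht_rebase hy h⟩
  set V : ℝ := (volume (ball (0 : EuclideanSpace ℝ (Fin 4)) 1)).toReal with hV
  have hV0 : 0 < V := ENNReal.toReal_pos Dens_274.vol_ball_one_ne_zero
    Dens_274.vol_ball_one_ne_top
  set c : ℝ := v / ((D + 1) ^ 4 * V) with hc
  have hc0 : 0 < c := by positivity
  have hlow : ∀ s : ℝ, 0 < s → ∀ᶠ k in om, ENNReal.ofReal c *
      volume (ball (0 : EuclideanSpace ℝ (Fin 4)) s) ≤
        (μHE[4] : Measure (Sc (σ k) (M k))) (ball (q k) s) := by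
    intro s hs
    have h1 : ∀ᶠ k in om, (σ k).1 * s < D + 1 := by
      have := hσlim.mul_const s
      rw [zero_mul] at this
      exact this.eventually_lt_const (by linarith)
    filter_upwards [h1, hG] with k hk hk'
    rw [ratio_sc (σ k) (q k) hs]
    exact ratio_of_volume (hRic k) hv hD hk'.1 hk'.2.1 _ (mul_pos (σ k).2 hs) hk.le
  have hgrow : Growth 4 (UL.base q) := by
    refine growth_UL (fun k => (μHE[4] : Measure (Sc (σ k) (M k)))) hpack (v := c * V) (w := V)
      (by positivity) hV0 ?_ ?_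
    · refine Eventually.of_forall fun k y => ?_
      have h1 := Dens_274.theta_le_one (hRic' k) y one_pos
      unfold Dens_274.theta at h1
      rw [ENNReal.div_le_iff Dens_274.vol_ball_one_ne_zero Dens_274.vol_ball_one_ne_top,
        one_mul] at h1
      rw [hV, ENNReal.ofReal_toReal Dens_274.vol_ball_one_ne_top]
      exact h1
    · intro r hr
      filter_upwards [hlow r (by linarith)] with k hk
      refine le_trans (le_of_eq ?_) hk
      rw [Dens_274.vol_ball 0 (by linarith : (0:ℝ) < r)]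
      conv_rhs => rw [← ENNReal.ofReal_toReal (Dens_274.vol_ball_one_ne_top (n := 4))]
      rw [← ENNReal.ofReal_mul (by positivity), ← ENNReal.ofReal_mul hc0.le]
      congr 1
      ring
  obtain ⟨e, he⟩ := flat_isometric hcht hmid (UL.base q) hgrow
  -- volume convergence
  obtain ⟨t₀, ht₀, ht₀1, hvol⟩ := Vm_274.vol_of_near.{0} 4 (e := δ₁ / 2) (c := c) (by positivity) hc0
  obtain ⟨η, hη, hη1, hvol⟩ := hvol t₀ ht₀ le_rfl
  set s : ℝ := 2 * T / t₀ with hs
  have hs0 : 0 < s := by positivity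
  have happ := hpack.approx_of_isometry e (R := s) (ε := η * s / 2) hs0 (by positivity)
  obtain ⟨k, hk1, hk2, hk3⟩ := (happ.and ((hlow s hs0).and (hjm 0))).exists
  rw [he] at hk1
  obtain ⟨f, hf0, hf1, hf2⟩ := hk1
  simp only [one_mul] at hf1 hf2
  have hη2 : η * s / 2 ≤ η * s := by
    have : 0 < η * s := by positivity
    linarith
  have hfin := hvol (Sc (σ k) (M k)) (q k) s 0 f hs0 le_rfl (by simpa using hη.le)
    (by simpa using hRic' k)
    (fun y hy y' hy' => (hf1 y y' (by rw [dist_comm]; exact hy)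
      (by rw [dist_comm]; exact hy')).trans hη2)
    (fun w hw => by
      rw [hf0, mem_ball] at hw
      obtain ⟨y, hy1, hy2⟩ := hf2 w (by
        rw [dist_comm]
        nlinarith)
      exact ⟨y, by rw [mem_ball, dist_comm]; exact hy1, hy2.trans hη2⟩)
    hk2
  have hts : t₀ * s = 2 * T := by
    rw [hs]
    field_simp
  rw [hts, ratio_sc (σ k) (q k) (by positivity)] at hfin
  have h2ρ : (σ k).1 * (2 * T) = 2 * ρ k := by
    rw [← hσT k]
    ring
  rw [h2ρ] at hfin
  have hbad := hx k hk3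
  have hlt : ENNReal.ofReal (1 - δ₁) * volume (ball (0 : EuclideanSpace ℝ (Fin 4)) (2 * ρ k)) ≤
      ENNReal.ofReal (1 - δ₁ / 2) *
        volume (ball (0 : EuclideanSpace ℝ (Fin 4)) (2 * ρ k)) := by
    gcongr
    linarith
  exact absurd (hlt.trans hfin) (not_le.2 hbad)

end Crest.Agent.R249.Bad174
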