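import Mathlib

-- ▼ part R249/Lim1_41
section
/-!
R249 / D3-LIM (helper41).  Abstract limit lemma, part 1: weak and strong convergence of functions on a
sequence of measure spaces `(X i, m i)` with maps `u i : X i → ℝⁿ`, tested by functions of `u i`.
-/

set_option autoImplicit false

open MeasureTheory Filter Topology Set
open scoped ContDiff

noncomputable section

namespace Crest.Agent.R249.Lim41

/-- the model space -/
abbrev E (n : ℕ) := EuclideanSpace ℝ (Fin n)

/-- continuous, compactly supported in `Ω` -/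
structure CC {n : ℕ} (Ω : Set (E n)) (φ : E n → ℝ) : Prop where
  cont : Continuous φ
  comp : HasCompactSupport φ
  supp : tsupport φ ⊆ Ω

/-- smooth, compactly supported in `Ω` -/
structure CS {n : ℕ} (Ω : Set (E n)) (φ : E n → ℝ) : Prop where
  smooth : ContDiff ℝ ∞ φ
  comp : HasCompactSupport φ
  supp : tsupport φ ⊆ Ω

theorem CS.cc {n : ℕ} {Ω : Set (E n)} {φ : E n → ℝ} (h : CS Ω φ) : CC Ω φ :=
  ⟨h.smooth.continuous, h.comp, h.supp⟩

theorem tendsto_of_approx {ι : Type*} {l : Filter ι} {a : ι → ℝ} {A : ℝ}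
    (h : ∀ ε > 0, ∃ b : ι → ℝ, ∃ B, Tendsto b l (𝓝 B) ∧ (∀ᶠ i in l, |a i - b i| ≤ ε) ∧
      |A - B| ≤ ε) : Tendsto a l (𝓝 A) := by
  rw [Metric.tendsto_nhds]
  intro ε hε
  obtain ⟨b, B, hb, hab, hAB⟩ := h (ε / 4) (by positivity)
  filter_upwards [hab, (Metric.tendsto_nhds.1 hb) (ε / 4) (by positivity)] with i hi hi'
  rw [Real.dist_eq] at hi' ⊢
  have h1 : a i - A = (a i - b i) + (b i - B) - (A - B) := by ring
  rw [h1]
  calc |(a i - b i) + (b i - B) - (A - B)| ≤ |(a i - b i) + (b i - B)| + |A - B| := abs_sub _ _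
    _ ≤ |a i - b i| + |b i - B| + |A - B| := by gcongr; exact abs_add_le _ _
    _ < ε := by linarith

/-- sup of a compactly supported continuous function -/
theorem CC.bdd {n : ℕ} {Ω : Set (E n)} {φ : E n → ℝ} (h : CC Ω φ) :
    ∃ C : ℝ, 0 ≤ C ∧ ∀ x, |φ x| ≤ C := by
  obtain ⟨C, hC⟩ := h.comp.exists_bound_of_continuous h.cont
  exact ⟨max C 0, le_max_right _ _, fun x => le_trans (hC x) (le_max_left _ _)⟩

/-- uniform approximation of a `CC` function by `CS` functions with smaller support -/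
theorem CC.approx {n : ℕ} {Ω : Set (E n)} {φ : E n → ℝ} (h : CC Ω φ) {ε : ℝ} (hε : 0 < ε) :
    ∃ ψ : E n → ℝ, CS Ω ψ ∧ (∀ x, |ψ x - φ x| ≤ ε) ∧ Function.support ψ ⊆ Function.support φ := by
  obtain ⟨g, hg, hd, hs⟩ := h.cont.exists_contDiff_approx ⊤ (ε := fun _ => ε) (by fun_prop)
    (by intro; exact hε)
  refine ⟨g, ⟨hg, h.comp.mono hs, (closure_mono hs).trans h.supp⟩, fun x => ?_, hs⟩
  have := (hd x).le
  rwa [Real.dist_eq] at this

section WC

variable {n : ℕ} {ι : Type*} {l : Filter ι} {X : ι → Type*} [∀ i, MeasurableSpace (X i)]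

/-- weak convergence `(u i)_# (g i • m i) ⇀ γ dx` on `Ω` -/
def WC (l : Filter ι) (Ω : Set (E n)) (m : ∀ i, Measure (X i)) (u : ∀ i, X i → E n)
    (g : ∀ i, X i → ℝ) (γ : E n → ℝ) : Prop :=
  ∀ φ : E n → ℝ, CC Ω φ →
    Tendsto (fun i => ∫ x, φ (u i x) * g i x ∂(m i)) l (𝓝 (∫ y, φ y * γ y))

/-- locally integrable on compact subsets of `Ω` -/
def LI (Ω : Set (E n)) (γ : E n → ℝ) : Prop := ∀ K : Set (E n), IsCompact K → K ⊆ Ω → IntegrableOn γ K

theorem CC.integrable_mul {Ω : Set (E n)} {φ γ : E n → ℝ} (h : CC Ω φ) (hγ : LI Ω γ) :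
    Integrable (fun y => φ y * γ y) := by
  have h1 : IntegrableOn γ (tsupport φ) := hγ _ h.comp h.supp
  obtain ⟨C, -, hC⟩ := h.bdd
  have h2 : IntegrableOn (fun y => φ y * γ y) (tsupport φ) :=
    Integrable.bdd_mul (c := C) h1 h.cont.aestronglyMeasurable
      (Eventually.of_forall fun x => by simpa using hC x)
  rw [← integrableOn_univ]
  refine IntegrableOn.of_forall_sdiff_eq_zero h2 MeasurableSet.univ ?_
  intro x hx
  have : φ x = 0 := image_eq_zero_of_notMem_tsupport hx.2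
  simp [this]

theorem wc_of_smooth [l.NeBot] {Ω : Set (E n)} {m : ∀ i, Measure (X i)} {u : ∀ i, X i → E n}
    {g : ∀ i, X i → ℝ} {γ : E n → ℝ} (hu : ∀ i, Measurable (u i))
    (hg : ∀ i, Integrable (g i) (m i)) {C : ℝ} (hC : ∀ i, ∫ x, |g i x| ∂(m i) ≤ C)
    (hγ : LI Ω γ)
    (h : ∀ φ : E n → ℝ, CS Ω φ →
      Tendsto (fun i => ∫ x, φ (u i x) * g i x ∂(m i)) l (𝓝 (∫ y, φ y * γ y))) :
    WC l Ω m u g γ := by
  intro φ hφ
  apply tendsto_of_approx
  intro ε hε
  obtain ⟨i₀⟩ : Nonempty ι := l.nonempty_of_neBot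
  have hC0 : 0 ≤ C := le_trans (integral_nonneg fun x => abs_nonneg _) (hC i₀)
  set K := tsupport φ with hK
  set I := ∫ y in K, |γ y| with hI
  have hI0 : 0 ≤ I := integral_nonneg fun x => abs_nonneg _
  set δ := ε / (C + I + 1) with hδ
  have hδ0 : 0 < δ := by positivity
  obtain ⟨ψ, hψ, hd, hs⟩ := hφ.approx hδ0
  refine ⟨_, _, h ψ hψ, Eventually.of_forall fun i => ?_, ?_⟩
  · have e1 : Integrable (fun x => φ (u i x) * g i x) (m i) := by
      obtain ⟨C', -, hC'⟩ := hφ.bdd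
      exact Integrable.bdd_mul (c := C') (hg i)
        (hφ.cont.measurable.comp (hu i)).aestronglyMeasurable
        (Eventually.of_forall fun x => by simpa using hC' _)
    have e2 : Integrable (fun x => ψ (u i x) * g i x) (m i) := by
      obtain ⟨C', -, hC'⟩ := hψ.cc.bdd
      exact Integrable.bdd_mul (c := C') (hg i)
        (hψ.cc.cont.measurable.comp (hu i)).aestronglyMeasurable
        (Eventually.of_forall fun x => by simpa using hC' _)
    rw [← integral_sub e1 e2]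
    calc |∫ x, (φ (u i x) * g i x - ψ (u i x) * g i x) ∂(m i)|
        ≤ ∫ x, |φ (u i x) * g i x - ψ (u i x) * g i x| ∂(m i) := abs_integral_le_integral_abs
      _ ≤ ∫ x, δ * |g i x| ∂(m i) := by
          apply integral_mono (e1.sub e2).abs ((hg i).abs.const_mul _)
          intro x
          show |φ (u i x) * g i x - ψ (u i x) * g i x| ≤ δ * |g i x|
          rw [← sub_mul, abs_mul]
          gcongr
          rw [abs_sub_comm]; exact hd _
      _ = δ * ∫ x, |g i x| ∂(m i) := integral_const_mul _ _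
      _ ≤ δ * C := by gcongr; exact hC i
      _ ≤ ε := by
          rw [hδ, div_mul_eq_mul_div, div_le_iff₀ (by positivity)]
          nlinarith
  · have e1 := hφ.integrable_mul hγ
    have e2 := hψ.cc.integrable_mul hγ
    rw [← integral_sub e1 e2]
    have hKi : IntegrableOn γ K := hγ _ hφ.comp hφ.supp
    have hz : ∀ y, y ∉ K → φ y * γ y - ψ y * γ y = 0 := by
      intro y hy
      have h1 : φ y = 0 := image_eq_zero_of_notMem_tsupport hy
      have h2 : ψ y = 0 := by
        by_contra h3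
        exact hy (subset_tsupport φ (hs h3))
      simp [h1, h2]
    have hset : ∫ y, (φ y * γ y - ψ y * γ y) = ∫ y in K, (φ y * γ y - ψ y * γ y) := by
      rw [setIntegral_eq_integral_of_forall_compl_eq_zero hz]
    rw [hset]
    calc |∫ y in K, (φ y * γ y - ψ y * γ y)|
        ≤ ∫ y in K, |φ y * γ y - ψ y * γ y| := abs_integral_le_integral_abs
      _ ≤ ∫ y in K, δ * |γ y| := by
          apply integral_mono (e1.sub e2).integrableOn.abs (hKi.abs.const_mul _)
          intro x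
          show |φ x * γ x - ψ x * γ x| ≤ δ * |γ x|
          rw [← sub_mul, abs_mul]
          gcongr
          rw [abs_sub_comm]; exact hd _
      _ = δ * I := integral_const_mul _ _
      _ ≤ ε := by
          rw [hδ, div_mul_eq_mul_div, div_le_iff₀ (by positivity)]
          nlinarith

end WC


end Crest.Agent.R249.Lim41
end
end

-- ▼ part R249/Lim2_41
section
/-!
R249 / D3-LIM (helper41).  Abstract limit lemma, part 2: strong convergence, products, Riesz
representation of weak limits.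
-/

set_option autoImplicit false

open MeasureTheory Filter Topology Set
open scoped ContDiff ENNReal

noncomputable section

namespace Crest.Agent.R249.Lim41

theorem CC.smul_cont {n : ℕ} {W : Type*} [NormedAddCommGroup W] [NormedSpace ℝ W]
    {Ω : Set (E n)} (hΩ : IsOpen Ω) {φ : E n → ℝ} {f : E n → W} (h : CC Ω φ)
    (hf : ContinuousOn f Ω) : Continuous (fun x => φ x • f x) := by
  rw [continuous_iff_continuousAt]
  intro x
  by_cases hx : x ∈ Ω
  · exact h.cont.continuousAt.smul (hf.continuousAt (hΩ.mem_nhds hx))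
  · have hx' : x ∉ tsupport φ := fun h' => hx (h.supp h')
    have : (fun y => φ y • f y) =ᶠ[𝓝 x] fun _ => (0 : W) := by
      filter_upwards [(isClosed_tsupport φ).isOpen_compl.mem_nhds hx'] with y hy
      have : φ y = 0 := image_eq_zero_of_notMem_tsupport hy
      simp [this]
    exact continuousAt_const.congr this.symm

theorem CC.mul_cont {n : ℕ} {Ω : Set (E n)} (hΩ : IsOpen Ω) {φ f : E n → ℝ} (h : CC Ω φ)
    (hf : ContinuousOn f Ω) : CC Ω (fun x => φ x * f x) :=
  ⟨by simpa using h.smul_cont hΩ hf, h.comp.mul_right, (tsupport_mul_subset_left).trans h.supp⟩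

theorem CC.abs {n : ℕ} {Ω : Set (E n)} {φ : E n → ℝ} (h : CC Ω φ) : CC Ω (fun x => |φ x|) := by
  have hs : Function.support (fun x => |φ x|) = Function.support φ := by
    ext x; simp
  refine ⟨h.cont.abs, ?_, ?_⟩
  · exact h.comp.mono (by rw [hs])
  · unfold tsupport; rw [hs]; exact h.supp

theorem CC.mul_right' {n : ℕ} {Ω : Set (E n)} {φ f : E n → ℝ} (h : CC Ω φ)
    (hf : Continuous f) : CC Ω (fun x => φ x * f x) :=
  ⟨h.cont.mul hf, h.comp.mul_right, (tsupport_mul_subset_left).trans h.supp⟩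

theorem CC.mul_left' {n : ℕ} {Ω : Set (E n)} {φ f : E n → ℝ} (h : CC Ω φ)
    (hf : Continuous f) : CC Ω (fun x => f x * φ x) := by
  simpa [mul_comm] using h.mul_right' hf

theorem CC.sq {n : ℕ} {Ω : Set (E n)} {φ : E n → ℝ} (h : CC Ω φ) : CC Ω (fun x => φ x ^ 2) := by
  simpa [pow_two] using h.mul_right' h.cont

theorem CC.sub {n : ℕ} {Ω : Set (E n)} {φ ψ : E n → ℝ} (h : CC Ω φ) (h' : CC Ω ψ) :
    CC Ω (fun x => φ x - ψ x) :=
  ⟨h.cont.sub h'.cont, h.comp.sub h'.comp, (tsupport_sub φ ψ).trans (union_subset h.supp h'.supp)⟩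

theorem CC.add {n : ℕ} {Ω : Set (E n)} {φ ψ : E n → ℝ} (h : CC Ω φ) (h' : CC Ω ψ) :
    CC Ω (fun x => φ x + ψ x) :=
  ⟨h.cont.add h'.cont, h.comp.add h'.comp, (tsupport_add φ ψ).trans (union_subset h.supp h'.supp)⟩

theorem CC.const_mul {n : ℕ} {Ω : Set (E n)} {φ : E n → ℝ} (h : CC Ω φ) (c : ℝ) :
    CC Ω (fun x => c * φ x) := h.mul_left' continuous_const

theorem CC.zero {n : ℕ} {Ω : Set (E n)} : CC Ω (fun _ => 0) :=
  ⟨continuous_const, HasCompactSupport.zero, by
    have : tsupport (fun _ : E n => (0 : ℝ)) = ∅ := by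
      rw [tsupport_eq_empty_iff]; rfl
    rw [this]; exact empty_subset _⟩

theorem CC.memLp {n : ℕ} {Ω : Set (E n)} {φ : E n → ℝ} (h : CC Ω φ) (p : ℝ≥0∞) :
    MemLp φ p (volume : Measure (E n)) := h.cont.memLp_of_hasCompactSupport h.comp

theorem CC.mem_of_ne {n : ℕ} {Ω : Set (E n)} {φ : E n → ℝ} (h : CC Ω φ) {y : E n}
    (hy : φ y ≠ 0) : y ∈ Ω := h.supp (subset_tsupport _ hy)

/-- Cauchy–Schwarz for real functions -/
theorem cs {α : Type*} [MeasurableSpace α] {μ : Measure α} {f g : α → ℝ} (hf : MemLp f 2 μ)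
    (hg : MemLp g 2 μ) : |∫ x, f x * g x ∂μ| ≤ √(∫ x, f x ^ 2 ∂μ) * √(∫ x, g x ^ 2 ∂μ) := by
  have nrm : ∀ {f : α → ℝ} (hf : MemLp f 2 μ), ‖hf.toLp f‖ = √(∫ x, f x ^ 2 ∂μ) := by
    intro f hf
    have h1 : ‖hf.toLp f‖ ^ 2 = ∫ x, f x ^ 2 ∂μ := by
      rw [← real_inner_self_eq_norm_sq, L2.inner_def]
      apply integral_congr_ae
      filter_upwards [hf.coeFn_toLp] with x hx
      rw [hx]; simp [pow_two]
    rw [← h1, Real.sqrt_sq (norm_nonneg _)]
  have h2 : ∫ x, f x * g x ∂μ = inner ℝ (hf.toLp f) (hg.toLp g) := by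
    rw [L2.inner_def]
    apply integral_congr_ae
    filter_upwards [hf.coeFn_toLp, hg.coeFn_toLp] with x hx hy
    rw [hx, hy]; simp [mul_comm]
  rw [h2, ← nrm hf, ← nrm hg]
  exact abs_real_inner_le_norm _ _

section SC

variable {n : ℕ} {ι : Type*} {l : Filter ι} {X : ι → Type*} [∀ i, MeasurableSpace (X i)]
variable {W : Type*} [NormedAddCommGroup W] [NormedSpace ℝ W]
variable {W' : Type*} [NormedAddCommGroup W'] [NormedSpace ℝ W']

/-- strong local `L¹` convergence of `F i` to `f ∘ u i` -/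
def SC (l : Filter ι) (Ω : Set (E n)) (m : ∀ i, Measure (X i)) (u : ∀ i, X i → E n)
    (F : ∀ i, X i → W) (f : E n → W) : Prop :=
  ∀ φ : E n → ℝ, CC Ω φ →
    Tendsto (fun i => ∫ x, ‖φ (u i x) • (F i x - f (u i x))‖ ∂(m i)) l (𝓝 0)

variable {Ω : Set (E n)} {m : ∀ i, Measure (X i)} {u : ∀ i, X i → E n}

theorem CC.aesm {φ : E n → ℝ} (h : CC Ω φ) (hu : ∀ i, Measurable (u i)) (i : ι) :
    AEStronglyMeasurable (fun x => φ (u i x)) (m i) :=
  (h.cont.measurable.comp (hu i)).aestronglyMeasurable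

theorem aesm_diff [SecondCountableTopology W] [MeasurableSpace W] [BorelSpace W]
    (hΩ : IsOpen Ω) (hu : ∀ i, Measurable (u i)) {φ : E n → ℝ} (h : CC Ω φ)
    {F : ∀ i, X i → W} {f : E n → W} (hF : ∀ i, AEStronglyMeasurable (F i) (m i))
    (hf : ContinuousOn f Ω) (i : ι) :
    AEStronglyMeasurable (fun x => φ (u i x) • (F i x - f (u i x))) (m i) := by
  have h1 : (fun x => φ (u i x) • (F i x - f (u i x))) =
      fun x => φ (u i x) • F i x - (fun y => φ y • f y) (u i x) := by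
    ext x; simp [smul_sub]
  rw [h1]
  refine ((h.aesm hu i).smul (hF i)).sub ?_
  have h2 : Measurable (fun y => φ y • f y) := (h.smul_cont hΩ hf).measurable
  exact (h2.comp (hu i)).aestronglyMeasurable

theorem integrable_diff [SecondCountableTopology W] [MeasurableSpace W] [BorelSpace W]
    (hΩ : IsOpen Ω) (hu : ∀ i, Measurable (u i)) {φ : E n → ℝ} (h : CC Ω φ)
    {F : ∀ i, X i → W} {f : E n → W} (hF : ∀ i, Integrable (F i) (m i))
    (hf : ContinuousOn f Ω) (i : ι) [IsFiniteMeasure (m i)] :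
    Integrable (fun x => φ (u i x) • (F i x - f (u i x))) (m i) := by
  have h1 : (fun x => φ (u i x) • (F i x - f (u i x))) =
      fun x => φ (u i x) • F i x - (fun y => φ y • f y) (u i x) := by
    ext x; simp [smul_sub]
  rw [h1]
  obtain ⟨C, -, hC⟩ := h.bdd
  refine Integrable.sub ?_ ?_
  · exact (hF i).bdd_smul C (h.aesm hu i) (Eventually.of_forall fun x => by
      simpa using hC (u i x))
  · have h2 : Continuous (fun y => φ y • f y) := h.smul_cont hΩ hf
    have hcs : HasCompactSupport (fun y => φ y • f y) := h.comp.smul_right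
    obtain ⟨C', hC'⟩ := hcs.exists_bound_of_continuous h2
    exact Integrable.of_bound (C := C') (h2.measurable.comp (hu i)).aestronglyMeasurable
      (Eventually.of_forall fun x => hC' _)

/-- composition with a continuous function -/
theorem SC.comp [l.NeBot] [SecondCountableTopology W] [MeasurableSpace W] [BorelSpace W]
    [ProperSpace W]
    [∀ i, IsFiniteMeasure (m i)] {Mm : ℝ} (hm : ∀ i, (m i).real univ ≤ Mm)
    (hΩ : IsOpen Ω) (hu : ∀ i, Measurable (u i))
    {F : ∀ i, X i → W} {f : E n → W} (hF : ∀ i, AEStronglyMeasurable (F i) (m i)) {C : ℝ}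
    (hFC : ∀ i, ∀ᵐ x ∂(m i), ‖F i x‖ ≤ C) (hf : ContinuousOn f Ω) (hfC : ∀ y ∈ Ω, ‖f y‖ ≤ C)
    (hS : SC l Ω m u F f) {Φ : W → W'} (hΦ : Continuous Φ) :
    SC l Ω m u (fun i x => Φ (F i x)) (fun y => Φ (f y)) := by
  intro φ hφ
  obtain ⟨Cφ, hCφ0, hCφ⟩ := hφ.bdd
  obtain ⟨i₀⟩ : Nonempty ι := l.nonempty_of_neBot
  have hM0 : 0 ≤ Mm := le_trans measureReal_nonneg (hm i₀)
  have hK : IsCompact (Metric.closedBall (0 : W) C) := isCompact_closedBall _ _
  have hUC : UniformContinuousOn Φ (Metric.closedBall (0 : W) C) :=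
    hK.uniformContinuousOn_of_continuous hΦ.continuousOn
  obtain ⟨B, hB⟩ := hK.exists_bound_of_continuousOn hΦ.continuousOn
  have hB' : ∀ a ∈ Metric.closedBall (0 : W) C, ‖Φ a‖ ≤ max B 0 := fun a ha =>
    (hB a ha).trans (le_max_left _ _)
  rw [Metric.tendsto_nhds]
  intro ε hε
  rw [Metric.uniformContinuousOn_iff] at hUC
  set ε' := ε / (2 * (Cφ * Mm + 1)) with hε'
  have hε'0 : 0 < ε' := by positivity
  obtain ⟨δ, hδ, hδ'⟩ := hUC ε' hε'0
  set L := 2 * max B 0 / δ with hL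
  have hL0 : 0 ≤ L := by positivity
  have hpt : ∀ a ∈ Metric.closedBall (0 : W) C, ∀ b ∈ Metric.closedBall (0 : W) C,
      ‖Φ a - Φ b‖ ≤ ε' + L * ‖a - b‖ := by
    intro a ha b hb
    by_cases h : dist a b < δ
    · have := hδ' a ha b hb h
      rw [dist_eq_norm] at this
      have h2 : 0 ≤ L * ‖a - b‖ := by positivity
      linarith
    · push Not at h
      rw [dist_eq_norm] at h
      have h1 : ‖Φ a - Φ b‖ ≤ 2 * max B 0 := by
        calc _ ≤ ‖Φ a‖ + ‖Φ b‖ := norm_sub_le _ _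
          _ ≤ _ := by linarith [hB' a ha, hB' b hb]
      have h2 : 2 * max B 0 ≤ L * ‖a - b‖ := by
        rw [hL, div_mul_eq_mul_div, le_div_iff₀ hδ]
        have : 0 ≤ 2 * max B 0 := by positivity
        nlinarith
      linarith
  have h0 := hS φ hφ
  have h1 : ∀ᶠ i in l, ∫ x, ‖φ (u i x) • (F i x - f (u i x))‖ ∂(m i) < ε / (2 * (L + 1)) := by
    have := (Metric.tendsto_nhds.1 h0) (ε / (2 * (L + 1))) (by positivity)
    filter_upwards [this] with i hi
    rw [Real.dist_eq, sub_zero] at hi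
    exact lt_of_abs_lt hi
  filter_upwards [h1] with i hi
  have hFi : Integrable (F i) (m i) := Integrable.of_bound (C := C) (hF i) (hFC i)
  have hint := (integrable_diff (F := F) (f := f) hΩ hu hφ
    (fun i => Integrable.of_bound (C := C) (hF i) (hFC i)) hf i).norm
  have hnn : 0 ≤ ∫ x, ‖φ (u i x) • (Φ (F i x) - Φ (f (u i x)))‖ ∂(m i) :=
    integral_nonneg fun x => norm_nonneg _
  rw [Real.dist_eq, sub_zero, abs_of_nonneg hnn]
  have hae : ∀ᵐ x ∂(m i), ‖φ (u i x) • (Φ (F i x) - Φ (f (u i x)))‖ ≤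
      Cφ * ε' + L * ‖φ (u i x) • (F i x - f (u i x))‖ := by
    filter_upwards [hFC i] with x hx
    by_cases hz : φ (u i x) = 0
    · simp only [hz, zero_smul, norm_zero, mul_zero, add_zero]; positivity
    · have hux : u i x ∈ Ω := hφ.mem_of_ne hz
      rw [norm_smul, norm_smul]
      have h3 := hpt (F i x) (by simpa using hx) (f (u i x)) (by simpa using hfC _ hux)
      calc ‖φ (u i x)‖ * ‖Φ (F i x) - Φ (f (u i x))‖
          ≤ ‖φ (u i x)‖ * (ε' + L * ‖F i x - f (u i x)‖) := by gcongr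
        _ = ‖φ (u i x)‖ * ε' + L * (‖φ (u i x)‖ * ‖F i x - f (u i x)‖) := by ring
        _ ≤ _ := by
            gcongr
            exact hCφ _
  calc ∫ x, ‖φ (u i x) • (Φ (F i x) - Φ (f (u i x)))‖ ∂(m i)
      ≤ ∫ x, (Cφ * ε' + L * ‖φ (u i x) • (F i x - f (u i x))‖) ∂(m i) := by
        apply integral_mono_of_nonneg (Eventually.of_forall fun x => norm_nonneg _) _ hae
        exact (integrable_const _).add (hint.const_mul _)
    _ = (m i).real univ * (Cφ * ε') + L * ∫ x, ‖φ (u i x) • (F i x - f (u i x))‖ ∂(m i) := by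
        rw [integral_add (integrable_const _) (hint.const_mul _), integral_const, smul_eq_mul,
          integral_const_mul]
    _ < ε := by
        have e1 : (m i).real univ * (Cφ * ε') ≤ Mm * (Cφ * ε') := by
          gcongr; exact hm i
        have e2 : Mm * (Cφ * ε') ≤ ε / 2 := by
          rw [hε']
          rw [← mul_assoc, mul_div_assoc', div_le_div_iff₀ (by positivity) (by norm_num)]
          nlinarith
        have e3 : L * ∫ x, ‖φ (u i x) • (F i x - f (u i x))‖ ∂(m i) ≤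
            L * (ε / (2 * (L + 1))) := by gcongr
        have e4 : L * (ε / (2 * (L + 1))) < ε / 2 := by
          rw [mul_div_assoc', div_lt_div_iff₀ (by positivity) (by norm_num)]
          nlinarith
        linarith

end SC

end Crest.Agent.R249.Lim41
end
end

-- ▼ part R249/Lim3_41
/-!
R249 / D3-LIM (helper41).  Abstract limit lemma, part 3: strong times weak convergence, Riesz
representation of weak limits of `L²`-bounded functions.
-/

set_option autoImplicit false

open MeasureTheory Filter Topology Set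
open scoped ContDiff ENNReal

noncomputable section

namespace Crest.Agent.R249.Lim41

section SC

variable {n : ℕ} {ι : Type*} {l : Filter ι} {X : ι → Type*} [∀ i, MeasurableSpace (X i)]
variable {Ω : Set (E n)} {m : ∀ i, Measure (X i)} {u : ∀ i, X i → E n}

/-- the common hypotheses on the spaces and maps -/
structure Base (Ω : Set (E n)) (m : ∀ i, Measure (X i)) (u : ∀ i, X i → E n) (Mm : ℝ) : Prop where
  opn : IsOpen Ω
  meas : ∀ i, Measurable (u i)
  fin : ∀ i, IsFiniteMeasure (m i)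
  mass : ∀ i, (m i).real univ ≤ Mm

theorem Base.mm [l.NeBot] {Mm : ℝ} (hB : Base Ω m u Mm) : 0 ≤ Mm := by
  obtain ⟨i₀⟩ : Nonempty ι := l.nonempty_of_neBot
  exact le_trans measureReal_nonneg (hB.mass i₀)

/-- a bounded function is in `L²` -/
theorem memLp_of_ae_bdd {α : Type*} [MeasurableSpace α] {μ : Measure α} [IsFiniteMeasure μ]
    {f : α → ℝ} {C : ℝ} (hf : AEStronglyMeasurable f μ) (hC : ∀ᵐ x ∂μ, |f x| ≤ C) (p : ℝ≥0∞) :
    MemLp f p μ := MemLp.of_bound hf C (by simpa using hC)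

theorem SC.sq {Mm : ℝ} (hB : Base Ω m u Mm) {F : ∀ i, X i → ℝ} {f : E n → ℝ}
    (hF : ∀ i, AEStronglyMeasurable (F i) (m i)) {C : ℝ}
    (hFC : ∀ i, ∀ᵐ x ∂(m i), |F i x| ≤ C) (hf : ContinuousOn f Ω) (hfC : ∀ y ∈ Ω, |f y| ≤ C)
    (hS : SC l Ω m u F f) {φ : E n → ℝ} (hφ : CC Ω φ) :
    Tendsto (fun i => ∫ x, (φ (u i x) * (F i x - f (u i x))) ^ 2 ∂(m i)) l (𝓝 0) := by
  have hfin := hB.fin
  have h0 := (hS _ hφ.sq).const_mul (2 * C)
  rw [mul_zero] at h0
  refine squeeze_zero (fun i => integral_nonneg fun x => sq_nonneg _) (fun i => ?_) h0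
  rw [← integral_const_mul]
  have hFi : ∀ i, Integrable (F i) (m i) := fun i =>
    Integrable.of_bound (C := C) (hF i) (by simpa using hFC i)
  have hint := (integrable_diff (F := F) (f := f) hB.opn hB.meas hφ.sq hFi hf i).norm
  apply integral_mono_of_nonneg (Eventually.of_forall fun x => sq_nonneg _) (hint.const_mul _)
  filter_upwards [hFC i] with x hx
  show (φ (u i x) * (F i x - f (u i x))) ^ 2 ≤ 2 * C * ‖φ (u i x) ^ 2 • (F i x - f (u i x))‖
  by_cases hz : φ (u i x) = 0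
  · simp [hz]
  · have hux : u i x ∈ Ω := hφ.mem_of_ne hz
    rw [norm_smul, Real.norm_eq_abs, Real.norm_eq_abs, mul_pow, abs_of_nonneg (sq_nonneg _)]
    have h1 : (F i x - f (u i x)) ^ 2 ≤ 2 * C * |F i x - f (u i x)| := by
      rw [← sq_abs, pow_two]
      gcongr
      calc |F i x - f (u i x)| ≤ |F i x| + |f (u i x)| := abs_sub _ _
        _ ≤ 2 * C := by linarith [hfC _ hux]
    calc φ (u i x) ^ 2 * (F i x - f (u i x)) ^ 2
        ≤ φ (u i x) ^ 2 * (2 * C * |F i x - f (u i x)|) := by gcongr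
      _ = _ := by ring

/-- strong times weak -/
theorem SC.mul_wc {Mm : ℝ} (hB : Base Ω m u Mm) {F : ∀ i, X i → ℝ} {f : E n → ℝ}
    (hF : ∀ i, AEStronglyMeasurable (F i) (m i)) {C : ℝ}
    (hFC : ∀ i, ∀ᵐ x ∂(m i), |F i x| ≤ C) (hf : ContinuousOn f Ω) (hfC : ∀ y ∈ Ω, |f y| ≤ C)
    (hS : SC l Ω m u F f) {G : ∀ i, X i → ℝ} {γ : E n → ℝ} (hG : ∀ i, MemLp (G i) 2 (m i))
    {CG : ℝ} (hGC : ∀ i, ∫ x, G i x ^ 2 ∂(m i) ≤ CG) (hW : WC l Ω m u G γ) :
    WC l Ω m u (fun i x => F i x * G i x) (fun y => f y * γ y) := by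
  have hfin := hB.fin
  intro φ hφ
  have h1 := hW _ (hφ.mul_cont hB.opn hf)
  have h2 := hS.sq hB hF hFC hf hfC hφ
  have hFi : ∀ i, Integrable (F i) (m i) := fun i =>
    Integrable.of_bound (C := C) (hF i) (by simpa using hFC i)
  have hmd : ∀ i, MemLp (fun x => φ (u i x) * (F i x - f (u i x))) 2 (m i) := by
    intro i
    obtain ⟨Cφ, -, hCφ⟩ := hφ.bdd
    have hme : AEStronglyMeasurable (fun x => φ (u i x) • (F i x - f (u i x))) (m i) :=
      aesm_diff hB.opn hB.meas hφ hF hf i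
    refine MemLp.of_bound (C := Cφ * (2 * C)) hme ?_
    filter_upwards [hFC i] with x hx
    by_cases hz : φ (u i x) = 0
    · simp only [hz, zero_mul, norm_zero]
      have : 0 ≤ C := le_trans (abs_nonneg _) hx
      have : 0 ≤ Cφ := le_trans (abs_nonneg _) (hCφ 0)
      positivity
    · have hux : u i x ∈ Ω := hφ.mem_of_ne hz
      rw [norm_mul, Real.norm_eq_abs, Real.norm_eq_abs]
      have hC0 : 0 ≤ Cφ := le_trans (abs_nonneg _) (hCφ 0)
      gcongr
      · exact hCφ _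
      · calc |F i x - f (u i x)| ≤ |F i x| + |f (u i x)| := abs_sub _ _
          _ ≤ 2 * C := by linarith [hfC _ hux]
  have hkey : Tendsto (fun i => ∫ x, φ (u i x) * (F i x - f (u i x)) * G i x ∂(m i)) l (𝓝 0) := by
    have h3 : Tendsto (fun i => √(∫ x, (φ (u i x) * (F i x - f (u i x))) ^ 2 ∂(m i)) * √CG) l
        (𝓝 0) := by
      have := ((Real.continuous_sqrt.tendsto 0).comp h2).mul_const √CG
      simpa using this
    refine squeeze_zero_norm (fun i => ?_) h3
    rw [Real.norm_eq_abs]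
    refine (cs (hmd i) (hG i)).trans ?_
    gcongr
    exact hGC i
  have h4 := h1.add hkey
  rw [add_zero] at h4
  have e1 : ∀ y, φ y * f y * γ y = φ y * (f y * γ y) := fun y => by ring
  simp_rw [e1] at h4
  refine h4.congr fun i => ?_
  rw [← integral_add]
  · congr 1
    ext x
    ring
  · have hc : CC Ω (fun y => φ y * f y) := hφ.mul_cont hB.opn hf
    obtain ⟨C', -, hC'⟩ := hc.bdd
    exact Integrable.bdd_mul (c := C') ((hG i).integrable (by norm_num)) (hc.aesm hB.meas i)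
      (Eventually.of_forall fun x => by simpa using hC' (u i x))
  · exact (hmd i).integrable_mul (hG i)

theorem WC.add [l.NeBot] {Mm : ℝ} (hB : Base Ω m u Mm) {G G' : ∀ i, X i → ℝ} {γ γ' : E n → ℝ}
    (hG : ∀ i, Integrable (G i) (m i)) (hG' : ∀ i, Integrable (G' i) (m i)) (hγ : LI Ω γ)
    (hγ' : LI Ω γ') (h : WC l Ω m u G γ) (h' : WC l Ω m u G' γ') :
    WC l Ω m u (fun i x => G i x + G' i x) (fun y => γ y + γ' y) := by
  intro φ hφ
  have h1 := (h φ hφ).add (h' φ hφ)
  rw [← integral_add (hφ.integrable_mul hγ) (hφ.integrable_mul hγ')] at h1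
  simp_rw [← mul_add] at h1
  refine h1.congr fun i => ?_
  obtain ⟨C', -, hC'⟩ := hφ.bdd
  have hi : ∀ {g : X i → ℝ}, Integrable g (m i) → Integrable (fun x => φ (u i x) * g x) (m i) :=
    fun hg => Integrable.bdd_mul (c := C') hg (hφ.aesm hB.meas i)
      (Eventually.of_forall fun x => by simpa using hC' (u i x))
  rw [← integral_add (hi (hG i)) (hi (hG' i))]
  congr 1
  ext x
  ring

theorem WC.const_mul {G : ∀ i, X i → ℝ} {γ : E n → ℝ} (h : WC l Ω m u G γ) (c : ℝ) :
    WC l Ω m u (fun i x => c * G i x) (fun y => c * γ y) := by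
  intro φ hφ
  have h1 := (h φ hφ).const_mul c
  simp_rw [← integral_const_mul] at h1
  simp_rw [mul_left_comm (φ _) c _]
  exact h1

theorem WC.congr {G G' : ∀ i, X i → ℝ} {γ γ' : E n → ℝ} (h : WC l Ω m u G γ)
    (hG : ∀ i, G i =ᵐ[m i] G' i) (hγ : ∀ y ∈ Ω, γ y = γ' y) : WC l Ω m u G' γ' := by
  intro φ hφ
  have h1 := h φ hφ
  have e1 : ∀ i, ∫ x, φ (u i x) * G i x ∂(m i) = ∫ x, φ (u i x) * G' i x ∂(m i) := by
    intro i
    apply integral_congr_ae
    filter_upwards [hG i] with x hx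
    rw [hx]
  have e2 : ∫ y, φ y * γ y = ∫ y, φ y * γ' y := by
    congr 1
    ext y
    by_cases hz : φ y = 0
    · simp [hz]
    · rw [hγ y (hφ.mem_of_ne hz)]
  simp_rw [e1, e2] at h1
  exact h1

theorem WC.restrict {Ω' : Set (E n)} (hΩ' : Ω' ⊆ Ω) {G : ∀ i, X i → ℝ} {γ : E n → ℝ}
    (h : WC l Ω m u G γ) : WC l Ω' m u G γ :=
  fun φ hφ => h φ ⟨hφ.cont, hφ.comp, hφ.supp.trans hΩ'⟩

end SC

/-! ### Riesz representation on an open set -/

theorem CS.add {n : ℕ} {Ω : Set (E n)} {a b : E n → ℝ} (h : CS Ω a) (h' : CS Ω b) :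
    CS Ω (fun x => a x + b x) :=
  ⟨h.smooth.add h'.smooth, h.comp.add h'.comp,
    (tsupport_add a b).trans (union_subset h.supp h'.supp)⟩

theorem CS.smooth_mul {n : ℕ} {Ω : Set (E n)} {φ f : E n → ℝ} (h : CS Ω φ)
    (hf : ContDiff ℝ ∞ f) : CS Ω (fun x => f x * φ x) :=
  ⟨hf.mul h.smooth, h.comp.mul_left, (h.cc.mul_left' hf.continuous).supp⟩


theorem CS.const_mul {n : ℕ} {Ω : Set (E n)} {φ : E n → ℝ} (h : CS Ω φ) (c : ℝ) :
    CS Ω (fun x => c * φ x) := h.smooth_mul contDiff_const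

theorem CS.zero {n : ℕ} {Ω : Set (E n)} : CS Ω (fun _ => 0) :=
  ⟨contDiff_const, HasCompactSupport.zero, CC.zero.supp⟩

/-- the submodule of smooth functions with compact support in `Ω` -/
def csSub {n : ℕ} (Ω : Set (E n)) : Submodule ℝ (E n → ℝ) where
  carrier := {φ | CS Ω φ}
  add_mem' := fun h h' => CS.add h h'
  zero_mem' := CS.zero
  smul_mem' := fun c _ h => h.const_mul c

theorem exists_repr_on {n : ℕ} {B : Set (E n)} (hB : MeasurableSet B) (L : csSub B →ₗ[ℝ] ℝ) {A : ℝ}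
    (hA : 0 ≤ A) (h : ∀ φ : csSub B, |L φ| ≤ A * √(∫ y, (φ : E n → ℝ) y ^ 2)) :
    ∃ k : E n → ℝ, MemLp k 2 (volume : Measure (E n)) ∧ (∀ y ∉ B, k y = 0) ∧
      (∫ y, k y ^ 2 ≤ A ^ 2) ∧ ∀ φ : csSub B, L φ = ∫ y, (φ : E n → ℝ) y * k y := by
  classical
  have hmem : ∀ φ : csSub B, MemLp (φ : E n → ℝ) 2 (volume.restrict B) := fun φ =>
    (φ.2.cc.memLp 2).restrict B
  let T : csSub B →ₗ[ℝ] Lp ℝ 2 (volume.restrict B) :=
    { toFun := fun φ => (hmem φ).toLp (φ : E n → ℝ)
      map_add' := by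
        intro a b
        rw [← MemLp.toLp_add]
        rfl
      map_smul' := by
        intro c a
        rw [RingHom.id_apply, ← MemLp.toLp_const_smul]
        rfl }
  have nrm : ∀ {μ : Measure (E n)} {f : E n → ℝ} (hf : MemLp f 2 μ),
      ‖hf.toLp f‖ = √(∫ x, f x ^ 2 ∂μ) := by
    intro μ f hf
    have h1 : ‖hf.toLp f‖ ^ 2 = ∫ x, f x ^ 2 ∂μ := by
      rw [← real_inner_self_eq_norm_sq, L2.inner_def]
      apply integral_congr_ae
      filter_upwards [hf.coeFn_toLp] with x hx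
      rw [hx]; simp [pow_two]
    rw [← h1, Real.sqrt_sq (norm_nonneg _)]
  have hTn : ∀ φ : csSub B, ‖T φ‖ = √(∫ y, (φ : E n → ℝ) y ^ 2) := by
    intro φ
    have h1 : ‖T φ‖ = √(∫ y, (φ : E n → ℝ) y ^ 2 ∂(volume.restrict B)) := nrm (hmem φ)
    rw [h1]
    congr 1
    rw [setIntegral_eq_integral_of_forall_compl_eq_zero]
    intro y hy
    have : (φ : E n → ℝ) y = 0 := by
      by_contra h3
      exact hy (φ.2.supp (subset_tsupport _ h3))
    rw [this]; ring
  have hker : LinearMap.ker T ≤ LinearMap.ker L := by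
    intro v hv
    rw [LinearMap.mem_ker] at hv ⊢
    have := h v
    rw [← hTn v, hv, norm_zero, mul_zero] at this
    exact abs_nonpos_iff.1 this
  obtain ⟨L', hL'⟩ : ∃ L' : (LinearMap.range T) →ₗ[ℝ] ℝ, ∀ v, L' (T.rangeRestrict v) = L v := by
    refine ⟨(LinearMap.ker T).liftQ L hker ∘ₗ T.quotKerEquivRange.symm.toLinearMap, fun v => ?_⟩
    have : T.quotKerEquivRange.symm (T.rangeRestrict v) = (LinearMap.ker T).mkQ v := by
      rw [LinearEquiv.symm_apply_eq]
      apply Subtype.ext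
      simp
    simp only [LinearMap.comp_apply, LinearEquiv.coe_coe]
    rw [this]
    simp
  have hb : ∀ y : LinearMap.range T, ‖L' y‖ ≤ A * ‖y‖ := by
    rintro ⟨y, v, rfl⟩
    have e1 : (⟨T v, v, rfl⟩ : LinearMap.range T) = T.rangeRestrict v := rfl
    rw [e1, hL', Real.norm_eq_abs]
    refine (h v).trans (le_of_eq ?_)
    rw [← hTn v]
    rfl
  obtain ⟨g, hg, hgn⟩ := exists_extension_norm_eq (LinearMap.range T) (L'.mkContinuous A hb)
  set k₀ := (InnerProductSpace.toDual ℝ (Lp ℝ 2 (volume.restrict B))).symm g with hk₀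
  have hk₀n : ‖k₀‖ ≤ A := by
    rw [hk₀, LinearIsometryEquiv.norm_map, hgn]
    exact LinearMap.mkContinuous_norm_le _ hA _
  have hk₀L : ∀ v, L v = inner ℝ k₀ (T v) := by
    intro v
    rw [hk₀, InnerProductSpace.toDual_symm_apply]
    have := hg (T.rangeRestrict v)
    rw [LinearMap.mkContinuous_apply, hL'] at this
    exact this.symm
  have hkm : MemLp k₀ 2 (volume.restrict B) := Lp.memLp k₀
  refine ⟨B.indicator k₀, (memLp_indicator_iff_restrict hB).2 hkm, fun y hy => by simp [hy], ?_, ?_⟩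
  · have e1 : ∀ y, (B.indicator (k₀ : E n → ℝ) y) ^ 2 = B.indicator (fun y => k₀ y ^ 2) y := by
      intro y
      by_cases hy : y ∈ B <;> simp [hy]
    simp_rw [e1]
    rw [integral_indicator hB]
    have e2 := nrm hkm
    have e3 : hkm.toLp k₀ = k₀ := Lp.toLp_coeFn k₀ hkm
    rw [e3] at e2
    have e4 : ∫ x in B, k₀ x ^ 2 = ‖k₀‖ ^ 2 := by
      rw [e2, Real.sq_sqrt (integral_nonneg fun x => sq_nonneg _)]
    rw [e4]
    gcongr
  · intro φ
    rw [hk₀L]
    show inner ℝ k₀ ((hmem φ).toLp (φ : E n → ℝ)) = _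
    rw [L2.inner_def]
    have e1 : ∀ y, (φ : E n → ℝ) y * B.indicator k₀ y =
        B.indicator (fun y => (φ : E n → ℝ) y * k₀ y) y := by
      intro y
      by_cases hy : y ∈ B <;> simp [hy]
    simp_rw [e1]
    rw [integral_indicator hB]
    apply integral_congr_ae
    filter_upwards [(hmem φ).coeFn_toLp] with x hx
    rw [hx]
    simp [mul_comm]

end Crest.Agent.R249.Lim41
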