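import Mathlib
import Crest.Agent.R249.Lim3_41
import Crest.Prelude.Def_CoordMetric
import Crest.Agent.R249.LPt1_191

-- ▼ part R249/LimB_41
section

/-! R249 / D3-LIM (helper41): copy of `R202/EllBasic`, `R202/EllDQ` (test functions, weak derivatives,
`L²` pairing, convolution, extension of weak equations to compactly supported `H¹` functions) in a
separate namespace: the original files cannot be imported together with `R202/Ell1`. -/

set_option autoImplicit false
open MeasureTheory Filter Topology Set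
open scoped ENNReal NNReal ContDiff RealInnerProductSpace Convolution

namespace Crest.Agent.R249.Lim41

variable {V : Type*} [NormedAddCommGroup V] [InnerProductSpace ℝ V] [FiniteDimensional ℝ V]
  [MeasurableSpace V] [BorelSpace V]

/-- smooth compactly supported functions -/
def Test (φ : V → ℝ) : Prop := ContDiff ℝ ∞ φ ∧ HasCompactSupport φ

/-- directional derivative -/
noncomputable def dd (e : V) (φ : V → ℝ) (x : V) : ℝ := fderiv ℝ φ x e

/-- `v` is a weak derivative of `u` in direction `e` (on the whole space) -/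
def WD (e : V) (u v : V → ℝ) : Prop :=
  ∀ φ : V → ℝ, Test φ → ∫ x, u x * dd e φ x = - ∫ x, v x * φ x

/-- the L² norm -/
noncomputable def nn (f : V → ℝ) : ℝ := Real.sqrt (∫ x, f x ^ 2)

omit [MeasurableSpace V] [BorelSpace V] in
omit [FiniteDimensional ℝ V] in
theorem Test.dd {φ : V → ℝ} (h : Test φ) (e : V) : Test (_root_.Crest.Agent.R249.Lim41.dd e φ) := by
  refine ⟨?_, ?_⟩
  · have := h.1.fderiv_right (m := ∞) (by simp)
    exact this.clm_apply contDiff_const
  · have h1 := h.2.fderiv (𝕜 := ℝ)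
    have : _root_.Crest.Agent.R249.Lim41.dd e φ = (fun L : V →L[ℝ] ℝ => L e) ∘ (fderiv ℝ φ) := rfl
    rw [this]
    exact h1.comp_left (by simp)

omit [MeasurableSpace V] [BorelSpace V] in
omit [FiniteDimensional ℝ V] in
theorem Test.continuous {φ : V → ℝ} (h : Test φ) : Continuous φ := h.1.continuous

theorem Test.memLp {φ : V → ℝ} (h : Test φ) (p : ℝ≥0∞) : MemLp φ p (volume : Measure V) :=
  h.continuous.memLp_of_hasCompactSupport h.2

theorem Test.integrable {φ : V → ℝ} (h : Test φ) : Integrable φ (volume : Measure V) :=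
  h.continuous.integrable_of_hasCompactSupport h.2

omit [MeasurableSpace V] [BorelSpace V] [FiniteDimensional ℝ V] in
theorem Test.add {φ ψ : V → ℝ} (h : Test φ) (h' : Test ψ) : Test (fun x => φ x + ψ x) :=
  ⟨h.1.add h'.1, h.2.add h'.2⟩

omit [MeasurableSpace V] [BorelSpace V] [FiniteDimensional ℝ V] in
theorem Test.const_mul {φ : V → ℝ} (h : Test φ) (c : ℝ) : Test (fun x => c * φ x) :=
  ⟨contDiff_const.mul h.1, h.2.mul_left⟩

omit [MeasurableSpace V] [BorelSpace V] [FiniteDimensional ℝ V] in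
theorem Test.smooth_mul {φ a : V → ℝ} (h : Test φ) (ha : ContDiff ℝ ∞ a) :
    Test (fun x => a x * φ x) :=
  ⟨ha.mul h.1, h.2.mul_left⟩

omit [MeasurableSpace V] [BorelSpace V] [FiniteDimensional ℝ V] in
theorem Test.comp_add {φ : V → ℝ} (h : Test φ) (a : V) : Test (fun x => φ (x + a)) := by
  refine ⟨h.1.comp (contDiff_id.add contDiff_const), ?_⟩
  exact h.2.comp_homeomorph (Homeomorph.addRight a)



/-! ### L² pairing -/




theorem integral_mul_eq_inner {f g : V → ℝ} (hf : MemLp f 2 (volume : Measure V))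
    (hg : MemLp g 2 (volume : Measure V)) :
    ∫ x, f x * g x = ⟪hf.toLp f, hg.toLp g⟫ := by
  rw [L2.inner_def]
  apply integral_congr_ae
  filter_upwards [hf.coeFn_toLp, hg.coeFn_toLp] with x hx hy
  rw [hx, hy]; simp [mul_comm]






theorem integrable_mul {f g : V → ℝ} (hf : MemLp f 2 (volume : Measure V))
    (hg : MemLp g 2 (volume : Measure V)) : Integrable (fun x => f x * g x) volume :=
  hf.integrable_mul hg


theorem memLp_bdd_mul {a f : V → ℝ} {C : ℝ} (ha : ∀ x, |a x| ≤ C) (hac : Continuous a)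
    (hf : MemLp f 2 (volume : Measure V)) : MemLp (fun x => a x * f x) 2 (volume : Measure V) := by
  refine MemLp.of_le_mul (c := C) hf (hac.aestronglyMeasurable.mul hf.1) ?_
  refine Eventually.of_forall fun x => ?_
  rw [norm_mul, Real.norm_eq_abs]
  exact mul_le_mul_of_nonneg_right (ha x) (norm_nonneg _)

/-! ### duality with test functions -/





/-- convolution of `u` with a test function -/
noncomputable def cv (u ρ : V → ℝ) (y : V) : ℝ := ∫ x, u x * ρ (y - x)

theorem cv_eq (u ρ : V → ℝ) : cv u ρ = (u ⋆[ContinuousLinearMap.mul ℝ ℝ, volume] ρ) := by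
  ext y; rfl

theorem contDiff_cv {u ρ : V → ℝ} (hu : LocallyIntegrable u volume) (hρ : Test ρ) :
    ContDiff ℝ ∞ (cv u ρ) := by
  rw [cv_eq]
  exact hρ.2.contDiff_convolution_right _ hu hρ.1

theorem dd_cv {u ρ : V → ℝ} (hu : LocallyIntegrable u volume) (hρ : Test ρ) (e y : V) :
    dd e (cv u ρ) y = cv u (dd e ρ) y := by
  unfold dd
  rw [cv_eq, (hρ.2.hasFDerivAt_convolution_right _ hu (hρ.1.of_le (by simp)) y).fderiv,
    convolution_precompR_apply _ hu (hρ.2.fderiv (𝕜 := ℝ)) (hρ.1.continuous_fderiv (by simp))]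
  rfl

omit [MeasurableSpace V] [BorelSpace V] [FiniteDimensional ℝ V] in
theorem Test.reflect {φ : V → ℝ} (h : Test φ) (a : V) : Test (fun x => φ (a - x)) := by
  refine ⟨h.1.comp (contDiff_const.sub contDiff_id), ?_⟩
  exact h.2.comp_homeomorph (Homeomorph.subLeft a)

omit [MeasurableSpace V] [BorelSpace V] [FiniteDimensional ℝ V] in
theorem dd_reflect {φ : V → ℝ} (h : Test φ) (e a x : V) :
    dd e (fun x => φ (a - x)) x = - dd e φ (a - x) := by
  unfold dd
  have h1 : HasFDerivAt φ (fderiv ℝ φ (a - x)) (a - x) :=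
    (h.1.differentiable (by simp) (a - x)).hasFDerivAt
  have h2 : HasFDerivAt (fun x : V => a - x) (-(ContinuousLinearMap.id ℝ V)) x := by
    have h0 := (hasFDerivAt_id (𝕜 := ℝ) x).const_sub a
    exact h0
  have h3 := h1.comp x h2
  have h4 : fderiv ℝ (fun x => φ (a - x)) x =
    (fderiv ℝ φ (a - x)).comp (-(ContinuousLinearMap.id ℝ V)) := h3.fderiv
  rw [h4]
  simp

theorem dd_cv_WD {u v ρ : V → ℝ} (hu : LocallyIntegrable u volume) (hρ : Test ρ) {e : V}
    (h : WD e u v) (y : V) : dd e (cv u ρ) y = cv v ρ y := by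
  rw [dd_cv hu hρ]
  have h1 := h _ (hρ.reflect y)
  simp_rw [dd_reflect hρ] at h1
  simp only [mul_neg, integral_neg, neg_inj] at h1
  exact h1

theorem hasCompactSupport_cv {u ρ : V → ℝ} (hu : HasCompactSupport u) (hρ : HasCompactSupport ρ) :
    HasCompactSupport (cv u ρ) := by
  rw [cv_eq]
  exact HasCompactSupport.convolution _ hu hρ






/-! ### extension of weak equations to compactly supported H¹ test functions -/

theorem continuous_pair_shift {G g : V → ℝ} (hG : MemLp G 2 (volume : Measure V))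
    (hg : MemLp g 2 (volume : Measure V)) : Continuous (fun y : V => ∫ x, G x * g (x - y)) := by
  have h1 : ∀ y : V, ∫ x, G x * g (x - y) =
      ⟪hG.toLp G, (DomAddAct.mk (-y)) +ᵥ (hg.toLp g)⟫ := by
    intro y
    rw [DomAddAct.mk_vadd_toLp, ← integral_mul_eq_inner]
    congr 1; ext x
    congr 2
    simp only [vadd_eq_add]
    abel
  simp_rw [h1]
  have : Fact ((2 : ℝ≥0∞) ≠ ⊤) := ⟨by norm_num⟩
  have hc : Continuous fun y : V => (DomAddAct.mk (-y)) +ᵥ (hg.toLp g) := by
    have h2 : Continuous fun y : V => DomAddAct.mk (-y) :=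
      DomAddAct.continuous_mk.comp continuous_neg
    exact h2.vadd continuous_const
  fun_prop

theorem integrable_tri {G g ρ : V → ℝ} (hG : MemLp G 2 (volume : Measure V))
    (hg : MemLp g 2 (volume : Measure V)) (hρ : Test ρ) :
    Integrable (fun p : V × V => G p.1 * (ρ p.2 * g (p.1 - p.2))) (volume.prod volume) := by
  have hm1 : AEStronglyMeasurable (fun p : V × V => ρ p.2 * g (p.1 - p.2))
      ((volume : Measure V).prod volume) := by
    have := AEStronglyMeasurable.convolution_integrand (ContinuousLinearMap.mul ℝ ℝ)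
      (μ := (volume : Measure V)) (ν := volume) hρ.continuous.aestronglyMeasurable hg.1
    exact this
  have hm : AEStronglyMeasurable (fun p : V × V => G p.1 * (ρ p.2 * g (p.1 - p.2)))
      ((volume : Measure V).prod volume) := hG.1.comp_fst.mul hm1
  have hi1 : Integrable (fun p : V × V => (G p.1 ^ 2) * ‖ρ p.2‖)
      ((volume : Measure V).prod volume) := hG.integrable_sq.mul_prod hρ.integrable.norm
  have hi2 : Integrable (fun p : V × V => ‖ρ p.2‖ * (g (p.1 - p.2)) ^ 2)
      ((volume : Measure V).prod volume) := by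
    have := Integrable.convolution_integrand (ContinuousLinearMap.mul ℝ ℝ)
      (μ := (volume : Measure V)) (ν := volume) hρ.integrable.norm hg.integrable_sq
    exact this
  refine (hi1.add hi2).mono' hm (Eventually.of_forall fun p => ?_)
  simp only [Pi.add_apply, norm_mul, Real.norm_eq_abs]
  have h1 : 0 ≤ |ρ p.2| := abs_nonneg _
  have h2 : |G p.1| * |g (p.1 - p.2)| ≤ G p.1 ^ 2 + g (p.1 - p.2) ^ 2 := by
    have e1 := sq_abs (G p.1)
    have e2 := sq_abs (g (p.1 - p.2))
    nlinarith [sq_nonneg (|G p.1| - |g (p.1 - p.2)|), abs_nonneg (G p.1),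
      abs_nonneg (g (p.1 - p.2))]
  nlinarith [mul_le_mul_of_nonneg_left h2 h1]

theorem fubini_cv {G g ρ : V → ℝ} (hG : MemLp G 2 (volume : Measure V))
    (hg : MemLp g 2 (volume : Measure V)) (hρ : Test ρ) :
    ∫ x, G x * cv g ρ x = ∫ y, ρ y * ∫ x, G x * g (x - y) := by
  have h1 : ∀ x, G x * cv g ρ x = ∫ y, G x * (ρ y * g (x - y)) := by
    intro x
    rw [integral_const_mul]
    congr 1
    unfold cv
    rw [← integral_sub_left_eq_self (fun t => g t * ρ (x - t)) volume x]
    congr 1; ext y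
    rw [sub_sub_cancel]; ring
  simp_rw [h1]
  rw [integral_integral_swap (integrable_tri hG hg hρ)]
  congr 1; ext y
  rw [← integral_const_mul]
  congr 1; ext x
  ring

theorem testExt {ι : Type*} [Fintype ι] (e : ι → V) (G : ι → V → ℝ) (f : V → ℝ)
    (hG : ∀ i, MemLp (G i) 2 (volume : Measure V)) (hf : MemLp f 2 (volume : Measure V))
    (h : ∀ φ : V → ℝ, Test φ → ∑ i, ∫ x, G i x * dd (e i) φ x = ∫ x, f x * φ x)
    (ψ : V → ℝ) (ψ' : ι → V → ℝ) (hψ : MemLp ψ 2 (volume : Measure V))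
    (hψc : HasCompactSupport ψ) (hψ' : ∀ i, MemLp (ψ' i) 2 (volume : Measure V))
    (hw : ∀ i, WD (e i) ψ (ψ' i)) : ∑ i, ∫ x, G i x * ψ' i x = ∫ x, f x * ψ x := by
  set c : V → ℝ := fun y => (∑ i, ∫ x, G i x * ψ' i (x - y)) - ∫ x, f x * ψ (x - y) with hc
  have hcont : Continuous c := by
    apply Continuous.sub
    · exact continuous_finsetSum _ fun i _ => continuous_pair_shift (hG i) (hψ' i)
    · exact continuous_pair_shift hf hψ
  have hloc : LocallyIntegrable ψ volume := hψ.locallyIntegrable (by norm_num)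
  have h0 : ∀ᵐ y ∂(volume : Measure V), c y = 0 := by
    apply ae_eq_zero_of_integral_contDiff_smul_eq_zero hcont.locallyIntegrable
    intro ρ hρ hρc
    have hT : Test ρ := ⟨hρ, hρc⟩
    have h1 := h (cv ψ ρ) ⟨contDiff_cv hloc hT, hasCompactSupport_cv hψc hρc⟩
    simp_rw [dd_cv_WD hloc hT (hw _)] at h1
    simp_rw [fun i => fubini_cv (hG i) (hψ' i) hT] at h1
    rw [fubini_cv hf hψ hT] at h1
    simp only [hc, smul_eq_mul, mul_sub, Finset.mul_sum]
    have hint : ∀ {G g : V → ℝ}, MemLp G 2 (volume : Measure V) → MemLp g 2 (volume : Measure V) →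
        Integrable (fun y => ρ y * ∫ x, G x * g (x - y)) volume := by
      intro G g hG hg
      exact (hT.continuous.mul (continuous_pair_shift hG hg)).integrable_of_hasCompactSupport
        hρc.mul_right
    rw [integral_sub (integrable_finsetSum _ fun i _ => hint (hG i) (hψ' i)) (hint hf hψ),
      integral_finsetSum _ fun i _ => hint (hG i) (hψ' i), h1, sub_self]
  have h2 : c = fun _ => 0 := (hcont.ae_eq_iff_eq volume continuous_const).mp h0
  have h3 := congrFun h2 0
  simp only [hc, sub_zero] at h3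
  linarith

end Crest.Agent.R249.Lim41
end

-- ▼ part R249/Lim4_41
section
/-!
R249 / D3-LIM (helper41).  Abstract limit lemma, part 4: Euclidean analysis.  A mollifier family; the
commutator argument of Constantin, E and Titi: if `M` is a divergence free Hölder field of exponent
`α > 1/2` with inverse `N` and `∂_d (M^{dc} f) = p^c`, then `∂_e f = N_{ce} p^c`.
-/

set_option autoImplicit false

open MeasureTheory Filter Topology Set
open scoped ContDiff ENNReal
open Crest.GeometryTopology.CoordMetric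

noncomputable section

namespace Crest.Agent.R249.Lim41

/-! ### the mollifier -/

/-- a fixed bump -/
def bump0 (n : ℕ) : ContDiffBump (0 : E n) := ⟨1 / 2, 1, by norm_num, by norm_num⟩

def rho0 (n : ℕ) : E n → ℝ := (bump0 n).normed volume

theorem rho0_test (n : ℕ) : Test (rho0 n) :=
  ⟨ContDiffBump.contDiff_normed _ (n := ⊤), ContDiffBump.hasCompactSupport_normed _⟩

theorem rho0_nonneg (n : ℕ) (x : E n) : 0 ≤ rho0 n x := ContDiffBump.nonneg_normed _ x

theorem rho0_integral (n : ℕ) : ∫ x, rho0 n x = 1 := ContDiffBump.integral_normed _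

theorem rho0_zero {n : ℕ} {x : E n} (hx : 1 ≤ ‖x‖) : rho0 n x = 0 := by
  have h := ContDiffBump.support_normed_eq (bump0 n) (μ := volume)
  by_contra h1
  have h2 : x ∈ Function.support (rho0 n) := h1
  unfold rho0 at h2
  rw [h] at h2
  simp only [Metric.mem_ball, dist_zero_right] at h2
  have : (bump0 n).rOut = 1 := rfl
  rw [this] at h2
  linarith

/-- the mollifier at scale `ε` -/
def mol (n : ℕ) (ε : ℝ) (x : E n) : ℝ := (ε ^ n)⁻¹ * rho0 n (ε⁻¹ • x)

theorem mol_test (n : ℕ) {ε : ℝ} (hε : 0 < ε) : Test (mol n ε) := by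
  refine ⟨?_, ?_⟩
  · exact contDiff_const.mul ((rho0_test n).1.comp (contDiff_const_smul ε⁻¹))
  · have h1 : HasCompactSupport (fun x => rho0 n (ε⁻¹ • x)) :=
      (rho0_test n).2.comp_smul (inv_ne_zero hε.ne')
    exact h1.mul_left

theorem mol_nonneg (n : ℕ) {ε : ℝ} (hε : 0 < ε) (x : E n) : 0 ≤ mol n ε x :=
  mul_nonneg (by positivity) (rho0_nonneg n _)

theorem mol_zero {n : ℕ} {ε : ℝ} (hε : 0 < ε) {x : E n} (hx : ε ≤ ‖x‖) : mol n ε x = 0 := by
  unfold mol
  rw [rho0_zero, mul_zero]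
  rw [norm_smul, Real.norm_eq_abs, abs_of_pos (inv_pos.2 hε)]
  rw [le_inv_mul_iff₀ hε]
  linarith

theorem integral_scale {n : ℕ} {ε : ℝ} (hε : 0 < ε) (f : E n → ℝ) :
    ∫ x, (ε ^ n)⁻¹ * f (ε⁻¹ • x) = ∫ x, f x := by
  rw [integral_const_mul, Measure.integral_comp_inv_smul]
  rw [finrank_euclideanSpace_fin, abs_of_pos (by positivity), smul_eq_mul, ← mul_assoc,
    inv_mul_cancel₀ (by positivity), one_mul]

theorem mol_integral (n : ℕ) {ε : ℝ} (hε : 0 < ε) : ∫ x, mol n ε x = 1 := by
  unfold mol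
  rw [integral_scale hε, rho0_integral]

theorem dd_mol {n : ℕ} {ε : ℝ} (e x : E n) :
    dd e (mol n ε) x = ε⁻¹ * ((ε ^ n)⁻¹ * dd e (rho0 n) (ε⁻¹ • x)) := by
  unfold dd mol
  have h0 : DifferentiableAt ℝ (rho0 n) (ε⁻¹ • x) := (rho0_test n).1.differentiable (by simp) _
  have h1 : HasFDerivAt (fun y : E n => ε⁻¹ • y) (ε⁻¹ • ContinuousLinearMap.id ℝ (E n)) x :=
    (hasFDerivAt_id x).const_smul ε⁻¹
  have h2 := (h0.hasFDerivAt.comp x h1).const_mul ((ε ^ n)⁻¹)
  have h3 : (fun y => (ε ^ n)⁻¹ * rho0 n (ε⁻¹ • y)) =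
      fun y => (ε ^ n)⁻¹ * ((rho0 n) ∘ fun y => ε⁻¹ • y) y := rfl
  rw [h3, h2.fderiv]
  simp
  ring

/-- `L¹` norm of the derivative of the fixed bump -/
def c1 (n : ℕ) (e : E n) : ℝ := ∫ x, |dd e (rho0 n) x|


theorem integral_abs_dd_mol {n : ℕ} {ε : ℝ} (hε : 0 < ε) (e : E n) :
    ∫ x, |dd e (mol n ε) x| = ε⁻¹ * c1 n e := by
  simp_rw [dd_mol, abs_mul, abs_of_pos (inv_pos.2 hε), abs_of_pos (show 0 < (ε ^ n)⁻¹ by positivity)]
  rw [integral_const_mul, integral_scale hε (fun x => |dd e (rho0 n) x|)]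
  rfl

theorem dd_mol_zero {n : ℕ} {ε : ℝ} (hε : 0 < ε) (e : E n) {x : E n} (hx : ε < ‖x‖) :
    dd e (mol n ε) x = 0 := by
  have : mol n ε =ᶠ[𝓝 x] fun _ => (0 : ℝ) := by
    have : ∀ᶠ y in 𝓝 x, ε < ‖y‖ := continuous_norm.continuousAt.eventually (lt_mem_nhds hx)
    filter_upwards [this] with y hy
    exact mol_zero hε hy.le
  unfold dd
  rw [this.fderiv_eq]
  simp

/-- integral of a derivative of a test function vanishes -/
theorem integral_dd_zero {n : ℕ} {φ : E n → ℝ} (h : Test φ) (e : E n) : ∫ x, dd e φ x = 0 := by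
  have h0 : Integrable (fun x => fderiv ℝ φ x e) (volume : Measure (E n)) := (h.dd e).integrable
  have h1 := integral_mul_fderiv_eq_neg_fderiv_mul_of_integrable (μ := (volume : Measure (E n)))
    (f := fun _ => (1 : ℝ)) (g := φ) (v := e) (by simp) (by
      simpa using h0) (by simpa using h.integrable)
    (fun x _ => differentiableAt_const _) (fun x _ => h.1.differentiable (by simp) x)
  unfold dd
  simpa using h1

/-- local bound for a convolution with a kernel of small support -/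
theorem abs_conv_le {n : ℕ} {g a : E n → ℝ} {ε A : ℝ} {x : E n} (hg : Integrable g)
    (hgs : ∀ z, ε < ‖z‖ → g z = 0) (ha : ∀ y, dist x y ≤ ε → |a y| ≤ A) :
    |∫ y, a y * g (x - y)| ≤ A * ∫ z, |g z| := by
  have h1 : ∀ y, |a y * g (x - y)| ≤ A * |g (x - y)| := by
    intro y
    rw [abs_mul]
    by_cases hy : dist x y ≤ ε
    · exact mul_le_mul_of_nonneg_right (ha y hy) (abs_nonneg _)
    · rw [hgs (x - y) (by rw [← dist_eq_norm]; linarith)]
      simp
  have hgi : Integrable (fun y => |g (x - y)|) := (hg.comp_sub_left x).abs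
  calc |∫ y, a y * g (x - y)| ≤ ∫ y, |a y * g (x - y)| := abs_integral_le_integral_abs
    _ ≤ ∫ y, A * |g (x - y)| :=
        integral_mono_of_nonneg (Eventually.of_forall fun y => abs_nonneg _) (hgi.const_mul _)
          (Eventually.of_forall h1)
    _ = A * ∫ z, |g z| := by
        rw [integral_const_mul, integral_sub_left_eq_self (fun z => |g z|)]

end Crest.Agent.R249.Lim41
end
end

-- ▼ part R249/Lim5_41
section
/-!
R249 / D3-LIM (helper41).  Abstract limit lemma, part 5: the commutator lemma of Constantin, E, Titi.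
-/

set_option autoImplicit false

open MeasureTheory Filter Topology Set
open scoped ContDiff ENNReal
open Crest.GeometryTopology.CoordMetric

noncomputable section

namespace Crest.Agent.R249.Lim41

theorem CS.test {n : ℕ} {Ω : Set (E n)} {φ : E n → ℝ} (h : CS Ω φ) : Test φ := ⟨h.smooth, h.comp⟩

theorem CS.pderiv {n : ℕ} {Ω : Set (E n)} {φ : E n → ℝ} (h : CS Ω φ) (d : Fin n) :
    CS Ω (pderiv d φ) := by
  have h1 : Test (_root_.Crest.GeometryTopology.CoordMetric.pderiv d φ) :=
    h.test.dd (EuclideanSpace.single d 1)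
  refine ⟨h1.1, h1.2, ?_⟩
  refine Set.Subset.trans ?_ ((tsupport_fderiv_subset ℝ).trans h.supp)
  apply closure_mono
  intro x hx h2
  apply hx
  show fderiv ℝ φ x _ = 0
  rw [h2]
  rfl

theorem hold_cont {n : ℕ} {Ω : Set (E n)} {f : E n → ℝ} {C α : ℝ} (hα : 0 < α)
    (h : ∀ x ∈ Ω, ∀ y ∈ Ω, |f x - f y| ≤ C * dist x y ^ α) : ContinuousOn f Ω := by
  intro x hx
  rw [ContinuousWithinAt, tendsto_iff_dist_tendsto_zero]
  have h1 : Tendsto (fun y => C * dist y x ^ α) (𝓝[Ω] x) (𝓝 0) := by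
    have h2 : Tendsto (fun y => dist y x) (𝓝[Ω] x) (𝓝 0) := by
      have : Tendsto (fun y => dist y x) (𝓝 x) (𝓝 (dist x x)) :=
        (continuous_id.dist continuous_const).continuousAt
      rw [dist_self] at this
      exact this.mono_left nhdsWithin_le_nhds
    have h3 := (h2.rpow_const (p := α) (Or.inr hα.le)).const_mul C
    simpa [Real.zero_rpow hα.ne'] using h3
  refine squeeze_zero' (Eventually.of_forall fun y => dist_nonneg) ?_ h1
  filter_upwards [self_mem_nhdsWithin] with y hy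
  rw [Real.dist_eq]
  exact h y hy x hx

/-- limit of integrals of test functions depending on a parameter -/
theorem lim_cc {n : ℕ} {Ω : Set (E n)} {γ : E n → ℝ} (hγ : LI Ω γ) {a : ℝ → E n → ℝ}
    {a₀ b : E n → ℝ} {δ : ℝ → ℝ} (ha : ∀ᶠ ε in 𝓝[>] (0 : ℝ), CC Ω (a ε)) (ha₀ : CC Ω a₀)
    (hb : CC Ω b) (hδ : Tendsto δ (𝓝[>] 0) (𝓝 0))
    (h : ∀ᶠ ε in 𝓝[>] (0 : ℝ), ∀ y, |a ε y - a₀ y| ≤ δ ε * |b y|) :
    Tendsto (fun ε => ∫ y, a ε y * γ y) (𝓝[>] 0) (𝓝 (∫ y, a₀ y * γ y)) := by
  rw [tendsto_iff_dist_tendsto_zero]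
  have h1 : Tendsto (fun ε => δ ε * ∫ y, |b y * γ y|) (𝓝[>] 0) (𝓝 0) := by
    simpa using hδ.mul_const (∫ y, |b y * γ y|)
  refine squeeze_zero' (Eventually.of_forall fun y => dist_nonneg) ?_ h1
  filter_upwards [ha, h] with ε hε hh
  have hi := hε.integrable_mul hγ
  have hi₀ := ha₀.integrable_mul hγ
  rw [Real.dist_eq, ← integral_sub hi hi₀]
  calc |∫ y, (a ε y * γ y - a₀ y * γ y)| ≤ ∫ y, |a ε y * γ y - a₀ y * γ y| :=
        abs_integral_le_integral_abs
    _ ≤ ∫ y, δ ε * |b y * γ y| := by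
        apply integral_mono (hi.sub hi₀).abs ((hb.integrable_mul hγ).abs.const_mul _)
        intro y
        show |a ε y * γ y - a₀ y * γ y| ≤ δ ε * |b y * γ y|
        rw [← sub_mul, abs_mul, abs_mul, ← mul_assoc]
        exact mul_le_mul_of_nonneg_right (hh y) (abs_nonneg _)
    _ = _ := integral_const_mul _ _

theorem integral4 {α : Type*} [MeasurableSpace α] {μ : Measure α} {a b c d : α → ℝ}
    (ha : Integrable a μ) (hb : Integrable b μ) (hc : Integrable c μ) (hd : Integrable d μ) :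
    ∫ x, (a x - b x + c x - d x) ∂μ =
      ∫ x, a x ∂μ - ∫ x, b x ∂μ + ∫ x, c x ∂μ - ∫ x, d x ∂μ := by
  rw [integral_sub (f := fun x => a x - b x + c x) ((ha.sub hb).add hc) hd,
    integral_add (f := fun x => a x - b x) (ha.sub hb) hc, integral_sub ha hb]

section CET

variable {n : ℕ} {Ω : Set (E n)} {M N : Fin n → Fin n → E n → ℝ} {C α : ℝ}

/-- the commutator estimate -/
theorem comm_le (hα : 0 < α) (hC : 0 ≤ C)
    (hM : ∀ d c, ∀ x ∈ Ω, ∀ y ∈ Ω, |M d c x - M d c y| ≤ C * dist x y ^ α)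
    (hN : ∀ d c, ∀ x ∈ Ω, ∀ y ∈ Ω, |N d c x - N d c y| ≤ C * dist x y ^ α)
    (hMN : ∀ x ∈ Ω, ∀ d e, ∑ c, M d c x * N c e x = if d = e then 1 else 0)
    (hdiv : ∀ c, ∀ φ, CS Ω φ → ∫ y, ∑ d, pderiv d φ y * M d c y = 0)
    {Kr : Set (E n)} (hKr : IsCompact Kr) (hKrΩ : Kr ⊆ Ω) {x : E n} {ε : ℝ} (hε : 0 < ε)
    (hx : Metric.closedBall x ε ⊆ Kr) (e : Fin n) :
    |∑ d, ∑ c, M d c x * pderiv d (cv (Kr.indicator (N c e)) (mol n ε)) x| ≤
      (C ^ 2 * ε ^ (2 * α - 1)) * ∑ d : Fin n, ∑ _c : Fin n, c1 n (EuclideanSpace.single d 1) := by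
  have hxK : x ∈ Kr := hx (Metric.mem_closedBall_self hε.le)
  set g : Fin n → E n → ℝ := fun d => dd (EuclideanSpace.single d 1) (mol n ε) with hg
  have hgT : ∀ d, Test (g d) := fun d => (mol_test n hε).dd _
  have hmK : MeasurableSet Kr := hKr.isClosed.measurableSet
  have hMi : ∀ d c, Integrable (Kr.indicator (M d c)) := fun d c => by
    rw [integrable_indicator_iff hmK]
    exact ((hold_cont hα (hM d c)).mono hKrΩ).integrableOn_compact hKr
  have hNi : ∀ d c, Integrable (Kr.indicator (N d c)) := fun d c => by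
    rw [integrable_indicator_iff hmK]
    exact ((hold_cont hα (hN d c)).mono hKrΩ).integrableOn_compact hKr
  have hMb : ∀ d c, ∃ B, ∀ y, |Kr.indicator (M d c) y| ≤ B := by
    intro d c
    obtain ⟨B, hB⟩ := hKr.exists_bound_of_continuousOn ((hold_cont hα (hM d c)).mono hKrΩ)
    refine ⟨max B 0, fun y => ?_⟩
    by_cases hy : y ∈ Kr
    · simp only [hy, indicator_of_mem]
      exact (hB y hy).trans (le_max_left _ _)
    · simp [hy]
  have hint : ∀ d (a : E n → ℝ), Integrable a → Integrable (fun y => a y * g d (x - y)) := by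
    intro d a ha
    obtain ⟨B, hB⟩ := (hgT d).2.exists_bound_of_continuous (hgT d).continuous
    have hc : Continuous (fun y => g d (x - y)) :=
      (hgT d).continuous.comp (continuous_const.sub continuous_id)
    exact ha.mul_bdd (c := B) hc.aestronglyMeasurable (Eventually.of_forall fun y => hB _)
  have hgz : ∀ d z, ε < ‖z‖ → g d z = 0 := fun d z hz => dd_mol_zero hε _ hz
  have hg0 : ∀ d, ∫ y, g d (x - y) = 0 := fun d => by
    rw [integral_sub_left_eq_self (g d)]
    exact integral_dd_zero (mol_test n hε) _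
  have hgi : ∀ d, Integrable (fun y => g d (x - y)) := fun d => (hgT d).integrable.comp_sub_left x
  -- the derivative of the mollification
  have hd : ∀ d c, pderiv d (cv (Kr.indicator (N c e)) (mol n ε)) x =
      ∫ y, Kr.indicator (N c e) y * g d (x - y) := by
    intro d c
    exact dd_cv (hNi c e).locallyIntegrable (mol_test n hε)
      (EuclideanSpace.single d 1) x
  -- expansion
  have hexp : ∀ d c, ∫ y, (M d c x - Kr.indicator (M d c) y) *
        (Kr.indicator (N c e) y - N c e x) * g d (x - y) =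
      M d c x * (∫ y, Kr.indicator (N c e) y * g d (x - y)) -
      (∫ y, (Kr.indicator (M d c) y * Kr.indicator (N c e) y) * g d (x - y)) +
      N c e x * (∫ y, Kr.indicator (M d c) y * g d (x - y)) := by
    intro d c
    have i1 := (hint d _ (hNi c e)).const_mul (M d c x)
    have i2 := hint d (fun y => Kr.indicator (M d c) y * Kr.indicator (N c e) y) (by
      obtain ⟨B, hB⟩ := hMb d c
      exact (hNi c e).bdd_mul (c := B) (hMi d c).1 (Eventually.of_forall fun y => hB y))
    have i3 := (hint d _ (hMi d c)).const_mul (N c e x)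
    have i4 := (hgi d).const_mul (M d c x * N c e x)
    have e1 : ∀ y, (M d c x - Kr.indicator (M d c) y) *
        (Kr.indicator (N c e) y - N c e x) * g d (x - y) =
        (M d c x * (Kr.indicator (N c e) y * g d (x - y)) -
        (Kr.indicator (M d c) y * Kr.indicator (N c e) y) * g d (x - y) +
        N c e x * (Kr.indicator (M d c) y * g d (x - y))) -
        M d c x * N c e x * g d (x - y) := fun y => by ring
    simp_rw [e1]
    rw [integral4 i1 i2 i3 i4, integral_const_mul, integral_const_mul, integral_const_mul, hg0]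
    ring
  -- the product term
  have hprod : ∑ d, ∑ c, ∫ y, (Kr.indicator (M d c) y * Kr.indicator (N c e) y) * g d (x - y) = 0 := by
    apply Finset.sum_eq_zero
    intro d _
    rw [← integral_finsetSum]
    · have e1 : ∀ y, ∑ c, Kr.indicator (M d c) y * Kr.indicator (N c e) y * g d (x - y) =
          (if d = e then 1 else 0) * g d (x - y) := by
        intro y
        rw [← Finset.sum_mul]
        by_cases hy : y ∈ Kr
        · simp only [hy, indicator_of_mem]
          rw [hMN y (hKrΩ hy)]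
        · have : g d (x - y) = 0 := by
            apply hgz
            by_contra h
            push Not at h
            exact hy (hx (by rw [Metric.mem_closedBall, dist_comm, dist_eq_norm]; exact h))
          rw [this]; ring
      simp_rw [e1]
      rw [integral_const_mul, hg0, mul_zero]
    · intro c _
      refine hint d _ ?_
      obtain ⟨B, hB⟩ := hMb d c
      exact (hNi c e).bdd_mul (c := B) (hMi d c).1 (Eventually.of_forall fun y => hB y)
  -- the divergence term
  have hdv : ∀ c, ∑ d, ∫ y, Kr.indicator (M d c) y * g d (x - y) = 0 := by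
    intro c
    have hφT : Test (fun y => mol n ε (x - y)) := (mol_test n hε).reflect x
    have hφ : CS Ω (fun y => mol n ε (x - y)) := by
      refine ⟨hφT.1, hφT.2, ?_⟩
      refine Set.Subset.trans ?_ (hx.trans hKrΩ)
      refine closure_minimal ?_ Metric.isClosed_closedBall
      intro y hy
      rw [Metric.mem_closedBall, dist_comm, dist_eq_norm]
      by_contra h
      push Not at h
      exact hy (mol_zero hε h.le)
    have h1 := hdiv c _ hφ
    have h2 : ∀ d y, pderiv d (fun y => mol n ε (x - y)) y = - g d (x - y) := fun d y =>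
      dd_reflect (mol_test n hε) (EuclideanSpace.single d 1) x y
    simp_rw [h2] at h1
    rw [← integral_finsetSum _ (fun d _ => hint d _ (hMi d c))]
    have h3 : ∫ y, ∑ d, Kr.indicator (M d c) y * g d (x - y) = - ∫ y, ∑ d, - g d (x - y) * M d c y := by
      rw [← integral_neg]
      congr 1
      ext y
      rw [← Finset.sum_neg_distrib]
      refine Finset.sum_congr rfl fun d _ => ?_
      by_cases hy : y ∈ Kr
      · simp only [hy, indicator_of_mem]; ring
      · have : g d (x - y) = 0 := by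
          apply hgz
          by_contra h
          push Not at h
          exact hy (hx (by rw [Metric.mem_closedBall, dist_comm, dist_eq_norm]; exact h))
        rw [this]; ring
    rw [h3, h1, neg_zero]
  have hsum : ∑ d, ∑ c, M d c x * pderiv d (cv (Kr.indicator (N c e)) (mol n ε)) x =
      ∑ d, ∑ c, ∫ y, (M d c x - Kr.indicator (M d c) y) *
        (Kr.indicator (N c e) y - N c e x) * g d (x - y) := by
    simp_rw [hexp, hd, Finset.sum_add_distrib, Finset.sum_sub_distrib, hprod]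
    have h4 : ∑ d, ∑ c, N c e x * (∫ y, Kr.indicator (M d c) y * g d (x - y)) = 0 := by
      rw [Finset.sum_comm]
      apply Finset.sum_eq_zero
      intro c _
      rw [← Finset.mul_sum, hdv, mul_zero]
    rw [h4]; ring
  rw [hsum]
  have hbound : ∀ d c, |∫ y, (M d c x - Kr.indicator (M d c) y) *
        (Kr.indicator (N c e) y - N c e x) * g d (x - y)| ≤
        (C ^ 2 * ε ^ (2 * α - 1)) * c1 n (EuclideanSpace.single d 1) := by
    intro d c
    have h1 := abs_conv_le (x := x) (A := C ^ 2 * ε ^ (2 * α)) (hgT d).integrable (hgz d)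
      (a := fun y => (M d c x - Kr.indicator (M d c) y) * (Kr.indicator (N c e) y - N c e x)) (by
        intro y hy
        have hyK : y ∈ Kr := hx (by rw [Metric.mem_closedBall, dist_comm]; exact hy)
        simp only [hyK, indicator_of_mem]
        rw [abs_mul]
        have a1 := hM d c x (hKrΩ hxK) y (hKrΩ hyK)
        have a2 := hN c e y (hKrΩ hyK) x (hKrΩ hxK)
        rw [dist_comm] at a2
        have a3 : dist x y ^ α ≤ ε ^ α := Real.rpow_le_rpow dist_nonneg hy hα.le
        have a4 : ε ^ (2 * α) = ε ^ α * ε ^ α := by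
          rw [two_mul, Real.rpow_add hε]
        rw [a4]
        calc |M d c x - M d c y| * |N c e y - N c e x|
            ≤ (C * ε ^ α) * (C * ε ^ α) := by
              gcongr
              · exact a1.trans (by gcongr)
              · exact a2.trans (by gcongr)
          _ = _ := by ring)
    refine h1.trans (le_of_eq ?_)
    have h2 : ∫ z, |g d z| = ε⁻¹ * c1 n (EuclideanSpace.single d 1) := integral_abs_dd_mol hε _
    rw [h2, Real.rpow_sub hε, Real.rpow_one]
    field_simp
  calc |∑ d, ∑ c, ∫ y, (M d c x - Kr.indicator (M d c) y) *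
        (Kr.indicator (N c e) y - N c e x) * g d (x - y)|
      ≤ ∑ d, ∑ c, |∫ y, (M d c x - Kr.indicator (M d c) y) *
        (Kr.indicator (N c e) y - N c e x) * g d (x - y)| :=
        (Finset.abs_sum_le_sum_abs _ _).trans
          (Finset.sum_le_sum fun d _ => Finset.abs_sum_le_sum_abs _ _)
    _ ≤ ∑ d : Fin n, ∑ _c : Fin n, (C ^ 2 * ε ^ (2 * α - 1)) * c1 n (EuclideanSpace.single d 1) :=
        Finset.sum_le_sum fun d _ => Finset.sum_le_sum fun c _ => hbound d c
    _ = _ := by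
        simp_rw [← Finset.mul_sum]

end CET

end Crest.Agent.R249.Lim41
end
end

-- ▼ part R249/Lim6_41
section
/-!
R249 / D3-LIM (helper41).  Abstract limit lemma, part 6: weak derivative of `f` from `div (M f) = p`.
-/

set_option autoImplicit false

open MeasureTheory Filter Topology Set
open scoped ContDiff ENNReal
open Crest.GeometryTopology.CoordMetric

noncomputable section

namespace Crest.Agent.R249.Lim41

theorem CC.sum {n : ℕ} {Ω : Set (E n)} {κ : Type*} (s : Finset κ) {φ : κ → E n → ℝ}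
    (h : ∀ j ∈ s, CC Ω (φ j)) : CC Ω (fun x => ∑ j ∈ s, φ j x) := by
  classical
  induction s using Finset.induction_on with
  | empty => simpa using CC.zero
  | insert j s hj ih =>
      have h1 := (h j (Finset.mem_insert_self _ _)).add
        (ih fun k hk => h k (Finset.mem_insert_of_mem hk))
      have h2 : (fun x => ∑ k ∈ insert j s, φ k x) = fun x => φ j x + ∑ k ∈ s, φ k x := by
        ext x; rw [Finset.sum_insert hj]
      rw [h2]; exact h1

theorem LI.one {n : ℕ} {Ω : Set (E n)} : LI Ω (fun _ : E n => (1 : ℝ)) := fun K hK _ =>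
  continuousOn_const.integrableOn_compact hK

theorem LI.of_cont {n : ℕ} {Ω : Set (E n)} {f : E n → ℝ} (hf : ContinuousOn f Ω) : LI Ω f :=
  fun _ hK h => (hf.mono h).integrableOn_compact hK

theorem LI.of_memLp {n : ℕ} {Ω : Set (E n)} {f : E n → ℝ} (hf : MemLp f 2 (volume : Measure (E n))) :
    LI Ω f := fun _ hK _ => (hf.locallyIntegrable (by norm_num)).integrableOn_isCompact hK

theorem LI.mul_cont {n : ℕ} {Ω : Set (E n)} {f g : E n → ℝ} (hf : ContinuousOn f Ω)
    (hg : LI Ω g) : LI Ω (fun y => f y * g y) := by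
  intro K hK h
  obtain ⟨B, hB⟩ := hK.exists_bound_of_continuousOn (hf.mono h)
  refine (hg K hK h).bdd_mul (c := B) ((hf.mono h).aestronglyMeasurable hK.measurableSet) ?_
  exact (ae_restrict_iff' hK.measurableSet).2 (Eventually.of_forall fun y hy => hB y hy)

theorem LI.add {n : ℕ} {Ω : Set (E n)} {f g : E n → ℝ} (hf : LI Ω f)
    (hg : LI Ω g) : LI Ω (fun y => f y + g y) := fun K hK h => (hf K hK h).add (hg K hK h)

theorem LI.sum {n : ℕ} {Ω : Set (E n)} {κ : Type*} (s : Finset κ) {f : κ → E n → ℝ}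
    (hf : ∀ j ∈ s, LI Ω (f j)) : LI Ω (fun y => ∑ j ∈ s, f j y) := fun K hK h =>
  integrable_finsetSum s fun j hj => hf j hj K hK h

theorem pderiv_mul' {n : ℕ} {f g : E n → ℝ} (d : Fin n) (x : E n) (hf : DifferentiableAt ℝ f x)
    (hg : DifferentiableAt ℝ g x) :
    pderiv d (fun y => f y * g y) x = pderiv d f x * g x + f x * pderiv d g x := by
  unfold pderiv
  rw [fderiv_fun_mul hf hg]
  simp
  ring

/-- mollification converges at the Hölder rate -/
theorem abs_cv_sub_le {n : ℕ} {Ω Kr : Set (E n)} (hKr : IsCompact Kr) (hKrΩ : Kr ⊆ Ω) {f : E n → ℝ}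
    {C α : ℝ} (hα : 0 < α) (hC : 0 ≤ C)
    (hf : ∀ x ∈ Ω, ∀ y ∈ Ω, |f x - f y| ≤ C * dist x y ^ α) {x : E n} {ε : ℝ} (hε : 0 < ε)
    (hx : Metric.closedBall x ε ⊆ Kr) :
    |cv (Kr.indicator f) (mol n ε) x - f x| ≤ C * ε ^ α := by
  have hxK : x ∈ Kr := hx (Metric.mem_closedBall_self hε.le)
  have hfi : Integrable (Kr.indicator f) := by
    rw [integrable_indicator_iff hKr.isClosed.measurableSet]
    exact ((hold_cont hα hf).mono hKrΩ).integrableOn_compact hKr
  have hT := mol_test n hε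
  have hgi : Integrable (fun y => mol n ε (x - y)) := hT.integrable.comp_sub_left x
  have hint : Integrable (fun y => Kr.indicator f y * mol n ε (x - y)) := by
    obtain ⟨B, hB⟩ := hT.2.exists_bound_of_continuous hT.continuous
    have hc : Continuous (fun y => mol n ε (x - y)) :=
      hT.continuous.comp (continuous_const.sub continuous_id)
    exact hfi.mul_bdd (c := B) hc.aestronglyMeasurable (Eventually.of_forall fun y => hB _)
  have e1 : cv (Kr.indicator f) (mol n ε) x - f x =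
      ∫ y, (Kr.indicator f y - f x) * mol n ε (x - y) := by
    have : ∀ y, (Kr.indicator f y - f x) * mol n ε (x - y) =
        Kr.indicator f y * mol n ε (x - y) - f x * mol n ε (x - y) := fun y => by ring
    simp_rw [this]
    rw [integral_sub hint (hgi.const_mul _), integral_const_mul,
      integral_sub_left_eq_self (mol n ε), mol_integral n hε, mul_one]
    rfl
  rw [e1]
  have h1 := abs_conv_le (x := x) (A := C * ε ^ α) hT.integrable
    (fun z hz => mol_zero hε hz.le) (a := fun y => Kr.indicator f y - f x) (by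
      intro y hy
      have hyK : y ∈ Kr := hx (by rw [Metric.mem_closedBall, dist_comm]; exact hy)
      simp only [hyK, indicator_of_mem]
      have a1 := hf y (hKrΩ hyK) x (hKrΩ hxK)
      rw [dist_comm] at a1
      refine a1.trans ?_
      gcongr)
  refine h1.trans (le_of_eq ?_)
  have : ∀ z, |mol n ε z| = mol n ε z := fun z => abs_of_nonneg (mol_nonneg n hε z)
  simp_rw [this]
  rw [mol_integral n hε, mul_one]

section CET

variable {n : ℕ} {Ω : Set (E n)} {M N : Fin n → Fin n → E n → ℝ} {C α : ℝ}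

/-- **weak derivative from a divergence free Hölder coefficient** -/
theorem weak_deriv (hΩ : IsOpen Ω) (hα : 1 / 2 < α) (hC : 0 ≤ C)
    (hM : ∀ d c, ∀ x ∈ Ω, ∀ y ∈ Ω, |M d c x - M d c y| ≤ C * dist x y ^ α)
    (hN : ∀ d c, ∀ x ∈ Ω, ∀ y ∈ Ω, |N d c x - N d c y| ≤ C * dist x y ^ α)
    (hMN : ∀ x ∈ Ω, ∀ d e, ∑ c, M d c x * N c e x = if d = e then 1 else 0)
    (hdiv : ∀ c, ∀ φ, CS Ω φ → ∫ y, ∑ d, pderiv d φ y * M d c y = 0)
    {f : E n → ℝ} (hf : ContinuousOn f Ω) {p : Fin n → E n → ℝ} (hp : ∀ c, LI Ω (p c))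
    (heq : ∀ c, ∀ φ, CS Ω φ → ∫ y, φ y * p c y = - ∫ y, f y * ∑ d, pderiv d φ y * M d c y)
    (e : Fin n) {ζ : E n → ℝ} (hζ : CS Ω ζ) :
    ∫ y, f y * pderiv e ζ y = - ∫ y, ζ y * ∑ c, N c e y * p c y := by
  have hα0 : 0 < α := by linarith
  have hMc : ∀ d c, ContinuousOn (M d c) Ω := fun d c => hold_cont hα0 (hM d c)
  have hNc : ∀ d c, ContinuousOn (N d c) Ω := fun d c => hold_cont hα0 (hN d c)
  have hK : IsCompact (tsupport ζ) := hζ.comp
  obtain ⟨r, hr, hrΩ⟩ := hK.exists_cthickening_subset_open hΩ hζ.supp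
  set Kr := Metric.cthickening r (tsupport ζ) with hKrdef
  have hKr : IsCompact Kr := hK.cthickening
  have hball : ∀ x ∈ tsupport ζ, ∀ ε, ε ≤ r → Metric.closedBall x ε ⊆ Kr := by
    intro x hx ε hε y hy
    exact Metric.mem_cthickening_of_dist_le y x r _ hx ((Metric.mem_closedBall.1 hy).trans hε)
  have hsmall : ∀ᶠ ε in 𝓝[>] (0 : ℝ), 0 < ε ∧ ε ≤ r :=
    Ioc_mem_nhdsGT hr
  set Nm : ℝ → Fin n → E n → ℝ := fun ε c => cv (Kr.indicator (N c e)) (mol n ε) with hNm
  have hNi : ∀ c, Integrable (Kr.indicator (N c e)) := fun c => by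
    rw [integrable_indicator_iff hKr.isClosed.measurableSet]
    exact ((hNc c e).mono hrΩ).integrableOn_compact hKr
  have hNs : ∀ ε, 0 < ε → ∀ c, ContDiff ℝ ∞ (Nm ε c) := fun ε hε c =>
    contDiff_cv (hNi c).locallyIntegrable (mol_test n hε)
  have hNe : ∀ ε, 0 < ε → ε ≤ r → ∀ c, ∀ x ∈ tsupport ζ, |Nm ε c x - N c e x| ≤ C * ε ^ α :=
    fun ε hε hεr c x hx => abs_cv_sub_le hKr hrΩ hα0 hC (hN c e) hε (hball x hx ε hεr)
  have hζz : ∀ x, x ∉ tsupport ζ → ζ x = 0 := fun x hx => image_eq_zero_of_notMem_tsupport hx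
  have hdζz : ∀ d x, x ∉ tsupport ζ → pderiv d ζ x = 0 := by
    intro d x hx
    have h1 : x ∉ tsupport (fderiv ℝ ζ) := fun h => hx (tsupport_fderiv_subset ℝ h)
    have h2 : fderiv ℝ ζ x = 0 := image_eq_zero_of_notMem_tsupport h1
    unfold pderiv
    rw [h2]; rfl
  have hε0 : Tendsto (fun ε : ℝ => ε) (𝓝[>] 0) (𝓝 0) := nhdsWithin_le_nhds
  have hδ1 : Tendsto (fun ε : ℝ => C * ε ^ α) (𝓝[>] 0) (𝓝 0) := by
    have := (hε0.rpow_const (p := α) (Or.inr hα0.le)).const_mul C
    simpa [Real.zero_rpow hα0.ne'] using this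
  set K1 := ∑ d : Fin n, ∑ _c : Fin n, c1 n (EuclideanSpace.single d 1) with hK1
  have hδ2 : Tendsto (fun ε : ℝ => C ^ 2 * ε ^ (2 * α - 1) * K1) (𝓝[>] 0) (𝓝 0) := by
    have h2 : 0 < 2 * α - 1 := by linarith
    have := ((hε0.rpow_const (p := 2 * α - 1) (Or.inr h2.le)).const_mul (C ^ 2)).mul_const K1
    simpa [Real.zero_rpow h2.ne'] using this
  -- left side
  have hL : ∀ c, Tendsto (fun ε => ∫ y, (Nm ε c y * ζ y) * p c y) (𝓝[>] 0)
      (𝓝 (∫ y, (N c e y * ζ y) * p c y)) := by
    intro c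
    refine lim_cc (hp c) (b := ζ) (δ := fun ε => C * ε ^ α) ?_ ?_ hζ.cc hδ1 ?_
    · filter_upwards [hsmall] with ε hε
      exact hζ.cc.mul_left' (hNs ε hε.1 c).continuous
    · simpa [mul_comm] using hζ.cc.mul_cont hΩ (hNc c e)
    · filter_upwards [hsmall] with ε hε y
      rw [← sub_mul, abs_mul]
      by_cases hy : y ∈ tsupport ζ
      · exact mul_le_mul_of_nonneg_right (hNe ε hε.1 hε.2 c y hy) (abs_nonneg _)
      · rw [hζz y hy]; simp
  -- right side, first part
  set S : ℝ → E n → ℝ := fun ε y => ∑ d, ∑ c, M d c y * pderiv d (Nm ε c) y with hS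
  have hSc : ∀ ε, 0 < ε → ContinuousOn (S ε) Ω := by
    intro ε hε
    refine continuousOn_finsetSum _ fun d _ => continuousOn_finsetSum _ fun c _ => ?_
    refine (hMc d c).mul (Continuous.continuousOn ?_)
    exact ((hNs ε hε c).continuous_fderiv (by simp)).clm_apply continuous_const
  have hR1 : Tendsto (fun ε => ∫ y, (ζ y * (f y * S ε y)) * 1) (𝓝[>] 0)
      (𝓝 (∫ y, (fun _ : E n => (0 : ℝ)) y * 1)) := by
    refine lim_cc (Ω := Ω) LI.one (b := fun y => ζ y * f y)
      (δ := fun ε => C ^ 2 * ε ^ (2 * α - 1) * K1)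
      ?_ CC.zero (hζ.cc.mul_cont hΩ hf) hδ2 ?_
    · filter_upwards [hsmall] with ε hε
      exact hζ.cc.mul_cont hΩ (hf.mul (hSc ε hε.1))
    · filter_upwards [hsmall] with ε hε y
      rw [sub_zero]
      by_cases hy : y ∈ tsupport ζ
      · have h1 : |S ε y| ≤ C ^ 2 * ε ^ (2 * α - 1) * K1 :=
          comm_le hα0 hC hM hN hMN hdiv hKr hrΩ hε.1 (hball y hy ε hε.2) e
        rw [← mul_assoc, abs_mul, mul_comm]
        exact mul_le_mul_of_nonneg_right h1 (abs_nonneg _)
      · rw [hζz y hy]; simp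
  -- right side, second part
  have hR2 : Tendsto (fun ε => ∫ y, (∑ c, ∑ d, pderiv d ζ y * (f y * M d c y * Nm ε c y)) * 1)
      (𝓝[>] 0) (𝓝 (∫ y, (∑ c, ∑ d, pderiv d ζ y * (f y * M d c y * N c e y)) * 1)) := by
    refine lim_cc (Ω := Ω) LI.one (b := fun y => ∑ c, ∑ d, |pderiv d ζ y * (f y * M d c y)|)
      (δ := fun ε => C * ε ^ α) ?_ ?_ ?_ hδ1 ?_
    · filter_upwards [hsmall] with ε hε
      exact CC.sum _ fun c _ => CC.sum _ fun d _ => (hζ.pderiv d).cc.mul_cont hΩ
        ((hf.mul (hMc d c)).mul (hNs ε hε.1 c).continuous.continuousOn)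
    · exact CC.sum _ fun c _ => CC.sum _ fun d _ => (hζ.pderiv d).cc.mul_cont hΩ
        ((hf.mul (hMc d c)).mul (hNc c e))
    · exact CC.sum _ fun c _ => CC.sum _ fun d _ => ((hζ.pderiv d).cc.mul_cont hΩ
        (hf.mul (hMc d c))).abs
    · filter_upwards [hsmall] with ε hε y
      rw [abs_of_nonneg (a := ∑ c, ∑ d, |pderiv d ζ y * (f y * M d c y)|)
        (Finset.sum_nonneg fun c _ => Finset.sum_nonneg fun d _ => abs_nonneg _)]
      rw [← Finset.sum_sub_distrib, Finset.mul_sum]
      refine (Finset.abs_sum_le_sum_abs _ _).trans (Finset.sum_le_sum fun c _ => ?_)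
      rw [← Finset.sum_sub_distrib, Finset.mul_sum]
      refine (Finset.abs_sum_le_sum_abs _ _).trans (Finset.sum_le_sum fun d _ => ?_)
      have e1 : pderiv d ζ y * (f y * M d c y * Nm ε c y) - pderiv d ζ y * (f y * M d c y * N c e y) =
          (Nm ε c y - N c e y) * (pderiv d ζ y * (f y * M d c y)) := by ring
      rw [e1, abs_mul]
      by_cases hy : y ∈ tsupport ζ
      · exact mul_le_mul_of_nonneg_right (hNe ε hε.1 hε.2 c y hy) (abs_nonneg _)
      · rw [hdζz d y hy]; simp
  have hLs : Tendsto (fun ε => ∑ c, ∫ y, (Nm ε c y * ζ y) * p c y) (𝓝[>] 0)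
      (𝓝 (∑ c, ∫ y, (N c e y * ζ y) * p c y)) := tendsto_finsetSum _ fun c _ => hL c
  have hRs := (hR1.add hR2).neg
  have hEq : ∀ᶠ ε in 𝓝[>] (0 : ℝ), ∑ c, ∫ y, (Nm ε c y * ζ y) * p c y =
      -((∫ y, (ζ y * (f y * S ε y)) * 1) +
        (∫ y, (∑ c, ∑ d, pderiv d ζ y * (f y * M d c y * Nm ε c y)) * 1)) := by
    filter_upwards [hsmall] with ε hε
    have hcs : ∀ c, CS Ω (fun y => Nm ε c y * ζ y) := fun c => hζ.smooth_mul (hNs ε hε.1 c)
    have h1 : ∀ c, ∫ y, (Nm ε c y * ζ y) * p c y =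
        - ∫ y, f y * ∑ d, pderiv d (fun y => Nm ε c y * ζ y) y * M d c y := fun c =>
      heq c _ (hcs c)
    simp_rw [h1]
    rw [Finset.sum_neg_distrib, ← integral_finsetSum]
    · congr 1
      rw [← integral_add]
      · congr 1
        ext y
        have hp1 : ∀ d c, pderiv d (fun y => Nm ε c y * ζ y) y =
            pderiv d (Nm ε c) y * ζ y + Nm ε c y * pderiv d ζ y := fun d c =>
          pderiv_mul' d y ((hNs ε hε.1 c).differentiable (by simp) y)
            (hζ.smooth.differentiable (by simp) y)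
        simp_rw [hp1]
        simp only [hS, mul_one]
        have e2 : ζ y * (f y * ∑ d, ∑ c, M d c y * pderiv d (Nm ε c) y) =
            ∑ c, ∑ d, f y * (pderiv d (Nm ε c) y * ζ y * M d c y) := by
          rw [Finset.sum_comm, ← mul_assoc, Finset.mul_sum]
          refine Finset.sum_congr rfl fun c _ => ?_
          rw [Finset.mul_sum]
          refine Finset.sum_congr rfl fun d _ => ?_
          ring
        rw [e2, ← Finset.sum_add_distrib]
        refine Finset.sum_congr rfl fun c _ => ?_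
        rw [← Finset.sum_add_distrib, Finset.mul_sum]
        refine Finset.sum_congr rfl fun d _ => ?_
        ring
      · exact (hζ.cc.mul_cont hΩ (hf.mul (hSc ε hε.1))).integrable_mul LI.one
      · refine CC.integrable_mul (Ω := Ω) ?_ LI.one
        exact CC.sum _ fun c _ => CC.sum _ fun d _ => (hζ.pderiv d).cc.mul_cont hΩ
          ((hf.mul (hMc d c)).mul (hNs ε hε.1 c).continuous.continuousOn)
    · intro c _
      have h2 : CC Ω (fun y => ∑ d, pderiv d (fun y => Nm ε c y * ζ y) y * (f y * M d c y)) :=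
        CC.sum _ fun d _ => ((hcs c).pderiv d).cc.mul_cont hΩ (hf.mul (hMc d c))
      have h3 := h2.integrable_mul (γ := fun _ => (1 : ℝ)) LI.one
      refine h3.congr (Eventually.of_forall fun y => ?_)
      simp only [mul_one]
      rw [Finset.mul_sum]
      refine Finset.sum_congr rfl fun d _ => ?_
      ring
  have hfin := tendsto_nhds_unique (hLs.congr' hEq) hRs
  have e3 : ∀ y, (∑ c, ∑ d, pderiv d ζ y * (f y * M d c y * N c e y)) * 1 = f y * pderiv e ζ y := by
    intro y
    by_cases hy : y ∈ tsupport ζ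
    · have hyΩ := hζ.supp hy
      rw [mul_one, Finset.sum_comm]
      have e4 : ∀ d, ∑ c, pderiv d ζ y * (f y * M d c y * N c e y) =
          pderiv d ζ y * f y * (if d = e then 1 else 0) := by
        intro d
        rw [← hMN y hyΩ d e, Finset.mul_sum]
        refine Finset.sum_congr rfl fun c _ => ?_
        ring
      simp_rw [e4]
      simp [mul_comm]
    · rw [hdζz e y hy]
      simp [hdζz _ y hy]
  simp_rw [e3] at hfin
  simp only [zero_mul, integral_zero, zero_add] at hfin
  have e5 : ∫ y, ζ y * ∑ c, N c e y * p c y = ∑ c, ∫ y, (N c e y * ζ y) * p c y := by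
    rw [← integral_finsetSum]
    · congr 1
      ext y
      rw [Finset.mul_sum]
      refine Finset.sum_congr rfl fun c _ => ?_
      ring
    · intro c _
      have h5 : CC Ω (fun y => N c e y * ζ y) := by
        simpa [mul_comm] using hζ.cc.mul_cont hΩ (hNc c e)
      exact h5.integrable_mul (hp c)
  rw [e5, hfin, neg_neg]

end CET

end Crest.Agent.R249.Lim41
end
end

-- ▼ part R249/Lim7_41
section
/-!
R249 / D3-LIM (helper41).  Abstract limit lemma, part 7: testing a weak equation with `φ f`,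
`f` continuous with weak derivatives in `L²_loc`.
-/

set_option autoImplicit false

open MeasureTheory Filter Topology Set
open scoped ContDiff ENNReal Manifold
open Crest.GeometryTopology.CoordMetric

noncomputable section

namespace Crest.Agent.R249.Lim41

/-- locally square integrable, tested with continuous compactly supported functions -/
def L2l {n : ℕ} (Ω : Set (E n)) (g : E n → ℝ) : Prop :=
  ∀ φ : E n → ℝ, CC Ω φ → MemLp (fun y => φ y * g y) 2 (volume : Measure (E n))

theorem L2l.of_memLp {n : ℕ} {Ω : Set (E n)} {g : E n → ℝ}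
    (h : MemLp g 2 (volume : Measure (E n))) : L2l Ω g := by
  intro φ hφ
  obtain ⟨C, -, hC⟩ := hφ.bdd
  exact memLp_bdd_mul hC hφ.cont h

theorem L2l.mul_cont {n : ℕ} {Ω : Set (E n)} (hΩ : IsOpen Ω) {f g : E n → ℝ}
    (hf : ContinuousOn f Ω) (h : L2l Ω g) : L2l Ω (fun y => f y * g y) := by
  intro φ hφ
  have := h _ (hφ.mul_cont hΩ hf)
  simpa [mul_assoc] using this

theorem L2l.add {n : ℕ} {Ω : Set (E n)} {f g : E n → ℝ} (hf : L2l Ω f) (hg : L2l Ω g) :
    L2l Ω (fun y => f y + g y) := by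
  intro φ hφ
  have := (hf φ hφ).add (hg φ hφ)
  refine this.ae_eq (Eventually.of_forall fun y => ?_)
  show φ y * f y + φ y * g y = φ y * (f y + g y)
  ring

theorem L2l.sum {n : ℕ} {Ω : Set (E n)} {κ : Type*} (s : Finset κ) {f : κ → E n → ℝ}
    (hf : ∀ j ∈ s, L2l Ω (f j)) : L2l Ω (fun y => ∑ j ∈ s, f j y) := by
  intro φ hφ
  have := memLp_finsetSum s (fun j hj => hf j hj φ hφ)
  refine this.ae_eq (Eventually.of_forall fun y => ?_)
  simp [Finset.mul_sum]

/-- cut-off -/
theorem exists_cs {n : ℕ} {K Ω : Set (E n)} (hK : IsCompact K) (hΩ : IsOpen Ω) (hKΩ : K ⊆ Ω) :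
    ∃ θ : E n → ℝ, CS Ω θ ∧ (∀ᶠ y in 𝓝ˢ K, θ y = 1) ∧ (∀ y ∈ K, θ y = 1) ∧
      ∀ y, θ y ∈ Icc (0 : ℝ) 1 := by
  obtain ⟨V, hVo, hKV, hVΩ, hVc⟩ := exists_open_between_and_isCompact_closure hK hΩ hKΩ
  obtain ⟨f, hf1, hf0, hf⟩ := exists_contMDiffMap_one_nhds_of_subset_interior
    (modelWithCornersSelf ℝ (E n)) (n := (⊤ : ℕ∞)) hK.isClosed (t := V)
    (hKV.trans (interior_eq_iff_isOpen.mpr hVo).ge)
  have hsm : ContDiff ℝ ∞ (f : E n → ℝ) := f.contMDiff.contDiff
  have hts : tsupport (f : E n → ℝ) ⊆ closure V := by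
    apply closure_mono
    intro x hx
    by_contra h
    exact hx (hf0 x h)
  have hcs : HasCompactSupport (f : E n → ℝ) := hVc.of_isClosed_subset isClosed_closure hts
  exact ⟨f, ⟨hsm, hcs, hts.trans hVΩ⟩, hf1, fun y hy => hf1.self_of_nhdsSet y hy, hf⟩

/-- a locally `L²` function is locally integrable -/
theorem L2l.li {n : ℕ} {Ω : Set (E n)} (hΩ : IsOpen Ω) {g : E n → ℝ} (h : L2l Ω g) : LI Ω g := by
  intro K hK hKΩ
  obtain ⟨θ, hθ, -, hθ1, -⟩ := exists_cs hK hΩ hKΩ
  have h1 : IntegrableOn (fun y => θ y * g y) K :=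
    ((h θ hθ.cc).locallyIntegrable (by norm_num)).integrableOn_isCompact hK
  refine h1.congr_fun (fun y hy => ?_) hK.measurableSet
  simp [hθ1 y hy]

/-- the product of a test function and a function with weak derivatives in `Ω` -/
theorem WD.mul_on {n : ℕ} {Ω : Set (E n)} (hΩ : IsOpen Ω) {f H : E n → ℝ}
    (hf : ContinuousOn f Ω) (hH : L2l Ω H) (c : Fin n)
    (hw : ∀ ζ, CS Ω ζ → ∫ y, f y * pderiv c ζ y = - ∫ y, ζ y * H y) {φ : E n → ℝ}
    (hφ : CS Ω φ) :
    WD (EuclideanSpace.single c (1 : ℝ)) (fun y => φ y * f y)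
      (fun y => pderiv c φ y * f y + φ y * H y) := by
  intro Φ hΦ
  have hcs : CS Ω (fun y => Φ y * φ y) := hφ.smooth_mul hΦ.1
  have h1 := hw _ hcs
  have hp : ∀ y, pderiv c (fun y => Φ y * φ y) y = pderiv c Φ y * φ y + Φ y * pderiv c φ y :=
    fun y => pderiv_mul' c y (hΦ.1.differentiable (by simp) y)
      (hφ.smooth.differentiable (by simp) y)
  simp_rw [hp] at h1
  have hΦc : Continuous Φ := hΦ.continuous
  have hdΦc : Continuous (pderiv c Φ) := (hΦ.dd (EuclideanSpace.single c 1)).continuous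
  have i1 : Integrable (fun y => φ y * f y * dd (EuclideanSpace.single c (1 : ℝ)) Φ y) := by
    have := ((hφ.cc.mul_cont hΩ hf).mul_right' hdΦc).integrable_mul
      (Ω := Ω) (γ := fun _ => (1 : ℝ)) LI.one
    simp only [mul_one] at this
    exact this
  have i2 : Integrable (fun y => Φ y * (pderiv c φ y * f y)) := by
    have := (((hφ.pderiv c).cc.mul_cont hΩ hf).mul_left' hΦc).integrable_mul
      (Ω := Ω) (γ := fun _ => (1 : ℝ)) LI.one
    simpa using this
  have i3 : Integrable (fun y => Φ y * φ y * H y) := hcs.cc.integrable_mul (hH.li hΩ)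
  have e1 : ∫ y, f y * (pderiv c Φ y * φ y + Φ y * pderiv c φ y) =
      (∫ y, φ y * f y * dd (EuclideanSpace.single c (1 : ℝ)) Φ y) +
      ∫ y, Φ y * (pderiv c φ y * f y) := by
    rw [← integral_add i1 i2]
    congr 1
    ext y
    show f y * (pderiv c Φ y * φ y + Φ y * pderiv c φ y) =
      φ y * f y * pderiv c Φ y + Φ y * (pderiv c φ y * f y)
    ring
  have e2 : ∫ y, (pderiv c φ y * f y + φ y * H y) * Φ y =
      (∫ y, Φ y * (pderiv c φ y * f y)) + ∫ y, Φ y * φ y * H y := by
    rw [← integral_add i2 i3]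
    congr 1
    ext y
    ring
  rw [e1] at h1
  rw [e2]
  linarith

/-- **energy identity** -/
theorem energy {n : ℕ} {Ω : Set (E n)} (hΩ : IsOpen Ω) {f g : E n → ℝ} (hf : ContinuousOn f Ω)
    {H p : Fin n → E n → ℝ} (hH : ∀ c, L2l Ω (H c)) (hp : ∀ c, L2l Ω (p c)) (hg : L2l Ω g)
    (hw : ∀ c ζ, CS Ω ζ → ∫ y, f y * pderiv c ζ y = - ∫ y, ζ y * H c y)
    (heq : ∀ ζ, CS Ω ζ → ∑ c, ∫ y, pderiv c ζ y * p c y = - ∫ y, ζ y * g y)
    {φ : E n → ℝ} (hφ : CS Ω φ) :
    ∑ c, ∫ y, (pderiv c φ y * f y + φ y * H c y) * p c y = - ∫ y, φ y * f y * g y := by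
  obtain ⟨χ, hχ, hχ1, hχ1', -⟩ := exists_cs hφ.comp hΩ hφ.supp
  have hχd : ∀ c, ∀ y ∈ tsupport φ, pderiv c χ y = 0 := by
    intro c y hy
    have h1 : χ =ᶠ[𝓝 y] fun _ => (1 : ℝ) := by
      have := hχ1.filter_mono (nhds_le_nhdsSet hy)
      exact this
    unfold pderiv
    rw [h1.fderiv_eq]
    simp
  have hφz : ∀ y, y ∉ tsupport φ → φ y = 0 := fun y hy => image_eq_zero_of_notMem_tsupport hy
  have hdφz : ∀ c y, y ∉ tsupport φ → pderiv c φ y = 0 := by
    intro d x hx
    have h1 : x ∉ tsupport (fderiv ℝ φ) := fun h => hx (tsupport_fderiv_subset ℝ h)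
    have h2 : fderiv ℝ φ x = 0 := image_eq_zero_of_notMem_tsupport h1
    unfold pderiv
    rw [h2]; rfl
  have hli : ∀ c, LI Ω (p c) := fun c => (hp c).li hΩ
  have key := testExt (V := E n) (fun c => EuclideanSpace.single c (1 : ℝ))
    (fun c y => χ y * p c y) (fun y => -(χ y * g y) - ∑ c, pderiv c χ y * p c y)
    (fun c => hp c χ hχ.cc) (by
      have h1 := (hg χ hχ.cc).neg
      have h2 := memLp_finsetSum (μ := (volume : Measure (E n))) (p := 2) Finset.univ
        (f := fun (c : Fin n) (y : E n) => pderiv c χ y * p c y)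
        (fun c _ => hp c _ (hχ.pderiv c).cc)
      refine (h1.sub h2).ae_eq (Eventually.of_forall fun y => ?_)
      simp) (by
      intro Φ hΦ
      have hcs : CS Ω (fun y => Φ y * χ y) := hχ.smooth_mul hΦ.1
      have h1 := heq _ hcs
      have hpd : ∀ c y, pderiv c (fun y => Φ y * χ y) y =
          pderiv c Φ y * χ y + Φ y * pderiv c χ y :=
        fun c y => pderiv_mul' c y (hΦ.1.differentiable (by simp) y)
          (hχ.smooth.differentiable (by simp) y)
      simp_rw [hpd] at h1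
      have hΦc : Continuous Φ := hΦ.continuous
      have hdΦc : ∀ c, Continuous (pderiv c Φ) := fun c =>
        (hΦ.dd (EuclideanSpace.single c 1)).continuous
      have i1 : ∀ c, Integrable (fun y => χ y * p c y * dd (EuclideanSpace.single c (1 : ℝ)) Φ y) := by
        intro c
        have := (hχ.cc.mul_left' (hdΦc c)).integrable_mul (hli c)
        refine this.congr (Eventually.of_forall fun y => ?_)
        show pderiv c Φ y * χ y * p c y = χ y * p c y * pderiv c Φ y
        ring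
      have i2 : ∀ c, Integrable (fun y => Φ y * (pderiv c χ y * p c y)) := by
        intro c
        have := ((hχ.pderiv c).cc.mul_left' hΦc).integrable_mul (hli c)
        refine this.congr (Eventually.of_forall fun y => ?_)
        simp only [mul_assoc]
      have i3 : Integrable (fun y => Φ y * (χ y * g y)) := by
        have := (hχ.cc.mul_left' hΦc).integrable_mul (hg.li hΩ)
        simpa [mul_assoc] using this
      have e1 : ∀ c, ∫ y, (pderiv c Φ y * χ y + Φ y * pderiv c χ y) * p c y =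
          (∫ y, χ y * p c y * dd (EuclideanSpace.single c (1 : ℝ)) Φ y) +
          ∫ y, Φ y * (pderiv c χ y * p c y) := by
        intro c
        rw [← integral_add (i1 c) (i2 c)]
        congr 1
        ext y
        show (pderiv c Φ y * χ y + Φ y * pderiv c χ y) * p c y =
          χ y * p c y * pderiv c Φ y + Φ y * (pderiv c χ y * p c y)
        ring
      simp_rw [e1] at h1
      rw [Finset.sum_add_distrib] at h1
      have e2 : ∫ y, (-(χ y * g y) - ∑ c, pderiv c χ y * p c y) * Φ y =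
          -(∫ y, Φ y * (χ y * g y)) - ∑ c, ∫ y, Φ y * (pderiv c χ y * p c y) := by
        rw [← integral_finsetSum _ (fun c _ => i2 c), ← integral_neg]
        have e4 := integral_sub (f := fun a => -(Φ a * (χ a * g a)))
          (g := fun a => ∑ c, Φ a * (pderiv c χ a * p c a)) i3.neg
          (integrable_finsetSum _ fun c _ => i2 c)
        rw [← e4]
        congr 1
        ext y
        rw [sub_mul, Finset.sum_mul]
        congr 1
        · ring
        · exact Finset.sum_congr rfl fun c _ => by ring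
      rw [e2]
      have e3 : ∫ y, Φ y * χ y * g y = ∫ y, Φ y * (χ y * g y) := by
        congr 1; ext y; ring
      rw [e3] at h1
      linarith)
    (fun y => φ y * f y) (fun c y => pderiv c φ y * f y + φ y * H c y)
    ((hφ.cc.mul_cont hΩ hf).memLp 2) (hφ.cc.mul_cont hΩ hf).comp
    (fun c => by
      have h1 := ((hφ.pderiv c).cc.mul_cont hΩ hf).memLp (2 : ℝ≥0∞)
      exact h1.add (hH c φ hφ.cc))
    (fun c => WD.mul_on hΩ hf (hH c) c (hw c) hφ)
  have e1 : ∀ c, ∫ y, χ y * p c y * (pderiv c φ y * f y + φ y * H c y) =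
      ∫ y, (pderiv c φ y * f y + φ y * H c y) * p c y := by
    intro c
    congr 1
    ext y
    by_cases hy : y ∈ tsupport φ
    · rw [hχ1' y hy]; ring
    · rw [hφz y hy, hdφz c y hy]; ring
  have e2 : ∫ y, (-(χ y * g y) - ∑ c, pderiv c χ y * p c y) * (φ y * f y) =
      - ∫ y, φ y * f y * g y := by
    rw [← integral_neg]
    congr 1
    ext y
    by_cases hy : y ∈ tsupport φ
    · rw [hχ1' y hy]
      simp [hχd _ y hy]
      ring
    · rw [hφz y hy]; ring
  simp_rw [e1] at key
  rw [key, e2]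

end Crest.Agent.R249.Lim41
end
end

-- ▼ part R249/Lim8_41
/-!
R249 / D3-LIM (helper41).  Abstract limit lemma, part 8: the data `LData` of the limit lemma.
-/

set_option autoImplicit false

open MeasureTheory Filter Topology Set
open scoped ContDiff ENNReal
open Crest.GeometryTopology.CoordMetric
open Crest.Agent.R249.LPt_191 (N1 sS kos)

noncomputable section

namespace Crest.Agent.R249.Lim41

/-- **Data of the abstract limit lemma.**
`u i : X i → ℝⁿ`, `F i x` the Gram matrix `⟨du^a, du^b⟩`, `P i x a b c = ⟨dF^{ab}, du^c⟩`,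
`D i x a b = |dF^{ab}|²`, `G i x a b = Δ F^{ab}`, `R i x a b = Ric(du^a, du^b)`. -/
structure LData {n : ℕ} {ι : Type*} (l : Filter ι) {X : ι → Type*} [∀ i, MeasurableSpace (X i)]
    (Ω : Set (E n)) (m : ∀ i, Measure (X i)) (u : ∀ i, X i → E n)
    (h : E n → Matrix (Fin n) (Fin n) ℝ) (F : ∀ i, X i → Matrix (Fin n) (Fin n) ℝ)
    (P : ∀ i, X i → Fin n → Fin n → Fin n → ℝ) (D G R : ∀ i, X i → Fin n → Fin n → ℝ)
    (lam Mm C α : ℝ) : Prop where
  base : Base Ω m u Mm
  α_gt : 1 / 2 < α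
  α_le : α ≤ 1
  C_nonneg : 0 ≤ C
  /-- the limit matrix -/
  h_symm : ∀ y ∈ Ω, ∀ a b, h y a b = h y b a
  h_near : ∀ y ∈ Ω, N1 (h y - 1) ≤ 1 / 8
  h_hold : ∀ x ∈ Ω, ∀ y ∈ Ω, ∀ a b, |h x a b - h y a b| ≤ C * dist x y ^ α
  /-- measurability and bounds -/
  F_meas : ∀ i a b, AEStronglyMeasurable (fun x => F i x a b) (m i)
  F_bdd : ∀ i, ∀ᵐ x ∂(m i), ∀ a b, |F i x a b| ≤ C
  P_mem : ∀ i a b c, MemLp (fun x => P i x a b c) 2 (m i)
  P_bdd : ∀ i a b c, ∫ x, P i x a b c ^ 2 ∂(m i) ≤ C
  D_int : ∀ i a b, Integrable (fun x => D i x a b) (m i)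
  D_bdd : ∀ i a b, ∫ x, |D i x a b| ∂(m i) ≤ C
  D_nonneg : ∀ i a b, ∀ᵐ x ∂(m i), 0 ≤ D i x a b
  G_mem : ∀ i a b, MemLp (fun x => G i x a b) 2 (m i)
  G_bdd : ∀ i a b, ∫ x, G i x a b ^ 2 ∂(m i) ≤ C
  R_int : ∀ i a b, Integrable (fun x => R i x a b) (m i)
  /-- weak convergence of the measures -/
  wc_one : WC l Ω m u (fun _ _ => 1) (fun y => (√(h y).det)⁻¹)
  /-- strong convergence of the Gram matrices -/
  sc_F : ∀ a b, SC l Ω m u (fun i x => F i x a b) (fun y => h y a b)
  /-- Green identities -/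
  H4 : ∀ c, ∀ φ, CS Ω φ → ∀ᶠ i in l, ∫ x, ∑ d, pderiv d φ (u i x) * F i x d c ∂(m i) = 0
  H5 : ∀ a b c, ∀ φ, CS Ω φ → ∀ᶠ i in l, ∫ x, φ (u i x) * P i x a b c ∂(m i) =
    - ∫ x, F i x a b * ∑ d, pderiv d φ (u i x) * F i x d c ∂(m i)
  H6 : ∀ a b, ∀ φ, CS Ω φ → ∀ᶠ i in l, ∫ x, ∑ c, pderiv c φ (u i x) * P i x a b c ∂(m i) =
    - ∫ x, φ (u i x) * G i x a b ∂(m i)
  H7 : ∀ a b, ∀ φ, CS Ω φ → ∀ᶠ i in l, ∫ x, φ (u i x) * D i x a b ∂(m i) =
    - (∫ x, φ (u i x) * (F i x a b * G i x a b) ∂(m i)) -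
      ∫ x, F i x a b * ∑ c, pderiv c φ (u i x) * P i x a b c ∂(m i)
  /-- pointwise identities where the Gram matrix is near `1` -/
  H9D : ∀ i, ∀ᵐ x ∂(m i), N1 (F i x - 1) ≤ 1 / 4 → ∀ a b,
    D i x a b = ∑ c, ∑ d, (F i x)⁻¹ c d * P i x a b c * P i x a b d
  H9G : ∀ i, ∀ᵐ x ∂(m i), N1 (F i x - 1) ≤ 1 / 4 → ∀ a b,
    G i x a b = 2 * sS (F i x) (P i x) a b + 2 * R i x a b
  /-- almost Einstein -/
  H10 : ∀ a b, Tendsto (fun i => ∫ x, |R i x a b - lam * F i x a b| ∂(m i)) l (𝓝 0)
  /-- Morrey bound -/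
  H11 : ∀ z r, 0 < r → Metric.closedBall z r ⊆ Ω → ∀ a b c, ∀ᶠ i in l,
    ∫ x in (u i) ⁻¹' Metric.ball z r, P i x a b c ^ 2 ∂(m i) ≤ C * r ^ ((n : ℝ) - 2 + 2 * α)

/-- **Output of the abstract limit lemma**: `H a b c = ∂_c h^{ab}`, `J = (det h)^{-1/2}`. -/
structure LOut {n : ℕ} (Ω : Set (E n)) (h : E n → Matrix (Fin n) (Fin n) ℝ)
    (H : Fin n → Fin n → Fin n → E n → ℝ) (lam C α : ℝ) : Prop where
  mem : ∀ a b c, MemLp (H a b c) 2 (volume : Measure (E n))
  wd : ∀ a b c, ∀ ζ, CS Ω ζ → ∫ y, h y a b * pderiv c ζ y = - ∫ y, ζ y * H a b c y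
  div : ∀ c, ∀ φ, CS Ω φ → ∫ y, ∑ d, pderiv d φ y * ((√(h y).det)⁻¹ * h y d c) = 0
  sys : ∀ a b, ∀ φ, CS Ω φ →
    ∫ y, ∑ c, pderiv c φ y * ((√(h y).det)⁻¹ * ∑ d, h y c d * H a b d y) =
      - ∫ y, φ y * ((√(h y).det)⁻¹ * (2 * sS (h y) (fun a b c => ∑ d, h y c d * H a b d y) a b +
          2 * lam * h y a b))
  morrey : ∀ z r, 0 < r → Metric.closedBall z r ⊆ Ω → ∀ a b c,
    ∫ y in Metric.ball z r, H a b c y ^ 2 ≤ C * r ^ ((n : ℝ) - 2 + 2 * α)

end Crest.Agent.R249.Lim41
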