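import Crest.Agent.R249.AsmD_832
import Crest.Agent.R249.Ul4_174
import Crest.Agent.R249.Lim3_41

/-!
# R249, D3-LIM: interfaces (helper41)

* `HData`   : output of START + DECAY along a sequence (input of the limit argument);
* `AvOut`   : the limit `h` of the averages of the Gram matrices, Hölder;
* `ChOut`   : the limit map is a chart, infinitesimal scale = `h⁻¹`;
* `MsOut`   : the measures converge to `(det h)^{-1/2} dx`;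
* `StOut`   : the Gram matrices converge strongly in `L¹`;
* the corresponding statements `SDStmt`, `AvStmt`, `ChStmt`, `MsStmt`, `StStmt`.
-/

set_option autoImplicit false
noncomputable section
open Set Filter Topology Bundle MeasureTheory Metric
open scoped ContDiff Manifold ENNReal NNReal Matrix
open Crest.GeometryTopology.CoordMetric Crest.GeometryTopology.ChartCurvature
  Crest.GeometryTopology.RicciEnergy Crest.GeometryTopology.PointedLimit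
open Crest.Agent.R247.Bo84
open Crest.Agent.R249.D1Def104 Crest.Agent.R249.Ul174 Crest.Agent.R249.Len47
open Crest.Agent.R249.AsmD832

namespace Crest.Agent.R249.LimDef41

local notation "𝔼" => EuclideanSpace ℝ (Fin 4)

section seq

variable {M : ℕ → Type} [∀ k, MetricSpace (M k)]
  [∀ k, ChartedSpace (EuclideanSpace ℝ (Fin 4)) (M k)]
  [∀ k, IsManifold 𝓘(ℝ, EuclideanSpace ℝ (Fin 4)) ∞ (M k)]
  [∀ k, RiemannianBundle (fun x : M k => TangentSpace 𝓘(ℝ, EuclideanSpace ℝ (Fin 4)) x)]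
  [∀ k, IsContMDiffRiemannianBundle 𝓘(ℝ, EuclideanSpace ℝ (Fin 4)) ∞ (EuclideanSpace ℝ (Fin 4))
    (fun x : M k => TangentSpace 𝓘(ℝ, EuclideanSpace ℝ (Fin 4)) x)]
  [∀ k, MeasurableSpace (M k)] [∀ k, BorelSpace (M k)]

/-- **Output of START and DECAY**: harmonic almost coordinates `u k` on `ball (x k) (16 ρ)`, with
Hessians of Morrey class `2 + 2α` at all scales `≥ σ`, for every `σ > 0` eventually. -/
structure HData (x : ∀ k, M k) (ρ α C ε δ lam : ℝ) (lamk : ℕ → ℝ) (u : ∀ k, Fin 4 → M k → ℝ) :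
    Prop where
  ρ_pos : 0 < ρ
  ρ_le : ρ ≤ 1
  α_gt : 2 / 3 < α
  α_lt : α < 1
  C_pos : 0 < C
  ric : ∀ᶠ k in om, HasRicciLowerBound 4 (M k) 0
  sec : ∀ᶠ k in om, HasNonnegSectionalCurvature 4 (M k)
  pinch : ∀ᶠ k in om, ∀ y ∈ ball (x k) (16 * ρ), ∀ r : ℝ, 0 < r → r ≤ 16 * ρ →
    ENNReal.ofReal (1 - δ) * volume (ball (0 : 𝔼) r) ≤ (μHE[4] : Measure (M k)) (ball y r)
  smooth : ∀ᶠ k in om, ∀ a, ContMDiffOn 𝓘(ℝ, 𝔼) 𝓘(ℝ, ℝ) ∞ (u k a) (ball (x k) (16 * ρ))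
  harm : ∀ᶠ k in om, ∀ a, ∀ p ∈ ball (x k) (16 * ρ),
    mLap 4 (u k a) p = 0 ∧ mGam 4 (u k a) (u k a) p ≤ 4
  zero : ∀ᶠ k in om, ∀ a, u k a (x k) = 0
  hess : ∀ σ : ℝ, 0 < σ → ∀ᶠ k in om, ∀ y ∈ ball (x k) (8 * ρ), ∀ s : ℝ, σ ≤ s → s ≤ 8 * ρ →
    ∫ z in ball y s, ∑ a, mHessSq 4 (u k a) z ∂(μHE[4] : Measure (M k)) ≤ C * s ^ (2 + 2 * α)
  near : ∀ σ : ℝ, 0 < σ → ∀ᶠ k in om, ∀ y ∈ ball (x k) (8 * ρ), ∀ s : ℝ, σ ≤ s → s ≤ 8 * ρ →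
    ∫ z in ball y s, ∑ a, ∑ b, |mGam 4 (u k a) (u k b) z - if a = b then 1 else 0|
      ∂(μHE[4] : Measure (M k)) ≤ ε * s ^ 4
  l4 : ∀ᶠ k in om, ∫ z in ball (x k) (8 * ρ), ∑ a, mHessSq 4 (u k a) z ^ 2
      ∂(μHE[4] : Measure (M k)) ≤ C
  ricdev : Tendsto (fun k => ∫⁻ z in ball (x k) (16 * ρ), ENNReal.ofReal (mRicDev 4 (M k) (lamk k) z)
      ∂(μHE[4] : Measure (M k))) om (𝓝 0)
  lam_nonneg : 0 ≤ lam
  lamk_lim : Tendsto lamk om (𝓝 lam)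

variable {q : ∀ k, M k}

/-- the limit of the averages of the Gram matrices -/
structure AvOut (x : ∀ k, M k) (hx : Bd q x) (ρ α C ε : ℝ) (u : ∀ k, Fin 4 → M k → ℝ)
    (h : UL q → Matrix (Fin 4) (Fin 4) ℝ) : Prop where
  symm : ∀ z a b, h z a b = h z b a
  near : ∀ z ∈ ball (UL.mk x hx) (4 * ρ), ∑ a, ∑ b, |h z a b - if a = b then 1 else 0| ≤ ε
  hold : ∀ z ∈ ball (UL.mk x hx) (4 * ρ), ∀ z' ∈ ball (UL.mk x hx) (4 * ρ), ∀ a b,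
    |h z a b - h z' a b| ≤ C * dist z z' ^ α
  av : ∀ z ∈ ball (UL.mk x hx) (4 * ρ), ∀ s : ℝ, 0 < s → s ≤ ρ → ∀ᶠ k in om,
    ∫ y in ball (z.rep k) s, ∑ a, ∑ b, |mGam 4 (u k a) (u k b) y - h z a b|
      ∂(μHE[4] : Measure (M k)) ≤ C * s ^ (4 + α)

/-- the metric field of the chart: the inverse of `h` -/
def hInv (h : UL q → Matrix (Fin 4) (Fin 4) ℝ)
    (e : OpenPartialHomeomorph (UL q) (EuclideanSpace ℝ (Fin 4))) : MetricField 4 :=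
  fun y => (h (e.symm y))⁻¹

/-- the limit map is a chart -/
structure ChOut (x : ∀ k, M k) (hx : Bd q x) (ρ : ℝ) (u : ∀ k, Fin 4 → M k → ℝ)
    (h : UL q → Matrix (Fin 4) (Fin 4) ℝ) (r₀ : ℝ) (U : UL q → EuclideanSpace ℝ (Fin 4))
    (e : OpenPartialHomeomorph (UL q) (EuclideanSpace ℝ (Fin 4))) : Prop where
  r_pos : 0 < r₀
  r_le : 4 * r₀ ≤ ρ
  /-- `U` is the limit of `u k` -/
  lim : ∀ a, LimOn (ball (UL.mk x hx) (8 * ρ)) (fun k => u k a) fun y => U y a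
  eq : ∀ y, e y = U y
  source : e.source = ball (UL.mk x hx) r₀
  ball_subset : ball (0 : EuclideanSpace ℝ (Fin 4)) (r₀ / 2) ⊆ e.target
  ni : ∀ y ∈ ball (UL.mk x hx) (4 * r₀), ∀ y' ∈ ball (UL.mk x hx) (4 * r₀),
    |dist (U y) (U y') - dist y y'| ≤ 1 / 10 * dist y y'
  /-- infinitesimal scale, uniform -/
  inf : ∀ η : ℝ, 0 < η → ∃ r : ℝ, 0 < r ∧ ∀ y ∈ ball (UL.mk x hx) (4 * r₀),
    ∀ y' ∈ ball (UL.mk x hx) (4 * r₀), ∀ y'' ∈ ball (UL.mk x hx) (4 * r₀), dist y y' < r →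
      dist y y'' < r →
      |√((U y' - U y'').ofLp ⬝ᵥ ((h y)⁻¹ *ᵥ (U y' - U y'').ofLp)) - dist y' y''| ≤
        η * dist y' y''

/-- convergence of the measures -/
def MsOut (x : ∀ k, M k) (u : ∀ k, Fin 4 → M k → ℝ)
    (h : UL q → Matrix (Fin 4) (Fin 4) ℝ) (r₀ : ℝ)
    (e : OpenPartialHomeomorph (UL q) (EuclideanSpace ℝ (Fin 4))) : Prop :=
  ∀ φ : 𝔼 → ℝ, Lim41.CC e.target φ →
    Tendsto (fun k => ∫ y in ball (x k) r₀, φ (WithLp.toLp 2 fun a => u k a y)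
      ∂(μHE[4] : Measure (M k))) om (𝓝 (∫ z, φ z * (√(h (e.symm z)).det)⁻¹))

/-- strong `L¹` convergence of the Gram matrices -/
def StOut (x : ∀ k, M k) (u : ∀ k, Fin 4 → M k → ℝ)
    (h : UL q → Matrix (Fin 4) (Fin 4) ℝ) (r₀ : ℝ)
    (e : OpenPartialHomeomorph (UL q) (EuclideanSpace ℝ (Fin 4))) : Prop :=
  ∀ φ : 𝔼 → ℝ, Lim41.CC e.target φ → ∀ a b,
    Tendsto (fun k => ∫ y in ball (x k) r₀, |φ (WithLp.toLp 2 fun a => u k a y) *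
      (mGam 4 (u k a) (u k b) y - h (e.symm (WithLp.toLp 2 fun a => u k a y)) a b)|
      ∂(μHE[4] : Measure (M k))) om (𝓝 0)

/-- support: for test functions `φ` in the target, `φ ∘ u k` on `ball (x k) r₀` is supported in a
smaller ball. -/
def SpOut (x : ∀ k, M k) (u : ∀ k, Fin 4 → M k → ℝ) (r₀ : ℝ)
    (e : OpenPartialHomeomorph (UL q) (EuclideanSpace ℝ (Fin 4))) : Prop :=
  ∀ K : Set 𝔼, IsCompact K → K ⊆ e.target → ∃ r₁ : ℝ, 0 < r₁ ∧ r₁ < r₀ ∧ ∀ᶠ k in om,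
    ∀ y ∈ closedBall (x k) r₀, (WithLp.toLp 2 fun a => u k a y : 𝔼) ∈ K → y ∈ closedBall (x k) r₁

end seq

/-- the sequences of Theorem R -/
def SDStmt : Prop := ∀ ε : ℝ, 0 < ε → ∃ δ₀ : ℝ, 0 < δ₀ ∧
  ∀ (M : ℕ → Type) [∀ k, MetricSpace (M k)] [∀ k, CompleteSpace (M k)]
    [∀ k, ConnectedSpace (M k)] [∀ k, ChartedSpace (EuclideanSpace ℝ (Fin 4)) (M k)]
    [∀ k, IsManifold 𝓘(ℝ, EuclideanSpace ℝ (Fin 4)) ∞ (M k)]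
    [∀ k, RiemannianBundle (fun x : M k => TangentSpace 𝓘(ℝ, EuclideanSpace ℝ (Fin 4)) x)]
    [∀ k, IsContMDiffRiemannianBundle 𝓘(ℝ, EuclideanSpace ℝ (Fin 4)) ∞ (EuclideanSpace ℝ (Fin 4))
      (fun x : M k => TangentSpace 𝓘(ℝ, EuclideanSpace ℝ (Fin 4)) x)]
    [∀ k, IsRiemannianManifold 𝓘(ℝ, EuclideanSpace ℝ (Fin 4)) (M k)]
    [∀ k, MeasurableSpace (M k)] [∀ k, BorelSpace (M k)]
    (x : ∀ k, M k) (lam : ℝ) (lamk : ℕ → ℝ) (R : ℝ), 0 ≤ lam → 0 < R →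
    Tendsto lamk om (𝓝 lam) →
    (∀ᶠ k in om, HasNonnegSectionalCurvature 4 (M k)) →
    (∀ η : ℝ, 0 < η → ∀ᶠ k in om, PinchAt (x k) R δ₀ (lamk k) η) →
    ∃ ρ α C : ℝ, ∃ u : ∀ k, Fin 4 → M k → ℝ, 16 * ρ ≤ R ∧
      HData x ρ α C ε δ₀ lam lamk u

def AvStmt : Prop := ∀ ε₁ : ℝ, 0 < ε₁ → ∃ ε : ℝ, 0 < ε ∧
  ∀ (M : ℕ → Type) [∀ k, MetricSpace (M k)] [∀ k, CompleteSpace (M k)]
    [∀ k, ConnectedSpace (M k)] [∀ k, ChartedSpace (EuclideanSpace ℝ (Fin 4)) (M k)]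
    [∀ k, IsManifold 𝓘(ℝ, EuclideanSpace ℝ (Fin 4)) ∞ (M k)]
    [∀ k, RiemannianBundle (fun x : M k => TangentSpace 𝓘(ℝ, EuclideanSpace ℝ (Fin 4)) x)]
    [∀ k, IsContMDiffRiemannianBundle 𝓘(ℝ, EuclideanSpace ℝ (Fin 4)) ∞ (EuclideanSpace ℝ (Fin 4))
      (fun x : M k => TangentSpace 𝓘(ℝ, EuclideanSpace ℝ (Fin 4)) x)]
    [∀ k, IsRiemannianManifold 𝓘(ℝ, EuclideanSpace ℝ (Fin 4)) (M k)]
    [∀ k, MeasurableSpace (M k)] [∀ k, BorelSpace (M k)]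
    (q : ∀ k, M k) (x : ∀ k, M k) (hx : Bd q x) (ρ α C δ lam : ℝ) (lamk : ℕ → ℝ)
    (u : ∀ k, Fin 4 → M k → ℝ), δ ≤ 1 / 2 → HData x ρ α C ε δ lam lamk u →
    ∃ C' : ℝ, ∃ h : UL q → Matrix (Fin 4) (Fin 4) ℝ, 0 < C' ∧ AvOut x hx ρ α C' ε₁ u h

/-- chart, from `HData` and `AvOut` -/
def ChStmt : Prop := ∃ ε₁ δ₁ : ℝ, 0 < ε₁ ∧ 0 < δ₁ ∧
  ∀ (M : ℕ → Type) [∀ k, MetricSpace (M k)] [∀ k, CompleteSpace (M k)]
    [∀ k, ConnectedSpace (M k)] [∀ k, ChartedSpace (EuclideanSpace ℝ (Fin 4)) (M k)]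
    [∀ k, IsManifold 𝓘(ℝ, EuclideanSpace ℝ (Fin 4)) ∞ (M k)]
    [∀ k, RiemannianBundle (fun x : M k => TangentSpace 𝓘(ℝ, EuclideanSpace ℝ (Fin 4)) x)]
    [∀ k, IsContMDiffRiemannianBundle 𝓘(ℝ, EuclideanSpace ℝ (Fin 4)) ∞ (EuclideanSpace ℝ (Fin 4))
      (fun x : M k => TangentSpace 𝓘(ℝ, EuclideanSpace ℝ (Fin 4)) x)]
    [∀ k, IsRiemannianManifold 𝓘(ℝ, EuclideanSpace ℝ (Fin 4)) (M k)]
    [∀ k, MeasurableSpace (M k)] [∀ k, BorelSpace (M k)]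
    (q : ∀ k, M k) (x : ∀ k, M k) (hx : Bd q x) (ρ α C C' ε δ lam : ℝ) (lamk : ℕ → ℝ)
    (u : ∀ k, Fin 4 → M k → ℝ) (h : UL q → Matrix (Fin 4) (Fin 4) ℝ), δ ≤ δ₁ →
    HData x ρ α C ε δ lam lamk u → AvOut x hx ρ α C' ε₁ u h →
    ∃ r₀ U e, ChOut x hx ρ u h r₀ U e ∧ SpOut x u r₀ e

/-- measures and strong convergence, from `HData`, `AvOut`, `ChOut` -/
def MsStStmt : Prop := ∃ ε₁ δ₁ : ℝ, 0 < ε₁ ∧ 0 < δ₁ ∧
  ∀ (M : ℕ → Type) [∀ k, MetricSpace (M k)] [∀ k, CompleteSpace (M k)]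
    [∀ k, ConnectedSpace (M k)] [∀ k, ChartedSpace (EuclideanSpace ℝ (Fin 4)) (M k)]
    [∀ k, IsManifold 𝓘(ℝ, EuclideanSpace ℝ (Fin 4)) ∞ (M k)]
    [∀ k, RiemannianBundle (fun x : M k => TangentSpace 𝓘(ℝ, EuclideanSpace ℝ (Fin 4)) x)]
    [∀ k, IsContMDiffRiemannianBundle 𝓘(ℝ, EuclideanSpace ℝ (Fin 4)) ∞ (EuclideanSpace ℝ (Fin 4))
      (fun x : M k => TangentSpace 𝓘(ℝ, EuclideanSpace ℝ (Fin 4)) x)]
    [∀ k, IsRiemannianManifold 𝓘(ℝ, EuclideanSpace ℝ (Fin 4)) (M k)]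
    [∀ k, MeasurableSpace (M k)] [∀ k, BorelSpace (M k)]
    (q : ∀ k, M k) (x : ∀ k, M k) (hx : Bd q x) (ρ α C C' ε δ lam : ℝ) (lamk : ℕ → ℝ)
    (u : ∀ k, Fin 4 → M k → ℝ) (h : UL q → Matrix (Fin 4) (Fin 4) ℝ) (r₀ : ℝ)
    (U : UL q → EuclideanSpace ℝ (Fin 4))
    (e : OpenPartialHomeomorph (UL q) (EuclideanSpace ℝ (Fin 4))), δ ≤ δ₁ →
    HData x ρ α C ε δ lam lamk u → AvOut x hx ρ α C' ε₁ u h → ChOut x hx ρ u h r₀ U e →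
    SpOut x u r₀ e → MsOut x u h r₀ e ∧ StOut x u h r₀ e

end Crest.Agent.R249.LimDef41
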