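import Crest.Agent.R249.Top5_330
import Crest.Agent.R226.CutAsm_823
import Crest.Agent.R244.CF
import Crest.Agent.R226.GeoLoc_577
import Crest.Agent.R226.Calc2_347
import Crest.Agent.R244.CFCoord
import Crest.Agent.R244.CFLift
import Crest.Agent.R249.Len2_47
import Crest.Agent.R249.Ul1_174
import Crest.Agent.R249.LimDef_41
import Crest.Agent.R249.Lim8_41
import Crest.Agent.R249.Bad2_174

-- ▼ part R249/Hin4_615
section

/-!
# R249 (S0386), leaf D4-HINGE: hinge inequality, four point inequality, angle lemma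

`M` closed with nonnegative sectional curvature, `G : GeoData n M`.
* `hinge`: `d(exp_x u, exp_x v)² ≤ |u|² + |v|² - 2⟨u,v⟩` for `u` minimising.
* `four_point` : the closed 4-point condition `Alex0`, which passes to Gromov-Hausdorff limits.
* `angle_upper`, `angle_lower`: Gram matrix of the directions of minimisers.
-/

set_option autoImplicit false
set_option maxSynthPendingDepth 3
set_option linter.unusedSectionVars false

open Bundle Set Filter Topology Metric
open scoped Manifold ContDiff NNReal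
open Crest.GeometryTopology.CoordMetric Crest.GeometryTopology.ChartCurvature
open Crest.GeometryTopology.MTW
open Crest.Agent.R247.Sm879 Crest.Agent.R247.Ray97

noncomputable section

namespace Crest.Agent.R249.Hin4_615

/-! ### pure metric part -/

section metric

variable {X : Type*} [MetricSpace X]

/-- the 'variance' of `m` with respect to `(x, z)` with weights `(1-t, t)` -/
def Q4 (x z m : X) (t : ℝ) : ℝ :=
  (1 - t) * dist m x ^ 2 + t * dist m z ^ 2 - t * (1 - t) * dist x z ^ 2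

/-- **The closed four point condition** of spaces with curvature `≥ 0`. -/
def Alex0 (X : Type*) [MetricSpace X] : Prop :=
  ∀ p x z m : X, ∀ t ∈ Icc (0 : ℝ) 1, 0 ≤ Q4 x z m t ∧
    (1 - t) * dist p x ^ 2 + t * dist p z ^ 2 - t * (1 - t) * dist x z ^ 2 ≤
      (dist p m + √(Q4 x z m t)) ^ 2

/-- point on side inequality -/
theorem Alex0.pos (h : Alex0 X) {p x z m : X} {t : ℝ} (ht : t ∈ Icc (0 : ℝ) 1)
    (h1 : dist x m = t * dist x z) (h2 : dist m z = (1 - t) * dist x z) :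
    (1 - t) * dist p x ^ 2 + t * dist p z ^ 2 - t * (1 - t) * dist x z ^ 2 ≤ dist p m ^ 2 := by
  have h3 := (h p x z m t ht).2
  have hQ : Q4 x z m t = 0 := by
    unfold Q4
    rw [dist_comm m x, h1, h2]; ring
  rw [hQ, Real.sqrt_zero, add_zero] at h3
  exact h3

/-- midpoint inequality -/
theorem Alex0.mid (h : Alex0 X) {p x z m : X} (h1 : dist x m = dist x z / 2)
    (h2 : dist m z = dist x z / 2) :
    (dist p x ^ 2 + dist p z ^ 2) / 2 - dist x z ^ 2 / 4 ≤ dist p m ^ 2 := by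
  have := h.pos (p := p) (x := x) (z := z) (m := m) (t := 1 / 2) ⟨by norm_num, by norm_num⟩
    (by rw [h1]; ring) (by rw [h2]; ring)
  linarith


end metric

/-! ### hinges on a closed manifold with `K ≥ 0` -/

section geo
variable {n : ℕ} {M : Type*} [MetricSpace M] [ChartedSpace (EuclideanSpace ℝ (Fin n)) M]
  [IsManifold (𝓡 n) ∞ M]
  [RiemannianBundle (fun p : M => TangentSpace (𝓡 n) p)]
  [IsContMDiffRiemannianBundle (𝓡 n) ∞ (EuclideanSpace ℝ (Fin n)) (fun p : M => TangentSpace (𝓡 n) p)]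
  [IsRiemannianManifold (𝓡 n) M] [CompactSpace M]

/-- **hinge inequality** -/
theorem hinge (G : Crest.Agent.R226.GeoData n M) (hK : HasNonnegSectionalCurvature n M) {x : M}
    {u : TangentSpace (𝓡 n) x} (hu : u ∈ G.K x) (v : TangentSpace (𝓡 n) x) :
    dist (G.ex x u) (G.ex x v) ^ 2 ≤ ‖u‖ ^ 2 + ‖v‖ ^ 2 - 2 * inner ℝ u v := by
  obtain ⟨C, hC0, hC⟩ := (Crest.Agent.R226.CutAsm823.cutFacts G).semiconcave
  have hm : ExM M := Crest.Agent.R247.Sm879.ExM.of_exactMid
    (Crest.Agent.R247.HR216.approxMid_of_riemannian n M).exactMid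
  have hconc := Crest.Agent.R249.Top330.toponogov_ex G hm hK (G.ex x u) x v
  set f : ℝ → ℝ := fun t => dist (G.ex x u) (G.ex x (t • v)) ^ 2 - ‖v‖ ^ 2 * t ^ 2 with hf
  have hux : dist x (G.ex x u) = ‖u‖ := hu
  have hf0 : f 0 = ‖u‖ ^ 2 := by
    simp only [hf, zero_smul, G.ex_zero, dist_comm (G.ex x u) x, hux]; ring
  have hup : ∀ t : ℝ, f t ≤ ‖u‖ ^ 2 - 2 * t * inner ℝ u v + (2 * C) * ‖v‖ ^ 2 * t ^ 2 := by
    intro t
    have h1 := hC x u hu (t • v)
    unfold halfDistSq at h1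
    rw [hux, inner_smul_right, norm_smul, dist_comm] at h1
    simp only [hf]
    have h2 : ‖t‖ ^ 2 = t ^ 2 := by rw [Real.norm_eq_abs, sq_abs]
    have h3 : (‖t‖ * ‖v‖) ^ 2 = t ^ 2 * ‖v‖ ^ 2 := by rw [mul_pow, h2]
    rw [h3] at h1
    nlinarith [sq_nonneg t, sq_nonneg ‖v‖, mul_nonneg (sq_nonneg t) (sq_nonneg ‖v‖)]
  -- concavity
  have hslope : ∀ t : ℝ, 0 < t → t ≤ 1 → f 1 ≤ ‖u‖ ^ 2 - 2 * inner ℝ u v + 2 * C * ‖v‖ ^ 2 * t := by
    intro t ht ht1
    have h1 := hconc.2 (mem_univ (0 : ℝ)) (mem_univ (1 : ℝ)) (show 0 ≤ 1 - t by linarith) ht.le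
      (by ring)
    simp only [smul_eq_mul, mul_zero, mul_one, zero_add] at h1
    have h2 := hup t
    have h3 : (1 - t) * f 0 + t * f 1 ≤ f t := h1
    rw [hf0] at h3
    have h4 : t * f 1 ≤ t * (‖u‖ ^ 2 - 2 * inner ℝ u v + 2 * C * ‖v‖ ^ 2 * t) := by nlinarith
    exact le_of_mul_le_mul_left h4 ht
  have hlim : f 1 ≤ ‖u‖ ^ 2 - 2 * inner ℝ u v := by
    have hc : Tendsto (fun t : ℝ => ‖u‖ ^ 2 - 2 * inner ℝ u v + 2 * C * ‖v‖ ^ 2 * t) (𝓝[>] 0)
        (𝓝 (‖u‖ ^ 2 - 2 * inner ℝ u v + 2 * C * ‖v‖ ^ 2 * 0)) := by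
      have : Continuous (fun t : ℝ => ‖u‖ ^ 2 - 2 * inner ℝ u v + 2 * C * ‖v‖ ^ 2 * t) := by
        fun_prop
      exact (this.tendsto 0).mono_left nhdsWithin_le_nhds
    rw [mul_zero, add_zero] at hc
    refine ge_of_tendsto hc ?_
    filter_upwards [Ioc_mem_nhdsGT (show (0 : ℝ) < 1 by norm_num)] with t ht
    exact hslope t ht.1 ht.2
  simp only [hf, one_smul] at hlim
  linarith

/-- **four point condition** -/
theorem alex0 (hK : HasNonnegSectionalCurvature n M) : Alex0 M := by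
  obtain ⟨G⟩ := Crest.Agent.R226.CutAsm823.nonempty_geoData n M
  intro p x z m t ht
  obtain ⟨up, hp, hp'⟩ := G.surj m p
  obtain ⟨ux, hx, hx'⟩ := G.surj m x
  obtain ⟨uz, hz, hz'⟩ := G.surj m z
  have kp : up ∈ G.K m := by show dist m (G.ex m up) = ‖up‖; rw [hp, hp']
  have kx : ux ∈ G.K m := by show dist m (G.ex m ux) = ‖ux‖; rw [hx, hx']
  have h1 := hinge G hK kp ux
  have h2 := hinge G hK kp uz
  have h3 := hinge G hK kx uz
  rw [hp, hx] at h1
  rw [hp, hz] at h2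
  rw [hx, hz] at h3
  obtain ⟨ht0, ht1⟩ := ht
  set w := (1 - t) • ux + t • uz with hw
  have hw2 : ‖w‖ ^ 2 = (1 - t) * ‖ux‖ ^ 2 + t * ‖uz‖ ^ 2 -
      t * (1 - t) * (‖ux‖ ^ 2 + ‖uz‖ ^ 2 - 2 * inner ℝ ux uz) := by
    rw [hw, norm_add_sq_real, norm_smul, norm_smul, inner_smul_left, inner_smul_right, mul_pow,
      mul_pow, Real.norm_eq_abs, Real.norm_eq_abs, sq_abs, sq_abs]
    simp only [conj_trivial]
    ring
  have hQ : ‖w‖ ^ 2 ≤ Q4 x z m t := by
    unfold Q4
    rw [hw2, ← hx', ← hz']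
    have : 0 ≤ t * (1 - t) := mul_nonneg ht0 (by linarith)
    nlinarith
  have hQ0 : 0 ≤ Q4 x z m t := (sq_nonneg _).trans hQ
  refine ⟨hQ0, ?_⟩
  have hws : ‖w‖ ≤ √(Q4 x z m t) := Real.le_sqrt_of_sq_le hQ
  have hin : (1 - t) * inner ℝ up ux + t * inner ℝ up uz = inner ℝ up w := by
    rw [hw, inner_add_right, inner_smul_right, inner_smul_right]
  have hcs : -(‖up‖ * ‖w‖) ≤ inner ℝ up w := by
    have := abs_real_inner_le_norm up w
    exact (abs_le.1 this).1
  have hup : ‖up‖ = dist p m := by rw [hp', dist_comm]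
  have hcs2 : ‖up‖ * ‖w‖ ≤ dist p m * √(Q4 x z m t) := by
    rw [hup]
    exact mul_le_mul_of_nonneg_left hws dist_nonneg
  have hsq : √(Q4 x z m t) ^ 2 = Q4 x z m t := Real.sq_sqrt hQ0
  have hQdef : Q4 x z m t = (1 - t) * ‖ux‖ ^ 2 + t * ‖uz‖ ^ 2 - t * (1 - t) * dist x z ^ 2 := by
    unfold Q4; rw [hx', hz']
  have e1 : (1 - t) * dist p x ^ 2 ≤ (1 - t) * (‖up‖ ^ 2 + ‖ux‖ ^ 2 - 2 * inner ℝ up ux) :=
    mul_le_mul_of_nonneg_left h1 (by linarith)
  have e2 : t * dist p z ^ 2 ≤ t * (‖up‖ ^ 2 + ‖uz‖ ^ 2 - 2 * inner ℝ up uz) :=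
    mul_le_mul_of_nonneg_left h2 ht0
  rw [← hup] at hcs2 ⊢
  rw [add_sq, hsq]
  linarith

/-! ### the angle lemma -/




end geo

end Crest.Agent.R249.Hin4_615
end
end

-- ▼ part R249/Hin1_615
section

/-!
# R249 (S0386), leaf T4, part 1: the Riccati identity for the gradient of an energy function

`nab Γ Y y u = D Y u + Γ(u, Y)` is the covariant derivative of the field `Y`.  If `∇_Y Y = Y` near
`y` (gradient of `d²/2`), then
`R(u,Y)Y = A u - A² u - (D_Y A) u - Γ(Y, A u) + A Γ(u, Y)`, `A = nab Γ Y`.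
Consequence (`curv_nonneg_core`): if the Hessian of `d(p,·)²/2` is at most the metric near `p`, then
`⟨R(u,w)w,u⟩ ≥ 0` at `p`.
-/

set_option autoImplicit false
set_option maxSynthPendingDepth 3

open Set Filter Topology
open scoped ContDiff
open Crest.Agent.R244.CF

namespace Crest.Agent.R249.Hin1_615

variable {E : Type*} [NormedAddCommGroup E] [NormedSpace ℝ E]

/-- `∇_u Y = D Y u + Γ(u, Y)` -/
noncomputable def nab (Γ : E → E →L[ℝ] E →L[ℝ] E) (Y : E → E) (y : E) : E →L[ℝ] E :=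
  fderiv ℝ Y y + (Γ y).flip (Y y)

theorem nab_apply (Γ : E → E →L[ℝ] E →L[ℝ] E) (Y : E → E) (y u : E) :
    nab Γ Y y u = fderiv ℝ Y y u + Γ y u (Y y) := rfl

section Ident

variable {U : Set E} {g : E → E →L[ℝ] E →L[ℝ] ℝ} {Γ : E → E →L[ℝ] E →L[ℝ] E}

theorem tendsto_clm {ι F G : Type*} [NormedAddCommGroup F] [NormedSpace ℝ F]
    [NormedAddCommGroup G] [NormedSpace ℝ G] {l : Filter ι} {f : ι → F →L[ℝ] G} {x : ι → F}
    {a : F →L[ℝ] G} {b : F} (hf : Tendsto f l (𝓝 a)) (hx : Tendsto x l (𝓝 b)) :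
    Tendsto (fun i => f i (x i)) l (𝓝 (a b)) :=
  (isBoundedBilinearMap_apply (𝕜 := ℝ) (E := F) (F := G)).continuous.continuousAt.tendsto.comp
    (hf.prodMk_nhds hx)

theorem two_le_inf : (2 : WithTop ℕ∞) ≤ ∞ := ENat.LEInfty.out

/-- derivative of the endomorphism field `nab Γ Y` -/
theorem hasFDerivAt_nab {Y : E → E} {y : E} (hY : ContDiffAt ℝ 2 Y y) (hΓ : DifferentiableAt ℝ Γ y)
    (a u : E) :
    HasFDerivAt (nab Γ Y) (fderiv ℝ (nab Γ Y) y) y ∧
    fderiv ℝ (nab Γ Y) y a u =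
      fderiv ℝ (fderiv ℝ Y) y a u + fderiv ℝ Γ y a u (Y y) + Γ y u (fderiv ℝ Y y a) := by
  have hdY : DifferentiableAt ℝ (fderiv ℝ Y) y :=
    (hY.fderiv_right (m := 1) (by norm_num)).differentiableAt (by simp)
  have hYd : DifferentiableAt ℝ Y y := hY.differentiableAt (by simp)
  have hfl : DifferentiableAt ℝ (fun z => (Γ z).flip (Y z)) y := by
    have h1 : DifferentiableAt ℝ (fun z => (Γ z).flip) y :=
      (ContinuousLinearMap.flipₗᵢ ℝ E E E).toContinuousLinearEquiv.toContinuousLinearMap.differentiableAt.comp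
        y hΓ
    exact h1.clm_apply hYd
  have hd : DifferentiableAt ℝ (nab Γ Y) y := hdY.add hfl
  refine ⟨hd.hasFDerivAt, ?_⟩
  -- evaluate at `u`
  have e1 : fderiv ℝ (fun z => nab Γ Y z u) y a = fderiv ℝ (nab Γ Y) y a u := by
    have := (hd.hasFDerivAt.clm_apply (hasFDerivAt_const u y)).fderiv
    rw [this]; simp
  have e2 : fderiv ℝ (fun z => nab Γ Y z u) y a =
      fderiv ℝ (fderiv ℝ Y) y a u + fderiv ℝ Γ y a u (Y y) + Γ y u (fderiv ℝ Y y a) := by
    have h1 := (hdY.hasFDerivAt.clm_apply (hasFDerivAt_const u y))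
    have h2 := ((hΓ.hasFDerivAt.clm_apply (hasFDerivAt_const u y)).clm_apply hYd.hasFDerivAt)
    have h3 := (h1.add h2).fderiv
    have h4 : (fun z => nab Γ Y z u) = (fun z => fderiv ℝ Y z u) + fun z => Γ z u (Y z) := by
      funext z; simp [nab_apply]
    rw [h4]
    erw [h3]
    simp
    abel
  rw [← e1, e2]

/-- the Riccati identity -/
theorem riccati {Y : E → E} {y : E} (hY : ContDiffAt ℝ 2 Y y) (hΓ : DifferentiableAt ℝ Γ y)
    (hAY : ∀ᶠ z in 𝓝 y, nab Γ Y z (Y z) = Y z) (u : E) :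
    curv Γ y u (Y y) (Y y) = nab Γ Y y u - nab Γ Y y (nab Γ Y y u) - fderiv ℝ (nab Γ Y) y (Y y) u
      - Γ y (Y y) (nab Γ Y y u) + nab Γ Y y (Γ y u (Y y)) := by
  have hYd : DifferentiableAt ℝ Y y := hY.differentiableAt (by simp)
  have hn := (hasFDerivAt_nab (Γ := Γ) hY hΓ u u).1
  -- differentiate `nab Y (Y) = Y`
  have h1 : fderiv ℝ (nab Γ Y) y u (Y y) + nab Γ Y y (fderiv ℝ Y y u) = fderiv ℝ Y y u := by
    have h := (hn.clm_apply hYd.hasFDerivAt).fderiv
    have h' := (show (fun z => nab Γ Y z (Y z)) =ᶠ[𝓝 y] Y from hAY).fderiv_eq (𝕜 := ℝ)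
    rw [h] at h'
    have := DFunLike.congr_fun h' u
    simp at this
    rw [add_comm]; exact this
  have h2 := (hasFDerivAt_nab (Γ := Γ) hY hΓ u (Y y)).2
  have h3 := (hasFDerivAt_nab (Γ := Γ) hY hΓ (Y y) u).2
  have hs : fderiv ℝ (fderiv ℝ Y) y u (Y y) = fderiv ℝ (fderiv ℝ Y) y (Y y) u := by
    have := (hY.isSymmSndFDerivAt (by
      simp only [minSmoothness_of_isRCLikeNormedField]; exact le_rfl)) u (Y y)
    exact this
  have hYY := hAY.self_of_nhds
  rw [nab_apply] at hYY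
  unfold curv
  rw [h3]
  rw [h2] at h1
  have hYY' : Γ y (Y y) (Y y) = Y y - fderiv ℝ Y y (Y y) := eq_sub_of_add_eq' hYY
  rw [hYY']
  rw [hs] at h1
  simp only [nab_apply, map_add, map_sub] at h1 ⊢
  linear_combination (norm := module) h1

/-- continuity of the curvature -/
theorem continuousAt_curv (h : IsLC U g Γ) {σ σ' : ℝ → E} {s₀ : ℝ} (hp : σ s₀ ∈ U)
    (hσ : ContinuousAt σ s₀) (hσ' : ContinuousAt σ' s₀) (u : E) :
    ContinuousAt (fun s => g (σ s) (curv Γ (σ s) u (σ' s) (σ' s)) u) s₀ := by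
  have hg : ContinuousAt (fun s => g (σ s)) s₀ :=
    ContinuousAt.comp (f := σ) (x := s₀) (h.g_differentiableAt hp).continuousAt hσ
  have hΓ : ContinuousAt (fun s => Γ (σ s)) s₀ :=
    ContinuousAt.comp (f := σ) (x := s₀) (h.Γ_differentiableAt hp).continuousAt hσ
  have hdΓc : ContinuousAt (fderiv ℝ Γ) (σ s₀) :=
    ((h.Γ_contDiffAt hp).fderiv_right (m := ∞) (by simp)).continuousAt
  have hdΓ : ContinuousAt (fun s => fderiv ℝ Γ (σ s)) s₀ :=
    ContinuousAt.comp (f := σ) (x := s₀) hdΓc hσ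
  have hu : ContinuousAt (fun _ : ℝ => u) s₀ := continuousAt_const
  have h1 := ((hdΓ.clm_apply hu).clm_apply hσ').clm_apply hσ'
  have h2 := ((hdΓ.clm_apply hσ').clm_apply hu).clm_apply hσ'
  have h3 := (hΓ.clm_apply hu).clm_apply ((hΓ.clm_apply hσ').clm_apply hσ')
  have h4 := (hΓ.clm_apply hσ').clm_apply ((hΓ.clm_apply hu).clm_apply hσ')
  exact (hg.clm_apply (((h1.sub h2).add h3).sub h4)).clm_apply hu

/-- one-variable derivative formula behind both directions of the Hessian comparison -/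
theorem hasDerivAt_defect (h : IsLC U g Γ) {Y : E → E} {σ σ' : ℝ → E} {s : ℝ} (hU : σ s ∈ U)
    (hσ : HasDerivAt σ (σ' s) s) (hY : ContDiffAt ℝ 2 Y (σ s)) (hYσ : Y (σ s) = s • σ' s)
    (hAY : ∀ᶠ y in 𝓝 (σ s), nab Γ Y y (Y y) = Y y)
    (hsym : ∀ u v, g (σ s) (nab Γ Y (σ s) u) v = g (σ s) u (nab Γ Y (σ s) v)) (u : E) :
    HasDerivAt (fun s => s * g (σ s) (nab Γ Y (σ s) u - u) u)
      (-(g (σ s) (nab Γ Y (σ s) u - u) (nab Γ Y (σ s) u - u))
        + 2 * s * g (σ s) (nab Γ Y (σ s) u - u) (Γ (σ s) (σ' s) u)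
        - s ^ 2 * g (σ s) (curv Γ (σ s) u (σ' s) (σ' s)) u) s := by
  have hΓd := h.Γ_differentiableAt hU
  have hgd := h.g_differentiableAt hU
  have hn := (hasFDerivAt_nab (Γ := Γ) hY hΓd u u).1
  have hA : HasDerivAt (fun s => nab Γ Y (σ s) u - u) (fderiv ℝ (nab Γ Y) (σ s) (σ' s) u) s := by
    have h1 : HasDerivAt (fun s => nab Γ Y (σ s)) (fderiv ℝ (nab Γ Y) (σ s) (σ' s)) s :=
      hn.comp_hasDerivAt s hσ
    have h2 := h1.clm_apply (hasDerivAt_const s u)
    simpa using h2.sub_const u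
  have hgs : HasDerivAt (fun s => g (σ s)) (fderiv ℝ g (σ s) (σ' s)) s :=
    hgd.hasFDerivAt.comp_hasDerivAt s hσ
  have he := hasDerivAt_apply2 hgs hA (hasDerivAt_const s u)
  have hS := (hasDerivAt_id s).mul he
  refine HasDerivAt.congr_deriv hS ?_
  have hric := riccati hY hΓd hAY u
  have hcurv : curv Γ (σ s) u (Y (σ s)) (Y (σ s)) = s ^ 2 • curv Γ (σ s) u (σ' s) (σ' s) := by
    rw [hYσ]; unfold curv
    simp only [map_smul, smul_apply]
    module
  have hfd : s • fderiv ℝ (nab Γ Y) (σ s) (σ' s) u = fderiv ℝ (nab Γ Y) (σ s) (Y (σ s)) u := by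
    rw [hYσ]; simp
  have hΓY : ∀ v, s • Γ (σ s) (σ' s) v = Γ (σ s) (Y (σ s)) v := fun v => by rw [hYσ]; simp
  have hcomp := h.compat (σ s) hU (Y (σ s)) (nab Γ Y (σ s) u - u) u
  have hcomp' : s * fderiv ℝ g (σ s) (σ' s) (nab Γ Y (σ s) u - u) u =
      fderiv ℝ g (σ s) (Y (σ s)) (nab Γ Y (σ s) u - u) u := by
    rw [hYσ]; simp
  set A : E →L[ℝ] E := nab Γ Y (σ s) with hAdef
  set G := g (σ s) with hG
  set Yv := Y (σ s) with hYv
  have hGs : ∀ a b, G a b = G b a := fun a b => h.g_symm (σ s) hU a b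
  have hkey : s * (G (fderiv ℝ (nab Γ Y) (σ s) (σ' s) u)) u
      = G (A u - A (A u) - Γ (σ s) Yv (A u) + A (Γ (σ s) u Yv)) u
        - s ^ 2 * G (curv Γ (σ s) u (σ' s) (σ' s)) u := by
    have h1 : s • fderiv ℝ (nab Γ Y) (σ s) (σ' s) u
        = A u - A (A u) - Γ (σ s) Yv (A u) + A (Γ (σ s) u Yv)
          - s ^ 2 • curv Γ (σ s) u (σ' s) (σ' s) := by
      rw [hfd, ← hcurv, hric]; abel
    have h2 := congrArg (fun z => G z u) h1
    simpa only [map_smul, smul_apply, smul_eq_mul, map_sub, sub_apply] using h2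
  have e1 : s * G (A u - u) (Γ (σ s) (σ' s) u) = G (A u - u) (Γ (σ s) Yv u) := by
    rw [← hΓY]; simp
  have e2 : G (A (Γ (σ s) u Yv)) u = G (Γ (σ s) Yv u) (A u) := by
    rw [hsym, h.Γ_symm (σ s) hU u Yv]
  have e3 : G (A (A u)) u = G (A u) (A u) := hsym _ _
  simp only [id, one_mul]
  rw [mul_add, mul_add, hcomp', hcomp, hkey]
  simp only [map_sub, map_add, sub_apply, add_apply, map_zero, mul_zero] at e1 e2 e3 ⊢
  have e4 := hGs (A u) u
  have e5 := hGs (Γ (σ s) Yv u) (A u)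
  have e6 := hGs (Γ (σ s) Yv u) u
  linear_combination (-2) * e1 + e2 - e3 + e4 + e5 - e6

/-- **T4 core**: if `∇Y ≤ g` near `p` for the gradient field `Y` of `d(p,·)²/2`, then the curvature
is nonnegative at `p`. -/
theorem curv_nonneg_core (h : IsLC U g Γ) {p : E} (hp : p ∈ U) {Y : E → E}
    (hY : ContDiffAt ℝ 2 Y p) {σ σ' : ℝ → E} (hσ0 : σ 0 = p)
    (hσ : ∀ᶠ s in 𝓝 (0 : ℝ), HasDerivAt σ (σ' s) s) (hσ' : ContinuousAt σ' 0)
    (hYσ : ∀ᶠ s in 𝓝 (0 : ℝ), Y (σ s) = s • σ' s)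
    (hAY : ∀ᶠ y in 𝓝 p, nab Γ Y y (Y y) = Y y)
    (hsym : ∀ᶠ y in 𝓝 p, ∀ u v, g y (nab Γ Y y u) v = g y u (nab Γ Y y v))
    (hid : ∀ u, nab Γ Y p u = u)
    (hle : ∀ᶠ y in 𝓝 p, ∀ u, g y (nab Γ Y y u) u ≤ g y u u) (u : E) :
    0 ≤ g p (curv Γ p u (σ' 0) (σ' 0)) u := by
  by_contra hneg
  push Not at hneg
  have hσc : ContinuousAt σ 0 := hσ.self_of_nhds.continuousAt
  have hσt : Tendsto σ (𝓝 0) (𝓝 p) := by simpa [hσ0] using hσc.tendsto
  -- everything holds for `s` near `0`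
  have evU : ∀ᶠ s in 𝓝 (0 : ℝ), σ s ∈ U := hσt.eventually (h.isOpen.mem_nhds hp)
  have evY : ∀ᶠ s in 𝓝 (0 : ℝ), ContDiffAt ℝ 2 Y (σ s) :=
    hσt.eventually (hY.eventually (by simp))
  have evAY : ∀ᶠ s in 𝓝 (0 : ℝ), ∀ᶠ y in 𝓝 (σ s), nab Γ Y y (Y y) = Y y :=
    hσt.eventually (eventually_eventually_nhds.2 hAY)
  have evsym := hσt.eventually hsym
  have evle := hσt.eventually hle
  -- the defect `D v s = A v - v` and its derivative at `0`
  have hn := (hasFDerivAt_nab (Γ := Γ) hY (h.Γ_differentiableAt hp) u u).1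
  set T : E →L[ℝ] E := fderiv ℝ (nab Γ Y) p (σ' 0) with hT
  have hD : ∀ v, HasDerivAt (fun s => nab Γ Y (σ s) v - v) (T v) 0 := by
    intro v
    have h1 : HasDerivAt (fun s => nab Γ Y (σ s)) (fderiv ℝ (nab Γ Y) p (σ' 0)) 0 := by
      rw [← hσ0] at hn
      have := hn.comp_hasDerivAt 0 hσ.self_of_nhds
      rwa [hσ0] at this
    have h2 := h1.clm_apply (hasDerivAt_const (0 : ℝ) v)
    simpa using h2.sub_const v
  have hD0 : ∀ v, nab Γ Y (σ 0) v - v = 0 := fun v => by rw [hσ0, hid, sub_self]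
  have hgs : HasDerivAt (fun s => g (σ s)) (fderiv ℝ g p (σ' 0)) 0 := by
    have hgd := (h.g_differentiableAt hp).hasFDerivAt
    rw [← hσ0] at hgd
    have := hgd.comp_hasDerivAt 0 hσ.self_of_nhds
    rwa [hσ0] at this
  have he : ∀ v w, HasDerivAt (fun s => g (σ s) (nab Γ Y (σ s) v - v) w) (g p (T v) w) 0 := by
    intro v w
    have := hasDerivAt_apply2 hgs (hD v) (hasDerivAt_const (0 : ℝ) w)
    rw [hD0, hσ0] at this
    simpa using this
  have hTvv : ∀ v, g p (T v) v = 0 := by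
    intro v
    refine IsLocalMax.hasDerivAt_eq_zero ?_ (he v v)
    show ∀ᶠ s in 𝓝 (0 : ℝ), g (σ s) (nab Γ Y (σ s) v - v) v ≤ g (σ 0) (nab Γ Y (σ 0) v - v) v
    filter_upwards [evle] with s hs
    rw [hD0]
    simp only [map_zero, zero_apply, map_sub, sub_apply]
    linarith [hs v]
  have hTsym : ∀ v w, g p (T v) w = g p (T w) v := by
    intro v w
    refine (he v w).unique (HasDerivAt.congr_of_eventuallyEq (he w v) ?_)
    filter_upwards [evsym, evU] with s hs hU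
    simp only [map_sub, sub_apply]
    rw [hs v w, h.g_symm _ hU v (nab Γ Y (σ s) w), h.g_symm _ hU v w]
  have hT0 : ∀ v, T v = 0 := by
    intro v
    refine h.eq_of_forall hp fun w => ?_
    have h1 := hTvv (v + w)
    simp only [map_add, add_apply] at h1
    have h2 := hTsym v w
    have h3 := hTvv v
    have h4 := hTvv w
    simp only [map_zero, zero_apply]
    linarith
  -- `D u s = o(s)`
  set D : ℝ → E := fun s => nab Γ Y (σ s) u - u with hDdef
  have hDu : Tendsto (fun s => s⁻¹ • D s) (𝓝[≠] 0) (𝓝 0) := by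
    have h1 := (hD u).tendsto_slope
    rw [hT0] at h1
    refine h1.congr' ?_
    filter_upwards [self_mem_nhdsWithin] with s hs
    simp only [slope, sub_zero, vsub_eq_sub, hDdef]
    rw [hD0, sub_zero]
  -- derivative of `S s = s * g (D s) u`
  set S' : ℝ → ℝ := fun s => -(g (σ s) (D s) (D s)) + 2 * s * g (σ s) (D s) (Γ (σ s) (σ' s) u)
    - s ^ 2 * g (σ s) (curv Γ (σ s) u (σ' s) (σ' s)) u with hS'
  have evS : ∀ᶠ s in 𝓝 (0 : ℝ), HasDerivAt (fun s => s * g (σ s) (D s) u) (S' s) s := by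
    filter_upwards [evU, evY, evAY, evsym, hσ, hYσ] with s h1 h2 h3 h4 h5 h6
    exact hasDerivAt_defect h h1 h5 h2 h6 h3 h4 u
  -- `S' s / s² → - κ > 0`
  have hgc : ContinuousAt (fun s => g (σ s)) 0 := hgs.continuousAt
  have hΓc : ContinuousAt (fun s => Γ (σ s)) 0 := by
    have : ContinuousAt Γ (σ 0) := by rw [hσ0]; exact (h.Γ_differentiableAt hp).continuousAt
    exact ContinuousAt.comp (f := σ) this hσc
  have hlim : Tendsto (fun s => (s ^ 2)⁻¹ * S' s) (𝓝[≠] 0)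
      (𝓝 (-(g p (curv Γ p u (σ' 0) (σ' 0)) u))) := by
    have hcv := continuousAt_curv h (σ := σ) (σ' := σ') (s₀ := 0) (by rwa [hσ0]) hσc hσ' u
    have hcv' : Tendsto (fun s => g (σ s) (curv Γ (σ s) u (σ' s) (σ' s)) u) (𝓝[≠] 0)
        (𝓝 (g p (curv Γ p u (σ' 0) (σ' 0)) u)) := by
      have := hcv.tendsto.mono_left (nhdsWithin_le_nhds (s := {0}ᶜ))
      simpa only [hσ0] using this
    have hg' : Tendsto (fun s => g (σ s)) (𝓝[≠] 0) (𝓝 (g (σ 0))) :=
      hgc.tendsto.mono_left nhdsWithin_le_nhds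
    have hG' : Tendsto (fun s => Γ (σ s) (σ' s) u) (𝓝[≠] 0) (𝓝 (Γ (σ 0) (σ' 0) u)) :=
      ((hΓc.clm_apply hσ').clm_apply continuousAt_const).tendsto.mono_left nhdsWithin_le_nhds
    have t1 : Tendsto (fun s => g (σ s) (s⁻¹ • D s) (s⁻¹ • D s)) (𝓝[≠] 0)
        (𝓝 (g (σ 0) 0 0)) := by
      have := tendsto_clm hg' hDu
      exact tendsto_clm this hDu
    have t2 : Tendsto (fun s => g (σ s) (s⁻¹ • D s) (Γ (σ s) (σ' s) u)) (𝓝[≠] 0)
        (𝓝 (g (σ 0) 0 (Γ (σ 0) (σ' 0) u))) := by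
      have := tendsto_clm hg' hDu
      exact tendsto_clm this hG'
    have t3 := (t1.neg.add (t2.const_mul 2)).sub hcv'
    simp only [map_zero, zero_apply, mul_zero, neg_zero, add_zero, zero_sub] at t3
    refine t3.congr' ?_
    filter_upwards [self_mem_nhdsWithin] with s hs
    have hs0 : s ≠ 0 := hs
    simp only [hS', map_smul, smul_apply, smul_eq_mul]
    field_simp
  have hpos : ∀ᶠ s in 𝓝[≠] (0 : ℝ), 0 < S' s := by
    have h1 : ∀ᶠ s in 𝓝[≠] (0 : ℝ), 0 < (s ^ 2)⁻¹ * S' s :=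
      hlim.eventually (lt_mem_nhds (by linarith))
    filter_upwards [h1, self_mem_nhdsWithin] with s hs hs0
    have : 0 < (s ^ 2)⁻¹ := by
      have : s ≠ 0 := hs0
      positivity
    exact (pos_iff_pos_of_mul_pos hs).1 this
  obtain ⟨δ, hδ, hall⟩ : ∃ δ > 0, ∀ s : ℝ, |s| < δ → (HasDerivAt (fun s => s * g (σ s) (D s) u) (S' s) s ∧
      (s ≠ 0 → 0 < S' s) ∧ ∀ v, g (σ s) (nab Γ Y (σ s) v) v ≤ g (σ s) v v) := by
    have h1 := eventually_nhdsWithin_iff.1 hpos
    obtain ⟨δ, hδ, hb⟩ := Metric.eventually_nhds_iff.1 (evS.and (h1.and evle))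
    refine ⟨δ, hδ, fun s hs => ?_⟩
    have := hb (y := s) (by simpa [Real.dist_eq] using hs)
    exact ⟨this.1, fun h => this.2.1 h, this.2.2⟩
  set s₁ := δ / 2 with hs₁
  have hs₁pos : 0 < s₁ := by positivity
  have hmv := exists_hasDerivAt_eq_slope (fun s => s * g (σ s) (D s) u) S' hs₁pos
    (fun s hs => by
      have : |s| < δ := by rw [abs_of_nonneg hs.1]; linarith [hs.2]
      exact (hall s this).1.continuousAt.continuousWithinAt)
    (fun s hs => (hall s (by rw [abs_of_pos hs.1]; linarith [hs.2])).1)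
  obtain ⟨c, hc, hc'⟩ := hmv
  have hcpos : 0 < S' c := (hall c (by rw [abs_of_pos hc.1]; linarith [hc.2])).2.1 hc.1.ne'
  rw [hc'] at hcpos
  have h2 := (hall s₁ (by rw [abs_of_pos hs₁pos]; linarith)).2.2 u
  have h3 : g (σ s₁) (D s₁) u ≤ 0 := by
    simp only [hDdef, map_sub, sub_apply]
    linarith
  have h4 : s₁ * g (σ s₁) (D s₁) u - 0 * g (σ 0) (D 0) u ≤ 0 := by
    nlinarith
  have h5 : (s₁ * g (σ s₁) (D s₁) u - 0 * g (σ 0) (D 0) u) / (s₁ - 0) ≤ 0 :=
    div_nonpos_of_nonpos_of_nonneg h4 (by linarith)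
  linarith

end Ident

end Crest.Agent.R249.Hin1_615
end

-- ▼ part R249/Hin2_615
section

/-!
# R249 (S0386), leaf T4, part 2: local energy functions and curvature

`curv_nonneg_of_midpoint`: if the local energy `h(p,·) = d(p,·)²/2` satisfies the midpoint inequality
`h(p, exp_y tξ) + h(p, exp_y (-tξ)) ≤ 2 h(p,y) + t²|ξ|²` near `p`, `t → 0`, then the curvature at `p` is
nonnegative.
-/

set_option autoImplicit false
set_option maxSynthPendingDepth 3
set_option linter.unusedSectionVars false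
set_option linter.unusedSimpArgs false
set_option linter.unusedVariables false

open Set Filter Topology
open scoped ContDiff
open Crest.Agent.R244.CF
open Crest.Agent.R226.GeoLoc577 (LocGeo)
open Crest.Agent.R226.Calc347 (Sec)

namespace Crest.Agent.R249.Hin2_615

open Crest.Agent.R249.Hin1_615

variable {E : Type*} [NormedAddCommGroup E] [NormedSpace ℝ E]
variable {U : Set E} {g : E → E →L[ℝ] E →L[ℝ] ℝ} {Γ : E → E →L[ℝ] E →L[ℝ] E}

theorem nat_le_inf (k : ℕ) : ((k : ℕ) : WithTop ℕ∞) ≤ ∞ := by exact_mod_cast le_top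

/-! ### gradients -/

section Grad

variable [FiniteDimensional ℝ E]

/-- the metric as an isomorphism onto the dual -/
theorem exists_equiv (h : IsLC U g Γ) {y : E} (hy : y ∈ U) :
    ∃ e : E ≃L[ℝ] (E →L[ℝ] ℝ), (e : E →L[ℝ] (E →L[ℝ] ℝ)) = g y := by
  have hinj : Function.Injective (g y) := by
    intro u v huv
    exact h.eq_of_forall hy fun w => by rw [huv]
  have hfr : Module.finrank ℝ E = Module.finrank ℝ (E →L[ℝ] ℝ) := by
    have h1 : Module.finrank ℝ (E →L[ℝ] ℝ) = Module.finrank ℝ (Module.Dual ℝ E) :=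
      (LinearMap.toContinuousLinearMap (𝕜 := ℝ) (E := E) (F' := ℝ)).finrank_eq.symm
    rw [h1, Subspace.dual_finrank_eq]
  let e' : E ≃ₗ[ℝ] (E →L[ℝ] ℝ) := LinearEquiv.ofInjectiveOfFinrankEq (g y : E →ₗ[ℝ] _) hinj hfr
  refine ⟨e'.toContinuousLinearEquiv, ?_⟩
  ext u v
  rfl

/-- the gradient of `f` -/
noncomputable def grad (g : E → E →L[ℝ] E →L[ℝ] ℝ) (f : E → ℝ) (y : E) : E :=
  ContinuousLinearMap.inverse (g y) (fderiv ℝ f y)

theorem g_grad (h : IsLC U g Γ) {y : E} (hy : y ∈ U) (f : E → ℝ) (v : E) :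
    g y (grad g f y) v = fderiv ℝ f y v := by
  obtain ⟨e, he⟩ := exists_equiv h hy
  unfold grad
  rw [← he, ContinuousLinearMap.inverse_equiv]
  simp

theorem contDiffAt_grad (h : IsLC U g Γ) {y : E} (hy : y ∈ U) {f : E → ℝ} {k : ℕ}
    (hf : ContDiffAt ℝ (k + 1 : ℕ) f y) : ContDiffAt ℝ (k : ℕ) (grad g f) y := by
  have : CompleteSpace E := FiniteDimensional.complete ℝ E
  obtain ⟨e, he⟩ := exists_equiv h hy
  have h1 : ContDiffAt ℝ (k : ℕ) (fun z => ContinuousLinearMap.inverse (g z)) y := by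
    have h2 := contDiffAt_map_inverse (𝕜 := ℝ) (n := ((k : ℕ) : WithTop ℕ∞)) e
    rw [he] at h2
    exact h2.comp y ((h.g_contDiffAt hy).of_le (by exact_mod_cast le_top))
  have h3 : ContDiffAt ℝ (k : ℕ) (fderiv ℝ f) y := hf.fderiv_right (by exact_mod_cast le_rfl)
  exact h1.clm_apply h3

/-- `g(∇_u ∇f, v) = D²f(u,v) - g(∇f, Γ(u,v))` -/
theorem g_nab_grad (h : IsLC U g Γ) {y : E} (hy : y ∈ U) {f : E → ℝ} (hf : ContDiffAt ℝ 2 f y)
    (u v : E) :
    g y (nab Γ (grad g f) y u) v =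
      fderiv ℝ (fderiv ℝ f) y u v - g y (grad g f y) (Γ y u v) := by
  have hY : DifferentiableAt ℝ (grad g f) y :=
    (contDiffAt_grad h hy (k := 1) (by exact_mod_cast hf)).differentiableAt (by simp)
  have hdf : DifferentiableAt ℝ (fderiv ℝ f) y :=
    (hf.fderiv_right (m := 1) (by norm_num)).differentiableAt (by simp)
  have e : (fun z => g z (grad g f z) v) =ᶠ[𝓝 y] fun z => fderiv ℝ f z v := by
    filter_upwards [h.isOpen.mem_nhds hy] with z hz using g_grad h hz f v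
  have e1 := DFunLike.congr_fun (e.fderiv_eq (𝕜 := ℝ)) u
  rw [hasFDerivAt_apply2 (h.g_differentiableAt hy).hasFDerivAt hY.hasFDerivAt
    (hasFDerivAt_const v y)] at e1
  have e2 : fderiv ℝ (fun z => fderiv ℝ f z v) y u = fderiv ℝ (fderiv ℝ f) y u v := by
    rw [(hdf.hasFDerivAt.clm_apply (hasFDerivAt_const v y)).fderiv]; simp
  rw [e2, h.compat y hy] at e1
  rw [nab_apply, map_add, add_apply]
  simp only [zero_apply, map_zero, add_zero] at e1
  linarith

theorem nab_symm (h : IsLC U g Γ) {y : E} (hy : y ∈ U) {f : E → ℝ} (hf : ContDiffAt ℝ 2 f y)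
    (u v : E) :
    g y (nab Γ (grad g f) y u) v = g y u (nab Γ (grad g f) y v) := by
  rw [h.g_symm y hy u, g_nab_grad h hy hf, g_nab_grad h hy hf, h.Γ_symm y hy u v]
  have := (hf.isSymmSndFDerivAt (by
      simp only [minSmoothness_of_isRCLikeNormedField]; exact le_rfl)) u v
  rw [this]

/-- the eikonal equation `|∇f|² = 2f` gives `∇_{∇f}∇f = ∇f` -/
theorem nab_grad_self (h : IsLC U g Γ) {y : E} (hy : y ∈ U) {f : E → ℝ} (hf : ContDiffAt ℝ 2 f y)
    (heik : ∀ᶠ z in 𝓝 y, g z (grad g f z) (grad g f z) = 2 * f z) :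
    nab Γ (grad g f) y (grad g f y) = grad g f y := by
  have hY : DifferentiableAt ℝ (grad g f) y :=
    (contDiffAt_grad h hy (k := 1) (by exact_mod_cast hf)).differentiableAt (by simp)
  refine h.eq_of_forall hy fun v => ?_
  have e1 := DFunLike.congr_fun
    ((show (fun z => g z (grad g f z) (grad g f z)) =ᶠ[𝓝 y] fun z => 2 * f z from heik).fderiv_eq
      (𝕜 := ℝ)) v
  rw [hasFDerivAt_apply2 (h.g_differentiableAt hy).hasFDerivAt hY.hasFDerivAt
    hY.hasFDerivAt, h.compat y hy] at e1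
  have e2 : fderiv ℝ (fun z => 2 * f z) y v = 2 * fderiv ℝ f y v := by
    rw [fderiv_const_mul (hf.differentiableAt (by simp))]; simp
  rw [e2, ← g_grad h hy f v] at e1
  rw [nab_symm h hy hf, nab_apply, map_add]
  have e3 := h.g_symm y hy (Γ y v (grad g f y)) (grad g f y)
  have e4 := h.g_symm y hy (fderiv ℝ (grad g f) y v) (grad g f y)
  linarith

end Grad

/-! ### the local energy -/

section Energy

variable [FiniteDimensional ℝ E]

variable {p : E} (L : LocGeo U g Γ p)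

/-- `h(p, ·)` near `p` -/
noncomputable def en (y : E) : ℝ := L.h (p, y)

theorem en_contDiffAt {v : E} (hv : g p v v < L.ρ ^ 2) : ContDiffAt ℝ ∞ (en L) (L.Ex (p, v)) := by
  have h1 := L.h_smooth p L.mem_W v hv
  exact h1.comp (L.Ex (p, v)) (contDiffAt_const.prodMk contDiffAt_id)

theorem fderiv_en {v : E} (hv : g p v v < L.ρ ^ 2) (η : E) :
    fderiv ℝ (en L) (L.Ex (p, v)) η = g (L.Ex (p, v)) (L.vel 1 (p, v)) η := by
  have h1 : HasFDerivAt L.h (fderiv ℝ L.h (p, L.Ex (p, v))) (p, L.Ex (p, v)) :=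
    ((L.h_smooth p L.mem_W v hv).differentiableAt (by simp)).hasFDerivAt
  have h2 : HasFDerivAt (fun y : E => (p, y)) ((0 : E →L[ℝ] E).prod (ContinuousLinearMap.id ℝ E))
      (L.Ex (p, v)) := (hasFDerivAt_const p _).prodMk (hasFDerivAt_id _)
  have h3 := (h1.comp (L.Ex (p, v)) h2).fderiv
  have h4 : (L.h ∘ fun y : E => (p, y)) = en L := rfl
  rw [h4] at h3
  rw [h3]
  simp only [ContinuousLinearMap.comp_apply, ContinuousLinearMap.prod_apply,
    zero_apply, ContinuousLinearMap.id_apply]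
  rw [L.h_fderiv p L.mem_W v hv 0 η]
  simp

theorem grad_en (h : IsLC U g Γ) {v : E} (hv : g p v v < L.ρ ^ 2) :
    grad g (en L) (L.Ex (p, v)) = L.vel 1 (p, v) := by
  have hU := L.Ex_mem p L.mem_W v hv
  refine h.eq_of_forall hU fun w => ?_
  rw [g_grad h hU, fderiv_en L hv]

/-- radial geodesics: `vel 1 (p, s v) = s vel s (p, v)` -/
theorem vel_one_smul (h : IsLC U g Γ) {v : E} (hv : g p v v < L.ρ ^ 2) {s : ℝ} (hs : |s| < 1) :
    L.vel 1 (p, s • v) = s • L.vel s (p, v) := by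
  have hp : p ∈ U := L.W_sub L.mem_W
  have hsv : g p (s • v) (s • v) < L.ρ ^ 2 := by
    have h0 := h.nonneg hp v
    simp only [map_smul, smul_apply, smul_eq_mul]
    have hs2 : s * s ≤ 1 := by nlinarith [abs_nonneg s, abs_mul_abs_self s]
    nlinarith [mul_nonneg (sub_nonneg.2 hs2) h0]
  have h1 := L.hasDerivAt_Ex p L.mem_W (s • v) hsv 1 (by simp)
  have h2 := L.hasDerivAt_Ex p L.mem_W v hv s hs.le
  have h3 : HasDerivAt (fun t : ℝ => L.Ex (p, (t * s) • v)) (s • L.vel s (p, v)) 1 := by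
    have h4 : HasDerivAt (fun t : ℝ => t * s) s 1 := by
      simpa using (hasDerivAt_id (1 : ℝ)).mul_const s
    have h2' : HasDerivAt (fun t : ℝ => L.Ex (p, t • v)) (L.vel s (p, v)) ((fun t : ℝ => t * s) 1) := by
      simpa using h2
    exact h2'.scomp (1 : ℝ) h4
  have h5 : (fun t : ℝ => L.Ex (p, t • s • v)) = fun t : ℝ => L.Ex (p, (t * s) • v) := by
    funext t; rw [smul_smul]
  rw [h5] at h1
  exact h1.unique h3

/-- eikonal equation on the ball -/
theorem eikonal (h : IsLC U g Γ) {v : E} (hv : g p v v < L.ρ ^ 2) :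
    g (L.Ex (p, v)) (grad g (en L) (L.Ex (p, v))) (grad g (en L) (L.Ex (p, v))) =
      2 * en L (L.Ex (p, v)) := by
  have h1 := L.speed p L.mem_W v hv 1 (by simp)
  rw [one_smul] at h1
  rw [grad_en L h hv, h1]
  unfold en
  rw [L.h_eq p L.mem_W v hv]
  ring

/-- the ball is a neighbourhood of `p` -/
theorem ball_mem (h : IsLC U g Γ) :
    ∀ᶠ y in 𝓝 p, ∃ v, g p v v < L.ρ ^ 2 ∧ L.Ex (p, v) = y := by
  have h1 := L.isOpen_ball p L.mem_W L.ρ L.ρ_pos le_rfl
  have h2 : p ∈ (fun v => L.Ex (p, v)) '' {v | g p v v < L.ρ ^ 2} := by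
    refine ⟨0, ?_, L.Ex_zero p L.mem_W⟩
    have := L.ρ_pos
    simp only [Set.mem_ofPred_eq, map_zero, zero_apply]
    positivity
  filter_upwards [h1.mem_nhds h2] with y hy
  obtain ⟨v, hv, rfl⟩ := hy
  exact ⟨v, hv, rfl⟩

/-- properties of the gradient field near `p` -/
theorem grad_props (h : IsLC U g Γ) :
    ContDiffAt ℝ 2 (grad g (en L)) p ∧
    (∀ᶠ y in 𝓝 p, nab Γ (grad g (en L)) y (grad g (en L) y) = grad g (en L) y) ∧
    (∀ᶠ y in 𝓝 p, ∀ u v, g y (nab Γ (grad g (en L)) y u) v = g y u (nab Γ (grad g (en L)) y v)) ∧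
    (∀ᶠ y in 𝓝 p, y ∈ U ∧ ContDiffAt ℝ ∞ (en L) y) := by
  have hp : p ∈ U := L.W_sub L.mem_W
  have hb := ball_mem L h
  have h0 : g p (0 : E) 0 < L.ρ ^ 2 := by
    have := L.ρ_pos
    simp only [map_zero, zero_apply]; positivity
  have hen : ∀ᶠ y in 𝓝 p, y ∈ U ∧ ContDiffAt ℝ ∞ (en L) y := by
    filter_upwards [hb, h.isOpen.mem_nhds hp] with y hy hyU
    obtain ⟨v, hv, rfl⟩ := hy
    exact ⟨hyU, en_contDiffAt L hv⟩
  refine ⟨?_, ?_, ?_, hen⟩
  · have := contDiffAt_grad h hp (k := 2) (f := en L)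
      (hen.self_of_nhds.2.of_le (nat_le_inf 3))
    exact_mod_cast this
  · filter_upwards [hen, eventually_eventually_nhds.2 hb] with y hy hyb
    refine nab_grad_self h hy.1 (hy.2.of_le two_le_inf) ?_
    filter_upwards [hyb] with z hz
    obtain ⟨v, hv, rfl⟩ := hz
    exact eikonal L h hv
  · filter_upwards [hen] with y hy u v
    exact nab_symm h hy.1 (hy.2.of_le two_le_inf) u v

/-- `∇Y = id` at `p` -/
theorem nab_base (h : IsLC U g Γ) (u : E) : nab Γ (grad g (en L)) p u = u := by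
  have hp : p ∈ U := L.W_sub L.mem_W
  obtain ⟨hY, hAY, -, -⟩ := grad_props L h
  -- it suffices to treat small vectors
  have hsmall : ∀ w : E, g p w w < L.ρ ^ 2 → nab Γ (grad g (en L)) p w = w := by
    intro w hw
    have hσ : ∀ s : ℝ, |s| ≤ 1 → HasDerivAt (fun s : ℝ => L.Ex (p, s • w)) (L.vel s (p, w)) s :=
      fun s hs => L.hasDerivAt_Ex p L.mem_W w hw s hs
    have hσ0 : L.Ex (p, (0 : ℝ) • w) = p := by rw [zero_smul]; exact L.Ex_zero p L.mem_W
    have hc : ContinuousAt (fun s : ℝ => L.Ex (p, s • w)) 0 := (hσ 0 (by simp)).continuousAt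
    have hv : ContinuousAt (fun s : ℝ => L.vel s (p, w)) 0 := by
      have := (L.vel_smooth p L.mem_W w hw 0 (by simp)).continuousAt
      exact ContinuousAt.comp (f := fun s : ℝ => (s, (p, w))) this
        (continuousAt_id.prodMk continuousAt_const)
    have hnabd := (hasFDerivAt_nab (Γ := Γ) hY (h.Γ_differentiableAt hp) w w).1
    have hnc : ContinuousAt (fun s : ℝ => nab Γ (grad g (en L)) (L.Ex (p, s • w))) 0 := by
      have h1 : ContinuousAt (nab Γ (grad g (en L))) (L.Ex (p, (0 : ℝ) • w)) := by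
        rw [hσ0]; exact hnabd.continuousAt
      exact ContinuousAt.comp (f := fun s : ℝ => L.Ex (p, s • w)) h1 hc
    have hlim1 : Tendsto (fun s : ℝ => nab Γ (grad g (en L)) (L.Ex (p, s • w)) (L.vel s (p, w)))
        (𝓝[≠] 0) (𝓝 (nab Γ (grad g (en L)) p w)) := by
      have := (hnc.clm_apply hv).tendsto
      rw [hσ0, L.vel_zero p L.mem_W w hw] at this
      exact this.mono_left nhdsWithin_le_nhds
    have hlim2 : Tendsto (fun s : ℝ => L.vel s (p, w)) (𝓝[≠] 0) (𝓝 w) := by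
      have := hv.tendsto
      rw [L.vel_zero p L.mem_W w hw] at this
      exact this.mono_left nhdsWithin_le_nhds
    refine tendsto_nhds_unique hlim1 (hlim2.congr' ?_)
    have ht : Tendsto (fun s : ℝ => L.Ex (p, s • w)) (𝓝[≠] 0) (𝓝 p) := by
      have := hc.tendsto
      rw [hσ0] at this
      exact this.mono_left nhdsWithin_le_nhds
    have habs : ∀ᶠ s : ℝ in 𝓝[≠] 0, |s| < 1 := by
      have : ∀ᶠ s : ℝ in 𝓝 0, |s| < 1 := by
        have := Metric.ball_mem_nhds (0 : ℝ) one_pos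
        filter_upwards [this] with s hs
        simpa [Real.dist_eq] using hs
      exact this.filter_mono nhdsWithin_le_nhds
    filter_upwards [ht.eventually hAY, self_mem_nhdsWithin, habs] with s hs hs0 hs1
    have hs0' : s ≠ 0 := hs0
    have hsw : g p (s • w) (s • w) < L.ρ ^ 2 := by
      have h0 := h.nonneg hp w
      simp only [map_smul, smul_apply, smul_eq_mul]
      have hs2 : s * s ≤ 1 := by nlinarith [abs_nonneg s, abs_mul_abs_self s]
      nlinarith [mul_nonneg (sub_nonneg.2 hs2) h0]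
    rw [grad_en L h hsw, vel_one_smul L h hw hs1, map_smul] at hs
    exact (smul_right_injective E hs0' hs).symm
  -- scaling
  have h0 := h.nonneg hp u
  obtain ⟨c, hc, hcu⟩ : ∃ c : ℝ, c ≠ 0 ∧ g p (c • u) (c • u) < L.ρ ^ 2 := by
    have hρ := L.ρ_pos
    refine ⟨L.ρ / (1 + g p u u + L.ρ), by positivity, ?_⟩
    simp only [map_smul, smul_apply, smul_eq_mul]
    have hden : 0 < 1 + g p u u + L.ρ := by positivity
    rw [← mul_assoc, div_mul_div_comm, div_mul_eq_mul_div, div_lt_iff₀ (by positivity)]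
    have : g p u u < (1 + g p u u + L.ρ) * (1 + g p u u + L.ρ) := by nlinarith
    nlinarith [mul_pos hρ hρ]
  have h1 := hsmall _ hcu
  rw [map_smul] at h1
  exact smul_right_injective E hc h1

/-- second derivative of `h(p, ·)` along geodesics is the Hessian -/
theorem sec_geo (h : IsLC U g Γ) {y : E} (hyW : y ∈ L.W) (hyU : y ∈ U)
    (hen : ContDiffAt ℝ ∞ (en L) y) {ξ : E} (hξ : g y ξ ξ < L.ρ ^ 2) :
    Sec (fun t : ℝ => en L (L.Ex (y, t • ξ))) (g y (nab Γ (grad g (en L)) y ξ) ξ) := by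
  have hρ := L.ρ_pos
  set c : ℝ → E := fun t => L.Ex (y, t • ξ) with hcdef
  have hc0 : c 0 = y := by simp only [hcdef, zero_smul]; exact L.Ex_zero y hyW
  have hcd : ContDiffAt ℝ ∞ c 0 := by
    have h1 := L.Ex_smooth y hyW ((0 : ℝ) • ξ) (by
      simp only [zero_smul, map_zero, zero_apply]; positivity)
    have h2 : ContDiffAt ℝ ∞ (fun t : ℝ => ((y, t • ξ) : E × E)) 0 :=
      contDiffAt_const.prodMk (contDiffAt_id.smul contDiffAt_const)
    exact h1.comp (0 : ℝ) h2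
  have hder : ∀ᶠ t in 𝓝 (0 : ℝ), HasDerivAt c (L.vel t (y, ξ)) t := by
    filter_upwards [Metric.ball_mem_nhds (0 : ℝ) one_pos] with t ht
    have ht' : |t| < 1 := by simpa [Real.dist_eq] using ht
    exact L.hasDerivAt_Ex y hyW ξ hξ t ht'.le
  have hd1 : deriv c =ᶠ[𝓝 0] fun t => L.vel t (y, ξ) := by
    filter_upwards [hder] with t ht using ht.deriv
  have hd2 : deriv (deriv c) 0 = -(Γ y ξ ξ) := by
    rw [hd1.deriv_eq, (L.hasDerivAt_vel y hyW ξ hξ 0 (by simp)).deriv, zero_smul,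
      L.Ex_zero y hyW, L.vel_zero y hyW ξ hξ]
  have hd0 : deriv c 0 = ξ := by
    rw [hd1.self_of_nhds]; exact L.vel_zero y hyW ξ hξ
  -- second derivative of `en L ∘ c`
  have hsec := Crest.Agent.R226.Calc347.Sec.comp_curve (g := en L) (γ := c) (a := y)
    (hen.of_le two_le_inf) (hcd.of_le two_le_inf) hc0
  rw [hd0, hd2] at hsec
  rw [g_nab_grad h hyU (hen.of_le two_le_inf), g_grad h hyU]
  rw [map_neg] at hsec
  exact hsec

theorem hess_le_of_midpoint (h : IsLC U g Γ) {y : E} (hyW : y ∈ L.W) (hyU : y ∈ U)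
    (hen : ContDiffAt ℝ ∞ (en L) y)
    (hmid : ∀ ξ, ∀ᶠ t : ℝ in 𝓝 0,
      en L (L.Ex (y, t • ξ)) + en L (L.Ex (y, -(t • ξ))) ≤ 2 * en L y + t ^ 2 * g y ξ ξ) (u : E) :
    g y (nab Γ (grad g (en L)) y u) u ≤ g y u u := by
  have hρ := L.ρ_pos
  have hyn := h.nonneg hyU
  -- small vectors
  have hsmall : ∀ ξ, g y ξ ξ < L.ρ ^ 2 →
      g y (nab Γ (grad g (en L)) y ξ) ξ ≤ g y ξ ξ := by
    intro ξ hξ
    have hξ' : g y (-ξ) (-ξ) < L.ρ ^ 2 := by simpa using hξ
    have s1 := sec_geo L h hyW hyU hen hξ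
    have s2 := sec_geo L h hyW hyU hen hξ'
    have e2 : g y (nab Γ (grad g (en L)) y (-ξ)) (-ξ) = g y (nab Γ (grad g (en L)) y ξ) ξ := by
      simp
    rw [e2] at s2
    have s3 : Sec (fun t : ℝ => 2 * en L y + t ^ 2 * g y ξ ξ) (2 * g y ξ ξ) := by
      refine ⟨by fun_prop, ?_⟩
      rw [Crest.Agent.R226.Calc347.iteratedDeriv_two_eq]
      have hd : deriv (fun t : ℝ => 2 * en L y + t ^ 2 * g y ξ ξ) = fun t => 2 * t * g y ξ ξ := by
        funext t
        have := (((hasDerivAt_pow 2 t).mul_const (g y ξ ξ)).const_add (2 * en L y)).deriv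
        simpa using this
      rw [hd]
      have := (((hasDerivAt_id (0 : ℝ)).const_mul 2).mul_const (g y ξ ξ)).deriv
      simpa using this
    have hle := Crest.Agent.R226.Calc347.Sec.le (s1.add s2) s3
      (by simp only [zero_smul, neg_zero, smul_zero, L.Ex_zero y hyW]; ring) ?_
    · linarith
    · filter_upwards [hmid ξ] with t ht
      simpa only [smul_neg] using ht
  -- scaling
  have h0 := hyn u
  obtain ⟨c, hc, hcu⟩ : ∃ c : ℝ, c ≠ 0 ∧ g y (c • u) (c • u) < L.ρ ^ 2 := by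
    refine ⟨L.ρ / (1 + g y u u + L.ρ), by positivity, ?_⟩
    simp only [map_smul, smul_apply, smul_eq_mul]
    have hden : 0 < 1 + g y u u + L.ρ := by positivity
    rw [← mul_assoc, div_mul_div_comm, div_mul_eq_mul_div, div_lt_iff₀ (by positivity)]
    have : g y u u < (1 + g y u u + L.ρ) * (1 + g y u u + L.ρ) := by nlinarith
    nlinarith [mul_pos hρ hρ]
  have h1 := hsmall _ hcu
  simp only [map_smul, smul_apply, smul_eq_mul] at h1
  have hc2 : 0 < c * c := mul_self_pos.2 hc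
  rw [← mul_assoc, ← mul_assoc] at h1
  exact le_of_mul_le_mul_left h1 hc2

/-- **T4, local form**: midpoint inequality of the local energy near `p` implies nonnegative
curvature at `p`. -/
theorem curv_nonneg_of_midpoint (h : IsLC U g Γ)
    (hmid : ∀ᶠ y in 𝓝 p, ∀ ξ, ∀ᶠ t : ℝ in 𝓝 0,
      L.h (p, L.Ex (y, t • ξ)) + L.h (p, L.Ex (y, -(t • ξ))) ≤
        2 * L.h (p, y) + t ^ 2 * g y ξ ξ) (u w : E) :
    0 ≤ g p (curv Γ p u w w) u := by
  have hp : p ∈ U := L.W_sub L.mem_W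
  have hρ := L.ρ_pos
  obtain ⟨hY, hAY, hsym, hU⟩ := grad_props L h
  -- small `w`
  have hsmall : ∀ w, g p w w < L.ρ ^ 2 → 0 ≤ g p (curv Γ p u w w) u := by
    intro w hw
    have hσ : ∀ᶠ s in 𝓝 (0 : ℝ), |s| < 1 := by
      filter_upwards [Metric.ball_mem_nhds (0 : ℝ) one_pos] with t ht
      simpa [Real.dist_eq] using ht
    have hv : ContinuousAt (fun s : ℝ => L.vel s (p, w)) 0 := by
      have := (L.vel_smooth p L.mem_W w hw 0 (by simp)).continuousAt
      exact ContinuousAt.comp (f := fun s : ℝ => (s, (p, w))) this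
        (continuousAt_id.prodMk continuousAt_const)
    have key := curv_nonneg_core h hp hY (σ := fun s : ℝ => L.Ex (p, s • w))
      (σ' := fun s : ℝ => L.vel s (p, w)) (by rw [zero_smul]; exact L.Ex_zero p L.mem_W)
      (by
        filter_upwards [hσ] with s hs
        exact L.hasDerivAt_Ex p L.mem_W w hw s hs.le) hv
      (by
        filter_upwards [hσ] with s hs
        have hsw : g p (s • w) (s • w) < L.ρ ^ 2 := by
          have h0 := h.nonneg hp w
          simp only [map_smul, smul_apply, smul_eq_mul]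
          have hs2 : s * s ≤ 1 := by nlinarith [abs_nonneg s, abs_mul_abs_self s]
          nlinarith [mul_nonneg (sub_nonneg.2 hs2) h0]
        rw [grad_en L h hsw, vel_one_smul L h hw hs])
      hAY hsym (nab_base L h)
      (by
        filter_upwards [hmid, hU, L.isOpen_W.mem_nhds L.mem_W] with y hy hyU hyW v
        exact hess_le_of_midpoint L h hyW hyU.1 hyU.2 hy v) u
    simpa only [L.vel_zero p L.mem_W w hw] using key
  have h0 := h.nonneg hp w
  obtain ⟨c, hc, hcu⟩ : ∃ c : ℝ, c ≠ 0 ∧ g p (c • w) (c • w) < L.ρ ^ 2 := by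
    refine ⟨L.ρ / (1 + g p w w + L.ρ), by positivity, ?_⟩
    simp only [map_smul, smul_apply, smul_eq_mul]
    have hden : 0 < 1 + g p w w + L.ρ := by positivity
    rw [← mul_assoc, div_mul_div_comm, div_mul_eq_mul_div, div_lt_iff₀ (by positivity)]
    have : g p w w < (1 + g p w w + L.ρ) * (1 + g p w w + L.ρ) := by nlinarith
    nlinarith [mul_pos hρ hρ]
  have h1 := hsmall _ hcu
  have e : curv Γ p u (c • w) (c • w) = (c * c) • curv Γ p u w w := by
    unfold curv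
    simp only [map_smul, smul_apply]
    module
  rw [e] at h1
  simp only [map_smul, smul_apply, smul_eq_mul] at h1
  have hc2 : 0 < c * c := mul_self_pos.2 hc
  exact nonneg_of_mul_nonneg_right h1 hc2

end Energy

end Crest.Agent.R249.Hin2_615
end

-- ▼ part R249/Hin3_615
section

/-!
# R249: the Prelude distance `riemDist h V` near the diagonal is `√(2 L.h)`

For `IsRiemannianOn h V`, `x ∈ V` and any local geometry `L : LocGeo V (gB h) (Gam h) x` (R226), for
all `a, b` near `x`: `riemDist h V a b = √(2 L.h (a, b))`, and `b = L.Ex (a, v)` with a short `v`.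
-/

set_option autoImplicit false
set_option maxSynthPendingDepth 3
set_option linter.unusedSectionVars false
set_option linter.unusedSimpArgs false
set_option linter.unusedVariables false

open Set Filter Topology MeasureTheory
open scoped ContDiff
open Crest.Agent.R244.CF
open Crest.Agent.R226.GeoLoc577 (LocGeo)
open Crest.GeometryTopology.CoordMetric

namespace Crest.Agent.R249.Hin3_615

/-- real-variable core: `f'² ≤ 2 f r²`, `f 0 = 0`, `f ≥ 0` implies `√(2 f T) ≤ ∫₀ᵀ r`. -/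
theorem sqrt_two_mul_le_integral {f f' r : ℝ → ℝ} {T : ℝ} (hT : 0 ≤ T) (h0 : f 0 = 0)
    (hnn : ∀ s ∈ Icc (0:ℝ) T, 0 ≤ f s) (hc : ContinuousOn f (Icc 0 T))
    (hd : ∀ s ∈ Ioo (0:ℝ) T, HasDerivAt f (f' s) s)
    (hr : ContinuousOn r (Icc 0 T)) (hrn : ∀ s ∈ Icc (0:ℝ) T, 0 ≤ r s)
    (hb : ∀ s ∈ Ioo (0:ℝ) T, (f' s) ^ 2 ≤ 2 * f s * r s ^ 2) :
    Real.sqrt (2 * f T) ≤ ∫ s in (0:ℝ)..T, r s := by
  have key : ∀ ε : ℝ, 0 < ε → Real.sqrt (2 * f T) ≤ (∫ s in (0:ℝ)..T, r s) + ε := by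
    intro ε hε
    set F : ℝ → ℝ := fun s => Real.sqrt (2 * f s + ε ^ 2) with hF
    have hpos : ∀ s ∈ Icc (0:ℝ) T, 0 < 2 * f s + ε ^ 2 := by
      intro s hs
      have := hnn s hs
      positivity
    have hFc : ContinuousOn F (Icc 0 T) := by
      apply ContinuousOn.sqrt
      exact (continuousOn_const.mul hc).add continuousOn_const
    have hint : IntervalIntegrable r volume 0 T := by
      apply ContinuousOn.intervalIntegrable
      rwa [uIcc_of_le hT]
    set R : ℝ → ℝ := fun s => ∫ t in (0:ℝ)..s, r t with hR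
    have hRc : ContinuousOn R (Icc 0 T) := by
      have := intervalIntegral.continuousOn_primitive_interval' hint (left_mem_uIcc)
      rwa [uIcc_of_le hT] at this
    have hRd : ∀ s ∈ Ioo (0:ℝ) T, HasDerivAt R (r s) s := by
      intro s hs
      apply intervalIntegral.integral_hasDerivAt_right
      · exact hint.mono_set (by
          rw [uIcc_of_le hT, uIcc_of_le hs.1.le]; exact Icc_subset_Icc le_rfl hs.2.le)
      · exact (hr.mono Ioo_subset_Icc_self).stronglyMeasurableAtFilter isOpen_Ioo s hs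
      · exact hr.continuousAt (Icc_mem_nhds hs.1 hs.2)
    have hFd : ∀ s ∈ Ioo (0:ℝ) T, HasDerivAt F ((2 * f' s) / (2 * Real.sqrt (2 * f s + ε ^ 2))) s := by
      intro s hs
      have h1 : HasDerivAt (fun s => 2 * f s + ε ^ 2) (2 * f' s) s :=
        ((hd s hs).const_mul 2).add_const _
      exact h1.sqrt (hpos s (Ioo_subset_Icc_self hs)).ne'
    have hmono : MonotoneOn (fun s => R s - F s) (Icc 0 T) := by
      apply monotoneOn_of_deriv_nonneg (convex_Icc 0 T) (hRc.sub hFc)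
      · rw [interior_Icc]
        intro s hs
        exact ((hRd s hs).sub (hFd s hs)).differentiableAt.differentiableWithinAt
      · rw [interior_Icc]
        intro s hs
        rw [((hRd s hs).sub (hFd s hs)).deriv]
        have hp := hpos s (Ioo_subset_Icc_self hs)
        have hsp : 0 < Real.sqrt (2 * f s + ε ^ 2) := Real.sqrt_pos.2 hp
        have hrs := hrn s (Ioo_subset_Icc_self hs)
        rw [sub_nonneg, div_le_iff₀ (by positivity)]
        have h2 : f' s ≤ r s * Real.sqrt (2 * f s + ε ^ 2) := by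
          apply le_of_sq_le_sq _ (by positivity)
          rw [mul_pow, Real.sq_sqrt hp.le]
          have h3 := hb s hs
          nlinarith [sq_nonneg (r s), sq_nonneg ε, mul_nonneg (sq_nonneg (r s)) (sq_nonneg ε)]
        linarith
    have h5 := hmono (left_mem_Icc.2 hT) (right_mem_Icc.2 hT) hT
    have hF0 : F 0 = ε := by
      simp only [hF, h0, mul_zero, zero_add]
      exact Real.sqrt_sq hε.le
    have hR0 : R 0 = 0 := by simp [hR]
    have h4 : Real.sqrt (2 * f T) ≤ F T := by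
      apply Real.sqrt_le_sqrt
      have : 0 ≤ ε ^ 2 := by positivity
      linarith
    simp only [hF0, hR0] at h5
    have : R T = ∫ s in (0:ℝ)..T, r s := rfl
    linarith
  exact le_of_forall_pos_le_add key

variable {n : ℕ}

local notation "𝔼" => EuclideanSpace ℝ (Fin n)

theorem continuousOn_speed {h : MetricField n} {V : Set 𝔼} (hR : IsRiemannianOn h V) {γ : ℝ → 𝔼}
    (hγ : ContDiff ℝ 1 γ) {s : Set ℝ} (hs : ∀ t ∈ s, γ t ∈ V) :
    ContinuousOn (fun t => Real.sqrt (quadForm h (γ t) (deriv γ t))) s := by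
  have h1 : ContinuousOn (fun t => gB h (γ t)) s :=
    (contDiffOn_gB hR).continuousOn.comp hγ.continuous.continuousOn hs
  have h2 : Continuous (deriv γ) := hγ.continuous_deriv (by simp)
  have h3 : ContinuousOn (fun t => gB h (γ t) (deriv γ t) (deriv γ t)) s :=
    (h1.clm_apply h2.continuousOn).clm_apply h2.continuousOn
  apply ContinuousOn.sqrt
  exact h3.congr fun t ht => (gB_self h (γ t) (deriv γ t)).symm

/-- **Lower bound along a path.** -/
theorem energy_le_of_path {h : MetricField n} {V : Set 𝔼} (hR : IsRiemannianOn h V)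
    {O : Set 𝔼} (hO : IsOpen O) (hOV : O ⊆ V) {a : 𝔼} (ha : a ∈ O)
    {f : 𝔼 → ℝ} (h0 : f a = 0) (hnn : ∀ b ∈ O, 0 ≤ f b)
    (hd : ∀ b ∈ O, DifferentiableAt ℝ f b ∧ ∀ w, (fderiv ℝ f b w) ^ 2 ≤ 2 * f b * gB h b w w)
    {r : ℝ} (hr : 0 < r) (hK : IsCompact {b ∈ O | 2 * f b ≤ r ^ 2})
    {γ : ℝ → 𝔼} (hγ : ContDiff ℝ 1 γ) (hV : ∀ t ∈ Icc (0:ℝ) 1, γ t ∈ V) (hγ0 : γ 0 = a)
    (hlen : curveLength h γ < r) :
    γ 1 ∈ O ∧ Real.sqrt (2 * f (γ 1)) ≤ curveLength h γ := by
  set K : Set 𝔼 := {b ∈ O | 2 * f b ≤ r ^ 2} with hKdef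
  have haK : a ∈ K := ⟨ha, by rw [h0, mul_zero]; positivity⟩
  have hKO : K ⊆ O := fun b hb => hb.1
  have hKc : IsClosed K := hK.isClosed
  have hLC := isLC_of_isRiemannianOn hR
  have hsp := continuousOn_speed hR hγ (s := Icc 0 1) hV
  have hlenle : ∀ t ∈ Icc (0:ℝ) 1, (∫ s in (0:ℝ)..t, Real.sqrt (quadForm h (γ s) (deriv γ s))) ≤
      curveLength h γ := by
    intro t ht
    unfold curveLength
    have hi : IntervalIntegrable (fun s => Real.sqrt (quadForm h (γ s) (deriv γ s))) volume 0 1 := by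
      apply ContinuousOn.intervalIntegrable
      rwa [uIcc_of_le zero_le_one]
    exact intervalIntegral.integral_mono_interval le_rfl ht.1 ht.2
      (Filter.Eventually.of_forall fun s => Real.sqrt_nonneg _) hi
  -- estimate on intervals that stay in K
  have hest : ∀ t ∈ Icc (0:ℝ) 1, (∀ s ∈ Icc (0:ℝ) t, γ s ∈ K) →
      Real.sqrt (2 * f (γ t)) ≤ curveLength h γ := by
    intro t ht hin
    have hin' : ∀ s ∈ Icc (0:ℝ) t, γ s ∈ O := fun s hs' => hKO (hin s hs')
    have hdiff : ∀ s ∈ Icc (0:ℝ) t, HasDerivAt (fun s => f (γ s))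
        (fderiv ℝ f (γ s) (deriv γ s)) s := by
      intro s hs'
      exact (hd _ (hin' s hs')).1.hasFDerivAt.comp_hasDerivAt s
        (hγ.differentiable (by simp) s).hasDerivAt
    refine le_trans (sqrt_two_mul_le_integral (f := fun s => f (γ s))
      (f' := fun s => fderiv ℝ f (γ s) (deriv γ s))
      (r := fun s => Real.sqrt (quadForm h (γ s) (deriv γ s))) ht.1 ?_ ?_ ?_ ?_ ?_ ?_ ?_) (hlenle t ht)
    · simp only [hγ0, h0]
    · intro s hs'
      exact hnn _ (hin' s hs')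
    · intro s hs'
      exact (hdiff s hs').continuousAt.continuousWithinAt
    · intro s hs'
      exact hdiff s (Ioo_subset_Icc_self hs')
    · exact hsp.mono (Icc_subset_Icc le_rfl ht.2)
    · intro s _; exact Real.sqrt_nonneg _
    · intro s hs'
      have h1 := hin' s (Ioo_subset_Icc_self hs')
      refine ((hd _ h1).2 _).trans ?_
      have h2 : 0 ≤ quadForm h (γ s) (deriv γ s) := by
        rw [← gB_self]; exact hLC.nonneg (hOV h1) _
      rw [Real.sq_sqrt h2, ← gB_self]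
  -- continuity induction
  have hsub : Icc (0:ℝ) 1 ⊆ γ ⁻¹' K := by
    have hcl : IsClosed (γ ⁻¹' K ∩ Icc 0 1) :=
      (hKc.preimage hγ.continuous).inter isClosed_Icc
    apply hcl.Icc_subset_of_forall_mem_nhdsGT_of_Icc_subset
    · change γ 0 ∈ K
      rw [hγ0]
      exact haK
    · rintro t ⟨ht0, ht1⟩ hin
      have h1 := hest t ⟨ht0, ht1.le⟩ hin
      have h3 := hin (right_mem_Icc.2 ht0)
      have h4 : Real.sqrt (2 * f (γ t)) < r := lt_of_le_of_lt h1 hlen
      have h5 : 2 * f (γ t) < r ^ 2 := by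
        rwa [Real.sqrt_lt' hr] at h4
      have hc1 : ContinuousAt γ t := hγ.continuous.continuousAt
      have hc3 : ContinuousAt (fun s => 2 * f (γ s)) t := by
        have : ContinuousAt f (γ t) := (hd _ (hKO h3)).1.continuousAt
        exact continuousAt_const.mul (ContinuousAt.comp (g := f) (f := γ) this hc1)
      have : γ ⁻¹' K ∈ 𝓝 t := by
        filter_upwards [hc1.eventually_mem (hO.mem_nhds (hKO h3)), hc3.eventually_lt_const h5]
          with s a2 a3
        exact ⟨a2, a3.le⟩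
      exact mem_nhdsWithin_of_mem_nhds this
  exact ⟨hKO (hsub (right_mem_Icc.2 zero_le_one)),
    hest 1 (right_mem_Icc.2 zero_le_one) fun s hs' => hsub hs'⟩

/-- the radial path as an admissible path -/
theorem riemDist_le_radial {h : MetricField n} {V : Set 𝔼} (hR : IsRiemannianOn h V) {x : 𝔼}
    (L : LocGeo V (gB h) (Gam h) x) {a v : 𝔼} (ha : a ∈ L.W) (hv : gB h a v v < L.ρ ^ 2) :
    riemDist h V a (L.Ex (a, v)) ≤ Real.sqrt (gB h a v v) := by
  have hLC := isLC_of_isRiemannianOn hR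
  have haV : a ∈ V := L.W_sub ha
  set θ : ℝ → ℝ := Real.smoothTransition with hθ
  have hθd : ContDiff ℝ ∞ θ := Real.smoothTransition.contDiff
  have hθ0 : ∀ t, 0 ≤ θ t := Real.smoothTransition.nonneg
  have hθ1 : ∀ t, θ t ≤ 1 := Real.smoothTransition.le_one
  have habs : ∀ t, |θ t| ≤ 1 := fun t => by rw [abs_of_nonneg (hθ0 t)]; exact hθ1 t
  have hsm : ∀ c : ℝ, |c| ≤ 1 → gB h a (c • v) (c • v) < L.ρ ^ 2 := by
    intro c hc
    have h0 := hLC.nonneg haV v
    simp only [map_smul, smul_apply, smul_eq_mul]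
    have hc2 : c * c ≤ 1 := by nlinarith [abs_nonneg c, abs_mul_abs_self c]
    nlinarith [mul_nonneg (sub_nonneg.2 hc2) h0]
  set γ : ℝ → 𝔼 := fun t => L.Ex (a, θ t • v) with hγ
  have hγd : ContDiff ℝ 1 γ := by
    rw [contDiff_iff_contDiffAt]
    intro t
    have h1 := L.Ex_smooth a ha (θ t • v) (hsm _ (habs t))
    have h2 : ContDiffAt ℝ ∞ (fun t : ℝ => ((a, θ t • v) : 𝔼 × 𝔼)) t :=
      contDiffAt_const.prodMk (hθd.contDiffAt.smul contDiffAt_const)
    exact (h1.comp t h2).of_le (by exact_mod_cast le_top)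
  have hγ0 : γ 0 = a := by
    simp only [hγ, hθ, Real.smoothTransition.zero, zero_smul]
    exact L.Ex_zero a ha
  have hγ1 : γ 1 = L.Ex (a, v) := by
    simp only [hγ, hθ, Real.smoothTransition.one, one_smul]
  have hγV : ∀ t ∈ Icc (0:ℝ) 1, γ t ∈ V := fun t _ => L.Ex_mem a ha _ (hsm _ (habs t))
  have hder : ∀ t, HasDerivAt γ (deriv θ t • L.vel (θ t) (a, v)) t := by
    intro t
    have h1 := L.hasDerivAt_Ex a ha v hv (θ t) (habs t)
    have h2 : HasDerivAt θ (deriv θ t) t := (hθd.differentiable (by simp) t).hasDerivAt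
    exact h1.scomp t h2
  have hθ' : ∀ t, 0 ≤ deriv θ t := fun t => (Real.smoothTransition.monotone).deriv_nonneg
  have hspeed : ∀ t, Real.sqrt (quadForm h (γ t) (deriv γ t)) =
      deriv θ t * Real.sqrt (gB h a v v) := by
    intro t
    rw [(hder t).deriv, ← gB_self]
    simp only [map_smul, smul_apply, smul_eq_mul]
    rw [← mul_assoc, hγ]
    simp only
    rw [L.speed a ha v hv (θ t) (habs t), Real.sqrt_mul (mul_self_nonneg _),
      Real.sqrt_mul_self (hθ' t)]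
  have hlen : curveLength h γ = Real.sqrt (gB h a v v) := by
    unfold curveLength
    simp only [hspeed]
    rw [intervalIntegral.integral_mul_const]
    have : ∫ t in (0:ℝ)..1, deriv θ t = θ 1 - θ 0 := by
      apply intervalIntegral.integral_deriv_eq_sub
      · intro t _; exact hθd.differentiable (by simp) t
      · exact (hθd.continuous_deriv (by simp)).intervalIntegrable _ _
    rw [this]
    simp [hθ, Real.smoothTransition.zero, Real.smoothTransition.one]
  rw [← hlen]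
  have hbdd : BddBelow (range fun γ : AdmissiblePath V a (L.Ex (a, v)) => curveLength h γ.1) := by
    refine ⟨0, ?_⟩
    rintro _ ⟨γ, rfl⟩
    exact intervalIntegral.integral_nonneg zero_le_one fun t _ => Real.sqrt_nonneg _
  exact ciInf_le hbdd (⟨γ, hγd, hγ0, hγ1, hγV⟩ : AdmissiblePath V a (L.Ex (a, v)))

/-- **Near the diagonal `riemDist = √(2h)`.** -/
theorem riemDist_eq {h : MetricField n} {V : Set 𝔼} (hR : IsRiemannianOn h V) {x : 𝔼}
    (L : LocGeo V (gB h) (Gam h) x) {a v : 𝔼} (ha : a ∈ L.W) (hv : gB h a v v < L.ρ ^ 2) :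
    riemDist h V a (L.Ex (a, v)) = Real.sqrt (gB h a v v) := by
  have hLC := isLC_of_isRiemannianOn hR
  have haV : a ∈ V := L.W_sub ha
  have hρ := L.ρ_pos
  refine le_antisymm (riemDist_le_radial hR L ha hv) ?_
  have hne : Nonempty (AdmissiblePath V a (L.Ex (a, v))) := by
    -- the same radial path; nonemptiness
    set θ : ℝ → ℝ := Real.smoothTransition with hθ
    have hθd : ContDiff ℝ ∞ θ := Real.smoothTransition.contDiff
    have habs : ∀ t, |θ t| ≤ 1 := fun t => by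
      rw [abs_of_nonneg (Real.smoothTransition.nonneg t)]; exact Real.smoothTransition.le_one t
    have hsm : ∀ c : ℝ, |c| ≤ 1 → gB h a (c • v) (c • v) < L.ρ ^ 2 := by
      intro c hc
      have h0 := hLC.nonneg haV v
      simp only [map_smul, smul_apply, smul_eq_mul]
      have hc2 : c * c ≤ 1 := by nlinarith [abs_nonneg c, abs_mul_abs_self c]
      nlinarith [mul_nonneg (sub_nonneg.2 hc2) h0]
    refine ⟨⟨fun t => L.Ex (a, θ t • v), ?_, ?_, ?_, ?_⟩⟩
    · rw [contDiff_iff_contDiffAt]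
      intro t
      have h1 := L.Ex_smooth a ha (θ t • v) (hsm _ (habs t))
      have h2 : ContDiffAt ℝ ∞ (fun t : ℝ => ((a, θ t • v) : 𝔼 × 𝔼)) t :=
        contDiffAt_const.prodMk (hθd.contDiffAt.smul contDiffAt_const)
      exact (h1.comp t h2).of_le (by exact_mod_cast le_top)
    · simp only [hθ, Real.smoothTransition.zero, zero_smul]
      exact L.Ex_zero a ha
    · simp only [hθ, Real.smoothTransition.one, one_smul]
    · exact fun t _ => L.Ex_mem a ha _ (hsm _ (habs t))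
  refine le_ciInf fun γ => ?_
  obtain ⟨γ, hγd, hγ0, hγ1, hγV⟩ := γ
  simp only
  by_contra hcon
  push Not at hcon
  -- set up the energy from `a`
  set O : Set 𝔼 := (fun v => L.Ex (a, v)) '' {v | gB h a v v < L.ρ ^ 2} with hO
  set f : 𝔼 → ℝ := fun b => L.h (a, b) with hf
  have hOo : IsOpen O := L.isOpen_ball a ha L.ρ L.ρ_pos le_rfl
  have hOV : O ⊆ V := by rintro _ ⟨w, hw, rfl⟩; exact L.Ex_mem a ha w hw
  have h00 : gB h a (0 : 𝔼) 0 < L.ρ ^ 2 := by
    simp only [map_zero, zero_apply]; positivity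
  have haO : a ∈ O := ⟨0, h00, L.Ex_zero a ha⟩
  have hfa : f a = 0 := by
    have := L.h_eq a ha 0 h00
    rw [L.Ex_zero a ha] at this
    simp only [hf, this, map_zero, zero_apply, zero_div]
  have hfv : ∀ w, gB h a w w < L.ρ ^ 2 → f (L.Ex (a, w)) = gB h a w w / 2 := fun w hw =>
    L.h_eq a ha w hw
  have hnn : ∀ b ∈ O, 0 ≤ f b := by
    rintro _ ⟨w, hw, rfl⟩
    have := hfv w hw
    simp only at this ⊢
    rw [this]
    have := hLC.nonneg haV w
    positivity
  have hd : ∀ b ∈ O, DifferentiableAt ℝ f b ∧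
      ∀ w, (fderiv ℝ f b w) ^ 2 ≤ 2 * f b * gB h b w w := by
    rintro _ ⟨w, hw, rfl⟩
    simp only
    have hsm := L.h_smooth a ha w hw
    have hcomp : ContDiffAt ℝ ∞ f (L.Ex (a, w)) :=
      ContDiffAt.comp (L.Ex (a, w)) (g := L.h) (f := fun b => (a, b)) hsm
        (contDiffAt_const.prodMk contDiffAt_id)
    refine ⟨hcomp.differentiableAt (by simp), fun η => ?_⟩
    have hder : fderiv ℝ f (L.Ex (a, w)) η = gB h (L.Ex (a, w)) (L.vel 1 (a, w)) η := by
      have h1 : HasFDerivAt L.h (fderiv ℝ L.h (a, L.Ex (a, w))) (a, L.Ex (a, w)) :=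
        (hsm.differentiableAt (by simp)).hasFDerivAt
      have h2 : HasFDerivAt (fun y : 𝔼 => (a, y)) ((0 : 𝔼 →L[ℝ] 𝔼).prod (ContinuousLinearMap.id ℝ 𝔼))
          (L.Ex (a, w)) := (hasFDerivAt_const a _).prodMk (hasFDerivAt_id _)
      have h3 := (h1.comp (L.Ex (a, w)) h2).fderiv
      have h4 : (L.h ∘ fun y : 𝔼 => (a, y)) = f := rfl
      rw [h4] at h3
      rw [h3]
      simp only [ContinuousLinearMap.comp_apply, ContinuousLinearMap.prod_apply,
        zero_apply, ContinuousLinearMap.id_apply]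
      rw [L.h_fderiv a ha w hw 0 η]
      simp
    rw [hder, hfv w hw]
    have hbV := L.Ex_mem a ha w hw
    have hsp := L.speed a ha w hw 1 (by simp)
    rw [one_smul] at hsp
    -- Cauchy-Schwarz
    set G := gB h (L.Ex (a, w)) with hG
    set X := L.vel 1 (a, w) with hX
    have hsymm : G X η = G η X := hLC.g_symm _ hbV X η
    have hcs : ∀ t : ℝ, 0 ≤ G η η * (t * t) + (2 * G X η) * t + G X X := by
      intro t
      have := hLC.nonneg hbV (X + t • η)
      rw [← hG] at this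
      simp only [map_add, map_smul, add_apply, smul_apply, smul_eq_mul] at this
      rw [← hsymm] at this
      nlinarith
    have hdisc := discrim_le_zero hcs
    unfold discrim at hdisc
    rw [← hsp]
    nlinarith
  have hcl : ∀ r, 0 ≤ r → r < L.ρ → IsCompact {b ∈ O | 2 * f b ≤ r ^ 2} := by
    intro r hr0 hr
    have heq : {b ∈ O | 2 * f b ≤ r ^ 2} = (fun v => L.Ex (a, v)) '' {v | gB h a v v ≤ r ^ 2} := by
      ext b
      constructor
      · rintro ⟨⟨w, hw, rfl⟩, h2⟩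
        refine ⟨w, ?_, rfl⟩
        have := hfv w hw
        simp only at h2 this
        rw [this] at h2
        show gB h a w w ≤ r ^ 2
        linarith
      · rintro ⟨w, hw, rfl⟩
        have hw' : gB h a w w ≤ r ^ 2 := hw
        have hw2 : gB h a w w < L.ρ ^ 2 := by nlinarith
        refine ⟨⟨w, hw2, rfl⟩, ?_⟩
        have := hfv w hw2
        simp only at this ⊢
        rw [this]; linarith
    rw [heq]
    exact L.isCompact_closedBall a ha r hr0 hr
  -- choose a radius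
  have hsv : Real.sqrt (gB h a v v) < L.ρ := by
    rw [Real.sqrt_lt' hρ]; exact hv
  have hlen0 : 0 ≤ curveLength h γ :=
    intervalIntegral.integral_nonneg zero_le_one fun t _ => Real.sqrt_nonneg _
  have hrpos : 0 < Real.sqrt (gB h a v v) := lt_of_le_of_lt hlen0 hcon
  have := energy_le_of_path hR hOo hOV haO hfa hnn hd hrpos (hcl _ hrpos.le hsv) hγd hγV hγ0 hcon
  have h2 := this.2
  rw [hγ1, hfv v hv] at h2
  have h3 : 2 * (gB h a v v / 2) = gB h a v v := by ring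
  rw [h3] at h2
  linarith

/-- points near `(x, x)` are joined by short geodesics -/
theorem exists_vec {h : MetricField n} {V : Set 𝔼} (hR : IsRiemannianOn h V) {x : 𝔼}
    (L : LocGeo V (gB h) (Gam h) x) {r : ℝ} (hr : 0 < r) :
    ∀ᶠ q in 𝓝 ((x, x) : 𝔼 × 𝔼), q.1 ∈ L.W ∧
      ∃ v, gB h q.1 v v < L.ρ ^ 2 ∧ gB h q.1 v v < r ^ 2 ∧ L.Ex (q.1, v) = q.2 := by
  have hLC := isLC_of_isRiemannianOn hR
  have hρ := L.ρ_pos
  set m := min L.ρ r with hm
  have hm0 : 0 < m := lt_min hρ hr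
  -- open set of short vectors
  set O : Set (𝔼 × 𝔼) := {z | z.1 ∈ L.W ∧ gB h z.1 z.2 z.2 < m ^ 2} with hO
  have hcont : ContinuousOn (fun z : 𝔼 × 𝔼 => gB h z.1 z.2 z.2) (L.W ×ˢ univ) := by
    have h1 : ContinuousOn (fun z : 𝔼 × 𝔼 => gB h z.1) (L.W ×ˢ univ) :=
      (contDiffOn_gB hR).continuousOn.comp continuous_fst.continuousOn
        (fun z hz => L.W_sub hz.1)
    exact (h1.clm_apply continuous_snd.continuousOn).clm_apply continuous_snd.continuousOn
  have hOo : IsOpen O := by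
    have h1 := hcont.isOpen_inter_preimage (L.isOpen_W.prod isOpen_univ) (isOpen_Iio (a := m ^ 2))
    have h2 : O = L.W ×ˢ univ ∩ (fun z : 𝔼 × 𝔼 => gB h z.1 z.2 z.2) ⁻¹' Iio (m ^ 2) := by
      ext z; simp [hO]
    rw [h2]; exact h1
  have hmρ : m ^ 2 ≤ L.ρ ^ 2 := by
    have : m ≤ L.ρ := min_le_left _ _
    gcongr
  have hmr : m ^ 2 ≤ r ^ 2 := by
    have : m ≤ r := min_le_right _ _
    gcongr
  have himg := L.isOpen_image O hOo (fun z hz => ⟨hz.1, lt_of_lt_of_le hz.2 hmρ⟩)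
  have hmem : ((x, x) : 𝔼 × 𝔼) ∈ (fun z : 𝔼 × 𝔼 => (z.1, L.Ex z)) '' O := by
    refine ⟨(x, 0), ⟨L.mem_W, ?_⟩, ?_⟩
    · simp only [map_zero, zero_apply]; positivity
    · simp only [L.Ex_zero x L.mem_W]
  filter_upwards [himg.mem_nhds hmem] with q hq
  obtain ⟨⟨a, v⟩, ⟨h1, h2⟩, rfl⟩ := hq
  exact ⟨h1, v, lt_of_lt_of_le h2 hmρ, lt_of_lt_of_le h2 hmr, rfl⟩

/-- near `(x,x)`: `riemDist = √(2 h)` -/
theorem riemDist_eq_energy {h : MetricField n} {V : Set 𝔼} (hR : IsRiemannianOn h V) {x : 𝔼}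
    (L : LocGeo V (gB h) (Gam h) x) :
    ∀ᶠ q in 𝓝 ((x, x) : 𝔼 × 𝔼), riemDist h V q.1 q.2 = Real.sqrt (2 * L.h q) ∧ 0 ≤ L.h q := by
  have hLC := isLC_of_isRiemannianOn hR
  filter_upwards [exists_vec hR L one_pos] with q hq
  obtain ⟨hW, v, hv, -, hEx⟩ := hq
  have h1 := riemDist_eq hR L hW hv
  have h2 := L.h_eq q.1 hW v hv
  rw [hEx] at h1 h2
  have h3 := hLC.nonneg (L.W_sub hW) v
  constructor
  · rw [h1, h2]; congr 1; ring
  · show 0 ≤ L.h (q.1, q.2)
    rw [h2]; positivity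

end Crest.Agent.R249.Hin3_615
end

-- ▼ part R249/Hin5_615
section

/-!
# R249 (S0386), leaf T4: curvature `≥ 0` of the smooth limit

`secNumer_nonneg_of_mid`: if `X` is a metric space satisfying the midpoint inequality and
`Φ : ℝⁿ → X` preserves `riemDist h V` near `x ∈ V` (`h` smooth Riemannian on the open set `V`), then
`secNumer h x u w ≥ 0` for all `u, w`.
-/

set_option autoImplicit false
set_option maxSynthPendingDepth 3
set_option linter.unusedSectionVars false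
set_option linter.unusedSimpArgs false
set_option linter.unusedVariables false

open Set Filter Topology MeasureTheory
open scoped ContDiff
open Crest.Agent.R244.CF
open Crest.Agent.R226.GeoLoc577 (LocGeo exists_locGeo)
open Crest.GeometryTopology.CoordMetric Crest.GeometryTopology.ChartCurvature

namespace Crest.Agent.R249.Hin5_615

open Crest.Agent.R249.Hin2_615 Crest.Agent.R249.Hin3_615

variable {n : ℕ}

local notation "𝔼" => EuclideanSpace ℝ (Fin n)

/-- the midpoint inequality (curvature `≥ 0`), a purely metric condition -/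
def MidIneq (X : Type*) [MetricSpace X] : Prop :=
  ∀ p x z m : X, dist x m = dist x z / 2 → dist m z = dist x z / 2 →
    (dist p x ^ 2 + dist p z ^ 2) / 2 - dist x z ^ 2 / 4 ≤ dist p m ^ 2

/-- **T4**. -/
theorem secNumer_nonneg_of_mid {h : MetricField n} {V : Set 𝔼} (hR : IsRiemannianOn h V)
    {X : Type*} [MetricSpace X] (hX : MidIneq X) {Φ : 𝔼 → X} {x : 𝔼} (hx : x ∈ V)
    (hloc : ∀ᶠ q in 𝓝 ((x, x) : 𝔼 × 𝔼), dist (Φ q.1) (Φ q.2) = riemDist h V q.1 q.2) (u w : 𝔼) :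
    0 ≤ secNumer h x u w := by
  have hLC := isLC_of_isRiemannianOn hR
  obtain ⟨L⟩ := exists_locGeo hLC hx
  have hρ := L.ρ_pos
  have hr' := L.r'_pos
  rw [secNumer_eq hR hx]
  refine curv_nonneg_of_midpoint L hLC ?_ u w
  -- neighbourhoods
  obtain ⟨δ, hδ, hB⟩ : ∃ δ > 0, ∀ a ∈ Metric.ball x δ, ∀ b ∈ Metric.ball x δ,
      dist (Φ a) (Φ b) = riemDist h V a b ∧
      (riemDist h V a b = Real.sqrt (2 * L.h (a, b)) ∧ 0 ≤ L.h (a, b)) := by
    have h1 := hloc.and (riemDist_eq_energy hR L)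
    obtain ⟨δ, hδ, hb⟩ := Metric.eventually_nhds_iff.1 h1
    refine ⟨δ, hδ, fun a ha b hb' => hb (y := (a, b)) ?_⟩
    rw [Prod.dist_eq]
    exact max_lt ha hb'
  have hsq : ∀ a ∈ Metric.ball x δ, ∀ b ∈ Metric.ball x δ,
      dist (Φ a) (Φ b) ^ 2 = 2 * L.h (a, b) := by
    intro a ha b hb
    obtain ⟨h1, h2, h3⟩ := hB a ha b hb
    rw [h1, h2, Real.sq_sqrt (by positivity)]
  filter_upwards [Metric.ball_mem_nhds x hδ, L.isOpen_W'.mem_nhds L.mem_W'] with y hy hyW' ξ
  have hyW := L.W'_sub hyW'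
  have hyV := L.W_sub hyW
  have hxB : x ∈ Metric.ball x δ := Metric.mem_ball_self hδ
  -- the two end points tend to `y`
  have hEx : Tendsto (fun t : ℝ => L.Ex (y, t • ξ)) (𝓝 0) (𝓝 y) := by
    have h1 : ContinuousAt L.Ex (y, (0 : 𝔼)) :=
      (L.Ex_smooth y hyW 0 (by simp only [map_zero, zero_apply]; positivity)).continuousAt
    have h2 : Tendsto (fun t : ℝ => ((y, t • ξ) : 𝔼 × 𝔼)) (𝓝 0) (𝓝 (y, (0 : 𝔼))) := by
      have : Continuous (fun t : ℝ => ((y, t • ξ) : 𝔼 × 𝔼)) := by fun_prop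
      simpa using this.tendsto 0
    have h3 := h1.tendsto.comp h2
    rw [L.Ex_zero y hyW] at h3
    exact h3
  have hExn : Tendsto (fun t : ℝ => L.Ex (y, -(t • ξ))) (𝓝 0) (𝓝 y) := by
    have h4 : Tendsto (fun t : ℝ => -t) (𝓝 0) (𝓝 0) := by
      have : Continuous (fun t : ℝ => -t) := continuous_neg
      simpa using this.tendsto 0
    have h5 := hEx.comp h4
    refine h5.congr fun t => ?_
    simp [neg_smul]
  have hsmall : ∀ᶠ t : ℝ in 𝓝 0, t ^ 2 * gB h y ξ ξ < L.r' ^ 2 ∧ 4 * (t ^ 2 * gB h y ξ ξ) < L.ρ ^ 2 := by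
    have hcont : Tendsto (fun t : ℝ => t ^ 2 * gB h y ξ ξ) (𝓝 0) (𝓝 0) := by
      have : Continuous (fun t : ℝ => t ^ 2 * gB h y ξ ξ) := by fun_prop
      simpa using this.tendsto 0
    filter_upwards [hcont.eventually (gt_mem_nhds (show (0 : ℝ) < L.r' ^ 2 by positivity)),
      hcont.eventually (gt_mem_nhds (show (0 : ℝ) < L.ρ ^ 2 / 4 by positivity))] with t h1 h2
    exact ⟨h1, by linarith⟩
  have hBy : Metric.ball x δ ∈ 𝓝 y := Metric.isOpen_ball.mem_nhds hy
  filter_upwards [hEx.eventually hBy, hExn.eventually hBy, hsmall] with t hz1 hz2 hs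
  set v : 𝔼 := t • ξ with hv
  have hgv : gB h y v v = t ^ 2 * gB h y ξ ξ := by
    rw [hv]; simp only [map_smul, smul_apply, smul_eq_mul]; ring
  have hgn : gB h y (-v) (-v) = gB h y v v := by simp
  have hv0 : 0 ≤ gB h y v v := hLC.nonneg hyV v
  have hvr : gB h y v v < L.r' ^ 2 := by rw [hgv]; exact hs.1
  have hr'ρ : L.r' ≤ L.ρ := by have := L.r'_le; linarith
  have hvρ : gB h y v v < L.ρ ^ 2 := by nlinarith
  have hnρ : gB h y (-v) (-v) < L.ρ ^ 2 := by rwa [hgn]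
  have hnr : gB h y (-v) (-v) < L.r' ^ 2 := by rwa [hgn]
  -- distances
  have d1 : dist (Φ y) (Φ (L.Ex (y, v))) = Real.sqrt (gB h y v v) := by
    rw [(hB y hy _ hz1).1, riemDist_eq hR L hyW hvρ]
  have d2 : dist (Φ y) (Φ (L.Ex (y, -v))) = Real.sqrt (gB h y v v) := by
    rw [(hB y hy _ hz2).1, riemDist_eq hR L hyW hnρ, hgn]
  have d3 : dist (Φ (L.Ex (y, -v))) (Φ (L.Ex (y, v))) = 2 * Real.sqrt (gB h y v v) := by
    have hW2 : L.Ex (y, -v) ∈ L.W := L.Ex_mem_W y hyW' (-v) hnr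
    have hseg := L.seg y hyW' v hvr (-1) 1 (by simp) (by simp)
    have hsp := L.speed y hyW v hvρ (-1) (by simp)
    have e1 : ((-1 : ℝ) • v) = -v := by simp
    have e2 : ((1 : ℝ) • v) = v := one_smul _ _
    rw [e1, e2] at hseg
    rw [e1] at hsp
    set X2 : 𝔼 := (1 - (-1) : ℝ) • L.vel (-1) (y, v) with hX2
    have hX2n : gB h (L.Ex (y, -v)) X2 X2 = 4 * gB h y v v := by
      rw [hX2]; simp only [map_smul, smul_apply, smul_eq_mul]
      rw [hsp]; ring
    have hX2ρ : gB h (L.Ex (y, -v)) X2 X2 < L.ρ ^ 2 := by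
      rw [hX2n, hgv]; exact hs.2
    have := riemDist_eq hR L hW2 hX2ρ
    rw [hseg, hX2n] at this
    rw [(hB _ hz2 _ hz1).1, this]
    have h4 : (4 : ℝ) * gB h y v v = 2 ^ 2 * gB h y v v := by ring
    rw [h4, Real.sqrt_mul (by positivity), Real.sqrt_sq (by norm_num)]
  have hmid := hX (Φ x) (Φ (L.Ex (y, -v))) (Φ (L.Ex (y, v))) (Φ y)
    (by rw [dist_comm, d2, d3]; ring) (by rw [d1, d3]; ring)
  rw [hsq x hxB _ hz2, hsq x hxB _ hz1, hsq x hxB y hy, d3, mul_pow, Real.sq_sqrt hv0, hgv] at hmid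
  linarith

end Crest.Agent.R249.Hin5_615
end

-- ▼ part R249/Hin6_615
section

/-!
# R249 (S0386), leaf D4-HINGE: limits

* `alex0_ul` : the four point condition passes to ultralimits `UL q` (helper174).
* `MidIneq.of_alex0`.
* `secNumer_nonneg_of_chart` : a length space with the midpoint inequality has `secNumer h ≥ 0` in
  every smooth infinitesimally scaled chart (form of helper47's `dist_eq_riemDist`).
-/

set_option autoImplicit false

open Set Filter Topology Metric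
open scoped ContDiff
open Crest.GeometryTopology.CoordMetric Crest.GeometryTopology.ChartCurvature

noncomputable section

namespace Crest.Agent.R249.Hin6_615

open Crest.Agent.R249.Hin4_615 Crest.Agent.R249.Hin5_615
open Crest.Agent.R249.Ul174 Crest.Agent.R249.Len47

universe u

/-- the four point condition passes to ultralimits -/
theorem alex0_ul {M : ℕ → Type u} [∀ k, MetricSpace (M k)] {q : ∀ k, M k}
    (h : ∀ᶠ k in om, Alex0 (M k)) : Alex0 (UL q) := by
  intro p x z m t ht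
  obtain ⟨p', hp, rfl⟩ := UL.exists_rep p
  obtain ⟨x', hx, rfl⟩ := UL.exists_rep x
  obtain ⟨z', hz, rfl⟩ := UL.exists_rep z
  obtain ⟨m', hm, rfl⟩ := UL.exists_rep m
  have h1 := UL.tendsto_dist hp hx
  have h2 := UL.tendsto_dist hp hz
  have h3 := UL.tendsto_dist hp hm
  have h4 := UL.tendsto_dist hx hz
  have h5 := UL.tendsto_dist hm hx
  have h6 := UL.tendsto_dist hm hz
  have hQ : Tendsto (fun i => Q4 (x' i) (z' i) (m' i) t) om
      (𝓝 (Q4 (UL.mk x' hx) (UL.mk z' hz) (UL.mk m' hm) t)) := by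
    unfold Q4
    exact (((h5.pow 2).const_mul _).add ((h6.pow 2).const_mul _)).sub ((h4.pow 2).const_mul _)
  constructor
  · refine ge_of_tendsto hQ ?_
    filter_upwards [h] with i hi using (hi (p' i) (x' i) (z' i) (m' i) t ht).1
  · refine le_of_tendsto_of_tendsto ?_ ?_
      (h.mono fun i hi => (hi (p' i) (x' i) (z' i) (m' i) t ht).2)
    · exact (((h1.pow 2).const_mul _).add ((h2.pow 2).const_mul _)).sub ((h4.pow 2).const_mul _)
    · exact (h3.add (hQ.sqrt)).pow 2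

theorem MidIneq.of_alex0 {X : Type*} [MetricSpace X] (h : Alex0 X) : MidIneq X :=
  fun _ _ _ _ h1 h2 => h.mid h1 h2

/-- midpoint inequality of ultralimits -/
theorem midIneq_ul {M : ℕ → Type u} [∀ k, MetricSpace (M k)] {q : ∀ k, M k}
    (h : ∀ᶠ k in om, Alex0 (M k)) : MidIneq (UL q) := MidIneq.of_alex0 (alex0_ul h)

variable {n : ℕ} {X : Type*} [MetricSpace X]

local notation "𝔼" => EuclideanSpace ℝ (Fin n)

/-- **curvature `≥ 0` in smooth charts** (homeomorphism form): `e` an open partial homeomorphism and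
`dist = riemDist h e.target` locally. -/
theorem secNumer_nonneg_of_local (hX : MidIneq X) {e : OpenPartialHomeomorph X 𝔼}
    {h : MetricField n} (hR : IsRiemannianOn h e.target)
    (hloc : ∀ z ∈ e.source, ∃ ρ > 0, ∀ x ∈ ball z ρ, ∀ y ∈ ball z ρ,
      dist x y = riemDist h e.target (e x) (e y)) {a : 𝔼} (ha : a ∈ e.target) (v w : 𝔼) :
    0 ≤ secNumer h a v w := by
  have hz : e.symm a ∈ e.source := e.map_target ha
  obtain ⟨ρ, hρ, hd⟩ := hloc (e.symm a) hz
  refine secNumer_nonneg_of_mid hR hX (Φ := e.symm) ha ?_ v w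
  have hc : ContinuousAt e.symm a := e.continuousAt_symm ha
  have h1 : ∀ᶠ b in 𝓝 a, e.symm b ∈ ball (e.symm a) ρ ∧ b ∈ e.target :=
    (hc.eventually (ball_mem_nhds _ hρ)).and (e.open_target.mem_nhds ha)
  rw [nhds_prod_eq]
  filter_upwards [h1.prod_mk h1] with q hq
  have := hd _ hq.1.1 _ hq.2.1
  rw [e.right_inv hq.1.2, e.right_inv hq.2.2] at this
  exact this

/-- **curvature `≥ 0` in smooth charts** of a length space. -/
theorem secNumer_nonneg_of_chart (hX : MidIneq X) (hC : ChainLen X)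
    {e : OpenPartialHomeomorph X 𝔼} {h : MetricField n} (hR : IsRiemannianOn h e.target)
    (hs : InfScale e h) {a : 𝔼} (ha : a ∈ e.target) (v w : 𝔼) : 0 ≤ secNumer h a v w := by
  refine secNumer_nonneg_of_local hX hR (fun z hz => ?_) ha v w
  obtain ⟨ρ, hρ, -, hd⟩ := dist_eq_riemDist hC (ContMetric.of_riem hR) hs hz
  exact ⟨ρ, hρ, hd⟩

end Crest.Agent.R249.Hin6_615
end
end

-- ▼ part R249/Fin1_832

/-!
# R249, D3-LIM/FIN (helper832): `RThm` from the closed statements of helper41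

* `SysStmt` : `HData, AvOut, ChOut, SpOut, MsOut, StOut ⟹ LOut` (leaves BD + L-A);
* `RegStmt` : regularity of the limit system (leaf REG + RIC), Euclidean;
* `WhStmt`  : harmonic functions in the limit (leaf WH);
* `rthm_of` : `RThm`.
-/

set_option autoImplicit false
set_option maxSynthPendingDepth 3
noncomputable section
open Set Filter Topology Bundle MeasureTheory Metric
open scoped ContDiff Manifold ENNReal NNReal Matrix
open Crest.GeometryTopology.CoordMetric Crest.GeometryTopology.ChartCurvature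
  Crest.GeometryTopology.RicciEnergy Crest.GeometryTopology.PointedLimit
open Crest.Agent.R247.Bo84
open Crest.Agent.R249.D1Def104 Crest.Agent.R249.Ul174 Crest.Agent.R249.Len47
open Crest.Agent.R249.AsmD832 Crest.Agent.R249.LimDef41
open Crest.Agent.R249.LPt_191 (N1)

namespace Crest.Agent.R249.Fin832

local notation "𝔼" => EuclideanSpace ℝ (Fin 4)

/-- the limit system (BD + L-A) -/
def SysStmt : Prop := ∃ ε₁ δ₁ : ℝ, 0 < ε₁ ∧ 0 < δ₁ ∧
  ∀ (M : ℕ → Type) [∀ k, MetricSpace (M k)] [∀ k, CompleteSpace (M k)]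
    [∀ k, ConnectedSpace (M k)] [∀ k, ChartedSpace (EuclideanSpace ℝ (Fin 4)) (M k)]
    [∀ k, IsManifold 𝓘(ℝ, EuclideanSpace ℝ (Fin 4)) ∞ (M k)]
    [∀ k, RiemannianBundle (fun x : M k => TangentSpace 𝓘(ℝ, EuclideanSpace ℝ (Fin 4)) x)]
    [∀ k, IsContMDiffRiemannianBundle 𝓘(ℝ, EuclideanSpace ℝ (Fin 4)) ∞ (EuclideanSpace ℝ (Fin 4))
      (fun x : M k => TangentSpace 𝓘(ℝ, EuclideanSpace ℝ (Fin 4)) x)]
    [∀ k, IsRiemannianManifold 𝓘(ℝ, EuclideanSpace ℝ (Fin 4)) (M k)]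
    [∀ k, MeasurableSpace (M k)] [∀ k, BorelSpace (M k)]
    (q : ∀ k, M k) (x : ∀ k, M k) (hx : Bd q x) (ρ α C C' ε δ lam : ℝ) (lamk : ℕ → ℝ)
    (u : ∀ k, Fin 4 → M k → ℝ) (h : UL q → Matrix (Fin 4) (Fin 4) ℝ) (r₀ : ℝ)
    (U : UL q → EuclideanSpace ℝ (Fin 4))
    (e : OpenPartialHomeomorph (UL q) (EuclideanSpace ℝ (Fin 4))), δ ≤ δ₁ →
    HData x ρ α C ε δ lam lamk u → AvOut x hx ρ α C' ε₁ u h → ChOut x hx ρ u h r₀ U e →
    SpOut x u r₀ e → MsOut x u h r₀ e → StOut x u h r₀ e →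
    ∃ (H : Fin 4 → Fin 4 → Fin 4 → 𝔼 → ℝ) (C'' : ℝ),
      (∀ x ∈ e.target, ∀ y ∈ e.target, ∀ a b,
        |h (e.symm x) a b - h (e.symm y) a b| ≤ C'' * dist x y ^ α) ∧
      Lim41.LOut e.target (fun y => h (e.symm y)) H lam C'' α

/-- regularity of the limit system (REG + RIC), Euclidean -/
def RegStmt : Prop := ∀ (Ω : Set 𝔼) (h : 𝔼 → Matrix (Fin 4) (Fin 4) ℝ)
  (H : Fin 4 → Fin 4 → Fin 4 → 𝔼 → ℝ) (lam C α : ℝ), IsOpen Ω → 2 / 3 < α → α < 1 → 0 ≤ lam →
  (∀ y ∈ Ω, ∀ a b, h y a b = h y b a) → (∀ y ∈ Ω, N1 (h y - 1) ≤ 1 / 8) →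
  (∀ x ∈ Ω, ∀ y ∈ Ω, ∀ a b, |h x a b - h y a b| ≤ C * dist x y ^ α) →
  Lim41.LOut Ω h H lam C α →
  (∀ a b, ContDiffOn ℝ ∞ (fun y => h y a b) Ω) ∧
    ∀ x ∈ Ω, ∀ i j, ricci (fun y => (h y)⁻¹) x i j = lam * (h x)⁻¹ i j

/-- limits of harmonic functions are weakly harmonic -/
def WhStmt : Prop := ∃ ε₁ δ₁ : ℝ, 0 < ε₁ ∧ 0 < δ₁ ∧
  ∀ (M : ℕ → Type) [∀ k, MetricSpace (M k)] [∀ k, CompleteSpace (M k)]
    [∀ k, ConnectedSpace (M k)] [∀ k, ChartedSpace (EuclideanSpace ℝ (Fin 4)) (M k)]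
    [∀ k, IsManifold 𝓘(ℝ, EuclideanSpace ℝ (Fin 4)) ∞ (M k)]
    [∀ k, RiemannianBundle (fun x : M k => TangentSpace 𝓘(ℝ, EuclideanSpace ℝ (Fin 4)) x)]
    [∀ k, IsContMDiffRiemannianBundle 𝓘(ℝ, EuclideanSpace ℝ (Fin 4)) ∞ (EuclideanSpace ℝ (Fin 4))
      (fun x : M k => TangentSpace 𝓘(ℝ, EuclideanSpace ℝ (Fin 4)) x)]
    [∀ k, IsRiemannianManifold 𝓘(ℝ, EuclideanSpace ℝ (Fin 4)) (M k)]
    [∀ k, MeasurableSpace (M k)] [∀ k, BorelSpace (M k)]
    (q : ∀ k, M k) (x : ∀ k, M k) (hx : Bd q x) (ρ α C C' ε δ lam : ℝ) (lamk : ℕ → ℝ)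
    (u : ∀ k, Fin 4 → M k → ℝ) (h : UL q → Matrix (Fin 4) (Fin 4) ℝ) (r₀ : ℝ)
    (U : UL q → EuclideanSpace ℝ (Fin 4))
    (e : OpenPartialHomeomorph (UL q) (EuclideanSpace ℝ (Fin 4))), δ ≤ δ₁ →
    HData x ρ α C ε δ lam lamk u → AvOut x hx ρ α C' ε₁ u h → ChOut x hx ρ u h r₀ U e →
    SpOut x u r₀ e → MsOut x u h r₀ e → StOut x u h r₀ e →
    ∀ Ch : RChart 4 (UL q) lam, Ch.e = e → Ch.h = hInv h e →
      HarmChart 4 Ch.e ∧ CoordHarm Ch ∧ WH 4 Ch

/-! ### linear algebra -/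

/-- a symmetric matrix near `1` is positive definite -/
theorem posDef_of_near {n : ℕ} {A : Matrix (Fin n) (Fin n) ℝ} (hs : ∀ a b, A a b = A b a)
    (hn : N1 (A - 1) ≤ 1 / 8) : A.PosDef := by
  refine Matrix.PosDef.of_dotProduct_mulVec_pos ?_ fun v hv => ?_
  · ext a b
    simp [Matrix.conjTranspose_apply, hs a b]
  · simp only [star_trivial]
    have h1 : v ⬝ᵥ A *ᵥ v = v ⬝ᵥ v + v ⬝ᵥ (A - 1) *ᵥ v := by
      rw [Matrix.sub_mulVec, Matrix.one_mulVec, dotProduct_sub]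
      ring
    have h2 : 0 < v ⬝ᵥ v := by
      have h6 : 0 ≤ v ⬝ᵥ v := Finset.sum_nonneg fun i _ => mul_self_nonneg _
      exact lt_of_le_of_ne h6 fun h7 => hv (dotProduct_self_eq_zero.1 h7.symm)
    have h3 : |v ⬝ᵥ (A - 1) *ᵥ v| ≤ N1 (A - 1) * (v ⬝ᵥ v) := by
      have e1 : v ⬝ᵥ (A - 1) *ᵥ v = ∑ a, ∑ b, (A - 1) a b * (v a * v b) := by
        simp only [dotProduct, Matrix.mulVec, Finset.mul_sum]
        refine Finset.sum_congr rfl fun a _ => Finset.sum_congr rfl fun b _ => ?_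
        ring
      rw [e1]
      refine (Finset.abs_sum_le_sum_abs _ _).trans ?_
      unfold N1
      rw [Finset.sum_mul]
      refine Finset.sum_le_sum fun a _ => ?_
      refine (Finset.abs_sum_le_sum_abs _ _).trans ?_
      rw [Finset.sum_mul]
      refine Finset.sum_le_sum fun b _ => ?_
      rw [abs_mul]
      refine mul_le_mul_of_nonneg_left ?_ (abs_nonneg _)
      have ha : v a ^ 2 ≤ v ⬝ᵥ v := by
        simp only [dotProduct]
        rw [sq]
        exact Finset.single_le_sum (f := fun i => v i * v i) (fun i _ => mul_self_nonneg _)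
          (Finset.mem_univ a)
      have hb : v b ^ 2 ≤ v ⬝ᵥ v := by
        simp only [dotProduct]
        rw [sq]
        exact Finset.single_le_sum (f := fun i => v i * v i) (fun i _ => mul_self_nonneg _)
          (Finset.mem_univ b)
      rw [abs_mul]
      nlinarith [sq_nonneg (|v a| - |v b|), sq_abs (v a), sq_abs (v b)]
    rw [h1]
    have h4 := (abs_le.1 h3).1
    have h5 : N1 (A - 1) * (v ⬝ᵥ v) ≤ 1 / 8 * (v ⬝ᵥ v) := mul_le_mul_of_nonneg_right hn h2.le
    linarith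

/-- smoothness of the entries of the inverse -/
theorem contDiffOn_inv_of {n : ℕ} {Ω : Set (EuclideanSpace ℝ (Fin n))}
    {h : EuclideanSpace ℝ (Fin n) → Matrix (Fin n) (Fin n) ℝ}
    (hs : ∀ a b, ContDiffOn ℝ ∞ (fun y => h y a b) Ω) (hd : ∀ y ∈ Ω, (h y).det ≠ 0) (a b : Fin n) :
    ContDiffOn ℝ ∞ (fun y => (h y)⁻¹ a b) Ω := by
  have h1 : ContDiffOn ℝ ∞ (fun y => (h y).det) Ω := by
    simp only [Matrix.det_apply]
    refine ContDiffOn.sum fun σ _ => ?_
    refine ContDiffOn.const_smul _ ?_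
    exact contDiffOn_prod fun i _ => hs _ _
  have h2 : ContDiffOn ℝ ∞ (fun y => (h y).adjugate a b) Ω := by
    simp only [Matrix.adjugate_apply, Matrix.det_apply]
    refine ContDiffOn.sum fun σ _ => ?_
    refine ContDiffOn.const_smul _ ?_
    refine contDiffOn_prod fun i _ => ?_
    by_cases hi : σ i = b
    · rw [hi]
      simp only [Matrix.updateRow_self]
      exact contDiffOn_const
    · simp only [Matrix.updateRow_ne hi]
      exact hs _ _
  have h3 : ∀ y ∈ Ω, (h y)⁻¹ a b = ((h y).det)⁻¹ * (h y).adjugate a b := by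
    intro y hy
    rw [Matrix.inv_def, Matrix.smul_apply, Ring.inverse_eq_inv', smul_eq_mul]
  exact ((h1.inv hd).mul h2).congr h3

end Crest.Agent.R249.Fin832
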