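import Crest.Agent.R249.RegKer_717
import Mathlib

-- ▼ part R249/RegKerB_717
section

/-!
Row 249, leaf D3-REG (helper717), file 2: scaled and linearly adapted kernels
`Ker T s ψ x = |det T| s^{-n} ψ (s⁻¹ T x)`.
-/

set_option autoImplicit false
open scoped ContDiff ENNReal Topology
open MeasureTheory Set Filter
open Crest.GeometryTopology.CoordMetric

namespace Crest.Agent.R249.RegKer_717

open Crest.Agent.R202.Ell

noncomputable section

variable {n : ℕ}

/-- the adapted kernel -/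
def Ker (T : EE n →L[ℝ] EE n) (s : ℝ) (ψ : EE n → ℝ) (x : EE n) : ℝ :=
  |T.det| * (s⁻¹) ^ n * ψ (s⁻¹ • T x)

/-- matrix entries of `T` -/
def ent (T : EE n →L[ℝ] EE n) (k i : Fin n) : ℝ := T (EuclideanSpace.single i 1) k

theorem abs_coord_le (x : EE n) (i : Fin n) : |x i| ≤ ‖x‖ := by
  simpa using PiLp.norm_apply_le x i

theorem ent_le (T : EE n →L[ℝ] EE n) (k i : Fin n) : |ent T k i| ≤ ‖T‖ := by
  calc |ent T k i| ≤ ‖T (EuclideanSpace.single i 1)‖ := abs_coord_le _ _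
    _ ≤ ‖T‖ * ‖(EuclideanSpace.single i 1 : EE n)‖ := T.le_opNorm _
    _ = ‖T‖ := by simp

/-- a linear functional in coordinates -/
theorem clm_eq_sum (L : EE n →L[ℝ] ℝ) (z : EE n) :
    L z = ∑ k, z k * L (EuclideanSpace.single k 1) := by
  have hz : z = ∑ k, z k • (EuclideanSpace.single k (1 : ℝ) : EE n) := by
    ext j
    simp [Pi.single_apply]
  conv_lhs => rw [hz]
  rw [map_sum]
  simp

theorem ker_test {T : EE n →L[ℝ] EE n} {s : ℝ} {ψ : EE n → ℝ} (hs : 0 < s)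
    (hψ : IsTest ψ) {c : ℝ} (hT : ∀ x, ‖x‖ ≤ c * ‖T x‖) : IsTest (Ker T s ψ) := by
  refine ⟨?_, ?_⟩
  · have h1 : ContDiff ℝ ∞ (fun x : EE n => s⁻¹ • T x) := (s⁻¹ • T).contDiff
    exact contDiff_const.mul (hψ.smooth.comp h1)
  · have hcpt : IsCompact (tsupport ψ) := hψ.cpt
    obtain ⟨R, hR⟩ := hcpt.isBounded.exists_norm_le
    refine HasCompactSupport.intro (isCompact_closedBall (0 : EE n) (|c| * (s * |R|))) fun x hx => ?_
    have h0 : ψ (s⁻¹ • T x) = 0 := by
      by_contra h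
      have h1 : s⁻¹ • T x ∈ tsupport ψ := subset_tsupport _ h
      have h2 := hR _ h1
      rw [norm_smul, norm_inv, Real.norm_eq_abs, abs_of_pos hs] at h2
      have h3 : ‖T x‖ ≤ s * |R| := by
        have := mul_le_mul_of_nonneg_left (h2.trans (le_abs_self R)) hs.le
        rwa [← mul_assoc, mul_inv_cancel₀ hs.ne', one_mul] at this
      have h4 : ‖x‖ ≤ |c| * (s * |R|) :=
        (hT x).trans ((mul_le_mul_of_nonneg_right (le_abs_self c) (norm_nonneg _)).trans
          (mul_le_mul_of_nonneg_left h3 (abs_nonneg _)))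
      exact hx (by simpa using h4)
    simp [Ker, h0]

/-- support of the kernel -/
theorem ker_supp {T : EE n →L[ℝ] EE n} {s : ℝ} {ψ : EE n → ℝ} (hs : 0 < s)
    (hψ : ∀ x, 1 ≤ ‖x‖ → ψ x = 0) {c : ℝ} (hc : 0 < c) (hT : ∀ x, ‖x‖ ≤ c * ‖T x‖) {x : EE n}
    (hx : c * s ≤ ‖x‖) : Ker T s ψ x = 0 := by
  have h1 : s ≤ ‖T x‖ := by
    have := hx.trans (hT x)
    exact le_of_mul_le_mul_left this hc
  have h2 : 1 ≤ ‖s⁻¹ • T x‖ := by
    rw [norm_smul, norm_inv, Real.norm_eq_abs, abs_of_pos hs, ← div_eq_inv_mul, le_div_iff₀ hs]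
    linarith
  simp [Ker, hψ _ h2]

theorem ker_bound {T : EE n →L[ℝ] EE n} {s : ℝ} {ψ : EE n → ℝ} (hs : 0 < s) {D M : ℝ}
    (hD : |T.det| ≤ D) (hM : ∀ x, |ψ x| ≤ M) (x : EE n) :
    |Ker T s ψ x| ≤ D * (s⁻¹) ^ n * M := by
  rw [Ker, abs_mul, abs_mul, abs_abs, abs_pow, abs_inv, abs_of_pos hs]
  have h0 : 0 ≤ D := (abs_nonneg _).trans hD
  exact mul_le_mul (mul_le_mul_of_nonneg_right hD (by positivity)) (hM _) (abs_nonneg _)
    (by positivity)

/-- partial derivatives of the kernel -/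
theorem pderiv_ker {T : EE n →L[ℝ] EE n} {s : ℝ} {ψ : EE n → ℝ} (hψ : Differentiable ℝ ψ)
    (i : Fin n) (x : EE n) :
    pderiv i (Ker T s ψ) x = s⁻¹ * ∑ k, ent T k i * Ker T s (pderiv k ψ) x := by
  have h1 : HasFDerivAt (fun x : EE n => s⁻¹ • T x) (s⁻¹ • T) x :=
    (T.hasFDerivAt (x := x)).const_smul s⁻¹
  have h2 : HasFDerivAt (fun x : EE n => ψ (s⁻¹ • T x)) ((fderiv ℝ ψ (s⁻¹ • T x)).comp (s⁻¹ • T)) x :=
    (hψ _).hasFDerivAt.comp x h1
  have h3 : HasFDerivAt (Ker T s ψ)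
      ((|T.det| * (s⁻¹) ^ n) • ((fderiv ℝ ψ (s⁻¹ • T x)).comp (s⁻¹ • T))) x :=
    h2.const_mul _
  unfold pderiv
  rw [h3.fderiv]
  have h4 : (fderiv ℝ ψ (s⁻¹ • T x)) (T (EuclideanSpace.single i 1))
      = ∑ k, ent T k i * pderiv k ψ (s⁻¹ • T x) := by
    rw [clm_eq_sum]; rfl
  simp only [_root_.smul_apply, ContinuousLinearMap.comp_apply, map_smul, smul_eq_mul,
    h4, Ker]
  rw [Finset.mul_sum, Finset.mul_sum, Finset.mul_sum]
  refine Finset.sum_congr rfl fun k _ => ?_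
  unfold pderiv
  ring

theorem ker_lin_sum {T : EE n →L[ℝ] EE n} {s : ℝ} {ι : Type*} (t : Finset ι) (c : ι → ℝ)
    (ψ : ι → EE n → ℝ) (x : EE n) :
    Ker T s (fun y => ∑ j ∈ t, c j * ψ j y) x = ∑ j ∈ t, c j * Ker T s (ψ j) x := by
  simp only [Ker, Finset.mul_sum]
  exact Finset.sum_congr rfl fun j _ => by ring

/-- `T A Tᵗ = 1` in entries -/
def Adapt (A : Fin n → Fin n → ℝ) (T : EE n →L[ℝ] EE n) : Prop :=
  ∀ k l, ∑ i, ∑ j, A i j * ent T k i * ent T l j = if k = l then 1 else 0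

/-- `tr(A D² Ker ψ) = s⁻² Ker (Δ ψ)` -/
theorem adapt_ker {A : Fin n → Fin n → ℝ} {T : EE n →L[ℝ] EE n} (hA : Adapt A T) {s : ℝ}
    {ψ : EE n → ℝ} (hψ : IsTest ψ) (x : EE n) :
    ∑ i, ∑ j, A i j * pderiv i (pderiv j (Ker T s ψ)) x = s⁻¹ ^ 2 * Ker T s (lap ψ) x := by
  have hd : ∀ {φ : EE n → ℝ}, IsTest φ → Differentiable ℝ φ :=
    fun h => h.smooth.differentiable (by simp)
  have h1 : ∀ j, pderiv j (Ker T s ψ) = fun x => s⁻¹ * ∑ k, ent T k j * Ker T s (pderiv k ψ) x :=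
    fun j => funext fun x => pderiv_ker (hd hψ) j x
  have hk : ∀ {φ : EE n → ℝ}, IsTest φ → Differentiable ℝ (Ker T s φ) := fun h => by
    have h1 : ContDiff ℝ ∞ (fun x : EE n => s⁻¹ • T x) := (s⁻¹ • T).contDiff
    have : ContDiff ℝ ∞ (Ker T s _) := contDiff_const.mul (h.smooth.comp h1)
    exact this.differentiable (by simp)
  have h2 : ∀ i j, pderiv i (pderiv j (Ker T s ψ)) x
      = s⁻¹ ^ 2 * ∑ l, ∑ k, ent T k i * ent T l j * Ker T s (pderiv k (pderiv l ψ)) x := by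
    intro i j
    rw [h1 j]
    have h3 : DifferentiableAt ℝ (fun x => ∑ k, ent T k j * Ker T s (pderiv k ψ) x) x :=
      DifferentiableAt.fun_sum fun k _ => ((hk (hψ.pderiv k)) x).const_mul _
    rw [pderiv_const_mul i x _ h3, pderiv_sum _ i x
      (fun k _ => ((hk (hψ.pderiv k)) x).const_mul _)]
    have h4 : ∀ l, pderiv i (fun x => ent T l j * Ker T s (pderiv l ψ) x) x
        = ent T l j * (s⁻¹ * ∑ k, ent T k i * Ker T s (pderiv k (pderiv l ψ)) x) := by
      intro l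
      rw [pderiv_const_mul i x _ ((hk (hψ.pderiv l)) x), pderiv_ker (hd (hψ.pderiv l))]
    simp only [h4]
    rw [Finset.mul_sum, Finset.mul_sum]
    refine Finset.sum_congr rfl fun l _ => ?_
    rw [Finset.mul_sum, Finset.mul_sum, Finset.mul_sum, Finset.mul_sum]
    refine Finset.sum_congr rfl fun k _ => ?_
    ring
  simp only [h2]
  have h5 : Ker T s (lap ψ) x = ∑ k, Ker T s (pderiv k (pderiv k ψ)) x := by
    have := ker_lin_sum (T := T) (s := s) (Finset.univ : Finset (Fin n)) (fun _ => 1)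
      (fun k => pderiv k (pderiv k ψ)) x
    simp only [one_mul] at this
    exact this
  rw [h5]
  have h6 : ∀ l k, ∑ i, ∑ j, A i j * (ent T k i * ent T l j) = if k = l then 1 else 0 := by
    intro l k
    rw [← hA k l]
    exact Finset.sum_congr rfl fun i _ => Finset.sum_congr rfl fun j _ => by ring
  calc ∑ i, ∑ j, A i j * (s⁻¹ ^ 2 * ∑ l, ∑ k, ent T k i * ent T l j *
        Ker T s (pderiv k (pderiv l ψ)) x)
      = s⁻¹ ^ 2 * ∑ l, ∑ k, (∑ i, ∑ j, A i j * (ent T k i * ent T l j)) *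
          Ker T s (pderiv k (pderiv l ψ)) x := by
        simp only [Finset.mul_sum, Finset.sum_mul]
        have e1 : ∀ i : Fin n, ∑ j, ∑ l, ∑ k, A i j * (s⁻¹ ^ 2 * (ent T k i * ent T l j *
            Ker T s (pderiv k (pderiv l ψ)) x)) = ∑ l, ∑ k, ∑ j, A i j * (s⁻¹ ^ 2 *
            (ent T k i * ent T l j * Ker T s (pderiv k (pderiv l ψ)) x)) := by
          intro i
          rw [Finset.sum_comm]
          exact Finset.sum_congr rfl fun l _ => Finset.sum_comm
        simp only [e1]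
        rw [Finset.sum_comm]
        refine Finset.sum_congr rfl fun l _ => ?_
        rw [Finset.sum_comm]
        refine Finset.sum_congr rfl fun k _ => Finset.sum_congr rfl fun i _ =>
          Finset.sum_congr rfl fun j _ => ?_
        ring
    _ = s⁻¹ ^ 2 * ∑ k, Ker T s (pderiv k (pderiv k ψ)) x := by
        congr 1
        simp only [h6]
        refine Finset.sum_congr rfl fun l _ => ?_
        simp

theorem ker_half {T : EE n →L[ℝ] EE n} {s : ℝ} {η : EE n → ℝ} (x : EE n) :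
    Ker T s (fun y => 2 ^ n * η ((2 : ℝ) • y)) x = Ker T (s / 2) η x := by
  have h1 : (s / 2)⁻¹ = 2 * s⁻¹ := by
    rw [inv_div]; ring
  simp only [Ker, h1, mul_pow, mul_smul]
  ring

/-- change of variables -/
theorem integral_ker {T : EE n →L[ℝ] EE n} {s : ℝ} (hs : 0 < s) (hT : T.det ≠ 0)
    (ψ : EE n → ℝ) : ∫ x, Ker T s ψ x = ∫ x, ψ x := by
  set S : EE n →ₗ[ℝ] EE n := s⁻¹ • (T : EE n →ₗ[ℝ] EE n) with hS
  have hdet : LinearMap.det S = (s⁻¹) ^ n * T.det := by
    rw [hS, LinearMap.det_smul]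
    simp [ContinuousLinearMap.det]
  have hdet0 : LinearMap.det S ≠ 0 := by
    rw [hdet]; positivity
  have h1 : ∫ x, ψ x = |LinearMap.det S| * ∫ x, ψ (S x) := by
    have := Measure.map_linearMap_addHaar_eq_smul_addHaar (volume : Measure (EE n)) hdet0
    have hSc : Continuous S := LinearMap.continuous_of_finiteDimensional S
    let e : EE n ≃L[ℝ] EE n := (LinearMap.equivOfDetNeZero S hdet0).toContinuousLinearEquiv
    have he : ∀ x, e x = S x := fun x => rfl
    have h2 : ∫ x, ψ (e x) = ∫ y, ψ y ∂(Measure.map e volume) :=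
      (integral_map_equiv e.toHomeomorph.toMeasurableEquiv ψ).symm
    have h3 : Measure.map e (volume : Measure (EE n)) = Measure.map S volume := by
      congr 1
    rw [h3, this, integral_smul_measure] at h2
    simp only [he] at h2
    rw [h2, ENNReal.toReal_ofReal (abs_nonneg _), smul_eq_mul, ← mul_assoc, abs_inv,
      mul_inv_cancel₀ (abs_pos.2 hdet0).ne', one_mul]
  rw [h1, hdet, ← integral_const_mul]
  refine integral_congr_ae (Filter.Eventually.of_forall fun x => ?_)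
  simp only [Ker]
  rw [abs_mul, abs_of_pos (show (0:ℝ) < (s⁻¹) ^ n by positivity)]
  have : S x = s⁻¹ • T x := rfl
  rw [this]; ring

end

end Crest.Agent.R249.RegKer_717
end

-- ▼ part R249/RegInc_717
section

/-!
Row 249, leaf D3-REG (helper717), file 3: the dyadic increment identity
`cv (Ker T s (Δψ)) w x = s² (∫ B Ker(x-·) + ∑ ∫ (A - a) H ∂Ker(x-·))` for weak solutions of
`∂_j (a_ij ∂_i w) = B` on an open set.
-/

set_option autoImplicit false
open scoped ContDiff ENNReal Topology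
open MeasureTheory Set Filter
open Crest.GeometryTopology.CoordMetric

namespace Crest.Agent.R249.RegKer_717

open Crest.Agent.R202.Ell

noncomputable section

variable {n : ℕ}

/-- `g` is the weak `i`-th derivative of `v` on the open set `U`. -/
def WDOn (U : Set (EE n)) (i : Fin n) (v g : EE n → ℝ) : Prop :=
  ∀ φ : EE n → ℝ, IsTest φ → tsupport φ ⊆ U → ∫ x, v x * pderiv i φ x = - ∫ x, g x * φ x

/-- weak form of `∑ ∂_j (a_ij H_i) = B` on `U`. -/
def WEqOn (U : Set (EE n)) (a : Fin n → Fin n → EE n → ℝ) (H : Fin n → EE n → ℝ)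
    (B : EE n → ℝ) : Prop :=
  ∀ φ : EE n → ℝ, IsTest φ → tsupport φ ⊆ U →
    ∑ i, ∑ j, ∫ x, a i j x * H i x * pderiv j φ x = - ∫ x, B x * φ x

theorem WDOn.mono {U V : Set (EE n)} {i : Fin n} {v g : EE n → ℝ} (h : WDOn U i v g)
    (hV : V ⊆ U) : WDOn V i v g := fun φ hφ hs => h φ hφ (hs.trans hV)

theorem WEqOn.mono {U V : Set (EE n)} {a : Fin n → Fin n → EE n → ℝ} {H : Fin n → EE n → ℝ}
    {B : EE n → ℝ} (h : WEqOn U a H B) (hV : V ⊆ U) : WEqOn V a H B :=
  fun φ hφ hs => h φ hφ (hs.trans hV)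

/-- the reflected kernel is a test function supported in `closedBall x (c s)` -/
theorem tsupport_ker {T : EE n →L[ℝ] EE n} {s : ℝ} {ψ : EE n → ℝ} (hs : 0 < s)
    (hψ : ∀ x, 1 ≤ ‖x‖ → ψ x = 0) {c : ℝ} (hc : 0 < c) (hT : ∀ x, ‖x‖ ≤ c * ‖T x‖) (x : EE n) :
    tsupport (fun t => Ker T s ψ (x - t)) ⊆ Metric.closedBall x (c * s) := by
  refine closure_minimal (fun t ht => ?_) Metric.isClosed_closedBall
  by_contra h
  apply ht
  apply ker_supp hs hψ hc hT
  rw [Metric.mem_closedBall, dist_comm, dist_eq_norm] at h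
  linarith

theorem tsupport_pderiv (φ : EE n → ℝ) (j : Fin n) : tsupport (pderiv j φ) ⊆ tsupport φ := by
  have : Function.support (pderiv j φ) ⊆ tsupport φ := by
    intro x hx
    by_contra h
    apply hx
    have h1 : fderiv ℝ φ x = 0 := by
      have : φ =ᶠ[𝓝 x] (0 : EE n → ℝ) := notMem_tsupport_iff_eventuallyEq.1 h
      rw [this.fderiv_eq]; simp
    unfold pderiv
    rw [h1]; simp
  exact closure_minimal this (isClosed_tsupport _)


theorem int_mul' {g φ : EE n → ℝ} (hg : LocallyIntegrable g) (hφ : IsTest φ) :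
    Integrable (fun x => g x * φ x) := by
  have := hg.integrable_smul_right_of_hasCompactSupport (g := φ) hφ.continuous hφ.cpt
  simpa using this

/-- **The increment identity.** -/
theorem inc {A : Fin n → Fin n → ℝ} {T : EE n →L[ℝ] EE n} (hA : Adapt A T) {c : ℝ} (hc : 0 < c)
    (hT : ∀ x, ‖x‖ ≤ c * ‖T x‖) {U : Set (EE n)}
    {w : EE n → ℝ} {H : Fin n → EE n → ℝ} {a : Fin n → Fin n → EE n → ℝ} {B : EE n → ℝ}
    (hw : LocallyIntegrable w) (hH : ∀ i, LocallyIntegrable (H i))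
    (haH : ∀ i j, LocallyIntegrable (fun x => a i j x * H i x)) 
    (hwd : ∀ i, WDOn U i w (H i)) (heq : WEqOn U a H B)
    {ψ : EE n → ℝ} (hψ : IsTest ψ) (hψ0 : ∀ x, 1 ≤ ‖x‖ → ψ x = 0)
    {s : ℝ} (hs : 0 < s) {x : EE n} (hx : Metric.closedBall x (c * s) ⊆ U) :
    cv (Ker T s (lap ψ)) w x = s ^ 2 * ((∫ t, B t * Ker T s ψ (x - t)) +
      ∑ i, ∑ j, ∫ t, (A i j - a i j t) * H i t * pderiv j (Ker T s ψ) (x - t)) := by
  have hK : IsTest (Ker T s ψ) := ker_test hs hψ hT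
  set P : EE n → ℝ := fun t => Ker T s ψ (x - t) with hP
  have hPt : IsTest P := hK.comp_sub x
  have hPs : tsupport P ⊆ U := (tsupport_ker hs hψ0 hc hT x).trans hx
  have hd1 : ∀ j t, pderiv j P t = - pderiv j (Ker T s ψ) (x - t) := fun j t =>
    pderiv_comp_sub j x t (hK.smooth.differentiable (by simp) _)
  have hd2 : ∀ i j t, pderiv i (pderiv j P) t = pderiv i (pderiv j (Ker T s ψ)) (x - t) := by
    intro i j t
    have e : pderiv j P = fun t => (-1) * pderiv j (Ker T s ψ) (x - t) := by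
      ext t; rw [hd1]; ring
    rw [e, pderiv_const_mul i t (-1) (((hK.pderiv j).comp_sub x).smooth.differentiable (by simp) t),
      pderiv_comp_sub i x t ((hK.pderiv j).smooth.differentiable (by simp) _)]
    ring
  -- step 1
  have h1 : cv (Ker T s (lap ψ)) w x
      = s ^ 2 * ∑ i, ∑ j, A i j * ∫ t, w t * pderiv i (pderiv j P) t := by
    rw [cv_apply]
    have e1 : ∀ t, w t * Ker T s (lap ψ) (x - t)
        = s ^ 2 * ∑ i, ∑ j, A i j * (w t * pderiv i (pderiv j P) t) := by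
      intro t
      have := adapt_ker hA (s := s) hψ (x - t)
      have e2 : Ker T s (lap ψ) (x - t) = s ^ 2 * ∑ i, ∑ j, A i j *
          pderiv i (pderiv j (Ker T s ψ)) (x - t) := by
        rw [this, ← mul_assoc, ← mul_pow, mul_inv_cancel₀ hs.ne', one_pow, one_mul]
      rw [e2]
      simp only [hd2, Finset.mul_sum]
      refine Finset.sum_congr rfl fun i _ => Finset.sum_congr rfl fun j _ => ?_
      ring
    simp only [e1]
    rw [integral_const_mul]
    congr 1
    rw [integral_finsetSum]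
    · refine Finset.sum_congr rfl fun i _ => ?_
      rw [integral_finsetSum]
      · refine Finset.sum_congr rfl fun j _ => ?_
        rw [integral_const_mul]
      · intro j _
        exact (int_mul' hw ((hPt.pderiv j).pderiv i)).const_mul _
    · intro i _
      exact integrable_finsetSum _ fun j _ =>
        (int_mul' hw ((hPt.pderiv j).pderiv i)).const_mul _
  rw [h1]
  congr 1
  -- step 2 : weak derivative
  have h2 : ∀ i j, ∫ t, w t * pderiv i (pderiv j P) t = - ∫ t, H i t * pderiv j P t := fun i j =>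
    hwd i _ (hPt.pderiv j) ((tsupport_pderiv P j).trans hPs)
  have h3 := heq P hPt hPs
  have h4 : ∀ i j, ∫ t, (A i j - a i j t) * H i t * pderiv j (Ker T s ψ) (x - t)
      = - (A i j * ∫ t, H i t * pderiv j P t) + ∫ t, a i j t * H i t * pderiv j P t := by
    intro i j
    have e1 : ∀ t, (A i j - a i j t) * H i t * pderiv j (Ker T s ψ) (x - t)
        = - (A i j * (H i t * pderiv j P t)) + a i j t * H i t * pderiv j P t := by
      intro t; rw [hd1]; ring
    simp only [e1]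
    have i1 : Integrable (fun t => - (A i j * (H i t * pderiv j P t))) :=
      ((int_mul' (hH i) (hPt.pderiv j)).const_mul _).neg
    have i2 : Integrable (fun t => a i j t * H i t * pderiv j P t) :=
      int_mul' (haH i j) (hPt.pderiv j)
    rw [integral_add i1 i2, integral_neg, integral_const_mul]
  simp only [h2, h4, Finset.sum_add_distrib]
  rw [h3]
  simp only [mul_neg, Finset.sum_neg_distrib]
  ring

end

end Crest.Agent.R249.RegKer_717
end

-- ▼ part R249/RegEst_717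
section

/-!
Row 249, leaf D3-REG (helper717), file 4: estimates of the increments.
-/

set_option autoImplicit false
open scoped ContDiff ENNReal Topology
open MeasureTheory Set Filter
open Crest.GeometryTopology.CoordMetric

namespace Crest.Agent.R249.RegKer_717

open Crest.Agent.R202.Ell

noncomputable section

variable {n : ℕ}

/-- bound for an integral against a bounded function supported in a ball -/
theorem int_bound {g k : EE n → ℝ} (hg : LocallyIntegrable g) {x : EE n} {ρ M : ℝ}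
    (hM : ∀ t, |k t| ≤ M) (h0 : ∀ t, t ∉ Metric.closedBall x ρ → k t = 0) :
    |∫ t, g t * k t| ≤ M * ∫ t in Metric.closedBall x ρ, |g t| := by
  have hM0 : 0 ≤ M := (abs_nonneg _).trans (hM x)
  have h1 : ∫ t, g t * k t = ∫ t in Metric.closedBall x ρ, g t * k t := by
    rw [setIntegral_eq_integral_of_forall_compl_eq_zero]
    intro t ht
    rw [h0 t ht, mul_zero]
  have hi : IntegrableOn g (Metric.closedBall x ρ) :=
    hg.integrableOn_isCompact (isCompact_closedBall _ _)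
  have e2 : M * ∫ t in Metric.closedBall x ρ, |g t| = ∫ t in Metric.closedBall x ρ, M * |g t| :=
    (integral_const_mul M (fun t => |g t|)).symm
  rw [h1, e2, ← Real.norm_eq_abs]
  refine (norm_integral_le_integral_norm _).trans ?_
  refine integral_mono_of_nonneg (Filter.Eventually.of_forall fun t => norm_nonneg _)
    (hi.abs.const_mul M) (Filter.Eventually.of_forall fun t => ?_)
  show ‖g t * k t‖ ≤ M * |g t|
  rw [Real.norm_eq_abs, abs_mul, mul_comm]
  exact mul_le_mul_of_nonneg_right (hM t) (abs_nonneg _)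

/-- kernel data -/
structure KD (A : Fin n → Fin n → ℝ) (T : EE n →L[ℝ] EE n) (c τ D : ℝ) : Prop where
  ad : Adapt A T
  c1 : 1 ≤ c
  low : ∀ x, ‖x‖ ≤ c * ‖T x‖
  up : ‖T‖ ≤ τ
  det : |T.det| ≤ D
  det0 : T.det ≠ 0

/-- bounds of a profile -/
structure PB (ψ : EE n → ℝ) (M : ℝ) : Prop where
  test : IsTest ψ
  supp : ∀ x, 1 ≤ ‖x‖ → ψ x = 0
  b0 : ∀ x, |ψ x| ≤ M
  b1 : ∀ k x, |pderiv k ψ x| ≤ M

theorem IsTest.bdd {ψ : EE n → ℝ} (h : IsTest ψ) : ∃ M, ∀ x, |ψ x| ≤ M := by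
  obtain ⟨C, hC⟩ := h.cpt.exists_bound_of_continuous h.continuous
  exact ⟨C, fun x => by simpa using hC x⟩

theorem exists_PB {ψ : EE n → ℝ} (h : IsTest ψ) (h0 : ∀ x, 1 ≤ ‖x‖ → ψ x = 0) :
    ∃ M, 0 ≤ M ∧ PB ψ M := by
  obtain ⟨C, hC⟩ := IsTest.bdd h
  choose D hD using fun k => IsTest.bdd (h.pderiv k)
  refine ⟨|C| + ∑ k, |D k|, by positivity, h, h0, fun x => ?_, fun k x => ?_⟩
  · have : 0 ≤ ∑ k, |D k| := Finset.sum_nonneg fun k _ => abs_nonneg _
    exact (hC x).trans ((le_abs_self C).trans (by linarith))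
  · have h1 : |D k| ≤ ∑ k, |D k| := Finset.single_le_sum (f := fun k => |D k|)
      (fun k _ => abs_nonneg _) (Finset.mem_univ k)
    exact (hD k x).trans ((le_abs_self _).trans (h1.trans (by linarith [abs_nonneg C])))

theorem pderiv_zero_of_supp {ψ : EE n → ℝ} (h : IsTest ψ) (h0 : ∀ x, 1 ≤ ‖x‖ → ψ x = 0)
    (k : Fin n) : ∀ x, 1 ≤ ‖x‖ → pderiv k ψ x = 0 := by
  -- `ψ` vanishes on the open set `‖x‖ > 1`, so the derivative vanishes on its closure
  have hopen : ∀ x : EE n, 1 < ‖x‖ → pderiv k ψ x = 0 := by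
    intro x hx
    have : ψ =ᶠ[𝓝 x] fun _ => 0 := by
      have : {y : EE n | 1 < ‖y‖} ∈ 𝓝 x := (isOpen_lt continuous_const continuous_norm).mem_nhds hx
      filter_upwards [this] with y hy
      exact h0 y (le_of_lt hy)
    unfold pderiv
    rw [this.fderiv_eq]; simp
  intro x hx
  have hcont : Continuous (pderiv k ψ) := (h.pderiv k).continuous
  have hx0 : x ≠ 0 := fun h => by rw [h, norm_zero] at hx; linarith
  have h2 : Tendsto (fun m : ℕ => pderiv k ψ ((1 + 1 / ((m : ℝ) + 1)) • x)) atTop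
      (𝓝 (pderiv k ψ ((1 : ℝ) • x))) := by
    refine (hcont.tendsto _).comp ?_
    have : Tendsto (fun m : ℕ => (1 + 1 / ((m : ℝ) + 1))) atTop (𝓝 (1 + 0)) :=
      tendsto_const_nhds.add tendsto_one_div_add_atTop_nhds_zero_nat
    rw [add_zero] at this
    exact this.smul_const x
  have h3 : ∀ m : ℕ, pderiv k ψ ((1 + 1 / ((m : ℝ) + 1)) • x) = 0 := by
    intro m
    apply hopen
    rw [norm_smul, Real.norm_eq_abs, abs_of_pos (by positivity)]
    have h4 : (0 : ℝ) < 1 / ((m : ℝ) + 1) := by positivity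
    nlinarith
  simp only [h3] at h2
  have := tendsto_nhds_unique h2 tendsto_const_nhds
  rw [one_smul] at this
  exact this

variable {A : Fin n → Fin n → ℝ} {T : EE n →L[ℝ] EE n} {c τ D : ℝ}

theorem KD.D0 (h : KD A T c τ D) : 0 ≤ D := (abs_nonneg _).trans h.det
theorem KD.τ0 (h : KD A T c τ D) : 0 ≤ τ := (norm_nonneg _).trans h.up
theorem KD.c0 (h : KD A T c τ D) : 0 < c := lt_of_lt_of_le one_pos h.c1

theorem ker_dbound (h : KD A T c τ D) {ψ : EE n → ℝ} {M : ℝ} (hψ : PB ψ M) {s : ℝ} (hs : 0 < s)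
    (j : Fin n) (x : EE n) :
    |pderiv j (Ker T s ψ) x| ≤ s⁻¹ * (n * (τ * (D * (s⁻¹) ^ n * M))) := by
  rw [pderiv_ker (hψ.test.smooth.differentiable (by simp)), abs_mul, abs_inv, abs_of_pos hs]
  refine mul_le_mul_of_nonneg_left ?_ (by positivity)
  refine (Finset.abs_sum_le_sum_abs _ _).trans ?_
  have h1 : ∀ k ∈ (Finset.univ : Finset (Fin n)), |ent T k j * Ker T s (pderiv k ψ) x|
      ≤ τ * (D * (s⁻¹) ^ n * M) := by
    intro k _
    rw [abs_mul]
    exact mul_le_mul ((ent_le T k j).trans h.up) (ker_bound hs h.det (hψ.b1 k) x) (abs_nonneg _)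
      h.τ0
  refine (Finset.sum_le_sum h1).trans ?_
  simp

theorem ker_dsupp (h : KD A T c τ D) {ψ : EE n → ℝ} {M : ℝ} (hψ : PB ψ M) {s : ℝ} (hs : 0 < s)
    (j : Fin n) {x : EE n} (hx : c * s ≤ ‖x‖) : pderiv j (Ker T s ψ) x = 0 := by
  rw [pderiv_ker (hψ.test.smooth.differentiable (by simp))]
  have h1 : ∀ k, Ker T s (pderiv k ψ) x = 0 := fun k =>
    ker_supp hs (pderiv_zero_of_supp hψ.test hψ.supp k) h.c0 h.low hx
  simp [h1]

/-- **Estimate of the increment.** -/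
theorem inc_est (h : KD A T c τ D) {U : Set (EE n)}
    {w : EE n → ℝ} {H : Fin n → EE n → ℝ} {a : Fin n → Fin n → EE n → ℝ} {B : EE n → ℝ}
    (hw : LocallyIntegrable w) (hH : ∀ i, LocallyIntegrable (H i)) (hB : LocallyIntegrable B)
    (haH : ∀ i j, LocallyIntegrable (fun x => a i j x * H i x))
    (hwd : ∀ i, WDOn U i w (H i)) (heq : WEqOn U a H B)
    {ψ : EE n → ℝ} {M : ℝ} (hψ : PB ψ M)
    {s : ℝ} (hs : 0 < s) {x : EE n} (hx : Metric.closedBall x (c * s) ⊆ U)
    {om IB IH : ℝ} (hom : ∀ i j, ∀ t ∈ Metric.closedBall x (c * s), |A i j - a i j t| ≤ om)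
    (hIB : ∫ t in Metric.closedBall x (c * s), |B t| ≤ IB)
    (hIH : ∀ i, ∫ t in Metric.closedBall x (c * s), |H i t| ≤ IH) :
    |cv (Ker T s (lap ψ)) w x| ≤ s ^ 2 * ((D * (s⁻¹) ^ n * M) * IB +
      n * (n * (s⁻¹ * (n * (τ * (D * (s⁻¹) ^ n * M))) * (om * IH)))) := by
  have hM : 0 ≤ M := (abs_nonneg _).trans (hψ.b0 x)
  have hD := h.D0
  have hτ := h.τ0
  rw [inc h.ad h.c0 h.low hw hH haH hwd heq hψ.test hψ.supp hs hx, abs_mul,
    abs_of_nonneg (by positivity : (0:ℝ) ≤ s ^ 2)]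
  refine mul_le_mul_of_nonneg_left ((abs_add_le _ _).trans (add_le_add ?_ ?_)) (by positivity)
  · refine (int_bound hB (k := fun t => Ker T s ψ (x - t)) (ρ := c * s) (x := x)
      (fun t => ker_bound hs h.det hψ.b0 _) fun t ht => ?_).trans
      (mul_le_mul_of_nonneg_left hIB (by positivity))
    apply ker_supp hs hψ.supp h.c0 h.low
    rw [Metric.mem_closedBall, dist_comm, dist_eq_norm] at ht
    linarith
  · refine (Finset.abs_sum_le_sum_abs _ _).trans ?_
    have h1 : ∀ i ∈ (Finset.univ : Finset (Fin n)), |∑ j, ∫ t, (A i j - a i j t) * H i t *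
        pderiv j (Ker T s ψ) (x - t)|
        ≤ n * (s⁻¹ * (n * (τ * (D * (s⁻¹) ^ n * M))) * (om * IH)) := by
      intro i _
      refine (Finset.abs_sum_le_sum_abs _ _).trans ?_
      have h2 : ∀ j ∈ (Finset.univ : Finset (Fin n)), |∫ t, (A i j - a i j t) * H i t *
          pderiv j (Ker T s ψ) (x - t)| ≤ s⁻¹ * (n * (τ * (D * (s⁻¹) ^ n * M))) * (om * IH) := by
        intro j _
        have hg : LocallyIntegrable (fun t => (A i j - a i j t) * H i t) := by
          have e : (fun t => (A i j - a i j t) * H i t)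
              = (fun t => A i j * H i t) - fun t => a i j t * H i t := by
            ext t; simp only [Pi.sub_apply]; ring
          rw [e]
          have e2 : LocallyIntegrable (fun t => A i j * H i t) := by
            exact LocallyIntegrable.smul (hH i) (A i j)
          exact e2.sub (haH i j)
        have hom0 : 0 ≤ om := (abs_nonneg _).trans (hom i j x (Metric.mem_closedBall_self
          (by have := h.c0; positivity)))
        refine (int_bound hg (k := fun t => pderiv j (Ker T s ψ) (x - t)) (ρ := c * s) (x := x)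
          (fun t => ker_dbound h hψ hs j _) fun t ht => ?_).trans
          (mul_le_mul_of_nonneg_left ?_ (by positivity))
        · apply ker_dsupp h hψ hs
          rw [Metric.mem_closedBall, dist_comm, dist_eq_norm] at ht
          linarith
        · refine le_trans ?_ (mul_le_mul_of_nonneg_left (hIH i) hom0)
          rw [← integral_const_mul]
          have hi : IntegrableOn (H i) (Metric.closedBall x (c * s)) :=
            (hH i).integrableOn_isCompact (isCompact_closedBall _ _)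
          refine setIntegral_mono_on ?_ (hi.abs.const_mul om)
            Metric.isClosed_closedBall.measurableSet fun t ht => ?_
          · exact (hg.integrableOn_isCompact (isCompact_closedBall _ _)).abs
          · rw [abs_mul]
            exact mul_le_mul_of_nonneg_right (hom i j t ht) (abs_nonneg _)
      refine (Finset.sum_le_sum h2).trans ?_
      simp
    refine (Finset.sum_le_sum h1).trans ?_
    simp

end

end Crest.Agent.R249.RegKer_717
end

-- ▼ part R249/RegAda_717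
section

/-!
Row 249, leaf D3-REG (helper717), file 5: existence of adapted linear maps with uniform bounds.
-/

set_option autoImplicit false
open scoped ContDiff ENNReal Topology RealInnerProductSpace
open MeasureTheory Set Filter
open Crest.GeometryTopology.CoordMetric

namespace Crest.Agent.R249.RegKer_717

open Crest.Agent.R202.Ell

noncomputable section

variable {n : ℕ}

/-- ellipticity of a constant matrix -/
structure Ellc (lam Lam : ℝ) (A : Fin n → Fin n → ℝ) : Prop where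
  symm : ∀ i j, A i j = A j i
  lo : ∀ z : Fin n → ℝ, lam * ∑ i, z i ^ 2 ≤ ∑ i, ∑ j, A i j * z i * z j
  hi : ∀ z : Fin n → ℝ, ∑ i, ∑ j, A i j * z i * z j ≤ Lam * ∑ i, z i ^ 2

theorem det_le_pow (T : EE n →L[ℝ] EE n) : |T.det| ≤ ‖T‖ ^ n := by
  have h1 := Measure.addHaar_image_continuousLinearMap (volume : Measure (EE n)) T
    (Metric.closedBall 0 1)
  have h2 : T '' Metric.closedBall 0 1 ⊆ Metric.closedBall 0 ‖T‖ := by
    rintro _ ⟨x, hx, rfl⟩
    have hx1 : ‖x‖ ≤ 1 := by simpa using hx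
    have := T.le_opNorm x
    have h3 : ‖T x‖ ≤ ‖T‖ := this.trans (mul_le_of_le_one_right (norm_nonneg _) hx1)
    simpa using h3
  have h3 := measure_mono (μ := (volume : Measure (EE n))) h2
  rw [h1] at h3
  have h4 : volume (Metric.closedBall (0 : EE n) ‖T‖)
      = ENNReal.ofReal (‖T‖ ^ n) * volume (Metric.closedBall (0 : EE n) 1) := by
    have := Measure.addHaar_closedBall' (volume : Measure (EE n)) 0 (norm_nonneg T)
    rw [this]
    simp only [finrank_euclideanSpace, Fintype.card_fin]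
  rw [h4] at h3
  have h5 : volume (Metric.closedBall (0 : EE n) 1) ≠ 0 :=
    (Metric.measure_closedBall_pos volume 0 one_pos).ne'
  have h6 : volume (Metric.closedBall (0 : EE n) 1) ≠ ⊤ := measure_closedBall_lt_top.ne
  have h7 : ENNReal.ofReal |T.det| ≤ ENNReal.ofReal (‖T‖ ^ n) :=
    (ENNReal.mul_le_mul_iff_left h5 h6).1 h3
  exact (ENNReal.ofReal_le_ofReal_iff (by positivity)).1 h7

theorem exists_adapt {lam Lam : ℝ} (hlam : 0 < lam) (hLam : 1 ≤ Lam)
    {A : Fin n → Fin n → ℝ} (hA : Ellc lam Lam A) :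
    ∃ T : EE n →L[ℝ] EE n, KD A T (Real.sqrt Lam) (Real.sqrt (1 / lam))
      (Real.sqrt (1 / lam) ^ n) := by
  classical
  set M : Matrix (Fin n) (Fin n) ℝ := Matrix.of A with hM
  have hH : M.IsHermitian := by
    ext i j
    simp [hM, hA.symm j i]
  set b := hH.eigenvectorBasis with hb
  set μ := hH.eigenvalues with hμ
  have hquad : ∀ z : EE n, ∑ i, ∑ j, A i j * z i * z j = ∑ i, z i * (M.mulVec z) i := by
    intro z
    refine Finset.sum_congr rfl fun i _ => ?_
    rw [Matrix.mulVec, dotProduct, Finset.mul_sum]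
    exact Finset.sum_congr rfl fun j _ => by simp [hM]; ring
  have heig : ∀ k, M.mulVec (b k) = μ k • (b k : Fin n → ℝ) := fun k =>
    hH.mulVec_eigenvectorBasis k
  have hinner : ∀ x y : EE n, ⟪x, y⟫ = ∑ i, x i * y i := by
    intro x y
    rw [PiLp.inner_apply]
    exact Finset.sum_congr rfl fun i _ => by simp [mul_comm]
  have hnb : ∀ k, ∑ i, (b k) i ^ 2 = 1 := by
    intro k
    have := b.orthonormal.1 k
    have h2 : ‖b k‖ ^ 2 = ∑ i, (b k) i ^ 2 := by
      rw [EuclideanSpace.norm_sq_eq]; simp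
    rw [← h2, this]; norm_num
  have hμq : ∀ k, ∑ i, ∑ j, A i j * (b k) i * (b k) j = μ k := by
    intro k
    rw [hquad, heig]
    simp only [Pi.smul_apply, smul_eq_mul]
    have : ∑ i, (b k) i * (μ k * (b k) i) = μ k * ∑ i, (b k) i ^ 2 := by
      rw [Finset.mul_sum]; exact Finset.sum_congr rfl fun i _ => by ring
    rw [this, hnb, mul_one]
  have hμlo : ∀ k, lam ≤ μ k := fun k => by
    have := hA.lo (b k); rwa [hμq, hnb, mul_one] at this
  have hμhi : ∀ k, μ k ≤ Lam := fun k => by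
    have := hA.hi (b k); rwa [hμq, hnb, mul_one] at this
  have hμpos : ∀ k, 0 < μ k := fun k => lt_of_lt_of_le hlam (hμlo k)
  -- the map
  let L : EE n →ₗ[ℝ] EE n :=
    { toFun := fun x => WithLp.toLp 2 fun k => (Real.sqrt (μ k))⁻¹ * ⟪b k, x⟫
      map_add' := fun x y => by
        ext k; simp [inner_add_right, mul_add]
      map_smul' := fun r x => by
        ext k; simp [inner_smul_right]; ring }
  have hLapp : ∀ x k, L x k = (Real.sqrt (μ k))⁻¹ * ⟪b k, x⟫ := fun x k => rfl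
  set T : EE n →L[ℝ] EE n := LinearMap.toContinuousLinearMap L with hTdef
  have hTapp : ∀ x k, T x k = (Real.sqrt (μ k))⁻¹ * ⟪b k, x⟫ := fun x k => rfl
  have hTn : ∀ x, ‖T x‖ ^ 2 = ∑ k, (μ k)⁻¹ * ⟪b k, x⟫ ^ 2 := by
    intro x
    rw [EuclideanSpace.norm_sq_eq]
    refine Finset.sum_congr rfl fun k _ => ?_
    rw [hTapp, Real.norm_eq_abs, sq_abs, mul_pow, inv_pow, Real.sq_sqrt (hμpos k).le]
  have hxn : ∀ x : EE n, ‖x‖ ^ 2 = ∑ k, ⟪b k, x⟫ ^ 2 := by
    intro x
    have := b.sum_sq_norm_inner_right x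
    rw [← this]
    exact Finset.sum_congr rfl fun k _ => by simp
  have hent : ∀ k i, ent T k i = (Real.sqrt (μ k))⁻¹ * (b k) i := by
    intro k i
    rw [ent, hTapp, hinner]
    congr 1
    simp
  have hlow : ∀ x, ‖x‖ ≤ Real.sqrt Lam * ‖T x‖ := by
    intro x
    have h1 : ‖x‖ ^ 2 ≤ Lam * ‖T x‖ ^ 2 := by
      rw [hxn, hTn, Finset.mul_sum]
      refine Finset.sum_le_sum fun k _ => ?_
      have h2 : 1 ≤ Lam * (μ k)⁻¹ := by
        rw [← div_eq_mul_inv, le_div_iff₀ (hμpos k)]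
        linarith [hμhi k]
      have := mul_le_mul_of_nonneg_right h2 (sq_nonneg ⟪b k, x⟫)
      linarith
    have h3 : ‖x‖ = Real.sqrt (‖x‖ ^ 2) := (Real.sqrt_sq (norm_nonneg _)).symm
    have h4 : Real.sqrt Lam * ‖T x‖ = Real.sqrt (Lam * ‖T x‖ ^ 2) := by
      rw [Real.sqrt_mul (by linarith), Real.sqrt_sq (norm_nonneg _)]
    rw [h3, h4]
    exact Real.sqrt_le_sqrt h1
  have hup : ‖T‖ ≤ Real.sqrt (1 / lam) := by
    refine T.opNorm_le_bound (Real.sqrt_nonneg _) fun x => ?_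
    have h1 : ‖T x‖ ^ 2 ≤ 1 / lam * ‖x‖ ^ 2 := by
      rw [hTn, hxn, Finset.mul_sum]
      refine Finset.sum_le_sum fun k _ => mul_le_mul_of_nonneg_right ?_ (sq_nonneg _)
      rw [one_div]
      exact inv_anti₀ hlam (hμlo k)
    have h3 : ‖T x‖ = Real.sqrt (‖T x‖ ^ 2) := (Real.sqrt_sq (norm_nonneg _)).symm
    have h4 : Real.sqrt (1 / lam) * ‖x‖ = Real.sqrt (1 / lam * ‖x‖ ^ 2) := by
      rw [Real.sqrt_mul (by positivity), Real.sqrt_sq (norm_nonneg _)]
    rw [h3, h4]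
    exact Real.sqrt_le_sqrt h1
  have hdet : |T.det| ≤ Real.sqrt (1 / lam) ^ n :=
    (det_le_pow T).trans (pow_le_pow_left₀ (norm_nonneg _) hup n)
  have hinj : Function.Injective T := by
    rw [injective_iff_map_eq_zero]
    intro x hx
    have := hlow x
    rw [hx, norm_zero, mul_zero] at this
    exact norm_le_zero_iff.1 this
  have hdet0 : T.det ≠ 0 := by
    have h1 : LinearMap.ker (T : EE n →ₗ[ℝ] EE n) = ⊥ := LinearMap.ker_eq_bot.2 hinj
    intro h0
    have h2 : LinearMap.det (T : EE n →ₗ[ℝ] EE n) = 0 := h0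
    have := LinearMap.bot_lt_ker_of_det_eq_zero h2
    rw [h1] at this
    exact lt_irrefl _ this
  refine ⟨T, ?_, Real.one_le_sqrt.2 hLam, hlow, hup, hdet, hdet0⟩
  intro k l
  have h1 : ∑ i, ∑ j, A i j * ent T k i * ent T l j
      = (Real.sqrt (μ k))⁻¹ * (Real.sqrt (μ l))⁻¹ * (μ l * ⟪b k, b l⟫) := by
    have h2 : ∑ i, ∑ j, A i j * (b k) i * (b l) j = μ l * ⟪b k, b l⟫ := by
      have e : ∑ i, ∑ j, A i j * (b k) i * (b l) j = ∑ i, (b k) i * (M.mulVec (b l)) i := by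
        refine Finset.sum_congr rfl fun i _ => ?_
        rw [Matrix.mulVec, dotProduct, Finset.mul_sum]
        exact Finset.sum_congr rfl fun j _ => by simp [hM]; ring
      rw [e, heig, hinner, Finset.mul_sum]
      exact Finset.sum_congr rfl fun i _ => by simp; ring
    rw [← h2, Finset.mul_sum]
    refine Finset.sum_congr rfl fun i _ => ?_
    rw [Finset.mul_sum]
    refine Finset.sum_congr rfl fun j _ => ?_
    rw [hent, hent]; ring
  rw [h1]
  have h3 : ⟪b k, b l⟫ = if k = l then 1 else 0 := orthonormal_iff_ite.1 b.orthonormal k l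
  rw [h3]
  split_ifs with h
  · subst h
    have h4 : Real.sqrt (μ k) * Real.sqrt (μ k) = μ k := Real.mul_self_sqrt (hμpos k).le
    have h5 : Real.sqrt (μ k) ≠ 0 := (Real.sqrt_pos.2 (hμpos k)).ne'
    rw [mul_one, ← mul_inv, h4]
    exact inv_mul_cancel₀ (hμpos k).ne'
  · simp

end

end Crest.Agent.R249.RegKer_717
end

-- ▼ part R249/RegAff_717
section

/-!
Row 249, leaf D3-REG (helper717), file 6: affine approximation of order `1+β` at every scale
implies `C^{1,β}`.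
-/

set_option autoImplicit false
open scoped ContDiff ENNReal Topology
open Set Filter

namespace Crest.Agent.R249.RegAff_717

noncomputable section

variable {E : Type*} [NormedAddCommGroup E] [NormedSpace ℝ E]

/-- a bound on a ball bounds the operator norm -/
theorem opNorm_le_of_ball {L : E →L[ℝ] ℝ} {ρ M : ℝ} (hρ : 0 < ρ) (hM : 0 ≤ M)
    (h : ∀ z, ‖z‖ ≤ ρ → |L z| ≤ M) : ‖L‖ ≤ M / ρ := by
  refine L.opNorm_le_bound (by positivity) fun z => ?_
  rcases eq_or_ne z 0 with rfl | hz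
  · simp
  have hz0 : 0 < ‖z‖ := norm_pos_iff.2 hz
  have h1 := h ((ρ / ‖z‖) • z) (by
    rw [norm_smul, Real.norm_eq_abs, abs_of_pos (by positivity), div_mul_cancel₀ _ hz0.ne'])
  rw [map_smul, smul_eq_mul, abs_mul, abs_of_pos (by positivity : (0:ℝ) < ρ / ‖z‖)] at h1
  rw [Real.norm_eq_abs, div_mul_eq_mul_div, le_div_iff₀ hρ]
  have h2 := mul_le_mul_of_nonneg_right h1 hz0.le
  have h3 : ρ / ‖z‖ * |L z| * ‖z‖ = |L z| * ρ := by field_simp
  linarith

/-- **C^{1,β} from affine approximation.** -/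
theorem c1_of_affine {f : E → ℝ} {U : Set E} {r0 C β : ℝ} (hr0 : 0 < r0) (hC : 0 ≤ C)
    (hβ : 0 < β)
    (h : ∀ x ∈ U, ∀ ρ, 0 < ρ → ρ ≤ r0 → ∃ (c : ℝ) (L : E →L[ℝ] ℝ), ∀ y, ‖y - x‖ ≤ ρ →
      |f y - c - L (y - x)| ≤ C * ρ ^ (1 + β)) :
    ∃ (g : E → (E →L[ℝ] ℝ)) (K : ℝ), 0 ≤ K ∧
      (∀ x ∈ U, ∀ y, ‖y - x‖ ≤ r0 → |f y - f x - g x (y - x)| ≤ K * ‖y - x‖ ^ (1 + β)) ∧
      (∀ x ∈ U, HasFDerivAt f (g x) x) ∧
      ∀ x ∈ U, ∀ y ∈ U, ‖x - y‖ ≤ r0 / 2 → ‖g x - g y‖ ≤ K * ‖x - y‖ ^ β := by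
  classical
  set q : ℝ := (1 / 2 : ℝ) ^ β with hq
  have hq0 : 0 < q := Real.rpow_pos_of_pos (by norm_num) _
  have hq1 : q < 1 := Real.rpow_lt_one (by norm_num) (by norm_num) hβ
  set ρ : ℕ → ℝ := fun k => r0 * (1 / 2) ^ k with hρ
  have hρ0 : ∀ k, 0 < ρ k := fun k => by simp only [hρ]; positivity
  have hρ1 : ∀ k, ρ k ≤ r0 := fun k => by
    simp only [hρ]
    exact mul_le_of_le_one_right hr0.le (pow_le_one₀ (by norm_num) (by norm_num))
  have hρs : ∀ k, ρ (k + 1) = ρ k / 2 := fun k => by simp only [hρ, pow_succ]; ring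
  have hρβ : ∀ k, ρ k ^ β = r0 ^ β * q ^ k := by
    intro k
    simp only [hρ]
    rw [Real.mul_rpow hr0.le (by positivity), hq, ← Real.rpow_natCast, ← Real.rpow_natCast,
      ← Real.rpow_mul (by norm_num), ← Real.rpow_mul (by norm_num), mul_comm (k : ℝ) β]
  -- the limit at one point
  have key : ∀ x ∈ U, ∃ G : E →L[ℝ] ℝ, ∀ y, ‖y - x‖ ≤ r0 →
      |f y - f x - G (y - x)| ≤ (2 * C + 8 * C / (1 - q)) * (2 * ‖y - x‖) ^ (1 + β) := by
    intro x hx
    choose c L hcL using fun k => h x hx (ρ k) (hρ0 k) (hρ1 k)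
    have hc : ∀ k, |f x - c k| ≤ C * ρ k ^ (1 + β) := by
      intro k
      have := hcL k x (by simpa using (hρ0 k).le)
      simpa using this
    have hL : ∀ k, dist (L k) (L (k + 1)) ≤ (8 * C * r0 ^ β) * q ^ k := by
      intro k
      rw [dist_eq_norm]
      have hp : (0:ℝ) ≤ ρ k ^ (1 + β) := Real.rpow_nonneg (hρ0 k).le _
      have hmono : ρ (k + 1) ^ (1 + β) ≤ ρ k ^ (1 + β) := by
        refine Real.rpow_le_rpow (hρ0 _).le ?_ (by linarith)
        rw [hρs]; linarith [hρ0 k]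
      have h1 : ∀ z, ‖z‖ ≤ ρ (k + 1) → |(L k - L (k + 1)) z| ≤ 4 * C * ρ k ^ (1 + β) := by
        intro z hz
        have e1 := hcL k (x + z) (by
          simp only [add_sub_cancel_left]
          refine hz.trans ?_
          rw [hρs]; linarith [hρ0 k])
        have e2 := hcL (k + 1) (x + z) (by simpa using hz)
        have e3 := hc k
        have e4 := hc (k + 1)
        simp only [add_sub_cancel_left] at e1 e2
        rw [sub_apply]
        rw [abs_le] at e1 e2 e3 e4 ⊢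
        have hm2 : C * ρ (k + 1) ^ (1 + β) ≤ C * ρ k ^ (1 + β) :=
          mul_le_mul_of_nonneg_left hmono hC
        constructor <;> linarith [e1.1, e1.2, e2.1, e2.2, e3.1, e3.2, e4.1, e4.2]
      have h2 := opNorm_le_of_ball (hρ0 (k + 1)) (by positivity) h1
      refine h2.trans (le_of_eq ?_)
      rw [Real.rpow_add (hρ0 k), Real.rpow_one, hρβ, hρs]
      have := (hρ0 k).ne'
      field_simp
      ring
    have hcau := cauchySeq_of_le_geometric q (8 * C * r0 ^ β) hq1 hL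
    obtain ⟨G, hG⟩ := cauchySeq_tendsto_of_complete hcau
    have hLG : ∀ k, ‖L k - G‖ ≤ 8 * C * ρ k ^ β / (1 - q) := by
      intro k
      have := dist_le_of_le_geometric_of_tendsto q (8 * C * r0 ^ β) hq1 hL hG k
      rw [dist_eq_norm] at this
      rw [hρβ]
      refine this.trans (le_of_eq ?_)
      ring
    refine ⟨G, fun y hy => ?_⟩
    rcases eq_or_ne y x with rfl | hyx
    · simp only [sub_self, norm_zero, map_zero, mul_zero, abs_zero]
      rw [Real.zero_rpow (by linarith), mul_zero]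
    have hd : 0 < ‖y - x‖ := norm_pos_iff.2 (sub_ne_zero.2 hyx)
    -- choose `k` with `ρ (k+1) < ‖y-x‖ ≤ ρ k`
    have hex : ∃ k, ρ (k + 1) < ‖y - x‖ := by
      have ht : Tendsto (fun k => ρ (k + 1)) atTop (𝓝 0) := by
        have h1 : Tendsto (fun k : ℕ => (1 / 2 : ℝ) ^ k) atTop (𝓝 0) :=
          tendsto_pow_atTop_nhds_zero_of_lt_one (by norm_num) (by norm_num)
        have h2 := (h1.const_mul r0).comp (tendsto_add_atTop_nat 1)
        simpa [hρ, Function.comp_def] using h2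
      exact ((tendsto_order.1 ht).2 _ hd).exists
    set k := Nat.find hex with hk
    have hk1 : ρ (k + 1) < ‖y - x‖ := Nat.find_spec hex
    have hk2 : ‖y - x‖ ≤ ρ k := by
      rcases Nat.eq_zero_or_pos k with h0 | h0
      · rw [h0]; simpa [hρ] using hy
      · have := Nat.find_min hex (m := k - 1) (by omega)
        rw [show k - 1 + 1 = k by omega] at this
        exact not_lt.1 this
    have hk3 : ρ k ≤ 2 * ‖y - x‖ := by rw [hρs] at hk1; linarith
    have e1 := hcL k y hk2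
    have e2 := hc k
    have e3 : |(L k - G) (y - x)| ≤ 8 * C / (1 - q) * ρ k ^ (1 + β) := by
      have h1 := (L k - G).le_opNorm (y - x)
      rw [Real.norm_eq_abs] at h1
      refine h1.trans ((mul_le_mul (hLG k) hk2 (norm_nonneg _) ?_).trans (le_of_eq ?_))
      · have := Real.rpow_nonneg (hρ0 k).le β
        have : 0 < 1 - q := by linarith
        positivity
      · rw [Real.rpow_add (hρ0 k), Real.rpow_one]; ring
    have hpow : ρ k ^ (1 + β) ≤ (2 * ‖y - x‖) ^ (1 + β) :=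
      Real.rpow_le_rpow (hρ0 k).le hk3 (by linarith)
    have hq2 : 0 < 1 - q := by linarith
    have hcoef : 0 ≤ 2 * C + 8 * C / (1 - q) := by positivity
    refine le_trans ?_ (mul_le_mul_of_nonneg_left hpow hcoef)
    rw [sub_apply] at e3
    rw [add_mul]
    rw [abs_le] at e1 e2 e3 ⊢
    constructor <;> linarith [e1.1, e1.2, e2.1, e2.2, e3.1, e3.2]
  choose! g hg using key
  set K1 := (2 * C + 8 * C / (1 - q)) * 2 ^ (1 + β) with hK1
  have hq2 : 0 < 1 - q := by linarith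
  have hK10 : 0 ≤ K1 := by
    have : (0:ℝ) ≤ 2 ^ (1 + β) := Real.rpow_nonneg (by norm_num) _
    positivity
  have hexp : ∀ x ∈ U, ∀ y, ‖y - x‖ ≤ r0 →
      |f y - f x - g x (y - x)| ≤ K1 * ‖y - x‖ ^ (1 + β) := by
    intro x hx y hy
    refine (hg x hx y hy).trans (le_of_eq ?_)
    rw [Real.mul_rpow (by norm_num) (norm_nonneg _), hK1]; ring
  have h2p : (0:ℝ) ≤ 2 ^ (1 + β) := Real.rpow_nonneg (by norm_num) _
  refine ⟨g, K1 * (2 + 2 ^ (1 + β)), by positivity, fun x hx y hy => ?_, fun x hx => ?_,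
    fun x hx y hy hxy => ?_⟩
  · refine (hexp x hx y hy).trans ?_
    have : (0:ℝ) ≤ ‖y - x‖ ^ (1 + β) := Real.rpow_nonneg (norm_nonneg _) _
    refine mul_le_mul_of_nonneg_right ?_ this
    nlinarith
  · rw [hasFDerivAt_iff_isLittleO_nhds_zero]
    rw [Asymptotics.isLittleO_iff]
    intro ε hε
    have h1 : Tendsto (fun z : E => K1 * ‖z‖ ^ β) (𝓝 0) (𝓝 0) := by
      have : Tendsto (fun z : E => ‖z‖ ^ β) (𝓝 0) (𝓝 (‖(0:E)‖ ^ β)) :=
        (continuous_norm.rpow_const (fun _ => Or.inr hβ.le)).tendsto 0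
      rw [norm_zero, Real.zero_rpow hβ.ne'] at this
      simpa using this.const_mul K1
    have h2 : ∀ᶠ z : E in 𝓝 0, K1 * ‖z‖ ^ β < ε := (tendsto_order.1 h1).2 _ hε
    have h3 : ∀ᶠ z : E in 𝓝 0, ‖z‖ < r0 := by
      have : Tendsto (fun z : E => ‖z‖) (𝓝 0) (𝓝 0) := by
        simpa using (continuous_norm (E := E)).tendsto 0
      exact (tendsto_order.1 this).2 _ hr0
    filter_upwards [h2, h3] with z hz1 hz2
    have h4 := hexp x hx (x + z) (by simpa using hz2.le)
    simp only [add_sub_cancel_left] at h4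
    rw [Real.norm_eq_abs]
    refine h4.trans ?_
    rcases eq_or_ne z 0 with rfl | hz
    · simp [Real.zero_rpow (by linarith : (1 + β) ≠ 0)]
    have hz0 : 0 < ‖z‖ := norm_pos_iff.2 hz
    rw [Real.rpow_add hz0, Real.rpow_one]
    nlinarith
  · rcases eq_or_ne x y with rfl | hne
    · simp [Real.zero_rpow hβ.ne']
    set d := ‖x - y‖ with hd
    have hd0 : 0 < d := norm_pos_iff.2 (sub_ne_zero.2 hne)
    have hb : ∀ z, ‖z‖ ≤ d → |(g x - g y) z| ≤ K1 * (2 + 2 ^ (1 + β)) * d ^ (1 + β) := by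
      intro z hz
      have e1 := hexp x hx (x + z) (by simp only [add_sub_cancel_left]; linarith)
      have e2 := hexp y hy (x + z) (by
        have : x + z - y = (x - y) + z := by abel
        rw [this]
        exact (norm_add_le _ _).trans (by linarith))
      have e3 := hexp y hy x (by linarith)
      simp only [add_sub_cancel_left] at e1
      have n1 : ‖z‖ ^ (1 + β) ≤ d ^ (1 + β) := Real.rpow_le_rpow (norm_nonneg _) hz (by linarith)
      have n2 : ‖x + z - y‖ ^ (1 + β) ≤ 2 ^ (1 + β) * d ^ (1 + β) := by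
        rw [← Real.mul_rpow (by norm_num) hd0.le]
        refine Real.rpow_le_rpow (norm_nonneg _) ?_ (by linarith)
        have : x + z - y = (x - y) + z := by abel
        rw [this]
        exact (norm_add_le _ _).trans (by linarith)
      have e4 : g y (x + z - y) = g y (x - y) + g y z := by
        rw [← map_add]; congr 1; abel
      rw [e4] at e2
      have m1 := mul_le_mul_of_nonneg_left n1 hK10
      have m2 := mul_le_mul_of_nonneg_left n2 hK10
      rw [sub_apply]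
      rw [← hd] at e3
      rw [abs_le] at e1 e2 e3 ⊢
      constructor <;> nlinarith [e1.1, e1.2, e2.1, e2.2, e3.1, e3.2]
    have h2 := opNorm_le_of_ball hd0 (by positivity) hb
    refine h2.trans (le_of_eq ?_)
    rw [Real.rpow_add hd0, Real.rpow_one]
    field_simp

end

end Crest.Agent.R249.RegAff_717
end

-- ▼ part R249/RegTay_717
section

/-!
Row 249, leaf D3-REG (helper717), file 7: abstract dyadic lemma: smooth approximations `G k → g`
with controlled increments give affine approximation of order `1+β`.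
-/

set_option autoImplicit false
open scoped ContDiff ENNReal Topology
open MeasureTheory Set Filter
open Crest.GeometryTopology.CoordMetric

namespace Crest.Agent.R249.RegTay_717

open Crest.Agent.R202.Ell

noncomputable section

variable {n : ℕ}

theorem norm_le_sum (L : EE n →L[ℝ] ℝ) : ‖L‖ ≤ ∑ i, |L (EuclideanSpace.single i 1)| := by
  refine L.opNorm_le_bound (Finset.sum_nonneg fun i _ => abs_nonneg _) fun z => ?_
  have hz : z = ∑ k, z k • (EuclideanSpace.single k (1 : ℝ) : EE n) := by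
    ext j
    simp [Pi.single_apply]
  conv_lhs => rw [hz]
  rw [map_sum, Real.norm_eq_abs]
  refine (Finset.abs_sum_le_sum_abs _ _).trans ?_
  rw [Finset.sum_mul]
  refine Finset.sum_le_sum fun i _ => ?_
  rw [map_smul, smul_eq_mul, abs_mul, mul_comm]
  refine mul_le_mul_of_nonneg_left ?_ (abs_nonneg _)
  simpa using PiLp.norm_apply_le z i

/-- Taylor estimate of order one -/
theorem taylor1 {G : EE n → ℝ} (hG : ContDiff ℝ 2 G) {x0 : EE n} {r M : ℝ} (hr : 0 ≤ r)
    (hM : ∀ y ∈ Metric.closedBall x0 r, ∀ i j, |pderiv i (pderiv j G) y| ≤ M) :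
    ∀ y, ‖y - x0‖ ≤ r → |G y - G x0 - fderiv ℝ G x0 (y - x0)| ≤ (n * (n * M)) * r * r := by
  intro y hy
  have hM0 : 0 ≤ n * (n * M) := by
    rcases Nat.eq_zero_or_pos n with h0 | h0
    · subst h0; simp
    · have := (abs_nonneg _).trans (hM x0 (Metric.mem_closedBall_self hr) ⟨0, h0⟩ ⟨0, h0⟩)
      positivity
  have hd : Differentiable ℝ G := hG.differentiable (by norm_num)
  have hpc : ∀ j, ContDiff ℝ 1 (pderiv j G) := fun j => by
    have h1 : ContDiff ℝ 1 (fderiv ℝ G) := hG.fderiv_right (m := 1) (by norm_num)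
    exact h1.clm_apply contDiff_const
  have hconv : Convex ℝ (Metric.closedBall x0 r) := convex_closedBall _ _
  have hx0 : x0 ∈ Metric.closedBall x0 r := Metric.mem_closedBall_self hr
  have h1 : ∀ j, ∀ x ∈ Metric.closedBall x0 r, |pderiv j G x - pderiv j G x0| ≤ (n * M) * r := by
    intro j x hx
    have h2 : ∀ x' ∈ Metric.closedBall x0 r, ‖fderiv ℝ (pderiv j G) x'‖ ≤ n * M := by
      intro x' hx'
      refine (norm_le_sum _).trans ?_
      refine (Finset.sum_le_sum (g := fun _ => M) fun i _ => hM x' hx' i j).trans ?_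
      simp
    have h3 := hconv.norm_image_sub_le_of_norm_fderiv_le
      (fun x' _ => (hpc j).differentiable one_ne_zero x') h2 hx0 hx
    rw [Real.norm_eq_abs] at h3
    refine h3.trans (mul_le_mul_of_nonneg_left ?_ ((norm_nonneg _).trans (h2 x0 hx0)))
    rwa [Metric.mem_closedBall, dist_eq_norm] at hx
  have h2 : ∀ x ∈ Metric.closedBall x0 r, ‖fderiv ℝ G x - fderiv ℝ G x0‖ ≤ (n * (n * M)) * r := by
    intro x hx
    refine (norm_le_sum _).trans ?_
    refine (Finset.sum_le_sum (g := fun _ => (n * M) * r) fun i _ => ?_).trans ?_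
    · exact h1 i x hx
    · simp; ring_nf; rfl
  have h3 := hconv.norm_image_sub_le_of_norm_fderiv_le' (fun x' _ => hd x') h2 hx0
    (show y ∈ Metric.closedBall x0 r by rwa [Metric.mem_closedBall, dist_eq_norm])
  rw [Real.norm_eq_abs] at h3
  exact h3.trans (mul_le_mul_of_nonneg_left hy (by positivity))

/-- geometric sum from below -/
theorem sum_up {q : ℝ} (hq : 1 < q) (K : ℕ) : ∑ k ∈ Finset.range K, q ^ k ≤ q ^ K / (q - 1) := by
  rw [geom_sum_eq hq.ne']
  exact div_le_div_of_nonneg_right (by linarith) (by linarith)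

/-- **Abstract dyadic lemma.** -/
theorem dyadic {g : EE n → ℝ} {G : ℕ → EE n → ℝ} {x0 : EE n} {r0 C p q β : ℝ} (hr0 : 0 < r0)
    (hr1 : r0 ≤ 1) (hC : 0 ≤ C) (hq : 0 < q) (hβ : 0 < β) (hβ1 : β < 1) (hpq : p + q = 1 + β)
    (hG : ∀ k, ContDiff ℝ 2 (G k)) (K : ℕ)
    (h1 : ∀ k, K ≤ k → ∀ y ∈ Metric.closedBall x0 (r0 * (1 / 2) ^ K),
      |G (k + 1) y - G k y| ≤ C * (r0 * (1 / 2) ^ K) ^ p * (r0 * (1 / 2) ^ k) ^ q)
    (h2 : ∀ k, k < K → ∀ y ∈ Metric.closedBall x0 (r0 * (1 / 2) ^ K), ∀ i j,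
      |pderiv i (pderiv j (G (k + 1))) y - pderiv i (pderiv j (G k)) y|
        ≤ C * (r0 * (1 / 2) ^ k) ^ (β - 1))
    (h3 : ∀ y ∈ Metric.closedBall x0 (r0 * (1 / 2) ^ K), Tendsto (fun k => G k y) atTop (𝓝 (g y)))
    (h4 : ∀ y ∈ Metric.closedBall x0 (r0 * (1 / 2) ^ K), ∀ i j,
      |pderiv i (pderiv j (G 0)) y| ≤ C) :
    ∃ (c : ℝ) (L : EE n →L[ℝ] ℝ), ∀ y, ‖y - x0‖ ≤ r0 * (1 / 2) ^ K →
      |g y - c - L (y - x0)| ≤ (C / (1 - (1 / 2) ^ q) + n * (n * (C + C / (2 ^ (1 - β) - 1)))) *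
        (r0 * (1 / 2) ^ K) ^ (1 + β) := by
  set r := r0 * (1 / 2 : ℝ) ^ K with hr
  have hrpos : 0 < r := by positivity
  have hrle : r ≤ 1 := by
    have : (1 / 2 : ℝ) ^ K ≤ 1 := pow_le_one₀ (by norm_num) (by norm_num)
    calc r ≤ r0 * 1 := mul_le_mul_of_nonneg_left this hr0.le
      _ ≤ 1 := by linarith
  -- second derivative bound of `G K`
  set Q : ℝ := 2 ^ (1 - β) with hQ
  have hQ1 : 1 < Q := Real.one_lt_rpow (by norm_num) (by linarith)
  have hsk : ∀ k : ℕ, (r0 * (1 / 2) ^ k) ^ (β - 1) = r0 ^ (β - 1) * Q ^ k := by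
    intro k
    rw [Real.mul_rpow hr0.le (by positivity), hQ, ← Real.rpow_natCast, ← Real.rpow_natCast,
      ← Real.rpow_mul (by norm_num), ← Real.rpow_mul (by norm_num), one_div,
      Real.inv_rpow (by norm_num), ← Real.rpow_neg (by norm_num)]
    congr 2; ring
  have hD2 : ∀ y ∈ Metric.closedBall x0 r, ∀ i j, |pderiv i (pderiv j (G K)) y|
      ≤ (C + C / (Q - 1)) * r ^ (β - 1) := by
    intro y hy i j
    have htel : ∀ m, m ≤ K → |pderiv i (pderiv j (G m)) y|
        ≤ C + ∑ k ∈ Finset.range m, C * (r0 ^ (β - 1) * Q ^ k) := by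
      intro m
      induction m with
      | zero => intro _; simpa using h4 y hy i j
      | succ m ih =>
        intro hm
        have e1 := ih (by omega)
        have e2 := h2 m (by omega) y hy i j
        rw [hsk] at e2
        rw [Finset.sum_range_succ]
        have := abs_add_le (pderiv i (pderiv j (G m)) y)
          (pderiv i (pderiv j (G (m + 1))) y - pderiv i (pderiv j (G m)) y)
        rw [add_sub_cancel] at this
        linarith
    refine (htel K le_rfl).trans ?_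
    rw [← Finset.mul_sum, ← Finset.mul_sum]
    have e3 := sum_up hQ1 K
    have e4 : r ^ (β - 1) = r0 ^ (β - 1) * Q ^ K := by rw [hr, hsk]
    have e5 : 1 ≤ r ^ (β - 1) :=
      Real.one_le_rpow_of_pos_of_le_one_of_nonpos hrpos hrle (by linarith)
    have e6 : 0 ≤ r0 ^ (β - 1) := Real.rpow_nonneg hr0.le _
    have e7 : C * (r0 ^ (β - 1) * ∑ k ∈ Finset.range K, Q ^ k)
        ≤ C * (r0 ^ (β - 1) * (Q ^ K / (Q - 1))) :=
      mul_le_mul_of_nonneg_left (mul_le_mul_of_nonneg_left e3 e6) hC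
    have e8 : C * (r0 ^ (β - 1) * (Q ^ K / (Q - 1))) = C / (Q - 1) * r ^ (β - 1) := by
      rw [e4]; ring
    rw [e8] at e7
    rw [add_mul]
    nlinarith
  have hT := taylor1 (hG K) hrpos.le hD2
  refine ⟨G K x0, fderiv ℝ (G K) x0, fun y hy => ?_⟩
  have hyb : y ∈ Metric.closedBall x0 r := by rwa [Metric.mem_closedBall, dist_eq_norm]
  have e1 := hT y hy
  -- tail
  set P : ℝ := (1 / 2 : ℝ) ^ q with hP
  have hP0 : 0 < P := Real.rpow_pos_of_pos (by norm_num) _
  have hP1 : P < 1 := Real.rpow_lt_one (by norm_num) (by norm_num) hq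
  have hsq : ∀ k : ℕ, (r0 * (1 / 2) ^ (K + k)) ^ q = r ^ q * P ^ k := by
    intro k
    have : r0 * (1 / 2 : ℝ) ^ (K + k) = r * (1 / 2) ^ k := by rw [hr, pow_add]; ring
    rw [this, Real.mul_rpow hrpos.le (by positivity), hP, ← Real.rpow_natCast,
      ← Real.rpow_natCast, ← Real.rpow_mul (by norm_num), ← Real.rpow_mul (by norm_num),
      mul_comm (k : ℝ) q]
  have e2 : |g y - G K y| ≤ C / (1 - P) * r ^ (1 + β) := by
    have hdist : ∀ k : ℕ, dist (G (K + k) y) (G (K + (k + 1)) y) ≤ (C * r ^ p * r ^ q) * P ^ k := by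
      intro k
      rw [dist_comm, Real.dist_eq]
      have := h1 (K + k) (by omega) y hyb
      rw [hsq] at this
      calc |G (K + (k + 1)) y - G (K + k) y| ≤ C * r ^ p * (r ^ q * P ^ k) := this
        _ = _ := by ring
    have hlim : Tendsto (fun k => G (K + k) y) atTop (𝓝 (g y)) := by
      have := (h3 y hyb).comp (tendsto_add_atTop_nat K)
      refine this.congr fun k => ?_
      simp [add_comm]
    have := dist_le_of_le_geometric_of_tendsto₀ P (C * r ^ p * r ^ q) hP1 hdist hlim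
    rw [dist_comm, Real.dist_eq] at this
    simp only [add_zero] at this
    refine this.trans (le_of_eq ?_)
    rw [← hpq, Real.rpow_add hrpos]; ring
  have e3 : (n * (n * ((C + C / (Q - 1)) * r ^ (β - 1)))) * r * r
      = n * (n * (C + C / (Q - 1))) * r ^ (1 + β) := by
    have : r ^ (1 + β) = r ^ (β - 1) * (r * r) := by
      rw [← pow_two, ← Real.rpow_natCast r 2, ← Real.rpow_add hrpos]
      congr 1; push_cast; ring
    rw [this]; ring
  rw [e3] at e1
  rw [add_mul]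
  rw [abs_le] at e1 e2 ⊢
  constructor <;> linarith [e1.1, e1.2, e2.1, e2.2]

end

end Crest.Agent.R249.RegTay_717
end

-- ▼ part R249/RegDer_717
section

/-!
Row 249, leaf D3-REG (helper717), file 8: estimates of `cv (Ker T s (Δψ)) f` imply `f ∈ C^{1,β}`.
-/

set_option autoImplicit false
open scoped ContDiff ENNReal Topology
open MeasureTheory Set Filter
open Crest.GeometryTopology.CoordMetric

namespace Crest.Agent.R249.RegKer_717

open Crest.Agent.R202.Ell

noncomputable section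

variable {n : ℕ}

theorem cv_ker_pderiv {T : EE n →L[ℝ] EE n} {s : ℝ} {ψ f : EE n → ℝ} (hs : 0 < s)
    (hψ : IsTest ψ) {c : ℝ} (hT : ∀ x, ‖x‖ ≤ c * ‖T x‖) (hf : LocallyIntegrable f)
    (i : Fin n) (x : EE n) :
    pderiv i (cv (Ker T s ψ) f) x = s⁻¹ * ∑ k, ent T k i * cv (Ker T s (pderiv k ψ)) f x := by
  have hK : IsTest (Ker T s ψ) := ker_test hs hψ hT
  rw [pderiv_cv hK hf, cv_apply]
  have e1 : ∀ t, f t * pderiv i (Ker T s ψ) (x - t)
      = ∑ k, (s⁻¹ * ent T k i) * (f t * Ker T s (pderiv k ψ) (x - t)) := by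
    intro t
    rw [pderiv_ker (hψ.smooth.differentiable (by simp)), Finset.mul_sum, Finset.mul_sum]
    exact Finset.sum_congr rfl fun k _ => by ring
  simp only [e1]
  rw [integral_finsetSum]
  · rw [Finset.mul_sum]
    refine Finset.sum_congr rfl fun k _ => ?_
    rw [integral_const_mul, cv_apply]; ring
  · intro k _
    exact (cv_exists (ker_test hs (hψ.pderiv k) hT) hf x).const_mul _

theorem cv_ker_pderiv2 {T : EE n →L[ℝ] EE n} {s : ℝ} {ψ f : EE n → ℝ} (hs : 0 < s)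
    (hψ : IsTest ψ) {c : ℝ} (hT : ∀ x, ‖x‖ ≤ c * ‖T x‖) (hf : LocallyIntegrable f)
    (i j : Fin n) (x : EE n) :
    pderiv i (pderiv j (cv (Ker T s ψ) f)) x
      = s⁻¹ ^ 2 * ∑ l, ∑ k, ent T k i * ent T l j * cv (Ker T s (pderiv k (pderiv l ψ))) f x := by
  have h1 : pderiv j (cv (Ker T s ψ) f)
      = fun x => s⁻¹ * ∑ l, ent T l j * cv (Ker T s (pderiv l ψ)) f x :=
    funext fun x => cv_ker_pderiv hs hψ hT hf j x
  have hd : ∀ {φ : EE n → ℝ}, IsTest φ → Differentiable ℝ (cv (Ker T s φ) f) := fun h =>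
    (cv_smooth (ker_test hs h hT) hf).differentiable (by simp)
  rw [h1, pderiv_const_mul i x _ (DifferentiableAt.fun_sum fun l _ =>
    ((hd (hψ.pderiv l)) x).const_mul _), pderiv_sum _ i x (fun l _ =>
    ((hd (hψ.pderiv l)) x).const_mul _), Finset.mul_sum, Finset.mul_sum]
  refine Finset.sum_congr rfl fun l _ => ?_
  rw [pderiv_const_mul i x _ ((hd (hψ.pderiv l)) x), cv_ker_pderiv hs (hψ.pderiv l) hT hf,
    Finset.mul_sum, Finset.mul_sum, Finset.mul_sum, Finset.mul_sum]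
  exact Finset.sum_congr rfl fun k _ => by ring

theorem two_le : (2 : WithTop ℕ∞) ≤ ((⊤ : ℕ∞) : WithTop ℕ∞) :=
  WithTop.coe_le_coe.2 (le_top : (2 : ℕ∞) ≤ ⊤)

theorem it_cd2 {φ : EE n → ℝ} (h : IsTest φ) : ContDiff ℝ 2 φ := h.smooth.of_le two_le

theorem it_diff {φ : EE n → ℝ} (h : IsTest φ) : Differentiable ℝ φ :=
  h.smooth.differentiable (by simp)

theorem isTest_sum {ι : Type*} (t : Finset ι) {φ : ι → EE n → ℝ} (h : ∀ i ∈ t, IsTest (φ i)) :
    IsTest (fun x => ∑ i ∈ t, φ i x) := by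
  classical
  induction t using Finset.induction_on with
  | empty =>
    simp only [Finset.sum_empty]
    exact ⟨contDiff_const, HasCompactSupport.zero⟩
  | insert a t ha ih =>
    simp only [Finset.sum_insert ha]
    exact (h a (Finset.mem_insert_self _ _)).add
      (ih fun i hi => h i (Finset.mem_insert_of_mem hi))

theorem isTest_lap {φ : EE n → ℝ} (h : IsTest φ) : IsTest (lap φ) :=
  isTest_sum _ fun i _ => (h.pderiv i).pderiv i

theorem pderiv_lap {φ : EE n → ℝ} (h : IsTest φ) (k : Fin n) :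
    pderiv k (lap φ) = lap (pderiv k φ) := by
  ext x
  have h1 : lap φ = fun x => ∑ i, pderiv i (pderiv i φ) x := rfl
  rw [h1, pderiv_sum _ k x (fun i _ => it_diff ((h.pderiv i).pderiv i) x)]
  have h2 : lap (pderiv k φ) x = ∑ i, pderiv i (pderiv i (pderiv k φ)) x := rfl
  rw [h2]
  refine Finset.sum_congr rfl fun i _ => ?_
  have e1 : pderiv i (pderiv k φ) = pderiv k (pderiv i φ) :=
    funext fun y => pderiv_comm i k y (it_cd2 h).contDiffAt
  rw [e1, pderiv_comm k i x (it_cd2 (h.pderiv i)).contDiffAt]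

/-- the pair of profiles together with a common bound -/
structure Pair (η Φ : EE n → ℝ) (M : ℝ) : Prop where
  M0 : 0 ≤ M
  pη : PB η M
  pη2 : ∀ k l, PB (pderiv k (pderiv l η)) M
  pΦ : PB Φ M
  pΦ1 : ∀ k, PB (pderiv k Φ) M
  pΦ2 : ∀ k l, PB (pderiv k (pderiv l Φ)) M
  pΦ3 : ∀ m k l, PB (pderiv m (pderiv k (pderiv l Φ))) M
  int : ∫ x, η x = 1
  nonneg : ∀ x, 0 ≤ η x
  lap : ∀ x, lap Φ x = η x - 2 ^ n * η ((2 : ℝ) • x)

theorem PB.mono {ψ : EE n → ℝ} {M M' : ℝ} (h : PB ψ M) (hM : M ≤ M') : PB ψ M' :=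
  ⟨h.test, h.supp, fun x => (h.b0 x).trans hM, fun k x => (h.b1 k x).trans hM⟩

theorem exists_Pair (n : ℕ) (hn : 0 < n) : ∃ (η Φ : EE n → ℝ) (M : ℝ), Pair η Φ M := by
  obtain ⟨η, Φ, hη, hΦ, h1, h2, h3, h4, h5⟩ := exists_pair n hn
  have z1 : ∀ k x, 1 ≤ ‖x‖ → pderiv k η x = 0 := fun k => pderiv_zero_of_supp hη h1 k
  have z2 : ∀ k l x, 1 ≤ ‖x‖ → pderiv k (pderiv l η) x = 0 := fun k l =>
    pderiv_zero_of_supp (hη.pderiv l) (z1 l) k
  have w1 : ∀ k x, 1 ≤ ‖x‖ → pderiv k Φ x = 0 := fun k => pderiv_zero_of_supp hΦ h2 k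
  have w2 : ∀ k l x, 1 ≤ ‖x‖ → pderiv k (pderiv l Φ) x = 0 := fun k l =>
    pderiv_zero_of_supp (hΦ.pderiv l) (w1 l) k
  have w3 : ∀ m k l x, 1 ≤ ‖x‖ → pderiv m (pderiv k (pderiv l Φ)) x = 0 := fun m k l =>
    pderiv_zero_of_supp ((hΦ.pderiv l).pderiv k) (w2 k l) m
  obtain ⟨M1, m1, b1⟩ := exists_PB hη h1
  choose M2 m2 b2 using fun k l => exists_PB ((hη.pderiv l).pderiv k) (z2 k l)
  obtain ⟨M3, m3, b3⟩ := exists_PB hΦ h2
  choose M4 m4 b4 using fun k => exists_PB (hΦ.pderiv k) (w1 k)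
  choose M5 m5 b5 using fun k l => exists_PB ((hΦ.pderiv l).pderiv k) (w2 k l)
  choose M6 m6 b6 using fun m k l => exists_PB (((hΦ.pderiv l).pderiv k).pderiv m) (w3 m k l)
  set S2 := ∑ k, ∑ l, M2 k l with hS2
  set S4 := ∑ k, M4 k with hS4
  set S5 := ∑ k, ∑ l, M5 k l with hS5
  set S6 := ∑ m, ∑ k, ∑ l, M6 m k l with hS6
  have i2 : ∀ k l, M2 k l ≤ S2 := fun k l =>
    (Finset.single_le_sum (f := fun l => M2 k l) (fun l _ => m2 k l) (Finset.mem_univ l)).trans
      (Finset.single_le_sum (f := fun k => ∑ l, M2 k l)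
        (fun k _ => Finset.sum_nonneg fun l _ => m2 k l) (Finset.mem_univ k))
  have i4 : ∀ k, M4 k ≤ S4 := fun k =>
    Finset.single_le_sum (f := fun k => M4 k) (fun k _ => m4 k) (Finset.mem_univ k)
  have i5 : ∀ k l, M5 k l ≤ S5 := fun k l =>
    (Finset.single_le_sum (f := fun l => M5 k l) (fun l _ => m5 k l) (Finset.mem_univ l)).trans
      (Finset.single_le_sum (f := fun k => ∑ l, M5 k l)
        (fun k _ => Finset.sum_nonneg fun l _ => m5 k l) (Finset.mem_univ k))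
  have i6 : ∀ m k l, M6 m k l ≤ S6 := fun m k l =>
    ((Finset.single_le_sum (f := fun l => M6 m k l) (fun l _ => m6 m k l) (Finset.mem_univ l)).trans
      (Finset.single_le_sum (f := fun k => ∑ l, M6 m k l)
        (fun k _ => Finset.sum_nonneg fun l _ => m6 m k l) (Finset.mem_univ k))).trans
      (Finset.single_le_sum (f := fun m => ∑ k, ∑ l, M6 m k l)
        (fun m _ => Finset.sum_nonneg fun k _ => Finset.sum_nonneg fun l _ => m6 m k l)
        (Finset.mem_univ m))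
  have n2 : 0 ≤ S2 := Finset.sum_nonneg fun k _ => Finset.sum_nonneg fun l _ => m2 k l
  have n4 : 0 ≤ S4 := Finset.sum_nonneg fun k _ => m4 k
  have n5 : 0 ≤ S5 := Finset.sum_nonneg fun k _ => Finset.sum_nonneg fun l _ => m5 k l
  have n6 : 0 ≤ S6 := Finset.sum_nonneg fun m _ => Finset.sum_nonneg fun k _ =>
    Finset.sum_nonneg fun l _ => m6 m k l
  exact ⟨η, Φ, M1 + S2 + M3 + S4 + S5 + S6, by positivity, b1.mono (by linarith),
    fun k l => (b2 k l).mono (by linarith [i2 k l]), b3.mono (by linarith),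
    fun k => (b4 k).mono (by linarith [i4 k]), fun k l => (b5 k l).mono (by linarith [i5 k l]),
    fun m k l => (b6 m k l).mono (by linarith [i6 m k l]), h3, h4, h5⟩

/-- a profile bounded together with its first derivatives in `PB` -/
structure PB2 (ψ : EE n → ℝ) (M : ℝ) : Prop where
  p0 : PB ψ M
  p1 : ∀ m, PB (pderiv m ψ) M

theorem Pair.b0 {η Φ : EE n → ℝ} {M : ℝ} (h : Pair η Φ M) : PB2 Φ M := ⟨h.pΦ, h.pΦ1⟩
theorem Pair.b2 {η Φ : EE n → ℝ} {M : ℝ} (h : Pair η Φ M) (k l : Fin n) :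
    PB2 (pderiv k (pderiv l Φ)) M := ⟨h.pΦ2 k l, fun m => h.pΦ3 m k l⟩

theorem cv_ker_lap {η Φ : EE n → ℝ} {M : ℝ} (hp : Pair η Φ M) {A : Fin n → Fin n → ℝ}
    {T : EE n →L[ℝ] EE n} {c τ D : ℝ} (h : KD A T c τ D) {s : ℝ} (hs : 0 < s) {f : EE n → ℝ}
    (hf : LocallyIntegrable f) (x : EE n) :
    cv (Ker T s (lap Φ)) f x = cv (Ker T s η) f x - cv (Ker T (s / 2) η) f x := by
  simp only [cv_apply]
  rw [← integral_sub (cv_exists (ker_test hs hp.pη.test h.low) hf x)
    (cv_exists (ker_test (by positivity) hp.pη.test h.low) hf x)]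
  refine integral_congr_ae (Filter.Eventually.of_forall fun t => ?_)
  show f t * _ = f t * _ - f t * _
  rw [← ker_half (s := s), ← mul_sub]
  congr 1
  simp only [Ker]
  rw [hp.lap]; ring

/-- approximate identity -/
theorem approx {η Φ : EE n → ℝ} {M : ℝ} (hp : Pair η Φ M) {A : Fin n → Fin n → ℝ}
    {T : EE n →L[ℝ] EE n} {c τ D : ℝ} (h : KD A T c τ D) {r0 : ℝ} (hr0 : 0 < r0) {f : EE n → ℝ}
    (hf : LocallyIntegrable f) {y : EE n} (hc : ContinuousAt f y) :
    Tendsto (fun k : ℕ => cv (Ker T (r0 * (1 / 2) ^ k) η) f y) atTop (𝓝 (f y)) := by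
  rw [Metric.tendsto_atTop]
  intro ε hε
  obtain ⟨δ, hδ, hδ2⟩ := Metric.continuousAt_iff.1 hc (ε / 2) (by positivity)
  have h1 : Tendsto (fun k : ℕ => c * (r0 * (1 / 2 : ℝ) ^ k)) atTop (𝓝 0) := by
    have := (tendsto_pow_atTop_nhds_zero_of_lt_one (r := (1/2 : ℝ)) (by norm_num)
      (by norm_num)).const_mul (c * r0)
    simpa [mul_assoc] using this
  obtain ⟨N, hN⟩ := ((tendsto_order.1 h1).2 δ hδ).exists_forall_of_atTop
  refine ⟨N, fun k hk => ?_⟩
  set s := r0 * (1 / 2 : ℝ) ^ k with hs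
  have hs0 : 0 < s := by positivity
  have hcs : c * s < δ := hN k hk
  have hKt : IsTest (Ker T s η) := ker_test hs0 hp.pη.test h.low
  have hK1 : ∫ t, Ker T s η (y - t) = 1 := by
    rw [integral_sub_left_eq_self (Ker T s η) volume y, integral_ker hs0 h.det0, hp.int]
  have hi1 : Integrable (fun t => f t * Ker T s η (y - t)) := cv_exists hKt hf y
  have hi2 : Integrable (fun t => Ker T s η (y - t)) := (hKt.comp_sub y).integrable
  have e1 : cv (Ker T s η) f y - f y = ∫ t, (f t - f y) * Ker T s η (y - t) := by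
    have : ∀ t, (f t - f y) * Ker T s η (y - t)
        = f t * Ker T s η (y - t) - f y * Ker T s η (y - t) := fun t => by ring
    simp only [this]
    rw [integral_sub hi1 (hi2.const_mul _), integral_const_mul, hK1, mul_one, cv_apply]
  rw [Real.dist_eq, e1]
  have hnn : ∀ t, 0 ≤ Ker T s η (y - t) := fun t => by
    simp only [Ker]
    have := hp.nonneg (s⁻¹ • T (y - t))
    positivity
  have hb : ∀ t, ‖(f t - f y) * Ker T s η (y - t)‖ ≤ ε / 2 * Ker T s η (y - t) := by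
    intro t
    rw [norm_mul, Real.norm_eq_abs, Real.norm_eq_abs, abs_of_nonneg (hnn t)]
    by_cases ht : c * s ≤ ‖y - t‖
    · rw [ker_supp hs0 hp.pη.supp h.c0 h.low ht]; simp
    · refine mul_le_mul_of_nonneg_right ?_ (hnn t)
      have := hδ2 (x := t) (by rw [dist_comm, dist_eq_norm]; linarith)
      rw [Real.dist_eq] at this
      exact this.le
  have h3 : |∫ t, (f t - f y) * Ker T s η (y - t)| ≤ ∫ t, ε / 2 * Ker T s η (y - t) := by
    rw [← Real.norm_eq_abs]
    exact norm_integral_le_of_norm_le (hi2.const_mul _) (Filter.Eventually.of_forall hb)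
  rw [integral_const_mul, hK1] at h3
  linarith

/-- rough bound of the second derivatives of a convolution -/
theorem d2_rough {A : Fin n → Fin n → ℝ}
    {T : EE n →L[ℝ] EE n} {c τ D : ℝ} (h : KD A T c τ D) {s : ℝ} (hs : 0 < s) {f ψ : EE n → ℝ}
    {M : ℝ} (hψ : IsTest ψ) (hM : 0 ≤ M)
    (hψ2 : ∀ k l, PB (pderiv k (pderiv l ψ)) M) (hf : LocallyIntegrable f) {y : EE n} {I : ℝ}
    (hI : ∫ t in Metric.closedBall y (c * s), |f t| ≤ I) (i j : Fin n) :
    |pderiv i (pderiv j (cv (Ker T s ψ) f)) y|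
      ≤ s⁻¹ ^ 2 * (n * (n * (τ * τ * (D * (s⁻¹) ^ n * M * I)))) := by
  have hτ := h.τ0
  have hD := h.D0
  rw [cv_ker_pderiv2 hs hψ h.low hf, abs_mul, abs_of_nonneg (by positivity : (0:ℝ) ≤ s⁻¹ ^ 2)]
  refine mul_le_mul_of_nonneg_left ?_ (by positivity)
  have h1 : ∀ l k, |ent T k i * ent T l j * cv (Ker T s (pderiv k (pderiv l ψ))) f y|
      ≤ τ * τ * (D * (s⁻¹) ^ n * M * I) := by
    intro l k
    rw [abs_mul, abs_mul]
    refine mul_le_mul (mul_le_mul ((ent_le T k i).trans h.up) ((ent_le T l j).trans h.up)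
      (abs_nonneg _) hτ) ?_ (abs_nonneg _) (by positivity)
    rw [cv_apply]
    refine (int_bound hf (k := fun t => Ker T s (pderiv k (pderiv l ψ)) (y - t)) (ρ := c * s)
      (x := y) (fun t => ker_bound hs h.det (hψ2 k l).b0 _) fun t ht => ?_).trans
      (mul_le_mul_of_nonneg_left hI (by positivity))
    apply ker_supp hs (hψ2 k l).supp h.c0 h.low
    rw [Metric.mem_closedBall, dist_comm, dist_eq_norm] at ht
    linarith
  refine (Finset.abs_sum_le_sum_abs _ _).trans ?_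
  refine (Finset.sum_le_sum (g := fun _ => n * (τ * τ * (D * (s⁻¹) ^ n * M * I))) fun l _ => ?_).trans
    (by simp)
  refine (Finset.abs_sum_le_sum_abs _ _).trans ?_
  refine (Finset.sum_le_sum (g := fun _ => (τ * τ * (D * (s⁻¹) ^ n * M * I))) fun k _ => h1 l k).trans
    (by simp)

/-- the estimate of the increments -/
def Inc (T : EE n →L[ℝ] EE n) (f : EE n → ℝ) (x0 : EE n) (r0 M C p q : ℝ) : Prop :=
  ∀ ψ : EE n → ℝ, PB2 ψ M → ∀ s, 0 < s → s ≤ r0 → ∀ y, ‖y - x0‖ ≤ r0 →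
    |cv (Ker T s (lap ψ)) f y| ≤ C * (max ‖y - x0‖ s) ^ p * s ^ q

theorem affine_of_inc {η Φ : EE n → ℝ} {M : ℝ} (hp : Pair η Φ M) {A : Fin n → Fin n → ℝ}
    {T : EE n →L[ℝ] EE n} {c τ D : ℝ} (h : KD A T c τ D) {f : EE n → ℝ}
    (hf : LocallyIntegrable f) {x0 : EE n} {r0 C I p q β : ℝ} (hr0 : 0 < r0) (hr1 : r0 ≤ 1)
    (hC : 0 ≤ C) (hI0 : 0 ≤ I) (hp0 : 0 ≤ p) (hq : 0 < q) (hβ : 0 < β) (hβ1 : β < 1)
    (hpq : p + q = 1 + β) (hinc : Inc T f x0 r0 M C p q)
    (hcont : ∀ y, ‖y - x0‖ ≤ r0 → ContinuousAt f y)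
    (hI : ∀ y, ‖y - x0‖ ≤ r0 → ∫ t in Metric.closedBall y (c * r0), |f t| ≤ I) (K : ℕ) :
    ∃ (c' : ℝ) (L : EE n →L[ℝ] ℝ), ∀ y, ‖y - x0‖ ≤ r0 * (1 / 2) ^ K →
      |f y - c' - L (y - x0)| ≤ ((C + n * (n * (τ * τ * C)) +
        r0⁻¹ ^ 2 * (n * (n * (τ * τ * (D * (r0⁻¹) ^ n * M * I))))) / (1 - (1 / 2) ^ q) +
        n * (n * ((C + n * (n * (τ * τ * C)) +
        r0⁻¹ ^ 2 * (n * (n * (τ * τ * (D * (r0⁻¹) ^ n * M * I))))) +
        (C + n * (n * (τ * τ * C)) +
        r0⁻¹ ^ 2 * (n * (n * (τ * τ * (D * (r0⁻¹) ^ n * M * I))))) / (2 ^ (1 - β) - 1)))) *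
        (r0 * (1 / 2) ^ K) ^ (1 + β) := by
  have hτ := h.τ0
  have hD := h.D0
  have hM := hp.M0
  set C2 := C + n * (n * (τ * τ * C)) +
    r0⁻¹ ^ 2 * (n * (n * (τ * τ * (D * (r0⁻¹) ^ n * M * I)))) with hC2
  have hC20 : 0 ≤ C2 := by positivity
  have hCC2 : C ≤ C2 := by
    have : 0 ≤ n * (n * (τ * τ * C)) +
      r0⁻¹ ^ 2 * (n * (n * (τ * τ * (D * (r0⁻¹) ^ n * M * I)))) := by positivity
    linarith
  have hC3 : n * (n * (τ * τ * C)) ≤ C2 := by
    have : 0 ≤ C + r0⁻¹ ^ 2 * (n * (n * (τ * τ * (D * (r0⁻¹) ^ n * M * I)))) := by positivity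
    linarith
  have hC4 : r0⁻¹ ^ 2 * (n * (n * (τ * τ * (D * (r0⁻¹) ^ n * M * I)))) ≤ C2 := by
    have : 0 ≤ C + n * (n * (τ * τ * C)) := by positivity
    linarith
  have hs0 : ∀ k : ℕ, 0 < r0 * (1 / 2 : ℝ) ^ k := fun k => by positivity
  have hs1 : ∀ k : ℕ, r0 * (1 / 2 : ℝ) ^ k ≤ r0 := fun k =>
    mul_le_of_le_one_right hr0.le (pow_le_one₀ (by norm_num) (by norm_num))
  have hsm : ∀ k l : ℕ, k ≤ l → r0 * (1 / 2 : ℝ) ^ l ≤ r0 * (1 / 2 : ℝ) ^ k := fun k l hkl =>
    mul_le_mul_of_nonneg_left (pow_le_pow_of_le_one (by norm_num) (by norm_num) hkl) hr0.le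
  have hstep : ∀ (k : ℕ) (y : EE n), cv (Ker T (r0 * (1 / 2) ^ (k + 1)) η) f y
      - cv (Ker T (r0 * (1 / 2) ^ k) η) f y
      = - cv (Ker T (r0 * (1 / 2) ^ k) (RegKer_717.lap Φ)) f y := by
    intro k y
    rw [cv_ker_lap hp h (hs0 k) hf]
    have : r0 * (1 / 2 : ℝ) ^ k / 2 = r0 * (1 / 2) ^ (k + 1) := by rw [pow_succ]; ring
    rw [this]; ring
  refine Crest.Agent.R249.RegTay_717.dyadic (g := f)
    (G := fun k => cv (Ker T (r0 * (1 / 2) ^ k) η) f) (p := p) hr0 hr1 hC20 hq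
    hβ hβ1 hpq (fun k => (cv_smooth (ker_test (hs0 k) hp.pη.test h.low) hf).of_le two_le) K ?_ ?_ ?_ ?_
  · intro k hk y hy
    rw [Metric.mem_closedBall, dist_eq_norm] at hy
    rw [hstep, abs_neg]
    have h1 := hinc Φ hp.b0 _ (hs0 k) (hs1 k) y (hy.trans (hs1 K))
    refine h1.trans ?_
    have h2 : (max ‖y - x0‖ (r0 * (1 / 2) ^ k)) ^ p ≤ (r0 * (1 / 2) ^ K) ^ p :=
      Real.rpow_le_rpow (le_max_of_le_left (norm_nonneg _)) (max_le hy (hsm K k hk)) hp0
    have h3 : 0 ≤ (r0 * (1 / 2 : ℝ) ^ k) ^ q := Real.rpow_nonneg (hs0 k).le _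
    refine mul_le_mul_of_nonneg_right (mul_le_mul hCC2 h2 ?_ hC20) h3
    exact Real.rpow_nonneg (le_max_of_le_left (norm_nonneg _)) _
  · intro k hk y hy i j
    rw [Metric.mem_closedBall, dist_eq_norm] at hy
    set s := r0 * (1 / 2 : ℝ) ^ k with hs
    have hys : ‖y - x0‖ ≤ s := hy.trans (hsm k K hk.le)
    have hsm' : ∀ m, ContDiff ℝ 2 (cv (Ker T (r0 * (1 / 2) ^ m) η) f) := fun m =>
      (cv_smooth (ker_test (hs0 m) hp.pη.test h.low) hf).of_le two_le
    have hlt : IsTest (RegKer_717.lap Φ) := isTest_lap hp.pΦ.test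
    have hlsm : ContDiff ℝ 2 (cv (Ker T s (RegKer_717.lap Φ)) f) :=
      (cv_smooth (ker_test (hs0 k) hlt h.low) hf).of_le two_le
    -- second derivative of the difference
    have e1 : pderiv i (pderiv j (cv (Ker T (r0 * (1 / 2) ^ (k + 1)) η) f)) y
        - pderiv i (pderiv j (cv (Ker T s η) f)) y
        = - pderiv i (pderiv j (cv (Ker T s (RegKer_717.lap Φ)) f)) y := by
      have hpd : ∀ {G : EE n → ℝ}, ContDiff ℝ 2 G → Differentiable ℝ (pderiv j G) := fun {G} hG =>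
        ((hG.fderiv_right (m := 1) (by norm_num)).clm_apply contDiff_const).differentiable
          one_ne_zero
      have hda : ∀ {G : EE n → ℝ}, ContDiff ℝ 2 G → Differentiable ℝ G := fun hG =>
        hG.differentiable (by norm_num)
      have a1 : cv (Ker T (r0 * (1 / 2) ^ (k + 1)) η) f
          = fun y => cv (Ker T s η) f y + (-1) * cv (Ker T s (RegKer_717.lap Φ)) f y := by
        ext y; have := hstep k y; rw [← hs] at this; linarith
      have a2 : pderiv j (cv (Ker T (r0 * (1 / 2) ^ (k + 1)) η) f)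
          = fun y => pderiv j (cv (Ker T s η) f) y
            + (-1) * pderiv j (cv (Ker T s (RegKer_717.lap Φ)) f) y := by
        ext y
        rw [a1, pderiv_add j y (hda (hsm' k) y) ((hda hlsm y).const_mul _),
          pderiv_const_mul j y _ (hda hlsm y)]
      rw [a2, pderiv_add i y (hpd (hsm' k) y) ((hpd hlsm y).const_mul _),
          pderiv_const_mul i y _ (hpd hlsm y)]
      ring
    rw [e1, abs_neg, cv_ker_pderiv2 (hs0 k) hlt h.low hf]
    have e2 : ∀ l m, |ent T m i * ent T l j *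
        cv (Ker T s (pderiv m (pderiv l (RegKer_717.lap Φ)))) f y|
        ≤ τ * τ * (C * s ^ (1 + β)) := by
      intro l m
      rw [pderiv_lap hp.pΦ.test, pderiv_lap (hp.pΦ.test.pderiv l), abs_mul, abs_mul]
      refine mul_le_mul (mul_le_mul ((ent_le T m i).trans h.up) ((ent_le T l j).trans h.up)
        (abs_nonneg _) hτ) ?_ (abs_nonneg _) (by positivity)
      have h1 := hinc _ (hp.b2 m l) s (hs0 k) (hs1 k) y (hy.trans (hs1 K))
      refine h1.trans (le_of_eq ?_)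
      rw [max_eq_right hys, mul_assoc, ← Real.rpow_add (hs0 k), hpq]
    rw [abs_mul, abs_of_nonneg (by positivity : (0:ℝ) ≤ s⁻¹ ^ 2)]
    have e3 : |∑ l, ∑ m, ent T m i * ent T l j *
        cv (Ker T s (pderiv m (pderiv l (RegKer_717.lap Φ)))) f y|
        ≤ n * (n * (τ * τ * (C * s ^ (1 + β)))) := by
      refine (Finset.abs_sum_le_sum_abs _ _).trans ?_
      refine (Finset.sum_le_sum (g := fun _ => n * (τ * τ * (C * s ^ (1 + β)))) fun l _ => ?_).trans
        (by simp)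
      refine (Finset.abs_sum_le_sum_abs _ _).trans ?_
      exact (Finset.sum_le_sum (g := fun _ => τ * τ * (C * s ^ (1 + β))) fun m _ =>
        e2 l m).trans (by simp)
    refine (mul_le_mul_of_nonneg_left e3 (by positivity)).trans ?_
    have e4 : s⁻¹ ^ 2 * (n * (n * (τ * τ * (C * s ^ (1 + β)))))
        = n * (n * (τ * τ * C)) * s ^ (β - 1) := by
      have : s ^ (1 + β) = s ^ 2 * s ^ (β - 1) := by
        rw [← Real.rpow_natCast s 2, ← Real.rpow_add (hs0 k)]
        congr 1; push_cast; ring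
      rw [this]
      have h5 : s ≠ 0 := (hs0 k).ne'
      field_simp
    rw [e4]
    exact mul_le_mul_of_nonneg_right hC3 (Real.rpow_nonneg (hs0 k).le _)
  · intro y hy
    rw [Metric.mem_closedBall, dist_eq_norm] at hy
    exact approx hp h hr0 hf (hcont y (hy.trans (hs1 K)))
  · intro y hy i j
    rw [Metric.mem_closedBall, dist_eq_norm] at hy
    simp only [pow_zero, mul_one]
    exact (d2_rough h hr0 hp.pη.test hM hp.pη2 hf (hI y (hy.trans (hs1 K))) i j).trans hC4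

/-- **`C^{1,β}` from estimates of the increments.** -/
theorem c1_of_inc {η Φ : EE n → ℝ} {M : ℝ} (hp : Pair η Φ M) {c τ D : ℝ} (hτ : 0 ≤ τ) (hD : 0 ≤ D)
    {f : EE n → ℝ} (hf : LocallyIntegrable f) {U : Set (EE n)} {r0 C I p q β : ℝ} (hr0 : 0 < r0)
    (hr1 : r0 ≤ 1) (hC : 0 ≤ C) (hI0 : 0 ≤ I) (hp0 : 0 ≤ p) (hq : 0 < q) (hβ : 0 < β) (hβ1 : β < 1)
    (hpq : p + q = 1 + β)
    (hinc : ∀ x0 ∈ U, ∃ A T, KD A T c τ D ∧ Inc T f x0 r0 M C p q)
    (hcont : ∀ x0 ∈ U, ∀ y, ‖y - x0‖ ≤ r0 → ContinuousAt f y)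
    (hI : ∀ x0 ∈ U, ∀ y, ‖y - x0‖ ≤ r0 → ∫ t in Metric.closedBall y (c * r0), |f t| ≤ I) :
    ∃ (g : EE n → (EE n →L[ℝ] ℝ)) (K : ℝ), 0 ≤ K ∧
      (∀ x ∈ U, ∀ y, ‖y - x‖ ≤ r0 → |f y - f x - g x (y - x)| ≤ K * ‖y - x‖ ^ (1 + β)) ∧
      (∀ x ∈ U, HasFDerivAt f (g x) x) ∧
      ∀ x ∈ U, ∀ y ∈ U, ‖x - y‖ ≤ r0 / 2 → ‖g x - g y‖ ≤ K * ‖x - y‖ ^ β := by
  have hM := hp.M0
  obtain ⟨C5, hC5, hC5d⟩ : ∃ C5, 0 ≤ C5 ∧ C5 = ((C + n * (n * (τ * τ * C)) +
        r0⁻¹ ^ 2 * (n * (n * (τ * τ * (D * (r0⁻¹) ^ n * M * I))))) / (1 - (1 / 2) ^ q) +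
        n * (n * ((C + n * (n * (τ * τ * C)) +
        r0⁻¹ ^ 2 * (n * (n * (τ * τ * (D * (r0⁻¹) ^ n * M * I))))) +
        (C + n * (n * (τ * τ * C)) +
        r0⁻¹ ^ 2 * (n * (n * (τ * τ * (D * (r0⁻¹) ^ n * M * I))))) / (2 ^ (1 - β) - 1)))) := by
    refine ⟨_, ?_, rfl⟩
    have h1 : (1 / 2 : ℝ) ^ q < 1 := Real.rpow_lt_one (by norm_num) (by norm_num) hq
    have h2 : (1 : ℝ) < 2 ^ (1 - β) := Real.one_lt_rpow (by norm_num) (by linarith)
    have h3 : 0 < 1 - (1 / 2 : ℝ) ^ q := by linarith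
    have h4 : 0 < (2 : ℝ) ^ (1 - β) - 1 := by linarith
    positivity
  refine Crest.Agent.R249.RegAff_717.c1_of_affine (C := C5 * 2 ^ (1 + β)) hr0 (by positivity) hβ ?_
  intro x hx ρ hρ hρ1
  obtain ⟨A, T, hKD, hI1⟩ := hinc x hx
  have hex : ∃ k : ℕ, r0 * (1 / 2 : ℝ) ^ (k + 1) < ρ := by
    have ht : Tendsto (fun k : ℕ => r0 * (1 / 2 : ℝ) ^ (k + 1)) atTop (𝓝 0) := by
      have h1 : Tendsto (fun k : ℕ => (1 / 2 : ℝ) ^ k) atTop (𝓝 0) :=
        tendsto_pow_atTop_nhds_zero_of_lt_one (by norm_num) (by norm_num)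
      have h2 := (h1.const_mul r0).comp (tendsto_add_atTop_nat 1)
      simpa [Function.comp_def] using h2
    exact ((tendsto_order.1 ht).2 _ hρ).exists
  set k := Nat.find hex with hk
  have hk1 : r0 * (1 / 2 : ℝ) ^ (k + 1) < ρ := Nat.find_spec hex
  have hk2 : ρ ≤ r0 * (1 / 2 : ℝ) ^ k := by
    rcases Nat.eq_zero_or_pos k with h0 | h0
    · rw [h0]; simpa using hρ1
    · have := Nat.find_min hex (m := k - 1) (by omega)
      rw [show k - 1 + 1 = k by omega] at this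
      exact not_lt.1 this
  have hk3 : r0 * (1 / 2 : ℝ) ^ k ≤ 2 * ρ := by
    rw [pow_succ] at hk1; linarith
  obtain ⟨c', L, hcL⟩ := affine_of_inc hp hKD hf hr0 hr1 hC hI0 hp0 hq hβ hβ1 hpq hI1
    (hcont x hx) (hI x hx) k
  refine ⟨c', L, fun y hy => ?_⟩
  have h1 := hcL y (hy.trans hk2)
  rw [← hC5d] at h1
  refine h1.trans ?_
  have h2 : (r0 * (1 / 2 : ℝ) ^ k) ^ (1 + β) ≤ (2 * ρ) ^ (1 + β) :=
    Real.rpow_le_rpow (by positivity) hk3 (by linarith)
  rw [Real.mul_rpow (by norm_num) hρ.le] at h2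
  calc C5 * (r0 * (1 / 2 : ℝ) ^ k) ^ (1 + β) ≤ C5 * (2 ^ (1 + β) * ρ ^ (1 + β)) :=
        mul_le_mul_of_nonneg_left h2 hC5
    _ = _ := by ring

end

end Crest.Agent.R249.RegKer_717
end

-- ▼ part R249/RegL1_717
section

/-!
Row 249, leaf D3-REG (helper717), file 9: first step, `C^α` + Morrey growth ⇒ `C^{1,2α-1}`.
-/

set_option autoImplicit false
open scoped ContDiff ENNReal Topology
open MeasureTheory Set Filter
open Crest.GeometryTopology.CoordMetric

namespace Crest.Agent.R249.RegKer_717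

open Crest.Agent.R202.Ell

noncomputable section

variable {n : ℕ}

theorem pw1 {s c α : ℝ} (hs : 0 < s) (hc : 0 < c) :
    s ^ 2 * ((s⁻¹) ^ n * (c * s) ^ ((n : ℝ) - 2 + 2 * α)) = c ^ ((n : ℝ) - 2 + 2 * α) * (s ^ α * s ^ α) := by
  rw [Real.mul_rpow hc.le hs.le, ← Real.rpow_natCast s 2, ← Real.rpow_natCast (s⁻¹) n,
    Real.inv_rpow hs.le, ← Real.rpow_neg hs.le]
  have : s ^ ((2 : ℕ) : ℝ) * (s ^ (-(n : ℝ)) * (c ^ ((n : ℝ) - 2 + 2 * α) * s ^ ((n : ℝ) - 2 + 2 * α)))
      = c ^ ((n : ℝ) - 2 + 2 * α) * (s ^ ((2 : ℕ) : ℝ) * (s ^ (-(n : ℝ)) * s ^ ((n : ℝ) - 2 + 2 * α))) := by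
    ring
  rw [this, ← Real.rpow_add hs, ← Real.rpow_add hs, ← Real.rpow_add hs]
  congr 2
  push_cast; ring

theorem pw2 {s c α : ℝ} (hs : 0 < s) (hc : 0 < c) :
    s ^ 2 * (s⁻¹ * ((s⁻¹) ^ n * (c * s) ^ ((n : ℝ) - 1 + α))) = c ^ ((n : ℝ) - 1 + α) * s ^ α := by
  rw [Real.mul_rpow hc.le hs.le, ← Real.rpow_natCast s 2, ← Real.rpow_natCast (s⁻¹) n,
    Real.inv_rpow hs.le, ← Real.rpow_neg hs.le, ← Real.rpow_neg_one s]
  have : s ^ ((2 : ℕ) : ℝ) * (s ^ (-1 : ℝ) * (s ^ (-(n : ℝ)) * (c ^ ((n : ℝ) - 1 + α) * s ^ ((n : ℝ) - 1 + α))))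
      = c ^ ((n : ℝ) - 1 + α) * (s ^ ((2 : ℕ) : ℝ) * (s ^ (-1 : ℝ) * (s ^ (-(n : ℝ)) * s ^ ((n : ℝ) - 1 + α)))) := by
    ring
  rw [this, ← Real.rpow_add hs, ← Real.rpow_add hs, ← Real.rpow_add hs]
  congr 2
  push_cast; ring

/-- the constant of the first step -/
def CL1 (n : ℕ) (c τ D M α Ca CB CH : ℝ) : ℝ :=
  D * M * CB * c ^ ((n : ℝ) - 2 + 2 * α) +
      n * (n * (n * (τ * (D * M)))) * CH * c ^ ((n : ℝ) - 1 + α) * Ca * (1 + c) ^ α

/-- **Increment estimate, first step.** -/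
theorem inc_L1 {V : Set (EE n)} {w : EE n → ℝ} {H : Fin n → EE n → ℝ}
    {a : Fin n → Fin n → EE n → ℝ} {B : EE n → ℝ}
    (hw : LocallyIntegrable w) (hH : ∀ i, LocallyIntegrable (H i)) (hB : LocallyIntegrable B)
    (haH : ∀ i j, LocallyIntegrable (fun x => a i j x * H i x))
    (hwd : ∀ i, WDOn V i w (H i)) (heq : WEqOn V a H B)
    {α Ca CB CH : ℝ} (hα : 0 < α) (hCa : 0 ≤ Ca) (hCB : 0 ≤ CB)
    (hhol : ∀ i j, ∀ x ∈ V, ∀ y ∈ V, |a i j x - a i j y| ≤ Ca * ‖x - y‖ ^ α)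
    {r0 c τ D M : ℝ} {x0 : EE n} {T : EE n →L[ℝ] EE n} (hM : 0 ≤ M)
    (h : KD (fun i j => a i j x0) T c τ D)
    (hV : ∀ y, ‖y - x0‖ ≤ r0 → Metric.closedBall y (c * r0) ⊆ V)
    (hmB : ∀ y, ‖y - x0‖ ≤ r0 → ∀ ρ, 0 < ρ → ρ ≤ c * r0 →
      ∫ t in Metric.closedBall y ρ, |B t| ≤ CB * ρ ^ ((n : ℝ) - 2 + 2 * α))
    (hmH : ∀ i, ∀ y, ‖y - x0‖ ≤ r0 → ∀ ρ, 0 < ρ → ρ ≤ c * r0 →
      ∫ t in Metric.closedBall y ρ, |H i t| ≤ CH * ρ ^ ((n : ℝ) - 1 + α)) :
    Inc T w x0 r0 M (CL1 n c τ D M α Ca CB CH) α α := by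
  unfold CL1
  intro ψ hψ s hs hsr y hy
  have hc := h.c0
  have hD := h.D0
  have hτ := h.τ0
  set m := max ‖y - x0‖ s with hm
  have hm1 : ‖y - x0‖ ≤ m := le_max_left _ _
  have hm2 : s ≤ m := le_max_right _ _
  have hm0 : 0 < m := hs.trans_le hm2
  have hr0 : 0 < r0 := hs.trans_le hsr
  have hcs : c * s ≤ c * r0 := mul_le_mul_of_nonneg_left hsr hc.le
  have hVs : Metric.closedBall y (c * s) ⊆ V := (Metric.closedBall_subset_closedBall hcs).trans (hV y hy)
  have hx0V : x0 ∈ V := hV x0 (by simpa using hr0.le) (Metric.mem_closedBall_self (by positivity))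
  have hom : ∀ i j, ∀ t ∈ Metric.closedBall y (c * s), |a i j x0 - a i j t|
      ≤ Ca * ((1 + c) ^ α * m ^ α) := by
    intro i j t ht
    refine (hhol i j x0 hx0V t (hVs ht)).trans (mul_le_mul_of_nonneg_left ?_ hCa)
    rw [← Real.mul_rpow (by positivity) hm0.le]
    refine Real.rpow_le_rpow (norm_nonneg _) ?_ hα.le
    rw [Metric.mem_closedBall, dist_eq_norm] at ht
    have : x0 - t = (x0 - y) + (y - t) := by abel
    rw [this]
    refine (norm_add_le _ _).trans ?_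
    rw [norm_sub_rev x0 y, norm_sub_rev y t]
    nlinarith
  have h1 := inc_est h hw hH hB haH hwd heq hψ.p0 hs hVs hom
    (hmB y hy (c * s) (by positivity) hcs) (fun i => hmH i y hy (c * s) (by positivity) hcs)
  refine h1.trans ?_
  have hsα : 0 ≤ s ^ α := Real.rpow_nonneg hs.le _
  have hmα : s ^ α ≤ m ^ α := Real.rpow_le_rpow hs.le hm2 hα.le
  have p1 := pw1 (n := n) (α := α) hs hc
  have p2 := pw2 (n := n) (α := α) hs hc
  have hc1 : 0 ≤ c ^ ((n : ℝ) - 2 + 2 * α) := Real.rpow_nonneg hc.le _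
  calc s ^ 2 * ((D * (s⁻¹) ^ n * M) * (CB * (c * s) ^ ((n : ℝ) - 2 + 2 * α)) +
      n * (n * (s⁻¹ * (n * (τ * (D * (s⁻¹) ^ n * M))) *
        (Ca * ((1 + c) ^ α * m ^ α) * (CH * (c * s) ^ ((n : ℝ) - 1 + α))))))
      = D * M * CB * (s ^ 2 * ((s⁻¹) ^ n * (c * s) ^ ((n : ℝ) - 2 + 2 * α))) +
        n * (n * (n * (τ * (D * M)))) * CH * Ca * (1 + c) ^ α * m ^ α *
          (s ^ 2 * (s⁻¹ * ((s⁻¹) ^ n * (c * s) ^ ((n : ℝ) - 1 + α)))) := by ring
    _ = D * M * CB * c ^ ((n : ℝ) - 2 + 2 * α) * s ^ α * s ^ α +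
        n * (n * (n * (τ * (D * M)))) * CH * Ca * (1 + c) ^ α * m ^ α *
          (c ^ ((n : ℝ) - 1 + α) * s ^ α) := by rw [p1, p2]; ring
    _ ≤ D * M * CB * c ^ ((n : ℝ) - 2 + 2 * α) * m ^ α * s ^ α +
        n * (n * (n * (τ * (D * M)))) * CH * Ca * (1 + c) ^ α * m ^ α *
          (c ^ ((n : ℝ) - 1 + α) * s ^ α) := by
        have h5 : D * M * CB * c ^ ((n : ℝ) - 2 + 2 * α) * s ^ α * s ^ α
            ≤ D * M * CB * c ^ ((n : ℝ) - 2 + 2 * α) * m ^ α * s ^ α := by
          refine mul_le_mul_of_nonneg_right (mul_le_mul_of_nonneg_left hmα ?_) hsα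
          positivity
        linarith
    _ = _ := by ring

/-- **First step.** -/
theorem L1 {η Φ : EE n → ℝ} {M : ℝ} (hp : Pair η Φ M)
    {V W : Set (EE n)} {w : EE n → ℝ} {H : Fin n → EE n → ℝ}
    {a : Fin n → Fin n → EE n → ℝ} {B : EE n → ℝ}
    (hw : LocallyIntegrable w) (hH : ∀ i, LocallyIntegrable (H i)) (hB : LocallyIntegrable B)
    (haH : ∀ i j, LocallyIntegrable (fun x => a i j x * H i x))
    (hwd : ∀ i, WDOn V i w (H i)) (heq : WEqOn V a H B)
    {α Ca CB CH lam Lam I : ℝ} (hα : 1 / 2 < α) (hα1 : α < 1) (hCa : 0 ≤ Ca) (hCB : 0 ≤ CB)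
    (hCH : 0 ≤ CH) (hlam : 0 < lam) (hLam : 1 ≤ Lam) (hI0 : 0 ≤ I)
    (hell : ∀ x ∈ W, Ellc lam Lam (fun i j => a i j x))
    (hhol : ∀ i j, ∀ x ∈ V, ∀ y ∈ V, |a i j x - a i j y| ≤ Ca * ‖x - y‖ ^ α)
    {r0 : ℝ} (hr0 : 0 < r0) (hr1 : r0 ≤ 1)
    (hV : ∀ x0 ∈ W, ∀ y, ‖y - x0‖ ≤ r0 → Metric.closedBall y (Real.sqrt Lam * r0) ⊆ V)
    (hcont : ∀ x ∈ V, ContinuousAt w x)
    (hI : ∀ x0 ∈ W, ∀ y, ‖y - x0‖ ≤ r0 → ∫ t in Metric.closedBall y (Real.sqrt Lam * r0), |w t| ≤ I)
    (hmB : ∀ x0 ∈ W, ∀ y, ‖y - x0‖ ≤ r0 → ∀ ρ, 0 < ρ → ρ ≤ Real.sqrt Lam * r0 →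
      ∫ t in Metric.closedBall y ρ, |B t| ≤ CB * ρ ^ ((n : ℝ) - 2 + 2 * α))
    (hmH : ∀ i, ∀ x0 ∈ W, ∀ y, ‖y - x0‖ ≤ r0 → ∀ ρ, 0 < ρ → ρ ≤ Real.sqrt Lam * r0 →
      ∫ t in Metric.closedBall y ρ, |H i t| ≤ CH * ρ ^ ((n : ℝ) - 1 + α)) :
    ∃ (g : EE n → (EE n →L[ℝ] ℝ)) (K : ℝ), 0 ≤ K ∧
      (∀ x ∈ W, ∀ y, ‖y - x‖ ≤ r0 → |w y - w x - g x (y - x)| ≤ K * ‖y - x‖ ^ (1 + (2 * α - 1))) ∧
      (∀ x ∈ W, HasFDerivAt w (g x) x) ∧
      ∀ x ∈ W, ∀ y ∈ W, ‖x - y‖ ≤ r0 / 2 → ‖g x - g y‖ ≤ K * ‖x - y‖ ^ (2 * α - 1) := by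
  have hM := hp.M0
  have hc0 : 0 < Real.sqrt Lam := Real.sqrt_pos.2 (by linarith)
  obtain ⟨CC, hCC0, hCC⟩ : ∃ CC, 0 ≤ CC ∧ ∀ x0 ∈ W, ∃ A T,
      KD (n := n) A T (Real.sqrt Lam) (Real.sqrt (1 / lam)) (Real.sqrt (1 / lam) ^ n) ∧
      Inc T w x0 r0 M CC α α := by
    refine ⟨CL1 n (Real.sqrt Lam) (Real.sqrt (1 / lam)) (Real.sqrt (1 / lam) ^ n) M α Ca CB CH,
      ?_, fun x0 hx0 => ?_⟩
    rotate_left
    · obtain ⟨T, hT⟩ := exists_adapt hlam hLam (hell x0 hx0)
      exact ⟨_, T, hT, inc_L1 hw hH hB haH hwd heq (by linarith) hCa hCB hhol hM hT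
        (hV x0 hx0) (hmB x0 hx0) (fun i => hmH i x0 hx0)⟩
    · unfold CL1
      have := Real.rpow_nonneg hc0.le ((n : ℝ) - 2 + 2 * α)
      have := Real.rpow_nonneg hc0.le ((n : ℝ) - 1 + α)
      have : 0 ≤ (1 + Real.sqrt Lam) ^ α := Real.rpow_nonneg (by positivity) α
      positivity
  exact c1_of_inc hp (Real.sqrt_nonneg _) (by positivity) hw hr0 hr1 hCC0 hI0
    (by linarith) (by linarith) (by linarith) (by linarith) (by ring) hCC
    (fun x0 hx0 y hy => hcont y (hV x0 hx0 y hy (Metric.mem_closedBall_self (by positivity)))) hI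

end

end Crest.Agent.R249.RegKer_717
end

-- ▼ part R249/RegL2_717

/-!
Row 249, leaf D3-REG (helper717), file 10: second step (linear Schauder estimate):
`v ∈ C^{1,β}`, `a ∈ C^{1,β}`, `f ∈ C^β` ⇒ `∇ v ∈ C^{1,β}`.
-/

set_option autoImplicit false
open scoped ContDiff ENNReal Topology
open MeasureTheory Set Filter
open Crest.GeometryTopology.CoordMetric

namespace Crest.Agent.R249.RegKer_717

open Crest.Agent.R202.Ell

noncomputable section

variable {n : ℕ}

/-- moving a derivative to the kernel -/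
theorem cv_wd {V : Set (EE n)} {e : Fin n} {v g : EE n → ℝ} (hwd : WDOn V e v g)
    {K : EE n → ℝ} (hK : IsTest K) {y : EE n}
    (hs : tsupport (fun t => K (y - t)) ⊆ V) : cv K g y = cv (pderiv e K) v y := by
  have h1 := hwd _ (hK.comp_sub y) hs
  simp only [cv_apply]
  have h2 : ∀ t, pderiv e (fun t => K (y - t)) t = - pderiv e K (y - t) := fun t =>
    pderiv_comp_sub e y t (hK.smooth.differentiable (by simp) _)
  simp only [h2] at h1
  have h3 : ∀ t, v t * -pderiv e K (y - t) = - (v t * pderiv e K (y - t)) := fun t => by ring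
  simp only [h3, integral_neg] at h1
  linarith

/-- `cv (Ker T s (Δψ)) g` for a derivative `g = ∂_e v` -/
theorem cv_wd_ker {A : Fin n → Fin n → ℝ} {T : EE n →L[ℝ] EE n} {c τ D : ℝ} (h : KD A T c τ D)
    {V : Set (EE n)} {e : Fin n} {v g : EE n → ℝ} (hwd : WDOn V e v g) (hv : LocallyIntegrable v)
    {ψ : EE n → ℝ} {M : ℝ} (hψ : PB ψ M) {s : ℝ} (hs : 0 < s) {y : EE n}
    (hV : Metric.closedBall y (c * s) ⊆ V) :
    cv (Ker T s (lap ψ)) g y = s⁻¹ * ∑ m, ent T m e * cv (Ker T s (lap (pderiv m ψ))) v y := by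
  have hl : IsTest (lap ψ) := isTest_lap hψ.test
  have hK : IsTest (Ker T s (lap ψ)) := ker_test hs hl h.low
  have hl0 : ∀ x, 1 ≤ ‖x‖ → lap ψ x = 0 := by
    intro x hx
    have : ∀ k, pderiv k (pderiv k ψ) x = 0 := fun k =>
      pderiv_zero_of_supp (hψ.test.pderiv k) (pderiv_zero_of_supp hψ.test hψ.supp k) k x hx
    simp [lap, this]
  rw [cv_wd hwd hK ((tsupport_ker hs hl0 h.c0 h.low y).trans hV)]
  rw [← pderiv_cv hK hv, cv_ker_pderiv hs hl h.low hv]
  simp only [pderiv_lap hψ.test]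

/-- zero mean of a derivative -/
theorem integral_pderiv_zero {φ : EE n → ℝ} (h : IsTest φ) (m : Fin n) :
    ∫ x, pderiv m φ x = 0 := by
  have h1 := integral_parts (f := fun _ : EE n => (1 : ℝ)) (g := φ) m (differentiable_const _)
    (it_diff h) (by simpa using (h.pderiv m).integrable) (by
      have : ∀ x : EE n, pderiv m (fun _ : EE n => (1 : ℝ)) x = 0 := fun x => by
        simp [Crest.GeometryTopology.CoordMetric.pderiv]
      simp [this]) (by simpa using h.integrable)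
  have h2 : ∀ x : EE n, pderiv m (fun _ : EE n => (1 : ℝ)) x = 0 := fun x => by
    simp [Crest.GeometryTopology.CoordMetric.pderiv]
  simpa [h2] using h1

/-- first moments of a derivative -/
theorem integral_coord_pderiv {φ : EE n → ℝ} (h : IsTest φ) (h0 : ∫ x, φ x = 0) (j l : Fin n) :
    ∫ x, x l * pderiv j φ x = 0 := by
  have hsm : ContDiff ℝ ∞ (fun x : EE n => x l) :=
    (EuclideanSpace.proj (𝕜 := ℝ) l).contDiff
  have hpd : ∀ x, pderiv j (fun x : EE n => x l) x = if j = l then 1 else 0 := by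
    intro x
    unfold Crest.GeometryTopology.CoordMetric.pderiv
    have : HasFDerivAt (fun x : EE n => x l) (EuclideanSpace.proj (𝕜 := ℝ) l) x :=
      (EuclideanSpace.proj (𝕜 := ℝ) l).hasFDerivAt
    rw [this.fderiv]
    simp [eq_comm]
  have i1 : Integrable (fun x => (fun x : EE n => x l) x * pderiv j φ x) :=
    ((h.pderiv j).mul_left hsm).integrable
  have i2 : Integrable (fun x => pderiv j (fun x : EE n => x l) x * φ x) := by
    simp only [hpd]
    exact h.integrable.const_mul _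
  have i3 : Integrable (fun x => (fun x : EE n => x l) x * φ x) := (h.mul_left hsm).integrable
  have h1 := integral_parts (f := fun x : EE n => x l) (g := φ) j
    (hsm.differentiable (by simp)) (it_diff h) i1 i2 i3
  rw [h1]
  simp only [hpd]
  rw [integral_const_mul, h0, mul_zero, neg_zero]

/-- linear moments of a derivative -/
theorem integral_lin_pderiv {φ : EE n → ℝ} (h : IsTest φ) (h0 : ∫ x, φ x = 0) (j : Fin n)
    (L : EE n →L[ℝ] ℝ) (y : EE n) : ∫ t, L (t - y) * pderiv j φ (y - t) = 0 := by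
  have e1 : ∀ t, L (t - y) * pderiv j φ (y - t) = - (L (y - t) * pderiv j φ (y - t)) := by
    intro t
    have : t - y = - (y - t) := by abel
    rw [this, map_neg]; ring
  simp only [e1, integral_neg]
  rw [integral_sub_left_eq_self (fun z => L z * pderiv j φ z) volume y]
  have e2 : ∀ z, L z * pderiv j φ z
      = ∑ l, L (EuclideanSpace.single l 1) * (z l * pderiv j φ z) := by
    intro z
    rw [clm_eq_sum L z, Finset.sum_mul]
    exact Finset.sum_congr rfl fun l _ => by ring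
  simp only [e2]
  rw [integral_finsetSum]
  · have : ∀ l, ∫ z, L (EuclideanSpace.single l 1) * (z l * pderiv j φ z) = 0 := by
      intro l
      rw [integral_const_mul, integral_coord_pderiv h h0, mul_zero]
    simp [this]
  · intro l _
    have hsm : ContDiff ℝ ∞ (fun x : EE n => x l) := (EuclideanSpace.proj (𝕜 := ℝ) l).contDiff
    exact (((h.pderiv j).mul_left hsm).integrable).const_mul _

/-- volume of the unit ball -/
def vb (n : ℕ) : ℝ := (volume (Metric.closedBall (0 : EE n) 1)).toReal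

theorem vb0 : 0 ≤ vb n := ENNReal.toReal_nonneg

theorem vol_ball (y : EE n) {ρ : ℝ} (hρ : 0 ≤ ρ) :
    (volume (Metric.closedBall y ρ)).toReal = ρ ^ n * vb n := by
  have := Measure.addHaar_closedBall' (volume : Measure (EE n)) y hρ
  rw [this]
  simp only [finrank_euclideanSpace, Fintype.card_fin]
  rw [ENNReal.toReal_mul, ENNReal.toReal_ofReal (by positivity)]
  rfl

theorem int_const_bound {g : EE n → ℝ} (hg : LocallyIntegrable g) {y : EE n} {ρ m : ℝ}
    (hρ : 0 ≤ ρ) (hb : ∀ t ∈ Metric.closedBall y ρ, |g t| ≤ m) :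
    ∫ t in Metric.closedBall y ρ, |g t| ≤ m * (ρ ^ n * vb n) := by
  have hi : IntegrableOn (fun t => |g t|) (Metric.closedBall y ρ) :=
    (hg.integrableOn_isCompact (isCompact_closedBall _ _)).abs
  have h1 : ∫ t in Metric.closedBall y ρ, |g t| ≤ ∫ t in Metric.closedBall y ρ, m := by
    refine setIntegral_mono_on hi ?_ Metric.isClosed_closedBall.measurableSet hb
    exact integrableOn_const measure_closedBall_lt_top.ne
  refine h1.trans (le_of_eq ?_)
  rw [setIntegral_const, smul_eq_mul, measureReal_def, vol_ball y hρ]; ring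

/-- the constant of the second step -/
def CL2 (n : ℕ) (c τ D M β Ca CB Ch CH : ℝ) : ℝ :=
  n * (τ * (D * M * CB * c ^ β * c ^ n * vb n +
    n * (n * (n * (τ * (D * M)) * (Ca * Ch * c ^ β + Ca * CH * (c * c ^ β) +
      Ca * Ch * (c * c ^ β)) * (c ^ n * vb n)))))

/-- **Increment estimate, second step.** -/
theorem inc_L2 {V : Set (EE n)} {v : EE n → ℝ} {H : Fin n → EE n → ℝ}
    {a : Fin n → Fin n → EE n → ℝ} {ga : Fin n → Fin n → EE n → (EE n →L[ℝ] ℝ)} {B : EE n → ℝ}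
    (hv : LocallyIntegrable v) (hH : ∀ i, LocallyIntegrable (H i)) (hB : LocallyIntegrable B)
    (haH : ∀ i j, LocallyIntegrable (fun x => a i j x * H i x))
    (hwd : ∀ i, WDOn V i v (H i)) (heq : WEqOn V a H B)
    {β Ca CB Ch CH : ℝ} (hβ : 0 < β) (hβ1 : β < 1) (hCa : 0 ≤ Ca) (hCB : 0 ≤ CB) (hCh : 0 ≤ Ch)
    (hCH : 0 ≤ CH)
    (hlip : ∀ i j, ∀ x ∈ V, ∀ y ∈ V, |a i j x - a i j y| ≤ Ca * ‖x - y‖)
    (htay : ∀ i j, ∀ y ∈ V, ∀ t ∈ V, |a i j t - a i j y - ga i j y (t - y)|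
      ≤ Ca * (‖t - y‖ * ‖t - y‖ ^ β))
    (hBh : ∀ x ∈ V, ∀ y ∈ V, |B x - B y| ≤ CB * ‖x - y‖ ^ β)
    (hHh : ∀ i, ∀ x ∈ V, ∀ y ∈ V, |H i x - H i y| ≤ Ch * ‖x - y‖ ^ β)
    (hHb : ∀ i, ∀ x ∈ V, |H i x| ≤ CH)
    {r0 c τ D M : ℝ} {x0 : EE n} {T : EE n →L[ℝ] EE n} (hM : 0 ≤ M)
    (h : KD (fun i j => a i j x0) T c τ D)
    (hV : ∀ y, ‖y - x0‖ ≤ r0 → Metric.closedBall y (c * r0) ⊆ V) (e : Fin n) :
    Inc T (H e) x0 r0 M (CL2 n c τ D M β Ca CB Ch CH) 1 β := by
  intro ψ hψ s hs hsr y hy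
  have hc := h.c0
  have hc1 := h.c1
  have hD := h.D0
  have hτ := h.τ0
  set m := max ‖y - x0‖ s with hm
  have hm1 : ‖y - x0‖ ≤ m := le_max_left _ _
  have hm2 : s ≤ m := le_max_right _ _
  have hm0 : 0 < m := hs.trans_le hm2
  have hr0 : 0 < r0 := hs.trans_le hsr
  have hcs : c * s ≤ c * r0 := mul_le_mul_of_nonneg_left hsr hc.le
  have hcs0 : 0 < c * s := by positivity
  have hVs : Metric.closedBall y (c * s) ⊆ V := (Metric.closedBall_subset_closedBall hcs).trans (hV y hy)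
  have hx0V : x0 ∈ V := hV x0 (by simpa using hr0.le) (Metric.mem_closedBall_self (by positivity))
  have hyV : y ∈ V := hVs (Metric.mem_closedBall_self hcs0.le)
  have hsβ : 0 ≤ s ^ β := Real.rpow_nonneg hs.le _
  have hcβ : 0 ≤ c ^ β := Real.rpow_nonneg hc.le _
  have hcsβ : (c * s) ^ β = c ^ β * s ^ β := Real.mul_rpow hc.le hs.le
  have hdist : ∀ t ∈ Metric.closedBall y (c * s), ‖t - y‖ ≤ c * s := fun t ht => by
    rwa [Metric.mem_closedBall, dist_eq_norm] at ht
  have hpow : ∀ t ∈ Metric.closedBall y (c * s), ‖t - y‖ ^ β ≤ c ^ β * s ^ β := fun t ht => by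
    rw [← hcsβ]; exact Real.rpow_le_rpow (norm_nonneg _) (hdist t ht) hβ.le
  -- the basic bound
  have key : ∀ k, |cv (Ker T s (lap (pderiv k ψ))) v y| ≤ s * m * s ^ β *
      (D * M * CB * c ^ β * c ^ n * vb n + n * (n * (n * (τ * (D * M)) *
      (Ca * Ch * c ^ β + Ca * CH * (c * c ^ β) + Ca * Ch * (c * c ^ β)) * (c ^ n * vb n)))) := by
    intro k
    have hψk := hψ.p1 k
    have hKt : IsTest (Ker T s (pderiv k ψ)) := ker_test hs hψk.test h.low
    have hK0 : ∫ x, Ker T s (pderiv k ψ) x = 0 := by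
      rw [integral_ker hs h.det0]; exact integral_pderiv_zero hψ.p0.test k
    rw [inc h.ad h.c0 h.low hv hH haH hwd heq hψk.test hψk.supp hs hVs, abs_mul,
      abs_of_nonneg (by positivity : (0:ℝ) ≤ s ^ 2)]
    -- first term
    have t1 : |∫ t, B t * Ker T s (pderiv k ψ) (y - t)|
        ≤ D * (s⁻¹) ^ n * M * (CB * (c ^ β * s ^ β) * ((c * s) ^ n * vb n)) := by
      have e1 : ∫ t, B t * Ker T s (pderiv k ψ) (y - t)
          = ∫ t, (B t - B y) * Ker T s (pderiv k ψ) (y - t) := by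
        have e2 : ∀ t, (B t - B y) * Ker T s (pderiv k ψ) (y - t)
            = B t * Ker T s (pderiv k ψ) (y - t) - B y * Ker T s (pderiv k ψ) (y - t) :=
          fun t => by ring
        simp only [e2]
        rw [integral_sub (cv_exists hKt hB y) ((hKt.comp_sub y).integrable.const_mul _),
          integral_const_mul, integral_sub_left_eq_self (Ker T s (pderiv k ψ)) volume y, hK0]
        simp
      have hg : LocallyIntegrable (fun t => B t - B y) := hB.sub (locallyIntegrable_const _)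
      rw [e1]
      refine (int_bound hg (k := fun t => Ker T s (pderiv k ψ) (y - t)) (ρ := c * s) (x := y)
        (fun t => ker_bound hs h.det hψk.b0 _) fun t ht => ?_).trans
        (mul_le_mul_of_nonneg_left (int_const_bound hg hcs0.le fun t ht => ?_) (by positivity))
      · apply ker_supp hs hψk.supp h.c0 h.low
        rw [Metric.mem_closedBall, dist_comm, dist_eq_norm] at ht
        linarith
      · exact (hBh t (hVs ht) y hyV).trans (mul_le_mul_of_nonneg_left (hpow t ht) hCB)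
    -- second term
    have t2 : ∀ i j, |∫ t, (a i j x0 - a i j t) * H i t * pderiv j (Ker T s (pderiv k ψ)) (y - t)|
        ≤ s⁻¹ * (n * (τ * (D * (s⁻¹) ^ n * M))) * ((Ca * Ch * c ^ β + Ca * CH * (c * c ^ β) +
          Ca * Ch * (c * c ^ β)) * m * s ^ β * ((c * s) ^ n * vb n)) := by
      intro i j
      have hg0 : LocallyIntegrable (fun t => (a i j x0 - a i j t) * H i t) := by
        have e : (fun t => (a i j x0 - a i j t) * H i t)
            = (fun t => a i j x0 * H i t) - fun t => a i j t * H i t := by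
          ext t; simp only [Pi.sub_apply]; ring
        rw [e]
        have e2 : LocallyIntegrable (fun t => a i j x0 * H i t) :=
          LocallyIntegrable.smul (hH i) (a i j x0)
        exact e2.sub (haH i j)
      have hgl : LocallyIntegrable (fun t => H i y * ga i j y (t - y)) := by
        have : Continuous (fun t => H i y * ga i j y (t - y)) := by fun_prop
        exact this.locallyIntegrable
      set g : EE n → ℝ := fun t => ((a i j x0 - a i j t) * H i t - (a i j x0 - a i j y) * H i y)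
        + H i y * ga i j y (t - y) with hgdef
      have hg : LocallyIntegrable g := (hg0.sub (locallyIntegrable_const _)).add hgl
      have hPd : IsTest (pderiv j (Ker T s (pderiv k ψ))) := hKt.pderiv j
      have e1 : ∫ t, (a i j x0 - a i j t) * H i t * pderiv j (Ker T s (pderiv k ψ)) (y - t)
          = ∫ t, g t * pderiv j (Ker T s (pderiv k ψ)) (y - t) := by
        have e2 : ∀ t, g t * pderiv j (Ker T s (pderiv k ψ)) (y - t)
            = ((a i j x0 - a i j t) * H i t * pderiv j (Ker T s (pderiv k ψ)) (y - t)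
              - ((a i j x0 - a i j y) * H i y) * pderiv j (Ker T s (pderiv k ψ)) (y - t))
              + H i y * (ga i j y (t - y) * pderiv j (Ker T s (pderiv k ψ)) (y - t)) := by
          intro t; simp only [hgdef]; ring
        simp only [e2]
        have i1 : Integrable (fun t => (a i j x0 - a i j t) * H i t *
            pderiv j (Ker T s (pderiv k ψ)) (y - t)) := cv_exists hPd hg0 y
        have i2 : Integrable (fun t => ((a i j x0 - a i j y) * H i y) *
            pderiv j (Ker T s (pderiv k ψ)) (y - t)) :=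
          (hPd.comp_sub y).integrable.const_mul _
        have i3 : Integrable (fun t => H i y * (ga i j y (t - y) *
            pderiv j (Ker T s (pderiv k ψ)) (y - t))) := by
          have hcon : Continuous (fun t : EE n => ga i j y (t - y)) := by fun_prop
          exact (cv_exists hPd hcon.locallyIntegrable y).const_mul _
        have i12 : Integrable (fun t => (a i j x0 - a i j t) * H i t *
            pderiv j (Ker T s (pderiv k ψ)) (y - t) - ((a i j x0 - a i j y) * H i y) *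
            pderiv j (Ker T s (pderiv k ψ)) (y - t)) := i1.sub i2
        rw [integral_add i12 i3, integral_sub i1 i2, integral_const_mul,
          integral_const_mul, integral_lin_pderiv hKt hK0,
          integral_sub_left_eq_self (pderiv j (Ker T s (pderiv k ψ))) volume y,
          integral_pderiv_zero hKt]
        simp
      rw [e1]
      refine (int_bound hg (k := fun t => pderiv j (Ker T s (pderiv k ψ)) (y - t)) (ρ := c * s)
        (x := y) (fun t => ker_dbound h hψk hs j _) fun t ht => ?_).trans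
        (mul_le_mul_of_nonneg_left (int_const_bound hg hcs0.le fun t ht => ?_) (by positivity))
      · apply ker_dsupp h hψk hs
        rw [Metric.mem_closedBall, dist_comm, dist_eq_norm] at ht
        linarith
      · have htV := hVs ht
        have d1 := hdist t ht
        have d2 := hpow t ht
        have b1 := hHh i t htV y hyV
        have b2 := htay i j y hyV t htV
        have b3 := hlip i j t htV y hyV
        have b4 := hlip i j x0 hx0V y hyV
        have b5 := hHb i y hyV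
        rw [norm_sub_rev x0 y] at b4
        have e3 : g t = (a i j x0 - a i j y) * (H i t - H i y)
            - (a i j t - a i j y - ga i j y (t - y)) * H i y
            - (a i j t - a i j y) * (H i t - H i y) := by
          simp only [hgdef]; ring
        rw [e3]
        have d3 : ‖t - y‖ * ‖t - y‖ ^ β ≤ (c * s) * (c ^ β * s ^ β) :=
          mul_le_mul d1 d2 (Real.rpow_nonneg (norm_nonneg _) _) hcs0.le
        have c1 : |(a i j x0 - a i j y) * (H i t - H i y)| ≤ (Ca * m) * (Ch * (c ^ β * s ^ β)) := by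
          rw [abs_mul]
          exact mul_le_mul (b4.trans (mul_le_mul_of_nonneg_left hm1 hCa))
            (b1.trans (mul_le_mul_of_nonneg_left d2 hCh)) (abs_nonneg _) (by positivity)
        have c2 : |(a i j t - a i j y - ga i j y (t - y)) * H i y|
            ≤ (Ca * ((c * s) * (c ^ β * s ^ β))) * CH := by
          rw [abs_mul]
          exact mul_le_mul (b2.trans (mul_le_mul_of_nonneg_left d3 hCa)) b5 (abs_nonneg _)
            (by positivity)
        have c3 : |(a i j t - a i j y) * (H i t - H i y)|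
            ≤ (Ca * (c * s)) * (Ch * (c ^ β * s ^ β)) := by
          rw [abs_mul]
          exact mul_le_mul (b3.trans (mul_le_mul_of_nonneg_left d1 hCa))
            (b1.trans (mul_le_mul_of_nonneg_left d2 hCh)) (abs_nonneg _) (by positivity)
        have c4 : |(a i j x0 - a i j y) * (H i t - H i y)
            - (a i j t - a i j y - ga i j y (t - y)) * H i y
            - (a i j t - a i j y) * (H i t - H i y)|
            ≤ (Ca * m) * (Ch * (c ^ β * s ^ β)) + (Ca * ((c * s) * (c ^ β * s ^ β))) * CH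
              + (Ca * (c * s)) * (Ch * (c ^ β * s ^ β)) := by
          rw [abs_le] at c1 c2 c3 ⊢
          constructor <;> linarith [c1.1, c1.2, c2.1, c2.2, c3.1, c3.2]
        refine c4.trans ?_
        have c5 : (Ca * ((c * s) * (c ^ β * s ^ β))) * CH
            ≤ (Ca * ((c * m) * (c ^ β * s ^ β))) * CH := by
          refine mul_le_mul_of_nonneg_right (mul_le_mul_of_nonneg_left
            (mul_le_mul_of_nonneg_right (mul_le_mul_of_nonneg_left hm2 hc.le) ?_) hCa) hCH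
          positivity
        have c6 : (Ca * (c * s)) * (Ch * (c ^ β * s ^ β))
            ≤ (Ca * (c * m)) * (Ch * (c ^ β * s ^ β)) := by
          refine mul_le_mul_of_nonneg_right (mul_le_mul_of_nonneg_left
            (mul_le_mul_of_nonneg_left hm2 hc.le) hCa) ?_
          positivity
        refine (add_le_add (add_le_add le_rfl c5) c6).trans (le_of_eq ?_)
        ring
    have hvb := vb0 (n := n)
    have t3 : |∑ i, ∑ j, ∫ t, (a i j x0 - a i j t) * H i t *
        pderiv j (Ker T s (pderiv k ψ)) (y - t)|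
        ≤ n * (n * (s⁻¹ * (n * (τ * (D * (s⁻¹) ^ n * M))) * ((Ca * Ch * c ^ β +
          Ca * CH * (c * c ^ β) + Ca * Ch * (c * c ^ β)) * m * s ^ β * ((c * s) ^ n * vb n)))) := by
      refine (Finset.abs_sum_le_sum_abs _ _).trans ?_
      refine (Finset.sum_le_sum (g := fun _ => n * (s⁻¹ * (n * (τ * (D * (s⁻¹) ^ n * M))) *
        ((Ca * Ch * c ^ β + Ca * CH * (c * c ^ β) + Ca * Ch * (c * c ^ β)) * m * s ^ β *
        ((c * s) ^ n * vb n)))) fun i _ => ?_).trans (by simp)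
      refine (Finset.abs_sum_le_sum_abs _ _).trans ?_
      exact (Finset.sum_le_sum fun j _ => t2 i j).trans (by simp)
    refine (mul_le_mul_of_nonneg_left ((abs_add_le _ _).trans (add_le_add t1 t3))
      (by positivity)).trans ?_
    have hss : (s⁻¹) ^ n * s ^ n = 1 := by
      rw [← mul_pow, inv_mul_cancel₀ hs.ne', one_pow]
    have f1 : s ^ 2 * (D * (s⁻¹) ^ n * M * (CB * (c ^ β * s ^ β) * ((c * s) ^ n * vb n)))
        = s * s * s ^ β * (D * M * CB * c ^ β * c ^ n * vb n) := by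
      rw [mul_pow]
      calc _ = s ^ 2 * s ^ β * (D * M * CB * c ^ β * c ^ n * vb n) * ((s⁻¹) ^ n * s ^ n) := by ring
        _ = _ := by rw [hss]; ring
    have f2 : s ^ 2 * (n * (n * (s⁻¹ * (n * (τ * (D * (s⁻¹) ^ n * M))) * ((Ca * Ch * c ^ β +
          Ca * CH * (c * c ^ β) + Ca * Ch * (c * c ^ β)) * m * s ^ β * ((c * s) ^ n * vb n)))))
        = s * m * s ^ β * (n * (n * (n * (τ * (D * M)) *
      (Ca * Ch * c ^ β + Ca * CH * (c * c ^ β) + Ca * Ch * (c * c ^ β)) * (c ^ n * vb n)))) := by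
      rw [mul_pow]
      have hs1 : s ^ 2 * s⁻¹ = s := by field_simp
      calc _ = (s ^ 2 * s⁻¹) * m * s ^ β * (n * (n * (n * (τ * (D * M)) *
          (Ca * Ch * c ^ β + Ca * CH * (c * c ^ β) + Ca * Ch * (c * c ^ β)) * (c ^ n * vb n))))
          * ((s⁻¹) ^ n * s ^ n) := by ring
        _ = _ := by rw [hss, hs1]; ring
    rw [mul_add, f1, f2]
    have f3 : s * s * s ^ β * (D * M * CB * c ^ β * c ^ n * vb n)
        ≤ s * m * s ^ β * (D * M * CB * c ^ β * c ^ n * vb n) := by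
      refine mul_le_mul_of_nonneg_right (mul_le_mul_of_nonneg_right
        (mul_le_mul_of_nonneg_left hm2 hs.le) hsβ) (by positivity)
    refine (add_le_add f3 le_rfl).trans (le_of_eq ?_)
    ring
  rw [cv_wd_ker h (hwd e) hv hψ.p0 hs hVs, abs_mul, abs_inv, abs_of_pos hs]
  have hvb := vb0 (n := n)
  set Q := D * M * CB * c ^ β * c ^ n * vb n + n * (n * (n * (τ * (D * M)) *
      (Ca * Ch * c ^ β + Ca * CH * (c * c ^ β) + Ca * Ch * (c * c ^ β)) * (c ^ n * vb n))) with hQ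
  have hsum : |∑ k, ent T k e * cv (Ker T s (lap (pderiv k ψ))) v y|
      ≤ n * (τ * (s * m * s ^ β * Q)) := by
    refine (Finset.abs_sum_le_sum_abs _ _).trans ?_
    refine (Finset.sum_le_sum (g := fun _ => τ * (s * m * s ^ β * Q)) fun k _ => ?_).trans
      (by simp)
    rw [abs_mul]
    exact mul_le_mul ((ent_le T k e).trans h.up) (key k) (abs_nonneg _) hτ
  refine (mul_le_mul_of_nonneg_left hsum (by positivity)).trans (le_of_eq ?_)
  rw [Real.rpow_one, CL2, ← hQ]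
  field_simp

/-- **Second step.** -/
theorem L2 {η Φ : EE n → ℝ} {M : ℝ} (hp : Pair η Φ M)
    {V W : Set (EE n)} {v : EE n → ℝ} {H : Fin n → EE n → ℝ}
    {a : Fin n → Fin n → EE n → ℝ} {ga : Fin n → Fin n → EE n → (EE n →L[ℝ] ℝ)} {B : EE n → ℝ}
    (hv : LocallyIntegrable v) (hH : ∀ i, LocallyIntegrable (H i)) (hB : LocallyIntegrable B)
    (haH : ∀ i j, LocallyIntegrable (fun x => a i j x * H i x))
    (hwd : ∀ i, WDOn V i v (H i)) (heq : WEqOn V a H B)
    {β Ca CB Ch CH lam Lam I : ℝ} (hβ : 0 < β) (hβ1 : β < 1) (hCa : 0 ≤ Ca) (hCB : 0 ≤ CB)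
    (hCh : 0 ≤ Ch) (hCH : 0 ≤ CH) (hlam : 0 < lam) (hLam : 1 ≤ Lam) (hI0 : 0 ≤ I)
    (hell : ∀ x ∈ W, Ellc lam Lam (fun i j => a i j x))
    (hlip : ∀ i j, ∀ x ∈ V, ∀ y ∈ V, |a i j x - a i j y| ≤ Ca * ‖x - y‖)
    (htay : ∀ i j, ∀ y ∈ V, ∀ t ∈ V, |a i j t - a i j y - ga i j y (t - y)|
      ≤ Ca * (‖t - y‖ * ‖t - y‖ ^ β))
    (hBh : ∀ x ∈ V, ∀ y ∈ V, |B x - B y| ≤ CB * ‖x - y‖ ^ β)
    (hHh : ∀ i, ∀ x ∈ V, ∀ y ∈ V, |H i x - H i y| ≤ Ch * ‖x - y‖ ^ β)
    (hHb : ∀ i, ∀ x ∈ V, |H i x| ≤ CH)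
    {r0 : ℝ} (hr0 : 0 < r0) (hr1 : r0 ≤ 1)
    (hV : ∀ x0 ∈ W, ∀ y, ‖y - x0‖ ≤ r0 → Metric.closedBall y (Real.sqrt Lam * r0) ⊆ V)
    (e : Fin n)
    (hcont : ∀ x ∈ V, ContinuousAt (H e) x)
    (hI : ∀ x0 ∈ W, ∀ y, ‖y - x0‖ ≤ r0 →
      ∫ t in Metric.closedBall y (Real.sqrt Lam * r0), |H e t| ≤ I) :
    ∃ (g : EE n → (EE n →L[ℝ] ℝ)) (K : ℝ), 0 ≤ K ∧
      (∀ x ∈ W, ∀ y, ‖y - x‖ ≤ r0 → |H e y - H e x - g x (y - x)| ≤ K * ‖y - x‖ ^ (1 + β)) ∧
      (∀ x ∈ W, HasFDerivAt (H e) (g x) x) ∧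
      ∀ x ∈ W, ∀ y ∈ W, ‖x - y‖ ≤ r0 / 2 → ‖g x - g y‖ ≤ K * ‖x - y‖ ^ β := by
  have hM := hp.M0
  have hc0 : 0 < Real.sqrt Lam := Real.sqrt_pos.2 (by linarith)
  have hvb := vb0 (n := n)
  obtain ⟨CC, hCC0, hCC⟩ : ∃ CC, 0 ≤ CC ∧ ∀ x0 ∈ W, ∃ A T,
      KD (n := n) A T (Real.sqrt Lam) (Real.sqrt (1 / lam)) (Real.sqrt (1 / lam) ^ n) ∧
      Inc T (H e) x0 r0 M CC 1 β := by
    refine ⟨CL2 n (Real.sqrt Lam) (Real.sqrt (1 / lam)) (Real.sqrt (1 / lam) ^ n) M β Ca CB Ch CH,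
      ?_, fun x0 hx0 => ?_⟩
    rotate_left
    · obtain ⟨T, hT⟩ := exists_adapt hlam hLam (hell x0 hx0)
      exact ⟨_, T, hT, inc_L2 hv hH hB haH hwd heq hβ hβ1 hCa hCB hCh hCH hlip htay hBh hHh hHb
        hM hT (hV x0 hx0) e⟩
    · unfold CL2
      have := Real.rpow_nonneg hc0.le β
      positivity
  exact c1_of_inc hp (Real.sqrt_nonneg _) (by positivity) (hH e) hr0 hr1 hCC0 hI0
    zero_le_one hβ hβ hβ1 rfl hCC
    (fun x0 hx0 y hy => hcont y (hV x0 hx0 y hy (Metric.mem_closedBall_self (by positivity)))) hI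

end

end Crest.Agent.R249.RegKer_717
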