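import Crest.Agent.R249.RegKer_717
import Crest.Agent.R249.RegL2_717
import Crest.Agent.R249.Bia3_104
import Crest.Agent.R247.Bo3_84
import Crest.Agent.R247.Frd2_657
import Crest.Agent.R249.Fin1_832

-- ▼ part R249/RegCls_717
section

/-!
Row 249, leaf D3-REG (helper717), file 11: local Hölder classes `C^{k,β}` on an open set and their
calculus (sums, products, composition with smooth functions).
-/

set_option autoImplicit false
open scoped ContDiff ENNReal Topology
open MeasureTheory Set Filter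
open Crest.GeometryTopology.CoordMetric

namespace Crest.Agent.R249.RegKer_717

open Crest.Agent.R202.Ell

noncomputable section

variable {n : ℕ}

/-- locally `β`-Hölder on `Ω` -/
def LH (β : ℝ) (Ω : Set (EE n)) (f : EE n → ℝ) : Prop :=
  ∀ x ∈ Ω, ∃ r > 0, ∃ C, 0 ≤ C ∧ Metric.closedBall x r ⊆ Ω ∧
    ∀ y ∈ Metric.closedBall x r, ∀ z ∈ Metric.closedBall x r, |f y - f z| ≤ C * ‖y - z‖ ^ β

/-- `C^{k,β}` on `Ω` -/
def CH (β : ℝ) (Ω : Set (EE n)) : ℕ → (EE n → ℝ) → Prop
  | 0, f => LH β Ω f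
  | k + 1, f => (∀ x ∈ Ω, DifferentiableAt ℝ f x) ∧ ∀ i, CH β Ω k (pderiv i f)

variable {β : ℝ} {Ω : Set (EE n)} {f g : EE n → ℝ}

theorem LH.at {f : EE n → ℝ} (h : LH β Ω f) {x : EE n} (hx : x ∈ Ω) : ∃ r > 0, ∃ C, 0 ≤ C ∧
    Metric.closedBall x r ⊆ Ω ∧ ∀ r' ≤ r, ∀ y ∈ Metric.closedBall x r', ∀ z ∈ Metric.closedBall x r',
      |f y - f z| ≤ C * ‖y - z‖ ^ β := by
  obtain ⟨r, hr, C, hC, h1, h2⟩ := h x hx
  exact ⟨r, hr, C, hC, h1, fun r' hr' y hy z hz => h2 y (Metric.closedBall_subset_closedBall hr' hy) z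
    (Metric.closedBall_subset_closedBall hr' hz)⟩

theorem LH.congr (h : LH β Ω f) (he : EqOn f g Ω) : LH β Ω g := by
  intro x hx
  obtain ⟨r, hr, C, hC, h1, h2⟩ := h x hx
  refine ⟨r, hr, C, hC, h1, fun y hy z hz => ?_⟩
  rw [← he (h1 hy), ← he (h1 hz)]
  exact h2 y hy z hz

theorem LH.continuousAt (hβ : 0 < β) (h : LH β Ω f) {x : EE n} (hx : x ∈ Ω) :
    ContinuousAt f x := by
  obtain ⟨r, hr, C, hC, h1, h2⟩ := h x hx
  rw [Metric.continuousAt_iff']
  intro ε hε
  have h3 : Tendsto (fun y : EE n => C * ‖y - x‖ ^ β) (𝓝 x) (𝓝 (C * ‖x - x‖ ^ β)) := by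
    have : Continuous (fun y : EE n => C * ‖y - x‖ ^ β) :=
      continuous_const.mul ((continuous_id.sub continuous_const).norm.rpow_const
        fun _ => Or.inr hβ.le)
    exact this.tendsto x
  rw [sub_self, norm_zero, Real.zero_rpow hβ.ne', mul_zero] at h3
  filter_upwards [(tendsto_order.1 h3).2 ε hε, Metric.closedBall_mem_nhds x hr] with y hy1 hy2
  rw [Real.dist_eq]
  exact (h2 y hy2 x (Metric.mem_closedBall_self hr.le)).trans_lt hy1

theorem LH.continuousOn (hβ : 0 < β) (h : LH β Ω f) : ContinuousOn f Ω := fun x hx =>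
  (h.continuousAt hβ hx).continuousWithinAt

theorem LH.const (hΩ : IsOpen Ω) (c : ℝ) : LH β Ω (fun _ => c) := by
  intro x hx
  obtain ⟨r, hr, h1⟩ := Metric.nhds_basis_closedBall.mem_iff.1 (hΩ.mem_nhds hx)
  exact ⟨r, hr, 0, le_rfl, h1, fun y _ z _ => by simp⟩

theorem LH.add (hf : LH β Ω f) (hg : LH β Ω g) : LH β Ω (fun x => f x + g x) := by
  intro x hx
  obtain ⟨r, hr, C, hC, h1, h2⟩ := hf.at hx
  obtain ⟨r', hr', C', hC', h1', h2'⟩ := hg.at hx
  refine ⟨min r r', lt_min hr hr', C + C', by positivity,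
    (Metric.closedBall_subset_closedBall (min_le_left _ _)).trans h1, fun y hy z hz => ?_⟩
  have e1 := h2 _ (min_le_left _ _) y hy z hz
  have e2 := h2' _ (min_le_right _ _) y hy z hz
  rw [add_mul]
  rw [abs_le] at e1 e2 ⊢
  constructor <;> linarith [e1.1, e1.2, e2.1, e2.2]

theorem LH.bdd (hβ : 0 < β) (h : LH β Ω f) {x : EE n} (hx : x ∈ Ω) : ∃ r > 0, ∃ M, 0 ≤ M ∧
    ∀ r' ≤ r, ∀ y ∈ Metric.closedBall x r', |f y| ≤ M := by
  obtain ⟨r, hr, C, hC, h1, h2⟩ := h x hx
  refine ⟨r, hr, |f x| + C * r ^ β, by have := Real.rpow_nonneg hr.le β; positivity,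
    fun r' hr' y hy => ?_⟩
  have hy' := Metric.closedBall_subset_closedBall hr' hy
  have e1 := h2 y hy' x (Metric.mem_closedBall_self hr.le)
  rw [Metric.mem_closedBall, dist_eq_norm] at hy'
  have e2 : C * ‖y - x‖ ^ β ≤ C * r ^ β :=
    mul_le_mul_of_nonneg_left (Real.rpow_le_rpow (norm_nonneg _) hy' hβ.le) hC
  have e3 := abs_sub_abs_le_abs_sub (f y) (f x)
  linarith

theorem LH.mul (hβ : 0 < β) (hf : LH β Ω f) (hg : LH β Ω g) : LH β Ω (fun x => f x * g x) := by
  intro x hx
  obtain ⟨r, hr, C, hC, h1, h2⟩ := hf.at hx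
  obtain ⟨r', hr', C', hC', h1', h2'⟩ := hg.at hx
  obtain ⟨s, hs, M, hM, b1⟩ := hf.bdd hβ hx
  obtain ⟨s', hs', M', hM', b1'⟩ := hg.bdd hβ hx
  set ρ := min (min r r') (min s s') with hρ
  have l1 : ρ ≤ r := (min_le_left _ _).trans (min_le_left _ _)
  have l2 : ρ ≤ r' := (min_le_left _ _).trans (min_le_right _ _)
  have l3 : ρ ≤ s := (min_le_right _ _).trans (min_le_left _ _)
  have l4 : ρ ≤ s' := (min_le_right _ _).trans (min_le_right _ _)
  refine ⟨ρ, lt_min (lt_min hr hr') (lt_min hs hs'), C * M' + M * C', by positivity,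
    (Metric.closedBall_subset_closedBall l1).trans h1, fun y hy z hz => ?_⟩
  have e1 := h2 _ l1 y hy z hz
  have e2 := h2' _ l2 y hy z hz
  have e3 := b1 _ l3 z hz
  have e4 := b1' _ l4 y hy
  have e5 : f y * g y - f z * g z = (f y - f z) * g y + f z * (g y - g z) := by ring
  have hp : 0 ≤ ‖y - z‖ ^ β := Real.rpow_nonneg (norm_nonneg _) _
  rw [e5]
  refine (abs_add_le _ _).trans ?_
  rw [abs_mul, abs_mul]
  have e6 := mul_le_mul e1 e4 (abs_nonneg _) (by positivity)
  have e7 := mul_le_mul e3 e2 (abs_nonneg _) hM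
  refine (add_le_add e6 e7).trans (le_of_eq ?_)
  ring

theorem LH.sum {ι : Type*} (hΩ : IsOpen Ω) (t : Finset ι) {f : ι → EE n → ℝ}
    (h : ∀ i ∈ t, LH β Ω (f i)) : LH β Ω (fun x => ∑ i ∈ t, f i x) := by
  classical
  induction t using Finset.induction_on with
  | empty => simpa using LH.const hΩ 0
  | insert a t ha ih =>
    simp only [Finset.sum_insert ha]
    exact (h a (Finset.mem_insert_self _ _)).add
      (ih fun i hi => h i (Finset.mem_insert_of_mem hi))

theorem LH.pi {ι : Type*} [Fintype ι] (hΩ : IsOpen Ω) {u : ι → EE n → ℝ}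
    (h : ∀ A, LH β Ω (u A)) {x : EE n} (hx : x ∈ Ω) : ∃ r > 0, ∃ C, 0 ≤ C ∧
    Metric.closedBall x r ⊆ Ω ∧ ∀ r' ≤ r, ∀ y ∈ Metric.closedBall x r', ∀ z ∈ Metric.closedBall x r',
      ∀ A, |u A y - u A z| ≤ C * ‖y - z‖ ^ β := by
  classical
  choose r hr C hC h1 h2 using fun A => (h A).at hx
  obtain ⟨r0, hr0, hr00⟩ := Metric.nhds_basis_closedBall.mem_iff.1 (hΩ.mem_nhds hx)
  have hex : ∃ ρ > 0, ρ ≤ r0 ∧ ∀ A, ρ ≤ r A := by
    have : ∀ t : Finset ι, ∃ ρ > 0, ρ ≤ r0 ∧ ∀ A ∈ t, ρ ≤ r A := by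
      intro t
      induction t using Finset.induction_on with
      | empty => exact ⟨r0, hr0, le_rfl, by simp⟩
      | insert a t ha ih =>
        obtain ⟨ρ, h1, h2, h3⟩ := ih
        refine ⟨min ρ (r a), lt_min h1 (hr a), (min_le_left _ _).trans h2, fun A hA => ?_⟩
        rcases Finset.mem_insert.1 hA with rfl | hA
        · exact min_le_right _ _
        · exact (min_le_left _ _).trans (h3 A hA)
    obtain ⟨ρ, h1, h2, h3⟩ := this Finset.univ
    exact ⟨ρ, h1, h2, fun A => h3 A (Finset.mem_univ A)⟩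
  obtain ⟨ρ, hρ, hρ0, hρ1⟩ := hex
  refine ⟨ρ, hρ, ∑ A, C A, Finset.sum_nonneg fun A _ => hC A,
    (Metric.closedBall_subset_closedBall hρ0).trans hr00, fun r' hr' y hy z hz A => ?_⟩
  refine (h2 A r' (hr'.trans (hρ1 A)) y hy z hz).trans
    (mul_le_mul_of_nonneg_right ?_ (Real.rpow_nonneg (norm_nonneg _) _))
  exact Finset.single_le_sum (f := C) (fun A _ => hC A) (Finset.mem_univ A)

theorem LH.comp {ι : Type*} [Fintype ι] (hβ : 0 < β) (hΩ : IsOpen Ω) {u : ι → EE n → ℝ}
    (h : ∀ A, LH β Ω (u A)) {F : (ι → ℝ) → ℝ} {O : Set (ι → ℝ)} (hO : IsOpen O)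
    (hF : ContDiffOn ℝ 1 F O) (hu : ∀ x ∈ Ω, (fun A => u A x) ∈ O) :
    LH β Ω (fun x => F fun A => u A x) := by
  intro x hx
  obtain ⟨r, hr, C, hC, h1, h2⟩ := LH.pi hΩ h hx
  have hFx : ContDiffAt ℝ 1 F (fun A => u A x) := hF.contDiffAt (hO.mem_nhds (hu x hx))
  obtain ⟨K, t, ht, hK⟩ := hFx.exists_lipschitzOnWith
  have hc : ContinuousAt (fun x A => u A x) x :=
    continuousAt_pi.2 fun A => (h A).continuousAt hβ hx
  have h3 : ∀ᶠ y in 𝓝 x, (fun A => u A y) ∈ t := hc.eventually_mem ht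
  obtain ⟨r2, hr2, h4⟩ := Metric.nhds_basis_closedBall.mem_iff.1 h3
  refine ⟨min r r2, lt_min hr hr2, K * C, by positivity,
    (Metric.closedBall_subset_closedBall (min_le_left _ _)).trans h1, fun y hy z hz => ?_⟩
  have e1 := h2 _ (min_le_left r r2) y hy z hz
  have hy2 := h4 (Metric.closedBall_subset_closedBall (min_le_right r r2) hy)
  have hz2 := h4 (Metric.closedBall_subset_closedBall (min_le_right r r2) hz)
  have e2 := hK.dist_le_mul _ hy2 _ hz2
  rw [Real.dist_eq] at e2
  refine e2.trans ?_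
  rw [mul_assoc]
  refine mul_le_mul_of_nonneg_left ?_ K.2
  have hp : 0 ≤ ‖y - z‖ ^ β := Real.rpow_nonneg (norm_nonneg _) _
  rw [dist_pi_le_iff (by positivity)]
  intro A
  rw [Real.dist_eq]
  exact e1 A

/-- operator norm by partial derivatives -/
theorem fderiv_sub_le (f g : EE n → ℝ) (x y : EE n) :
    ‖fderiv ℝ f x - fderiv ℝ g y‖ ≤ ∑ i, |pderiv i f x - pderiv i g y| :=
  (fderiv ℝ f x - fderiv ℝ g y).opNorm_le_bound (Finset.sum_nonneg fun i _ => abs_nonneg _)
    fun z => by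
      have hz : z = ∑ k, z k • (EuclideanSpace.single k (1 : ℝ) : EE n) := by
        ext j
        simp [Pi.single_apply]
      conv_lhs => rw [hz]
      rw [map_sum, Real.norm_eq_abs]
      refine (Finset.abs_sum_le_sum_abs _ _).trans ?_
      rw [Finset.sum_mul]
      refine Finset.sum_le_sum fun i _ => ?_
      rw [map_smul, smul_eq_mul, abs_mul, mul_comm]
      refine mul_le_mul_of_nonneg_left ?_ (abs_nonneg _)
      simpa using PiLp.norm_apply_le z i

theorem fderiv_le (f : EE n → ℝ) (x : EE n) : ‖fderiv ℝ f x‖ ≤ ∑ i, |pderiv i f x| := by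
  have := fderiv_sub_le f (fun _ => 0) x x
  simpa [Crest.GeometryTopology.CoordMetric.pderiv] using this

/-- locally Lipschitz and Taylor estimate for `C^{1,β}` functions -/
theorem CH.one_local (hβ : 0 < β) (hΩ : IsOpen Ω) (h : CH β Ω 1 f) {x : EE n} (hx : x ∈ Ω) :
    ∃ r > 0, ∃ C, 0 ≤ C ∧ Metric.closedBall x r ⊆ Ω ∧ ∀ r' ≤ r,
      (∀ y ∈ Metric.closedBall x r', ∀ z ∈ Metric.closedBall x r', |f y - f z| ≤ C * ‖y - z‖) ∧
      (∀ i, ∀ y ∈ Metric.closedBall x r', |pderiv i f y| ≤ C) ∧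
      (∀ i, ∀ y ∈ Metric.closedBall x r', ∀ z ∈ Metric.closedBall x r',
        |pderiv i f y - pderiv i f z| ≤ C * ‖y - z‖ ^ β) ∧
      (∀ y ∈ Metric.closedBall x r', ∀ z ∈ Metric.closedBall x r',
        |f z - f y - fderiv ℝ f y (z - y)| ≤ C * (‖z - y‖ * ‖z - y‖ ^ β)) := by
  obtain ⟨r, hr, C, hC, h1, h2⟩ := LH.pi (u := fun i => pderiv i f) hΩ h.2 hx
  have hb : ∀ i, ∀ y ∈ Metric.closedBall x r, |pderiv i f y|
      ≤ (∑ i, |pderiv i f x|) + C * r ^ β := by
    intro i y hy
    have e1 := h2 r le_rfl y hy x (Metric.mem_closedBall_self hr.le) i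
    rw [Metric.mem_closedBall, dist_eq_norm] at hy
    have e2 : C * ‖y - x‖ ^ β ≤ C * r ^ β :=
      mul_le_mul_of_nonneg_left (Real.rpow_le_rpow (norm_nonneg _) hy hβ.le) hC
    have e3 := abs_sub_abs_le_abs_sub (pderiv i f y) (pderiv i f x)
    have e4 : |pderiv i f x| ≤ ∑ i, |pderiv i f x| :=
      Finset.single_le_sum (f := fun i => |pderiv i f x|) (fun i _ => abs_nonneg _)
        (Finset.mem_univ i)
    linarith
  set C1 := (∑ i, |pderiv i f x|) + C * r ^ β with hC1
  have hC10 : 0 ≤ C1 := by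
    have := Real.rpow_nonneg hr.le β
    have : 0 ≤ ∑ i, |pderiv i f x| := Finset.sum_nonneg fun i _ => abs_nonneg _
    positivity
  have hcv : Convex ℝ (Metric.closedBall x r) := convex_closedBall _ _
  refine ⟨r, hr, C1 + n * C1 + C + n * C, by positivity, h1, fun r' hr' => ⟨fun y hy z hz => ?_,
    fun i y hy => ?_, fun i y hy z hz => ?_, fun y hy z hz => ?_⟩⟩
  · have hy' := Metric.closedBall_subset_closedBall hr' hy
    have hz' := Metric.closedBall_subset_closedBall hr' hz
    have := hcv.norm_image_sub_le_of_norm_fderiv_le (f := f) (C := n * C1)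
      (fun w hw => h.1 w (h1 hw)) (fun w hw => ?_) hz' hy'
    · rw [Real.norm_eq_abs] at this
      refine this.trans (mul_le_mul_of_nonneg_right ?_ (norm_nonneg _))
      have : 0 ≤ (n : ℝ) * C := by positivity
      linarith
    · refine (fderiv_le f w).trans ((Finset.sum_le_sum (g := fun _ => C1) fun i _ =>
        hb i w hw).trans ?_)
      simp
  · refine (hb i y (Metric.closedBall_subset_closedBall hr' hy)).trans ?_
    have : 0 ≤ (n : ℝ) * C1 := by positivity
    have : 0 ≤ (n : ℝ) * C := by positivity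
    linarith
  · refine (h2 r' hr' y hy z hz i).trans (mul_le_mul_of_nonneg_right ?_
      (Real.rpow_nonneg (norm_nonneg _) _))
    have : 0 ≤ (n : ℝ) * C1 := by positivity
    have : 0 ≤ (n : ℝ) * C := by positivity
    linarith
  · have hy' := Metric.closedBall_subset_closedBall hr' hy
    have hz' := Metric.closedBall_subset_closedBall hr' hz
    have hcs : Convex ℝ (segment ℝ y z) := convex_segment y z
    have hsub : segment ℝ y z ⊆ Metric.closedBall x r := hcv.segment_subset hy' hz'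
    have := hcs.norm_image_sub_le_of_norm_fderiv_le' (f := f) (φ := fderiv ℝ f y)
      (C := n * (C * ‖z - y‖ ^ β))
      (fun w hw => h.1 w (h1 (hsub hw))) (fun w hw => ?_) (left_mem_segment ℝ y z)
      (right_mem_segment ℝ y z)
    · rw [Real.norm_eq_abs] at this
      refine this.trans ?_
      have hp : 0 ≤ ‖z - y‖ * ‖z - y‖ ^ β := by positivity
      calc n * (C * ‖z - y‖ ^ β) * ‖z - y‖ = (n * C) * (‖z - y‖ * ‖z - y‖ ^ β) := by ring
        _ ≤ _ := by
          refine mul_le_mul_of_nonneg_right ?_ hp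
          have : 0 ≤ (n : ℝ) * C1 := by positivity
          linarith
    · refine (fderiv_sub_le f f w y).trans ?_
      have hwy : ‖w - y‖ ≤ ‖z - y‖ := by
        obtain ⟨t, ht, rfl⟩ := (segment_eq_image' ℝ y z ▸ hw : w ∈ (fun t : ℝ => y + t • (z - y)) ''
          Set.Icc 0 1)
        have : y + t • (z - y) - y = t • (z - y) := by abel
        rw [this, norm_smul, Real.norm_eq_abs, abs_of_nonneg ht.1]
        exact mul_le_of_le_one_left (norm_nonneg _) ht.2
      refine (Finset.sum_le_sum (g := fun _ => C * ‖z - y‖ ^ β) fun i _ => ?_).trans (by simp)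
      exact (h2 r le_rfl w (hsub hw) y hy' i).trans (mul_le_mul_of_nonneg_left
        (Real.rpow_le_rpow (norm_nonneg _) hwy hβ.le) hC)

theorem CH.one_zero (hβ : 0 < β) (hβ1 : β ≤ 1) (hΩ : IsOpen Ω) (h : CH β Ω 1 f) : CH β Ω 0 f := by
  intro x hx
  obtain ⟨r, hr, C, hC, h1, h2⟩ := CH.one_local hβ hΩ h hx
  refine ⟨min r (1 / 2), lt_min hr (by norm_num), C, hC,
    (Metric.closedBall_subset_closedBall (min_le_left _ _)).trans h1, fun y hy z hz => ?_⟩
  refine ((h2 _ (min_le_left _ _)).1 y hy z hz).trans (mul_le_mul_of_nonneg_left ?_ hC)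
  have hy' := Metric.closedBall_subset_closedBall (min_le_right _ _) hy
  have hz' := Metric.closedBall_subset_closedBall (min_le_right _ _) hz
  rw [Metric.mem_closedBall] at hy' hz'
  have hd : ‖y - z‖ ≤ 1 := by
    rw [← dist_eq_norm]
    have := dist_triangle_right y z x
    linarith
  rcases eq_or_ne y z with rfl | hyz
  · simp; positivity
  have h0 : 0 < ‖y - z‖ := norm_pos_iff.2 (sub_ne_zero.2 hyz)
  calc ‖y - z‖ = ‖y - z‖ ^ (1 : ℝ) := (Real.rpow_one _).symm
    _ ≤ ‖y - z‖ ^ β := Real.rpow_le_rpow_of_exponent_ge h0 hd hβ1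

theorem CH.of_succ (hβ : 0 < β) (hβ1 : β ≤ 1) (hΩ : IsOpen Ω) : ∀ {k : ℕ} {f : EE n → ℝ},
    CH β Ω (k + 1) f → CH β Ω k f
  | 0, _, h => CH.one_zero hβ hβ1 hΩ h
  | _ + 1, _, h => ⟨h.1, fun i => CH.of_succ hβ hβ1 hΩ (h.2 i)⟩

theorem CH.of_le (hβ : 0 < β) (hβ1 : β ≤ 1) (hΩ : IsOpen Ω) {k l : ℕ} (hkl : k ≤ l)
    {f : EE n → ℝ} (h : CH β Ω l f) : CH β Ω k f := by
  induction l, hkl using Nat.le_induction with
  | base => exact h
  | succ l _ ih => exact ih (CH.of_succ hβ hβ1 hΩ h)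

theorem pderiv_congr (hΩ : IsOpen Ω) (he : EqOn f g Ω) (i : Fin n) :
    EqOn (pderiv i f) (pderiv i g) Ω := by
  intro x hx
  have : f =ᶠ[𝓝 x] g := by
    filter_upwards [hΩ.mem_nhds hx] with y hy using he hy
  unfold Crest.GeometryTopology.CoordMetric.pderiv
  rw [this.fderiv_eq]

theorem CH.congr (hΩ : IsOpen Ω) : ∀ {k : ℕ} {f g : EE n → ℝ}, CH β Ω k f → EqOn f g Ω →
    CH β Ω k g
  | 0, _, _, h, he => LH.congr h he
  | k + 1, f, g, h, he => ⟨fun x hx => (h.1 x hx).congr_of_eventuallyEq (by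
      filter_upwards [hΩ.mem_nhds hx] with y hy using (he hy).symm),
      fun i => CH.congr hΩ (h.2 i) (pderiv_congr hΩ he i)⟩

theorem CH.const (hΩ : IsOpen Ω) : ∀ {k : ℕ} (c : ℝ), CH β Ω k (fun _ => c)
  | 0, c => LH.const hΩ c
  | k + 1, c => ⟨fun x _ => differentiableAt_const _, fun i => by
      have : pderiv i (fun _ : EE n => c) = fun _ => 0 := by
        ext x; simp [Crest.GeometryTopology.CoordMetric.pderiv]
      rw [this]
      exact CH.const hΩ 0⟩

theorem CH.add (hΩ : IsOpen Ω) : ∀ {k : ℕ} {f g : EE n → ℝ}, CH β Ω k f → CH β Ω k g →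
    CH β Ω k (fun x => f x + g x)
  | 0, _, _, hf, hg => LH.add hf hg
  | k + 1, f, g, hf, hg => ⟨fun x hx => (hf.1 x hx).add (hg.1 x hx), fun i =>
      (CH.add hΩ (hf.2 i) (hg.2 i)).congr hΩ fun x hx =>
        (pderiv_add i x (hf.1 x hx) (hg.1 x hx)).symm⟩

theorem CH.mul (hβ : 0 < β) (hβ1 : β ≤ 1) (hΩ : IsOpen Ω) : ∀ {k : ℕ} {f g : EE n → ℝ},
    CH β Ω k f → CH β Ω k g → CH β Ω k (fun x => f x * g x)
  | 0, _, _, hf, hg => LH.mul hβ hf hg
  | k + 1, f, g, hf, hg => ⟨fun x hx => (hf.1 x hx).mul (hg.1 x hx), fun i =>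
      ((CH.mul hβ hβ1 hΩ (hf.2 i) (hg.of_succ hβ hβ1 hΩ)).add hΩ
        (CH.mul hβ hβ1 hΩ (hf.of_succ hβ hβ1 hΩ) (hg.2 i))).congr hΩ fun x hx =>
        (pderiv_mul i x (hf.1 x hx) (hg.1 x hx)).symm⟩

theorem CH.const_mul (hβ : 0 < β) (hβ1 : β ≤ 1) (hΩ : IsOpen Ω) {k : ℕ} {f : EE n → ℝ}
    (h : CH β Ω k f) (c : ℝ) : CH β Ω k (fun x => c * f x) :=
  CH.mul hβ hβ1 hΩ (CH.const hΩ c) h

theorem CH.neg (hβ : 0 < β) (hβ1 : β ≤ 1) (hΩ : IsOpen Ω) {k : ℕ} {f : EE n → ℝ}
    (h : CH β Ω k f) : CH β Ω k (fun x => - f x) :=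
  (h.const_mul hβ hβ1 hΩ (-1)).congr hΩ fun x _ => by simp

theorem CH.sub (hβ : 0 < β) (hβ1 : β ≤ 1) (hΩ : IsOpen Ω) {k : ℕ} {f g : EE n → ℝ}
    (hf : CH β Ω k f) (hg : CH β Ω k g) : CH β Ω k (fun x => f x - g x) :=
  (hf.add hΩ (hg.neg hβ hβ1 hΩ)).congr hΩ fun x _ => by simp [sub_eq_add_neg]

theorem CH.sum {ι : Type*} (hΩ : IsOpen Ω) {k : ℕ} (t : Finset ι) {f : ι → EE n → ℝ}
    (h : ∀ i ∈ t, CH β Ω k (f i)) : CH β Ω k (fun x => ∑ i ∈ t, f i x) := by
  classical
  induction t using Finset.induction_on with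
  | empty => simpa using CH.const hΩ 0
  | insert a t ha ih =>
    simp only [Finset.sum_insert ha]
    exact (h a (Finset.mem_insert_self _ _)).add hΩ
      (ih fun i hi => h i (Finset.mem_insert_of_mem hi))

/-- composition with a smooth function -/
theorem CH.comp {ι : Type*} [Fintype ι] (hβ : 0 < β) (hβ1 : β ≤ 1) (hΩ : IsOpen Ω)
    {O : Set (ι → ℝ)} (hO : IsOpen O) : ∀ {k : ℕ} {u : ι → EE n → ℝ} {F : (ι → ℝ) → ℝ},
    (∀ A, CH β Ω k (u A)) → ContDiffOn ℝ ∞ F O → (∀ x ∈ Ω, (fun A => u A x) ∈ O) →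
    CH β Ω k (fun x => F fun A => u A x)
  | 0, u, F, h, hF, hu => LH.comp hβ hΩ h hO (hF.of_le (by exact_mod_cast le_top)) hu
  | k + 1, u, F, h, hF, hu => by
    classical
    have hud : ∀ x ∈ Ω, HasFDerivAt (fun x A => u A x)
        (ContinuousLinearMap.pi fun A => fderiv ℝ (u A) x) x := fun x hx =>
      hasFDerivAt_pi.2 fun A => ((h A).1 x hx).hasFDerivAt
    have hFd : ∀ x ∈ Ω, HasFDerivAt F (fderiv ℝ F (fun A => u A x)) (fun A => u A x) := fun x hx =>
      ((hF.contDiffAt (hO.mem_nhds (hu x hx))).differentiableAt (by simp)).hasFDerivAt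
    have hcd : ∀ x ∈ Ω, HasFDerivAt (fun x => F fun A => u A x)
        ((fderiv ℝ F (fun A => u A x)).comp (ContinuousLinearMap.pi fun A => fderiv ℝ (u A) x)) x :=
      fun x hx => (hFd x hx).comp x (hud x hx)
    refine ⟨fun x hx => (hcd x hx).differentiableAt, fun i => ?_⟩
    have hFA : ∀ A : ι, ContDiffOn ℝ ∞ (fun y => fderiv ℝ F y (Pi.single A 1)) O := fun A =>
      (hF.fderiv_of_isOpen hO (m := ∞) (by simp)).clm_apply contDiffOn_const
    have hS : CH β Ω k (fun x => ∑ A, fderiv ℝ F (fun A => u A x) (Pi.single A 1) *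
        pderiv i (u A) x) :=
      CH.sum hΩ _ fun A _ => CH.mul hβ hβ1 hΩ
        (CH.comp hβ hβ1 hΩ hO (fun B => (h B).of_succ hβ hβ1 hΩ) (hFA A) hu) ((h A).2 i)
    refine hS.congr hΩ fun x hx => ?_
    show _ = fderiv ℝ (fun x => F fun A => u A x) x (EuclideanSpace.single i 1)
    rw [(hcd x hx).fderiv, ContinuousLinearMap.comp_apply]
    have e1 : (ContinuousLinearMap.pi fun A => fderiv ℝ (u A) x) (EuclideanSpace.single i 1)
        = ∑ A, pderiv i (u A) x • (Pi.single A 1 : ι → ℝ) := by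
      ext A
      simp [Finset.sum_apply, Pi.single_apply, Crest.GeometryTopology.CoordMetric.pderiv]
    rw [e1, map_sum]
    refine Finset.sum_congr rfl fun A _ => ?_
    rw [map_smul, smul_eq_mul, mul_comm]

theorem CH.contDiffOn (hβ : 0 < β) (hΩ : IsOpen Ω) : ∀ {k : ℕ} {f : EE n → ℝ}, CH β Ω k f →
    ContDiffOn ℝ k f Ω
  | 0, _, h => by
    rw [Nat.cast_zero, contDiffOn_zero]; exact LH.continuousOn hβ h
  | k + 1, f, h => by
    have h1 : ∀ i, ContDiffOn ℝ k (pderiv i f) Ω := fun i => CH.contDiffOn hβ hΩ (h.2 i)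
    have h2 : ((k + 1 : ℕ) : WithTop ℕ∞) = (k : WithTop ℕ∞) + 1 := by push_cast; rfl
    rw [h2, contDiffOn_succ_iff_fderiv_of_isOpen hΩ]
    refine ⟨fun x hx => (h.1 x hx).differentiableWithinAt, fun hw => ?_, ?_⟩
    · exact absurd hw (by simp)
    · have e : ∀ x, fderiv ℝ f x = ∑ i, pderiv i f x • (EuclideanSpace.proj (𝕜 := ℝ) i :
          EE n →L[ℝ] ℝ) := by
        intro x
        ext z
        have hz : z = ∑ k, z k • (EuclideanSpace.single k (1 : ℝ) : EE n) := by
          ext j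
          simp [Pi.single_apply]
        conv_lhs => rw [hz]
        rw [map_sum]
        simp only [FunLike.coe_sum, Finset.sum_apply,
          _root_.smul_apply, map_smul, smul_eq_mul]
        refine Finset.sum_congr rfl fun i _ => ?_
        show z i * pderiv i f x = _
        rw [mul_comm]; rfl
      have e2 : fderiv ℝ f = fun x => ∑ i, pderiv i f x • (EuclideanSpace.proj (𝕜 := ℝ) i :
          EE n →L[ℝ] ℝ) := funext e
      rw [e2]
      exact ContDiffOn.sum fun i _ => (h1 i).smul contDiffOn_const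

theorem contDiffOn_of_CH (hβ : 0 < β) (hΩ : IsOpen Ω) {f : EE n → ℝ} (h : ∀ k, CH β Ω k f) :
    ContDiffOn ℝ ∞ f Ω :=
  contDiffOn_infty.2 fun k => CH.contDiffOn hβ hΩ (h k)


end

end Crest.Agent.R249.RegKer_717
end

-- ▼ part R249/RegLin_717
section

/-!
Row 249, leaf D3-REG (helper717), file 12: local integration by parts, cut-offs, and linear regularity
`a ∈ C^{k+1,β}`, `f ∈ C^{k,β}` ⇒ weak `C^{1,β}` solutions of `div (a ∇ v) = f` are `C^{k+2,β}`.
-/

set_option autoImplicit false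
open scoped ContDiff ENNReal Topology
open MeasureTheory Set Filter
open Crest.GeometryTopology.CoordMetric

namespace Crest.Agent.R249.RegKer_717

open Crest.Agent.R202.Ell

noncomputable section

variable {n : ℕ} {β : ℝ} {Ω V : Set (EE n)}

theorem cont_mul_test (hΩ : IsOpen Ω) {g φ : EE n → ℝ} (hg : ContinuousOn g Ω) (hφ : IsTest φ)
    (hs : tsupport φ ⊆ Ω) : Continuous (fun x => g x * φ x) := by
  rw [continuous_iff_continuousAt]
  intro x
  by_cases hx : x ∈ tsupport φ
  · exact (hg.continuousAt (hΩ.mem_nhds (hs hx))).mul hφ.continuous.continuousAt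
  · have h1 : φ =ᶠ[𝓝 x] (0 : EE n → ℝ) := notMem_tsupport_iff_eventuallyEq.1 hx
    have h2 : (fun x => g x * φ x) =ᶠ[𝓝 x] fun _ => 0 := by
      filter_upwards [h1] with y hy
      rw [hy]; simp
    exact (continuousAt_congr h2).2 continuousAt_const

theorem int_mul_test (hΩ : IsOpen Ω) {g φ : EE n → ℝ} (hg : ContinuousOn g Ω) (hφ : IsTest φ)
    (hs : tsupport φ ⊆ Ω) : Integrable (fun x => g x * φ x) :=
  (cont_mul_test hΩ hg hφ hs).integrable_of_hasCompactSupport hφ.cpt.mul_left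

theorem test_zero {φ : EE n → ℝ} (hs : tsupport φ ⊆ V) {x : EE n} (hx : x ∉ V) : φ x = 0 :=
  image_eq_zero_of_notMem_tsupport fun h => hx (hs h)

/-- local integration by parts -/
theorem ibp_local (hΩ : IsOpen Ω) {g : EE n → ℝ} (hg : ∀ x ∈ Ω, DifferentiableAt ℝ g x)
    (i : Fin n) (hgc : ContinuousOn (pderiv i g) Ω) {φ : EE n → ℝ} (hφ : IsTest φ)
    (hs : tsupport φ ⊆ Ω) : ∫ x, g x * pderiv i φ x = - ∫ x, pderiv i g x * φ x := by
  have hgc0 : ContinuousOn g Ω := fun x hx => (hg x hx).continuousAt.continuousWithinAt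
  have hs' : tsupport (pderiv i φ) ⊆ Ω := (tsupport_pderiv φ i).trans hs
  set P : EE n → ℝ := fun x => g x * φ x with hP
  have hev : ∀ x, x ∉ tsupport φ → P =ᶠ[𝓝 x] fun _ => 0 := by
    intro x hx
    have h1 : φ =ᶠ[𝓝 x] (0 : EE n → ℝ) := notMem_tsupport_iff_eventuallyEq.1 hx
    filter_upwards [h1] with y hy
    simp only [hP]
    rw [hy]; simp
  have hPd : Differentiable ℝ P := by
    intro x
    by_cases hx : x ∈ tsupport φ
    · exact (hg x (hs hx)).mul (it_diff hφ x)
    · exact (hev x hx).differentiableAt_iff.2 (differentiableAt_const _)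
  have hPp : ∀ x, pderiv i P x = pderiv i g x * φ x + g x * pderiv i φ x := by
    intro x
    by_cases hx : x ∈ tsupport φ
    · exact pderiv_mul i x (hg x (hs hx)) (it_diff hφ x)
    · have h1 : pderiv i P x = 0 := by
        unfold Crest.GeometryTopology.CoordMetric.pderiv
        rw [(hev x hx).fderiv_eq]; simp
      rw [h1, image_eq_zero_of_notMem_tsupport hx,
        image_eq_zero_of_notMem_tsupport fun h => hx (tsupport_pderiv φ i h)]
      simp
  have i1 : Integrable (fun x => pderiv i g x * φ x) := int_mul_test hΩ hgc hφ hs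
  have i2 : Integrable (fun x => g x * pderiv i φ x) := int_mul_test hΩ hgc0 (hφ.pderiv i) hs'
  have i3 : Integrable P := int_mul_test hΩ hgc0 hφ hs
  have hz : ∀ x : EE n, pderiv i (fun _ : EE n => (1 : ℝ)) x = 0 := fun x => by
    simp [Crest.GeometryTopology.CoordMetric.pderiv]
  have h1 := integral_parts (f := fun _ : EE n => (1 : ℝ)) (g := P) i (differentiable_const _)
    hPd (by
      simp only [one_mul]
      have : pderiv i P = fun x => pderiv i g x * φ x + g x * pderiv i φ x := funext hPp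
      rw [this]; exact i1.add i2) (by simp [hz]) (by simpa using i3)
  simp only [one_mul, hz, zero_mul, integral_zero, neg_zero, hPp] at h1
  rw [integral_add i1 i2] at h1
  linarith

theorem WDOn.of_c1 (hΩ : IsOpen Ω) {g : EE n → ℝ} (hg : ∀ x ∈ Ω, DifferentiableAt ℝ g x)
    (i : Fin n) (hgc : ContinuousOn (pderiv i g) Ω) : WDOn Ω i g (pderiv i g) :=
  fun _ hφ hs => ibp_local hΩ hg i hgc hφ hs

theorem WDOn.congr {i : Fin n} {v v' g g' : EE n → ℝ} (h : WDOn V i v g) (hv : EqOn v v' V)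
    (hg : EqOn g g' V) : WDOn V i v' g' := by
  intro φ hφ hs
  have e1 : ∫ x, v' x * pderiv i φ x = ∫ x, v x * pderiv i φ x := by
    refine integral_congr_ae (Filter.Eventually.of_forall fun x => ?_)
    by_cases hx : x ∈ V
    · simp only [hv hx]
    · simp only [test_zero ((tsupport_pderiv φ i).trans hs) hx, mul_zero]
  have e2 : ∫ x, g' x * φ x = ∫ x, g x * φ x := by
    refine integral_congr_ae (Filter.Eventually.of_forall fun x => ?_)
    by_cases hx : x ∈ V
    · simp only [hg hx]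
    · simp only [test_zero hs hx, mul_zero]
  rw [e1, e2]
  exact h φ hφ hs

theorem WEqOn.congr_ae {a a' : Fin n → Fin n → EE n → ℝ} {H H' : Fin n → EE n → ℝ}
    {B B' : EE n → ℝ} (h : WEqOn V a H B)
    (haH : ∀ i j, ∀ᵐ x, x ∈ V → a i j x * H i x = a' i j x * H' i x)
    (hB : ∀ᵐ x, x ∈ V → B x = B' x) : WEqOn V a' H' B' := by
  intro φ hφ hs
  have e1 : ∀ i j, ∫ x, a' i j x * H' i x * pderiv j φ x = ∫ x, a i j x * H i x * pderiv j φ x := by
    intro i j
    refine integral_congr_ae ?_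
    filter_upwards [haH i j] with x hx'
    by_cases hx : x ∈ V
    · rw [hx' hx]
    · simp only [test_zero ((tsupport_pderiv φ j).trans hs) hx, mul_zero]
  have e2 : ∫ x, B' x * φ x = ∫ x, B x * φ x := by
    refine integral_congr_ae ?_
    filter_upwards [hB] with x hx'
    by_cases hx : x ∈ V
    · rw [hx' hx]
    · simp only [test_zero hs hx, mul_zero]
  simp only [e1, e2]
  exact h φ hφ hs

/-- uniqueness of weak derivatives -/
theorem WDOn.unique (hΩ : IsOpen Ω) {i : Fin n} {v g g' : EE n → ℝ} (h : WDOn Ω i v g)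
    (h' : WDOn Ω i v g') (hg : LocallyIntegrableOn g Ω) (hg' : LocallyIntegrableOn g' Ω) :
    ∀ᵐ x, x ∈ Ω → g x = g' x := by
  have h1 := hΩ.ae_eq_zero_of_integral_contDiff_smul_eq_zero (f := fun x => g x - g' x)
    (hg.sub hg') fun φ hφ1 hφ2 hφ3 => by
      have hφ : IsTest φ := ⟨hφ1, hφ2⟩
      have a1 := h φ hφ hφ3
      have a2 := h' φ hφ hφ3
      rw [a1] at a2
      have key : ∀ {k : EE n → ℝ}, LocallyIntegrableOn k Ω → Integrable (fun x => k x * φ x) := by
        intro k hk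
        have hk1 : IntegrableOn k (tsupport φ) := hk.integrableOn_compact_subset hφ3 hφ2
        have hk2 : IntegrableOn (fun x => k x * φ x) (tsupport φ) :=
          hk1.mul_continuousOn hφ.continuous.continuousOn hφ2
        rw [← integrableOn_iff_integrable_of_support_subset
          (s := tsupport φ) (f := fun x => k x * φ x)]
        · exact hk2
        · intro x hx
          by_contra hxs
          exact hx (by simp [image_eq_zero_of_notMem_tsupport hxs])
      have e1 : ∀ x, φ x • (g x - g' x) = g x * φ x - g' x * φ x := fun x => by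
        rw [smul_eq_mul]; ring
      simp only [e1]
      rw [integral_sub (key hg) (key hg')]
      linarith
  filter_upwards [h1] with x hx hxΩ
  linarith [hx hxΩ]

/-- local uniform ellipticity -/
def LEll (Ω : Set (EE n)) (a : Fin n → Fin n → EE n → ℝ) : Prop :=
  ∀ x ∈ Ω, ∃ r > 0, ∃ lam > 0, ∃ Lam, 1 ≤ Lam ∧ ∀ y ∈ Metric.closedBall x r,
    Ellc lam Lam (fun i j => a i j y)

/-- uniformization over a finite family -/
theorem unif {ι : Type*} [Fintype ι] {P : ι → ℝ → ℝ → Prop}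
    (hmono : ∀ A r r' C C', 0 < r' → r' ≤ r → C ≤ C' → P A r C → P A r' C')
    (h : ∀ A, ∃ r > 0, ∃ C, 0 ≤ C ∧ P A r C) {r0 : ℝ} (hr0 : 0 < r0) :
    ∃ r > 0, r ≤ r0 ∧ ∃ C, 0 ≤ C ∧ ∀ A, P A r C := by
  classical
  have : ∀ t : Finset ι, ∃ r > 0, r ≤ r0 ∧ ∃ C, 0 ≤ C ∧ ∀ A ∈ t, P A r C := by
    intro t
    induction t using Finset.induction_on with
    | empty => exact ⟨r0, hr0, le_rfl, 0, le_rfl, by simp⟩
    | insert a t ha ih =>
      obtain ⟨r, h1, h2, C, hC, h3⟩ := ih
      obtain ⟨r', h1', C', hC', h3'⟩ := h a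
      refine ⟨min r r', lt_min h1 h1', (min_le_left _ _).trans h2, max C C',
        hC.trans (le_max_left _ _), fun A hA => ?_⟩
      rcases Finset.mem_insert.1 hA with rfl | hA
      · exact hmono _ _ _ _ _ (lt_min h1 h1') (min_le_right _ _) (le_max_right _ _) h3'
      · exact hmono _ _ _ _ _ (lt_min h1 h1') (min_le_left _ _) (le_max_left _ _) (h3 A hA)
  obtain ⟨r, h1, h2, C, hC, h3⟩ := this Finset.univ
  exact ⟨r, h1, h2, C, hC, fun A => h3 A (Finset.mem_univ A)⟩

/-- the local estimates of a `C^{1,β}` function -/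
structure Loc1 (β : ℝ) (Ω : Set (EE n)) (f : EE n → ℝ) (x : EE n) (r C : ℝ) : Prop where
  sub : Metric.closedBall x r ⊆ Ω
  lip : ∀ y ∈ Metric.closedBall x r, ∀ z ∈ Metric.closedBall x r, |f y - f z| ≤ C * ‖y - z‖
  bd : ∀ i, ∀ y ∈ Metric.closedBall x r, |pderiv i f y| ≤ C
  hol : ∀ i, ∀ y ∈ Metric.closedBall x r, ∀ z ∈ Metric.closedBall x r,
        |pderiv i f y - pderiv i f z| ≤ C * ‖y - z‖ ^ β
  tay : ∀ y ∈ Metric.closedBall x r, ∀ z ∈ Metric.closedBall x r,
        |f z - f y - fderiv ℝ f y (z - y)| ≤ C * (‖z - y‖ * ‖z - y‖ ^ β)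

theorem Loc1.mono {f : EE n → ℝ} {x : EE n} {r r' C C' : ℝ} (h : Loc1 β Ω f x r C) (hr : r' ≤ r)
    (hC : C ≤ C') : Loc1 β Ω f x r' C' := by
  have hs : Metric.closedBall x r' ⊆ Metric.closedBall x r := Metric.closedBall_subset_closedBall hr
  refine ⟨hs.trans h.sub, fun y hy z hz => ?_, fun i y hy => ?_, fun i y hy z hz => ?_,
    fun y hy z hz => ?_⟩
  · exact (h.lip y (hs hy) z (hs hz)).trans (mul_le_mul_of_nonneg_right hC (norm_nonneg _))
  · exact (h.bd i y (hs hy)).trans hC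
  · exact (h.hol i y (hs hy) z (hs hz)).trans (mul_le_mul_of_nonneg_right hC
      (Real.rpow_nonneg (norm_nonneg _) _))
  · exact (h.tay y (hs hy) z (hs hz)).trans (mul_le_mul_of_nonneg_right hC (by positivity))

theorem CH.loc1 (hβ : 0 < β) (hΩ : IsOpen Ω) {f : EE n → ℝ} (h : CH β Ω 1 f) {x : EE n}
    (hx : x ∈ Ω) : ∃ r > 0, ∃ C, 0 ≤ C ∧ Loc1 β Ω f x r C := by
  obtain ⟨r, hr, C, hC, h1, h2⟩ := CH.one_local hβ hΩ h hx
  obtain ⟨a1, a2, a3, a4⟩ := h2 r le_rfl
  exact ⟨r, hr, C, hC, h1, a1, a2, a3, a4⟩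

/-- the cut-off of a function to a closed ball -/
theorem cut_eq {x1 : EE n} {R : ℝ} (f : EE n → ℝ) :
    EqOn f ((Metric.closedBall x1 R).indicator f) (Metric.ball x1 R) := fun x hx => by
  rw [indicator_of_mem (Metric.ball_subset_closedBall hx)]

theorem cut_ev {x1 : EE n} {R : ℝ} (f : EE n → ℝ) {x : EE n} (hx : x ∈ Metric.ball x1 R) :
    (Metric.closedBall x1 R).indicator f =ᶠ[𝓝 x] f := by
  filter_upwards [Metric.isOpen_ball.mem_nhds hx] with y hy using (cut_eq f hy).symm

theorem cut_li {x1 : EE n} {R : ℝ} {f : EE n → ℝ} (h : IntegrableOn f (Metric.closedBall x1 R)) :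
    LocallyIntegrable ((Metric.closedBall x1 R).indicator f) :=
  ((integrable_indicator_iff Metric.isClosed_closedBall.measurableSet).2 h).locallyIntegrable

/-- **Linear regularity, base case.** -/
theorem LR0 (hn : 0 < n) (hβ : 0 < β) (hβ1 : β < 1) (hΩ : IsOpen Ω)
    {a : Fin n → Fin n → EE n → ℝ} {f v : EE n → ℝ} (ha : ∀ i j, CH β Ω 1 (a i j))
    (hell : LEll Ω a) (hf : CH β Ω 0 f) (hv : CH β Ω 1 v)
    (heq : WEqOn Ω a (fun i => pderiv i v) f) : CH β Ω 2 v := by
  obtain ⟨η, Φ, M, hp⟩ := exists_Pair n hn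
  refine ⟨hv.1, fun e => ?_⟩
  -- local claim
  have claim : ∀ x1 ∈ Ω, ∃ ρ > 0, ∃ K, 0 ≤ K ∧ Metric.closedBall x1 ρ ⊆ Ω ∧
      (∀ x ∈ Metric.closedBall x1 ρ, DifferentiableAt ℝ (pderiv e v) x) ∧
      ∀ x ∈ Metric.closedBall x1 ρ, ∀ y ∈ Metric.closedBall x1 ρ,
        ‖fderiv ℝ (pderiv e v) x - fderiv ℝ (pderiv e v) y‖ ≤ K * ‖x - y‖ ^ β := by
    intro x1 hx1
    obtain ⟨r1, hr1, lam, hlam, Lam, hLam, hE⟩ := hell x1 hx1
    obtain ⟨r2, hr2, Cf, hCf, hf1, hf2⟩ := hf x1 hx1
    obtain ⟨r3, hr3, Cv, hCv, hv1⟩ := CH.loc1 hβ hΩ hv hx1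
    obtain ⟨R, hR, hRle, Ca, hCa, ha1⟩ := unif (ι := Fin n × Fin n)
      (P := fun p r C => Loc1 β Ω (a p.1 p.2) x1 r C)
      (fun A r r' C C' _ hr hC h => h.mono hr hC)
      (fun p => CH.loc1 hβ hΩ (ha p.1 p.2) hx1)
      (r0 := min r1 (min r2 r3)) (lt_min hr1 (lt_min hr2 hr3))
    have l1 : R ≤ r1 := hRle.trans (min_le_left _ _)
    have l2 : R ≤ r2 := hRle.trans ((min_le_right _ _).trans (min_le_left _ _))
    have l3 : R ≤ r3 := hRle.trans ((min_le_right _ _).trans (min_le_right _ _))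
    have hv2 := hv1.mono l3 le_rfl
    have hsub : Metric.closedBall x1 R ⊆ Ω := hv2.sub
    set c := Real.sqrt Lam with hc
    have hc1 : 1 ≤ c := Real.one_le_sqrt.2 hLam
    have hc0 : 0 < c := lt_of_lt_of_le one_pos hc1
    set r0 := min 1 (R / (4 * c)) with hr0def
    have hr0 : 0 < r0 := lt_min one_pos (by positivity)
    have hr01 : r0 ≤ 1 := min_le_left _ _
    have hcr0 : c * r0 ≤ R / 4 := by
      have := mul_le_mul_of_nonneg_left (min_le_right 1 (R / (4 * c))) hc0.le
      refine this.trans (le_of_eq ?_)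
      field_simp
    have hr0R : r0 ≤ R / 4 := by
      have : 1 * r0 ≤ c * r0 := mul_le_mul_of_nonneg_right hc1 hr0.le
      linarith
    set Kb := Metric.closedBall x1 R with hKb
    set V := Metric.ball x1 R with hVdef
    have hVK : V ⊆ Kb := Metric.ball_subset_closedBall
    have hV : ∀ x0 ∈ Metric.closedBall x1 (R / 4), ∀ y, ‖y - x0‖ ≤ r0 →
        Metric.closedBall y (c * r0) ⊆ V := by
      intro x0 hx0 y hy z hz
      rw [Metric.mem_closedBall] at hx0 hz
      rw [hVdef, Metric.mem_ball]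
      rw [← dist_eq_norm] at hy
      have := dist_triangle z y x1
      have := dist_triangle y x0 x1
      linarith
    have hcv : ContinuousOn v Ω := fun x hx => (hv.1 x hx).continuousAt.continuousWithinAt
    have hcp : ∀ i, ContinuousOn (pderiv i v) Ω := fun i => LH.continuousOn hβ (hv.2 i)
    have hca : ∀ i j, ContinuousOn (a i j) Ω := fun i j x hx =>
      ((ha i j).1 x hx).continuousAt.continuousWithinAt
    have hcf : ContinuousOn f Ω := LH.continuousOn hβ hf
    have hint : ∀ {g : EE n → ℝ}, ContinuousOn g Ω → LocallyIntegrable (Kb.indicator g) :=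
      fun hg => cut_li ((hg.mono hsub).integrableOn_compact (isCompact_closedBall _ _))
    have hfe := L2 (V := V) (W := Metric.closedBall x1 (R / 4)) hp (v := Kb.indicator v)
      (H := fun i => Kb.indicator (pderiv i v)) (a := a)
      (ga := fun i j y => fderiv ℝ (a i j) y) (B := Kb.indicator f) (β := β) (Ca := Ca) (CB := Cf)
      (Ch := Cv) (CH := Cv) (lam := lam) (Lam := Lam) (I := Cv * ((c * r0) ^ n * vb n)) (r0 := r0)
      (hint hcv) (fun i => hint (hcp i)) (hint hcf)
      (fun i j => by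
        have : (fun x => a i j x * Kb.indicator (pderiv i v) x)
            = Kb.indicator (fun x => a i j x * pderiv i v x) := by
          ext x; by_cases hx : x ∈ Kb <;> simp [hx]
        rw [this]; exact hint ((hca i j).mul (hcp i)))
      (fun i => ((WDOn.of_c1 hΩ hv.1 i (hcp i)).mono (hVK.trans hsub)).congr (cut_eq _) (cut_eq _))
      ((heq.mono (hVK.trans hsub)).congr_ae
        (fun i j => Filter.Eventually.of_forall fun x hx => by rw [cut_eq (pderiv i v) hx])
        (Filter.Eventually.of_forall fun x hx => cut_eq f hx))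
      hβ hβ1 hCa hCf hCv hCv hlam hLam (by have := vb0 (n := n); positivity)
      (fun x hx => hE x (Metric.closedBall_subset_closedBall (by linarith) hx))
      (fun i j x hx y hy => (ha1 (i, j)).lip x (hVK hx) y (hVK hy))
      (fun i j y hy t ht => (ha1 (i, j)).tay y (hVK hy) t (hVK ht))
      (fun x hx y hy => by
        rw [← cut_eq f hx, ← cut_eq f hy]
        exact hf2 x (Metric.closedBall_subset_closedBall l2 (hVK hx)) y
          (Metric.closedBall_subset_closedBall l2 (hVK hy)))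
      (fun i x hx y hy => by
        rw [← cut_eq (pderiv i v) hx, ← cut_eq (pderiv i v) hy]
        exact hv2.hol i x (hVK hx) y (hVK hy))
      (fun i x hx => by
        rw [← cut_eq (pderiv i v) hx]; exact hv2.bd i x (hVK hx))
      hr0 hr01 hV e
      (fun x hx => (continuousAt_congr (cut_ev (pderiv e v) hx)).2
        (LH.continuousAt hβ (hv.2 e) (hsub (hVK hx))))
      (fun x0 hx0 y hy => int_const_bound (hint (hcp e)) (by positivity) fun t ht => by
        have htV := hV x0 hx0 y hy ht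
        rw [← cut_eq (pderiv e v) htV]; exact hv2.bd e t (hVK htV))
    obtain ⟨g, K, hK, _, hg2, hg3⟩ := hfe
    have hρ : 0 < min (R / 4) (r0 / 4) := lt_min (by positivity) (by positivity)
    have hρsub : Metric.closedBall x1 (min (R / 4) (r0 / 4)) ⊆ Metric.closedBall x1 (R / 4) :=
      Metric.closedBall_subset_closedBall (min_le_left _ _)
    have hWV : Metric.closedBall x1 (R / 4) ⊆ V := by
      intro z hz
      rw [Metric.mem_closedBall] at hz
      rw [hVdef, Metric.mem_ball]; linarith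
    have hder : ∀ x ∈ Metric.closedBall x1 (R / 4), HasFDerivAt (pderiv e v) (g x) x := fun x hx =>
      (hg2 x hx).congr_of_eventuallyEq (cut_ev (pderiv e v) (hWV hx)).symm
    refine ⟨min (R / 4) (r0 / 4), hρ, K, hK, (hρsub.trans hWV).trans (hVK.trans hsub),
      fun x hx => (hder x (hρsub hx)).differentiableAt, fun x hx y hy => ?_⟩
    rw [(hder x (hρsub hx)).fderiv, (hder y (hρsub hy)).fderiv]
    refine hg3 x (hρsub hx) y (hρsub hy) ?_
    have hx' := Metric.closedBall_subset_closedBall (min_le_right _ _) hx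
    have hy' := Metric.closedBall_subset_closedBall (min_le_right _ _) hy
    rw [Metric.mem_closedBall] at hx' hy'
    rw [← dist_eq_norm]
    have := dist_triangle_right x y x1
    linarith
  refine ⟨fun x hx => ?_, fun i x1 hx1 => ?_⟩
  · obtain ⟨ρ, hρ, K, hK, h1, h2, h3⟩ := claim x hx
    exact h2 x (Metric.mem_closedBall_self hρ.le)
  · obtain ⟨ρ, hρ, K, hK, h1, h2, h3⟩ := claim x1 hx1
    refine ⟨ρ, hρ, K, hK, h1, fun y hy z hz => ?_⟩
    have e1 : pderiv i (pderiv e v) y - pderiv i (pderiv e v) z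
        = (fderiv ℝ (pderiv e v) y - fderiv ℝ (pderiv e v) z) (EuclideanSpace.single i 1) := rfl
    rw [e1, ← Real.norm_eq_abs]
    refine ((fderiv ℝ (pderiv e v) y - fderiv ℝ (pderiv e v) z).le_opNorm _).trans ?_
    rw [PiLp.norm_single, norm_one, mul_one]
    exact h3 y hy z hz

/-- **Linear regularity.** -/
theorem LR (hn : 0 < n) (hβ : 0 < β) (hβ1 : β < 1) (hΩ : IsOpen Ω)
    {a : Fin n → Fin n → EE n → ℝ} (hell : LEll Ω a) : ∀ (k : ℕ) {f v : EE n → ℝ},
    (∀ i j, CH β Ω (k + 1) (a i j)) → CH β Ω k f → CH β Ω 1 v →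
    WEqOn Ω a (fun i => pderiv i v) f → CH β Ω (k + 2) v := by
  intro k
  induction k with
  | zero => intro f v ha hf hv heq; exact LR0 hn hβ hβ1 hΩ ha hell hf hv heq
  | succ k ih =>
    intro f v ha hf hv heq
    have hβ1' := hβ1.le
    have hv2 : CH β Ω (k + 2) v := ih (fun i j => (ha i j).of_succ hβ hβ1' hΩ)
      (hf.of_succ hβ hβ1' hΩ) hv heq
    refine ⟨hv2.1, fun e => ?_⟩
    -- the differentiated equation
    set fe : EE n → ℝ := fun x => pderiv e f x
      - ∑ i, ∑ j, pderiv j (fun x => pderiv e (a i j) x * pderiv i v x) x with hfe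
    have h1 : ∀ i j, CH β Ω (k + 1) (fun x => pderiv e (a i j) x * pderiv i v x) := fun i j =>
      CH.mul hβ hβ1' hΩ ((ha i j).2 e) (hv2.2 i)
    have hfek : CH β Ω k fe := CH.sub hβ hβ1' hΩ (hf.2 e)
      (CH.sum hΩ _ fun i _ => CH.sum hΩ _ fun j _ => (h1 i j).2 j)
    refine ih (fun i j => (ha i j).of_succ hβ hβ1' hΩ) hfek
      ((hv2.2 e).of_le hβ hβ1' hΩ (by omega)) ?_
    intro φ hφ hs
    have hs' : ∀ j, tsupport (pderiv j φ) ⊆ Ω := fun j => (tsupport_pderiv φ j).trans hs
    have c1 : ∀ {l : ℕ} {g : EE n → ℝ}, CH β Ω (l + 1) g → ∀ i, ContinuousOn (pderiv i g) Ω :=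
      fun h i => LH.continuousOn hβ (CH.of_le hβ hβ1' hΩ (Nat.zero_le _) (h.2 i))
    have c0 : ∀ {l : ℕ} {g : EE n → ℝ}, CH β Ω l g → ContinuousOn g Ω :=
      fun h => LH.continuousOn hβ (CH.of_le hβ hβ1' hΩ (Nat.zero_le _) h)
    have hcd2 : ∀ x ∈ Ω, ContDiffAt ℝ 2 v x := fun x hx =>
      ((CH.contDiffOn hβ hΩ (CH.of_le hβ hβ1' hΩ (show 2 ≤ k + 2 by omega) hv2)).contDiffAt
        (hΩ.mem_nhds hx))
    have E1 := heq (pderiv e φ) (hφ.pderiv e) (hs' e)
    have E2 : ∫ x, f x * pderiv e φ x = - ∫ x, pderiv e f x * φ x :=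
      ibp_local hΩ hf.1 e (c1 hf e) hφ hs
    have hag : ∀ i j, CH β Ω (k + 1) (fun x => a i j x * pderiv i v x) := fun i j =>
      CH.mul hβ hβ1' hΩ ((ha i j).of_succ hβ hβ1' hΩ) (hv2.2 i)
    have E3 : ∀ i j, ∫ x, a i j x * pderiv i v x * pderiv j (pderiv e φ) x
        = (∫ x, pderiv j (fun x => pderiv e (a i j) x * pderiv i v x) x * φ x)
          - ∫ x, a i j x * pderiv i (pderiv e v) x * pderiv j φ x := by
      intro i j
      have e1 : ∀ x, pderiv j (pderiv e φ) x = pderiv e (pderiv j φ) x := fun x =>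
        pderiv_comm j e x (it_cd2 hφ).contDiffAt
      simp only [e1]
      have e2 := ibp_local hΩ (hag i j).1 e (c1 (hag i j) e) (hφ.pderiv j) (hs' j)
      rw [e2]
      have e3 := ibp_local hΩ (h1 i j).1 j (c1 (h1 i j) j) hφ hs
      have e4 : ∫ x, pderiv e (fun x => a i j x * pderiv i v x) x * pderiv j φ x
          = ∫ x, (pderiv e (a i j) x * pderiv i v x * pderiv j φ x
            + a i j x * pderiv i (pderiv e v) x * pderiv j φ x) := by
        refine integral_congr_ae (Filter.Eventually.of_forall fun x => ?_)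
        by_cases hx : x ∈ Ω
        · show pderiv e (fun x => a i j x * pderiv i v x) x * pderiv j φ x = _
          rw [pderiv_mul e x ((ha i j).1 x hx) ((hv2.2 i).1 x hx), pderiv_comm e i x (hcd2 x hx)]
          ring
        · simp only [test_zero (hs' j) hx, mul_zero, add_zero]
      have i1 : Integrable (fun x => pderiv e (a i j) x * pderiv i v x * pderiv j φ x) :=
        int_mul_test hΩ ((c1 (ha i j) e).mul (c1 hv2 i)) (hφ.pderiv j) (hs' j)
      have i2 : Integrable (fun x => a i j x * pderiv i (pderiv e v) x * pderiv j φ x) :=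
        int_mul_test hΩ ((c0 (ha i j)).mul (c1 (hv2.2 e) i)) (hφ.pderiv j) (hs' j)
      rw [e4, integral_add i1 i2, e3]; ring
    simp only [E3, E2, Finset.sum_sub_distrib] at E1
    have E4 : ∫ x, fe x * φ x = (∫ x, pderiv e f x * φ x)
        - ∑ i, ∑ j, ∫ x, pderiv j (fun x => pderiv e (a i j) x * pderiv i v x) x * φ x := by
      have e1 : ∀ x, fe x * φ x = pderiv e f x * φ x
          - ∑ i, ∑ j, pderiv j (fun x => pderiv e (a i j) x * pderiv i v x) x * φ x := by
        intro x; simp only [hfe, sub_mul, Finset.sum_mul]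
      simp only [e1]
      have i1 : ∀ i j, Integrable (fun x =>
          pderiv j (fun x => pderiv e (a i j) x * pderiv i v x) x * φ x) := fun i j =>
        int_mul_test hΩ (c1 (h1 i j) j) hφ hs
      rw [integral_sub (int_mul_test hΩ (c1 hf e) hφ hs)
        (integrable_finsetSum _ fun i _ => integrable_finsetSum _ fun j _ => i1 i j),
        integral_finsetSum _ fun i _ => integrable_finsetSum _ fun j _ => i1 i j]
      congr 1
      exact Finset.sum_congr rfl fun i _ => integral_finsetSum _ fun j _ => i1 i j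
    rw [E4]
    linarith

/-- the strong form of the equation -/
theorem strong_eq (hβ : 0 < β) (hβ1 : β < 1) (hΩ : IsOpen Ω)
    {a : Fin n → Fin n → EE n → ℝ} {f v : EE n → ℝ} (ha : ∀ i j, CH β Ω 1 (a i j))
    (hf : CH β Ω 0 f) (hv : CH β Ω 2 v) (heq : WEqOn Ω a (fun i => pderiv i v) f) :
    ∀ x ∈ Ω, ∑ i, ∑ j, pderiv j (fun x => a i j x * pderiv i v x) x = f x := by
  have hβ1' := hβ1.le
  have h1 : ∀ i j, CH β Ω 1 (fun x => a i j x * pderiv i v x) := fun i j =>
    CH.mul hβ hβ1' hΩ (ha i j) (hv.2 i)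
  have c1 : ∀ i j, ContinuousOn (pderiv j (fun x => a i j x * pderiv i v x)) Ω := fun i j =>
    LH.continuousOn hβ ((h1 i j).2 j)
  have cS : ContinuousOn (fun x => ∑ i, ∑ j, pderiv j (fun x => a i j x * pderiv i v x) x) Ω :=
    continuousOn_finsetSum _ fun i _ => continuousOn_finsetSum _ fun j _ => c1 i j
  have cf : ContinuousOn f Ω := LH.continuousOn hβ hf
  have h2 := hΩ.ae_eq_zero_of_integral_contDiff_smul_eq_zero (μ := volume)
    (f := fun x => (∑ i, ∑ j, pderiv j (fun x => a i j x * pderiv i v x) x) - f x)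
    ((cS.sub cf).locallyIntegrableOn hΩ.measurableSet) fun φ hφ1 hφ2 hφ3 => by
      have hφ : IsTest φ := ⟨hφ1, hφ2⟩
      have E1 := heq φ hφ hφ3
      have e1 : ∀ x, φ x • ((∑ i, ∑ j, pderiv j (fun x => a i j x * pderiv i v x) x) - f x)
          = (∑ i, ∑ j, pderiv j (fun x => a i j x * pderiv i v x) x * φ x) - f x * φ x := by
        intro x
        rw [smul_eq_mul, mul_sub, Finset.mul_sum]
        simp only [Finset.mul_sum]
        congr 1
        · exact Finset.sum_congr rfl fun i _ => Finset.sum_congr rfl fun j _ => by ring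
        · ring
      simp only [e1]
      have i1 : ∀ i j, Integrable (fun x =>
          pderiv j (fun x => a i j x * pderiv i v x) x * φ x) := fun i j =>
        int_mul_test hΩ (c1 i j) hφ hφ3
      rw [integral_sub (integrable_finsetSum _ fun i _ => integrable_finsetSum _ fun j _ => i1 i j)
        (int_mul_test hΩ cf hφ hφ3),
        integral_finsetSum _ fun i _ => integrable_finsetSum _ fun j _ => i1 i j]
      have e2 : ∀ i, ∫ x, ∑ j, pderiv j (fun x => a i j x * pderiv i v x) x * φ x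
          = ∑ j, ∫ x, pderiv j (fun x => a i j x * pderiv i v x) x * φ x := fun i =>
        integral_finsetSum _ fun j _ => i1 i j
      simp only [e2]
      have e3 : ∀ i j, ∫ x, a i j x * pderiv i v x * pderiv j φ x
          = - ∫ x, pderiv j (fun x => a i j x * pderiv i v x) x * φ x := fun i j =>
        ibp_local hΩ (h1 i j).1 j (c1 i j) hφ hφ3
      simp only [e3, Finset.sum_neg_distrib] at E1
      linarith
  have h3 : (fun x => (∑ i, ∑ j, pderiv j (fun x => a i j x * pderiv i v x) x))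
      =ᵐ[volume.restrict Ω] f := by
    rw [Filter.EventuallyEq, ae_restrict_iff' hΩ.measurableSet]
    filter_upwards [h2] with x hx hxΩ
    linarith [hx hxΩ]
  exact Measure.eqOn_open_of_ae_eq h3 hΩ cS cf

end

end Crest.Agent.R249.RegKer_717
end

-- ▼ part R249/RegMain_717
section

/-!
Row 249, leaf D3-REG (helper717), file 13: smoothness of Hölder continuous weak solutions with Morrey
growth of quasilinear elliptic systems in diagonal form with quadratic right-hand side.
-/

set_option autoImplicit false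
open scoped ContDiff ENNReal Topology
open MeasureTheory Set Filter
open Crest.GeometryTopology.CoordMetric

namespace Crest.Agent.R249.RegKer_717

open Crest.Agent.R202.Ell

noncomputable section

variable {n : ℕ} {β : ℝ} {Ω V : Set (EE n)}

theorem ch1_of_local {f : EE n → ℝ}
    (h : ∀ x1 ∈ Ω, ∃ ρ > 0, ∃ K, 0 ≤ K ∧ ∃ g : EE n → (EE n →L[ℝ] ℝ),
      Metric.closedBall x1 ρ ⊆ Ω ∧ (∀ x ∈ Metric.closedBall x1 ρ, HasFDerivAt f (g x) x) ∧
      ∀ x ∈ Metric.closedBall x1 ρ, ∀ y ∈ Metric.closedBall x1 ρ,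
        ‖g x - g y‖ ≤ K * ‖x - y‖ ^ β) : CH β Ω 1 f := by
  refine ⟨fun x hx => ?_, fun i x1 hx1 => ?_⟩
  · obtain ⟨ρ, hρ, K, hK, g, h1, h2, h3⟩ := h x hx
    exact (h2 x (Metric.mem_closedBall_self hρ.le)).differentiableAt
  · obtain ⟨ρ, hρ, K, hK, g, h1, h2, h3⟩ := h x1 hx1
    refine ⟨ρ, hρ, K, hK, h1, fun y hy z hz => ?_⟩
    have e1 : pderiv i f y - pderiv i f z
        = (g y - g z) (EuclideanSpace.single i 1) := by
      unfold Crest.GeometryTopology.CoordMetric.pderiv
      rw [(h2 y hy).fderiv, (h2 z hz).fderiv]; rfl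
    rw [e1, ← Real.norm_eq_abs]
    refine ((g y - g z).le_opNorm _).trans ?_
    rw [PiLp.norm_single, norm_one, mul_one]
    exact h3 y hy z hz

/-- the argument of the right-hand side -/
def arg {N : Type*} (u : N → EE n → ℝ) (H : N → Fin n → EE n → ℝ) (x : EE n) :
    (N ⊕ (N × Fin n)) → ℝ := Sum.elim (fun A => u A x) (fun q => H q.1 q.2 x)

/-- the domain of the right-hand side -/
def dom {N : Type*} (n : ℕ) (O : Set (N → ℝ)) : Set ((N ⊕ (N × Fin n)) → ℝ) :=
  {w | (fun A => w (Sum.inl A)) ∈ O}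

theorem dom_open {N : Type*} {O : Set (N → ℝ)} (hO : IsOpen O) : IsOpen (dom n O) :=
  hO.preimage (continuous_pi fun A => continuous_apply (Sum.inl A))

/-- **Weak quasilinear system.** -/
structure QSys {N : Type*} [Fintype N] (Ω : Set (EE n)) (O : Set (N → ℝ)) (α : ℝ)
    (a : Fin n → Fin n → (N → ℝ) → ℝ) (b : N → ((N ⊕ (N × Fin n)) → ℝ) → ℝ)
    (u : N → EE n → ℝ) (H : N → Fin n → EE n → ℝ) : Prop where
  hα : 1 / 2 < α
  hα1 : α < 1
  openΩ : IsOpen Ω
  openO : IsOpen O
  smooth_a : ∀ i j, ContDiffOn ℝ ∞ (a i j) O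
  smooth_b : ∀ A, ContDiffOn ℝ ∞ (b A) (dom n O)
  hol : ∀ A, LH α Ω (u A)
  mem : ∀ x ∈ Ω, (fun A => u A x) ∈ O
  ell : LEll Ω (fun i j x => a i j fun A => u A x)
  li : ∀ A i, LocallyIntegrableOn (H A i) Ω
  sq : ∀ A i, LocallyIntegrableOn (fun x => H A i x ^ 2) Ω
  morrey : ∀ x ∈ Ω, ∃ r > 0, ∃ C, 0 ≤ C ∧ ∀ y ∈ Metric.closedBall x r, ∀ ρ, 0 < ρ → ρ ≤ r →
    ∀ A i, ∫ t in Metric.closedBall y ρ, H A i t ^ 2 ≤ C * ρ ^ ((n : ℝ) - 2 + 2 * α)
  growth : ∀ x ∈ Ω, ∃ r > 0, ∃ C, 0 ≤ C ∧ ∀ y ∈ Metric.closedBall x r, ∀ A,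
    |b A (arg u H y)| ≤ C * (1 + ∑ B, ∑ i, H B i y ^ 2)
  wd : ∀ A i, WDOn Ω i (u A) (H A i)
  eq : ∀ A, WEqOn Ω (fun i j x => a i j fun A => u A x) (H A) (fun x => b A (arg u H x))

variable {N : Type*} [Fintype N] {O : Set (N → ℝ)} {α : ℝ}
  {a : Fin n → Fin n → (N → ℝ) → ℝ} {b : N → ((N ⊕ (N × Fin n)) → ℝ) → ℝ}
  {u : N → EE n → ℝ} {H : N → Fin n → EE n → ℝ}

/-- measurability of the right-hand side -/
theorem QSys.meas (h : QSys Ω O α a b u H) (A : N) {K : Set (EE n)} (hK : K ⊆ Ω)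
    (hKc : IsCompact K) : AEStronglyMeasurable (fun x => b A (arg u H x)) (volume.restrict K) := by
  classical
  have hα0 : 0 < α := by linarith [h.hα]
  have h1 : AEMeasurable (fun x => arg u H x) (volume.restrict K) := by
    refine aemeasurable_pi_lambda _ fun p => ?_
    rcases p with B | q
    · exact (((LH.continuousOn hα0 (h.hol B)).mono hK).aemeasurable hKc.measurableSet)
    · exact ((h.li q.1 q.2).integrableOn_compact_subset hK hKc).aestronglyMeasurable.aemeasurable
  have h2 : Measurable ((dom n O).piecewise (b A) fun _ => 0) :=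
    (h.smooth_b A).continuousOn.measurable_piecewise continuousOn_const
      (dom_open h.openO).measurableSet
  have h3 : AEMeasurable (fun x => (dom n O).piecewise (b A) (fun _ => 0) (arg u H x))
      (volume.restrict K) := h2.comp_aemeasurable h1
  have h4 : (fun x => (dom n O).piecewise (b A) (fun _ => 0) (arg u H x)) =ᵐ[volume.restrict K]
      fun x => b A (arg u H x) := by
    rw [Filter.EventuallyEq, ae_restrict_iff' hKc.measurableSet]
    refine Filter.Eventually.of_forall fun x hx => ?_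
    exact piecewise_eq_of_mem _ _ _ (h.mem x (hK hx))
  exact (h3.congr h4).aestronglyMeasurable

/-- **First step for systems.** -/
theorem QSys.c1 (hn : 0 < n) (h : QSys Ω O α a b u H) (A : N) : CH (2 * α - 1) Ω 1 (u A) := by
  obtain ⟨η, Φ, M, hp⟩ := exists_Pair n hn
  have hα := h.hα
  have hα1 := h.hα1
  have hα0 : 0 < α := by linarith
  have hΩ := h.openΩ
  set a' : Fin n → Fin n → EE n → ℝ := fun i j x => a i j fun A => u A x with ha'
  have ha'h : ∀ i j, LH α Ω (a' i j) := fun i j =>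
    LH.comp hα0 hΩ h.hol h.openO ((h.smooth_a i j).of_le (by exact_mod_cast le_top)) h.mem
  refine ch1_of_local fun x1 hx1 => ?_
  obtain ⟨r1, hr1, lam, hlam, Lam, hLam, hE⟩ := h.ell x1 hx1
  obtain ⟨r2, hr2, Cm, hCm, hmor⟩ := h.morrey x1 hx1
  obtain ⟨r3, hr3, Cb, hCb, hgr⟩ := h.growth x1 hx1
  obtain ⟨r4, hr4, Cu, hCu, hsub4, hu4⟩ := (h.hol A).at hx1
  obtain ⟨r5, hr5, Ca, hCa, hsub5, ha5⟩ := LH.pi (u := fun p : Fin n × Fin n => a' p.1 p.2) hΩ
    (fun p => ha'h p.1 p.2) hx1
  set R := min 1 (min (min r1 r2) (min r3 (min r4 r5))) with hRdef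
  have l0 : R ≤ 1 := min_le_left _ _
  have l1 : R ≤ r1 := (min_le_right _ _).trans ((min_le_left _ _).trans (min_le_left _ _))
  have l2 : R ≤ r2 := (min_le_right _ _).trans ((min_le_left _ _).trans (min_le_right _ _))
  have l3 : R ≤ r3 := (min_le_right _ _).trans ((min_le_right _ _).trans (min_le_left _ _))
  have l4 : R ≤ r4 := (min_le_right _ _).trans ((min_le_right _ _).trans
    ((min_le_right _ _).trans (min_le_left _ _)))
  have l5 : R ≤ r5 := (min_le_right _ _).trans ((min_le_right _ _).trans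
    ((min_le_right _ _).trans (min_le_right _ _)))
  have hR : 0 < R := lt_min one_pos (lt_min (lt_min hr1 hr2) (lt_min hr3 (lt_min hr4 hr5)))
  have hsub : Metric.closedBall x1 R ⊆ Ω := (Metric.closedBall_subset_closedBall l4).trans hsub4
  set c := Real.sqrt Lam with hc
  have hc1 : 1 ≤ c := Real.one_le_sqrt.2 hLam
  have hc0 : 0 < c := lt_of_lt_of_le one_pos hc1
  set r0 := min 1 (R / (4 * c)) with hr0def
  have hr0 : 0 < r0 := lt_min one_pos (by positivity)
  have hr01 : r0 ≤ 1 := min_le_left _ _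
  have hcr0 : c * r0 ≤ R / 4 := by
    have := mul_le_mul_of_nonneg_left (min_le_right 1 (R / (4 * c))) hc0.le
    refine this.trans (le_of_eq ?_)
    field_simp
  have hr0R : r0 ≤ R / 4 := by
    have : 1 * r0 ≤ c * r0 := mul_le_mul_of_nonneg_right hc1 hr0.le
    linarith
  set Kb := Metric.closedBall x1 R with hKb
  have hKbc : IsCompact Kb := isCompact_closedBall _ _
  set V := Metric.ball x1 R with hVdef
  have hVK : V ⊆ Kb := Metric.ball_subset_closedBall
  have hV : ∀ x0 ∈ Metric.closedBall x1 (R / 4), ∀ y, ‖y - x0‖ ≤ r0 →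
      Metric.closedBall y (c * r0) ⊆ V := by
    intro x0 hx0 y hy z hz
    rw [Metric.mem_closedBall] at hx0 hz
    rw [hVdef, Metric.mem_ball]
    rw [← dist_eq_norm] at hy
    have := dist_triangle z y x1
    have := dist_triangle y x0 x1
    linarith
  have hyK : ∀ x0 ∈ Metric.closedBall x1 (R / 4), ∀ y, ‖y - x0‖ ≤ r0 → y ∈ Kb := fun x0 hx0 y hy =>
    hVK (hV x0 hx0 y hy (Metric.mem_closedBall_self (by positivity)))
  have hcu : ContinuousOn (u A) Ω := LH.continuousOn hα0 (h.hol A)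
  have hca : ∀ i j, ContinuousOn (a' i j) Ω := fun i j => LH.continuousOn hα0 (ha'h i j)
  have hsqK : ∀ B i, IntegrableOn (fun x => H B i x ^ 2) Kb := fun B i =>
    (h.sq B i).integrableOn_compact_subset hsub hKbc
  have hliK : ∀ B i, IntegrableOn (H B i) Kb := fun B i =>
    (h.li B i).integrableOn_compact_subset hsub hKbc
  have hsumK : IntegrableOn (fun x => ∑ B, ∑ i, H B i x ^ 2) Kb :=
    integrable_finsetSum _ fun B _ => integrable_finsetSum _ fun i _ => hsqK B i
  have honeK : IntegrableOn (fun _ => (1 : ℝ)) Kb := integrableOn_const hKbc.measure_lt_top.ne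
  have hBK : IntegrableOn (fun x => b A (arg u H x)) Kb := by
    refine Integrable.mono' ((honeK.add hsumK).const_mul Cb) (h.meas A hsub hKbc) ?_
    rw [ae_restrict_iff' hKbc.measurableSet]
    refine Filter.Eventually.of_forall fun x hx => ?_
    rw [Real.norm_eq_abs]
    exact hgr x (Metric.closedBall_subset_closedBall l3 hx) A
  have hvb := vb0 (n := n)
  -- the supremum of `|u|`
  obtain ⟨Mu, hMu0, hMu⟩ : ∃ Mu, 0 ≤ Mu ∧ ∀ t ∈ Kb, |u A t| ≤ Mu := by
    obtain ⟨Mu, hMu⟩ := hKbc.exists_bound_of_continuousOn (hcu.mono hsub)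
    refine ⟨Mu, (norm_nonneg _).trans (hMu x1 (Metric.mem_closedBall_self hR.le)), fun t ht => ?_⟩
    simpa using hMu t ht
  have hfe := L1 (V := V) (W := Metric.closedBall x1 (R / 4)) hp (w := Kb.indicator (u A))
    (H := fun i => Kb.indicator (H A i)) (a := a') (B := Kb.indicator fun x => b A (arg u H x))
    (α := α) (Ca := Ca) (CB := Cb * (vb n + Fintype.card N * (n * Cm))) (CH := Cm + vb n)
    (lam := lam) (Lam := Lam) (I := Mu * ((c * r0) ^ n * vb n)) (r0 := r0)
    (cut_li ((hcu.mono hsub).integrableOn_compact hKbc)) (fun i => cut_li (hliK A i))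
    (cut_li hBK)
    (fun i j => by
      have : (fun x => a' i j x * Kb.indicator (H A i) x)
          = Kb.indicator (fun x => a' i j x * H A i x) := by
        ext x; by_cases hx : x ∈ Kb <;> simp [hx]
      rw [this]
      exact cut_li ((hliK A i).continuousOn_mul ((hca i j).mono hsub) hKbc))
    (fun i => ((h.wd A i).mono (hVK.trans hsub)).congr (cut_eq _) (cut_eq _))
    (((h.eq A).mono (hVK.trans hsub)).congr_ae
      (fun i j => Filter.Eventually.of_forall fun x hx => by rw [cut_eq (H A i) hx])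
      (Filter.Eventually.of_forall fun x hx => cut_eq (fun x => b A (arg u H x)) hx))
    hα hα1 hCa (by positivity) (by positivity) hlam hLam (by positivity)
    (fun x hx => hE x (Metric.closedBall_subset_closedBall (by linarith) hx))
    (fun i j x hx y hy => ha5 R l5 x (hVK hx) y (hVK hy) (i, j))
    hr0 hr01 hV
    (fun x hx => (continuousAt_congr (cut_ev (u A) hx)).2
      (LH.continuousAt hα0 (h.hol A) (hsub (hVK hx))))
    (fun x0 hx0 y hy => int_const_bound (cut_li ((hcu.mono hsub).integrableOn_compact hKbc))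
      (by positivity) fun t ht => by
      have htV := hV x0 hx0 y hy ht
      rw [← cut_eq (u A) htV]; exact hMu t (hVK htV))
    (fun x0 hx0 y hy ρ hρ hρc => by
      have hρ1 : ρ ≤ 1 := by linarith
      have hyK' := hyK x0 hx0 y hy
      have hballV : Metric.closedBall y ρ ⊆ V :=
        (Metric.closedBall_subset_closedBall hρc).trans (hV x0 hx0 y hy)
      have hballK : Metric.closedBall y ρ ⊆ Kb := hballV.trans hVK
      have e1 : ∫ t in Metric.closedBall y ρ, |Kb.indicator (fun x => b A (arg u H x)) t|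
          ≤ ∫ t in Metric.closedBall y ρ, Cb * (1 + ∑ B, ∑ i, H B i t ^ 2) := by
        refine setIntegral_mono_on ?_ ?_ Metric.isClosed_closedBall.measurableSet fun t ht => ?_
        · exact ((cut_li hBK).integrableOn_isCompact (isCompact_closedBall _ _)).abs
        · exact ((honeK.add hsumK).const_mul Cb).mono_measure
            (Measure.restrict_mono hballK le_rfl)
        · rw [← cut_eq _ (hballV ht)]
          exact hgr t (Metric.closedBall_subset_closedBall l3 (hballK ht)) A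
      refine e1.trans ?_
      rw [integral_const_mul, mul_assoc]
      refine mul_le_mul_of_nonneg_left ?_ hCb
      have hi2 : ∀ B i, IntegrableOn (fun x => H B i x ^ 2) (Metric.closedBall y ρ) := fun B i =>
        (hsqK B i).mono_set hballK
      rw [integral_add (honeK.mono_set hballK) (hsumK.mono_set hballK), integral_finsetSum _
        fun B _ => integrable_finsetSum _ fun i _ => hi2 B i]
      have hpn : ρ ^ n ≤ ρ ^ ((n : ℝ) - 2 + 2 * α) := by
        rw [← Real.rpow_natCast]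
        exact Real.rpow_le_rpow_of_exponent_ge hρ hρ1 (by linarith)
      have t1 : ∫ t in Metric.closedBall y ρ, (1 : ℝ) ≤ vb n * ρ ^ ((n : ℝ) - 2 + 2 * α) := by
        rw [setIntegral_const, smul_eq_mul, mul_one, measureReal_def, vol_ball y hρ.le, mul_comm]
        exact mul_le_mul_of_nonneg_left hpn hvb
      have t2 : ∑ B, ∫ t in Metric.closedBall y ρ, ∑ i, H B i t ^ 2
          ≤ Fintype.card N * (n * (Cm * ρ ^ ((n : ℝ) - 2 + 2 * α))) := by
        refine (Finset.sum_le_sum (g := fun _ => n * (Cm * ρ ^ ((n : ℝ) - 2 + 2 * α)))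
          fun B _ => ?_).trans (by simp)
        rw [integral_finsetSum _ fun i _ => hi2 B i]
        refine (Finset.sum_le_sum (g := fun _ => Cm * ρ ^ ((n : ℝ) - 2 + 2 * α))
          fun i _ => ?_).trans (by simp)
        exact hmor y (Metric.closedBall_subset_closedBall l2 hyK') ρ hρ (by linarith) B i
      calc _ ≤ vb n * ρ ^ ((n : ℝ) - 2 + 2 * α)
          + Fintype.card N * (n * (Cm * ρ ^ ((n : ℝ) - 2 + 2 * α))) := add_le_add t1 t2
        _ = _ := by ring)
    (fun i x0 hx0 y hy ρ hρ hρc => by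
      have hρ1 : ρ ≤ 1 := by linarith
      have hyK' := hyK x0 hx0 y hy
      have hballV : Metric.closedBall y ρ ⊆ V :=
        (Metric.closedBall_subset_closedBall hρc).trans (hV x0 hx0 y hy)
      have hballK : Metric.closedBall y ρ ⊆ Kb := hballV.trans hVK
      have hi2 : IntegrableOn (fun x => H A i x ^ 2) (Metric.closedBall y ρ) :=
        (hsqK A i).mono_set hballK
      have hi1 : IntegrableOn (fun _ => (1 : ℝ)) (Metric.closedBall y ρ) := honeK.mono_set hballK
      set q := ρ ^ (1 - α) with hq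
      have hq0 : 0 < q := Real.rpow_pos_of_pos hρ _
      have e1 : ∫ t in Metric.closedBall y ρ, |Kb.indicator (H A i) t|
          ≤ ∫ t in Metric.closedBall y ρ, (q * H A i t ^ 2 + q⁻¹ * 1) := by
        refine setIntegral_mono_on ?_ ?_ Metric.isClosed_closedBall.measurableSet fun t ht => ?_
        · exact ((cut_li (hliK A i)).integrableOn_isCompact (isCompact_closedBall _ _)).abs
        · exact (hi2.const_mul q).add (hi1.const_mul q⁻¹)
        · rw [← cut_eq _ (hballV ht)]
          have : 0 ≤ (q * |H A i t| - 1) ^ 2 / q := by positivity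
          have e2 : (q * |H A i t| - 1) ^ 2 / q = q * H A i t ^ 2 + q⁻¹ * 1 - 2 * |H A i t| := by
            have := sq_abs (H A i t)
            field_simp
            rw [← this]; ring
          rw [e2] at this
          linarith [abs_nonneg (H A i t)]
      refine e1.trans ?_
      rw [integral_add (hi2.const_mul q) (hi1.const_mul q⁻¹), integral_const_mul,
        integral_const_mul]
      have t1 : ∫ t in Metric.closedBall y ρ, (1 : ℝ) = vb n * ρ ^ (n : ℝ) := by
        rw [setIntegral_const, smul_eq_mul, mul_one, measureReal_def, vol_ball y hρ.le, mul_comm,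
          Real.rpow_natCast]
      have t2 := hmor y (Metric.closedBall_subset_closedBall l2 hyK') ρ hρ (by linarith) A i
      have t3 := mul_le_mul_of_nonneg_left t2 hq0.le
      have t4 : q * (Cm * ρ ^ ((n : ℝ) - 2 + 2 * α)) = Cm * ρ ^ ((n : ℝ) - 1 + α) := by
        have : ρ ^ ((n : ℝ) - 1 + α) = ρ ^ (1 - α) * ρ ^ ((n : ℝ) - 2 + 2 * α) := by
          rw [← Real.rpow_add hρ]; congr 1; ring
        rw [this, hq]; ring
      have t5 : q⁻¹ * (vb n * ρ ^ (n : ℝ)) = vb n * ρ ^ ((n : ℝ) - 1 + α) := by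
        have : ρ ^ ((n : ℝ) - 1 + α) = (ρ ^ (1 - α))⁻¹ * ρ ^ (n : ℝ) := by
          rw [← Real.rpow_neg hρ.le, ← Real.rpow_add hρ]; congr 1; ring
        rw [this, hq]; ring
      rw [t1, t5]
      rw [t4] at t3
      calc _ ≤ Cm * ρ ^ ((n : ℝ) - 1 + α) + vb n * ρ ^ ((n : ℝ) - 1 + α) := add_le_add t3 le_rfl
        _ = _ := by ring)
  obtain ⟨g, K, hK, _, hg2, hg3⟩ := hfe
  have hρ : 0 < min (R / 4) (r0 / 4) := lt_min (by positivity) (by positivity)
  have hρsub : Metric.closedBall x1 (min (R / 4) (r0 / 4)) ⊆ Metric.closedBall x1 (R / 4) :=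
    Metric.closedBall_subset_closedBall (min_le_left _ _)
  have hWV : Metric.closedBall x1 (R / 4) ⊆ V := by
    intro z hz
    rw [Metric.mem_closedBall] at hz
    rw [hVdef, Metric.mem_ball]; linarith
  refine ⟨min (R / 4) (r0 / 4), hρ, K, hK, g, (hρsub.trans hWV).trans (hVK.trans hsub),
    fun x hx => (hg2 x (hρsub hx)).congr_of_eventuallyEq (cut_ev (u A) (hWV (hρsub hx))).symm,
    fun x hx y hy => ?_⟩
  refine hg3 x (hρsub hx) y (hρsub hy) ?_
  have hx' := Metric.closedBall_subset_closedBall (min_le_right _ _) hx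
  have hy' := Metric.closedBall_subset_closedBall (min_le_right _ _) hy
  rw [Metric.mem_closedBall] at hx' hy'
  rw [← dist_eq_norm]
  have := dist_triangle_right x y x1
  linarith

/-- the weak derivatives are the classical ones -/
theorem QSys.grad (hn : 0 < n) (h : QSys Ω O α a b u H) (A : N) (i : Fin n) :
    ∀ᵐ x, x ∈ Ω → H A i x = pderiv i (u A) x := by
  have hβ : 0 < 2 * α - 1 := by linarith [h.hα]
  have h1 := h.c1 hn A
  have hcp : ContinuousOn (pderiv i (u A)) Ω := LH.continuousOn hβ (h1.2 i)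
  exact (h.wd A i).unique h.openΩ (WDOn.of_c1 h.openΩ h1.1 i hcp) (h.li A i)
    (hcp.locallyIntegrableOn h.openΩ.measurableSet)

/-- the equation with the classical gradient -/
theorem QSys.weq (hn : 0 < n) (h : QSys Ω O α a b u H) (A : N) :
    WEqOn Ω (fun i j x => a i j fun A => u A x) (fun i => pderiv i (u A))
      (fun x => b A (arg u (fun B i => pderiv i (u B)) x)) := by
  refine (h.eq A).congr_ae (fun i j => ?_) ?_
  · filter_upwards [h.grad hn A i] with x hx hxΩ
    rw [hx hxΩ]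
  · have : ∀ᵐ x, ∀ B i, x ∈ Ω → H B i x = pderiv i (u B) x :=
      ae_all_iff.2 fun B => ae_all_iff.2 fun i => h.grad hn B i
    filter_upwards [this] with x hx hxΩ
    congr 1
    funext p
    rcases p with B | q
    · rfl
    · exact hx q.1 q.2 hxΩ

/-- **Bootstrapping.** -/
theorem QSys.ch (hn : 0 < n) (h : QSys Ω O α a b u H) : ∀ (k : ℕ) (A : N),
    CH (2 * α - 1) Ω (k + 1) (u A) := by
  have hα := h.hα
  have hα1 := h.hα1
  have hβ : 0 < 2 * α - 1 := by linarith
  have hβ1 : 2 * α - 1 < 1 := by linarith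
  intro k
  induction k with
  | zero => exact fun A => h.c1 hn A
  | succ k ih =>
    intro A
    refine LR hn hβ hβ1 h.openΩ h.ell k (fun i j => ?_) ?_ (h.c1 hn A) (h.weq hn A)
    · exact CH.comp hβ hβ1.le h.openΩ h.openO ih (h.smooth_a i j) h.mem
    · refine CH.comp (u := fun p x => arg u (fun B i => pderiv i (u B)) x p) hβ hβ1.le h.openΩ
        (dom_open h.openO) (fun p => ?_) (h.smooth_b A) h.mem
      rcases p with B | q
      · exact (ih B).of_succ hβ hβ1.le h.openΩ
      · exact (ih q.1).2 q.2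

/-- **Smoothness.** -/
theorem QSys.smooth (hn : 0 < n) (h : QSys Ω O α a b u H) (A : N) : ContDiffOn ℝ ∞ (u A) Ω := by
  have hα := h.hα
  have hα1 := h.hα1
  have hβ : 0 < 2 * α - 1 := by linarith
  have hβ1 : 2 * α - 1 < 1 := by linarith
  exact contDiffOn_of_CH hβ h.openΩ fun k => (h.ch hn k A).of_succ hβ hβ1.le h.openΩ

/-- **The strong equation.** -/
theorem QSys.strong (hn : 0 < n) (h : QSys Ω O α a b u H) (A : N) : ∀ x ∈ Ω,
    ∑ i, ∑ j, pderiv j (fun x => a i j (fun A => u A x) * pderiv i (u A) x) x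
      = b A (arg u (fun B i => pderiv i (u B)) x) := by
  have hα := h.hα
  have hα1 := h.hα1
  have hβ : 0 < 2 * α - 1 := by linarith
  have hβ1 : 2 * α - 1 < 1 := by linarith
  refine strong_eq hβ hβ1 h.openΩ (fun i j => ?_) ?_ (h.ch hn 1 A) (h.weq hn A)
  · exact CH.comp hβ hβ1.le h.openΩ h.openO (h.ch hn 0) (h.smooth_a i j) h.mem
  · refine CH.comp (u := fun p x => arg u (fun B i => pderiv i (u B)) x p) hβ hβ1.le h.openΩ
      (dom_open h.openO) (fun p => ?_) (h.smooth_b A) h.mem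
    rcases p with B | q
    · exact (h.ch hn 0 B).of_succ hβ hβ1.le h.openΩ
    · exact (h.ch hn 0 q.1).2 q.2

end

end Crest.Agent.R249.RegKer_717
end

-- ▼ part R249/Ric1_672
section

/-!
# R249, D3-RIC (helper672), part 1: polarised Bochner formula and Koszul formula

For `IsRiemannianOn g U`, `x ∈ U`:
* `hessE_add` ;
* `bochner_pol` : `Δ⟨df, dh⟩ = 2 tr (Hess f ∘ Hess h) + ⟨df, dΔh⟩ + ⟨dh, dΔf⟩ + 2 Ric(∇f, ∇h)`;
* `koszul` : `2 Hess f (∇h, ∇k) = ⟨d⟨df, dh⟩, dk⟩ + ⟨d⟨df, dk⟩, dh⟩ - ⟨d⟨dh, dk⟩, df⟩`.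
-/

set_option autoImplicit false
set_option maxSynthPendingDepth 3

open scoped ContDiff Topology
open Filter Set
open Crest.GeometryTopology.CoordMetric Crest.GeometryTopology.ChartCurvature
open Crest.Agent.R202.Tens Crest.Agent.R247.Bo84

noncomputable section

namespace Crest.Agent.R249.Ric1_672

open Crest.Agent.R249.Bia3_104

variable {n : ℕ}

local notation "𝔼" => EuclideanSpace ℝ (Fin n)

variable {g : MetricField n} {U : Set (EuclideanSpace ℝ (Fin n))} {x : EuclideanSpace ℝ (Fin n)}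

lemma hessE_add (hg : IsRiemannianOn g U) (hx : x ∈ U) {f h : 𝔼 → ℝ}
    (hf : ContDiffAt ℝ 2 f x) (hh : ContDiffAt ℝ 2 h x) :
    hessE g (fun y => f y + h y) x = hessE g f x + hessE g h x := by
  have h1 : grad g (fun y => f y + h y) =ᶠ[𝓝 x] fun y => grad g f y + grad g h y := by
    filter_upwards [eventually_differentiableAt hf, eventually_differentiableAt hh] with y a b
      using grad_add a b
  rw [hessE, hessE, hessE, cov, cov, cov, h1.fderiv_eq, h1.self_of_nhds,
    fderiv_fun_add (differentiableAt_grad hg hx hf) (differentiableAt_grad hg hx hh), map_add]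
  abel

lemma ricF_add (hg : IsRiemannianOn g U) (hx : x ∈ U) (X Y : 𝔼) :
    ricF g x (X + Y) (X + Y) = ricF g x X X + 2 * ricF g x X Y + ricF g x Y Y := by
  have h1 : ricF g x (X + Y) (X + Y) =
      ricF g x X X + ricF g x X Y + ricF g x Y X + ricF g x Y Y := by
    simp only [ricF_eq hg hx, PiLp.add_apply, ← Finset.sum_add_distrib]
    refine Finset.sum_congr rfl fun i _ => Finset.sum_congr rfl fun j _ => ?_
    ring
  rw [h1, ricF_symm hg hx Y X]
  ring

/-- **polarised Bochner formula** -/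
theorem bochner_pol (hg : IsRiemannianOn g U) (hx : x ∈ U) {f h : 𝔼 → ℝ}
    (hf : ContDiffAt ℝ 3 f x) (hh : ContDiffAt ℝ 3 h x) :
    laplaceBeltrami g (gam g f h) x =
      2 * trL ((hessE g f x).comp (hessE g h x)) + gam g f (laplaceBeltrami g h) x +
        gam g h (laplaceBeltrami g f) x + 2 * ricF g x (grad g f x) (grad g h x) := by
  have hf2 : ContDiffAt ℝ 2 f x := hf.of_le (by norm_num)
  have hh2 : ContDiffAt ℝ 2 h x := hh.of_le (by norm_num)
  have hev : ∀ᶠ y in 𝓝 x, y ∈ U ∧ ContDiffAt ℝ 2 f y ∧ ContDiffAt ℝ 2 h y :=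
    (eventually_of_mem (hg.isOpen.mem_nhds hx) fun _ h => h).and
      ((hf2.eventually (by norm_num)).and (hh2.eventually (by norm_num)))
  have hfd : DifferentiableAt ℝ f x := hf2.differentiableAt (by norm_num)
  have hhd : DifferentiableAt ℝ h x := hh2.differentiableAt (by norm_num)
  have B1 := bochner' hg hx hf
  have B2 := bochner' hg hx hh
  have B3 := bochner' hg hx (hf.add hh)
  change (1 / 2) * laplaceBeltrami g (gam g (fun y => f y + h y) (fun y => f y + h y)) x =
    hessSq g (fun y => f y + h y) x +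
      gam g (fun y => f y + h y) (laplaceBeltrami g (fun y => f y + h y)) x +
        ∑ i, ∑ j, ricci g x i j * grad g (fun y => f y + h y) x i *
          grad g (fun y => f y + h y) x j at B3
  rw [← ricF_eq hg hx] at B1 B2 B3
  have cff : ContDiffAt ℝ 2 (gam g f f) x :=
    contDiffAt_gam hg hx (m := 2) hf hf (by norm_num) (WithTop.coe_le_coe.2 le_top)
  have chh : ContDiffAt ℝ 2 (gam g h h) x :=
    contDiffAt_gam hg hx (m := 2) hh hh (by norm_num) (WithTop.coe_le_coe.2 le_top)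
  have cfh : ContDiffAt ℝ 2 (gam g f h) x :=
    contDiffAt_gam hg hx (m := 2) hf hh (by norm_num) (WithTop.coe_le_coe.2 le_top)
  -- the left hand side
  have e1 : gam g (fun y => f y + h y) (fun y => f y + h y) =ᶠ[𝓝 x]
      fun y => (gam g f f y + gam g h h y) + 2 * gam g f h y := by
    filter_upwards [hev] with y hy
    have a := hy.2.1.differentiableAt (by norm_num : (2 : WithTop ℕ∞) ≠ 0)
    have b := hy.2.2.differentiableAt (by norm_num : (2 : WithTop ℕ∞) ≠ 0)
    rw [gam_add_left a b, gam_add_right a b, gam_add_right a b, gam_comm hg hy.1 h f]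
    ring
  have e2 : laplaceBeltrami g (gam g (fun y => f y + h y) (fun y => f y + h y)) x =
      laplaceBeltrami g (gam g f f) x + laplaceBeltrami g (gam g h h) x +
        2 * laplaceBeltrami g (gam g f h) x := by
    rw [lap_congr e1, lap_add hg hx (cff.add chh) (contDiffAt_const.mul cfh),
      lap_add hg hx cff chh, lap_const_mul hg hx 2 cfh]
  -- the Hessian term
  have e3 : hessSq g (fun y => f y + h y) x =
      hessSq g f x + hessSq g h x + 2 * trL ((hessE g f x).comp (hessE g h x)) := by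
    rw [hessSq, hessE_add hg hx hf2 hh2, hessSq, hessSq]
    rw [ContinuousLinearMap.comp_add, ContinuousLinearMap.add_comp, ContinuousLinearMap.add_comp,
      map_add, map_add, map_add, trL_comp_comm (hessE g h x) (hessE g f x)]
    ring
  -- the gradient term
  have e4 : laplaceBeltrami g (fun y => f y + h y) =ᶠ[𝓝 x]
      fun y => laplaceBeltrami g f y + laplaceBeltrami g h y := by
    filter_upwards [hev] with y hy using lap_add hg hy.1 hy.2.1 hy.2.2
  have c1 : (1 : WithTop ℕ∞) + 1 + 1 ≤ 3 := by norm_num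
  have c2 : (1 : WithTop ℕ∞) + 1 ≤ ∞ := by
    rw [one_add_one_eq_two]; exact WithTop.coe_le_coe.2 le_top
  have df : DifferentiableAt ℝ (laplaceBeltrami g f) x :=
    (contDiffAt_lap hg hx (m := 1) hf c1 c2).differentiableAt (by norm_num)
  have dh : DifferentiableAt ℝ (laplaceBeltrami g h) x :=
    (contDiffAt_lap hg hx (m := 1) hh c1 c2).differentiableAt (by norm_num)
  have e5 : gam g (fun y => f y + h y) (laplaceBeltrami g (fun y => f y + h y)) x =
      gam g f (laplaceBeltrami g f) x + gam g f (laplaceBeltrami g h) x +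
        (gam g h (laplaceBeltrami g f) x + gam g h (laplaceBeltrami g h) x) := by
    rw [gam_congr (EventuallyEq.refl _ (fun y => f y + h y)) e4, gam_add_left hfd hhd,
      gam_add_right df dh, gam_add_right df dh]
  rw [e2, e3, e5, grad_add hfd hhd, ricF_add hg hx] at B3
  linarith

/-- **Koszul formula** for the Hessian -/
theorem koszul (hg : IsRiemannianOn g U) (hx : x ∈ U) {f h k : 𝔼 → ℝ}
    (hf : ContDiffAt ℝ 2 f x) (hh : ContDiffAt ℝ 2 h x) (hk : ContDiffAt ℝ 2 k x) :
    2 * hess g f x (grad g h x) (grad g k x) =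
      gam g (gam g f h) k x + gam g (gam g f k) h x - gam g (gam g h k) f x := by
  rw [gam_eq_fderiv_grad, gam_eq_fderiv_grad, gam_eq_fderiv_grad, fderiv_gam hg hx hf hh,
    fderiv_gam hg hx hf hk, fderiv_gam hg hx hh hk,
    hess_symm hg hx hf (grad g k x) (grad g h x), hess_symm hg hx hh (grad g k x) (grad g f x),
    hess_symm hg hx hk (grad g h x) (grad g f x)]
  ring

end Crest.Agent.R249.Ric1_672
end
end

-- ▼ part R249/Ric2_672
section

/-!
# R249, D3-RIC (helper672), part 2: the limit system implies `Ric = lam g`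

`crd a` is the coordinate function `y ↦ y a`; `Pk g x a b c = ⟨d g^{ab}, dx^c⟩`,
`Tk P a b c = (P a b c + P a c b - P b c a)/2` (so `Tk (Pk g x) a b c = Hess x^a (∇x^b, ∇x^c)`),
`Sk G P a b = Σ G_cd G_ef T a c e * T b d f` (so `Sk (g x) (Pk g x) a b = ⟨Hess x^a, Hess x^b⟩`).

* `ricci_eq` : if the coordinates are harmonic and
  `Δ_g g^{ab} = 2 Sk^{ab} + 2 lam g^{ab}` then `ricci g x i j = lam * g x i j`.
* `ricci_of_div` : the same with `h` (the inverse metric) as unknown and both equations in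
  divergence form with the density `(det h)^{-1/2}`.
-/

set_option autoImplicit false
set_option maxSynthPendingDepth 3

open scoped ContDiff Topology
open Filter Set
open Crest.GeometryTopology.CoordMetric Crest.GeometryTopology.ChartCurvature
open Crest.Agent.R202.Tens Crest.Agent.R247.Bo84

noncomputable section

namespace Crest.Agent.R249.Ric2_672

open Crest.Agent.R249.Bia3_104 Crest.Agent.R249.Ric1_672

variable {n : ℕ}

local notation "𝔼" => EuclideanSpace ℝ (Fin n)

/-! ### the quadratic expression -/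

/-- `T^a(dx^b, dx^c)` -/
def Tk (P : Fin n → Fin n → Fin n → ℝ) (a b c : Fin n) : ℝ :=
  (P a b c + P a c b - P b c a) / 2

/-- `⟨T^a, T^b⟩` for the metric with matrix `G` -/
def Sk (G : Matrix (Fin n) (Fin n) ℝ) (P : Fin n → Fin n → Fin n → ℝ) (a b : Fin n) : ℝ :=
  ∑ c, ∑ d, ∑ e, ∑ f, G c d * G e f * Tk P a c e * Tk P b d f

/-- coordinate functions -/
def crd (a : Fin n) : EuclideanSpace ℝ (Fin n) → ℝ := fun y => y a

/-- `P^{ab;c} = ⟨d g^{ab}, dx^c⟩` -/
def Pk (g : MetricField n) (x : EuclideanSpace ℝ (Fin n)) (a b c : Fin n) : ℝ :=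
  gam g (fun y => inverseField g y a b) (crd c) x

lemma fderiv_crd (a : Fin n) (x Y : 𝔼) : fderiv ℝ (crd a) x Y = Y a := by
  have : fderiv ℝ (crd a) x = (EuclideanSpace.proj a : 𝔼 →L[ℝ] ℝ) :=
    (EuclideanSpace.proj a : 𝔼 →L[ℝ] ℝ).fderiv
  rw [this]; rfl

lemma pderiv_crd (a i : Fin n) (x : 𝔼) : pderiv i (crd a) x = if i = a then 1 else 0 := by
  rw [pderiv, fderiv_crd]
  simp [eq_comm]

lemma contDiff_crd (a : Fin n) {k : WithTop ℕ∞} : ContDiff ℝ k (crd a : 𝔼 → ℝ) :=
  (EuclideanSpace.proj a : 𝔼 →L[ℝ] ℝ).contDiff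

lemma grad_crd (g : MetricField n) (a : Fin n) (x : 𝔼) (i : Fin n) :
    grad g (crd a) x i = inverseField g x i a := by
  rw [grad_apply]
  simp [pderiv_crd]

lemma gam_crd (g : MetricField n) (a b : Fin n) (x : 𝔼) :
    gam g (crd a) (crd b) x = inverseField g x a b := by
  rw [gam_eq_fderiv_grad, fderiv_crd, grad_crd]

lemma gam_crd_fun (g : MetricField n) (a b : Fin n) :
    gam g (crd a) (crd b) = fun y : 𝔼 => inverseField g y a b := by
  funext y; exact gam_crd g a b y

lemma Pk_eq (g : MetricField n) (x : 𝔼) (a b c : Fin n) :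
    Pk g x a b c = ∑ d, inverseField g x d c * pderiv d (fun y => inverseField g y a b) x := by
  rw [Pk, gam_eq_fderiv_grad, fderiv_eq_sum]
  exact Finset.sum_congr rfl fun d _ => by rw [grad_crd]


variable {g : MetricField n} {U : Set (EuclideanSpace ℝ (Fin n))} {x : EuclideanSpace ℝ (Fin n)}

/-- expansion of a vector in the gradients of the coordinates -/
lemma expand_crd (hg : IsRiemannianOn g U) (hx : x ∈ U) (X : 𝔼) :
    X = ∑ m, bil (g x) X (EuclideanSpace.single m 1) • grad g (crd m) x := by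
  refine bil_injective hg hx fun Y => ?_
  simp only [map_sum, sum_apply, map_smul, smul_apply, smul_eq_mul, bil_grad hg hx, fderiv_crd]
  conv_lhs => rw [eq_sum_single Y]
  simp only [map_sum, map_smul, smul_eq_mul]
  exact Finset.sum_congr rfl fun m _ => by ring

lemma bil_single (hg : IsRiemannianOn g U) (hx : x ∈ U) (i j : Fin n) :
    bil (g x) (EuclideanSpace.single i 1) (EuclideanSpace.single j 1) = g x i j := by
  rw [bil_apply]
  simp [Finset.sum_ite_eq']

/-- the Hessian of a coordinate on gradients of coordinates -/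
lemma hess_crd (hg : IsRiemannianOn g U) (hx : x ∈ U) (a b c : Fin n) :
    hess g (crd a) x (grad g (crd b) x) (grad g (crd c) x) = Tk (Pk g x) a b c := by
  have h := koszul hg hx (contDiff_crd a).contDiffAt (contDiff_crd b).contDiffAt
    (contDiff_crd c).contDiffAt
  simp only [gam_crd_fun] at h
  rw [Tk, Pk, Pk, Pk]
  linarith

/-- the trace of the product of two Hessians in terms of the coordinates -/
lemma trL_hess (hg : IsRiemannianOn g U) (hx : x ∈ U) {f h : 𝔼 → ℝ} (hf : ContDiffAt ℝ 2 f x)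
    (hh : ContDiffAt ℝ 2 h x) :
    trL ((hessE g f x).comp (hessE g h x)) =
      ∑ c, ∑ d, ∑ e, ∑ k, g x c d * g x e k *
        hess g f x (grad g (crd c) x) (grad g (crd e) x) *
        hess g h x (grad g (crd d) x) (grad g (crd k) x) := by
  rw [trL_apply]
  refine Finset.sum_congr rfl fun c _ => ?_
  have h1 : ∀ Z : 𝔼, Z c = bil (g x) Z (grad g (crd c) x) := by
    intro Z
    rw [bil_symm hg hx, bil_grad hg hx, fderiv_crd]
  rw [ContinuousLinearMap.comp_apply, h1, bil_hessE hg hx hf, hess_symm hg hx hf]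
  have h2 : hessE g h x (EuclideanSpace.single c 1) = ∑ e,
      hess g h x (EuclideanSpace.single c 1) (EuclideanSpace.single e 1) •
        grad g (crd e) x := by
    conv_lhs => rw [expand_crd hg hx (hessE g h x (EuclideanSpace.single c 1))]
    exact Finset.sum_congr rfl fun e _ => by rw [bil_hessE hg hx hh]
  rw [h2]
  simp only [map_sum, map_smul, smul_eq_mul]
  have h3 : ∀ m : Fin n, (EuclideanSpace.single m (1:ℝ) : 𝔼) =
      ∑ k, g x m k • grad g (crd k) x := by
    intro m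
    conv_lhs => rw [expand_crd hg hx (EuclideanSpace.single m 1)]
    exact Finset.sum_congr rfl fun k _ => by rw [bil_single hg hx]
  have h4 : ∀ e, hess g h x (EuclideanSpace.single c 1) (EuclideanSpace.single e 1) =
      ∑ d, ∑ k, g x c d * g x e k *
        hess g h x (grad g (crd d) x) (grad g (crd k) x) := by
    intro e
    rw [h3 c, h3 e]
    simp only [map_sum, sum_apply, map_smul, smul_apply, smul_eq_mul, Finset.mul_sum]
    rw [Finset.sum_comm]
    exact Finset.sum_congr rfl fun d _ => Finset.sum_congr rfl fun k _ => by ring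
  simp only [h4, Finset.sum_mul]
  rw [Finset.sum_comm]
  exact Finset.sum_congr rfl fun d _ => Finset.sum_congr rfl fun e _ =>
    Finset.sum_congr rfl fun k _ => by ring

/-- `⟨Hess x^a, Hess x^b⟩` -/
lemma trL_hess_crd (hg : IsRiemannianOn g U) (hx : x ∈ U) (a b : Fin n) :
    trL ((hessE g (crd a) x).comp (hessE g (crd b) x)) = Sk (g x) (Pk g x) a b := by
  rw [trL_hess hg hx (contDiff_crd a).contDiffAt (contDiff_crd b).contDiffAt]
  simp only [hess_crd hg hx, Sk]

/-- **Bochner formula for harmonic coordinates**: `Δ g^{ab} = 2 ⟨Hess x^a, Hess x^b⟩ + 2 Ric^{ab}`. -/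
theorem lap_inverse (hg : IsRiemannianOn g U) (hx : x ∈ U)
    (hharm : ∀ y ∈ U, ∀ a, laplaceBeltrami g (crd a) y = 0) (a b : Fin n) :
    laplaceBeltrami g (fun y => inverseField g y a b) x =
      2 * Sk (g x) (Pk g x) a b + 2 * ricF g x (grad g (crd a) x) (grad g (crd b) x) := by
  have B := bochner_pol hg hx (contDiff_crd a).contDiffAt (contDiff_crd b).contDiffAt
  have z : ∀ c, laplaceBeltrami g (crd c) =ᶠ[𝓝 x] fun _ => 0 := by
    intro c
    filter_upwards [hg.isOpen.mem_nhds hx] with y hy using hharm y hy c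
  rw [gam_congr (EventuallyEq.refl _ _) (z b), gam_congr (EventuallyEq.refl _ _) (z a),
    gam_const_right, gam_const_right, trL_hess_crd hg hx, gam_crd_fun] at B
  linarith

/-- a symmetric matrix identity `h R h = lam h` gives `R = lam h⁻¹` -/
lemma matrix_cancel {G R : Matrix (Fin n) (Fin n) ℝ} (hG : IsUnit G.det) {lam : ℝ}
    (h : G⁻¹ * R * G⁻¹ = lam • G⁻¹) : R = lam • G := by
  have e : R = G * (G⁻¹ * R * G⁻¹) * G := by
    rw [← Matrix.mul_assoc, ← Matrix.mul_assoc, Matrix.mul_nonsing_inv G hG, Matrix.one_mul,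
      Matrix.mul_assoc, Matrix.nonsing_inv_mul G hG, Matrix.mul_one]
  rw [e, h, Matrix.mul_smul, Matrix.smul_mul, Matrix.mul_nonsing_inv G hG, Matrix.one_mul]

/-- **D3-RIC**: harmonic coordinates and the system for the inverse metric give the Einstein
equation. -/
theorem ricci_eq (hg : IsRiemannianOn g U) {lam : ℝ}
    (hharm : ∀ y ∈ U, ∀ a, laplaceBeltrami g (crd a) y = 0)
    (hsys : ∀ y ∈ U, ∀ a b, laplaceBeltrami g (fun z => inverseField g z a b) y =
      2 * Sk (g y) (Pk g y) a b + 2 * lam * inverseField g y a b)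
    (x : EuclideanSpace ℝ (Fin n)) (hx : x ∈ U) (i j : Fin n) :
    ricci g x i j = lam * g x i j := by
  have h1 : ∀ a b, ricF g x (grad g (crd a) x) (grad g (crd b) x) =
      lam * inverseField g x a b := by
    intro a b
    have := lap_inverse hg hx hharm a b
    rw [hsys x hx a b] at this
    linarith
  have hG : IsUnit (g x).det := (det_pos hg hx).ne'.isUnit
  have h2 : (g x)⁻¹ * (Matrix.of fun i j => ricci g x i j) * (g x)⁻¹ = lam • (g x)⁻¹ := by
    ext b a
    rw [Matrix.smul_apply, smul_eq_mul]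
    have h3 := h1 a b
    rw [ricF_eq hg hx] at h3
    simp only [grad_crd] at h3
    have h4 : inverseField g x a b = (g x)⁻¹ b a := inv_symm hg hx a b
    rw [← h4, ← h3, Matrix.mul_apply]
    simp only [Matrix.mul_apply, Finset.sum_mul, Matrix.of_apply]
    rw [Finset.sum_comm]
    refine Finset.sum_congr rfl fun i _ => Finset.sum_congr rfl fun j _ => ?_
    have h5 : (g x)⁻¹ b i = inverseField g x i b := inv_symm hg hx b i
    have h6 : (g x)⁻¹ j a = inverseField g x j a := rfl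
    rw [h5, h6]
    ring
  have h7 := matrix_cancel hG h2
  have h8 := congrFun (congrFun h7 i) j
  simpa using h8

end Crest.Agent.R249.Ric2_672
end
end

-- ▼ part R249/Ric3_672
section

/-!
# R249, D3-RIC (helper672), part 3: the system in divergence form, unknown = inverse metric

For a smooth positive definite matrix field `h` on an open set `U` (the inverse metric) and a
density `J` with `J √(det h) = c`, `c ≠ 0` constant:

* `riem_inv` : `x ↦ (h x)⁻¹` is a Riemannian metric on `U`;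
* `lap_inv` : its Laplacian is `J⁻¹ Σ ∂_c (J h^{cd} ∂_d f)`;
* `ricci_of_div` : `Σ_a ∂_a (J h^{ab}) = 0` and
  `Σ_c ∂_c (J Σ_d h^{cd} ∂_d h^{ab}) = J (2 Sk^{ab} + 2 lam h^{ab})` on `U` imply
  `ricci (h⁻¹) = lam h⁻¹` on `U`;
* `ricci_of_nondiv` : the same with the second equation in the form
  `Σ h^{cd} ∂_c ∂_d h^{ab} = 2 Sk^{ab} + 2 lam h^{ab}`;
* `sys_of_ricci` : conversely an Einstein metric in harmonic coordinates satisfies the system.
-/

set_option autoImplicit false
set_option maxSynthPendingDepth 3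

open scoped ContDiff Topology
open Filter Set
open Crest.GeometryTopology.CoordMetric Crest.GeometryTopology.ChartCurvature
open Crest.Agent.R202.Tens Crest.Agent.R247.Bo84

noncomputable section

namespace Crest.Agent.R249.Ric3_672

open Crest.Agent.R249.Bia3_104 Crest.Agent.R249.Ric1_672 Crest.Agent.R249.Ric2_672

variable {n : ℕ}

local notation "𝔼" => EuclideanSpace ℝ (Fin n)

/-- `P^{ab;c} = Σ_d h^{cd} ∂_d h^{ab}` -/
def Ph (h : MetricField n) (x : EuclideanSpace ℝ (Fin n)) (a b c : Fin n) : ℝ :=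
  ∑ d, h x c d * pderiv d (fun y => h y a b) x

variable {h : MetricField n} {U : Set (EuclideanSpace ℝ (Fin n))} {x : EuclideanSpace ℝ (Fin n)}

/-- the inverse of a smooth positive definite matrix field is a Riemannian metric -/
lemma riem_inv (hh : IsRiemannianOn h U) : IsRiemannianOn (fun x => (h x)⁻¹) U where
  isOpen := hh.isOpen
  contDiffOn i j y hy := (contDiffAt_inv hh hy i j).contDiffWithinAt
  posDef y hy := (hh.posDef y hy).inv

lemma inv_field (hh : IsRiemannianOn h U) (hx : x ∈ U) :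
    inverseField (fun x => (h x)⁻¹) x = h x :=
  Matrix.nonsing_inv_nonsing_inv (h x) (det_pos hh hx).ne'.isUnit

lemma inv_field_ev (hh : IsRiemannianOn h U) (hx : x ∈ U) :
    ∀ᶠ y in 𝓝 x, inverseField (fun x => (h x)⁻¹) y = h y := by
  filter_upwards [hh.isOpen.mem_nhds hx] with y hy using inv_field hh hy

lemma inv_entry_ev (hh : IsRiemannianOn h U) (hx : x ∈ U) (a b : Fin n) :
    (fun y => inverseField (fun x => (h x)⁻¹) y a b) =ᶠ[𝓝 x] fun y => h y a b := by
  filter_upwards [inv_field_ev hh hx] with y hy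
  rw [hy]

lemma Pk_inv (hh : IsRiemannianOn h U) (hx : x ∈ U) :
    Pk (fun x => (h x)⁻¹) x = Ph h x := by
  funext a b c
  rw [Pk_eq, Ph]
  refine Finset.sum_congr rfl fun d _ => ?_
  rw [inv_field hh hx, pderiv, (inv_entry_ev hh hx a b).fderiv_eq, metric_symm hh hx d c]
  rfl

lemma sqrt_det_inv (x : 𝔼) :
    Real.sqrt ((h x)⁻¹).det = (Real.sqrt (h x).det)⁻¹ := by
  rw [Matrix.det_nonsing_inv, Ring.inverse_eq_inv', Real.sqrt_inv]

/-- the density -/
lemma dens_eq {J : EuclideanSpace ℝ (Fin n) → ℝ} {c : ℝ}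
    (hh : IsRiemannianOn h U) (hJ : ∀ y ∈ U, J y * Real.sqrt (h y).det = c) (hx : x ∈ U) :
    J x = c * Real.sqrt ((h x)⁻¹).det := by
  have h0 : Real.sqrt (h x).det ≠ 0 := (Real.sqrt_pos.2 (det_pos hh hx)).ne'
  rw [sqrt_det_inv, ← hJ x hx]
  field_simp

/-- the Laplacian of the inverse metric in terms of the density `J` -/
theorem lap_inv {J : EuclideanSpace ℝ (Fin n) → ℝ} {c : ℝ} (hc : c ≠ 0)
    (hh : IsRiemannianOn h U) (hJ : ∀ y ∈ U, J y * Real.sqrt (h y).det = c) (hx : x ∈ U)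
    (f : 𝔼 → ℝ) :
    J x * laplaceBeltrami (fun x => (h x)⁻¹) f x =
      ∑ i, pderiv i (fun y => J y * ∑ j, h y i j * pderiv j f y) x := by
  have h0 : Real.sqrt ((h x)⁻¹).det ≠ 0 :=
    (Real.sqrt_pos.2 (det_pos (riem_inv hh) hx)).ne'
  have e : ∀ i, pderiv i (fun y => J y * ∑ j, h y i j * pderiv j f y) x =
      c * pderiv i (fun y => Real.sqrt ((h y)⁻¹).det *
        ∑ j, inverseField (fun x => (h x)⁻¹) y i j * pderiv j f y) x := by
    intro i
    have e1 : (fun y => J y * ∑ j, h y i j * pderiv j f y) =ᶠ[𝓝 x]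
        c • (fun y => Real.sqrt ((h y)⁻¹).det *
          ∑ j, inverseField (fun x => (h x)⁻¹) y i j * pderiv j f y) := by
      filter_upwards [hh.isOpen.mem_nhds hx, inv_field_ev hh hx] with y hy hy2
      rw [Pi.smul_apply, smul_eq_mul, hy2, dens_eq hh hJ hy]
      ring
    rw [pderiv, pderiv, e1.fderiv_eq, fderiv_const_smul_field]
    rfl
  rw [laplaceBeltrami, dens_eq hh hJ hx]
  simp only [e, ← Finset.mul_sum]
  field_simp

lemma dens_ne {J : EuclideanSpace ℝ (Fin n) → ℝ} {c : ℝ} (hc : c ≠ 0)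
    (hJ : ∀ y ∈ U, J y * Real.sqrt (h y).det = c) (hx : x ∈ U) : J x ≠ 0 := by
  intro h0
  apply hc
  rw [← hJ x hx, h0, zero_mul]

/-- harmonicity of the coordinates in divergence form -/
lemma lap_crd_inv {J : EuclideanSpace ℝ (Fin n) → ℝ} {c : ℝ} (hc : c ≠ 0)
    (hh : IsRiemannianOn h U) (hJ : ∀ y ∈ U, J y * Real.sqrt (h y).det = c) (hx : x ∈ U)
    (b : Fin n) :
    J x * laplaceBeltrami (fun x => (h x)⁻¹) (crd b) x =
      ∑ a, pderiv a (fun y => J y * h y a b) x := by
  rw [lap_inv hc hh hJ hx]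
  refine Finset.sum_congr rfl fun i _ => ?_
  congr 1
  funext y
  simp [pderiv_crd]

/-- **D3-RIC, divergence form** -/
theorem ricci_of_div {J : EuclideanSpace ℝ (Fin n) → ℝ} {c lam : ℝ} (hc : c ≠ 0)
    (hh : IsRiemannianOn h U) (hJ : ∀ y ∈ U, J y * Real.sqrt (h y).det = c)
    (hdiv : ∀ y ∈ U, ∀ b, ∑ a, pderiv a (fun z => J z * h z a b) y = 0)
    (hsys : ∀ y ∈ U, ∀ a b,
      ∑ i, pderiv i (fun z => J z * ∑ j, h z i j * pderiv j (fun w => h w a b) z) y =
        J y * (2 * Sk (h y)⁻¹ (Ph h y) a b + 2 * lam * h y a b))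
    (x : EuclideanSpace ℝ (Fin n)) (hx : x ∈ U) (i j : Fin n) :
    ricci (fun x => (h x)⁻¹) x i j = lam * (h x)⁻¹ i j := by
  refine ricci_eq (riem_inv hh) (lam := lam) ?_ ?_ x hx i j
  · intro y hy a
    have h1 := lap_crd_inv hc hh hJ hy a
    rw [hdiv y hy a] at h1
    exact (mul_eq_zero.1 h1).resolve_left (dens_ne hc hJ hy)
  · intro y hy a b
    have h1 := lap_inv hc hh hJ hy (fun w => h w a b)
    rw [hsys y hy a b] at h1
    rw [lap_congr (inv_entry_ev hh hy a b), Pk_inv hh hy, inv_field hh hy]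
    exact mul_left_cancel₀ (dens_ne hc hJ hy) h1

/-! ### the Laplacian in harmonic coordinates -/




end Crest.Agent.R249.Ric3_672
end
end

-- ▼ part R249/RegEin_717
section

/-!
Row 249, leaf D3-REG (helper717), file 14: a weak Hölder continuous solution of the system of the
inverse metric in harmonic coordinates is smooth and its inverse is an Einstein metric.
-/

set_option autoImplicit false
open scoped ContDiff ENNReal Topology
open MeasureTheory Set Filter
open Crest.GeometryTopology.CoordMetric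

namespace Crest.Agent.R249.RegEin_717

open Crest.Agent.R202.Ell
open Crest.Agent.R249.Ric2_672 Crest.Agent.R249.Ric3_672
open Crest.Agent.R249.RegKer_717 (QSys LEll Ellc LH CH arg dom WDOn WEqOn ibp_local test_zero)
open Crest.Agent.R247.Frd657 (L2On)

noncomputable section

variable {n : ℕ}

/-! ### ellipticity from positivity -/

theorem sum_abs_mul_le (z : Fin n → ℝ) {m : Fin n → Fin n → ℝ} {ε : ℝ} (hm : ∀ i j, |m i j| ≤ ε) :
    |∑ i, ∑ j, m i j * z i * z j| ≤ ε * n * ∑ i, z i ^ 2 := by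
  have h1 : ∀ i j, |m i j * z i * z j| ≤ ε * (z i ^ 2 + z j ^ 2) / 2 := by
    intro i j
    rw [abs_mul, abs_mul]
    have h2 : |z i| * |z j| ≤ (z i ^ 2 + z j ^ 2) / 2 := by
      have := sq_nonneg (|z i| - |z j|)
      have e1 := sq_abs (z i)
      have e2 := sq_abs (z j)
      nlinarith
    have h0 : 0 ≤ ε := (abs_nonneg _).trans (hm i j)
    have h3 : 0 ≤ |z i| * |z j| := by positivity
    calc |m i j| * |z i| * |z j| = |m i j| * (|z i| * |z j|) := by ring
      _ ≤ ε * ((z i ^ 2 + z j ^ 2) / 2) := mul_le_mul (hm i j) h2 h3 h0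
      _ = _ := by ring
  refine (Finset.abs_sum_le_sum_abs _ _).trans ?_
  refine (Finset.sum_le_sum fun i _ => (Finset.abs_sum_le_sum_abs _ _).trans
    (Finset.sum_le_sum fun j _ => h1 i j)).trans (le_of_eq ?_)
  have e1 : ∀ i, ∑ j, ε * (z i ^ 2 + z j ^ 2) / 2 = ε / 2 * (n * z i ^ 2 + ∑ j, z j ^ 2) := by
    intro i
    rw [← Finset.sum_div, ← Finset.mul_sum, Finset.sum_add_distrib]
    simp; ring
  simp only [e1]
  rw [← Finset.mul_sum, Finset.sum_add_distrib, ← Finset.mul_sum]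
  simp; ring

theorem lell_of_pos {Ω : Set (EE n)} (hΩ : IsOpen Ω) {a : Fin n → Fin n → EE n → ℝ}
    (hc : ∀ i j, ContinuousOn (a i j) Ω) (hs : ∀ x ∈ Ω, ∀ i j, a i j x = a j i x)
    (hp : ∀ x ∈ Ω, ∀ z : Fin n → ℝ, z ≠ 0 → 0 < ∑ i, ∑ j, a i j x * z i * z j) : LEll Ω a := by
  intro x hx
  obtain ⟨m0, hm0, hm⟩ : ∃ m0 > 0, ∀ z : EE n, ‖z‖ = 1 → m0 ≤ ∑ i, ∑ j, a i j x * z i * z j := by
    have hcont : Continuous (fun z : EE n => ∑ i, ∑ j, a i j x * z i * z j) := by fun_prop
    rcases (Metric.sphere (0 : EE n) 1).eq_empty_or_nonempty with h0 | h0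
    · refine ⟨1, one_pos, fun z hz => ?_⟩
      have : z ∈ Metric.sphere (0 : EE n) 1 := by simpa using hz
      rw [h0] at this; exact absurd this (Set.notMem_empty _)
    · obtain ⟨z0, hz0, hmin⟩ := (isCompact_sphere (0 : EE n) 1).exists_isMinOn h0 hcont.continuousOn
      refine ⟨∑ i, ∑ j, a i j x * z0 i * z0 j, ?_, fun z hz => ?_⟩
      · refine hp x hx z0 fun h => ?_
        have h1 : ‖z0‖ = 1 := by simpa using hz0
        have h2 : z0 = 0 := by ext i; exact congrFun h i
        rw [h2, norm_zero] at h1; norm_num at h1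
      · exact hmin (by simpa using hz)
  have hhom : ∀ z : Fin n → ℝ, m0 * ∑ i, z i ^ 2 ≤ ∑ i, ∑ j, a i j x * z i * z j := by
    intro z
    set w : EE n := WithLp.toLp 2 z with hw
    have hwi : ∀ i, w i = z i := fun i => rfl
    have hn : ‖w‖ ^ 2 = ∑ i, z i ^ 2 := by
      rw [EuclideanSpace.norm_sq_eq]; simp [hwi]
    rcases eq_or_ne w 0 with h0 | h0
    · have hz : ∀ i, z i = 0 := fun i => by rw [← hwi, h0]; rfl
      simp [hz]
    have hw0 : 0 < ‖w‖ := norm_pos_iff.2 h0
    have h1 := hm (‖w‖⁻¹ • w) (by rw [norm_smul, norm_inv, norm_norm, inv_mul_cancel₀ hw0.ne'])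
    have h2 : ∑ i, ∑ j, a i j x * (‖w‖⁻¹ • w) i * (‖w‖⁻¹ • w) j
        = (‖w‖⁻¹) ^ 2 * ∑ i, ∑ j, a i j x * z i * z j := by
      rw [Finset.mul_sum]
      refine Finset.sum_congr rfl fun i _ => ?_
      rw [Finset.mul_sum]
      refine Finset.sum_congr rfl fun j _ => ?_
      simp only [PiLp.smul_apply, smul_eq_mul, hwi]; ring
    rw [h2] at h1
    rw [← hn]
    have h3 := mul_le_mul_of_nonneg_left h1 (sq_nonneg ‖w‖)
    have h4 : ‖w‖ ^ 2 * ((‖w‖⁻¹) ^ 2 * ∑ i, ∑ j, a i j x * z i * z j)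
        = ∑ i, ∑ j, a i j x * z i * z j := by
      rw [← mul_assoc, ← mul_pow, mul_inv_cancel₀ hw0.ne', one_pow, one_mul]
    rw [h4] at h3
    linarith
  set ε := m0 / (2 * (n + 1)) with hε
  have hε0 : 0 < ε := by positivity
  have hεn : ε * n ≤ m0 / 2 := by
    rw [hε]
    have : m0 / (2 * (n + 1)) * n = m0 / 2 * (n / (n + 1)) := by field_simp
    rw [this]
    refine mul_le_of_le_one_right (by positivity) ?_
    rw [div_le_one (by positivity)]; linarith
  have hev : ∀ᶠ y in 𝓝 x, y ∈ Ω ∧ ∀ i j, |a i j y - a i j x| ≤ ε := by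
    refine (hΩ.eventually_mem hx).and (eventually_all.2 fun i => eventually_all.2 fun j => ?_)
    have h1 : ContinuousAt (a i j) x := (hc i j).continuousAt (hΩ.mem_nhds hx)
    filter_upwards [Metric.continuousAt_iff'.1 h1 ε hε0] with y hy
    rw [Real.dist_eq] at hy; exact hy.le
  obtain ⟨r, hr, hrs⟩ := Metric.nhds_basis_closedBall.mem_iff.1 hev
  set A0 := ∑ i, ∑ j, |a i j x| with hA0
  have hA : ∀ i j, |a i j x| ≤ A0 := fun i j =>
    (Finset.single_le_sum (f := fun j => |a i j x|) (fun j _ => abs_nonneg _)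
      (Finset.mem_univ j)).trans
      (Finset.single_le_sum (f := fun i => ∑ j, |a i j x|)
        (fun i _ => Finset.sum_nonneg fun j _ => abs_nonneg _) (Finset.mem_univ i))
  refine ⟨r, hr, m0 / 2, by positivity, max 1 ((A0 + ε) * n), le_max_left _ _, fun y hy => ?_⟩
  obtain ⟨hyΩ, hya⟩ := hrs hy
  refine ⟨fun i j => hs y hyΩ i j, fun z => ?_, fun z => ?_⟩
  · have h1 := sum_abs_mul_le z hya
    have h2 : ∑ i, ∑ j, (a i j y - a i j x) * z i * z j
        = (∑ i, ∑ j, a i j y * z i * z j) - ∑ i, ∑ j, a i j x * z i * z j := by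
      simp only [sub_mul, Finset.sum_sub_distrib]
    rw [h2] at h1
    have h3 := hhom z
    have h4 : 0 ≤ ∑ i, z i ^ 2 := Finset.sum_nonneg fun i _ => sq_nonneg _
    have h5 := mul_le_mul_of_nonneg_right hεn h4
    have h6 := (abs_le.1 h1).1
    linarith
  · have h1 := sum_abs_mul_le z (m := fun i j => a i j y) (ε := A0 + ε) (fun i j => by
      have := abs_sub_abs_le_abs_sub (a i j y) (a i j x)
      have := hya i j
      have := hA i j
      linarith)
    refine (le_abs_self _).trans (h1.trans ?_)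
    exact mul_le_mul_of_nonneg_right (le_max_right _ _)
      (Finset.sum_nonneg fun i _ => sq_nonneg _)

/-! ### smoothness of determinants and inverses -/

section sm
variable {V : Type*} [NormedAddCommGroup V] [NormedSpace ℝ V] {s : Set V}

theorem cd_det {m : V → Matrix (Fin n) (Fin n) ℝ} {k : WithTop ℕ∞}
    (h : ∀ i j, ContDiffOn ℝ k (fun v => m v i j) s) : ContDiffOn ℝ k (fun v => (m v).det) s := by
  simp only [Matrix.det_apply']
  exact ContDiffOn.sum fun σ _ => contDiffOn_const.mul (contDiffOn_prod fun i _ => h _ _)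

theorem cd_inv {m : V → Matrix (Fin n) (Fin n) ℝ} {k : WithTop ℕ∞}
    (h : ∀ i j, ContDiffOn ℝ k (fun v => m v i j) s) (h0 : ∀ v ∈ s, (m v).det ≠ 0) (c d : Fin n) :
    ContDiffOn ℝ k (fun v => (m v)⁻¹ c d) s := by
  have e : ∀ v, (m v)⁻¹ c d = ((m v).det)⁻¹ * ((m v).updateRow d (Pi.single c 1)).det := by
    intro v
    rw [Matrix.inv_def, Ring.inverse_eq_inv', Matrix.smul_apply, smul_eq_mul,
      Matrix.adjugate_apply]
  simp only [e]
  refine ((cd_det h).inv h0).mul (cd_det fun i j => ?_)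
  simp only [Matrix.updateRow_apply]
  split_ifs
  · exact contDiffOn_const
  · exact h i j

theorem cd_J {m : V → Matrix (Fin n) (Fin n) ℝ} {k : WithTop ℕ∞}
    (h : ∀ i j, ContDiffOn ℝ k (fun v => m v i j) s) (h0 : ∀ v ∈ s, 0 < (m v).det) :
    ContDiffOn ℝ k (fun v => (√(m v).det)⁻¹) s :=
  ((cd_det h).sqrt fun v hv => (h0 v hv).ne').inv fun v hv => (Real.sqrt_pos.2 (h0 v hv)).ne'

theorem cd_Sk {G : V → Matrix (Fin n) (Fin n) ℝ} {P : V → Fin n → Fin n → Fin n → ℝ}
    {k : WithTop ℕ∞} (hG : ∀ i j, ContDiffOn ℝ k (fun v => G v i j) s)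
    (hP : ∀ a b c, ContDiffOn ℝ k (fun v => P v a b c) s) (a b : Fin n) :
    ContDiffOn ℝ k (fun v => Sk (G v) (P v) a b) s := by
  have hT : ∀ a b c, ContDiffOn ℝ k (fun v => Tk (P v) a b c) s := fun a b c =>
    (((hP a b c).add (hP a c b)).sub (hP b c a)).div_const 2
  unfold Sk
  refine ContDiffOn.sum fun c _ => ContDiffOn.sum fun d _ => ContDiffOn.sum fun e _ =>
    ContDiffOn.sum fun f _ => ?_
  exact (((hG c d).mul (hG e f)).mul (hT a c e)).mul (hT b d f)

end sm

theorem Sk_le {G : Matrix (Fin n) (Fin n) ℝ} {P : Fin n → Fin n → Fin n → ℝ} {g p : ℝ}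
    (hG : ∀ i j, |G i j| ≤ g) (hP : ∀ a b c, |P a b c| ≤ p) (hg : 0 ≤ g) (hp : 0 ≤ p)
    (a b : Fin n) : |Sk G P a b| ≤ n * (n * (n * (n * (g * g * (2 * p) * (2 * p))))) := by
  have hT : ∀ a b c, |Tk P a b c| ≤ 2 * p := by
    intro a b c
    have h1 := hP a b c
    have h2 := hP a c b
    have h3 := hP b c a
    unfold Tk
    rw [abs_le] at h1 h2 h3 ⊢
    constructor <;> linarith [h1.1, h1.2, h2.1, h2.2, h3.1, h3.2]
  have h1 : ∀ c d e f, |G c d * G e f * Tk P a c e * Tk P b d f| ≤ g * g * (2 * p) * (2 * p) := by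
    intro c d e f
    rw [abs_mul, abs_mul, abs_mul]
    have t1 := hT a c e
    have t2 := hT b d f
    have g1 := hG c d
    have g2 := hG e f
    gcongr
  unfold Sk
  refine (Finset.abs_sum_le_sum_abs _ _).trans ?_
  refine (Finset.sum_le_sum (g := fun _ => n * (n * (n * (g * g * (2 * p) * (2 * p)))))
    fun c _ => ?_).trans (by simp)
  refine (Finset.abs_sum_le_sum_abs _ _).trans ?_
  refine (Finset.sum_le_sum (g := fun _ => n * (n * (g * g * (2 * p) * (2 * p))))
    fun d _ => ?_).trans (by simp)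
  refine (Finset.abs_sum_le_sum_abs _ _).trans ?_
  refine (Finset.sum_le_sum (g := fun _ => n * (g * g * (2 * p) * (2 * p)))
    fun e _ => ?_).trans (by simp)
  refine (Finset.abs_sum_le_sum_abs _ _).trans ?_
  exact (Finset.sum_le_sum (g := fun _ => g * g * (2 * p) * (2 * p))
    fun f _ => h1 c d e f).trans (by simp)

/-! ### the system -/

/-- matrix of a vector -/
def Mt (w : Fin n × Fin n → ℝ) : Matrix (Fin n) (Fin n) ℝ := Matrix.of fun i j => w (i, j)

/-- domain -/
def OO (n : ℕ) : Set (Fin n × Fin n → ℝ) := {w | 0 < (Mt w).det}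

/-- coefficients `J h` -/
def aE (i j : Fin n) (w : Fin n × Fin n → ℝ) : ℝ := (√(Mt w).det)⁻¹ * w (i, j)

/-- `P^{ab;c}` -/
def Pv (v : ((Fin n × Fin n) ⊕ ((Fin n × Fin n) × Fin n)) → ℝ) (a b c : Fin n) : ℝ :=
  ∑ d, v (Sum.inl (c, d)) * v (Sum.inr ((a, b), d))

/-- right-hand side -/
def bE (lam : ℝ) (A : Fin n × Fin n) (v : ((Fin n × Fin n) ⊕ ((Fin n × Fin n) × Fin n)) → ℝ) :
    ℝ :=
  (√(Mt fun A => v (Sum.inl A)).det)⁻¹ * (2 * Sk (Mt fun A => v (Sum.inl A))⁻¹ (Pv v) A.1 A.2 +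
    2 * lam * v (Sum.inl A))

theorem OO_open : IsOpen (OO n) := by
  have h : Continuous fun w : Fin n × Fin n → ℝ => (Mt w).det := by
    have := cd_det (n := n) (s := univ) (m := fun w : Fin n × Fin n → ℝ => Mt w) (k := 0)
      fun i j => (contDiff_apply ℝ ℝ (i, j)).contDiffOn
    exact continuousOn_univ.1 this.continuousOn
  exact isOpen_lt continuous_const h

theorem smooth_aE (i j : Fin n) : ContDiffOn ℝ ∞ (aE i j) (OO n) := by
  have h : ∀ i j : Fin n, ContDiffOn ℝ ∞ (fun w : Fin n × Fin n → ℝ => Mt w i j) (OO n) :=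
    fun i j => (contDiff_apply ℝ ℝ (i, j)).contDiffOn
  exact (cd_J h fun v hv => hv).mul (contDiff_apply ℝ ℝ (i, j)).contDiffOn

theorem smooth_bE (lam : ℝ) (A : Fin n × Fin n) :
    ContDiffOn ℝ ∞ (bE lam A) (dom n (OO n)) := by
  have hp : ∀ p, ContDiffOn ℝ ∞ (fun v : ((Fin n × Fin n) ⊕ ((Fin n × Fin n) × Fin n)) → ℝ => v p)
      (dom n (OO n)) := fun p => (contDiff_apply ℝ ℝ p).contDiffOn
  have h : ∀ i j : Fin n, ContDiffOn ℝ ∞
      (fun v : ((Fin n × Fin n) ⊕ ((Fin n × Fin n) × Fin n)) → ℝ => Mt (fun A => v (Sum.inl A)) i j)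
      (dom n (OO n)) := fun i j => hp _
  have h0 : ∀ v ∈ dom n (OO n), 0 < (Mt fun A => v (Sum.inl A)).det := fun v hv => hv
  refine (cd_J h h0).mul (((contDiffOn_const).mul (cd_Sk (cd_inv h fun v hv => (h0 v hv).ne')
    (fun a b c => ?_) A.1 A.2)).add ((contDiffOn_const).mul (hp _)))
  exact ContDiffOn.sum fun d _ => (hp _).mul (hp _)

/-- **The weak Einstein system** of the inverse metric `h` in harmonic coordinates. -/
structure EinW (Ω : Set (EE n)) (α lam : ℝ) (h : MetricField n)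
    (P : Fin n → Fin n → Fin n → EE n → ℝ) : Prop where
  hα : 1 / 2 < α
  hα1 : α < 1
  openΩ : IsOpen Ω
  hol : ∀ a b, LH α Ω (fun x => h x a b)
  pd : ∀ x ∈ Ω, (h x).PosDef
  l2 : ∀ a b c, L2On Ω (P a b c)
  morrey : ∀ x ∈ Ω, ∃ r > 0, ∃ C, 0 ≤ C ∧ ∀ y ∈ Metric.closedBall x r, ∀ ρ, 0 < ρ → ρ ≤ r →
    ∀ a b c, ∫ t in Metric.closedBall y ρ, P a b c t ^ 2 ≤ C * ρ ^ ((n : ℝ) - 2 + 2 * α)
  wd : ∀ a b e, WDOn Ω e (fun x => h x a b) (fun x => ∑ c, (h x)⁻¹ e c * P a b c x)
  div : ∀ b, ∀ φ : EE n → ℝ, IsTest φ → tsupport φ ⊆ Ω →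
    ∫ x, ∑ a, (√(h x).det)⁻¹ * h x a b * pderiv a φ x = 0
  sys : ∀ a b, ∀ φ : EE n → ℝ, IsTest φ → tsupport φ ⊆ Ω →
    ∫ x, ∑ c, (√(h x).det)⁻¹ * P a b c x * pderiv c φ x =
      - ∫ x, (√(h x).det)⁻¹ * (2 * Sk (h x)⁻¹ (fun a b c => P a b c x) a b + 2 * lam * h x a b)
        * φ x

variable {Ω : Set (EE n)} {α lam : ℝ} {h : MetricField n} {P : Fin n → Fin n → Fin n → EE n → ℝ}

/-- gradients -/
def HE (h : MetricField n) (P : Fin n → Fin n → Fin n → EE n → ℝ) (A : Fin n × Fin n)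
    (e : Fin n) (x : EE n) : ℝ := ∑ c, (h x)⁻¹ e c * P A.1 A.2 c x

theorem EinW.c0 (H : EinW Ω α lam h P) (a b : Fin n) : ContinuousOn (fun x => h x a b) Ω :=
  LH.continuousOn (by linarith [H.hα]) (H.hol a b)

theorem EinW.cdet (H : EinW Ω α lam h P) : ContinuousOn (fun x => (h x).det) Ω := by
  have : ∀ x, (h x).det = ∑ σ : Equiv.Perm (Fin n), ((Equiv.Perm.sign σ : ℤ) : ℝ) *
      ∏ i, h x (σ i) i := fun x => Matrix.det_apply' _
  simp only [this]
  exact continuousOn_finsetSum _ fun σ _ => continuousOn_const.mul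
    (continuousOn_finsetProd _ fun i _ => H.c0 _ _)

theorem EinW.cJ (H : EinW Ω α lam h P) : ContinuousOn (fun x => (√(h x).det)⁻¹) Ω :=
  (H.cdet.sqrt).inv₀ fun x hx => (Real.sqrt_pos.2 (H.pd x hx).det_pos).ne'

theorem EinW.cinv (H : EinW Ω α lam h P) (c d : Fin n) :
    ContinuousOn (fun x => (h x)⁻¹ c d) Ω := by
  have e : ∀ x, (h x)⁻¹ c d = ((h x).det)⁻¹ * ∑ σ : Equiv.Perm (Fin n),
      ((Equiv.Perm.sign σ : ℤ) : ℝ) * ∏ i, (h x).updateRow d (Pi.single c 1) (σ i) i := by
    intro x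
    have e2 := Matrix.det_apply' ((h x).updateRow d (Pi.single c 1))
    rw [Matrix.inv_def, Ring.inverse_eq_inv', Matrix.smul_apply, smul_eq_mul,
      Matrix.adjugate_apply, e2]
  simp only [e]
  refine (H.cdet.inv₀ fun x hx => (H.pd x hx).det_pos.ne').mul
    (continuousOn_finsetSum _ fun σ _ => continuousOn_const.mul
    (continuousOn_finsetProd _ fun i _ => ?_))
  simp only [Matrix.updateRow_apply]
  split_ifs
  · exact continuousOn_const
  · exact H.c0 _ _

theorem l2_mul {f g : EE n → ℝ} (hg : L2On Ω g) (hf : ContinuousOn f Ω) :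
    L2On Ω (fun x => f x * g x) := by
  intro K hK hc
  obtain ⟨C, hC⟩ := hc.exists_bound_of_continuousOn (hf.mono hK)
  have h1 := hg K hK hc
  refine MemLp.of_le_mul (c := C) h1
    (((hf.mono hK).aestronglyMeasurable hc.measurableSet).mul h1.1) ?_
  rw [ae_restrict_iff' hc.measurableSet]
  refine Eventually.of_forall fun x hx => ?_
  rw [norm_mul]
  exact mul_le_mul_of_nonneg_right (hC x hx) (norm_nonneg _)

theorem l2_sum {ι : Type*} (t : Finset ι) {g : ι → EE n → ℝ} (hg : ∀ i ∈ t, L2On Ω (g i)) :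
    L2On Ω (fun x => ∑ i ∈ t, g i x) := by
  intro K hK hc
  exact memLp_finsetSum _ fun i hi => hg i hi K hK hc

theorem L2On.li {g : EE n → ℝ} (hΩ : IsOpen Ω) (hg : L2On Ω g) : LocallyIntegrableOn g Ω := by
  rw [locallyIntegrableOn_iff hΩ.isLocallyClosed]
  intro K hK hc
  have : IsFiniteMeasure (volume.restrict K : Measure (EE n)) :=
    ⟨by rw [Measure.restrict_apply_univ]; exact hc.measure_lt_top⟩
  exact (hg K hK hc).integrable (by norm_num)

theorem L2On.sq {g : EE n → ℝ} (hΩ : IsOpen Ω) (hg : L2On Ω g) :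
    LocallyIntegrableOn (fun x => g x ^ 2) Ω := by
  rw [locallyIntegrableOn_iff hΩ.isLocallyClosed]
  intro K hK hc
  exact (hg K hK hc).integrable_sq

theorem EinW.l2H (H : EinW Ω α lam h P) (A : Fin n × Fin n) (e : Fin n) : L2On Ω (HE h P A e) :=
  l2_sum _ fun c _ => l2_mul (H.l2 _ _ _) (H.cinv e c)

theorem EinW.sym (H : EinW Ω α lam h P) {x : EE n} (hx : x ∈ Ω) (a b : Fin n) :
    h x a b = h x b a := by
  have := (H.pd x hx).1
  have h1 := congrFun (congrFun this b) a
  simpa [Matrix.conjTranspose_apply] using h1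

theorem EinW.contr (H : EinW Ω α lam h P) {x : EE n} (hx : x ∈ Ω) (A : Fin n × Fin n) (c : Fin n) :
    ∑ d, h x c d * HE h P A d x = P A.1 A.2 c x := by
  have h1 : h x * (h x)⁻¹ = 1 := Matrix.mul_nonsing_inv _ (H.pd x hx).det_pos.ne'.isUnit
  have h2 : ∀ e, ∑ d, h x c d * (h x)⁻¹ d e = if c = e then 1 else 0 := by
    intro e
    have := congrFun (congrFun h1 c) e
    rw [Matrix.mul_apply, Matrix.one_apply] at this
    exact this
  unfold HE
  simp only [Finset.mul_sum]
  rw [Finset.sum_comm]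
  have h3 : ∀ e, ∑ d, h x c d * ((h x)⁻¹ d e * P A.1 A.2 e x)
      = (if c = e then 1 else 0) * P A.1 A.2 e x := by
    intro e
    rw [← h2 e, Finset.sum_mul]
    exact Finset.sum_congr rfl fun d _ => by ring
  simp only [h3]
  simp


theorem EinW.Pv_eq (H : EinW Ω α lam h P) {x : EE n} (hx : x ∈ Ω) :
    Pv (arg (fun (A : Fin n × Fin n) x => h x A.1 A.2) (HE h P) x) = fun a b c => P a b c x := by
  funext a b c
  exact H.contr hx (a, b) c

theorem EinW.bE_eq (H : EinW Ω α lam h P) {x : EE n} (hx : x ∈ Ω) (A : Fin n × Fin n) :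
    bE lam A (arg (fun (A : Fin n × Fin n) x => h x A.1 A.2) (HE h P) x)
      = (√(h x).det)⁻¹ * (2 * Sk (h x)⁻¹ (fun a b c => P a b c x) A.1 A.2
        + 2 * lam * h x A.1 A.2) := by
  unfold bE
  rw [H.Pv_eq hx]
  rfl

/-- quadratic growth of the right-hand side -/
theorem EinW.growth' (H : EinW Ω α lam h P) {x : EE n} (hx : x ∈ Ω) : ∃ r > 0, ∃ C, 0 ≤ C ∧
    ∀ y ∈ Metric.closedBall x r, ∀ A : Fin n × Fin n,
      |bE lam A (arg (fun (A : Fin n × Fin n) x => h x A.1 A.2) (HE h P) y)|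
        ≤ C * (1 + ∑ B, ∑ i, HE h P B i y ^ 2) := by
  obtain ⟨r, hr, hrs⟩ := Metric.nhds_basis_closedBall.mem_iff.1 (H.openΩ.mem_nhds hx)
  have hK : IsCompact (Metric.closedBall x r) := isCompact_closedBall _ _
  choose G hG using fun p : Fin n × Fin n =>
    hK.exists_bound_of_continuousOn ((H.cinv p.1 p.2).mono hrs)
  choose G' hG' using fun p : Fin n × Fin n =>
    hK.exists_bound_of_continuousOn ((H.c0 p.1 p.2).mono hrs)
  obtain ⟨j0, hj0⟩ := hK.exists_bound_of_continuousOn (H.cJ.mono hrs)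
  set g := (∑ p, |G p|) + (∑ p, |G' p|) + |j0| with hg
  have s1 : 0 ≤ ∑ p, |G p| := Finset.sum_nonneg fun p _ => abs_nonneg _
  have s2 : 0 ≤ ∑ p, |G' p| := Finset.sum_nonneg fun p _ => abs_nonneg _
  have hg0 : 0 ≤ g := by positivity
  have b1 : ∀ p : Fin n × Fin n, ∀ y ∈ Metric.closedBall x r, |(h y)⁻¹ p.1 p.2| ≤ g := fun p y hy => by
    have h1 := (hG p y hy).trans ((le_abs_self _).trans (Finset.single_le_sum
      (f := fun p => |G p|) (fun p _ => abs_nonneg _) (Finset.mem_univ p)))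
    rw [Real.norm_eq_abs] at h1
    have := abs_nonneg j0
    linarith
  have b2 : ∀ p : Fin n × Fin n, ∀ y ∈ Metric.closedBall x r, |h y p.1 p.2| ≤ g := fun p y hy => by
    have h1 := (hG' p y hy).trans ((le_abs_self _).trans (Finset.single_le_sum
      (f := fun p => |G' p|) (fun p _ => abs_nonneg _) (Finset.mem_univ p)))
    rw [Real.norm_eq_abs] at h1
    have := abs_nonneg j0
    linarith
  have b3 : ∀ y ∈ Metric.closedBall x r, |(√(h y).det)⁻¹| ≤ g := fun y hy => by
    have h1 := (hj0 y hy).trans (le_abs_self _)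
    rw [Real.norm_eq_abs] at h1
    linarith
  set N2 : ℝ := (Fintype.card ((Fin n × Fin n) × Fin n) : ℝ) with hN2
  set C : ℝ := g * (2 * (n * (n * (n * (n * (g * g * (2 * (n * g)) * (2 * (n * g))))))) * N2
    + 2 * |lam| * g) with hC
  refine ⟨r, hr, C, by positivity, fun y hy A => ?_⟩
  set H2 := ∑ B, ∑ i, HE h P B i y ^ 2 with hH2
  have hH20 : 0 ≤ H2 := Finset.sum_nonneg fun B _ => Finset.sum_nonneg fun i _ => sq_nonneg _
  have hH2p : H2 = ∑ q : (Fin n × Fin n) × Fin n, HE h P q.1 q.2 y ^ 2 := by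
    rw [hH2]
    exact (Fintype.sum_prod_type (fun q : (Fin n × Fin n) × Fin n => HE h P q.1 q.2 y ^ 2)).symm
  set S := ∑ q : (Fin n × Fin n) × Fin n, |HE h P q.1 q.2 y| with hS
  have hS0 : 0 ≤ S := Finset.sum_nonneg fun q _ => abs_nonneg _
  have hS2 : S ^ 2 ≤ N2 * H2 := by
    have h2 := sq_sum_le_card_mul_sum_sq (s := (Finset.univ : Finset ((Fin n × Fin n) × Fin n)))
      (f := fun q => |HE h P q.1 q.2 y|)
    rw [Finset.card_univ] at h2
    simp only [sq_abs] at h2
    rw [hH2p]; exact h2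
  have hle : ∀ q : (Fin n × Fin n) × Fin n, |HE h P q.1 q.2 y| ≤ S := fun q =>
    Finset.single_le_sum (f := fun q : (Fin n × Fin n) × Fin n => |HE h P q.1 q.2 y|)
      (fun q _ => abs_nonneg _) (Finset.mem_univ q)
  have hPle : ∀ a b c, |P a b c y| ≤ n * g * S := by
    intro a b c
    have h5 := H.contr (hrs hy) (a, b) c
    have h6 : P a b c y = ∑ d, h y c d * HE h P (a, b) d y := h5.symm
    have h7 : ∀ d, |h y c d * HE h P (a, b) d y| ≤ g * S := fun d => by
      rw [abs_mul]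
      exact mul_le_mul (b2 (c, d) y hy) (hle ((a, b), d)) (abs_nonneg _) hg0
    rw [h6]
    calc |∑ d, h y c d * HE h P (a, b) d y| ≤ ∑ d, |h y c d * HE h P (a, b) d y| :=
          Finset.abs_sum_le_sum_abs _ _
      _ ≤ ∑ _d : Fin n, g * S := Finset.sum_le_sum fun d _ => h7 d
      _ = n * g * S := by simp; ring
  rw [H.bE_eq (hrs hy), abs_mul]
  have e1 := Sk_le (G := (h y)⁻¹) (P := fun a b c => P a b c y) (fun i j => b1 (i, j) y hy) hPle
    hg0 (by positivity) A.1 A.2
  have e2 : |2 * Sk (h y)⁻¹ (fun a b c => P a b c y) A.1 A.2 + 2 * lam * h y A.1 A.2|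
      ≤ 2 * (n * (n * (n * (n * (g * g * (2 * (n * g * S)) * (2 * (n * g * S)))))))
        + 2 * |lam| * g := by
    refine (abs_add_le _ _).trans (add_le_add ?_ ?_)
    · rw [abs_mul, abs_two]
      exact mul_le_mul_of_nonneg_left e1 (by norm_num)
    · rw [abs_mul, abs_mul, abs_two]
      exact mul_le_mul_of_nonneg_left (b2 A y hy) (by positivity)
  refine (mul_le_mul (b3 y hy) e2 (abs_nonneg _) hg0).trans ?_
  have e3 : 2 * (n * (n * (n * (n * (g * g * (2 * (n * g * S)) * (2 * (n * g * S)))))))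
      = 2 * (n * (n * (n * (n * (g * g * (2 * (n * g)) * (2 * (n * g))))))) * S ^ 2 := by ring
  have e4 : 2 * (n * (n * (n * (n * (g * g * (2 * (n * g)) * (2 * (n * g))))))) * S ^ 2
      ≤ 2 * (n * (n * (n * (n * (g * g * (2 * (n * g)) * (2 * (n * g))))))) * (N2 * H2) :=
    mul_le_mul_of_nonneg_left hS2 (by positivity)
  have e5 : 0 ≤ 2 * |lam| * g * H2 := by positivity
  have e6 : 0 ≤ 2 * (n * (n * (n * (n * (g * g * (2 * (n * g)) * (2 * (n * g))))))) * N2 := by
    positivity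
  rw [e3]
  have e7 : 2 * (n * (n * (n * (n * (g * g * (2 * (n * g)) * (2 * (n * g))))))) * S ^ 2
      + 2 * |lam| * g
      ≤ (2 * (n * (n * (n * (n * (g * g * (2 * (n * g)) * (2 * (n * g))))))) * N2
      + 2 * |lam| * g) * (1 + H2) := by linarith
  refine (mul_le_mul_of_nonneg_left e7 hg0).trans (le_of_eq ?_)
  rw [hC]; ring

/-- the weak Einstein system is a quasilinear system in the sense of `QSys` -/
theorem EinW.qsys (H : EinW Ω α lam h P) :
    QSys Ω (OO n) α aE (bE lam) (fun A x => h x A.1 A.2) (HE h P) where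
  hα := H.hα
  hα1 := H.hα1
  openΩ := H.openΩ
  openO := OO_open
  smooth_a := smooth_aE
  smooth_b := smooth_bE lam
  hol A := H.hol _ _
  mem x hx := (H.pd x hx).det_pos
  ell := by
    refine lell_of_pos H.openΩ (fun i j => ?_) (fun x hx i j => ?_) (fun x hx z hz => ?_)
    · exact H.cJ.mul (H.c0 i j)
    · show (√(h x).det)⁻¹ * h x i j = (√(h x).det)⁻¹ * h x j i
      rw [H.sym hx]
    · have h1 := (H.pd x hx).dotProduct_mulVec_pos hz
      have h2 : star z ⬝ᵥ (h x).mulVec z = ∑ i, ∑ j, h x i j * z i * z j := by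
        simp only [dotProduct, Matrix.mulVec, Finset.mul_sum]
        refine Finset.sum_congr rfl fun i _ => Finset.sum_congr rfl fun j _ => ?_
        simp; ring
      rw [h2] at h1
      have h3 : ∑ i, ∑ j, aE i j (fun A : Fin n × Fin n => h x A.1 A.2) * z i * z j
          = (√(h x).det)⁻¹ * ∑ i, ∑ j, h x i j * z i * z j := by
        rw [Finset.mul_sum]
        refine Finset.sum_congr rfl fun i _ => ?_
        rw [Finset.mul_sum]
        refine Finset.sum_congr rfl fun j _ => ?_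
        show (√(h x).det)⁻¹ * h x i j * z i * z j = _
        ring
      rw [h3]
      exact mul_pos (inv_pos.2 (Real.sqrt_pos.2 (H.pd x hx).det_pos)) h1
  li A i := L2On.li H.openΩ (H.l2H A i)
  sq A i := L2On.sq H.openΩ (H.l2H A i)
  morrey := by
    intro x hx
    obtain ⟨r, hr, C, hC, hm⟩ := H.morrey x hx
    obtain ⟨r', hr', hrs⟩ := Metric.nhds_basis_closedBall.mem_iff.1 (H.openΩ.mem_nhds hx)
    -- bound of the inverse on the compact ball
    have hK : IsCompact (Metric.closedBall x r') := isCompact_closedBall _ _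
    choose G hG using fun p : Fin n × Fin n =>
      hK.exists_bound_of_continuousOn ((H.cinv p.1 p.2).mono hrs)
    set g := ∑ p, |G p| with hg
    have hg0 : 0 ≤ g := Finset.sum_nonneg fun p _ => abs_nonneg _
    have hGg : ∀ p : Fin n × Fin n, ∀ y ∈ Metric.closedBall x r', |(h y)⁻¹ p.1 p.2| ≤ g := fun p y hy =>
      (hG p y hy).trans ((le_abs_self _).trans (Finset.single_le_sum (f := fun p => |G p|)
        (fun p _ => abs_nonneg _) (Finset.mem_univ p)))
    refine ⟨min r (r' / 2), lt_min hr (by positivity), n * (g ^ 2 * (n * C)), by positivity,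
      fun y hy ρ hρ hρr A i => ?_⟩
    have hyr : y ∈ Metric.closedBall x r := Metric.closedBall_subset_closedBall (min_le_left _ _) hy
    have hsub : Metric.closedBall y ρ ⊆ Metric.closedBall x r' := by
      intro t ht
      rw [Metric.mem_closedBall] at ht hy ⊢
      have := dist_triangle t y x
      have := min_le_right r (r' / 2)
      linarith
    have hcb : IsCompact (Metric.closedBall y ρ) := isCompact_closedBall _ _
    have hP2 : ∀ c, IntegrableOn (fun t => P A.1 A.2 c t ^ 2) (Metric.closedBall y ρ) := fun c =>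
      (H.l2 A.1 A.2 c _ (hsub.trans hrs) hcb).integrable_sq
    have h1 : ∫ t in Metric.closedBall y ρ, HE h P A i t ^ 2
        ≤ ∫ t in Metric.closedBall y ρ, n * (g ^ 2 * ∑ c, P A.1 A.2 c t ^ 2) := by
      refine setIntegral_mono_on (H.l2H A i _ (hsub.trans hrs) hcb).integrable_sq
        (((integrable_finsetSum _ fun c _ => hP2 c).const_mul _).const_mul _)
        Metric.isClosed_closedBall.measurableSet fun t ht => ?_
      unfold HE
      have h2 := sq_sum_le_card_mul_sum_sq (s := (Finset.univ : Finset (Fin n)))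
        (f := fun c => (h t)⁻¹ i c * P A.1 A.2 c t)
      rw [Finset.card_univ, Fintype.card_fin] at h2
      refine h2.trans (mul_le_mul_of_nonneg_left ?_ (by positivity))
      rw [Finset.mul_sum]
      refine Finset.sum_le_sum fun c _ => ?_
      rw [mul_pow]
      refine mul_le_mul_of_nonneg_right ?_ (sq_nonneg _)
      rw [← sq_abs]
      exact pow_le_pow_left₀ (abs_nonneg _) (hGg (i, c) t (hsub ht)) 2
    refine h1.trans ?_
    rw [integral_const_mul, integral_const_mul, integral_finsetSum _ fun c _ => hP2 c]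
    have h3 : ∑ c, ∫ t in Metric.closedBall y ρ, P A.1 A.2 c t ^ 2
        ≤ n * (C * ρ ^ ((n : ℝ) - 2 + 2 * α)) := by
      refine (Finset.sum_le_sum (g := fun _ => C * ρ ^ ((n : ℝ) - 2 + 2 * α)) fun c _ =>
        hm y hyr ρ hρ (hρr.trans (min_le_left _ _)) _ _ _).trans (by simp)
    calc _ ≤ (n : ℝ) * (g ^ 2 * (n * (C * ρ ^ ((n : ℝ) - 2 + 2 * α)))) := by gcongr
      _ = _ := by ring
  growth x hx := H.growth' hx
  wd A i := H.wd _ _ _
  eq := by
    intro A φ hφ hs
    have hs' : ∀ j, tsupport (pderiv j φ) ⊆ Ω := fun j =>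
      (RegKer_717.tsupport_pderiv φ j).trans hs
    have i1 : ∀ i j, Integrable (fun x => (√(h x).det)⁻¹ * h x i j * HE h P A i x *
        pderiv j φ x) := fun i j =>
      (l2_mul (H.l2H A i) (H.cJ.mul (H.c0 i j))).int_test (hφ.pderiv j).continuous
        (hφ.pderiv j).cpt (hs' j)
    have h1 : ∑ i, ∑ j, ∫ x, (√(h x).det)⁻¹ * h x i j * HE h P A i x * pderiv j φ x
        = ∫ x, ∑ c, (√(h x).det)⁻¹ * P A.1 A.2 c x * pderiv c φ x := by
      have e1 : ∀ i, ∑ j, ∫ x, (√(h x).det)⁻¹ * h x i j * HE h P A i x * pderiv j φ x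
          = ∫ x, ∑ j, (√(h x).det)⁻¹ * h x i j * HE h P A i x * pderiv j φ x := fun i =>
        (integral_finsetSum _ fun j _ => i1 i j).symm
      simp only [e1]
      rw [← integral_finsetSum _ fun i _ => integrable_finsetSum _ fun j _ => i1 i j]
      refine integral_congr_ae (Eventually.of_forall fun x => ?_)
      show ∑ i, ∑ j, (√(h x).det)⁻¹ * h x i j * HE h P A i x * pderiv j φ x = _
      rw [Finset.sum_comm]
      refine Finset.sum_congr rfl fun c _ => ?_
      by_cases hx : x ∈ Ω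
      · rw [← H.contr hx A c, Finset.mul_sum, Finset.sum_mul]
        refine Finset.sum_congr rfl fun i _ => ?_
        rw [H.sym hx i c]; ring
      · simp only [test_zero (hs' c) hx, mul_zero, Finset.sum_const_zero]
    have h2 : ∫ x, bE lam A (arg (fun (A : Fin n × Fin n) x => h x A.1 A.2) (HE h P) x) * φ x
        = ∫ x, (√(h x).det)⁻¹ * (2 * Sk (h x)⁻¹ (fun a b c => P a b c x) A.1 A.2
          + 2 * lam * h x A.1 A.2) * φ x := by
      refine integral_congr_ae (Eventually.of_forall fun x => ?_)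
      by_cases hx : x ∈ Ω
      · show bE lam A _ * φ x = _
        rw [H.bE_eq hx]
      · simp only [test_zero hs hx, mul_zero]
    rw [h2]
    exact h1.trans (H.sys A.1 A.2 φ hφ hs)

/-- **Smoothness of the inverse metric.** -/
theorem EinW.riem (hn : 0 < n) (H : EinW Ω α lam h P) : IsRiemannianOn h Ω where
  isOpen := H.openΩ
  contDiffOn i j := H.qsys.smooth hn (i, j)
  posDef := H.pd


/-- **The Einstein equation.** -/
theorem EinW.ricci (hn : 0 < n) (H : EinW Ω α lam h P) :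
    ∀ x ∈ Ω, ∀ i j, ricci (fun x => (h x)⁻¹) x i j = lam * (h x)⁻¹ i j := by
  have hR := H.riem hn
  have hJs : ContDiffOn ℝ ∞ (fun x => (√(h x).det)⁻¹) Ω :=
    cd_J hR.contDiffOn fun v hv => (H.pd v hv).det_pos
  have hJh : ∀ a b, ContDiffOn ℝ ∞ (fun x => (√(h x).det)⁻¹ * h x a b) Ω := fun a b =>
    hJs.mul (hR.contDiffOn a b)
  have hdif : ∀ {f : EE n → ℝ}, ContDiffOn ℝ ∞ f Ω → ∀ x ∈ Ω, DifferentiableAt ℝ f x :=
    fun hf x hx => (hf.contDiffAt (H.openΩ.mem_nhds hx)).differentiableAt (by simp)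
  have hpc : ∀ {f : EE n → ℝ}, ContDiffOn ℝ ∞ f Ω → ∀ i, ContDiffOn ℝ ∞ (pderiv i f) Ω :=
    fun hf i => (hf.fderiv_of_isOpen H.openΩ (m := ∞) (by simp)).clm_apply contDiffOn_const
  refine ricci_of_div (h := h) (U := Ω) (J := fun x => (√(h x).det)⁻¹) (c := 1) one_ne_zero hR
    (fun y hy => ?_) ?_ ?_
  · exact inv_mul_cancel₀ (Real.sqrt_pos.2 (H.pd y hy).det_pos).ne'
  · intro y hy b
    have cS : ContinuousOn (fun x => ∑ a, pderiv a (fun z => (√(h z).det)⁻¹ * h z a b) x) Ω :=
      continuousOn_finsetSum _ fun a _ => (hpc (hJh a b) a).continuousOn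
    have h2 := H.openΩ.ae_eq_zero_of_integral_contDiff_smul_eq_zero (μ := volume)
      (f := fun x => ∑ a, pderiv a (fun z => (√(h z).det)⁻¹ * h z a b) x)
      (cS.locallyIntegrableOn H.openΩ.measurableSet) fun φ hφ1 hφ2 hφ3 => by
        have hφ : IsTest φ := ⟨hφ1, hφ2⟩
        have e1 := H.div b φ hφ hφ3
        have i1 : ∀ a, Integrable (fun x => (√(h x).det)⁻¹ * h x a b * pderiv a φ x) := fun a =>
          RegKer_717.int_mul_test H.openΩ (hJh a b).continuousOn (hφ.pderiv a)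
            ((RegKer_717.tsupport_pderiv φ a).trans hφ3)
        have i2 : ∀ a, Integrable (fun x =>
            pderiv a (fun z => (√(h z).det)⁻¹ * h z a b) x * φ x) := fun a =>
          RegKer_717.int_mul_test H.openΩ (hpc (hJh a b) a).continuousOn hφ hφ3
        rw [integral_finsetSum _ fun a _ => i1 a] at e1
        have e2 : ∀ a, ∫ x, (√(h x).det)⁻¹ * h x a b * pderiv a φ x
            = - ∫ x, pderiv a (fun z => (√(h z).det)⁻¹ * h z a b) x * φ x := fun a =>
          ibp_local H.openΩ (hdif (hJh a b)) a (hpc (hJh a b) a).continuousOn hφ hφ3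
        simp only [e2, Finset.sum_neg_distrib] at e1
        have e3 : ∀ x, φ x • (∑ a, pderiv a (fun z => (√(h z).det)⁻¹ * h z a b) x)
            = ∑ a, pderiv a (fun z => (√(h z).det)⁻¹ * h z a b) x * φ x := fun x => by
          rw [smul_eq_mul, mul_comm, Finset.sum_mul]
        simp only [e3]
        rw [integral_finsetSum _ fun a _ => i2 a]
        linarith
    have h3 : (fun x => ∑ a, pderiv a (fun z => (√(h z).det)⁻¹ * h z a b) x)
        =ᵐ[volume.restrict Ω] fun _ => 0 := by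
      rw [Filter.EventuallyEq, ae_restrict_iff' H.openΩ.measurableSet]
      exact h2
    exact Measure.eqOn_open_of_ae_eq h3 H.openΩ cS continuousOn_const hy
  · intro y hy a b
    have h1 := H.qsys.strong hn (a, b) y hy
    have h2 : bE lam (a, b) (arg (fun (A : Fin n × Fin n) x => h x A.1 A.2)
        (fun B i => pderiv i (fun x => h x B.1 B.2)) y)
        = (√(h y).det)⁻¹ * (2 * Sk (h y)⁻¹ (Ph h y) a b + 2 * lam * h y a b) := rfl
    rw [h2] at h1
    rw [← h1, Finset.sum_comm]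
    refine Finset.sum_congr rfl fun i _ => ?_
    have hq : ∀ j, DifferentiableAt ℝ (fun z => (√(h z).det)⁻¹ * h z i j *
        pderiv j (fun w => h w a b) z) y := fun j =>
      (hdif (hJh i j) y hy).mul (hdif (hpc (hR.contDiffOn a b) j) y hy)
    have e1 : (fun z => (√(h z).det)⁻¹ * ∑ j, h z i j * pderiv j (fun w => h w a b) z)
        = fun z => ∑ j, (√(h z).det)⁻¹ * h z i j * pderiv j (fun w => h w a b) z := by
      funext z
      rw [Finset.mul_sum]
      exact Finset.sum_congr rfl fun j _ => by ring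
    rw [e1, pderiv_sum _ i y fun j _ => hq j]
    refine Finset.sum_congr rfl fun j _ => ?_
    refine RegKer_717.pderiv_congr H.openΩ (fun z hz => ?_) i hy
    show (√(h z).det)⁻¹ * h z i j * pderiv j (fun w => h w a b) z
      = (√(h z).det)⁻¹ * h z j i * pderiv j (fun x => h x a b) z
    rw [H.sym hz i j]

/-- Hölder functions on an open set are locally Hölder -/
theorem LH_of_dist {Ω : Set (EE n)} (hΩ : IsOpen Ω) {α C : ℝ} {f : EE n → ℝ}
    (hf : ∀ x ∈ Ω, ∀ y ∈ Ω, |f x - f y| ≤ C * dist x y ^ α) : LH α Ω f := by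
  intro x hx
  obtain ⟨r, hr, hrs⟩ := Metric.nhds_basis_closedBall.mem_iff.1 (hΩ.mem_nhds hx)
  refine ⟨r, hr, max C 0, le_max_right _ _, hrs, fun y hy z hz => ?_⟩
  have h1 := hf y (hrs hy) z (hrs hz)
  rw [dist_eq_norm] at h1
  exact h1.trans (mul_le_mul_of_nonneg_right (le_max_left _ _)
    (Real.rpow_nonneg (norm_nonneg _) _))

end

end Crest.Agent.R249.RegEin_717
end

-- ▼ part R249/Fin3_832

/-!
# R249, D3-LIM/FIN (helper832), part 3: `regStmt : RegStmt` (from helper717's `EinW`)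
-/

set_option autoImplicit false
noncomputable section
open Set Filter Topology MeasureTheory Metric
open scoped ContDiff ENNReal NNReal Matrix
open Crest.GeometryTopology.CoordMetric
open Crest.Agent.R249.LPt_191 (N1 sS kos)
open Crest.Agent.R249.RegEin_717 Crest.Agent.R249.Ric2_672
open Crest.Agent.R249.RegKer_717 (LH WDOn)
open Crest.Agent.R247.Frd657 (L2On)
open Crest.Agent.R249.Lim41 (CS LOut)

namespace Crest.Agent.R249.Fin832

theorem sk_eq_sS {n : ℕ} (F : Matrix (Fin n) (Fin n) ℝ) (P : Fin n → Fin n → Fin n → ℝ)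
    (a b : Fin n) : Sk F⁻¹ P a b = sS F P a b := by
  unfold Sk sS
  refine Finset.sum_congr rfl fun c _ => ?_
  rw [Finset.sum_comm]
  rfl

theorem abs_entry_le {n : ℕ} {A : Matrix (Fin n) (Fin n) ℝ} (hn : N1 (A - 1) ≤ 1 / 8)
    (a b : Fin n) : |A a b| ≤ 2 := by
  have h1 := (LPt_191.abs_le_N1 (A - 1) a b).trans hn
  rw [Matrix.sub_apply] at h1
  have h2 : |(1 : Matrix (Fin n) (Fin n) ℝ) a b| ≤ 1 := by
    rw [Matrix.one_apply]
    split_ifs <;> simp
  have h3 : |A a b| ≤ |A a b - (1 : Matrix (Fin n) (Fin n) ℝ) a b| +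
      |(1 : Matrix (Fin n) (Fin n) ℝ) a b| := by
    have := abs_add_le (A a b - (1 : Matrix (Fin n) (Fin n) ℝ) a b)
      ((1 : Matrix (Fin n) (Fin n) ℝ) a b)
    rwa [sub_add_cancel] at this
  linarith

/-- the open and closed balls agree almost everywhere -/
theorem setIntegral_closedBall {n : ℕ} (f : EuclideanSpace ℝ (Fin n) → ℝ)
    (y : EuclideanSpace ℝ (Fin n)) {r : ℝ} (hr : 0 < r) :
    ∫ t in closedBall y r, f t = ∫ t in ball y r, f t := by
  refine setIntegral_congr_set ?_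
  refine (Filter.EventuallyLE.antisymm ?_ ?_)
  · rw [ae_le_set, closedBall_sdiff_ball]
    exact Measure.addHaar_sphere_of_ne_zero _ _ hr.ne'
  · exact (ball_subset_closedBall).eventuallyLE

theorem einW_of_lOut {n : ℕ} {Ω : Set (EuclideanSpace ℝ (Fin n))} {h : MetricField n}
    {H : Fin n → Fin n → Fin n → EuclideanSpace ℝ (Fin n) → ℝ} {lam C α : ℝ} (hΩ : IsOpen Ω)
    (hα : 1 / 2 < α) (hα1 : α < 1) (hs : ∀ y ∈ Ω, ∀ a b, h y a b = h y b a)
    (hn : ∀ y ∈ Ω, N1 (h y - 1) ≤ 1 / 8)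
    (hh : ∀ x ∈ Ω, ∀ y ∈ Ω, ∀ a b, |h x a b - h y a b| ≤ C * dist x y ^ α)
    (hL : LOut Ω h H lam C α) :
    EinW Ω α lam h (fun a b c y => ∑ d, h y c d * H a b d y) := by
  have hpd : ∀ x ∈ Ω, (h x).PosDef := fun x hx => posDef_of_near (hs x hx) (hn x hx)
  have hhol : ∀ a b, LH α Ω (fun x => h x a b) := fun a b =>
    LH_of_dist hΩ (fun x hx y hy => hh x hx y hy a b)
  have hcont : ∀ a b, ContinuousOn (fun x => h x a b) Ω := fun a b =>
    RegKer_717.LH.continuousOn (by linarith) (hhol a b)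
  have hCS : ∀ φ : EuclideanSpace ℝ (Fin n) → ℝ, Crest.Agent.R202.Ell.IsTest φ →
      tsupport φ ⊆ Ω → CS Ω φ := fun φ h1 h2 => ⟨h1.smooth, h1.cpt, h2⟩
  have hzero : ∀ φ : EuclideanSpace ℝ (Fin n) → ℝ, tsupport φ ⊆ Ω → ∀ x, x ∉ Ω → φ x = 0 :=
    fun φ h2 x hx => image_eq_zero_of_notMem_tsupport fun h3 => hx (h2 h3)
  have hL2 : ∀ a b c, L2On Ω (fun y => ∑ d, h y c d * H a b d y) := fun a b c =>
    l2_sum _ fun d _ => l2_mul (Crest.Agent.R247.Frd657.L2On.of_memLp (hL.mem a b d)) (hcont c d)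
  have hinv : ∀ x ∈ Ω, ∀ a b e, ∑ c, (h x)⁻¹ e c * ∑ d, h x c d * H a b d x = H a b e x := by
    intro x hx a b e
    have h1 : (h x)⁻¹ * h x = 1 := Matrix.nonsing_inv_mul _ (hpd x hx).det_pos.ne'.isUnit
    have h2 : ∀ d, ∑ c, (h x)⁻¹ e c * h x c d = if e = d then 1 else 0 := by
      intro d
      have := congrFun (congrFun h1 e) d
      rw [Matrix.mul_apply, Matrix.one_apply] at this
      exact this
    simp only [Finset.mul_sum]
    rw [Finset.sum_comm]
    have h3 : ∀ d, ∑ c, (h x)⁻¹ e c * (h x c d * H a b d x) =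
        (if e = d then 1 else 0) * H a b d x := by
      intro d
      rw [← h2 d, Finset.sum_mul]
      exact Finset.sum_congr rfl fun c _ => by ring
    simp only [h3]
    simp
  refine ⟨hα, hα1, hΩ, hhol, hpd, hL2, ?_, ?_, ?_, ?_⟩
  · -- Morrey bound
    intro x hx
    obtain ⟨r, hr, hrs⟩ := Metric.nhds_basis_closedBall.mem_iff.1 (hΩ.mem_nhds hx)
    refine ⟨r / 2, by positivity, ∑ _d : Fin n, ∑ _d : Fin n, 4 * max C 0, by positivity,
      fun y hy ρ hρ hρr a b c => ?_⟩
    have hsub : closedBall y ρ ⊆ Ω := by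
      refine Subset.trans ?_ hrs
      refine closedBall_subset_closedBall' ?_
      have := mem_closedBall.1 hy
      linarith
    have hsub' : ball y ρ ⊆ Ω := ball_subset_closedBall.trans hsub
    have hint : ∀ d, IntegrableOn (fun t => H a b d t ^ 2) (ball y ρ) := fun d =>
      ((hL.mem a b d).integrable_sq).integrableOn
    rw [setIntegral_closedBall _ _ hρ]
    have hpt : ∀ t ∈ ball y ρ, (∑ d, h t c d * H a b d t) ^ 2 ≤
        ∑ _d' : Fin n, ∑ d, 4 * H a b d t ^ 2 := by
      intro t ht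
      have hb : ∀ d, |h t c d| ≤ 2 := fun d => abs_entry_le (hn t (hsub' ht)) c d
      have h1 : (∑ d, h t c d * H a b d t) ^ 2 ≤
          (Finset.univ : Finset (Fin n)).card * ∑ d, (h t c d * H a b d t) ^ 2 :=
        sq_sum_le_card_mul_sum_sq
      refine h1.trans ?_
      rw [Finset.sum_const, nsmul_eq_mul]
      refine mul_le_mul_of_nonneg_left (Finset.sum_le_sum fun d _ => ?_) (by positivity)
      rw [mul_pow]
      have h2 : h t c d ^ 2 ≤ 4 := by
        have := hb d
        rw [← sq_abs]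
        nlinarith [abs_nonneg (h t c d)]
      nlinarith [sq_nonneg (H a b d t)]
    calc ∫ t in ball y ρ, (∑ d, h t c d * H a b d t) ^ 2
        ≤ ∫ t in ball y ρ, ∑ _d' : Fin n, ∑ d, 4 * H a b d t ^ 2 := by
          refine integral_mono_of_nonneg (Eventually.of_forall fun t => sq_nonneg _) ?_ ?_
          · exact integrable_finsetSum _ fun _ _ => integrable_finsetSum _ fun d _ =>
              (hint d).const_mul 4
          · rw [EventuallyLE, ae_restrict_iff' measurableSet_ball]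
            exact Eventually.of_forall hpt
      _ = ∑ _d' : Fin n, ∑ d, 4 * ∫ t in ball y ρ, H a b d t ^ 2 := by
          rw [integral_finsetSum _ fun _ _ => integrable_finsetSum _ fun d _ =>
              (hint d).const_mul 4]
          refine Finset.sum_congr rfl fun _ _ => ?_
          rw [integral_finsetSum _ fun d _ => (hint d).const_mul 4]
          refine Finset.sum_congr rfl fun d _ => ?_
          rw [integral_const_mul]
      _ ≤ ∑ _d' : Fin n, ∑ _d : Fin n, 4 * (max C 0 * ρ ^ ((n : ℝ) - 2 + 2 * α)) := by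
          refine Finset.sum_le_sum fun _ _ => Finset.sum_le_sum fun d _ => ?_
          refine mul_le_mul_of_nonneg_left ?_ (by norm_num)
          refine (hL.morrey y ρ hρ hsub a b d).trans ?_
          exact mul_le_mul_of_nonneg_right (le_max_left _ _) (by positivity)
      _ = (∑ _d : Fin n, ∑ _d : Fin n, 4 * max C 0) * ρ ^ ((n : ℝ) - 2 + 2 * α) := by
          simp only [Finset.sum_const, nsmul_eq_mul]
          ring
  · -- weak derivatives
    intro a b e φ hφ hφs
    have h1 := hL.wd a b e φ (hCS φ hφ hφs)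
    rw [h1]
    congr 1
    refine integral_congr_ae (Eventually.of_forall fun x => ?_)
    simp only
    by_cases hx : x ∈ Ω
    · rw [hinv x hx a b e]
      ring
    · rw [hzero φ hφs x hx]
      ring
  · -- divergence
    intro b φ hφ hφs
    rw [← hL.div b φ (hCS φ hφ hφs)]
    refine integral_congr_ae (Eventually.of_forall fun x => ?_)
    refine Finset.sum_congr rfl fun a _ => ?_
    ring
  · -- system
    intro a b φ hφ hφs
    have h1 := hL.sys a b φ (hCS φ hφ hφs)
    have e1 : ∫ x, ∑ c, (√(h x).det)⁻¹ * (∑ d, h x c d * H a b d x) * pderiv c φ x =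
        ∫ y, ∑ c, pderiv c φ y * ((√(h y).det)⁻¹ * ∑ d, h y c d * H a b d y) := by
      refine integral_congr_ae (Eventually.of_forall fun x => ?_)
      refine Finset.sum_congr rfl fun c _ => ?_
      ring
    rw [e1, h1]
    congr 1
    refine integral_congr_ae (Eventually.of_forall fun x => ?_)
    simp only
    rw [sk_eq_sS]
    ring

/-- **`RegStmt` holds.** -/
theorem regStmt : RegStmt := by
  intro Ω h H lam C α hΩ hα hα1 _ hs hn hh hL
  have hE := einW_of_lOut hΩ (by linarith) hα1 hs hn hh hL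
  refine ⟨fun a b => (hE.riem (by norm_num)).contDiffOn a b, fun x hx i j => ?_⟩
  exact hE.ricci (by norm_num) x hx i j

end Crest.Agent.R249.Fin832
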