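import Crest.Agent.R249.Lim8_41

-- ▼ part R249/Lim9_41
section
/-!
R249 / D3-LIM (helper41).  Abstract limit lemma, part 9: Riesz representation of weak limits of
`L²`-bounded functions, local bounds, Hölder continuity of smooth functions of the limit matrix.
-/

set_option autoImplicit false

open MeasureTheory Filter Topology Set
open scoped ContDiff ENNReal
open Crest.GeometryTopology.CoordMetric
open Crest.Agent.R249.LPt_191 (N1 sS kos)

noncomputable section

namespace Crest.Agent.R249.Lim41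

section RZ

variable {n : ℕ} {ι : Type*} {l : Filter ι} {X : ι → Type*} [∀ i, MeasurableSpace (X i)]
variable {Ω : Set (E n)} {m : ∀ i, Measure (X i)} {u : ∀ i, X i → E n}

theorem CC.integrable_comp {Mm : ℝ} (hB : Base Ω m u Mm) {φ : E n → ℝ} (hφ : CC Ω φ) {i : ι}
    {g : X i → ℝ} (hg : Integrable g (m i)) : Integrable (fun x => φ (u i x) * g x) (m i) := by
  obtain ⟨C', -, hC'⟩ := hφ.bdd
  exact Integrable.bdd_mul (c := C') hg (hφ.aesm hB.meas i)
    (Eventually.of_forall fun x => by simpa using hC' (u i x))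

theorem CC.memLp_comp {Mm : ℝ} (hB : Base Ω m u Mm) {φ : E n → ℝ} (hφ : CC Ω φ) (i : ι)
    (p : ℝ≥0∞) : MemLp (fun x => φ (u i x)) p (m i) := by
  have := hB.fin i
  obtain ⟨C', -, hC'⟩ := hφ.bdd
  exact MemLp.of_bound (hφ.aesm hB.meas i) C' (Eventually.of_forall fun x => by
    simpa using hC' (u i x))

/-- limits of integrals against `L²`-bounded functions -/
theorem lim_bound [l.NeBot] {Mm : ℝ} (hB : Base Ω m u Mm) {J : E n → ℝ}
    (hJ : WC l Ω m u (fun _ _ => 1) J) {CJ : ℝ} (hJC : ∀ y ∈ Ω, |J y| ≤ CJ) (hJ0 : 0 ≤ CJ)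
    (hJi : LI Ω J) {g : ∀ i, X i → ℝ} (hg : ∀ i, MemLp (g i) 2 (m i)) {B : Set (E n)}
    (hBΩ : B ⊆ Ω) (hBm : MeasurableSet B) {A : ℝ} (hA : 0 ≤ A)
    (hgA : ∀ᶠ i in l, ∫ x in (u i) ⁻¹' B, g i x ^ 2 ∂(m i) ≤ A) {φ : E n → ℝ} (hφ : CC B φ)
    {L : ℝ} (hL : Tendsto (fun i => ∫ x, φ (u i x) * g i x ∂(m i)) l (𝓝 L)) :
    |L| ≤ √(CJ * A) * √(∫ y, φ y ^ 2) := by
  have hφΩ : CC Ω φ := ⟨hφ.cont, hφ.comp, hφ.supp.trans hBΩ⟩
  have h1 := hJ _ hφΩ.sq
  have hφi : Integrable (fun y => φ y ^ 2) := by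
    have := hφΩ.sq.integrable_mul (γ := fun _ => (1 : ℝ)) (Ω := Ω) LI.one
    simpa using this
  have h2 : ∫ y, φ y ^ 2 * J y ≤ CJ * ∫ y, φ y ^ 2 := by
    rw [← integral_const_mul]
    apply integral_mono (hφΩ.sq.integrable_mul hJi) (hφi.const_mul _)
    intro y
    show φ y ^ 2 * J y ≤ CJ * φ y ^ 2
    by_cases hy : φ y = 0
    · simp [hy]
    · have := (le_abs_self _).trans (hJC y (hφΩ.mem_of_ne hy))
      nlinarith [sq_nonneg (φ y)]
  have h3 : ∀ᶠ i in l, |∫ x, φ (u i x) * g i x ∂(m i)| ≤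
      √(∫ x, φ (u i x) ^ 2 * 1 ∂(m i)) * √A := by
    filter_upwards [hgA] with i hi
    have hmB : MeasurableSet ((u i) ⁻¹' B) := hB.meas i hBm
    have e1 : ∫ x, φ (u i x) * g i x ∂(m i) =
        ∫ x, φ (u i x) * ((u i) ⁻¹' B).indicator (g i) x ∂(m i) := by
      congr 1
      ext x
      by_cases hx : u i x ∈ B
      · have : x ∈ (u i) ⁻¹' B := hx
        simp [this]
      · have : φ (u i x) = 0 := by
          by_contra h
          exact hx (hφ.mem_of_ne h)
        simp [this]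
    rw [e1]
    have hgi : MemLp (((u i) ⁻¹' B).indicator (g i)) 2 (m i) := (hg i).indicator hmB
    refine (cs (hφΩ.memLp_comp hB i 2) hgi).trans ?_
    have e2 : ∫ x, ((u i) ⁻¹' B).indicator (g i) x ^ 2 ∂(m i) =
        ∫ x in (u i) ⁻¹' B, g i x ^ 2 ∂(m i) := by
      rw [← integral_indicator hmB]
      congr 1
      ext x
      by_cases hx : x ∈ (u i) ⁻¹' B <;> simp [hx]
    rw [e2]
    simp only [mul_one]
    gcongr
  have h4 : Tendsto (fun i => √(∫ x, φ (u i x) ^ 2 * 1 ∂(m i)) * √A) l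
      (𝓝 (√(∫ y, φ y ^ 2 * J y) * √A)) :=
    ((Real.continuous_sqrt.tendsto _).comp h1).mul_const _
  have h5 : |L| ≤ √(∫ y, φ y ^ 2 * J y) * √A :=
    le_of_tendsto_of_tendsto hL.abs h4 h3
  refine h5.trans ?_
  calc √(∫ y, φ y ^ 2 * J y) * √A ≤ √(CJ * ∫ y, φ y ^ 2) * √A := by gcongr
    _ = _ := by
        rw [Real.sqrt_mul hJ0, Real.sqrt_mul hJ0]; ring

/-- **Riesz representation of weak limits** -/
theorem riesz_wc [l.NeBot] {Mm : ℝ} (hB : Base Ω m u Mm) {J : E n → ℝ}
    (hJ : WC l Ω m u (fun _ _ => 1) J) {CJ : ℝ} (hJC : ∀ y ∈ Ω, |J y| ≤ CJ) (hJ0 : 0 ≤ CJ)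
    (hJi : LI Ω J) {g : ∀ i, X i → ℝ} (hg : ∀ i, MemLp (g i) 2 (m i)) {A : ℝ} (hA : 0 ≤ A)
    (hgA : ∀ i, ∫ x, g i x ^ 2 ∂(m i) ≤ A) (Λ : (E n → ℝ) → ℝ)
    (hΛ : ∀ φ, CS Ω φ → Tendsto (fun i => ∫ x, φ (u i x) * g i x ∂(m i)) l (𝓝 (Λ φ))) :
    ∃ p : E n → ℝ, MemLp p 2 (volume : Measure (E n)) ∧ WC l Ω m u g p ∧
      ∀ φ, CS Ω φ → Λ φ = ∫ y, φ y * p y := by
  have hfin := hB.fin
  have hgi : ∀ i, Integrable (g i) (m i) := fun i => (hg i).integrable (by norm_num)
  let L : csSub Ω →ₗ[ℝ] ℝ :=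
    { toFun := fun φ => Λ (φ : E n → ℝ)
      map_add' := by
        intro a b
        have h1 := hΛ _ (CS.add a.2 b.2)
        have h2 := (hΛ _ a.2).add (hΛ _ b.2)
        refine tendsto_nhds_unique (h1.congr fun i => ?_) h2
        rw [← integral_add (a.2.cc.integrable_comp hB (hgi i)) (b.2.cc.integrable_comp hB (hgi i))]
        congr 1; ext x; ring
      map_smul' := by
        intro c a
        have h1 := hΛ _ (CS.const_mul a.2 c)
        have h2 := (hΛ _ a.2).const_mul c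
        refine tendsto_nhds_unique (h1.congr fun i => ?_) h2
        rw [← integral_const_mul]
        congr 1; ext x; ring }
  have hgA' : ∀ᶠ i in l, ∫ x in (u i) ⁻¹' Ω, g i x ^ 2 ∂(m i) ≤ A := by
    refine Eventually.of_forall fun i => (?_ : _ ≤ _).trans (hgA i)
    exact setIntegral_le_integral (hg i).integrable_sq
      (Eventually.of_forall fun x => sq_nonneg (g i x))
  obtain ⟨p, hp, -, -, hpL⟩ := exists_repr_on (B := Ω) hB.opn.measurableSet L
    (A := √(CJ * A)) (Real.sqrt_nonneg _) (fun φ =>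
      lim_bound hB hJ hJC hJ0 hJi hg subset_rfl hB.opn.measurableSet hA hgA' φ.2.cc (hΛ _ φ.2))
  have hrep : ∀ φ, CS Ω φ → Λ φ = ∫ y, φ y * p y := fun φ hφ => hpL ⟨φ, hφ⟩
  refine ⟨p, hp, ?_, hrep⟩
  have hbd : ∀ i, ∫ x, |g i x| ∂(m i) ≤ √Mm * √A := by
    intro i
    have h1 := cs (memLp_of_ae_bdd (C := 1) (f := fun _ : X i => (1 : ℝ))
      aestronglyMeasurable_const (Eventually.of_forall fun x => by simp) 2) (hg i).abs
    have h2 : 0 ≤ ∫ x, |g i x| ∂(m i) := integral_nonneg fun x => abs_nonneg _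
    simp only [one_mul, Pi.abs_apply, sq_abs, one_pow] at h1
    rw [abs_of_nonneg h2] at h1
    refine h1.trans ?_
    gcongr
    · simp only [integral_const, smul_eq_mul, mul_one]
      exact hB.mass i
    · exact hgA i
  refine wc_of_smooth hB.meas hgi hbd (LI.of_memLp hp) fun φ hφ => ?_
  rw [← hrep φ hφ]
  exact hΛ φ hφ

/-- local `L²` bound of a weak limit -/
theorem local_bound [l.NeBot] {Mm : ℝ} (hB : Base Ω m u Mm) {J : E n → ℝ}
    (hJ : WC l Ω m u (fun _ _ => 1) J) {CJ : ℝ} (hJC : ∀ y ∈ Ω, |J y| ≤ CJ) (hJ0 : 0 ≤ CJ)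
    (hJi : LI Ω J) {g : ∀ i, X i → ℝ} (hg : ∀ i, MemLp (g i) 2 (m i)) {p : E n → ℝ}
    (hp : MemLp p 2 (volume : Measure (E n))) (hW : WC l Ω m u g p) {B : Set (E n)}
    (hBΩ : B ⊆ Ω) (hBo : IsOpen B) {A : ℝ} (hA : 0 ≤ A)
    (hgA : ∀ᶠ i in l, ∫ x in (u i) ⁻¹' B, g i x ^ 2 ∂(m i) ≤ A) :
    ∫ y in B, p y ^ 2 ≤ CJ * A := by
  have hpi : ∀ φ, CC B φ → Integrable (fun y => φ y * p y) := fun φ hφ =>
    hφ.integrable_mul (LI.of_memLp hp)
  let L : csSub B →ₗ[ℝ] ℝ :=
    { toFun := fun φ => ∫ y, (φ : E n → ℝ) y * p y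
      map_add' := by
        intro a b
        rw [← integral_add (hpi _ a.2.cc) (hpi _ b.2.cc)]
        congr 1; ext x
        show ((a : E n → ℝ) x + (b : E n → ℝ) x) * p x = _
        ring
      map_smul' := by
        intro c a
        rw [RingHom.id_apply, smul_eq_mul, ← integral_const_mul]
        congr 1; ext x
        show (c * (a : E n → ℝ) x) * p x = _
        ring }
  obtain ⟨k, hk, -, hkn, hkL⟩ := exists_repr_on (B := B) hBo.measurableSet L
    (A := √(CJ * A)) (Real.sqrt_nonneg _) (fun φ =>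
      lim_bound hB hJ hJC hJ0 hJi hg hBΩ hBo.measurableSet hA hgA φ.2.cc
        (hW _ ⟨φ.2.cc.cont, φ.2.cc.comp, φ.2.cc.supp.trans hBΩ⟩))
  have hae : ∀ᵐ y, y ∈ B → p y - k y = 0 := by
    apply hBo.ae_eq_zero_of_integral_contDiff_smul_eq_zero
    · exact ((hp.sub hk).locallyIntegrable (by norm_num)).locallyIntegrableOn _
    · intro g h1 h2 h3
      have hg' : CS B g := ⟨h1, h2, h3⟩
      have e1 : ∫ y, g y * p y = ∫ y, g y * k y := hkL ⟨g, hg'⟩
      have e2 : ∫ y, g y • (p y - k y) = (∫ y, g y * p y) - ∫ y, g y * k y := by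
        rw [← integral_sub (hpi g hg'.cc) (hg'.cc.integrable_mul (LI.of_memLp hk))]
        congr 1; ext y; simp [mul_sub]
      rw [e2, e1, sub_self]
  have e1 : ∫ y in B, p y ^ 2 = ∫ y in B, k y ^ 2 := by
    apply setIntegral_congr_ae hBo.measurableSet
    filter_upwards [hae] with y hy hyB
    have := hy hyB
    have e2 : p y = k y := by linarith
    rw [e2]
  rw [e1]
  calc ∫ y in B, k y ^ 2 ≤ ∫ y, k y ^ 2 :=
        setIntegral_le_integral hk.integrable_sq (Eventually.of_forall fun y => sq_nonneg (k y))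
    _ ≤ √(CJ * A) ^ 2 := hkn
    _ = CJ * A := Real.sq_sqrt (mul_nonneg hJ0 hA)

end RZ

/-! ### smooth functions of the limit matrix -/

/-- matrices near the identity, as functions -/
def nearSet (n : ℕ) : Set (Fin n → Fin n → ℝ) := {A | N1 (Matrix.of A - 1) ≤ 1 / 8}

theorem N1_of_continuous (n : ℕ) :
    Continuous (fun A : Fin n → Fin n → ℝ => N1 (Matrix.of A - 1)) := by
  unfold N1
  refine continuous_finsetSum _ fun a _ => continuous_finsetSum _ fun b _ => ?_
  simp only [Matrix.sub_apply, Matrix.of_apply]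
  fun_prop

theorem nearSet_compact (n : ℕ) : IsCompact (nearSet n) := by
  apply Metric.isCompact_of_isClosed_isBounded
  · exact isClosed_le (N1_of_continuous n) continuous_const
  · rw [Metric.isBounded_iff_subset_closedBall (fun a b => (1 : Matrix (Fin n) (Fin n) ℝ) a b)]
    refine ⟨1 / 8, fun A hA => ?_⟩
    rw [Metric.mem_closedBall, dist_eq_norm, pi_norm_le_iff_of_nonneg (by norm_num)]
    intro a
    rw [pi_norm_le_iff_of_nonneg (by norm_num)]
    intro b
    exact (Crest.Agent.R249.LPt_191.abs_le_N1 (Matrix.of A - (1 : Matrix (Fin n) (Fin n) ℝ)) a b).trans hA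

theorem nearSet_convex (n : ℕ) : Convex ℝ (nearSet n) := by
  intro A hA B hB s t hs ht hst
  have h1 : N1 (Matrix.of (s • A + t • B) - (1 : Matrix (Fin n) (Fin n) ℝ)) ≤
      s * N1 (Matrix.of A - 1) + t * N1 (Matrix.of B - 1) := by
    unfold N1
    rw [Finset.mul_sum, Finset.mul_sum, ← Finset.sum_add_distrib]
    refine Finset.sum_le_sum fun a _ => ?_
    rw [Finset.mul_sum, Finset.mul_sum, ← Finset.sum_add_distrib]
    refine Finset.sum_le_sum fun b _ => ?_
    simp only [Matrix.sub_apply, Matrix.of_apply, Pi.add_apply, Pi.smul_apply, smul_eq_mul]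
    have e1 : s * A a b + t * B a b - (1 : Matrix (Fin n) (Fin n) ℝ) a b =
        s * (A a b - (1 : Matrix (Fin n) (Fin n) ℝ) a b) +
        t * (B a b - (1 : Matrix (Fin n) (Fin n) ℝ) a b) := by
      have : t = 1 - s := by linarith
      rw [this]; ring
    rw [e1]
    refine (abs_add_le _ _).trans (le_of_eq ?_)
    rw [abs_mul, abs_mul, abs_of_nonneg hs, abs_of_nonneg ht]
  have hA' : N1 (Matrix.of A - 1) ≤ 1 / 8 := hA
  have hB' : N1 (Matrix.of B - 1) ≤ 1 / 8 := hB
  show N1 (Matrix.of (s • A + t • B) - (1 : Matrix (Fin n) (Fin n) ℝ)) ≤ 1 / 8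
  nlinarith

/-- a `C¹` function of a Hölder matrix near the identity is Hölder. -/
theorem hold_comp {n : ℕ} {Ω : Set (E n)} {h : E n → Matrix (Fin n) (Fin n) ℝ} {C α : ℝ}
    (hC : 0 ≤ C) (hnear : ∀ y ∈ Ω, N1 (h y - 1) ≤ 1 / 8)
    (hh : ∀ x ∈ Ω, ∀ y ∈ Ω, ∀ a b, |h x a b - h y a b| ≤ C * dist x y ^ α)
    {Ψ : (Fin n → Fin n → ℝ) → ℝ} (hΨ : ∀ A ∈ nearSet n, ContDiffAt ℝ 1 Ψ A) :
    ∃ C', 0 ≤ C' ∧ ∀ x ∈ Ω, ∀ y ∈ Ω,
      |Ψ (fun a b => h x a b) - Ψ (fun a b => h y a b)| ≤ C' * dist x y ^ α := by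
  have hcont : ContinuousOn (fderiv ℝ Ψ) (nearSet n) := fun A hA =>
    ((hΨ A hA).fderiv_right (m := 0) (by norm_num)).continuousAt.continuousWithinAt
  obtain ⟨B, hB⟩ := (nearSet_compact n).exists_bound_of_continuousOn hcont
  refine ⟨max B 0 * C, by positivity, fun x hx y hy => ?_⟩
  set hx0 : Fin n → Fin n → ℝ := fun a b => h x a b with hx0d
  set hy0 : Fin n → Fin n → ℝ := fun a b => h y a b with hy0d
  have hx' : hx0 ∈ nearSet n := hnear x hx
  have hy' : hy0 ∈ nearSet n := hnear y hy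
  have h1 := (nearSet_convex n).norm_image_sub_le_of_norm_fderiv_le
    (fun A hA => (hΨ A hA).differentiableAt one_ne_zero) (C := max B 0)
    (fun A hA => (hB A hA).trans (le_max_left _ _)) hy' hx'
  rw [Real.norm_eq_abs] at h1
  have hr : 0 ≤ C * dist x y ^ α := mul_nonneg hC (Real.rpow_nonneg dist_nonneg _)
  have h2 : ‖hx0 - hy0‖ ≤ C * dist x y ^ α := by
    rw [pi_norm_le_iff_of_nonneg hr]
    intro a
    rw [pi_norm_le_iff_of_nonneg hr]
    intro b
    exact hh x hx y hy a b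
  calc |Ψ hx0 - Ψ hy0| ≤ max B 0 * ‖hx0 - hy0‖ := h1
    _ ≤ max B 0 * (C * dist x y ^ α) := by gcongr
    _ = _ := by ring

end Crest.Agent.R249.Lim41
end
end

-- ▼ part R249/LimA_41
section
/-!
R249 / D3-LIM (helper41).  Abstract limit lemma, part 10: the cut-off on matrices, smoothness of the
determinant and of the inverse, the coefficients `M = J h`, `N = h⁻¹ / J`.
-/

set_option autoImplicit false

open MeasureTheory Filter Topology Set
open scoped ContDiff ENNReal
open Crest.GeometryTopology.CoordMetric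
open Crest.Agent.R249.LPt_191 (N1 sS kos)

noncomputable section

namespace Crest.Agent.R249.Lim41

/-- matrices as functions -/
abbrev Mt (n : ℕ) := Fin n → Fin n → ℝ

/-- distance to the identity -/
def nI {n : ℕ} (A : Mt n) : ℝ := N1 (Matrix.of A - (1 : Matrix (Fin n) (Fin n) ℝ))

theorem nI_continuous (n : ℕ) : Continuous (nI (n := n)) := N1_of_continuous n

theorem nI_nonneg {n : ℕ} (A : Mt n) : 0 ≤ nI A := Crest.Agent.R249.LPt_191.N1_nonneg _

theorem det_contDiff (n : ℕ) : ContDiff ℝ ∞ (fun A : Mt n => (Matrix.of A).det) := by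
  simp_rw [Matrix.det_apply']
  refine ContDiff.sum fun σ _ => contDiff_const.mul (contDiff_prod fun i _ => ?_)
  simp only [Matrix.of_apply]
  fun_prop

theorem adj_contDiff (n : ℕ) (i j : Fin n) :
    ContDiff ℝ ∞ (fun A : Mt n => (Matrix.of A).adjugate i j) := by
  simp_rw [Matrix.adjugate_apply, Matrix.det_apply']
  refine ContDiff.sum fun σ _ => contDiff_const.mul (contDiff_prod fun k _ => ?_)
  by_cases hk : σ k = j
  · have : ∀ A : Mt n, (Matrix.of A).updateRow j (Pi.single i 1) (σ k) k =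
        (Pi.single i 1 : Fin n → ℝ) k := by
      intro A; rw [hk, Matrix.updateRow_self]
    simp_rw [this]
    exact contDiff_const
  · have : ∀ A : Mt n, (Matrix.of A).updateRow j (Pi.single i 1) (σ k) k = A (σ k) k := by
      intro A; rw [Matrix.updateRow_ne hk]; rfl
    simp_rw [this]
    fun_prop

theorem inv_eq {n : ℕ} (A : Mt n) (i j : Fin n) :
    (Matrix.of A)⁻¹ i j = ((Matrix.of A).det)⁻¹ * (Matrix.of A).adjugate i j := by
  rw [Matrix.inv_def, Matrix.smul_apply, Ring.inverse_eq_inv', smul_eq_mul]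

theorem det_ne_zero' {n : ℕ} {A : Mt n} (h : nI A < 1) : (Matrix.of A).det ≠ 0 :=
  Crest.Agent.R249.LPt_191.det_ne_zero h

theorem det_pos_of_near {n : ℕ} {A : Mt n} (h : nI A < 1) : 0 < (Matrix.of A).det := by
  set f : ℝ → ℝ := fun t => (Matrix.of (fun a b => (1 : Matrix (Fin n) (Fin n) ℝ) a b +
    t * (A a b - (1 : Matrix (Fin n) (Fin n) ℝ) a b))).det with hf
  have hc : Continuous f := by
    refine (det_contDiff n).continuous.comp ?_
    fun_prop
  have h0 : f 0 = 1 := by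
    have : (Matrix.of (fun a b => (1 : Matrix (Fin n) (Fin n) ℝ) a b +
        0 * (A a b - (1 : Matrix (Fin n) (Fin n) ℝ) a b))) = (1 : Matrix (Fin n) (Fin n) ℝ) := by
      ext a b; simp
    simp only [hf, this, Matrix.det_one]
  have h1 : f 1 = (Matrix.of A).det := by
    have : (Matrix.of (fun a b => (1 : Matrix (Fin n) (Fin n) ℝ) a b +
        1 * (A a b - (1 : Matrix (Fin n) (Fin n) ℝ) a b))) = Matrix.of A := by
      ext a b; simp
    simp only [hf, this]
  have hne : ∀ t ∈ Icc (0 : ℝ) 1, f t ≠ 0 := by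
    intro t ht
    apply det_ne_zero'
    have e1 : nI (fun a b => (1 : Matrix (Fin n) (Fin n) ℝ) a b +
        t * (A a b - (1 : Matrix (Fin n) (Fin n) ℝ) a b)) = t * nI A := by
      unfold nI N1
      rw [Finset.mul_sum]
      refine Finset.sum_congr rfl fun a _ => ?_
      rw [Finset.mul_sum]
      refine Finset.sum_congr rfl fun b _ => ?_
      simp only [Matrix.sub_apply, Matrix.of_apply, add_sub_cancel_left]
      rw [abs_mul, abs_of_nonneg ht.1]
    rw [e1]
    nlinarith [nI_nonneg A, ht.1, ht.2]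
  by_contra hneg
  push Not at hneg
  rw [← h1] at hneg
  have hivt := intermediate_value_Icc' (show (0 : ℝ) ≤ 1 by norm_num) hc.continuousOn
  have : (0 : ℝ) ∈ Icc (f 1) (f 0) := ⟨hneg, by rw [h0]; norm_num⟩
  obtain ⟨t, ht, ht0⟩ := hivt this
  exact hne t ht ht0

/-- the volume density as a function of the matrix -/
def Jf {n : ℕ} (A : Mt n) : ℝ := (√(Matrix.of A).det)⁻¹

theorem sqrt_det_contDiffAt {n : ℕ} {A : Mt n} (h : nI A < 1) :
    ContDiffAt ℝ ∞ (fun A : Mt n => √(Matrix.of A).det) A :=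
  (det_contDiff n).contDiffAt.sqrt (det_ne_zero' h)

theorem Jf_contDiffAt {n : ℕ} {A : Mt n} (h : nI A < 1) : ContDiffAt ℝ ∞ (Jf (n := n)) A :=
  (sqrt_det_contDiffAt h).inv (Real.sqrt_ne_zero'.2 (det_pos_of_near h))

theorem inv_contDiffAt {n : ℕ} {A : Mt n} (h : nI A < 1) (i j : Fin n) :
    ContDiffAt ℝ ∞ (fun A : Mt n => (Matrix.of A)⁻¹ i j) A := by
  simp_rw [inv_eq]
  exact ((det_contDiff n).contDiffAt.inv (det_ne_zero' h)).mul (adj_contDiff n i j).contDiffAt

theorem Jf_pos {n : ℕ} {A : Mt n} (h : nI A < 1) : 0 < Jf A :=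
  inv_pos.2 (Real.sqrt_pos.2 (det_pos_of_near h))

/-! ### the cut-off -/

def chi {n : ℕ} (A : Mt n) : ℝ := max 0 (min 1 (2 - 8 * nI A))

theorem chi_continuous (n : ℕ) : Continuous (chi (n := n)) := by
  unfold chi
  have := nI_continuous n
  fun_prop

theorem chi_nonneg {n : ℕ} (A : Mt n) : 0 ≤ chi A := le_max_left _ _

theorem chi_le_one {n : ℕ} (A : Mt n) : chi A ≤ 1 := max_le (by norm_num) (min_le_left _ _)

theorem chi_one {n : ℕ} {A : Mt n} (h : nI A ≤ 1 / 8) : chi A = 1 := by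
  unfold chi
  rw [min_eq_left (by linarith)]
  norm_num

theorem chi_zero {n : ℕ} {A : Mt n} (h : 1 / 4 ≤ nI A) : chi A = 0 := by
  unfold chi
  rw [max_eq_left]
  exact (min_le_right _ _).trans (by linarith)

theorem chi_mul_continuous {n : ℕ} {Ψ : Mt n → ℝ}
    (h : ∀ A : Mt n, nI A ≤ 1 / 4 → ContinuousAt Ψ A) : Continuous (fun A => chi A * Ψ A) := by
  rw [continuous_iff_continuousAt]
  intro A
  by_cases hA : nI A ≤ 1 / 4
  · exact (chi_continuous n).continuousAt.mul (h A hA)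
  · push Not at hA
    have h1 : (fun A => chi A * Ψ A) =ᶠ[𝓝 A] fun _ => (0 : ℝ) := by
      have : ∀ᶠ B in 𝓝 A, 1 / 4 < nI B :=
        (nI_continuous n).continuousAt.eventually (lt_mem_nhds hA)
      filter_upwards [this] with B hB
      rw [chi_zero hB.le, zero_mul]
    exact continuousAt_const.congr h1.symm

/-- coercivity of the inverse near the identity -/
theorem coercive {n : ℕ} {A : Mt n} (h : nI A ≤ 1 / 4) (ξ : Fin n → ℝ) :
    ∑ c, ξ c ^ 2 ≤ 2 * ∑ c, ∑ d, (Matrix.of A)⁻¹ c d * (ξ c * ξ d) := by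
  have h1 := Crest.Agent.R249.LPt_191.N1_inv_sub_one_le
    (F := Matrix.of A) (show N1 (Matrix.of A - 1) ≤ 1 / 2 from h.trans (by norm_num))
  have h2 : N1 ((Matrix.of A)⁻¹ - 1) ≤ 1 / 2 := by
    have : N1 (Matrix.of A - (1 : Matrix (Fin n) (Fin n) ℝ)) ≤ 1 / 4 := h
    linarith
  set B := (Matrix.of A)⁻¹ with hB
  set s := ∑ c, ξ c ^ 2 with hs
  have hs0 : 0 ≤ s := Finset.sum_nonneg fun c _ => sq_nonneg _
  have hc : ∀ c d, |ξ c * ξ d| ≤ s := by
    intro c d
    have h3 : ∀ c, ξ c ^ 2 ≤ s := fun c =>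
      Finset.single_le_sum (f := fun c => ξ c ^ 2) (fun c _ => sq_nonneg _) (Finset.mem_univ c)
    rw [abs_le]
    constructor <;> nlinarith [h3 c, h3 d, sq_nonneg (ξ c + ξ d), sq_nonneg (ξ c - ξ d)]
  have h4 : ∑ c, ∑ d, (B - 1) c d * (ξ c * ξ d) = (∑ c, ∑ d, B c d * (ξ c * ξ d)) - s := by
    have : ∀ c, ∑ d, (B - 1) c d * (ξ c * ξ d) = (∑ d, B c d * (ξ c * ξ d)) - ξ c ^ 2 := by
      intro c
      simp_rw [Matrix.sub_apply, sub_mul]
      rw [Finset.sum_sub_distrib]
      congr 1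
      simp [Matrix.one_apply, pow_two]
    simp_rw [this]
    rw [Finset.sum_sub_distrib]
  have h5 : |∑ c, ∑ d, (B - 1) c d * (ξ c * ξ d)| ≤ N1 (B - 1) * s := by
    unfold N1
    rw [Finset.sum_mul]
    refine (Finset.abs_sum_le_sum_abs _ _).trans (Finset.sum_le_sum fun c _ => ?_)
    rw [Finset.sum_mul]
    refine (Finset.abs_sum_le_sum_abs _ _).trans (Finset.sum_le_sum fun d _ => ?_)
    rw [abs_mul]
    exact mul_le_mul_of_nonneg_left (hc c d) (abs_nonneg _)
  have h6 : N1 (B - 1) * s ≤ 1 / 2 * s := mul_le_mul_of_nonneg_right h2 hs0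
  have h7 := (abs_le.1 (h5.trans h6)).1
  rw [h4] at h7
  linarith

theorem inv_le_two {n : ℕ} {A : Mt n} (h : nI A ≤ 1 / 4) (c d : Fin n) :
    |(Matrix.of A)⁻¹ c d| ≤ 2 :=
  Crest.Agent.R249.LPt_191.abs_inv_le_two
    (F := Matrix.of A) (show N1 (Matrix.of A - 1) ≤ 1 / 2 from h.trans (by norm_num)) c d

end Crest.Agent.R249.Lim41
end
end

-- ▼ part R249/LimC_41
section
/-!
R249 / D3-LIM (helper41).  Abstract limit lemma, part 11: first consequences of `LData`: weak limits of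
`P`, `G`, `D`; weak derivatives of `h`.
-/

set_option autoImplicit false

open MeasureTheory Filter Topology Set
open scoped ContDiff ENNReal
open Crest.GeometryTopology.CoordMetric
open Crest.Agent.R249.LPt_191 (N1 sS kos)

noncomputable section

namespace Crest.Agent.R249.Lim41

/-- the matrix as a function -/
def fm {n : ℕ} (A : Matrix (Fin n) (Fin n) ℝ) : Mt n := fun a b => A a b


section main

variable {n : ℕ} {ι : Type*} {l : Filter ι} {X : ι → Type*} [∀ i, MeasurableSpace (X i)]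
  {Ω : Set (E n)} {m : ∀ i, Measure (X i)} {u : ∀ i, X i → E n}
  {h : E n → Matrix (Fin n) (Fin n) ℝ} {F : ∀ i, X i → Matrix (Fin n) (Fin n) ℝ}
  {P : ∀ i, X i → Fin n → Fin n → Fin n → ℝ} {D G R : ∀ i, X i → Fin n → Fin n → ℝ}
  {lam Mm C α : ℝ}

namespace LData

section noNeBot

variable (hd : LData l Ω m u h F P D G R lam Mm C α)
include hd

theorem nIh {y : E n} (hy : y ∈ Ω) : nI (fm (h y)) ≤ 1 / 8 := hd.h_near y hy

theorem nIh1 {y : E n} (hy : y ∈ Ω) : nI (fm (h y)) < 1 := lt_of_le_of_lt (hd.nIh hy) (by norm_num)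

theorem nIh4 {y : E n} (hy : y ∈ Ω) : nI (fm (h y)) ≤ 1 / 4 := (hd.nIh hy).trans (by norm_num)

theorem α_pos : 0 < α := lt_trans (by norm_num) hd.α_gt

theorem h_cont (a b : Fin n) : ContinuousOn (fun y => h y a b) Ω :=
  hold_cont hd.α_pos fun x hx y hy => hd.h_hold x hx y hy a b

theorem fm_cont : ContinuousOn (fun y => fm (h y)) Ω := by
  rw [continuousOn_pi]
  intro a
  rw [continuousOn_pi]
  intro b
  exact hd.h_cont a b

theorem comp_cont {Ψ : Mt n → ℝ} (hΨ : ∀ A : Mt n, nI A ≤ 1 / 8 → ContinuousAt Ψ A) :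
    ContinuousOn (fun y => Ψ (fm (h y))) Ω := fun y hy =>
  ContinuousAt.comp_continuousWithinAt (f := fun y => fm (h y)) (hΨ _ (hd.nIh hy))
    (hd.fm_cont y hy)

theorem comp_bdd {Ψ : Mt n → ℝ} (hΨ : ∀ A : Mt n, nI A ≤ 1 / 8 → ContinuousAt Ψ A) :
    ∃ B, 0 ≤ B ∧ ∀ y ∈ Ω, |Ψ (fm (h y))| ≤ B := by
  obtain ⟨B, hB⟩ := (nearSet_compact n).exists_bound_of_continuousOn
    (f := Ψ) (fun A hA => (hΨ A hA).continuousWithinAt)
  exact ⟨max B 0, le_max_right _ _, fun y hy => (hB _ (hd.nIh hy)).trans (le_max_left _ _)⟩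

/-- the vector valued strong convergence -/
theorem sc_fm : SC l Ω m u (fun i x => fm (F i x)) (fun y => fm (h y)) := by
  intro φ hφ
  have hfin := hd.base.fin
  have h1 : Tendsto (fun i => ∑ a, ∑ b, ∫ x, ‖φ (u i x) • (F i x a b - h (u i x) a b)‖ ∂(m i)) l
      (𝓝 (∑ _a : Fin n, ∑ _b : Fin n, (0 : ℝ))) :=
    tendsto_finsetSum _ fun a _ => tendsto_finsetSum _ fun b _ => hd.sc_F a b φ hφ
  simp only [Finset.sum_const_zero] at h1
  refine squeeze_zero (fun i => integral_nonneg fun x => norm_nonneg _) (fun i => ?_) h1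
  have hint : ∀ a b, Integrable (fun x => ‖φ (u i x) • (F i x a b - h (u i x) a b)‖) (m i) := by
    intro a b
    have := integrable_diff (F := fun i x => F i x a b) (f := fun y => h y a b) (m := m)
      hd.base.opn hd.base.meas hφ (fun i => Integrable.of_bound (C := C) (hd.F_meas i a b)
        (by filter_upwards [hd.F_bdd i] with x hx; exact hx a b)) (hd.h_cont a b) i
    exact this.norm
  have e1 : ∑ a, ∑ b, ∫ x, ‖φ (u i x) • (F i x a b - h (u i x) a b)‖ ∂(m i) =
      ∫ x, ∑ a, ∑ b, ‖φ (u i x) • (F i x a b - h (u i x) a b)‖ ∂(m i) := by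
    rw [integral_finsetSum _ fun a _ => integrable_finsetSum _ fun b _ => hint a b]
    refine Finset.sum_congr rfl fun a _ => ?_
    rw [integral_finsetSum _ fun b _ => hint a b]
  rw [e1]
  apply integral_mono_of_nonneg (Eventually.of_forall fun x => norm_nonneg _)
    (integrable_finsetSum _ fun a _ => integrable_finsetSum _ fun b _ => hint a b)
  refine Eventually.of_forall fun x => ?_
  have hnn : 0 ≤ ∑ a, ∑ b, ‖φ (u i x) • (F i x a b - h (u i x) a b)‖ :=
    Finset.sum_nonneg fun a _ => Finset.sum_nonneg fun b _ => norm_nonneg _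
  show ‖φ (u i x) • (fm (F i x) - fm (h (u i x)))‖ ≤ _
  rw [pi_norm_le_iff_of_nonneg hnn]
  intro a
  rw [pi_norm_le_iff_of_nonneg hnn]
  intro b
  have e2 : ‖(φ (u i x) • (fm (F i x) - fm (h (u i x)))) a b‖ =
      ‖φ (u i x) • (F i x a b - h (u i x) a b)‖ := rfl
  rw [e2]
  refine le_trans ?_ (Finset.single_le_sum
    (f := fun a => ∑ b, ‖φ (u i x) • (F i x a b - h (u i x) a b)‖)
    (fun a _ => Finset.sum_nonneg fun b _ => norm_nonneg _) (Finset.mem_univ a))
  exact Finset.single_le_sum (f := fun b => ‖φ (u i x) • (F i x a b - h (u i x) a b)‖)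
    (fun b _ => norm_nonneg _) (Finset.mem_univ b)

theorem fm_meas (i : ι) : AEStronglyMeasurable (fun x => fm (F i x)) (m i) := by
  have h1 : AEMeasurable (fun x => fm (F i x)) (m i) := by
    refine aemeasurable_pi_lambda _ fun a => aemeasurable_pi_lambda _ fun b => ?_
    exact (hd.F_meas i a b).aemeasurable
  exact h1.aestronglyMeasurable

theorem fm_bdd (i : ι) : ∀ᵐ x ∂(m i), ‖fm (F i x)‖ ≤ C + 2 := by
  filter_upwards [hd.F_bdd i] with x hx
  have hC := hd.C_nonneg
  rw [pi_norm_le_iff_of_nonneg (by positivity)]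
  intro a
  rw [pi_norm_le_iff_of_nonneg (by positivity)]
  intro b
  have := hx a b
  show |F i x a b| ≤ C + 2
  linarith

theorem fmh_bdd {y : E n} (hy : y ∈ Ω) : ‖fm (h y)‖ ≤ C + 2 := by
  have hC := hd.C_nonneg
  rw [pi_norm_le_iff_of_nonneg (by positivity)]
  intro a
  rw [pi_norm_le_iff_of_nonneg (by positivity)]
  intro b
  have h1 : |h y a b - (1 : Matrix (Fin n) (Fin n) ℝ) a b| ≤ 1 / 8 :=
    (Crest.Agent.R249.LPt_191.abs_le_N1 (h y - 1) a b).trans (hd.h_near y hy)
  have h2 : |(1 : Matrix (Fin n) (Fin n) ℝ) a b| ≤ 1 := by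
    rw [Matrix.one_apply]; split_ifs <;> simp
  have h3 : |h y a b| ≤ |h y a b - (1 : Matrix (Fin n) (Fin n) ℝ) a b| +
      |(1 : Matrix (Fin n) (Fin n) ℝ) a b| := by
    have := abs_add_le (h y a b - (1 : Matrix (Fin n) (Fin n) ℝ) a b)
      ((1 : Matrix (Fin n) (Fin n) ℝ) a b)
    rwa [sub_add_cancel] at this
  show |h y a b| ≤ C + 2
  linarith

theorem bddΨ {Ψ : Mt n → ℝ} (hΨ : Continuous Ψ) : ∃ B, 0 ≤ B ∧
    (∀ i, ∀ᵐ x ∂(m i), |Ψ (fm (F i x))| ≤ B) ∧ ∀ y ∈ Ω, |Ψ (fm (h y))| ≤ B := by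
  obtain ⟨B, hB⟩ := (isCompact_closedBall (0 : Mt n) (C + 2)).exists_bound_of_continuousOn
    hΨ.continuousOn
  refine ⟨max B 0, le_max_right _ _, fun i => ?_, fun y hy => ?_⟩
  · filter_upwards [hd.fm_bdd i] with x hx
    exact (hB _ (by simpa using hx)).trans (le_max_left _ _)
  · exact (hB _ (by simpa using hd.fmh_bdd hy)).trans (le_max_left _ _)

theorem measΨ {Ψ : Mt n → ℝ} (hΨ : Continuous Ψ) (i : ι) :
    AEStronglyMeasurable (fun x => Ψ (fm (F i x))) (m i) :=
  hΨ.comp_aestronglyMeasurable (hd.fm_meas i)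

theorem contΨ {Ψ : Mt n → ℝ} (hΨ : Continuous Ψ) : ContinuousOn (fun y => Ψ (fm (h y))) Ω :=
  hΨ.comp_continuousOn hd.fm_cont

end noNeBot

variable [l.NeBot] (hd : LData l Ω m u h F P D G R lam Mm C α)
include hd

theorem scΨ {Ψ : Mt n → ℝ} (hΨ : Continuous Ψ) :
    SC l Ω m u (fun i x => Ψ (fm (F i x))) (fun y => Ψ (fm (h y))) := by
  have := hd.base.fin
  exact SC.comp hd.base.mass hd.base.opn hd.base.meas hd.fm_meas hd.fm_bdd hd.fm_cont
    (fun y hy => hd.fmh_bdd hy) hd.sc_fm hΨ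

theorem wc_mul {Ψ : Mt n → ℝ} (hΨ : Continuous Ψ) {g : ∀ i, X i → ℝ} {γ : E n → ℝ}
    (hg : ∀ i, MemLp (g i) 2 (m i)) {Cg : ℝ} (hgC : ∀ i, ∫ x, g i x ^ 2 ∂(m i) ≤ Cg)
    (hW : WC l Ω m u g γ) :
    WC l Ω m u (fun i x => Ψ (fm (F i x)) * g i x) (fun y => Ψ (fm (h y)) * γ y) := by
  obtain ⟨B, -, hB1, hB2⟩ := hd.bddΨ hΨ
  exact SC.mul_wc hd.base (fun i => hd.measΨ hΨ i) hB1 (hd.contΨ hΨ) hB2 (hd.scΨ hΨ) hg hgC hW

/-- the density -/
theorem wcΨ {Ψ : Mt n → ℝ} (hΨ : Continuous Ψ) :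
    WC l Ω m u (fun i x => Ψ (fm (F i x))) (fun y => Ψ (fm (h y)) * Jf (fm (h y))) := by
  have hfin := hd.base.fin
  have h1 := hd.wc_mul hΨ (g := fun _ _ => 1) (γ := fun y => Jf (fm (h y)))
    (fun i => memLp_of_ae_bdd (C := 1) aestronglyMeasurable_const
      (Eventually.of_forall fun x => by simp) 2) (Cg := Mm) (fun i => by
        simpa using hd.base.mass i) hd.wc_one
  exact h1.congr (fun i => Eventually.of_forall fun x => by simp) (fun y _ => rfl)

end LData

end main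

end Crest.Agent.R249.Lim41
end
end

-- ▼ part R249/LimD_41
section
/-!
R249 / D3-LIM (helper41).  Abstract limit lemma, part 12: weak limits of `P`, `G`, `D`; weak
derivatives of `h`.
-/

set_option autoImplicit false

open MeasureTheory Filter Topology Set
open scoped ContDiff ENNReal
open Crest.GeometryTopology.CoordMetric
open Crest.Agent.R249.LPt_191 (N1 sS kos)

noncomputable section

namespace Crest.Agent.R249.Lim41

section main

variable {n : ℕ} {ι : Type*} {l : Filter ι} {X : ι → Type*} [∀ i, MeasurableSpace (X i)]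
  {Ω : Set (E n)} {m : ∀ i, Measure (X i)} {u : ∀ i, X i → E n}
  {h : E n → Matrix (Fin n) (Fin n) ℝ} {F : ∀ i, X i → Matrix (Fin n) (Fin n) ℝ}
  {P : ∀ i, X i → Fin n → Fin n → Fin n → ℝ} {D G R : ∀ i, X i → Fin n → Fin n → ℝ}
  {lam Mm C α : ℝ}

theorem continuousAt_Jf {n : ℕ} {A : Mt n} (hA : nI A ≤ 1 / 8) : ContinuousAt (Jf (n := n)) A :=
  (Jf_contDiffAt (lt_of_le_of_lt hA (by norm_num))).continuousAt

theorem continuousAt_sqrt_det {n : ℕ} (A : Mt n) :
    ContinuousAt (fun A : Mt n => √(Matrix.of A).det) A :=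
  (Real.continuous_sqrt.comp (det_contDiff n).continuous).continuousAt

theorem continuous_entry {n : ℕ} (a b : Fin n) : Continuous (fun A : Mt n => A a b) := by fun_prop

theorem contDiff_entry {n : ℕ} (a b : Fin n) : ContDiff ℝ ∞ (fun A : Mt n => A a b) := by fun_prop

namespace LData

section noNeBot

variable (hd : LData l Ω m u h F P D G R lam Mm C α)
include hd

theorem J_pos {y : E n} (hy : y ∈ Ω) : 0 < Jf (fm (h y)) := Jf_pos (hd.nIh1 hy)

theorem J_cont : ContinuousOn (fun y => Jf (fm (h y))) Ω := hd.comp_cont fun _ hA => continuousAt_Jf hA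

theorem J_bdd : ∃ B, 0 ≤ B ∧ ∀ y ∈ Ω, |Jf (fm (h y))| ≤ B :=
  hd.comp_bdd fun _ hA => continuousAt_Jf hA

theorem Ji_cont : ContinuousOn (fun y => (Jf (fm (h y)))⁻¹) Ω :=
  hd.J_cont.inv₀ fun _ hy => (hd.J_pos hy).ne'

theorem Ji_bdd : ∃ B, 0 ≤ B ∧ ∀ y ∈ Ω, |(Jf (fm (h y)))⁻¹| ≤ B := by
  have : ∀ y, (Jf (fm (h y)))⁻¹ = (fun A : Mt n => √(Matrix.of A).det) (fm (h y)) := fun y => by
    simp only [Jf, inv_inv]
  simp_rw [this]
  exact hd.comp_bdd fun A _ => continuousAt_sqrt_det A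

/-- the coefficient `M = J h` -/
theorem M_hold : ∃ B, 0 ≤ B ∧ ∀ d c, ∀ x ∈ Ω, ∀ y ∈ Ω,
    |Jf (fm (h x)) * h x d c - Jf (fm (h y)) * h y d c| ≤ B * dist x y ^ α := by
  have h1 : ∀ d c, ∃ B, 0 ≤ B ∧ ∀ x ∈ Ω, ∀ y ∈ Ω,
      |Jf (fm (h x)) * h x d c - Jf (fm (h y)) * h y d c| ≤ B * dist x y ^ α := fun d c =>
    hold_comp hd.C_nonneg hd.h_near hd.h_hold (Ψ := fun A => Jf A * A d c) fun A hA =>
      ((Jf_contDiffAt (lt_of_le_of_lt hA (by norm_num))).of_le (by simp)).mul
        ((contDiff_entry d c).contDiffAt.of_le (by simp))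
  choose B hB0 hB using h1
  refine ⟨∑ d, ∑ c, B d c, Finset.sum_nonneg fun d _ => Finset.sum_nonneg fun c _ => hB0 d c,
    fun d c x hx y hy => (hB d c x hx y hy).trans ?_⟩
  refine mul_le_mul_of_nonneg_right ?_ (Real.rpow_nonneg dist_nonneg _)
  refine le_trans ?_ (Finset.single_le_sum (f := fun d => ∑ c, B d c)
    (fun d _ => Finset.sum_nonneg fun c _ => hB0 d c) (Finset.mem_univ d))
  exact Finset.single_le_sum (f := fun c => B d c) (fun c _ => hB0 d c) (Finset.mem_univ c)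

/-- the coefficient `N = h⁻¹ / J` -/
theorem N_hold : ∃ B, 0 ≤ B ∧ ∀ d c, ∀ x ∈ Ω, ∀ y ∈ Ω,
    |(Jf (fm (h x)))⁻¹ * (h x)⁻¹ d c - (Jf (fm (h y)))⁻¹ * (h y)⁻¹ d c| ≤ B * dist x y ^ α := by
  have h1 : ∀ d c, ∃ B, 0 ≤ B ∧ ∀ x ∈ Ω, ∀ y ∈ Ω,
      |(Jf (fm (h x)))⁻¹ * (h x)⁻¹ d c - (Jf (fm (h y)))⁻¹ * (h y)⁻¹ d c| ≤ B * dist x y ^ α :=
    fun d c =>
    hold_comp hd.C_nonneg hd.h_near hd.h_hold
      (Ψ := fun A => (Jf A)⁻¹ * (Matrix.of A)⁻¹ d c) fun A hA => by
      have hA1 : nI A < 1 := lt_of_le_of_lt hA (by norm_num)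
      exact (((Jf_contDiffAt hA1).inv (Jf_pos hA1).ne').of_le (by simp)).mul
        ((inv_contDiffAt hA1 d c).of_le (by simp))
  choose B hB0 hB using h1
  refine ⟨∑ d, ∑ c, B d c, Finset.sum_nonneg fun d _ => Finset.sum_nonneg fun c _ => hB0 d c,
    fun d c x hx y hy => (hB d c x hx y hy).trans ?_⟩
  refine mul_le_mul_of_nonneg_right ?_ (Real.rpow_nonneg dist_nonneg _)
  refine le_trans ?_ (Finset.single_le_sum (f := fun d => ∑ c, B d c)
    (fun d _ => Finset.sum_nonneg fun c _ => hB0 d c) (Finset.mem_univ d))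
  exact Finset.single_le_sum (f := fun c => B d c) (fun c _ => hB0 d c) (Finset.mem_univ c)

theorem det_unit {y : E n} (hy : y ∈ Ω) : IsUnit (h y).det :=
  isUnit_iff_ne_zero.2 (det_pos_of_near (hd.nIh1 hy)).ne'

theorem hinv_mul {y : E n} (hy : y ∈ Ω) (a b : Fin n) :
    ∑ c, (h y)⁻¹ a c * h y c b = if a = b then 1 else 0 := by
  have h1 := Matrix.nonsing_inv_mul (h y) (hd.det_unit hy)
  have h2 := congrFun (congrFun h1 a) b
  rw [Matrix.mul_apply, Matrix.one_apply] at h2
  exact h2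

theorem h_mul_inv {y : E n} (hy : y ∈ Ω) (a b : Fin n) :
    ∑ c, h y a c * (h y)⁻¹ c b = if a = b then 1 else 0 := by
  have h1 := Matrix.mul_nonsing_inv (h y) (hd.det_unit hy)
  have h2 := congrFun (congrFun h1 a) b
  rw [Matrix.mul_apply, Matrix.one_apply] at h2
  exact h2

theorem MN {y : E n} (hy : y ∈ Ω) (d e : Fin n) :
    ∑ c, (Jf (fm (h y)) * h y d c) * ((Jf (fm (h y)))⁻¹ * (h y)⁻¹ c e) =
      if d = e then 1 else 0 := by
  rw [← hd.h_mul_inv hy d e]
  refine Finset.sum_congr rfl fun c _ => ?_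
  have := (hd.J_pos hy).ne'
  field_simp

theorem h_inv_cont (a b : Fin n) : ContinuousOn (fun y => (h y)⁻¹ a b) Ω :=
  hd.comp_cont (Ψ := fun A => (Matrix.of A)⁻¹ a b) fun _ hA =>
    (inv_contDiffAt (lt_of_le_of_lt hA (by norm_num)) a b).continuousAt

end noNeBot

variable [l.NeBot] (hd : LData l Ω m u h F P D G R lam Mm C α)
include hd

/-- the divergence equation in the limit -/
theorem div_lim (c : Fin n) {φ : E n → ℝ} (hφ : CS Ω φ) :
    ∫ y, ∑ d, pderiv d φ y * (Jf (fm (h y)) * h y d c) = 0 := by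
  have hfin := hd.base.fin
  have h1 : Tendsto (fun i => ∑ d, ∫ x, pderiv d φ (u i x) * F i x d c ∂(m i)) l
      (𝓝 (∑ d, ∫ y, pderiv d φ y * (h y d c * Jf (fm (h y))))) :=
    tendsto_finsetSum _ fun d _ => hd.wcΨ (continuous_entry d c) _ (hφ.pderiv d).cc
  have hFi : ∀ i d, Integrable (fun x => F i x d c) (m i) := fun i d =>
    Integrable.of_bound (C := C) (hd.F_meas i d c)
      (by filter_upwards [hd.F_bdd i] with x hx; exact hx d c)
  have h2 : ∀ i, ∑ d, ∫ x, pderiv d φ (u i x) * F i x d c ∂(m i) =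
      ∫ x, ∑ d, pderiv d φ (u i x) * F i x d c ∂(m i) := fun i =>
    (integral_finsetSum _ fun d _ => (hφ.pderiv d).cc.integrable_comp hd.base (hFi i d)).symm
  simp_rw [h2] at h1
  have h3 := tendsto_nhds_unique (h1.congr' (hd.H4 c φ hφ)) tendsto_const_nhds
  rw [← h3, ← integral_finsetSum]
  · congr 1
    ext y
    refine Finset.sum_congr rfl fun d _ => ?_
    ring
  · intro d _
    exact (hφ.pderiv d).cc.integrable_mul
      (LI.of_cont ((hd.h_cont d c).mul hd.J_cont))

/-- the weak limit of `P` -/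
theorem exists_p (a b c : Fin n) : ∃ p : E n → ℝ, MemLp p 2 (volume : Measure (E n)) ∧
    WC l Ω m u (fun i x => P i x a b c) p ∧ ∀ φ, CS Ω φ →
      ∫ y, φ y * p y = - ∫ y, h y a b * ∑ d, pderiv d φ y * (Jf (fm (h y)) * h y d c) := by
  have hfin := hd.base.fin
  obtain ⟨CJ, hCJ0, hCJ⟩ := hd.J_bdd
  obtain ⟨p, hp, hW, hr⟩ := riesz_wc hd.base hd.wc_one hCJ hCJ0 (LI.of_cont hd.J_cont)
    (g := fun i x => P i x a b c) (fun i => hd.P_mem i a b c) hd.C_nonneg
    (fun i => hd.P_bdd i a b c)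
    (fun φ => - ∫ y, h y a b * ∑ d, pderiv d φ y * (Jf (fm (h y)) * h y d c)) (by
      intro φ hφ
      have h1 : Tendsto (fun i => ∑ d, ∫ x, pderiv d φ (u i x) * (F i x a b * F i x d c) ∂(m i)) l
          (𝓝 (∑ d, ∫ y, pderiv d φ y * ((h y a b * h y d c) * Jf (fm (h y))))) :=
        tendsto_finsetSum _ fun d _ =>
          hd.wcΨ ((continuous_entry a b).mul (continuous_entry d c)) _ (hφ.pderiv d).cc
      have hFi : ∀ i d, Integrable (fun x => F i x a b * F i x d c) (m i) := fun i d =>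
        Integrable.of_bound (C := C * C) ((hd.F_meas i a b).mul (hd.F_meas i d c))
          (by
            filter_upwards [hd.F_bdd i] with x hx
            rw [norm_mul]
            exact mul_le_mul (hx a b) (hx d c) (norm_nonneg _) hd.C_nonneg)
      have h2 : ∀ i, ∑ d, ∫ x, pderiv d φ (u i x) * (F i x a b * F i x d c) ∂(m i) =
          ∫ x, F i x a b * ∑ d, pderiv d φ (u i x) * F i x d c ∂(m i) := by
        intro i
        rw [← integral_finsetSum _ fun d _ =>
          (hφ.pderiv d).cc.integrable_comp hd.base (hFi i d)]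
        congr 1
        ext x
        rw [Finset.mul_sum]
        refine Finset.sum_congr rfl fun d _ => ?_
        ring
      have h3 : ∑ d, ∫ y, pderiv d φ y * ((h y a b * h y d c) * Jf (fm (h y))) =
          ∫ y, h y a b * ∑ d, pderiv d φ y * (Jf (fm (h y)) * h y d c) := by
        rw [← integral_finsetSum]
        · congr 1
          ext x
          rw [Finset.mul_sum]
          refine Finset.sum_congr rfl fun d _ => ?_
          ring
        · intro d _
          exact (hφ.pderiv d).cc.integrable_mul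
            (LI.of_cont (((hd.h_cont a b).mul (hd.h_cont d c)).mul hd.J_cont))
      simp_rw [h2] at h1
      rw [h3] at h1
      refine h1.neg.congr' ?_
      filter_upwards [hd.H5 a b c φ hφ] with i hi
      exact hi.symm)
  exact ⟨p, hp, hW, fun φ hφ => (hr φ hφ).symm⟩

/-- the weak limit of `P`, chosen -/
def p (a b c : Fin n) : E n → ℝ := (hd.exists_p a b c).choose

theorem p_mem (a b c : Fin n) : MemLp (hd.p a b c) 2 (volume : Measure (E n)) :=
  (hd.exists_p a b c).choose_spec.1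

theorem p_wc (a b c : Fin n) : WC l Ω m u (fun i x => P i x a b c) (hd.p a b c) :=
  (hd.exists_p a b c).choose_spec.2.1

theorem p_eq (a b c : Fin n) {φ : E n → ℝ} (hφ : CS Ω φ) :
    ∫ y, φ y * hd.p a b c y =
      - ∫ y, h y a b * ∑ d, pderiv d φ y * (Jf (fm (h y)) * h y d c) :=
  (hd.exists_p a b c).choose_spec.2.2 φ hφ

/-- the weak derivative of `h a b` in direction `e` -/
def H (a b e : Fin n) : E n → ℝ := fun y =>
  ∑ c, ((Jf (fm (h y)))⁻¹ * (h y)⁻¹ c e) * hd.p a b c y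

theorem p_of_H (a b c : Fin n) {y : E n} (hy : y ∈ Ω) :
    hd.p a b c y = Jf (fm (h y)) * ∑ e, h y e c * hd.H a b e y := by
  have hJ := (hd.J_pos hy).ne'
  have h1 : ∑ e, h y e c * hd.H a b e y = (Jf (fm (h y)))⁻¹ *
      ∑ c', (∑ e, (h y)⁻¹ c' e * h y e c) * hd.p a b c' y := by
    unfold H
    simp_rw [Finset.mul_sum, Finset.sum_mul]
    rw [Finset.sum_comm]
    simp_rw [Finset.mul_sum]
    refine Finset.sum_congr rfl fun c' _ => Finset.sum_congr rfl fun e _ => ?_
    ring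
  rw [h1]
  simp_rw [hd.hinv_mul hy]
  simp only [ite_mul, one_mul, zero_mul, Finset.sum_ite_eq', Finset.mem_univ, if_true]
  rw [← mul_assoc, mul_inv_cancel₀ hJ, one_mul]

theorem H_l2l (a b e : Fin n) : L2l Ω (hd.H a b e) := by
  refine L2l.sum _ fun c _ => ?_
  exact L2l.mul_cont hd.base.opn (hd.Ji_cont.mul (hd.h_inv_cont c e)) (L2l.of_memLp (hd.p_mem a b c))

/-- `H` is the weak derivative of `h` -/
theorem H_wd (a b e : Fin n) {ζ : E n → ℝ} (hζ : CS Ω ζ) :
    ∫ y, h y a b * pderiv e ζ y = - ∫ y, ζ y * hd.H a b e y := by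
  obtain ⟨B1, hB10, hB1⟩ := hd.M_hold
  obtain ⟨B2, hB20, hB2⟩ := hd.N_hold
  have key := weak_deriv (M := fun d c y => Jf (fm (h y)) * h y d c)
    (N := fun d c y => (Jf (fm (h y)))⁻¹ * (h y)⁻¹ d c) (C := max B1 B2) (α := α)
    (p := fun c => hd.p a b c) (f := fun y => h y a b)
    hd.base.opn hd.α_gt (le_max_of_le_left hB10)
    (fun d c x hx y hy => (hB1 d c x hx y hy).trans
      (mul_le_mul_of_nonneg_right (le_max_left _ _) (Real.rpow_nonneg dist_nonneg _)))
    (fun d c x hx y hy => (hB2 d c x hx y hy).trans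
      (mul_le_mul_of_nonneg_right (le_max_right _ _) (Real.rpow_nonneg dist_nonneg _)))
    (fun y hy d e => hd.MN hy d e) (fun c φ hφ => hd.div_lim c hφ) (hd.h_cont a b)
    (fun c => LI.of_memLp (hd.p_mem a b c)) (fun c φ hφ => hd.p_eq a b c hφ) e hζ
  exact key

/-- the weak limit of `G` -/
theorem exists_g (a b : Fin n) : ∃ g : E n → ℝ, MemLp g 2 (volume : Measure (E n)) ∧
    WC l Ω m u (fun i x => G i x a b) g ∧ ∀ φ, CS Ω φ →
      ∑ c, ∫ y, pderiv c φ y * hd.p a b c y = - ∫ y, φ y * g y := by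
  have hfin := hd.base.fin
  obtain ⟨CJ, hCJ0, hCJ⟩ := hd.J_bdd
  obtain ⟨g, hg, hW, hr⟩ := riesz_wc hd.base hd.wc_one hCJ hCJ0 (LI.of_cont hd.J_cont)
    (g := fun i x => G i x a b) (fun i => hd.G_mem i a b) hd.C_nonneg
    (fun i => hd.G_bdd i a b)
    (fun φ => - ∑ c, ∫ y, pderiv c φ y * hd.p a b c y) (by
      intro φ hφ
      have h1 : Tendsto (fun i => ∑ c, ∫ x, pderiv c φ (u i x) * P i x a b c ∂(m i)) l
          (𝓝 (∑ c, ∫ y, pderiv c φ y * hd.p a b c y)) :=
        tendsto_finsetSum _ fun c _ => hd.p_wc a b c _ (hφ.pderiv c).cc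
      refine h1.neg.congr' ?_
      filter_upwards [hd.H6 a b φ hφ] with i hi
      rw [← integral_finsetSum _ fun c _ => (hφ.pderiv c).cc.integrable_comp hd.base
        ((hd.P_mem i a b c).integrable (by norm_num)), hi, neg_neg])
  refine ⟨g, hg, hW, fun φ hφ => ?_⟩
  rw [← hr φ hφ, neg_neg]

def g (a b : Fin n) : E n → ℝ := (hd.exists_g a b).choose

theorem g_mem (a b : Fin n) : MemLp (hd.g a b) 2 (volume : Measure (E n)) :=
  (hd.exists_g a b).choose_spec.1

theorem g_wc (a b : Fin n) : WC l Ω m u (fun i x => G i x a b) (hd.g a b) :=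
  (hd.exists_g a b).choose_spec.2.1

theorem g_eq (a b : Fin n) {φ : E n → ℝ} (hφ : CS Ω φ) :
    ∑ c, ∫ y, pderiv c φ y * hd.p a b c y = - ∫ y, φ y * hd.g a b y :=
  (hd.exists_g a b).choose_spec.2.2 φ hφ

end LData

end main

end Crest.Agent.R249.Lim41
end
end

-- ▼ part R249/LimE_41
section
/-!
R249 / D3-LIM (helper41).  Abstract limit lemma, part 13: the limit of the energy density and the
strong convergence of `P`.
-/

set_option autoImplicit false

open MeasureTheory Filter Topology Set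
open scoped ContDiff ENNReal
open Crest.GeometryTopology.CoordMetric
open Crest.Agent.R249.LPt_191 (N1 sS kos)

noncomputable section

namespace Crest.Agent.R249.Lim41

theorem L2l.mul_li {n : ℕ} {Ω : Set (E n)} (hΩ : IsOpen Ω) {f g : E n → ℝ} (hf : L2l Ω f)
    (hg : L2l Ω g) : LI Ω (fun y => f y * g y) := by
  intro K hK hKΩ
  obtain ⟨θ, hθ, -, hθ1, -⟩ := exists_cs hK hΩ hKΩ
  have h1 : Integrable (fun y => (θ y * f y) * (θ y * g y)) :=
    (hf θ hθ.cc).integrable_mul (hg θ hθ.cc)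
  refine h1.integrableOn.congr_fun (fun y hy => ?_) hK.measurableSet
  simp [hθ1 y hy]

theorem exists_q {n : ℕ} {p : E n → ℝ} (hp : MemLp p 2 (volume : Measure (E n))) {δ : ℝ}
    (hδ : 0 < δ) : ∃ q : E n → ℝ, Continuous q ∧ HasCompactSupport q ∧
      ∫ y, (p y - q y) ^ 2 ≤ δ := by
  have h2 : ENNReal.ofReal (2 : ℝ) = 2 := by norm_num
  obtain ⟨q, hqc, hq, hq1, -⟩ := MemLp.exists_hasCompactSupport_integral_rpow_sub_le
    (p := (2 : ℝ)) (by norm_num) (f := p) (by rw [h2]; exact hp) hδ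
  refine ⟨q, hq1, hqc, le_trans (le_of_eq ?_) hq⟩
  congr 1
  ext y
  rw [Real.norm_eq_abs]
  norm_num

section main

variable {n : ℕ} {ι : Type*} {l : Filter ι} {X : ι → Type*} [∀ i, MeasurableSpace (X i)]
  {Ω : Set (E n)} {m : ∀ i, Measure (X i)} {u : ∀ i, X i → E n}
  {h : E n → Matrix (Fin n) (Fin n) ℝ} {F : ∀ i, X i → Matrix (Fin n) (Fin n) ℝ}
  {P : ∀ i, X i → Fin n → Fin n → Fin n → ℝ} {D G R : ∀ i, X i → Fin n → Fin n → ℝ}
  {lam Mm C α : ℝ}

/-- the cut-off inverse -/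
def ih {n : ℕ} (c d : Fin n) (A : Mt n) : ℝ := chi A * (Matrix.of A)⁻¹ c d

theorem ih_continuous {n : ℕ} (c d : Fin n) : Continuous (ih c d) :=
  chi_mul_continuous fun _ hA => (inv_contDiffAt (lt_of_le_of_lt hA (by norm_num)) c d).continuousAt

namespace LData

section noNeBot

variable (hd : LData l Ω m u h F P D G R lam Mm C α)
include hd

theorem ih_h {y : E n} (hy : y ∈ Ω) (c d : Fin n) : ih c d (fm (h y)) = (h y)⁻¹ c d := by
  unfold ih
  rw [chi_one (hd.nIh hy), one_mul]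
  rfl

end noNeBot

variable [l.NeBot] (hd : LData l Ω m u h F P D G R lam Mm C α)
include hd

/-- the limit of the energy density -/
def De (a b : Fin n) : E n → ℝ := fun y => ∑ c, hd.H a b c y * hd.p a b c y

theorem De_li (a b : Fin n) : LI Ω (hd.De a b) :=
  LI.sum _ fun c _ => L2l.mul_li hd.base.opn (hd.H_l2l a b c) (L2l.of_memLp (hd.p_mem a b c))

theorem De_eq (a b : Fin n) (y : E n) : hd.De a b y =
    ∑ c, ∑ d, ((Jf (fm (h y)))⁻¹ * (h y)⁻¹ c d) * (hd.p a b c y * hd.p a b d y) := by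
  unfold De H
  simp_rw [Finset.sum_mul]
  rw [Finset.sum_comm]
  refine Finset.sum_congr rfl fun c _ => Finset.sum_congr rfl fun d _ => ?_
  ring

theorem D_wc (a b : Fin n) : WC l Ω m u (fun i x => D i x a b) (hd.De a b) := by
  have hfin := hd.base.fin
  refine wc_of_smooth hd.base.meas (fun i => hd.D_int i a b) (fun i => hd.D_bdd i a b)
    (hd.De_li a b) fun φ hφ => ?_
  have hPi : ∀ i c, Integrable (fun x => P i x a b c) (m i) := fun i c =>
    (hd.P_mem i a b c).integrable (by norm_num)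
  have hFb : ∀ i, ∀ᵐ x ∂(m i), ‖F i x a b‖ ≤ C := fun i => by
    filter_upwards [hd.F_bdd i] with x hx; exact hx a b
  have h1 := hd.wc_mul (continuous_entry a b) (fun i => hd.G_mem i a b)
    (fun i => hd.G_bdd i a b) (hd.g_wc a b) φ hφ.cc
  have h2 : Tendsto (fun i => ∑ c, ∫ x, pderiv c φ (u i x) * (F i x a b * P i x a b c) ∂(m i)) l
      (𝓝 (∑ c, ∫ y, pderiv c φ y * (h y a b * hd.p a b c y))) :=
    tendsto_finsetSum _ fun c _ => hd.wc_mul (continuous_entry a b) (fun i => hd.P_mem i a b c)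
      (fun i => hd.P_bdd i a b c) (hd.p_wc a b c) _ (hφ.pderiv c).cc
  have h3 : ∀ i, ∑ c, ∫ x, pderiv c φ (u i x) * (F i x a b * P i x a b c) ∂(m i) =
      ∫ x, F i x a b * ∑ c, pderiv c φ (u i x) * P i x a b c ∂(m i) := by
    intro i
    rw [← integral_finsetSum _ fun c _ => (hφ.pderiv c).cc.integrable_comp hd.base
      ((hPi i c).bdd_mul (c := C) (hd.F_meas i a b) (hFb i))]
    congr 1
    ext x
    rw [Finset.mul_sum]
    refine Finset.sum_congr rfl fun c _ => ?_
    ring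
  simp_rw [h3] at h2
  have h4 := (h1.neg).sub h2
  have hHp : ∀ c, Integrable (fun y => φ y * hd.H a b c y * hd.p a b c y) := fun c =>
    (hd.H_l2l a b c φ hφ.cc).integrable_mul (hd.p_mem a b c)
  have hhp : ∀ c, Integrable (fun y => pderiv c φ y * (h y a b * hd.p a b c y)) := fun c =>
    (hφ.pderiv c).cc.integrable_mul (LI.mul_cont (hd.h_cont a b) (LI.of_memLp (hd.p_mem a b c)))
  have hen := energy hd.base.opn (hd.h_cont a b) (fun c => hd.H_l2l a b c)
    (fun c => L2l.of_memLp (hd.p_mem a b c)) (L2l.of_memLp (hd.g_mem a b))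
    (fun c ζ hζ => hd.H_wd a b c hζ) (fun ζ hζ => hd.g_eq a b hζ) hφ
  have e1 : ∀ c, ∫ y, (pderiv c φ y * h y a b + φ y * hd.H a b c y) * hd.p a b c y =
      (∫ y, pderiv c φ y * (h y a b * hd.p a b c y)) +
      ∫ y, φ y * hd.H a b c y * hd.p a b c y := by
    intro c
    rw [← integral_add (hhp c) (hHp c)]
    congr 1
    ext y
    ring
  simp_rw [e1] at hen
  rw [Finset.sum_add_distrib] at hen
  have e2 : ∫ y, φ y * hd.De a b y = ∑ c, ∫ y, φ y * hd.H a b c y * hd.p a b c y := by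
    rw [← integral_finsetSum _ fun c _ => hHp c]
    congr 1
    ext y
    unfold De
    rw [Finset.mul_sum]
    refine Finset.sum_congr rfl fun c _ => ?_
    ring
  have e3 : ∫ y, φ y * h y a b * hd.g a b y = ∫ y, φ y * (fm (h y) a b * hd.g a b y) := by
    congr 1; ext y; unfold fm; ring
  have e4 : ∫ y, φ y * hd.De a b y = -(∫ y, φ y * (fm (h y) a b * hd.g a b y)) -
      ∑ c, ∫ y, pderiv c φ y * (h y a b * hd.p a b c y) := by
    rw [e2, ← e3]
    linarith
  rw [e4]
  refine h4.congr' ?_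
  filter_upwards [hd.H7 a b φ hφ] with i hi
  exact hi.symm

/-- **strong convergence** for one pair `a b` -/
theorem strong_aux (a b : Fin n) {φ : E n → ℝ} (hφ : CC Ω φ) (hφ0 : ∀ y, 0 ≤ φ y) :
    ∃ K : ℝ, 0 ≤ K ∧ ∀ q : Fin n → E n → ℝ, (∀ c, Continuous (q c)) →
      (∀ c, HasCompactSupport (q c)) → ∀ η : ℝ, 0 < η →
      (∀ c, ∫ y, (hd.p a b c y - q c y) ^ 2 ≤ η) →
      ∀ᶠ i in l, ∫ x, φ (u i x) * (chi (fm (F i x)) *
        ∑ c, (P i x a b c - (Jf (fm (h (u i x))))⁻¹ * q c (u i x)) ^ 2) ∂(m i) ≤ K * η := by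
  have hfin := hd.base.fin
  obtain ⟨Cφ, hCφ0, hCφ⟩ := hφ.bdd
  obtain ⟨BJ, hBJ0, hBJ⟩ := hd.Ji_bdd
  refine ⟨4 * Cφ * BJ * (n : ℝ) ^ 2 + 1, by positivity, fun q hq hqc η hη hqη => ?_⟩
  -- the test functions
  set Q : Fin n → E n → ℝ := fun c y => (Jf (fm (h y)))⁻¹ * q c y with hQ
  have hQc : ∀ c, ContinuousOn (Q c) Ω := fun c => hd.Ji_cont.mul (hq c).continuousOn
  have hφQ : ∀ c, CC Ω (fun y => φ y * Q c y) := fun c => hφ.mul_cont hd.base.opn (hQc c)
  have hφQQ : ∀ c d, CC Ω (fun y => φ y * (Q c y * Q d y)) := fun c d =>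
    hφ.mul_cont hd.base.opn ((hQc c).mul (hQc d))
  have hPi : ∀ i c, Integrable (fun x => P i x a b c) (m i) := fun i c =>
    (hd.P_mem i a b c).integrable (by norm_num)
  have hihb : ∀ c d, ∃ B, 0 ≤ B ∧ ∀ i, ∀ᵐ x ∂(m i), |ih c d (fm (F i x))| ≤ B := fun c d => by
    obtain ⟨B, hB0, hB1, -⟩ := hd.bddΨ (ih_continuous c d)
    exact ⟨B, hB0, hB1⟩
  have hihP : ∀ i c d e, Integrable (fun x => ih c d (fm (F i x)) * P i x a b e) (m i) := by
    intro i c d e
    obtain ⟨B, -, hB⟩ := hihb c d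
    exact (hPi i e).bdd_mul (c := B) (hd.measΨ (ih_continuous c d) i) (hB i)
  have hihi : ∀ i c d, Integrable (fun x => ih c d (fm (F i x))) (m i) := by
    intro i c d
    obtain ⟨B, -, hB⟩ := hihb c d
    exact Integrable.of_bound (C := B) (hd.measΨ (ih_continuous c d) i) (hB i)
  -- limits
  have t0 := hd.D_wc a b φ hφ
  have t1 : ∀ c d, Tendsto (fun i => ∫ x, (φ (u i x) * Q c (u i x)) *
      (ih c d (fm (F i x)) * P i x a b d) ∂(m i)) l
      (𝓝 (∫ y, (φ y * Q c y) * (ih c d (fm (h y)) * hd.p a b d y))) := fun c d =>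
    hd.wc_mul (ih_continuous c d) (fun i => hd.P_mem i a b d) (fun i => hd.P_bdd i a b d)
      (hd.p_wc a b d) _ (hφQ c)
  have t2 : ∀ c d, Tendsto (fun i => ∫ x, (φ (u i x) * Q d (u i x)) *
      (ih c d (fm (F i x)) * P i x a b c) ∂(m i)) l
      (𝓝 (∫ y, (φ y * Q d y) * (ih c d (fm (h y)) * hd.p a b c y))) := fun c d =>
    hd.wc_mul (ih_continuous c d) (fun i => hd.P_mem i a b c) (fun i => hd.P_bdd i a b c)
      (hd.p_wc a b c) _ (hφQ d)
  have t3 : ∀ c d, Tendsto (fun i => ∫ x, (φ (u i x) * (Q c (u i x) * Q d (u i x))) *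
      ih c d (fm (F i x)) ∂(m i)) l
      (𝓝 (∫ y, (φ y * (Q c y * Q d y)) * (ih c d (fm (h y)) * Jf (fm (h y))))) := fun c d =>
    hd.wcΨ (ih_continuous c d) _ (hφQQ c d)
  have T : Tendsto (fun i => 2 * ((∫ x, φ (u i x) * D i x a b ∂(m i)) -
      (∑ c, ∑ d, ∫ x, (φ (u i x) * Q c (u i x)) * (ih c d (fm (F i x)) * P i x a b d) ∂(m i)) -
      (∑ c, ∑ d, ∫ x, (φ (u i x) * Q d (u i x)) * (ih c d (fm (F i x)) * P i x a b c) ∂(m i)) +
      ∑ c, ∑ d, ∫ x, (φ (u i x) * (Q c (u i x) * Q d (u i x))) * ih c d (fm (F i x)) ∂(m i))) l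
      (𝓝 (2 * ((∫ y, φ y * hd.De a b y) -
      (∑ c, ∑ d, ∫ y, (φ y * Q c y) * (ih c d (fm (h y)) * hd.p a b d y)) -
      (∑ c, ∑ d, ∫ y, (φ y * Q d y) * (ih c d (fm (h y)) * hd.p a b c y)) +
      ∑ c, ∑ d, ∫ y, (φ y * (Q c y * Q d y)) * (ih c d (fm (h y)) * Jf (fm (h y)))))) := by
    refine (((t0.sub (tendsto_finsetSum _ fun c _ => tendsto_finsetSum _ fun d _ => t1 c d)).sub
      (tendsto_finsetSum _ fun c _ => tendsto_finsetSum _ fun d _ => t2 c d)).add
      (tendsto_finsetSum _ fun c _ => tendsto_finsetSum _ fun d _ => t3 c d)).const_mul 2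
  -- the limit value
  set Bl := 2 * ((∫ y, φ y * hd.De a b y) -
      (∑ c, ∑ d, ∫ y, (φ y * Q c y) * (ih c d (fm (h y)) * hd.p a b d y)) -
      (∑ c, ∑ d, ∫ y, (φ y * Q d y) * (ih c d (fm (h y)) * hd.p a b c y)) +
      ∑ c, ∑ d, ∫ y, (φ y * (Q c y * Q d y)) * (ih c d (fm (h y)) * Jf (fm (h y)))) with hBl
  have hBle : Bl ≤ 4 * Cφ * BJ * (n : ℝ) ^ 2 * η := by
    have j0 : Integrable (fun y => φ y * hd.De a b y) := hφ.integrable_mul (hd.De_li a b)
    have j1 : ∀ c d, Integrable (fun y => (φ y * Q c y) * (ih c d (fm (h y)) * hd.p a b d y)) :=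
      fun c d => (hφQ c).integrable_mul
        (LI.mul_cont (hd.contΨ (ih_continuous c d)) (LI.of_memLp (hd.p_mem a b d)))
    have j2 : ∀ c d, Integrable (fun y => (φ y * Q d y) * (ih c d (fm (h y)) * hd.p a b c y)) :=
      fun c d => (hφQ d).integrable_mul
        (LI.mul_cont (hd.contΨ (ih_continuous c d)) (LI.of_memLp (hd.p_mem a b c)))
    have j3 : ∀ c d, Integrable (fun y => (φ y * (Q c y * Q d y)) *
        (ih c d (fm (h y)) * Jf (fm (h y)))) := fun c d =>
      (hφQQ c d).integrable_mul (LI.of_cont ((hd.contΨ (ih_continuous c d)).mul hd.J_cont))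
    have hqm : ∀ c, MemLp (q c) 2 (volume : Measure (E n)) := fun c =>
      (hq c).memLp_of_hasCompactSupport (hqc c)
    have hsq : ∀ c, Integrable (fun y => (hd.p a b c y - q c y) ^ 2) := fun c =>
      ((hd.p_mem a b c).sub (hqm c)).integrable_sq
    have e1 : Bl = 2 * ∫ y, (φ y * hd.De a b y -
        (∑ c, ∑ d, (φ y * Q c y) * (ih c d (fm (h y)) * hd.p a b d y)) -
        (∑ c, ∑ d, (φ y * Q d y) * (ih c d (fm (h y)) * hd.p a b c y)) +
        ∑ c, ∑ d, (φ y * (Q c y * Q d y)) * (ih c d (fm (h y)) * Jf (fm (h y)))) := by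
      rw [hBl]
      congr 1
      have s1 : Integrable (fun y => ∑ c, ∑ d, (φ y * Q c y) *
          (ih c d (fm (h y)) * hd.p a b d y)) :=
        integrable_finsetSum _ fun c _ => integrable_finsetSum _ fun d _ => j1 c d
      have s2 : Integrable (fun y => ∑ c, ∑ d, (φ y * Q d y) *
          (ih c d (fm (h y)) * hd.p a b c y)) :=
        integrable_finsetSum _ fun c _ => integrable_finsetSum _ fun d _ => j2 c d
      have s3 : Integrable (fun y => ∑ c, ∑ d, (φ y * (Q c y * Q d y)) *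
          (ih c d (fm (h y)) * Jf (fm (h y)))) :=
        integrable_finsetSum _ fun c _ => integrable_finsetSum _ fun d _ => j3 c d
      rw [integral_add (f := fun y => φ y * hd.De a b y -
        (∑ c, ∑ d, (φ y * Q c y) * (ih c d (fm (h y)) * hd.p a b d y)) -
        (∑ c, ∑ d, (φ y * Q d y) * (ih c d (fm (h y)) * hd.p a b c y))) ((j0.sub s1).sub s2) s3,
        integral_sub (f := fun y => φ y * hd.De a b y -
        (∑ c, ∑ d, (φ y * Q c y) * (ih c d (fm (h y)) * hd.p a b d y))) (j0.sub s1) s2,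
        integral_sub j0 s1,
        integral_finsetSum _ fun c _ => integrable_finsetSum _ fun d _ => j1 c d,
        integral_finsetSum _ fun c _ => integrable_finsetSum _ fun d _ => j2 c d,
        integral_finsetSum _ fun c _ => integrable_finsetSum _ fun d _ => j3 c d]
      congr 1
      · congr 1
        · congr 1
          exact Finset.sum_congr rfl fun c _ => (integral_finsetSum _ fun d _ => j1 c d).symm
        · exact Finset.sum_congr rfl fun c _ => (integral_finsetSum _ fun d _ => j2 c d).symm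
      · exact Finset.sum_congr rfl fun c _ => (integral_finsetSum _ fun d _ => j3 c d).symm
    have e2 : ∀ y, φ y * hd.De a b y -
        (∑ c, ∑ d, (φ y * Q c y) * (ih c d (fm (h y)) * hd.p a b d y)) -
        (∑ c, ∑ d, (φ y * Q d y) * (ih c d (fm (h y)) * hd.p a b c y)) +
        (∑ c, ∑ d, (φ y * (Q c y * Q d y)) * (ih c d (fm (h y)) * Jf (fm (h y)))) ≤
        ∑ c, ∑ d, Cφ * BJ * ((hd.p a b c y - q c y) ^ 2 + (hd.p a b d y - q d y) ^ 2) := by
      intro y
      by_cases hz : φ y = 0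
      · simp only [hz, zero_mul, Finset.sum_const_zero, sub_zero, add_zero]
        exact Finset.sum_nonneg fun c _ => Finset.sum_nonneg fun d _ => by positivity
      · have hy : y ∈ Ω := hφ.mem_of_ne hz
        have hJ := hd.J_pos hy
        rw [hd.De_eq a b y]
        rw [Finset.mul_sum, ← Finset.sum_sub_distrib, ← Finset.sum_sub_distrib,
          ← Finset.sum_add_distrib]
        refine Finset.sum_le_sum fun c _ => ?_
        rw [Finset.mul_sum, ← Finset.sum_sub_distrib, ← Finset.sum_sub_distrib,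
          ← Finset.sum_add_distrib]
        refine Finset.sum_le_sum fun d _ => ?_
        rw [hd.ih_h hy]
        have e3 : φ y * (((Jf (fm (h y)))⁻¹ * (h y)⁻¹ c d) * (hd.p a b c y * hd.p a b d y)) -
            (φ y * Q c y) * ((h y)⁻¹ c d * hd.p a b d y) -
            (φ y * Q d y) * ((h y)⁻¹ c d * hd.p a b c y) +
            (φ y * (Q c y * Q d y)) * ((h y)⁻¹ c d * Jf (fm (h y))) =
            φ y * (Jf (fm (h y)))⁻¹ * ((h y)⁻¹ c d *
              ((hd.p a b c y - q c y) * (hd.p a b d y - q d y))) := by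
          simp only [hQ]
          field_simp
          ring
        rw [e3]
        have b1 : |φ y * (Jf (fm (h y)))⁻¹| ≤ Cφ * BJ := by
          rw [abs_mul]
          exact mul_le_mul (hCφ y) (hBJ y hy) (abs_nonneg _) hCφ0
        have b2 : |(h y)⁻¹ c d * ((hd.p a b c y - q c y) * (hd.p a b d y - q d y))| ≤
            (hd.p a b c y - q c y) ^ 2 + (hd.p a b d y - q d y) ^ 2 := by
          rw [abs_mul]
          have b3 : |(h y)⁻¹ c d| ≤ 2 := inv_le_two (A := fm (h y)) (hd.nIh4 hy) c d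
          have b4 : |(hd.p a b c y - q c y) * (hd.p a b d y - q d y)| ≤
              ((hd.p a b c y - q c y) ^ 2 + (hd.p a b d y - q d y) ^ 2) / 2 := by
            rw [abs_le]
            constructor <;> nlinarith [sq_nonneg ((hd.p a b c y - q c y) +
              (hd.p a b d y - q d y)), sq_nonneg ((hd.p a b c y - q c y) -
              (hd.p a b d y - q d y))]
          calc |(h y)⁻¹ c d| * |(hd.p a b c y - q c y) * (hd.p a b d y - q d y)|
              ≤ 2 * (((hd.p a b c y - q c y) ^ 2 + (hd.p a b d y - q d y) ^ 2) / 2) :=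
                mul_le_mul b3 b4 (abs_nonneg _) (by norm_num)
            _ = _ := by ring
        calc φ y * (Jf (fm (h y)))⁻¹ * ((h y)⁻¹ c d *
              ((hd.p a b c y - q c y) * (hd.p a b d y - q d y)))
            ≤ |φ y * (Jf (fm (h y)))⁻¹ * ((h y)⁻¹ c d *
              ((hd.p a b c y - q c y) * (hd.p a b d y - q d y)))| := le_abs_self _
          _ ≤ _ := by
              rw [abs_mul]
              exact mul_le_mul b1 b2 (abs_nonneg _) (by positivity)
    have s4 : Integrable (fun y => ∑ c, ∑ d, Cφ * BJ *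
        ((hd.p a b c y - q c y) ^ 2 + (hd.p a b d y - q d y) ^ 2)) :=
      integrable_finsetSum _ fun c _ => integrable_finsetSum _ fun d _ =>
        ((hsq c).add (hsq d)).const_mul _
    have s5 : Integrable (fun y => φ y * hd.De a b y -
        (∑ c, ∑ d, (φ y * Q c y) * (ih c d (fm (h y)) * hd.p a b d y)) -
        (∑ c, ∑ d, (φ y * Q d y) * (ih c d (fm (h y)) * hd.p a b c y)) +
        ∑ c, ∑ d, (φ y * (Q c y * Q d y)) * (ih c d (fm (h y)) * Jf (fm (h y)))) :=
      ((j0.sub (integrable_finsetSum _ fun c _ => integrable_finsetSum _ fun d _ => j1 c d)).sub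
        (integrable_finsetSum _ fun c _ => integrable_finsetSum _ fun d _ => j2 c d)).add
        (integrable_finsetSum _ fun c _ => integrable_finsetSum _ fun d _ => j3 c d)
    rw [e1]
    have e5 := integral_mono s5 s4 e2
    have e6 : ∫ y, ∑ c, ∑ d, Cφ * BJ *
        ((hd.p a b c y - q c y) ^ 2 + (hd.p a b d y - q d y) ^ 2) ≤
        ∑ _c : Fin n, ∑ _d : Fin n, Cφ * BJ * (η + η) := by
      have hs2 : ∀ c d, Integrable (fun y => Cφ * BJ *
          ((hd.p a b c y - q c y) ^ 2 + (hd.p a b d y - q d y) ^ 2)) := fun c d =>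
        ((hsq c).add (hsq d)).const_mul _
      rw [integral_finsetSum _ fun c _ => integrable_finsetSum _ fun d _ => hs2 c d]
      refine Finset.sum_le_sum fun c _ => ?_
      rw [integral_finsetSum _ fun d _ => hs2 c d]
      refine Finset.sum_le_sum fun d _ => ?_
      rw [integral_const_mul, integral_add (hsq c) (hsq d)]
      exact mul_le_mul_of_nonneg_left (add_le_add (hqη c) (hqη d)) (by positivity)
    have e7 : ∑ _c : Fin n, ∑ _d : Fin n, Cφ * BJ * (η + η) =
        2 * Cφ * BJ * (n : ℝ) ^ 2 * η := by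
      simp only [Finset.sum_const, Finset.card_univ, Fintype.card_fin, nsmul_eq_mul]
      ring
    linarith
  have hlt : ∀ᶠ i in l, 2 * ((∫ x, φ (u i x) * D i x a b ∂(m i)) -
      (∑ c, ∑ d, ∫ x, (φ (u i x) * Q c (u i x)) * (ih c d (fm (F i x)) * P i x a b d) ∂(m i)) -
      (∑ c, ∑ d, ∫ x, (φ (u i x) * Q d (u i x)) * (ih c d (fm (F i x)) * P i x a b c) ∂(m i)) +
      ∑ c, ∑ d, ∫ x, (φ (u i x) * (Q c (u i x) * Q d (u i x))) * ih c d (fm (F i x)) ∂(m i)) <
      (4 * Cφ * BJ * (n : ℝ) ^ 2 + 1) * η := by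
    refine T.eventually (gt_mem_nhds ?_)
    have : (4 * Cφ * BJ * (n : ℝ) ^ 2 + 1) * η = 4 * Cφ * BJ * (n : ℝ) ^ 2 * η + η := by ring
    rw [this]
    linarith
  filter_upwards [hlt] with i hi
  refine le_trans ?_ hi.le
  -- pointwise inequality
  have k0 : Integrable (fun x => φ (u i x) * D i x a b) (m i) :=
    hφ.integrable_comp hd.base (hd.D_int i a b)
  have k1 : ∀ c d, Integrable (fun x => (φ (u i x) * Q c (u i x)) *
      (ih c d (fm (F i x)) * P i x a b d)) (m i) := fun c d =>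
    (hφQ c).integrable_comp hd.base (hihP i c d d)
  have k2 : ∀ c d, Integrable (fun x => (φ (u i x) * Q d (u i x)) *
      (ih c d (fm (F i x)) * P i x a b c)) (m i) := fun c d =>
    (hφQ d).integrable_comp hd.base (hihP i c d c)
  have k3 : ∀ c d, Integrable (fun x => (φ (u i x) * (Q c (u i x) * Q d (u i x))) *
      ih c d (fm (F i x))) (m i) := fun c d => (hφQQ c d).integrable_comp hd.base (hihi i c d)
  have s1 : Integrable (fun x => ∑ c, ∑ d, (φ (u i x) * Q c (u i x)) *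
      (ih c d (fm (F i x)) * P i x a b d)) (m i) :=
    integrable_finsetSum _ fun c _ => integrable_finsetSum _ fun d _ => k1 c d
  have s2 : Integrable (fun x => ∑ c, ∑ d, (φ (u i x) * Q d (u i x)) *
      (ih c d (fm (F i x)) * P i x a b c)) (m i) :=
    integrable_finsetSum _ fun c _ => integrable_finsetSum _ fun d _ => k2 c d
  have s3 : Integrable (fun x => ∑ c, ∑ d, (φ (u i x) * (Q c (u i x) * Q d (u i x))) *
      ih c d (fm (F i x))) (m i) :=
    integrable_finsetSum _ fun c _ => integrable_finsetSum _ fun d _ => k3 c d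
  have e1 : 2 * ((∫ x, φ (u i x) * D i x a b ∂(m i)) -
      (∑ c, ∑ d, ∫ x, (φ (u i x) * Q c (u i x)) * (ih c d (fm (F i x)) * P i x a b d) ∂(m i)) -
      (∑ c, ∑ d, ∫ x, (φ (u i x) * Q d (u i x)) * (ih c d (fm (F i x)) * P i x a b c) ∂(m i)) +
      ∑ c, ∑ d, ∫ x, (φ (u i x) * (Q c (u i x) * Q d (u i x))) * ih c d (fm (F i x)) ∂(m i)) =
      ∫ x, 2 * (φ (u i x) * D i x a b -
      (∑ c, ∑ d, (φ (u i x) * Q c (u i x)) * (ih c d (fm (F i x)) * P i x a b d)) -
      (∑ c, ∑ d, (φ (u i x) * Q d (u i x)) * (ih c d (fm (F i x)) * P i x a b c)) +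
      ∑ c, ∑ d, (φ (u i x) * (Q c (u i x) * Q d (u i x))) * ih c d (fm (F i x))) ∂(m i) := by
    rw [integral_const_mul]
    congr 1
    rw [integral_add (f := fun x => φ (u i x) * D i x a b -
      (∑ c, ∑ d, (φ (u i x) * Q c (u i x)) * (ih c d (fm (F i x)) * P i x a b d)) -
      (∑ c, ∑ d, (φ (u i x) * Q d (u i x)) * (ih c d (fm (F i x)) * P i x a b c)))
      ((k0.sub s1).sub s2) s3,
      integral_sub (f := fun x => φ (u i x) * D i x a b -
      (∑ c, ∑ d, (φ (u i x) * Q c (u i x)) * (ih c d (fm (F i x)) * P i x a b d)))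
      (k0.sub s1) s2, integral_sub k0 s1,
      integral_finsetSum _ fun c _ => integrable_finsetSum _ fun d _ => k1 c d,
      integral_finsetSum _ fun c _ => integrable_finsetSum _ fun d _ => k2 c d,
      integral_finsetSum _ fun c _ => integrable_finsetSum _ fun d _ => k3 c d]
    congr 1
    · congr 1
      · congr 1
        exact Finset.sum_congr rfl fun c _ => (integral_finsetSum _ fun d _ => k1 c d).symm
      · exact Finset.sum_congr rfl fun c _ => (integral_finsetSum _ fun d _ => k2 c d).symm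
    · exact Finset.sum_congr rfl fun c _ => (integral_finsetSum _ fun d _ => k3 c d).symm
  rw [e1]
  apply integral_mono_of_nonneg
  · refine Eventually.of_forall fun x => ?_
    exact mul_nonneg (hφ0 _) (mul_nonneg (chi_nonneg _) (Finset.sum_nonneg fun c _ => sq_nonneg _))
  · exact (((k0.sub s1).sub s2).add s3).const_mul 2
  · filter_upwards [hd.H9D i, hd.D_nonneg i a b] with x hx hxD
    show φ (u i x) * (chi (fm (F i x)) * ∑ c, (P i x a b c - Q c (u i x)) ^ 2) ≤ _
    have hφx := hφ0 (u i x)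
    have hfac : 2 * (φ (u i x) * D i x a b -
        (∑ c, ∑ d, (φ (u i x) * Q c (u i x)) * (ih c d (fm (F i x)) * P i x a b d)) -
        (∑ c, ∑ d, (φ (u i x) * Q d (u i x)) * (ih c d (fm (F i x)) * P i x a b c)) +
        ∑ c, ∑ d, (φ (u i x) * (Q c (u i x) * Q d (u i x))) * ih c d (fm (F i x))) =
        φ (u i x) * (2 * (D i x a b + ∑ c, ∑ d, ih c d (fm (F i x)) *
          (Q c (u i x) * Q d (u i x) - Q c (u i x) * P i x a b d -
            P i x a b c * Q d (u i x)))) := by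
      have y1 : ∀ (A B : Fin n → Fin n → ℝ) , (∑ c, ∑ d, A c d) - (∑ c, ∑ d, B c d) =
          ∑ c, ∑ d, (A c d - B c d) := fun A B => by
        simp only [Finset.sum_sub_distrib]
      have y2 : ∀ (A B : Fin n → Fin n → ℝ) , (∑ c, ∑ d, A c d) + (∑ c, ∑ d, B c d) =
          ∑ c, ∑ d, (A c d + B c d) := fun A B => by
        simp only [Finset.sum_add_distrib]
      have y3 : ∀ (t : ℝ) (A : Fin n → Fin n → ℝ) , t * (∑ c, ∑ d, A c d) =
          ∑ c, ∑ d, t * A c d := fun t A => by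
        simp only [Finset.mul_sum]
      have y4 : ∀ (t A B Cc : ℝ), 2 * (t - A - B + Cc) = 2 * t + 2 * (Cc - A - B) := by
        intros; ring
      rw [y4, y1, y1, mul_add 2 (D i x a b), mul_add (φ (u i x)), y3, y3, y3]
      congr 1
      · ring
      · refine Finset.sum_congr rfl fun c _ => Finset.sum_congr rfl fun d _ => ?_
        ring
    rw [hfac]
    refine mul_le_mul_of_nonneg_left ?_ hφx
    by_cases hn : nI (fm (F i x)) ≤ 1 / 4
    · have hD := hx hn a b
      have hco := coercive hn (fun c => P i x a b c - Q c (u i x))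
      have hchi0 := chi_nonneg (fm (F i x))
      have hchi1 := chi_le_one (fm (F i x))
      have step1 : chi (fm (F i x)) * ∑ c, (P i x a b c - Q c (u i x)) ^ 2 ≤
          chi (fm (F i x)) * (2 * ∑ c, ∑ d, (Matrix.of (fm (F i x)))⁻¹ c d *
            ((P i x a b c - Q c (u i x)) * (P i x a b d - Q d (u i x)))) :=
        mul_le_mul_of_nonneg_left hco hchi0
      have step2 : chi (fm (F i x)) * (2 * ∑ c, ∑ d, (Matrix.of (fm (F i x)))⁻¹ c d *
            ((P i x a b c - Q c (u i x)) * (P i x a b d - Q d (u i x)))) =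
          2 * (chi (fm (F i x)) * D i x a b + ∑ c, ∑ d, ih c d (fm (F i x)) *
          (Q c (u i x) * Q d (u i x) - Q c (u i x) * P i x a b d -
            P i x a b c * Q d (u i x))) := by
        rw [hD, mul_left_comm]
        congr 1
        rw [Finset.mul_sum, Finset.mul_sum, ← Finset.sum_add_distrib]
        refine Finset.sum_congr rfl fun c _ => ?_
        rw [Finset.mul_sum, Finset.mul_sum, ← Finset.sum_add_distrib]
        refine Finset.sum_congr rfl fun d _ => ?_
        have : (F i x)⁻¹ c d = (Matrix.of (fm (F i x)))⁻¹ c d := rfl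
        rw [this]
        unfold ih
        ring
      rw [step2] at step1
      refine step1.trans ?_
      have : chi (fm (F i x)) * D i x a b ≤ D i x a b := by nlinarith
      linarith
    · push Not at hn
      have hz : chi (fm (F i x)) = 0 := chi_zero hn.le
      have : ∀ c d, ih c d (fm (F i x)) = 0 := fun c d => by unfold ih; rw [hz, zero_mul]
      simp only [hz, zero_mul, this, Finset.sum_const_zero, add_zero]
      linarith

end LData

end main

end Crest.Agent.R249.Lim41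
end
end

-- ▼ part R249/LimF_41
section
/-!
R249 / D3-LIM (helper41).  Abstract limit lemma, part 14: limits of quadratic expressions in `P`.
-/

set_option autoImplicit false

open MeasureTheory Filter Topology Set
open scoped ContDiff ENNReal
open Crest.GeometryTopology.CoordMetric
open Crest.Agent.R249.LPt_191 (N1 sS kos)

noncomputable section

namespace Crest.Agent.R249.Lim41

section main

variable {n : ℕ} {ι : Type*} {l : Filter ι} {X : ι → Type*} [∀ i, MeasurableSpace (X i)]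
  {Ω : Set (E n)} {m : ∀ i, Measure (X i)} {u : ∀ i, X i → E n}
  {h : E n → Matrix (Fin n) (Fin n) ℝ} {F : ∀ i, X i → Matrix (Fin n) (Fin n) ℝ}
  {P : ∀ i, X i → Fin n → Fin n → Fin n → ℝ} {D G R : ∀ i, X i → Fin n → Fin n → ℝ}
  {lam Mm C α : ℝ}

/-- finite sums of weakly convergent sequences -/
theorem WC.sum {Mm : ℝ} (hB : Base Ω m u Mm) {κ : Type*} (s : Finset κ)
    {g : κ → ∀ i, X i → ℝ} {γ : κ → E n → ℝ} (hg : ∀ k ∈ s, ∀ i, Integrable (g k i) (m i))
    (hγ : ∀ k ∈ s, LI Ω (γ k)) (hW : ∀ k ∈ s, WC l Ω m u (g k) (γ k)) :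
    WC l Ω m u (fun i x => ∑ k ∈ s, g k i x) (fun y => ∑ k ∈ s, γ k y) := by
  intro φ hφ
  have h1 : Tendsto (fun i => ∑ k ∈ s, ∫ x, φ (u i x) * g k i x ∂(m i)) l
      (𝓝 (∑ k ∈ s, ∫ y, φ y * γ k y)) := tendsto_finsetSum _ fun k hk => hW k hk φ hφ
  have h2 : ∑ k ∈ s, ∫ y, φ y * γ k y = ∫ y, φ y * ∑ k ∈ s, γ k y := by
    rw [← integral_finsetSum _ fun k hk => hφ.integrable_mul (hγ k hk)]
    simp_rw [Finset.mul_sum]
  have h3 : ∀ i, ∑ k ∈ s, ∫ x, φ (u i x) * g k i x ∂(m i) =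
      ∫ x, φ (u i x) * ∑ k ∈ s, g k i x ∂(m i) := fun i => by
    rw [← integral_finsetSum _ fun k hk => hφ.integrable_comp hB (hg k hk i)]
    simp_rw [Finset.mul_sum]
  rw [h2] at h1
  simp_rw [h3] at h1
  exact h1

theorem int4 {α : Type*} [MeasurableSpace α] {μ : Measure α} {f0 f1 f2 f3 : α → ℝ}
    (h0 : Integrable f0 μ) (h1 : Integrable f1 μ) (h2 : Integrable f2 μ) (h3 : Integrable f3 μ) :
    |∫ x, f0 x ∂μ - ((∫ x, f1 x ∂μ) + (∫ x, f2 x ∂μ) - ∫ x, f3 x ∂μ)| ≤
      ∫ x, |f0 x - (f1 x + f2 x - f3 x)| ∂μ := by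
  have e1 : ∫ x, f0 x ∂μ - ((∫ x, f1 x ∂μ) + (∫ x, f2 x ∂μ) - ∫ x, f3 x ∂μ) =
      ∫ x, (f0 x - (f1 x + f2 x - f3 x)) ∂μ := by
    rw [integral_sub h0 (f := f0) (g := fun x => f1 x + f2 x - f3 x) ((h1.add h2).sub h3),
      integral_sub (f := fun x => f1 x + f2 x) (h1.add h2) h3, integral_add h1 h2]
  rw [e1]
  exact abs_integral_le_integral_abs

/-- strongly approximable sequences -/
structure Good (l : Filter ι) (Ω : Set (E n)) (m : ∀ i, Measure (X i)) (u : ∀ i, X i → E n)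
    (h : E n → Matrix (Fin n) (Fin n) ℝ) (F : ∀ i, X i → Matrix (Fin n) (Fin n) ℝ)
    (f : ∀ i, X i → ℝ) (p : E n → ℝ) : Prop where
  mem : ∀ i, MemLp (f i) 2 (m i)
  bdd : ∃ A, ∀ i, ∫ x, f i x ^ 2 ∂(m i) ≤ A
  lim : MemLp p 2 (volume : Measure (E n))
  wc : WC l Ω m u f p
  strong : ∀ φ, CC Ω φ → (∀ y, 0 ≤ φ y) → ∀ δ : ℝ, 0 < δ → ∃ q : E n → ℝ,
    Continuous q ∧ HasCompactSupport q ∧ (∫ y, (p y - q y) ^ 2 ≤ δ) ∧
    ∀ᶠ i in l, ∫ x, φ (u i x) * (chi (fm (F i x)) *
      (f i x - (Jf (fm (h (u i x))))⁻¹ * q (u i x)) ^ 2) ∂(m i) ≤ δ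

namespace LData

section noNeBot

variable (hd : LData l Ω m u h F P D G R lam Mm C α)
include hd

theorem bddt {Ψ : Mt n → ℝ} (hΨ : Continuous Ψ) {i : ι} {g : X i → ℝ} (hg : Integrable g (m i)) :
    Integrable (fun x => Ψ (fm (F i x)) * g x) (m i) := by
  obtain ⟨B, -, hB, -⟩ := hd.bddΨ hΨ
  exact hg.bdd_mul (c := B) (hd.measΨ hΨ i) (hB i)

theorem int_sq {f : ∀ i, X i → ℝ} (hf : ∀ i, MemLp (f i) 2 (m i)) {φ : E n → ℝ} (hφ : CC Ω φ)
    {Q : E n → ℝ} (hQ : ContinuousOn Q Ω) (i : ι) :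
    Integrable (fun x => φ (u i x) * (chi (fm (F i x)) * (f i x - Q (u i x)) ^ 2)) (m i) := by
  have hfin := hd.base.fin
  have k0 : Integrable (fun x => φ (u i x) * (chi (fm (F i x)) * (f i x * f i x))) (m i) :=
    hφ.integrable_comp hd.base (hd.bddt (chi_continuous n) ((hf i).integrable_mul (hf i)))
  have k1 : Integrable (fun x => (φ (u i x) * Q (u i x)) * (chi (fm (F i x)) * f i x)) (m i) :=
    (hφ.mul_cont hd.base.opn hQ).integrable_comp hd.base
      (hd.bddt (chi_continuous n) ((hf i).integrable (by norm_num)))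
  have k2 : Integrable (fun x => (φ (u i x) * (Q (u i x) * Q (u i x))) *
      (chi (fm (F i x)) * 1)) (m i) :=
    (hφ.mul_cont hd.base.opn (hQ.mul hQ)).integrable_comp hd.base
      (hd.bddt (chi_continuous n) (integrable_const _))
  refine ((k0.sub (k1.const_mul 2)).add k2).congr (Eventually.of_forall fun x => ?_)
  simp only [Pi.add_apply, Pi.sub_apply]
  ring

theorem Jiq_cont {q : E n → ℝ} (hq : Continuous q) :
    ContinuousOn (fun y => (Jf (fm (h y)))⁻¹ * q y) Ω := hd.Ji_cont.mul hq.continuousOn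

theorem good_add {f f' : ∀ i, X i → ℝ} {p p' : E n → ℝ} [l.NeBot] (hf : Good l Ω m u h F f p)
    (hf' : Good l Ω m u h F f' p') :
    Good l Ω m u h F (fun i x => f i x + f' i x) (fun y => p y + p' y) := by
  have hfin := hd.base.fin
  refine ⟨fun i => (hf.mem i).add (hf'.mem i), ?_, hf.lim.add hf'.lim, ?_, ?_⟩
  · obtain ⟨A, hA⟩ := hf.bdd
    obtain ⟨A', hA'⟩ := hf'.bdd
    refine ⟨2 * A + 2 * A', fun i => ?_⟩
    have h1 := (hf.mem i).integrable_sq
    have h2 := (hf'.mem i).integrable_sq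
    calc ∫ x, (f i x + f' i x) ^ 2 ∂(m i) ≤ ∫ x, (2 * f i x ^ 2 + 2 * f' i x ^ 2) ∂(m i) := by
          apply integral_mono ((hf.mem i).add (hf'.mem i)).integrable_sq
            ((h1.const_mul 2).add (h2.const_mul 2))
          intro x
          show (f i x + f' i x) ^ 2 ≤ 2 * f i x ^ 2 + 2 * f' i x ^ 2
          nlinarith [sq_nonneg (f i x - f' i x)]
      _ = 2 * (∫ x, f i x ^ 2 ∂(m i)) + 2 * ∫ x, f' i x ^ 2 ∂(m i) := by
          rw [integral_add (h1.const_mul 2) (h2.const_mul 2), integral_const_mul,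
            integral_const_mul]
      _ ≤ _ := by linarith [hA i, hA' i]
  · exact WC.add hd.base (fun i => (hf.mem i).integrable (by norm_num))
      (fun i => (hf'.mem i).integrable (by norm_num)) (LI.of_memLp hf.lim) (LI.of_memLp hf'.lim)
      hf.wc hf'.wc
  · intro φ hφ hφ0 δ hδ
    obtain ⟨q, hq, hqc, hq1, hq2⟩ := hf.strong φ hφ hφ0 (δ / 4) (by positivity)
    obtain ⟨q', hq', hqc', hq1', hq2'⟩ := hf'.strong φ hφ hφ0 (δ / 4) (by positivity)
    refine ⟨fun y => q y + q' y, hq.add hq', hqc.add hqc', ?_, ?_⟩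
    · have s1 : Integrable (fun y => (p y - q y) ^ 2) :=
        (hf.lim.sub (hq.memLp_of_hasCompactSupport hqc)).integrable_sq
      have s2 : Integrable (fun y => (p' y - q' y) ^ 2) :=
        (hf'.lim.sub (hq'.memLp_of_hasCompactSupport hqc')).integrable_sq
      have s3 : Integrable (fun y => (p y + p' y - (q y + q' y)) ^ 2) :=
        ((hf.lim.add hf'.lim).sub ((hq.memLp_of_hasCompactSupport hqc).add
          (hq'.memLp_of_hasCompactSupport hqc'))).integrable_sq
      calc ∫ y, (p y + p' y - (q y + q' y)) ^ 2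
          ≤ ∫ y, (2 * (p y - q y) ^ 2 + 2 * (p' y - q' y) ^ 2) := by
            apply integral_mono s3 ((s1.const_mul 2).add (s2.const_mul 2))
            intro y
            show (p y + p' y - (q y + q' y)) ^ 2 ≤ 2 * (p y - q y) ^ 2 + 2 * (p' y - q' y) ^ 2
            nlinarith [sq_nonneg ((p y - q y) - (p' y - q' y))]
        _ = 2 * (∫ y, (p y - q y) ^ 2) + 2 * ∫ y, (p' y - q' y) ^ 2 := by
            rw [integral_add (s1.const_mul 2) (s2.const_mul 2), integral_const_mul,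
              integral_const_mul]
        _ ≤ δ := by linarith
    · filter_upwards [hq2, hq2'] with i hi hi'
      have s1 := hd.int_sq hf.mem hφ (hd.Jiq_cont hq) i
      have s2 := hd.int_sq hf'.mem hφ (hd.Jiq_cont hq') i
      have s3 := hd.int_sq (f := fun i x => f i x + f' i x)
        (fun i => (hf.mem i).add (hf'.mem i)) hφ (hd.Jiq_cont (hq.add hq')) i
      calc ∫ x, φ (u i x) * (chi (fm (F i x)) * (f i x + f' i x -
              (Jf (fm (h (u i x))))⁻¹ * (q (u i x) + q' (u i x))) ^ 2) ∂(m i)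
          ≤ ∫ x, (2 * (φ (u i x) * (chi (fm (F i x)) *
              (f i x - (Jf (fm (h (u i x))))⁻¹ * q (u i x)) ^ 2)) +
              2 * (φ (u i x) * (chi (fm (F i x)) *
              (f' i x - (Jf (fm (h (u i x))))⁻¹ * q' (u i x)) ^ 2))) ∂(m i) := by
            apply integral_mono s3 ((s1.const_mul 2).add (s2.const_mul 2))
            intro x
            show φ (u i x) * (chi (fm (F i x)) * (f i x + f' i x -
              (Jf (fm (h (u i x))))⁻¹ * (q (u i x) + q' (u i x))) ^ 2) ≤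
              2 * (φ (u i x) * (chi (fm (F i x)) *
              (f i x - (Jf (fm (h (u i x))))⁻¹ * q (u i x)) ^ 2)) +
              2 * (φ (u i x) * (chi (fm (F i x)) *
              (f' i x - (Jf (fm (h (u i x))))⁻¹ * q' (u i x)) ^ 2))
            have e1 : (f i x + f' i x - (Jf (fm (h (u i x))))⁻¹ * (q (u i x) + q' (u i x))) ^ 2 ≤
                2 * (f i x - (Jf (fm (h (u i x))))⁻¹ * q (u i x)) ^ 2 +
                2 * (f' i x - (Jf (fm (h (u i x))))⁻¹ * q' (u i x)) ^ 2 := by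
              nlinarith [sq_nonneg ((f i x - (Jf (fm (h (u i x))))⁻¹ * q (u i x)) -
                (f' i x - (Jf (fm (h (u i x))))⁻¹ * q' (u i x)))]
            have e2 := mul_le_mul_of_nonneg_left (mul_le_mul_of_nonneg_left e1
              (chi_nonneg (fm (F i x)))) (hφ0 (u i x))
            refine e2.trans (le_of_eq ?_)
            ring
        _ ≤ δ := by
            rw [integral_add (s1.const_mul 2) (s2.const_mul 2), integral_const_mul,
              integral_const_mul]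
            linarith

theorem good_mul {f : ∀ i, X i → ℝ} {p : E n → ℝ} (hf : Good l Ω m u h F f p) (c : ℝ) :
    Good l Ω m u h F (fun i x => c * f i x) (fun y => c * p y) := by
  refine ⟨fun i => (hf.mem i).const_mul c, ?_, hf.lim.const_mul c, hf.wc.const_mul c, ?_⟩
  · obtain ⟨A, hA⟩ := hf.bdd
    refine ⟨c ^ 2 * A, fun i => ?_⟩
    simp_rw [mul_pow]
    rw [integral_const_mul]
    exact mul_le_mul_of_nonneg_left (hA i) (sq_nonneg c)
  · intro φ hφ hφ0 δ hδ
    obtain ⟨q, hq, hqc, hq1, hq2⟩ := hf.strong φ hφ hφ0 (δ / (c ^ 2 + 1)) (by positivity)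
    have hle : c ^ 2 * (δ / (c ^ 2 + 1)) ≤ δ := by
      rw [mul_div_assoc', div_le_iff₀ (by positivity)]
      nlinarith
    refine ⟨fun y => c * q y, continuous_const.mul hq, hqc.mul_left, ?_, ?_⟩
    · have : ∀ y, (c * p y - c * q y) ^ 2 = c ^ 2 * (p y - q y) ^ 2 := fun y => by ring
      simp_rw [this]
      rw [integral_const_mul]
      exact (mul_le_mul_of_nonneg_left hq1 (sq_nonneg c)).trans hle
    · filter_upwards [hq2] with i hi
      have : ∀ x, φ (u i x) * (chi (fm (F i x)) *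
          (c * f i x - (Jf (fm (h (u i x))))⁻¹ * (c * q (u i x))) ^ 2) =
          c ^ 2 * (φ (u i x) * (chi (fm (F i x)) *
          (f i x - (Jf (fm (h (u i x))))⁻¹ * q (u i x)) ^ 2)) := fun x => by ring
      simp_rw [this]
      rw [integral_const_mul]
      exact (mul_le_mul_of_nonneg_left hi (sq_nonneg c)).trans hle

end noNeBot

variable [l.NeBot] (hd : LData l Ω m u h F P D G R lam Mm C α)
include hd

theorem good_P (a b c : Fin n) : Good l Ω m u h F (fun i x => P i x a b c) (hd.p a b c) := by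
  have hfin := hd.base.fin
  refine ⟨fun i => hd.P_mem i a b c, ⟨C, fun i => hd.P_bdd i a b c⟩, hd.p_mem a b c,
    hd.p_wc a b c, fun φ hφ hφ0 δ hδ => ?_⟩
  obtain ⟨K, hK0, hK⟩ := hd.strong_aux a b hφ hφ0
  set η := δ / (K + 1) with hη
  have hη0 : 0 < η := by positivity
  have hηδ : η ≤ δ := div_le_self hδ.le (by linarith)
  have hKη : K * η ≤ δ := by
    rw [hη, mul_div_assoc', div_le_iff₀ (by positivity)]
    nlinarith
  choose q hq hqc hq1 using fun c => exists_q (hd.p_mem a b c) hη0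
  refine ⟨q c, hq c, hqc c, (hq1 c).trans hηδ, ?_⟩
  filter_upwards [hK q hq hqc η hη0 hq1] with i hi
  refine le_trans ?_ (hi.trans hKη)
  have s1 := fun c => hd.int_sq (f := fun i x => P i x a b c) (fun i => hd.P_mem i a b c) hφ
    (hd.Jiq_cont (hq c)) i
  have s2 : Integrable (fun x => φ (u i x) * (chi (fm (F i x)) *
        ∑ c, (P i x a b c - (Jf (fm (h (u i x))))⁻¹ * q c (u i x)) ^ 2)) (m i) := by
    refine (integrable_finsetSum Finset.univ fun c _ => s1 c).congr
      (Eventually.of_forall fun x => ?_)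
    simp only [Finset.mul_sum]
  apply integral_mono (s1 c) s2
  intro x
  refine mul_le_mul_of_nonneg_left (mul_le_mul_of_nonneg_left ?_ (chi_nonneg _)) (hφ0 _)
  exact Finset.single_le_sum
    (f := fun c => (P i x a b c - (Jf (fm (h (u i x))))⁻¹ * q c (u i x)) ^ 2)
    (fun c _ => sq_nonneg _) (Finset.mem_univ c)

theorem good_kos (a b c : Fin n) : Good l Ω m u h F (fun i x => kos (P i x) a b c)
    (fun y => kos (fun a b c => hd.p a b c y) a b c) := by
  have h1 := hd.good_mul (hd.good_add (hd.good_add (hd.good_P a b c) (hd.good_P a c b))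
    (hd.good_mul (hd.good_P b c a) (-1))) (1 / 2)
  have e1 : (fun i x => kos (P i x) a b c) = fun i x =>
      1 / 2 * (P i x a b c + P i x a c b + (-1) * P i x b c a) := by
    ext i x; unfold kos; ring
  have e2 : (fun y => kos (fun a b c => hd.p a b c y) a b c) = fun y =>
      1 / 2 * (hd.p a b c y + hd.p a c b y + (-1) * hd.p b c a y) := by
    ext y; unfold kos; ring
  rw [e1, e2]
  exact h1

/-- **the limit of quadratic expressions** -/
theorem quad {f f' : ∀ i, X i → ℝ} {p p' : E n → ℝ} (hf : Good l Ω m u h F f p)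
    (hf' : Good l Ω m u h F f' p') {Θ : Mt n → ℝ}
    (hΘ : ∀ A : Mt n, nI A ≤ 1 / 4 → ContinuousAt Θ A) {BΘ : ℝ}
    (hBΘ : ∀ A : Mt n, nI A ≤ 1 / 4 → |Θ A| ≤ BΘ) :
    WC l Ω m u (fun i x => (chi (fm (F i x)) * Θ (fm (F i x))) * (f i x * f' i x))
      (fun y => Θ (fm (h y)) * (Jf (fm (h y)))⁻¹ * (p y * p' y)) := by
  intro φ hφ
  have hfin := hd.base.fin
  have hΨ : Continuous (fun A : Mt n => chi A * Θ A) := chi_mul_continuous hΘ
  obtain ⟨Cφ, hCφ0, hCφ⟩ := hφ.bdd
  obtain ⟨BJ, hBJ0, hBJ⟩ := hd.Ji_bdd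
  have hBΘ0 : 0 ≤ BΘ := by
    have : nI (fun a b => (1 : Matrix (Fin n) (Fin n) ℝ) a b) ≤ 1 / 4 := by
      unfold nI N1
      have : ∀ a b, (Matrix.of (fun a b => (1 : Matrix (Fin n) (Fin n) ℝ) a b) -
          (1 : Matrix (Fin n) (Fin n) ℝ)) a b = 0 := fun a b => sub_self _
      simp only [this, abs_zero, Finset.sum_const_zero]
      norm_num
    exact (abs_nonneg _).trans (hBΘ _ this)
  have hΘc : ContinuousOn (fun y => Θ (fm (h y))) Ω :=
    hd.comp_cont fun A hA => hΘ A (hA.trans (by norm_num))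
  apply tendsto_of_approx
  intro ε hε
  set δ := ε / (Cφ * BΘ * BJ + BΘ + 1) with hδ
  have hδ0 : 0 < δ := by positivity
  have hδ1 : Cφ * BΘ * BJ * δ ≤ ε := by
    rw [hδ, mul_div_assoc', div_le_iff₀ (by positivity)]
    nlinarith [mul_nonneg (mul_nonneg hCφ0 hBΘ0) hBJ0]
  have hδ2 : BΘ * δ ≤ ε := by
    rw [hδ, mul_div_assoc', div_le_iff₀ (by positivity)]
    nlinarith [mul_nonneg (mul_nonneg hCφ0 hBΘ0) hBJ0]
  obtain ⟨q, hq, hqc, hq1, hq2⟩ := hf.strong _ hφ.abs (fun y => abs_nonneg _) δ hδ0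
  obtain ⟨q', hq', hqc', hq1', hq2'⟩ := hf'.strong _ hφ.abs (fun y => abs_nonneg _) δ hδ0
  have hQ := hd.Jiq_cont hq
  have hQ' := hd.Jiq_cont hq'
  have hφQ := hφ.mul_cont hd.base.opn hQ
  have hφQ' := hφ.mul_cont hd.base.opn hQ'
  have hφQQ := hφ.mul_cont hd.base.opn (hQ.mul hQ')
  obtain ⟨A, hA⟩ := hf.bdd
  obtain ⟨A', hA'⟩ := hf'.bdd
  have t1 := hd.wc_mul hΨ hf'.mem hA' hf'.wc _ hφQ
  have t2 := hd.wc_mul hΨ hf.mem hA hf.wc _ hφQ'
  have t3 := hd.wcΨ hΨ _ hφQQ
  refine ⟨_, _, (t1.add t2).sub t3, ?_, ?_⟩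
  · filter_upwards [hq2, hq2'] with i hi hi'
    have k0 : Integrable (fun x => φ (u i x) * ((chi (fm (F i x)) * Θ (fm (F i x))) *
        (f i x * f' i x))) (m i) :=
      hφ.integrable_comp hd.base (hd.bddt hΨ ((hf.mem i).integrable_mul (hf'.mem i)))
    have k1 := hφQ.integrable_comp hd.base
      (hd.bddt hΨ ((hf'.mem i).integrable (by norm_num : (1 : ℝ≥0∞) ≤ 2)))
    have k2 := hφQ'.integrable_comp hd.base
      (hd.bddt hΨ ((hf.mem i).integrable (by norm_num : (1 : ℝ≥0∞) ≤ 2)))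
    have k3 : Integrable (fun x => (φ (u i x) * (((Jf (fm (h (u i x))))⁻¹ * q (u i x)) *
        ((Jf (fm (h (u i x))))⁻¹ * q' (u i x)))) *
        (chi (fm (F i x)) * Θ (fm (F i x)))) (m i) := by
      have := hφQQ.integrable_comp hd.base (hd.bddt hΨ (i := i) (integrable_const (1 : ℝ)))
      refine this.congr (Eventually.of_forall fun x => ?_)
      simp only [mul_one, Pi.mul_apply]
    have s1 := hd.int_sq hf.mem hφ.abs hQ i
    have s2 := hd.int_sq hf'.mem hφ.abs hQ' i
    refine (int4 k0 k1 k2 k3).trans ?_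
    have e1 : ∫ x, |φ (u i x) * ((chi (fm (F i x)) * Θ (fm (F i x))) * (f i x * f' i x)) -
        (φ (u i x) * ((Jf (fm (h (u i x))))⁻¹ * q (u i x)) *
          ((chi (fm (F i x)) * Θ (fm (F i x))) * f' i x) +
        φ (u i x) * ((Jf (fm (h (u i x))))⁻¹ * q' (u i x)) *
          ((chi (fm (F i x)) * Θ (fm (F i x))) * f i x) -
        (φ (u i x) * (((Jf (fm (h (u i x))))⁻¹ * q (u i x)) *
        ((Jf (fm (h (u i x))))⁻¹ * q' (u i x)))) *
        (chi (fm (F i x)) * Θ (fm (F i x))))| ∂(m i) ≤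
        ∫ x, (BΘ / 2 * (|φ (u i x)| * (chi (fm (F i x)) *
          (f i x - (Jf (fm (h (u i x))))⁻¹ * q (u i x)) ^ 2)) +
          BΘ / 2 * (|φ (u i x)| * (chi (fm (F i x)) *
          (f' i x - (Jf (fm (h (u i x))))⁻¹ * q' (u i x)) ^ 2))) ∂(m i) := by
      apply integral_mono (k0.sub ((k1.add k2).sub k3)).abs
        ((s1.const_mul _).add (s2.const_mul _))
      intro x
      show |φ (u i x) * ((chi (fm (F i x)) * Θ (fm (F i x))) * (f i x * f' i x)) -
        (φ (u i x) * ((Jf (fm (h (u i x))))⁻¹ * q (u i x)) *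
          ((chi (fm (F i x)) * Θ (fm (F i x))) * f' i x) +
        φ (u i x) * ((Jf (fm (h (u i x))))⁻¹ * q' (u i x)) *
          ((chi (fm (F i x)) * Θ (fm (F i x))) * f i x) -
        (φ (u i x) * (((Jf (fm (h (u i x))))⁻¹ * q (u i x)) *
        ((Jf (fm (h (u i x))))⁻¹ * q' (u i x)))) *
        (chi (fm (F i x)) * Θ (fm (F i x))))| ≤
        BΘ / 2 * (|φ (u i x)| * (chi (fm (F i x)) *
          (f i x - (Jf (fm (h (u i x))))⁻¹ * q (u i x)) ^ 2)) +
          BΘ / 2 * (|φ (u i x)| * (chi (fm (F i x)) *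
          (f' i x - (Jf (fm (h (u i x))))⁻¹ * q' (u i x)) ^ 2))
      have e2 : φ (u i x) * ((chi (fm (F i x)) * Θ (fm (F i x))) * (f i x * f' i x)) -
        (φ (u i x) * ((Jf (fm (h (u i x))))⁻¹ * q (u i x)) *
          ((chi (fm (F i x)) * Θ (fm (F i x))) * f' i x) +
        φ (u i x) * ((Jf (fm (h (u i x))))⁻¹ * q' (u i x)) *
          ((chi (fm (F i x)) * Θ (fm (F i x))) * f i x) -
        (φ (u i x) * (((Jf (fm (h (u i x))))⁻¹ * q (u i x)) *
        ((Jf (fm (h (u i x))))⁻¹ * q' (u i x)))) *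
        (chi (fm (F i x)) * Θ (fm (F i x)))) =
        φ (u i x) * (chi (fm (F i x)) * (Θ (fm (F i x)) *
          ((f i x - (Jf (fm (h (u i x))))⁻¹ * q (u i x)) *
          (f' i x - (Jf (fm (h (u i x))))⁻¹ * q' (u i x))))) := by ring
      rw [e2, abs_mul, abs_mul, abs_of_nonneg (chi_nonneg _)]
      set s := f i x - (Jf (fm (h (u i x))))⁻¹ * q (u i x)
      set s' := f' i x - (Jf (fm (h (u i x))))⁻¹ * q' (u i x)
      by_cases hn : nI (fm (F i x)) ≤ 1 / 4
      · have e3 : |Θ (fm (F i x)) * (s * s')| ≤ BΘ * ((s ^ 2 + s' ^ 2) / 2) := by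
          rw [abs_mul]
          refine mul_le_mul (hBΘ _ hn) ?_ (abs_nonneg _) hBΘ0
          rw [abs_le]
          constructor <;> nlinarith [sq_nonneg (s + s'), sq_nonneg (s - s')]
        have e4 := mul_le_mul_of_nonneg_left (mul_le_mul_of_nonneg_left e3
          (chi_nonneg (fm (F i x)))) (abs_nonneg (φ (u i x)))
        refine e4.trans (le_of_eq ?_)
        ring
      · push Not at hn
        rw [chi_zero hn.le]
        simp
    refine e1.trans ?_
    rw [integral_add (s1.const_mul _) (s2.const_mul _), integral_const_mul,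
      integral_const_mul]
    calc _ ≤ BΘ / 2 * δ + BΘ / 2 * δ := add_le_add
            (mul_le_mul_of_nonneg_left hi (by positivity))
            (mul_le_mul_of_nonneg_left hi' (by positivity))
      _ = BΘ * δ := by ring
      _ ≤ ε := hδ2
  · have j0 : Integrable (fun y => φ y * (Θ (fm (h y)) * (Jf (fm (h y)))⁻¹ * (p y * p' y))) := by
      have h1 : LI Ω (fun y => p y * p' y) := fun K _ _ =>
        (hf.lim.integrable_mul hf'.lim).integrableOn
      exact hφ.integrable_mul (LI.mul_cont (hΘc.mul hd.Ji_cont) h1)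
    have j1 := hφQ.integrable_mul (LI.mul_cont (hd.contΨ hΨ) (LI.of_memLp hf'.lim))
    have j2 := hφQ'.integrable_mul (LI.mul_cont (hd.contΨ hΨ) (LI.of_memLp hf.lim))
    have j3 := hφQQ.integrable_mul (LI.of_cont ((hd.contΨ hΨ).mul hd.J_cont))
    have s1 : Integrable (fun y => (p y - q y) ^ 2) :=
      (hf.lim.sub (hq.memLp_of_hasCompactSupport hqc)).integrable_sq
    have s2 : Integrable (fun y => (p' y - q' y) ^ 2) :=
      (hf'.lim.sub (hq'.memLp_of_hasCompactSupport hqc')).integrable_sq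
    refine (int4 j0 j1 j2 j3).trans ?_
    have e1 : ∫ y, |φ y * (Θ (fm (h y)) * (Jf (fm (h y)))⁻¹ * (p y * p' y)) -
        (φ y * ((Jf (fm (h y)))⁻¹ * q y) * ((chi (fm (h y)) * Θ (fm (h y))) * p' y) +
        φ y * ((Jf (fm (h y)))⁻¹ * q' y) * ((chi (fm (h y)) * Θ (fm (h y))) * p y) -
        φ y * (((Jf (fm (h y)))⁻¹ * q y) * ((Jf (fm (h y)))⁻¹ * q' y)) *
          ((chi (fm (h y)) * Θ (fm (h y))) * Jf (fm (h y))))| ≤
        ∫ y, (Cφ * BΘ * BJ / 2 * (p y - q y) ^ 2 + Cφ * BΘ * BJ / 2 * (p' y - q' y) ^ 2) := by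
      apply integral_mono (j0.sub ((j1.add j2).sub j3)).abs
        ((s1.const_mul _).add (s2.const_mul _))
      intro y
      show |φ y * (Θ (fm (h y)) * (Jf (fm (h y)))⁻¹ * (p y * p' y)) -
        (φ y * ((Jf (fm (h y)))⁻¹ * q y) * ((chi (fm (h y)) * Θ (fm (h y))) * p' y) +
        φ y * ((Jf (fm (h y)))⁻¹ * q' y) * ((chi (fm (h y)) * Θ (fm (h y))) * p y) -
        φ y * (((Jf (fm (h y)))⁻¹ * q y) * ((Jf (fm (h y)))⁻¹ * q' y)) *
          ((chi (fm (h y)) * Θ (fm (h y))) * Jf (fm (h y))))| ≤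
        Cφ * BΘ * BJ / 2 * (p y - q y) ^ 2 + Cφ * BΘ * BJ / 2 * (p' y - q' y) ^ 2
      by_cases hz : φ y = 0
      · simp only [hz, zero_mul, add_zero, sub_zero, abs_zero]
        positivity
      · have hy : y ∈ Ω := hφ.mem_of_ne hz
        have hJ := hd.J_pos hy
        rw [chi_one (hd.nIh hy)]
        have e2 : φ y * (Θ (fm (h y)) * (Jf (fm (h y)))⁻¹ * (p y * p' y)) -
          (φ y * ((Jf (fm (h y)))⁻¹ * q y) * ((1 * Θ (fm (h y))) * p' y) +
          φ y * ((Jf (fm (h y)))⁻¹ * q' y) * ((1 * Θ (fm (h y))) * p y) -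
          φ y * (((Jf (fm (h y)))⁻¹ * q y) * ((Jf (fm (h y)))⁻¹ * q' y)) *
            ((1 * Θ (fm (h y))) * Jf (fm (h y)))) =
          φ y * (Θ (fm (h y)) * ((Jf (fm (h y)))⁻¹ * ((p y - q y) * (p' y - q' y)))) := by
          field_simp
          ring
        rw [e2, abs_mul, abs_mul, abs_mul]
        have e3 : |(p y - q y) * (p' y - q' y)| ≤ ((p y - q y) ^ 2 + (p' y - q' y) ^ 2) / 2 := by
          rw [abs_le]
          constructor <;> nlinarith [sq_nonneg ((p y - q y) + (p' y - q' y)),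
            sq_nonneg ((p y - q y) - (p' y - q' y))]
        have e4 : |φ y| * (|Θ (fm (h y))| * (|(Jf (fm (h y)))⁻¹| *
            |(p y - q y) * (p' y - q' y)|)) ≤
            Cφ * (BΘ * (BJ * (((p y - q y) ^ 2 + (p' y - q' y) ^ 2) / 2))) := by
          refine mul_le_mul (hCφ y) ?_ (by positivity) hCφ0
          refine mul_le_mul (hBΘ _ (hd.nIh4 hy)) ?_ (by positivity) hBΘ0
          exact mul_le_mul (hBJ y hy) e3 (abs_nonneg _) hBJ0
        refine e4.trans (le_of_eq ?_)
        ring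
    refine e1.trans ?_
    rw [integral_add (s1.const_mul _) (s2.const_mul _), integral_const_mul,
      integral_const_mul]
    calc _ ≤ Cφ * BΘ * BJ / 2 * δ + Cφ * BΘ * BJ / 2 * δ := add_le_add
            (mul_le_mul_of_nonneg_left hq1 (by positivity))
            (mul_le_mul_of_nonneg_left hq1' (by positivity))
      _ = Cφ * BΘ * BJ * δ := by ring
      _ ≤ ε := hδ1

end LData

end main

end Crest.Agent.R249.Lim41
end
end

-- ▼ part R249/LimG_41
section
/-!
R249 / D3-LIM (helper41).  Abstract limit lemma, part 15: the limit system, the main theorem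
`LData → LOut`.
-/

set_option autoImplicit false

open MeasureTheory Filter Topology Set
open scoped ContDiff ENNReal
open Crest.GeometryTopology.CoordMetric
open Crest.Agent.R249.LPt_191 (N1 sS kos)

noncomputable section

namespace Crest.Agent.R249.Lim41

section main

variable {n : ℕ} {ι : Type*} {l : Filter ι} {X : ι → Type*} [∀ i, MeasurableSpace (X i)]
  {Ω : Set (E n)} {m : ∀ i, Measure (X i)} {u : ∀ i, X i → E n}
  {h : E n → Matrix (Fin n) (Fin n) ℝ} {F : ∀ i, X i → Matrix (Fin n) (Fin n) ℝ}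
  {P : ∀ i, X i → Fin n → Fin n → Fin n → ℝ} {D G R : ∀ i, X i → Fin n → Fin n → ℝ}
  {lam Mm C α : ℝ}

namespace LData

variable [l.NeBot] (hd : LData l Ω m u h F P D G R lam Mm C α)
include hd

/-- the limit of `χ sS` -/
theorem sS_wc (a b : Fin n) :
    WC l Ω m u (fun i x => chi (fm (F i x)) * sS (F i x) (P i x) a b)
      (fun y => (Jf (fm (h y)))⁻¹ * sS (h y) (fun a b c => hd.p a b c y) a b) := by
  have hinvc : ∀ c d (A : Mt n), nI A ≤ 1 / 4 →
      ContinuousAt (fun A : Mt n => (Matrix.of A)⁻¹ c d) A := fun c d A hA =>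
    (inv_contDiffAt (lt_of_le_of_lt hA (by norm_num)) c d).continuousAt
  have hq : ∀ c d c' d', WC l Ω m u (fun i x => (chi (fm (F i x)) *
      ((Matrix.of (fm (F i x)))⁻¹ c c' * (Matrix.of (fm (F i x)))⁻¹ d d')) *
      (kos (P i x) a c d * kos (P i x) b c' d'))
      (fun y => ((Matrix.of (fm (h y)))⁻¹ c c' * (Matrix.of (fm (h y)))⁻¹ d d') *
        (Jf (fm (h y)))⁻¹ * (kos (fun a b c => hd.p a b c y) a c d *
          kos (fun a b c => hd.p a b c y) b c' d')) := fun c d c' d' =>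
    hd.quad (hd.good_kos a c d) (hd.good_kos b c' d')
      (Θ := fun A => (Matrix.of A)⁻¹ c c' * (Matrix.of A)⁻¹ d d')
      (fun A hA => (hinvc c c' A hA).mul (hinvc d d' A hA)) (BΘ := 2 * 2)
      (fun A hA => by
        rw [abs_mul]
        exact mul_le_mul (inv_le_two hA _ _) (inv_le_two hA _ _) (abs_nonneg _) (by norm_num))
  have hΨc : ∀ c d c' d', Continuous (fun A : Mt n => chi A *
      ((Matrix.of A)⁻¹ c c' * (Matrix.of A)⁻¹ d d')) := fun c d c' d' =>
    chi_mul_continuous fun A hA => (hinvc c c' A hA).mul (hinvc d d' A hA)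
  have hi : ∀ c d c' d' i, Integrable (fun x => (chi (fm (F i x)) *
      ((Matrix.of (fm (F i x)))⁻¹ c c' * (Matrix.of (fm (F i x)))⁻¹ d d')) *
      (kos (P i x) a c d * kos (P i x) b c' d')) (m i) := fun c d c' d' i =>
    hd.bddt (hΨc c d c' d')
      (((hd.good_kos a c d).mem i).integrable_mul ((hd.good_kos b c' d').mem i))
  have hL : ∀ c d c' d', LI Ω (fun y => ((Matrix.of (fm (h y)))⁻¹ c c' *
      (Matrix.of (fm (h y)))⁻¹ d d') * (Jf (fm (h y)))⁻¹ *
      (kos (fun a b c => hd.p a b c y) a c d * kos (fun a b c => hd.p a b c y) b c' d')) := by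
    intro c d c' d'
    have h1 : LI Ω (fun y => kos (fun a b c => hd.p a b c y) a c d *
        kos (fun a b c => hd.p a b c y) b c' d') := fun K _ _ =>
      ((hd.good_kos a c d).lim.integrable_mul (hd.good_kos b c' d').lim).integrableOn
    exact LI.mul_cont (((hd.h_inv_cont c c').mul (hd.h_inv_cont d d')).mul hd.Ji_cont) h1
  have hB := hd.base
  have key := WC.sum hB Finset.univ
    (fun c _ i => integrable_finsetSum Finset.univ fun d _ => integrable_finsetSum Finset.univ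
      fun c' _ => integrable_finsetSum Finset.univ fun d' _ => hi c d c' d' i)
    (fun c _ => LI.sum Finset.univ fun d _ => LI.sum Finset.univ fun c' _ =>
      LI.sum Finset.univ fun d' _ => hL c d c' d')
    (fun c _ => WC.sum hB Finset.univ
      (fun d _ i => integrable_finsetSum Finset.univ fun c' _ => integrable_finsetSum Finset.univ
        fun d' _ => hi c d c' d' i)
      (fun d _ => LI.sum Finset.univ fun c' _ => LI.sum Finset.univ fun d' _ => hL c d c' d')
      (fun d _ => WC.sum hB Finset.univ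
        (fun c' _ i => integrable_finsetSum Finset.univ fun d' _ => hi c d c' d' i)
        (fun c' _ => LI.sum Finset.univ fun d' _ => hL c d c' d')
        (fun c' _ => WC.sum hB Finset.univ (fun d' _ i => hi c d c' d' i)
          (fun d' _ => hL c d c' d') (fun d' _ => hq c d c' d'))))
  refine key.congr (fun i => Eventually.of_forall fun x => ?_) (fun y _ => ?_)
  · show _ = chi (fm (F i x)) * sS (F i x) (P i x) a b
    unfold sS
    simp_rw [Finset.mul_sum]
    refine Finset.sum_congr rfl fun c _ => Finset.sum_congr rfl fun d _ =>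
      Finset.sum_congr rfl fun c' _ => Finset.sum_congr rfl fun d' _ => ?_
    have : (Matrix.of (fm (F i x))) = F i x := rfl
    rw [this]
    ring
  · unfold sS
    simp_rw [Finset.mul_sum]
    refine Finset.sum_congr rfl fun c _ => Finset.sum_congr rfl fun d _ =>
      Finset.sum_congr rfl fun c' _ => Finset.sum_congr rfl fun d' _ => ?_
    have : (Matrix.of (fm (h y))) = h y := rfl
    rw [this]
    ring

/-- the limit of `χ R` -/
theorem R_wc (a b : Fin n) {φ : E n → ℝ} (hφ : CC Ω φ) :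
    Tendsto (fun i => ∫ x, φ (u i x) * (chi (fm (F i x)) * R i x a b) ∂(m i)) l
      (𝓝 (∫ y, φ y * (lam * h y a b * Jf (fm (h y))))) := by
  have hfin := hd.base.fin
  obtain ⟨Cφ, hCφ0, hCφ⟩ := hφ.bdd
  have hΨ : Continuous (fun A : Mt n => chi A * (lam * A a b)) :=
    (chi_continuous n).mul (continuous_const.mul (continuous_entry a b))
  have h1 := hd.wcΨ hΨ φ hφ
  have e1 : ∫ y, φ y * (chi (fm (h y)) * (lam * fm (h y) a b) * Jf (fm (h y))) =
      ∫ y, φ y * (lam * h y a b * Jf (fm (h y))) := by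
    congr 1
    ext y
    by_cases hz : φ y = 0
    · rw [hz, zero_mul, zero_mul]
    · rw [chi_one (hd.nIh (hφ.mem_of_ne hz)), one_mul]; rfl
  rw [e1] at h1
  have hFi : ∀ i, Integrable (fun x => F i x a b) (m i) := fun i =>
    Integrable.of_bound (C := C) (hd.F_meas i a b)
      (by filter_upwards [hd.F_bdd i] with x hx; exact hx a b)
  have hdi : ∀ i, Integrable (fun x => R i x a b - lam * F i x a b) (m i) := fun i =>
    (hd.R_int i a b).sub ((hFi i).const_mul lam)
  have h2 : Tendsto (fun i => ∫ x, φ (u i x) * (chi (fm (F i x)) *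
      (R i x a b - lam * F i x a b)) ∂(m i)) l (𝓝 0) := by
    have h3 : Tendsto (fun i => Cφ * ∫ x, |R i x a b - lam * F i x a b| ∂(m i)) l (𝓝 0) := by
      simpa using (hd.H10 a b).const_mul Cφ
    refine squeeze_zero_norm (fun i => ?_) h3
    rw [Real.norm_eq_abs, ← integral_const_mul]
    refine abs_integral_le_integral_abs.trans ?_
    apply integral_mono_of_nonneg (Eventually.of_forall fun x => abs_nonneg _)
      ((hdi i).abs.const_mul Cφ)
    refine Eventually.of_forall fun x => ?_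
    show |φ (u i x) * (chi (fm (F i x)) * (R i x a b - lam * F i x a b))| ≤
      Cφ * |R i x a b - lam * F i x a b|
    rw [abs_mul, abs_mul, abs_of_nonneg (chi_nonneg _)]
    refine mul_le_mul (hCφ _) ?_ (mul_nonneg (chi_nonneg _) (abs_nonneg _)) hCφ0
    have := chi_le_one (fm (F i x))
    nlinarith [abs_nonneg (R i x a b - lam * F i x a b)]
  have h4 := h1.add h2
  rw [add_zero] at h4
  refine h4.congr fun i => ?_
  have k1 : Integrable (fun x => φ (u i x) * (chi (fm (F i x)) * (lam * fm (F i x) a b))) (m i) := by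
    have h5 := hφ.integrable_comp hd.base
      (hd.bddt (chi_continuous n) ((hFi i).const_mul lam))
    exact h5
  have k2 : Integrable (fun x => φ (u i x) * (chi (fm (F i x)) *
      (R i x a b - lam * F i x a b))) (m i) :=
    hφ.integrable_comp hd.base (hd.bddt (chi_continuous n) (hdi i))
  rw [← integral_add k1 k2]
  congr 1
  ext x
  have : fm (F i x) a b = F i x a b := rfl
  rw [this]
  ring

/-- the value of `g` in the limit -/
theorem g_lim (a b : Fin n) {φ : E n → ℝ} (hφ : CC Ω φ) :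
    ∫ y, φ y * hd.g a b y =
      2 * (∫ y, φ y * ((Jf (fm (h y)))⁻¹ * sS (h y) (fun a b c => hd.p a b c y) a b)) +
      2 * ∫ y, φ y * (lam * h y a b * Jf (fm (h y))) := by
  have hfin := hd.base.fin
  have h1 := hd.wc_mul (chi_continuous n) (fun i => hd.G_mem i a b) (fun i => hd.G_bdd i a b)
    (hd.g_wc a b) φ hφ
  have h2 := ((hd.sS_wc a b φ hφ).const_mul 2).add ((hd.R_wc a b hφ).const_mul 2)
  have e1 : ∫ y, φ y * hd.g a b y = ∫ y, φ y * (chi (fm (h y)) * hd.g a b y) := by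
    congr 1
    ext y
    by_cases hz : φ y = 0
    · rw [hz, zero_mul, zero_mul]
    · rw [chi_one (hd.nIh (hφ.mem_of_ne hz)), one_mul]
  rw [e1]
  refine tendsto_nhds_unique h1 (h2.congr fun i => ?_)
  have hG : Integrable (fun x => φ (u i x) * (chi (fm (F i x)) * G i x a b)) (m i) :=
    hφ.integrable_comp hd.base (hd.bddt (chi_continuous n)
      ((hd.G_mem i a b).integrable (by norm_num)))
  have hR : Integrable (fun x => φ (u i x) * (chi (fm (F i x)) * R i x a b)) (m i) :=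
    hφ.integrable_comp hd.base (hd.bddt (chi_continuous n) (hd.R_int i a b))
  have hae : ∀ᵐ x ∂(m i), φ (u i x) * (chi (fm (F i x)) * G i x a b) =
      2 * (φ (u i x) * (chi (fm (F i x)) * sS (F i x) (P i x) a b)) +
      2 * (φ (u i x) * (chi (fm (F i x)) * R i x a b)) := by
    filter_upwards [hd.H9G i] with x hx
    by_cases hn : nI (fm (F i x)) ≤ 1 / 4
    · rw [hx hn a b]; ring
    · push Not at hn
      rw [chi_zero hn.le]; ring
  have hS : Integrable (fun x => φ (u i x) * (chi (fm (F i x)) * sS (F i x) (P i x) a b))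
      (m i) := by
    have h3 : Integrable (fun x => (1 / 2) * (φ (u i x) * (chi (fm (F i x)) * G i x a b) -
        2 * (φ (u i x) * (chi (fm (F i x)) * R i x a b)))) (m i) :=
      (hG.sub (hR.const_mul 2)).const_mul _
    refine h3.congr ?_
    filter_upwards [hae] with x hx
    rw [hx]; ring
  rw [integral_congr_ae hae, integral_add (hS.const_mul 2) (hR.const_mul 2),
    integral_const_mul, integral_const_mul]

end LData

end main

end Crest.Agent.R249.Lim41
end
end

-- ▼ part R249/LimH_41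
/-!
R249 / D3-LIM (helper41).  Abstract limit lemma, part 16: the main theorem `LData → LOut`.
-/

set_option autoImplicit false

open MeasureTheory Filter Topology Set
open scoped ContDiff ENNReal
open Crest.GeometryTopology.CoordMetric
open Crest.Agent.R249.LPt_191 (N1 sS kos)

noncomputable section

namespace Crest.Agent.R249.Lim41

theorem kos_smul {n : ℕ} (t : ℝ) (P : Fin n → Fin n → Fin n → ℝ) (a b c : Fin n) :
    kos (fun a b c => t * P a b c) a b c = t * kos P a b c := by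
  unfold kos; ring

theorem sS_smul {n : ℕ} (t : ℝ) (A : Matrix (Fin n) (Fin n) ℝ) (P : Fin n → Fin n → Fin n → ℝ)
    (a b : Fin n) : sS A (fun a b c => t * P a b c) a b = t ^ 2 * sS A P a b := by
  unfold sS
  simp_rw [Finset.mul_sum, kos_smul]
  refine Finset.sum_congr rfl fun c _ => Finset.sum_congr rfl fun d _ =>
    Finset.sum_congr rfl fun c' _ => Finset.sum_congr rfl fun d' _ => ?_
  ring

section main

variable {n : ℕ} {ι : Type*} {l : Filter ι} {X : ι → Type*} [∀ i, MeasurableSpace (X i)]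
  {Ω : Set (E n)} {m : ∀ i, Measure (X i)} {u : ∀ i, X i → E n}
  {h : E n → Matrix (Fin n) (Fin n) ℝ} {F : ∀ i, X i → Matrix (Fin n) (Fin n) ℝ}
  {P : ∀ i, X i → Fin n → Fin n → Fin n → ℝ} {D G R : ∀ i, X i → Fin n → Fin n → ℝ}
  {lam Mm C α : ℝ}

namespace LData

variable [l.NeBot] (hd : LData l Ω m u h F P D G R lam Mm C α)
include hd

theorem N_bdd : ∃ B, 0 ≤ B ∧ ∀ c e, ∀ y ∈ Ω, |(Jf (fm (h y)))⁻¹ * (h y)⁻¹ c e| ≤ B := by
  obtain ⟨BJ, hBJ0, hBJ⟩ := hd.Ji_bdd
  refine ⟨BJ * 2, by positivity, fun c e y hy => ?_⟩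
  rw [abs_mul]
  exact mul_le_mul (hBJ y hy) (inv_le_two (A := fm (h y)) (hd.nIh4 hy) c e) (abs_nonneg _) hBJ0

theorem H_ind_mem (a b e : Fin n) :
    MemLp (Ω.indicator (hd.H a b e)) 2 (volume : Measure (E n)) := by
  obtain ⟨B, hB0, hB⟩ := hd.N_bdd
  have hΩ := hd.base.opn.measurableSet
  have e1 : Ω.indicator (hd.H a b e) = fun y => ∑ c,
      Ω.indicator (fun y => (Jf (fm (h y)))⁻¹ * (h y)⁻¹ c e) y * hd.p a b c y := by
    ext y
    by_cases hy : y ∈ Ω
    · simp only [indicator_of_mem hy]; rfl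
    · simp only [indicator_of_notMem hy, zero_mul, Finset.sum_const_zero]
  rw [e1]
  refine memLp_finset_sum _ fun c _ => ?_
  refine MemLp.of_le_mul (c := B) (hd.p_mem a b c) ?_ (Eventually.of_forall fun y => ?_)
  · refine AEStronglyMeasurable.mul ?_ (hd.p_mem a b c).aestronglyMeasurable
    rw [aestronglyMeasurable_indicator_iff hΩ]
    exact (hd.Ji_cont.mul (hd.h_inv_cont c e)).aestronglyMeasurable hΩ
  · rw [norm_mul]
    refine mul_le_mul_of_nonneg_right ?_ (norm_nonneg _)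
    by_cases hy : y ∈ Ω
    · rw [indicator_of_mem hy]; exact hB c e y hy
    · rw [indicator_of_notMem hy, norm_zero]; exact hB0

theorem p_of_H' (a b c : Fin n) {y : E n} (hy : y ∈ Ω) :
    hd.p a b c y = Jf (fm (h y)) * ∑ d, h y c d * hd.H a b d y := by
  rw [hd.p_of_H a b c hy]
  congr 1
  refine Finset.sum_congr rfl fun e _ => ?_
  rw [hd.h_symm y hy e c]

theorem sS_p (a b : Fin n) {y : E n} (hy : y ∈ Ω) :
    (Jf (fm (h y)))⁻¹ * sS (h y) (fun a b c => hd.p a b c y) a b =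
      Jf (fm (h y)) * sS (h y) (fun a b c => ∑ d, h y c d * hd.H a b d y) a b := by
  have e1 : (fun a b c => hd.p a b c y) =
      fun a b c => Jf (fm (h y)) * ∑ d, h y c d * hd.H a b d y := by
    ext a b c; exact hd.p_of_H' a b c hy
  rw [e1, sS_smul (Jf (fm (h y))) (h y) (fun a b c => ∑ d, h y c d * hd.H a b d y)]
  have := (hd.J_pos hy).ne'
  field_simp

theorem out_sys (a b : Fin n) {φ : E n → ℝ} (hφ : CS Ω φ) :
    ∫ y, ∑ c, pderiv c φ y * (Jf (fm (h y)) * ∑ d, h y c d * Ω.indicator (hd.H a b d) y) =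
      - ∫ y, φ y * (Jf (fm (h y)) *
        (2 * sS (h y) (fun a b c => ∑ d, h y c d * Ω.indicator (hd.H a b d) y) a b +
          2 * lam * h y a b)) := by
  have h1 := hd.g_eq a b hφ
  have h2 := hd.g_lim a b hφ.cc
  have e1 : ∫ y, ∑ c, pderiv c φ y * (Jf (fm (h y)) *
      ∑ d, h y c d * Ω.indicator (hd.H a b d) y) = ∑ c, ∫ y, pderiv c φ y * hd.p a b c y := by
    rw [← integral_finsetSum _ fun c _ =>
      (hφ.pderiv c).cc.integrable_mul (LI.of_memLp (hd.p_mem a b c))]
    congr 1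
    ext y
    refine Finset.sum_congr rfl fun c _ => ?_
    by_cases hz : pderiv c φ y = 0
    · rw [hz, zero_mul, zero_mul]
    · have hy : y ∈ Ω := (hφ.pderiv c).cc.mem_of_ne hz
      rw [hd.p_of_H' a b c hy]
      simp only [indicator_of_mem hy]
  have hsS : Integrable (fun y => φ y * ((Jf (fm (h y)))⁻¹ *
      sS (h y) (fun a b c => hd.p a b c y) a b)) := by
    have hk : ∀ c d c' d', Integrable (fun y => φ y * ((Jf (fm (h y)))⁻¹ *
        ((h y)⁻¹ c c' * (h y)⁻¹ d d' * kos (fun a b c => hd.p a b c y) a c d *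
          kos (fun a b c => hd.p a b c y) b c' d'))) := by
      intro c d c' d'
      have h3 : LI Ω (fun y => kos (fun a b c => hd.p a b c y) a c d *
        kos (fun a b c => hd.p a b c y) b c' d') := fun K _ _ =>
        ((hd.good_kos a c d).lim.integrable_mul (hd.good_kos b c' d').lim).integrableOn
      have h4 := hφ.cc.integrable_mul (LI.mul_cont (((hd.h_inv_cont c c').mul
        (hd.h_inv_cont d d')).mul hd.Ji_cont) h3)
      refine h4.congr (Eventually.of_forall fun y => ?_)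
      simp only [Pi.mul_apply]
      ring
    have h5 := integrable_finsetSum Finset.univ fun c _ => integrable_finsetSum Finset.univ
      fun d _ => integrable_finsetSum Finset.univ fun c' _ => integrable_finsetSum Finset.univ
      fun d' _ => hk c d c' d'
    refine h5.congr (Eventually.of_forall fun y => ?_)
    simp only
    unfold sS
    simp_rw [Finset.mul_sum]
  have hlam : Integrable (fun y => φ y * (lam * h y a b * Jf (fm (h y)))) :=
    hφ.cc.integrable_mul (LI.of_cont ((continuousOn_const.mul (hd.h_cont a b)).mul hd.J_cont))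
  have e2 : ∫ y, φ y * (Jf (fm (h y)) *
        (2 * sS (h y) (fun a b c => ∑ d, h y c d * Ω.indicator (hd.H a b d) y) a b +
          2 * lam * h y a b)) = ∫ y, φ y * hd.g a b y := by
    rw [h2, ← integral_const_mul, ← integral_const_mul,
      ← integral_add (hsS.const_mul 2) (hlam.const_mul 2)]
    congr 1
    ext y
    by_cases hz : φ y = 0
    · simp only [hz, zero_mul, mul_zero, add_zero]
    · have hy : y ∈ Ω := hφ.cc.mem_of_ne hz
      rw [hd.sS_p a b hy]
      simp only [indicator_of_mem hy]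
      ring
  rw [e1, e2, h1]

end LData

/-- **The abstract limit lemma.** -/
theorem lim_main [l.NeBot] (hd : LData l Ω m u h F P D G R lam Mm C α) :
    ∃ H C', LOut Ω h H lam C' α := by
  obtain ⟨B, hB0, hB⟩ := hd.N_bdd
  obtain ⟨CJ, hCJ0, hCJ⟩ := hd.J_bdd
  have hΩ := hd.base.opn
  refine ⟨fun a b c => Ω.indicator (hd.H a b c), (n : ℝ) * (n : ℝ) * B ^ 2 * (CJ * C),
    fun a b c => hd.H_ind_mem a b c, fun a b c ζ hζ => ?_, fun c φ hφ => hd.div_lim c hφ,
    fun a b φ hφ => hd.out_sys a b hφ, fun z r hr hzr a b c => ?_⟩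
  · rw [hd.H_wd a b c hζ]
    congr 2
    ext y
    by_cases hz : ζ y = 0
    · rw [hz, zero_mul, zero_mul]
    · rw [indicator_of_mem (hζ.cc.mem_of_ne hz)]
  · have hr0 : 0 ≤ r ^ ((n : ℝ) - 2 + 2 * α) := Real.rpow_nonneg hr.le _
    have hbΩ : Metric.ball z r ⊆ Ω := Metric.ball_subset_closedBall.trans hzr
    have h1 : ∀ d, ∫ y in Metric.ball z r, hd.p a b d y ^ 2 ≤
        CJ * (C * r ^ ((n : ℝ) - 2 + 2 * α)) := fun d =>
      local_bound hd.base hd.wc_one hCJ hCJ0 (LI.of_cont hd.J_cont) (hg := fun i => hd.P_mem i a b d)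
        (hd.p_mem a b d) (hd.p_wc a b d) hbΩ Metric.isOpen_ball (mul_nonneg hd.C_nonneg hr0)
        (hd.H11 z r hr hzr a b d)
    have h2 : ∀ y ∈ Metric.ball z r, Ω.indicator (hd.H a b c) y ^ 2 ≤
        (n : ℝ) * B ^ 2 * ∑ d, hd.p a b d y ^ 2 := by
      intro y hy
      rw [indicator_of_mem (hbΩ hy)]
      have h3 : hd.H a b c y ^ 2 ≤ (n : ℝ) * ∑ d,
          (((Jf (fm (h y)))⁻¹ * (h y)⁻¹ d c) * hd.p a b d y) ^ 2 := by
        have := sq_sum_le_card_mul_sum_sq (s := (Finset.univ : Finset (Fin n)))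
          (f := fun d => ((Jf (fm (h y)))⁻¹ * (h y)⁻¹ d c) * hd.p a b d y)
        simp only [Finset.card_univ, Fintype.card_fin] at this
        exact this
      refine h3.trans ?_
      rw [mul_assoc, Finset.mul_sum (a := B ^ 2)]
      refine mul_le_mul_of_nonneg_left (Finset.sum_le_sum fun d _ => ?_) (Nat.cast_nonneg n)
      rw [mul_pow]
      refine mul_le_mul_of_nonneg_right ?_ (sq_nonneg _)
      rw [← sq_abs ((Jf (fm (h y)))⁻¹ * (h y)⁻¹ d c)]
      exact pow_le_pow_left₀ (abs_nonneg _) (hB d c y (hbΩ hy)) 2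
    have i1 : ∀ d, IntegrableOn (fun y => hd.p a b d y ^ 2) (Metric.ball z r) := fun d =>
      (hd.p_mem a b d).integrable_sq.integrableOn
    calc ∫ y in Metric.ball z r, Ω.indicator (hd.H a b c) y ^ 2
        ≤ ∫ y in Metric.ball z r, (n : ℝ) * B ^ 2 * ∑ d, hd.p a b d y ^ 2 := by
          apply setIntegral_mono_on (hd.H_ind_mem a b c).integrable_sq.integrableOn
            ((integrable_finsetSum _ fun d _ => i1 d).const_mul _) measurableSet_ball h2
      _ = (n : ℝ) * B ^ 2 * ∑ d, ∫ y in Metric.ball z r, hd.p a b d y ^ 2 := by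
          rw [integral_const_mul, integral_finsetSum _ fun d _ => i1 d]
      _ ≤ (n : ℝ) * B ^ 2 * ∑ _d : Fin n, CJ * (C * r ^ ((n : ℝ) - 2 + 2 * α)) := by
          refine mul_le_mul_of_nonneg_left (Finset.sum_le_sum fun d _ => h1 d) (by positivity)
      _ = _ := by
          simp only [Finset.sum_const, Finset.card_univ, Fintype.card_fin, nsmul_eq_mul]
          ring

end main

end Crest.Agent.R249.Lim41
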