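import Crest.Agent.R247.Prt8_657
import Crest.Agent.R202.EllFinal
import Crest.Agent.R247.Dir0_593
import Crest.Agent.R247.Gs2_939

-- ▼ part R249/HRep1_308
section

/-!
R249, D3-DECAY (helper308), harmonic replacement, part 1: Weyl's lemma on a Riemannian manifold.
A function `u ∈ L²` with `Δ u = g` in the sense of distributions on the open set `O`, `g` smooth on
`O`, is a.e. equal on `O` to a smooth function `U` with `Δ U = g` on `O`.
-/

set_option autoImplicit false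
set_option maxSynthPendingDepth 3
set_option linter.unusedSectionVars false
open scoped ContDiff ENNReal NNReal Topology Manifold Bundle
open MeasureTheory Set Filter Metric Bundle
open Crest.GeometryTopology.CoordMetric Crest.GeometryTopology.ChartCurvature
open Crest.Agent.R202.Ell Crest.Agent.R247.Ms322 Crest.Agent.R226.ChartMet842
open Crest.Agent.R247.Dir593 Crest.Agent.R247.Frd657
open Crest.Agent.R247
open Crest.Agent.R247.Bo84 (inCh mLap mLap_chart mLap_chart' lap_congr mLap_congr mLap_const)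

namespace Crest.Agent.R249.HRep308

noncomputable section

variable {n : ℕ} {M : Type*} [MetricSpace M] [ChartedSpace (EuclideanSpace ℝ (Fin n)) M]
  [IsManifold (𝓡 n) ∞ M]
  [RiemannianBundle (fun p : M => TangentSpace (𝓡 n) p)]
  [IsContMDiffRiemannianBundle (𝓡 n) ∞ (EuclideanSpace ℝ (Fin n)) (fun p : M => TangentSpace (𝓡 n) p)]

local notation "𝔼" => EuclideanSpace ℝ (Fin n)

/-- the coefficient matrix of the Laplacian in divergence form -/
def Am (x₀ : M) (b : EuclideanSpace ℝ (Fin n)) : Matrix (Fin n) (Fin n) ℝ :=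
  Matrix.of fun i j => Ac x₀ i j b


theorem divA_Am (x₀ : M) (P : 𝔼 → ℝ) {b : 𝔼} (hb : b ∈ (chartAt 𝔼 x₀).target) :
    divA (Am x₀) P b = dens x₀ b * laplaceBeltrami (chartMetric n M x₀) P b := by
  rw [← lapW_eq, lapW, divA]
  have h : dens (n := n) x₀ b ≠ 0 := (dens_pos x₀ hb).ne'
  rw [← mul_assoc, mul_inv_cancel₀ h, one_mul]
  rfl

theorem contDiffOn_Am (x₀ : M) (i j : Fin n) :
    ContDiffOn ℝ ∞ (fun b => Am x₀ b i j) (chartAt 𝔼 x₀).target :=
  (coefOn_Ac (n := n) x₀).smooth i j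

theorem posDef_Am (x₀ : M) {b : 𝔼} (hb : b ∈ (chartAt 𝔼 x₀).target) : (Am x₀ b).PosDef := by
  have hg := isRiemannianOn_chartMetric (n := n) x₀
  have h2 := (hg.posDef b hb).inv
  have h3 := h2.smul (dens_pos (n := n) x₀ hb)
  exact h3

theorem mLap_pb (x₀ : M) {P : 𝔼 → ℝ} (hP : IsTest P) (hs : tsupport P ⊆ (chartAt 𝔼 x₀).target)
    {b : 𝔼} (hb : b ∈ (chartAt 𝔼 x₀).target) :
    mLap n (pb x₀ P) ((chartAt 𝔼 x₀).symm b) = laplaceBeltrami (chartMetric n M x₀) P b := by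
  rw [mLap_chart hb (((pb_smooth x₀ hP hs).of_le Bo84.two_le_infty).contMDiffAt)]
  refine lap_congr ?_
  filter_upwards [(chartAt 𝔼 x₀).open_target.mem_nhds hb] with y hy
  exact pb_symm x₀ P hy

variable [IsRiemannianManifold (𝓡 n) M] [MeasurableSpace M] [BorelSpace M]
  [SecondCountableTopology M] [Nonempty M]

/-- distributional equation `Δ u = g` on the open set `O` -/
def DistLap (O : Set M) (u g : M → ℝ) : Prop :=
  ∀ φ : M → ℝ, ContMDiff (𝓡 n) 𝓘(ℝ, ℝ) ∞ φ → HasCompactSupport φ → tsupport φ ⊆ O →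
    ∫ z, u z * mLap n φ z ∂(μHE[n] : Measure M) = ∫ z, g z * φ z ∂(μHE[n] : Measure M)

/-- the part of the chart target lying over `O` -/
def cO (x₀ : M) (O : Set M) : Set (EuclideanSpace ℝ (Fin n)) :=
  (chartAt (EuclideanSpace ℝ (Fin n)) x₀).target ∩
    (chartAt (EuclideanSpace ℝ (Fin n)) x₀).symm ⁻¹' O

theorem isOpen_cO (x₀ : M) {O : Set M} (hO : IsOpen O) : IsOpen (cO (n := n) x₀ O) :=
  (chartAt 𝔼 x₀).isOpen_inter_preimage_symm hO

theorem distLap_chart {O : Set M} {u g : M → ℝ} (h : DistLap (n := n) O u g) (x₀ : M)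
    {P : 𝔼 → ℝ} (hP : IsTest P) (hs : tsupport P ⊆ cO x₀ O) :
    ∫ b, u ((chartAt 𝔼 x₀).symm b) * divA (Am x₀) P b =
      ∫ b, (dens (n := n) x₀ b * g ((chartAt 𝔼 x₀).symm b)) * P b := by
  have hst : tsupport P ⊆ (chartAt 𝔼 x₀).target := hs.trans inter_subset_left
  have hsup : tsupport (pb x₀ P) ⊆ (chartAt 𝔼 x₀).symm '' tsupport P :=
    tsupport_pb x₀ hP.cpt.isCompact hst le_rfl
  have hO : tsupport (pb x₀ P) ⊆ O := by
    intro z hz
    obtain ⟨b, hb, rfl⟩ := hsup hz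
    exact (hs hb).2
  have hoff : ∀ z, z ∉ (chartAt 𝔼 x₀).source → z ∉ tsupport (pb x₀ P) := fun z hz h =>
    hz (symm_image_subset x₀ hst (hsup h))
  have h0 := h _ (pb_smooth x₀ hP hst) (pb_cpt x₀ hP hst) hO
  have hlap0 : ∀ z, z ∉ tsupport (pb x₀ P) → mLap n (pb x₀ P) z = 0 := by
    intro z hz
    have hev : pb x₀ P =ᶠ[𝓝 z] fun _ => 0 := by
      filter_upwards [(isClosed_tsupport (pb x₀ P)).isOpen_compl.mem_nhds hz] with y hy
      exact image_eq_zero_of_notMem_tsupport hy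
    rw [mLap_congr hev, mLap_const]
  rw [integral_eq_of_support x₀ _ (fun z hz => by rw [hlap0 z (hoff z hz), mul_zero]),
    integral_eq_of_support x₀ _ (fun z hz => by
      rw [image_eq_zero_of_notMem_tsupport (hoff z hz), mul_zero])] at h0
  have hzero : ∀ b, b ∉ (chartAt 𝔼 x₀).target → divA (Am x₀) P b = 0 := by
    intro b hb
    have hb' : b ∉ tsupport P := fun h => hb (hst h)
    rw [divA]
    refine Finset.sum_eq_zero fun i _ => ?_
    have hev : (fun y => ∑ j, Am x₀ y i j * pderiv j P y) =ᶠ[𝓝 b] fun _ => (0:ℝ) := by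
      filter_upwards [(isClosed_tsupport P).isOpen_compl.mem_nhds hb'] with y hy
      exact Finset.sum_eq_zero fun j _ => by rw [pderiv_zero_off hy, mul_zero]
    change fderiv ℝ (fun y => ∑ j, Am x₀ y i j * pderiv j P y) b (EuclideanSpace.single i 1) = 0
    rw [hev.fderiv_eq]
    simp
  have e1 : ∫ b, u ((chartAt 𝔼 x₀).symm b) * divA (Am x₀) P b =
      ∫ b in (chartAt 𝔼 x₀).target, dens (n := n) x₀ b •
        (u ((chartAt 𝔼 x₀).symm b) * mLap n (pb x₀ P) ((chartAt 𝔼 x₀).symm b)) := by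
    rw [← setIntegral_eq_integral_of_forall_compl_eq_zero (s := (chartAt 𝔼 x₀).target)]
    · refine setIntegral_congr_fun (measurableSet_target x₀) fun b hb => ?_
      simp only [smul_eq_mul]
      rw [divA_Am x₀ P hb, mLap_pb x₀ hP hst hb]
      ring
    · intro b hb
      rw [hzero b hb, mul_zero]
  have e2 : ∫ b, (dens (n := n) x₀ b * g ((chartAt 𝔼 x₀).symm b)) * P b =
      ∫ b in (chartAt 𝔼 x₀).target, dens (n := n) x₀ b •
        (g ((chartAt 𝔼 x₀).symm b) * pb x₀ P ((chartAt 𝔼 x₀).symm b)) := by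
    rw [← setIntegral_eq_integral_of_forall_compl_eq_zero (s := (chartAt 𝔼 x₀).target)]
    · refine setIntegral_congr_fun (measurableSet_target x₀) fun b hb => ?_
      simp only [smul_eq_mul]
      rw [pb_symm x₀ P hb]
      ring
    · intro b hb
      rw [image_eq_zero_of_notMem_tsupport (fun h => hb (hst h)), mul_zero]
  rw [e1, e2, h0]

/-- `L²` functions are locally integrable in charts. -/
theorem locInt_chart {u : M → ℝ} (hu : MemLp u 2 (μHE[n] : Measure M)) (x₀ : M) :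
    LocallyIntegrableOn (fun b => u ((chartAt 𝔼 x₀).symm b)) (chartAt 𝔼 x₀).target := by
  have hL : L2On (chartAt 𝔼 x₀).target (fun b => u ((chartAt 𝔼 x₀).symm b)) := by
    intro K hKt hK
    obtain ⟨C, -, hC⟩ := eLpNorm_chart_le (n := n) x₀ hK hKt
    refine ⟨(aesm_chart x₀ hu.1).mono_measure (Measure.restrict_mono hKt le_rfl), ?_⟩
    refine (hC u).trans_lt (ENNReal.mul_lt_top ENNReal.ofReal_lt_top ?_)
    exact (hu.restrict _).2
  intro b hb
  obtain ⟨r, hr0, hr⟩ := nhds_basis_closedBall.mem_iff.1 ((chartAt 𝔼 x₀).open_target.mem_nhds hb)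
  refine ⟨closedBall b r, mem_nhdsWithin_of_mem_nhds (closedBall_mem_nhds b hr0), ?_⟩
  have h1 := hL _ hr (isCompact_closedBall b r)
  have : IsFiniteMeasure (volume.restrict (closedBall b r)) :=
    ⟨by rw [Measure.restrict_apply_univ]; exact (isCompact_closedBall b r).measure_lt_top⟩
  exact h1.integrable (by norm_num)

/-- **Weyl's lemma in a chart.** -/
theorem weyl_chart {O : Set M} (hO : IsOpen O) {u g : M → ℝ}
    (hu : MemLp u 2 (μHE[n] : Measure M)) (hg : ContMDiffOn (𝓡 n) 𝓘(ℝ, ℝ) ∞ g O)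
    (h : DistLap (n := n) O u g) (x₀ : M) :
    ∃ v : 𝔼 → ℝ, ContDiffOn ℝ ∞ v (cO x₀ O) ∧
      (∀ᵐ b, b ∈ cO x₀ O → v b = u ((chartAt 𝔼 x₀).symm b)) ∧
      ∀ b ∈ cO x₀ O, laplaceBeltrami (chartMetric n M x₀) v b = g ((chartAt 𝔼 x₀).symm b) := by
  have hop := isOpen_cO (n := n) x₀ hO
  have hgc : ContDiffOn ℝ ∞ (fun b => g ((chartAt 𝔼 x₀).symm b)) (cO x₀ O) := by
    rw [← contMDiffOn_iff_contDiffOn]
    exact hg.comp ((contMDiffOn_chart_symm (I := 𝓡 n) (n := ∞) (x := x₀)).mono inter_subset_left)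
      fun b hb => hb.2
  have hf : ContDiffOn ℝ ∞ (fun b => dens (n := n) x₀ b * g ((chartAt 𝔼 x₀).symm b)) (cO x₀ O) :=
    ((contDiffOn_dens x₀).mono inter_subset_left).mul hgc
  obtain ⟨v, hv1, hv2, hv3⟩ := ell_regularity n (cO x₀ O) hop (Am x₀)
    (fun i j => (contDiffOn_Am x₀ i j).mono inter_subset_left)
    (fun b hb => posDef_Am x₀ hb.1) _ hf (fun b => u ((chartAt 𝔼 x₀).symm b))
    ((locInt_chart hu x₀).mono_set inter_subset_left)
    (fun φ h1 h2 h3 => distLap_chart h x₀ ⟨h1, h2⟩ h3)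
  refine ⟨v, hv1, hv2, fun b hb => ?_⟩
  have h4 := hv3 b hb
  rw [divA_Am x₀ v hb.1] at h4
  exact mul_left_cancel₀ (dens_pos (n := n) x₀ hb.1).ne' h4

/-- **Weyl's lemma on the manifold.** -/
theorem weyl {O : Set M} (hO : IsOpen O) {u g : M → ℝ}
    (hu : MemLp u 2 (μHE[n] : Measure M)) (hg : ContMDiffOn (𝓡 n) 𝓘(ℝ, ℝ) ∞ g O)
    (h : DistLap (n := n) O u g) :
    ∃ U : M → ℝ, ContMDiffOn (𝓡 n) 𝓘(ℝ, ℝ) ∞ U O ∧
      (∀ᵐ z ∂(μHE[n] : Measure M), z ∈ O → U z = u z) ∧ ∀ z ∈ O, mLap n U z = g z := by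
  choose v hv1 hv2 hv3 using fun x₀ : M => weyl_chart (n := n) hO hu hg h x₀
  -- the functions read in the charts agree on overlaps
  have hcont : ∀ x₀ : M, ContinuousOn (fun z => v x₀ (chartAt 𝔼 x₀ z))
      ((chartAt 𝔼 x₀).source ∩ O) := by
    intro x₀
    refine (hv1 x₀).continuousOn.comp ((chartAt 𝔼 x₀).continuousOn.mono inter_subset_left) ?_
    intro z hz
    refine ⟨(chartAt 𝔼 x₀).map_source hz.1, ?_⟩
    rw [mem_preimage, (chartAt 𝔼 x₀).left_inv hz.1]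
    exact hz.2
  have hae : ∀ x₀ : M, ∀ᵐ z ∂(μHE[n] : Measure M), z ∈ (chartAt 𝔼 x₀).source ∩ O →
      v x₀ (chartAt 𝔼 x₀ z) = u z := by
    intro x₀
    have h1 := ae_manifold (n := n) x₀ (p := fun b => b ∈ cO x₀ O → v x₀ b = u ((chartAt 𝔼 x₀).symm b))
      (by filter_upwards [hv2 x₀] with b hb _ using hb)
    filter_upwards [h1] with z hz hzs
    have h2 := hz hzs.1 ⟨(chartAt 𝔼 x₀).map_source hzs.1, by
      rw [mem_preimage, (chartAt 𝔼 x₀).left_inv hzs.1]; exact hzs.2⟩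
    rw [(chartAt 𝔼 x₀).left_inv hzs.1] at h2
    exact h2
  have := isOpenPosMeasure n M
  have hcons : ∀ x₀ x₁ : M, EqOn (fun z => v x₀ (chartAt 𝔼 x₀ z)) (fun z => v x₁ (chartAt 𝔼 x₁ z))
      (((chartAt 𝔼 x₀).source ∩ O) ∩ ((chartAt 𝔼 x₁).source ∩ O)) := by
    intro x₀ x₁
    have hopn : IsOpen (((chartAt 𝔼 x₀).source ∩ O) ∩ ((chartAt 𝔼 x₁).source ∩ O)) :=
      ((chartAt 𝔼 x₀).open_source.inter hO).inter ((chartAt 𝔼 x₁).open_source.inter hO)
    refine Measure.eqOn_open_of_ae_eq (μ := (μHE[n] : Measure M)) ?_ hopn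
      ((hcont x₀).mono inter_subset_left) ((hcont x₁).mono inter_subset_right)
    rw [EventuallyEq, ae_restrict_iff' hopn.measurableSet]
    filter_upwards [hae x₀, hae x₁] with z h1 h2 hz
    rw [h1 hz.1, h2 hz.2]
  set U : M → ℝ := fun z => v z (chartAt 𝔼 z z) with hU
  have hUeq : ∀ x₀ : M, ∀ z ∈ (chartAt 𝔼 x₀).source ∩ O, U z = v x₀ (chartAt 𝔼 x₀ z) := by
    intro x₀ z hz
    exact hcons z x₀ ⟨⟨mem_chart_source 𝔼 z, hz.2⟩, hz⟩
  have hUsm : ∀ z ∈ O, ContMDiffAt (𝓡 n) 𝓘(ℝ, ℝ) ∞ U z := by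
    intro z hz
    have hzs := mem_chart_source 𝔼 z
    have hzc : chartAt 𝔼 z z ∈ cO (n := n) z O := ⟨(chartAt 𝔼 z).map_source hzs, by
      rw [mem_preimage, (chartAt 𝔼 z).left_inv hzs]; exact hz⟩
    have h1 : ContDiffAt ℝ ∞ (v z) (chartAt 𝔼 z z) :=
      (hv1 z).contDiffAt ((isOpen_cO z hO).mem_nhds hzc)
    have h2 : ContMDiffAt (𝓡 n) 𝓘(ℝ, ℝ) ∞ (fun y => v z (chartAt 𝔼 z y)) z :=
      h1.contMDiffAt.comp z ((contMDiffOn_chart (I := 𝓡 n) (n := ∞) (x := z)).contMDiffAt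
          ((chartAt 𝔼 z).open_source.mem_nhds hzs))
    refine h2.congr_of_eventuallyEq ?_
    filter_upwards [((chartAt 𝔼 z).open_source.inter hO).mem_nhds ⟨hzs, hz⟩] with y hy
    exact hUeq z y hy
  refine ⟨U, fun z hz => (hUsm z hz).contMDiffWithinAt, ?_, ?_⟩
  · -- a.e. equality
    obtain ⟨s, hs, hsu⟩ := TopologicalSpace.countable_cover_nhds
      (f := fun x : M => (chartAt 𝔼 x).source) (fun x => chart_source_mem_nhds 𝔼 x)
    have h1 : ∀ᵐ z ∂(μHE[n] : Measure M), ∀ x₀ ∈ s, z ∈ (chartAt 𝔼 x₀).source ∩ O →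
        v x₀ (chartAt 𝔼 x₀ z) = u z := (ae_ball_iff hs).2 fun x₀ _ => hae x₀
    filter_upwards [h1] with z hz hzO
    have h2 : z ∈ ⋃ x ∈ s, (chartAt 𝔼 x).source := by rw [hsu]; trivial
    rw [mem_iUnion₂] at h2
    obtain ⟨x₀, hx₀, hzx⟩ := h2
    rw [hUeq x₀ z ⟨hzx, hzO⟩]
    exact hz x₀ hx₀ ⟨hzx, hzO⟩
  · intro z hz
    have hzs := mem_chart_source 𝔼 z
    have hzc : chartAt 𝔼 z z ∈ cO (n := n) z O := ⟨(chartAt 𝔼 z).map_source hzs, by
      rw [mem_preimage, (chartAt 𝔼 z).left_inv hzs]; exact hz⟩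
    rw [mLap_chart' hzs ((hUsm z hz).of_le Bo84.two_le_infty)]
    have h1 := hv3 z _ hzc
    rw [(chartAt 𝔼 z).left_inv hzs] at h1
    rw [← h1]
    refine lap_congr ?_
    filter_upwards [(isOpen_cO z hO).mem_nhds hzc] with y hy
    have h2 : (chartAt 𝔼 z).symm y ∈ (chartAt 𝔼 z).source ∩ O :=
      ⟨(chartAt 𝔼 z).map_target hy.1, hy.2⟩
    rw [inCh, hUeq z _ h2, (chartAt 𝔼 z).right_inv hy.1]

end

end Crest.Agent.R249.HRep308
end

-- ▼ part R249/HRep2_308
section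

/-!
R249, D3-DECAY (helper308), harmonic replacement, part 2 (abstract): projection of a vector field on
the closure of the gradients of the test functions supported in an open set, over a gradient
structure `GradS`; identification of the limit gradient (closability).
-/

set_option autoImplicit false
set_option linter.unusedSectionVars false

open MeasureTheory Filter Topology Set
open scoped RealInnerProductSpace ENNReal NNReal
open Crest.Agent.R247.Dir593 Crest.Agent.R247.Dir593.GradS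

namespace Crest.Agent.R249.HRep308

noncomputable section

variable {X : Type*} [MetricSpace X] [MeasurableSpace X] [BorelSpace X] {F : Type*}
  [NormedAddCommGroup F] [InnerProductSpace ℝ F] [CompleteSpace F] {μ : Measure X}
  [IsFiniteMeasureOnCompacts μ] (S : GradS X F μ)

omit [CompleteSpace F] in
theorem tL_add {f g : X → ℝ} (hf : IsT f) (hg : IsT g) :
    (tL (hf.add hg) : Lp ℝ 2 μ) = tL hf + tL hg := by
  ext1
  filter_upwards [coe_tL (μ := μ) (hf.add hg), Lp.coeFn_add (tL hf : Lp ℝ 2 μ) (tL hg),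
    coe_tL (μ := μ) hf, coe_tL (μ := μ) hg] with x e1 e2 e3 e4
  rw [e1, e2, Pi.add_apply, e3, e4]

omit [CompleteSpace F] in
theorem tL_smul {f : X → ℝ} (c : ℝ) (hf : IsT f) :
    (tL (hf.smul c) : Lp ℝ 2 μ) = c • tL hf := by
  ext1
  filter_upwards [coe_tL (μ := μ) (hf.smul c), Lp.coeFn_smul c (tL hf : Lp ℝ 2 μ),
    coe_tL (μ := μ) hf] with x e1 e2 e3
  rw [e1, e2, Pi.smul_apply, e3, smul_eq_mul]

omit [CompleteSpace F] in
theorem tL_sub {f g : X → ℝ} (hf : IsT f) (hg : IsT g) :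
    (tL (hf.sub hg) : Lp ℝ 2 μ) = tL hf - tL hg := by
  ext1
  filter_upwards [coe_tL (μ := μ) (hf.sub hg), Lp.coeFn_sub (tL hf : Lp ℝ 2 μ) (tL hg),
    coe_tL (μ := μ) hf, coe_tL (μ := μ) hg] with x e1 e2 e3 e4
  rw [e1, e2, Pi.sub_apply, e3, e4]

theorem tsupport_add_sub {f g : X → ℝ} {O : Set X} (hf : tsupport f ⊆ O) (hg : tsupport g ⊆ O) :
    tsupport (fun y => f y + g y) ⊆ O :=
  (tsupport_add f g).trans (union_subset hf hg)

theorem tsupport_smul_sub {f : X → ℝ} {O : Set X} (c : ℝ) (hf : tsupport f ⊆ O) :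
    tsupport (fun y => c * f y) ⊆ O :=
  (tsupport_mul_subset_right (f := fun _ => c) (g := f)).trans hf

theorem tsupport_sub_sub {f g : X → ℝ} {O : Set X} (hf : tsupport f ⊆ O) (hg : tsupport g ⊆ O) :
    tsupport (fun y => f y - g y) ⊆ O := by
  have := tsupport_add_sub hf (tsupport_smul_sub (-1) hg)
  convert this using 3
  ring

/-- gradients of the test functions supported in `O` -/
def gO (O : Set X) : Submodule ℝ (Lp F 2 μ) where
  carrier := {p | ∃ (f : X → ℝ) (hf : IsT f), tsupport f ⊆ O ∧ p = S.D (tL hf)}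
  zero_mem' := by
    refine ⟨fun _ => 0, IsT.zero, ?_, ?_⟩
    · have : tsupport (fun _ : X => (0:ℝ)) = ∅ := by rw [tsupport_eq_empty_iff]; rfl
      rw [this]; exact empty_subset _
    · have h : (tL (IsT.zero (X := X)) : Lp ℝ 2 μ) = 0 := by
        ext1
        filter_upwards [coe_tL (μ := μ) (IsT.zero (X := X)), Lp.coeFn_zero ℝ 2 μ] with x e1 e2
        rw [e1, e2]; rfl
      rw [h, S.D_zero]
  add_mem' := by
    rintro _ _ ⟨f, hf, hfO, rfl⟩ ⟨g, hg, hgO, rfl⟩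
    exact ⟨_, hf.add hg, tsupport_add_sub hfO hgO, by
      rw [tL_add hf hg, S.D_add (S.tL_mem hf) (S.tL_mem hg)]⟩
  smul_mem' := by
    rintro c _ ⟨f, hf, hfO, rfl⟩
    exact ⟨_, hf.smul c, tsupport_smul_sub c hfO, by
      rw [tL_smul c hf, S.D_smul c (S.tL_mem hf)]⟩

theorem mem_gO {O : Set X} {f : X → ℝ} (hf : IsT f) (hfO : tsupport f ⊆ O) :
    S.D (tL hf) ∈ gO S O := ⟨f, hf, hfO, rfl⟩

/-- **projection on the gradients supported in `O`** -/
theorem exists_proj (O : Set X) {P : ℝ} (hP0 : 0 ≤ P)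
    (hP : ∀ (f : X → ℝ) (hf : IsT f), tsupport f ⊆ O →
      ‖(tL hf : Lp ℝ 2 μ)‖ ^ 2 ≤ P * ‖S.D (tL hf)‖ ^ 2) (v : Lp F 2 μ) :
    ∃ (f : ℕ → X → ℝ) (hf : ∀ k, IsT (f k)) (E : Lp ℝ 2 μ) (q : Lp F 2 μ),
      (∀ k, tsupport (f k) ⊆ O) ∧ Tendsto (fun k => (tL (hf k) : Lp ℝ 2 μ)) atTop (𝓝 E) ∧
      Tendsto (fun k => S.D (tL (hf k))) atTop (𝓝 q) ∧
      (∀ (g : X → ℝ) (hg : IsT g), tsupport g ⊆ O → ⟪q, S.D (tL hg)⟫ = ⟪v, S.D (tL hg)⟫) ∧
      ⟪q, q⟫ = ⟪v, q⟫ := by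
  set W : Submodule ℝ (Lp F 2 μ) := (gO S O).topologicalClosure with hW
  have hWc : IsClosed (W : Set (Lp F 2 μ)) := Submodule.isClosed_topologicalClosure _
  haveI : CompleteSpace W := hWc.completeSpace_coe
  set q : Lp F 2 μ := W.starProjection v with hq
  have hqW : q ∈ W := W.starProjection_apply_mem v
  have horth : ∀ w ∈ W, ⟪v - q, w⟫ = 0 := fun w hw => W.starProjection_inner_eq_zero v w hw
  obtain ⟨p, hp, hpt⟩ := mem_closure_iff_seq_limit.1
    (show q ∈ closure (gO S O : Set (Lp F 2 μ)) from hqW)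
  choose f hf hfO hfp using hp
  have hD : Tendsto (fun k => S.D (tL (hf k))) atTop (𝓝 q) := by
    have e : (fun k => S.D (tL (hf k))) = p := by funext k; exact (hfp k).symm
    rw [e]; exact hpt
  have hdiff : ∀ k l, ‖(tL (hf k) : Lp ℝ 2 μ) - tL (hf l)‖ ≤
      √P * ‖S.D (tL (hf k)) - S.D (tL (hf l))‖ := by
    intro k l
    have h1 := hP _ ((hf k).sub (hf l)) (tsupport_sub_sub (hfO k) (hfO l))
    rw [tL_sub (hf k) (hf l), S.D_sub (S.tL_mem (hf k)) (S.tL_mem (hf l))] at h1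
    refine le_of_sq_le_sq (h1.trans (le_of_eq ?_)) (by positivity)
    rw [mul_pow, Real.sq_sqrt hP0]
  have hcau : CauchySeq (fun k => (tL (hf k) : Lp ℝ 2 μ)) := by
    rw [cauchySeq_iff_tendsto_dist_atTop_0]
    have h1 := (cauchySeq_iff_tendsto_dist_atTop_0.1 hD.cauchySeq).const_mul √P
    rw [mul_zero] at h1
    refine squeeze_zero (fun _ => dist_nonneg) (fun kl => ?_) h1
    rw [dist_eq_norm, dist_eq_norm]
    exact hdiff kl.1 kl.2
  obtain ⟨E, hE⟩ := cauchySeq_tendsto_of_complete hcau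
  refine ⟨f, hf, E, q, hfO, hE, hD, fun g hg hgO => ?_, ?_⟩
  · have h1 := horth _ (Submodule.le_topologicalClosure _ (mem_gO S hg hgO))
    rw [inner_sub_left, sub_eq_zero] at h1
    exact h1.symm
  · have h1 := horth _ hqW
    rw [inner_sub_left, sub_eq_zero] at h1
    exact h1.symm

theorem exists_bound_G {χ : X → ℝ} (hχ : IsT χ) : ∃ C : ℝ, 0 ≤ C ∧ (∀ x, |χ x| ≤ C) ∧
    ∀ᵐ x ∂μ, ‖S.G χ x‖ ≤ C := by
  obtain ⟨B, hB⟩ := hχ.1.continuous.bounded_above_of_compact_support hχ.2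
  obtain ⟨C, hC0, hC⟩ := S.bound_compact hχ.1 hχ.2.isCompact
  have h0 := S.zero_of_open hχ.1 (isClosed_tsupport χ).isOpen_compl
    (fun x hx => image_eq_zero_of_notMem_tsupport hx)
  refine ⟨max C (max B 0), le_max_of_le_left hC0, fun x => ?_, ?_⟩
  · exact (hB x).trans ((le_max_left _ _).trans (le_max_right _ _))
  · filter_upwards [hC, h0] with x e1 e2
    by_cases hx : x ∈ tsupport χ
    · exact (e1 hx).trans (le_max_left _ _)
    · rw [e2 hx, norm_zero]; exact le_max_of_le_left hC0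

/-- **identification of the limit gradient**: if `f k → E`, `∇ f k → q` in `L²` and `χ U` is a test
function with `U = E` a.e. on `{χ ≠ 0}`, then `∇(χ U) = E ∇χ + χ q`. -/
theorem limit_gradient {f : ℕ → X → ℝ} (hf : ∀ k, IsT (f k)) {E : Lp ℝ 2 μ} {q : Lp F 2 μ}
    (hE : Tendsto (fun k => (tL (hf k) : Lp ℝ 2 μ)) atTop (𝓝 E))
    (hq : Tendsto (fun k => S.D (tL (hf k))) atTop (𝓝 q))
    {χ w : X → ℝ} (hχ : IsT χ) (hw : IsT w) (hwE : ∀ᵐ x ∂μ, w x = χ x * E x) :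
    ∀ᵐ x ∂μ, S.G w x = E x • S.G χ x + χ x • q x := by
  obtain ⟨C, hC0, hCχ, hCG⟩ := exists_bound_G S hχ
  have hEt := (Lp.tendsto_Lp_iff_tendsto_eLpNorm' _ _).1 hE
  have hqt := (Lp.tendsto_Lp_iff_tendsto_eLpNorm' _ _).1 hq
  set g : X → F := fun x => (E x • S.G χ x + χ x • q x) - S.G w x with hg
  have hgm : MemLp g 2 μ := by
    refine MemLp.sub (MemLp.add ?_ ?_) (hw.memLpG S)
    · refine MemLp.of_le_mul (c := C) (Lp.memLp E) ((Lp.memLp E).1.smul (S.meas hχ.1)) ?_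
      filter_upwards [hCG] with x hx
      rw [norm_smul, mul_comm]
      exact mul_le_mul_of_nonneg_right hx (norm_nonneg _)
    · refine MemLp.of_le_mul (c := C) (Lp.memLp q)
        (hχ.1.continuous.aestronglyMeasurable.smul (Lp.memLp q).1) ?_
      refine Eventually.of_forall fun x => ?_
      rw [norm_smul]
      exact mul_le_mul_of_nonneg_right (hCχ x) (norm_nonneg _)
  have hclos := S.closable (fun k x => f k x * χ x - w x) g
    (fun k => ((hf k).mul hχ.1).sub hw) ?_ hgm ?_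
  · filter_upwards [hclos] with x hx
    have : g x = 0 := hx
    rw [hg] at this
    exact (sub_eq_zero.1 this).symm
  · -- convergence of the functions
    have hb : ∀ k, eLpNorm (fun x => f k x * χ x - w x) 2 μ ≤ ENNReal.ofReal C *
        eLpNorm (⇑(tL (hf k) : Lp ℝ 2 μ) - ⇑E) 2 μ := by
      intro k
      refine eLpNorm_le_mul_eLpNorm_of_ae_le_mul ?_ 2
      filter_upwards [hwE, coe_tL (μ := μ) (hf k)] with x e1 e2
      rw [Pi.sub_apply, e2, e1, show f k x * χ x - χ x * E x = χ x * (f k x - E x) by ring, norm_mul]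
      exact mul_le_mul_of_nonneg_right (hCχ x) (norm_nonneg _)
    have h2 := ENNReal.Tendsto.const_mul hEt (Or.inr (ENNReal.ofReal_ne_top (r := C)))
    rw [mul_zero] at h2
    exact tendsto_of_tendsto_of_tendsto_of_le_of_le tendsto_const_nhds h2 (fun _ => bot_le) hb
  · -- convergence of the gradients
    have hb : ∀ k, eLpNorm (fun x => S.G (fun x => f k x * χ x - w x) x - g x) 2 μ ≤
        ENNReal.ofReal C * eLpNorm (⇑(tL (hf k) : Lp ℝ 2 μ) - ⇑E) 2 μ +
        ENNReal.ofReal C * eLpNorm (⇑(S.D (tL (hf k))) - ⇑q) 2 μ := by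
      intro k
      have ha : AEStronglyMeasurable (fun x => ((tL (hf k) : Lp ℝ 2 μ) x - E x) • S.G χ x) μ :=
        ((Lp.memLp (tL (hf k) : Lp ℝ 2 μ)).1.sub (Lp.memLp E).1).smul (S.meas hχ.1)
      have hb : AEStronglyMeasurable (fun x => χ x • (S.D (tL (hf k)) x - q x)) μ :=
        hχ.1.continuous.aestronglyMeasurable.smul
          ((Lp.memLp (S.D (tL (hf k)))).1.sub (Lp.memLp q).1)
      have h1 : eLpNorm (fun x => S.G (fun x => f k x * χ x - w x) x - g x) 2 μ =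
          eLpNorm (fun x => ((tL (hf k) : Lp ℝ 2 μ) x - E x) • S.G χ x +
            χ x • (S.D (tL (hf k)) x - q x)) 2 μ := by
        refine eLpNorm_congr_ae ?_
        filter_upwards [S.sub (locLip_mul (hf k).1 hχ.1) hw.1, S.mul (hf k).1 hχ.1,
          coe_tL (μ := μ) (hf k), S.D_tL (hf k)] with x e1 e2 e3 e4
        rw [e1, e2, hg, e3, e4]
        module
      rw [h1]
      refine (eLpNorm_add_le ha hb (by norm_num)).trans (add_le_add ?_ ?_)
      · refine eLpNorm_le_mul_eLpNorm_of_ae_le_mul ?_ 2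
        filter_upwards [hCG] with x hx
        rw [norm_smul, mul_comm, Pi.sub_apply]
        exact mul_le_mul_of_nonneg_right hx (norm_nonneg _)
      · refine eLpNorm_le_mul_eLpNorm_of_ae_le_mul ?_ 2
        refine Eventually.of_forall fun x => ?_
        rw [norm_smul, Pi.sub_apply]
        exact mul_le_mul_of_nonneg_right (hCχ x) (norm_nonneg _)
    have h2 := ENNReal.Tendsto.const_mul hEt (Or.inr (ENNReal.ofReal_ne_top (r := C)))
    have h3 := ENNReal.Tendsto.const_mul hqt (Or.inr (ENNReal.ofReal_ne_top (r := C)))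
    have h4 := h2.add h3
    rw [mul_zero, add_zero] at h4
    exact tendsto_of_tendsto_of_tendsto_of_le_of_le tendsto_const_nhds h4 (fun _ => bot_le) hb

end

end Crest.Agent.R249.HRep308
end

-- ▼ part R249/HRep3_308

/-!
R249, D3-DECAY (helper308), harmonic replacement, part 3: **harmonic replacement** on an open set `O`
of a Riemannian manifold on which the Poincaré inequality for compactly supported functions holds.
-/

set_option autoImplicit false
set_option maxSynthPendingDepth 3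
set_option linter.unusedSectionVars false
open scoped ContDiff ENNReal NNReal Topology Manifold Bundle RealInnerProductSpace
open MeasureTheory Set Filter Metric Bundle
open Crest.GeometryTopology.CoordMetric Crest.GeometryTopology.ChartCurvature
open Crest.Agent.R247 Crest.Agent.R247.Ms322
open Crest.Agent.R247.Dir593 Crest.Agent.R247.Frd657
open Crest.Agent.R247.Dir593.GradS (IsT tL coe_tL)
open Crest.Agent.R247.Bo84 (mLap)

namespace Crest.Agent.R249.HRep308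

noncomputable section

theorem norm_sq_Lp {α G : Type*} [MeasurableSpace α] {ν : Measure α} [NormedAddCommGroup G]
    [InnerProductSpace ℝ G] (u : Lp G 2 ν) : ‖u‖ ^ 2 = ∫ x, ‖u x‖ ^ 2 ∂ν := by
  rw [← real_inner_self_eq_norm_sq, L2.inner_def]
  simp only [real_inner_self_eq_norm_sq]

theorem norm_sq_toLp {α G : Type*} [MeasurableSpace α] {ν : Measure α} [NormedAddCommGroup G]
    [InnerProductSpace ℝ G] {f : α → G} (hf : MemLp f 2 ν) :
    ‖hf.toLp f‖ ^ 2 = ∫ x, ‖f x‖ ^ 2 ∂ν := by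
  rw [norm_sq_Lp]
  refine integral_congr_ae ?_
  filter_upwards [hf.coeFn_toLp] with x hx
  rw [hx]

variable {n : ℕ} {M : Type*} [MetricSpace M] [ChartedSpace (EuclideanSpace ℝ (Fin n)) M]
  [IsManifold (𝓡 n) ∞ M]
  [RiemannianBundle (fun p : M => TangentSpace (𝓡 n) p)]
  [IsContMDiffRiemannianBundle (𝓡 n) ∞ (EuclideanSpace ℝ (Fin n)) (fun p : M => TangentSpace (𝓡 n) p)]
  [IsRiemannianManifold (𝓡 n) M] [MeasurableSpace M] [BorelSpace M]
  [SecondCountableTopology M] [Nonempty M]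

local notation "𝔼" => EuclideanSpace ℝ (Fin n)
local notation "μM" => (μHE[n] : Measure M)

theorem ctAt {O : Set M} (hO : IsOpen O) {f : M → ℝ} (hf : ContMDiffOn (𝓡 n) 𝓘(ℝ, ℝ) ∞ f O)
    {z : M} (hz : z ∈ O) : ContMDiffAt (𝓡 n) 𝓘(ℝ, ℝ) ∞ f z :=
  hf.contMDiffAt (hO.mem_nhds hz)

theorem LLo_of_ct {O : Set M} (hO : IsOpen O) {f : M → ℝ}
    (hf : ContMDiffOn (𝓡 n) 𝓘(ℝ, ℝ) ∞ f O) : LLo O f :=
  LLo.of_contMDiffAt (n := n) fun z hz => (ctAt hO hf hz).of_le (by simp)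

theorem Gr_sub_of {f g : M → ℝ} {z : M} (hf : MDifferentiableAt (𝓡 n) 𝓘(ℝ) f z)
    (hg : MDifferentiableAt (𝓡 n) 𝓘(ℝ) g z) :
    Gr (n := n) (fun y => f y - g y) z = Gr f z - Gr g z := by
  have h1 : (fun y => f y - g y) = fun y => f y + (-1) * g y := by funext y; ring
  have h2 : MDifferentiableAt (𝓡 n) 𝓘(ℝ) (fun y => (-1) * g y) z :=
    mdifferentiableAt_const.mul hg
  rw [h1, Gr_add hf h2, Gr_const_mul (-1) hg]
  module

/-- Green's formula against the class of a test function supported in `O`. -/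
theorem inner_v {O : Set M} (hO : IsOpen O) {Fn : M → ℝ}
    (hF : ContMDiffOn (𝓡 n) 𝓘(ℝ, ℝ) ∞ Fn O)
    (hFG : MemLp (O.indicator (Gr (n := n) Fn)) 2 μM)
    [IsFiniteMeasureOnCompacts μM] {φ : M → ℝ} (hφ : IsT φ) (hφO : tsupport φ ⊆ O) :
    ⟪hFG.toLp _, (gradS n M).D (tL hφ)⟫ = - ∫ z, φ z * mLap n Fn z ∂μM := by
  rw [← ibp_mLap (n := n) hO (fun z hz => (ctAt hO hF hz).of_le Bo84.two_le_infty) hφ.1 hφ.2 hφO,
    L2.inner_def]
  refine integral_congr_ae ?_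
  filter_upwards [hFG.coeFn_toLp, (gradS n M).D_tL hφ] with z e1 e2
  rw [e1, e2, gradS_G]
  by_cases hz : z ∈ O
  · rw [indicator_of_mem hz]
  · rw [Gr_zero_off (fun h => hz (hφO h)), inner_zero_right, inner_zero_right]

/-- the limit of the test functions solves the equation in the sense of distributions. -/
theorem distLap_limit {O : Set M} (hO : IsOpen O) {Fn : M → ℝ}
    (hF : ContMDiffOn (𝓡 n) 𝓘(ℝ, ℝ) ∞ Fn O)
    (hFG : MemLp (O.indicator (Gr (n := n) Fn)) 2 μM)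
    [IsFiniteMeasureOnCompacts μM] {f : ℕ → M → ℝ} (hf : ∀ k, IsT (f k)) {E : Lp ℝ 2 μM}
    {q : Lp 𝔼 2 μM} (hE : Tendsto (fun k => (tL (hf k) : Lp ℝ 2 μM)) atTop (𝓝 E))
    (hq : Tendsto (fun k => (gradS n M).D (tL (hf k))) atTop (𝓝 q))
    (ho : ∀ (g : M → ℝ) (hg : IsT g), tsupport g ⊆ O →
      ⟪q, (gradS n M).D (tL hg)⟫ = ⟪hFG.toLp _, (gradS n M).D (tL hg)⟫) :
    DistLap (n := n) O (fun z => E z) (mLap n Fn) := by
  intro φ hφ hc hs
  have hφT : IsT φ := ⟨locLip_of_contMDiff (n := n) (hφ.of_le (by simp)), hc⟩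
  have hLc : Continuous (mLap n φ) := by
    rw [← continuousOn_univ]
    exact continuousOn_mLap fun z _ => (hφ z).of_le Bo84.two_le_infty
  have hLs : HasCompactSupport (mLap n φ) := by
    refine hc.of_isClosed_subset (isClosed_tsupport _) (closure_minimal ?_ (isClosed_tsupport φ))
    intro z hz
    by_contra h
    apply hz
    have hev : φ =ᶠ[𝓝 z] fun _ => 0 := by
      filter_upwards [(isClosed_tsupport φ).isOpen_compl.mem_nhds h] with y hy
      exact image_eq_zero_of_notMem_tsupport hy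
    rw [Bo84.mLap_congr hev, Bo84.mLap_const]
  have hL2 : MemLp (mLap n φ) 2 μM := hLc.memLp_of_hasCompactSupport hLs
  -- both sides as limits
  have t1 : Tendsto (fun k => (⟪(tL (hf k) : Lp ℝ 2 μM), hL2.toLp _⟫ : ℝ)) atTop
      (𝓝 ⟪E, hL2.toLp _⟫) := hE.inner tendsto_const_nhds
  have t2 : Tendsto (fun k => - (⟪(gradS n M).D (tL (hf k)), (gradS n M).D (tL hφT)⟫ : ℝ)) atTop
      (𝓝 (-⟪q, (gradS n M).D (tL hφT)⟫)) := (hq.inner tendsto_const_nhds).neg
  have e12 : (fun k => (⟪(tL (hf k) : Lp ℝ 2 μM), hL2.toLp _⟫ : ℝ)) =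
      fun k => - (⟪(gradS n M).D (tL (hf k)), (gradS n M).D (tL hφT)⟫ : ℝ) := by
    funext k
    have h1 := ibp_mLap (n := n) (U := univ) isOpen_univ (f := φ) (φ := f k)
      (fun z _ => (hφ z).of_le Bo84.two_le_infty) (hf k).1 (hf k).2 (subset_univ _)
    have e1 : ⟪(tL (hf k) : Lp ℝ 2 μM), hL2.toLp _⟫ = ∫ z, f k z * mLap n φ z ∂μM := by
      rw [L2.inner_def]
      refine integral_congr_ae ?_
      filter_upwards [coe_tL (μ := μM) (hf k), hL2.coeFn_toLp] with z a1 a2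
      rw [a1, a2]
      simp [mul_comm]
    have e2 : ⟪(gradS n M).D (tL (hf k)), (gradS n M).D (tL hφT)⟫ =
        ∫ z, ⟪Gr (n := n) φ z, Gr (n := n) (f k) z⟫ ∂μM := by
      rw [L2.inner_def]
      refine integral_congr_ae ?_
      filter_upwards [(gradS n M).D_tL (hf k), (gradS n M).D_tL hφT] with z a1 a2
      rw [a1, a2, gradS_G, real_inner_comm]
    rw [e1, e2, h1, neg_neg]
  rw [e12] at t1
  have h2 := tendsto_nhds_unique t1 t2
  have e3 : ∫ z, E z * mLap n φ z ∂μM = ⟪E, hL2.toLp _⟫ := by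
    rw [L2.inner_def]
    refine integral_congr_ae ?_
    filter_upwards [hL2.coeFn_toLp] with z a2
    rw [a2]
    simp [mul_comm]
  rw [e3, h2, ho φ hφT hs, inner_v hO hF hFG hφT hs, neg_neg]
  refine integral_congr_ae (Eventually.of_forall fun z => ?_)
  simp only [mul_comm]

/-- the limit gradient is the gradient of the smooth representative. -/
theorem q_eq_Gr {O : Set M} (hO : IsOpen O) [IsFiniteMeasureOnCompacts μM] {f : ℕ → M → ℝ}
    (hf : ∀ k, IsT (f k)) {E : Lp ℝ 2 μM}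
    {q : Lp 𝔼 2 μM} (hE : Tendsto (fun k => (tL (hf k) : Lp ℝ 2 μM)) atTop (𝓝 E))
    (hq : Tendsto (fun k => (gradS n M).D (tL (hf k))) atTop (𝓝 q))
    {U : M → ℝ} (hU : ContMDiffOn (𝓡 n) 𝓘(ℝ, ℝ) ∞ U O)
    (hUE : ∀ᵐ z ∂μM, z ∈ O → U z = E z) : ∀ᵐ z ∂μM, z ∈ O → q z = Gr (n := n) U z := by
  have := locallyCompactSpace n M
  rw [ae_iff]
  refine measure_null_of_locally_null _ fun z hz => ?_
  have hzO : z ∈ O := by
    by_contra h
    exact hz fun h' => absurd h' h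
  obtain ⟨χ, ⟨L, hL⟩, hχc, hχO, ⟨V, hVo, hzV, hV1⟩, -⟩ :=
    exists_lip_cutoff (isCompact_singleton (x := z)) hO (singleton_subset_iff.2 hzO)
  have hχT : IsT χ := ⟨hL.locallyLipschitz, hχc⟩
  have hwT : IsT (fun y => χ y * U y) :=
    ⟨LLo.mul_supp hL.locallyLipschitz (LLo_of_ct hO hU) hχO, hχc.mul_right⟩
  have hwE : ∀ᵐ y ∂μM, χ y * U y = χ y * E y := by
    filter_upwards [hUE] with y hy
    by_cases hyO : y ∈ O
    · rw [hy hyO]
    · rw [image_eq_zero_of_notMem_tsupport (fun h => hyO (hχO h)), zero_mul, zero_mul]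
  have hlim := limit_gradient (gradS n M) hf hE hq hχT hwT hwE
  refine ⟨{y | ¬(y ∈ O → q y = Gr (n := n) U y)} ∩ V,
    inter_mem_nhdsWithin _ (hVo.mem_nhds (hzV (mem_singleton z))), ?_⟩
  refine measure_mono_null ?_ (ae_iff.1 hlim)
  rintro y ⟨hy, hyV⟩ hd
  apply hy
  intro _
  have h1 : Gr (n := n) (fun y => χ y * U y) y = Gr U y := by
    refine Gr_congr ?_
    filter_upwards [hVo.mem_nhds hyV] with y' hy'
    rw [hV1 y' hy', one_mul]
  have h2 : Gr (n := n) χ y = 0 := by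
    rw [Gr_congr (g := fun _ => (1:ℝ)) (by filter_upwards [hVo.mem_nhds hyV] with y' hy' using hV1 y' hy'),
      Gr_const]
  rw [gradS_G, h1, h2, smul_zero, zero_add, hV1 y hyV, one_smul] at hd
  exact hd.symm

/-- **Harmonic replacement.** -/
theorem hrep {O : Set M} (hO : IsOpen O) {P : ℝ} (hP0 : 0 ≤ P)
    (hP : ∀ f : M → ℝ, IsT f → tsupport f ⊆ O →
      ∫ z, f z ^ 2 ∂μM ≤ P * ∫ z, ‖Gr (n := n) f z‖ ^ 2 ∂μM)
    {Fn : M → ℝ} (hF : ContMDiffOn (𝓡 n) 𝓘(ℝ, ℝ) ∞ Fn O)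
    (hFG : MemLp (O.indicator (Gr (n := n) Fn)) 2 μM)
    (hFL : MemLp (O.indicator (mLap n Fn)) 2 μM) :
    ∃ H : M → ℝ, ContMDiffOn (𝓡 n) 𝓘(ℝ, ℝ) ∞ H O ∧ (∀ z ∈ O, mLap n H z = 0) ∧
      MemLp (O.indicator (Gr (n := n) H)) 2 μM ∧
      ∫ z in O, ‖Gr (n := n) H z‖ ^ 2 ∂μM ≤ ∫ z in O, ‖Gr (n := n) Fn z‖ ^ 2 ∂μM ∧
      ∫ z in O, ‖Gr (n := n) Fn z - Gr (n := n) H z‖ ^ 2 ∂μM ≤
        P * ∫ z in O, mLap n Fn z ^ 2 ∂μM := by
  have := Gs939.finOnCompacts (n := n) (M := M)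
  set v : Lp 𝔼 2 μM := hFG.toLp _ with hv
  have hP' : ∀ (f : M → ℝ) (hf : IsT f), tsupport f ⊆ O →
      ‖(tL hf : Lp ℝ 2 μM)‖ ^ 2 ≤ P * ‖(gradS n M).D (tL hf)‖ ^ 2 := by
    intro f hf hs
    have e1 : ‖(tL hf : Lp ℝ 2 μM)‖ ^ 2 = ∫ z, f z ^ 2 ∂μM := by
      rw [norm_sq_Lp]
      refine integral_congr_ae ?_
      filter_upwards [coe_tL (μ := μM) hf] with z hz
      rw [hz, Real.norm_eq_abs, sq_abs]
    have e2 : ‖(gradS n M).D (tL hf)‖ ^ 2 = ∫ z, ‖Gr (n := n) f z‖ ^ 2 ∂μM := by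
      rw [norm_sq_Lp]
      refine integral_congr_ae ?_
      filter_upwards [(gradS n M).D_tL hf] with z hz
      rw [hz, gradS_G]
    rw [e1, e2]
    exact hP f hf hs
  obtain ⟨f, hf, E, q, hfO, hE, hq, ho, hqq⟩ := exists_proj (gradS n M) O hP0 hP' v
  have hdist := distLap_limit hO hF hFG hf hE hq ho
  have hgsm : ContMDiffOn (𝓡 n) 𝓘(ℝ, ℝ) ∞ (mLap n Fn) O := fun z hz =>
    (Bo84.contMDiffAt_mLap (m := ∞) (ctAt hO hF hz) (by simp) le_rfl).contMDiffWithinAt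
  obtain ⟨U, hU, hUE, hUL⟩ := weyl (n := n) hO (Lp.memLp E) hgsm hdist
  have hqU := q_eq_Gr hO hf hE hq hU hUE
  have hdiff : ∀ {g : M → ℝ}, ContMDiffOn (𝓡 n) 𝓘(ℝ, ℝ) ∞ g O → ∀ z ∈ O,
      MDifferentiableAt (𝓡 n) 𝓘(ℝ) g z := fun hg z hz =>
    (ctAt hO hg hz).mdifferentiableAt (by simp)
  have hGrH : ∀ z ∈ O, Gr (n := n) (fun y => Fn y - U y) z = Gr Fn z - Gr U z := fun z hz =>
    Gr_sub_of (hdiff hF z hz) (hdiff hU z hz)
  have hOm := hO.measurableSet
  -- the class of the gradient of `H`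
  have hind : (O.indicator (Gr (n := n) (fun y => Fn y - U y))) =ᵐ[μM]
      O.indicator (fun z => (v - q : Lp 𝔼 2 μM) z) := by
    filter_upwards [hqU, hFG.coeFn_toLp, Lp.coeFn_sub v q] with z e1 e2 e3
    by_cases hz : z ∈ O
    · rw [indicator_of_mem hz, indicator_of_mem hz, hGrH z hz, e3, Pi.sub_apply, hv, e2,
        indicator_of_mem hz, e1 hz]
    · rw [indicator_of_notMem hz, indicator_of_notMem hz]
  have hnorm : ‖v‖ ^ 2 = ∫ z in O, ‖Gr (n := n) Fn z‖ ^ 2 ∂μM := by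
    rw [hv, norm_sq_toLp, ← integral_indicator hOm]
    refine integral_congr_ae (Eventually.of_forall fun z => ?_)
    by_cases hz : z ∈ O
    · simp [indicator_of_mem hz]
    · simp [indicator_of_notMem hz]
  refine ⟨fun y => Fn y - U y, hF.sub hU, fun z hz => ?_, ?_, ?_, ?_⟩
  · rw [Bo84.mLap_sub ((ctAt hO hF hz).of_le Bo84.two_le_infty)
      ((ctAt hO hU hz).of_le Bo84.two_le_infty), hUL z hz, sub_self]
  · exact (memLp_congr_ae hind).2 ((Lp.memLp (v - q)).indicator hOm)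
  · have h1 : ∫ z in O, ‖Gr (n := n) (fun y => Fn y - U y) z‖ ^ 2 ∂μM =
        ∫ z in O, ‖(v - q : Lp 𝔼 2 μM) z‖ ^ 2 ∂μM := by
      refine setIntegral_congr_ae hOm ?_
      filter_upwards [hind] with z hz hzO
      rw [indicator_of_mem hzO, indicator_of_mem hzO] at hz
      rw [hz]
    have h2 : ∫ z in O, ‖(v - q : Lp 𝔼 2 μM) z‖ ^ 2 ∂μM ≤ ‖v - q‖ ^ 2 := by
      rw [norm_sq_Lp]
      exact setIntegral_le_integral (integrable_sq (Lp.memLp (v - q)))
        (Eventually.of_forall fun z => by positivity)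
    have h3 : ‖v - q‖ ^ 2 = ‖v‖ ^ 2 - ‖q‖ ^ 2 := by
      rw [← real_inner_self_eq_norm_sq, ← real_inner_self_eq_norm_sq, ← real_inner_self_eq_norm_sq,
        inner_sub_left, inner_sub_right, inner_sub_right, real_inner_comm v q, ← hqq]
      ring
    rw [h1, ← hnorm]
    nlinarith [h2, h3, sq_nonneg ‖q‖]
  · have h1 : ∫ z in O, ‖Gr (n := n) Fn z - Gr (n := n) (fun y => Fn y - U y) z‖ ^ 2 ∂μM =
        ∫ z in O, ‖q z‖ ^ 2 ∂μM := by
      refine setIntegral_congr_ae hOm ?_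
      filter_upwards [hqU] with z hz hzO
      rw [hGrH z hzO, hz hzO]
      congr 2
      module
    have h2 : ∫ z in O, ‖q z‖ ^ 2 ∂μM ≤ ‖q‖ ^ 2 := by
      rw [norm_sq_Lp]
      exact setIntegral_le_integral (integrable_sq (Lp.memLp q))
        (Eventually.of_forall fun z => by positivity)
    set m : Lp ℝ 2 μM := hFL.toLp _ with hm
    have hmn : ‖m‖ ^ 2 = ∫ z in O, mLap n Fn z ^ 2 ∂μM := by
      rw [hm, norm_sq_toLp, ← integral_indicator hOm]
      refine integral_congr_ae (Eventually.of_forall fun z => ?_)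
      by_cases hz : z ∈ O
      · simp [indicator_of_mem hz]
      · simp [indicator_of_notMem hz]
    have hEq : ‖E‖ ^ 2 ≤ P * ‖q‖ ^ 2 :=
      le_of_tendsto_of_tendsto' (hE.norm.pow 2) ((hq.norm.pow 2).const_mul P)
        fun k => hP' _ (hf k) (hfO k)
    have hvq : ⟪v, q⟫ = -⟪E, m⟫ := by
      have t1 : Tendsto (fun k => (⟪v, (gradS n M).D (tL (hf k))⟫ : ℝ)) atTop (𝓝 ⟪v, q⟫) :=
        tendsto_const_nhds.inner hq
      have t2 : Tendsto (fun k => -(⟪(tL (hf k) : Lp ℝ 2 μM), m⟫ : ℝ)) atTop (𝓝 (-⟪E, m⟫)) :=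
        (hE.inner tendsto_const_nhds).neg
      refine tendsto_nhds_unique t1 ?_
      convert t2 using 2 with k
      rw [hv, inner_v hO hF hFG (hf k) (hfO k), L2.inner_def]
      congr 1
      refine integral_congr_ae ?_
      filter_upwards [coe_tL (μ := μM) (hf k), hFL.coeFn_toLp] with z a1 a2
      rw [a1, hm, a2]
      by_cases hz : z ∈ O
      · rw [indicator_of_mem hz]; simp [mul_comm]
      · rw [image_eq_zero_of_notMem_tsupport (fun h => hz (hfO k h))]; simp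
    have hq2 : ‖q‖ ^ 2 ≤ P * ‖m‖ ^ 2 := by
      have h3 : ‖q‖ ^ 2 ≤ ‖E‖ * ‖m‖ := by
        rw [← real_inner_self_eq_norm_sq, hqq, hvq]
        have := abs_real_inner_le_norm E m
        have h4 := neg_le_abs (⟪E, m⟫ : ℝ)
        linarith
      have h4 : (‖q‖ ^ 2) ^ 2 ≤ (P * ‖q‖ ^ 2) * ‖m‖ ^ 2 := by
        calc (‖q‖ ^ 2) ^ 2 ≤ (‖E‖ * ‖m‖) ^ 2 := by gcongr
          _ = ‖E‖ ^ 2 * ‖m‖ ^ 2 := by ring
          _ ≤ _ := by gcongr
      rcases (sq_nonneg ‖q‖).eq_or_lt with h0 | h0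
      · rw [← h0]; positivity
      · have h5 : ‖q‖ ^ 2 * ‖q‖ ^ 2 ≤ ‖q‖ ^ 2 * (P * ‖m‖ ^ 2) := by nlinarith [h4]
        exact le_of_mul_le_mul_left h5 h0
    rw [h1, ← hmn]
    exact h2.trans hq2

end

end Crest.Agent.R249.HRep308
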