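import Crest.Agent.R249.Near_274
import Crest.Agent.R247.Opn_79
import Crest.Agent.R247.Asm2_951
import Crest.Agent.R249.HRep3_308
import Crest.Agent.R249.StaD_509

-- ▼ part R249/Sta1_397
section

/-!
# R249, leaf D3-START (helper397), file 1: Hessian and Pythagoras data on a pinched manifold

From `Ric ≥ -δ` and volume pinching (scales `≤ 40` on `ball q 50`):

* `hf2` : for every centre `x` with `dist x q < 1` and every scale `dy k`, `k ≥ 4`, there is a smooth
  compactly supported function `w` with `∇w` close to `∇(d_x²/2)` and `Hess w` close to `g` in `L²`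
  of `ball x (6 dy k)`;
* `pyd` : for two centres `⟨∇f_x, ∇f_y⟩ - f_x - f_y` is `L¹` close to a constant on
  `ball x (dy k)`;
* `pyd_zero` : the constant is `-f_x(y)` up to a small error.
-/

set_option autoImplicit false
set_option maxSynthPendingDepth 3
set_option linter.unusedSectionVars false
set_option linter.unusedVariables false

open Bundle Bornology Set MeasureTheory Manifold Filter Metric Topology
open scoped ENNReal ContDiff Topology NNReal RealInnerProductSpace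
open Crest.GeometryTopology.CoordMetric Crest.GeometryTopology.ChartCurvature
open Crest.GeometryTopology.PointedLimit

noncomputable section

namespace Crest.Agent.R249.Sta1_397

universe u

open Crest.Agent.R242 Crest.Agent.R247 Crest.Agent.R247.Dir593 Crest.Agent.R247.Dir593.GradS
open Crest.Agent.R247.Smv126 Crest.Agent.R247.Obj554 Crest.Agent.R247.Hes124
open Crest.Agent.R247.Far553 Crest.Agent.R247.Mcp688 Crest.Agent.R247.Max193
open Crest.Agent.R247.Num824 Crest.Agent.R247.Fd656 Crest.Agent.R247.Loc710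

section block
variable {n : ℕ} {M : Type u} [MetricSpace M] [CompleteSpace M] [ConnectedSpace M]
    [ChartedSpace (EuclideanSpace ℝ (Fin n)) M]
    [IsManifold 𝓘(ℝ, EuclideanSpace ℝ (Fin n)) ∞ M]
    [RiemannianBundle (fun x : M => TangentSpace 𝓘(ℝ, EuclideanSpace ℝ (Fin n)) x)]
    [IsContMDiffRiemannianBundle 𝓘(ℝ, EuclideanSpace ℝ (Fin n)) ∞ (EuclideanSpace ℝ (Fin n))
      (fun x : M => TangentSpace 𝓘(ℝ, EuclideanSpace ℝ (Fin n)) x)]
    [IsRiemannianManifold 𝓘(ℝ, EuclideanSpace ℝ (Fin n)) M]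
    [MeasurableSpace M] [BorelSpace M] [ProperSpace M] [SecondCountableTopology M] [Nonempty M]
    [IsFiniteMeasureOnCompacts (Measure.euclideanHausdorffMeasure n : Measure M)]

/-- volume pinching at the point `q` -/
def Pin (n : ℕ) {M : Type u} [MetricSpace M] [MeasurableSpace M] [BorelSpace M] (δ : ℝ) (q : M)
    (R T : ℝ) : Prop :=
  ∀ x ∈ ball q R, ∀ r : ℝ, 0 < r → r ≤ T →
    ENNReal.ofReal (1 - δ) * volume (ball (0 : EuclideanSpace ℝ (Fin n)) r) ≤
      (Measure.euclideanHausdorffMeasure n : Measure M) (ball x r)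

variable (n) in
/-- the constant of the tail estimate -/
def CT : ℝ := 1024 * Ct n (c3 n / 64) (om n)

lemma CT_nonneg (n : ℕ) : 0 ≤ CT n := by
  have ha : 0 < c3 n / 64 := div_pos (c3_pos n) (by norm_num)
  have := Ct_nonneg n ha (om_pos n).le
  unfold CT
  positivity

/-- the far defects are small -/
theorem phx_le (hn : 1 ≤ n) {δ : ℝ} (hδ0 : 0 < δ) (hδ : 4096 * δ ≤ 1) {q : M}
    (hk : HasRicciLowerBound n M (-δ)) (hp : Pin n δ q 50 40)
    (C : Rad n δ M (Measure.euclideanHausdorffMeasure n : Measure M)) {x : M} (hx : dist x q < 1)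
    (k : ℕ) : 0 ≤ phx n δ (μHE[n] : Measure M) x k ∧
      phx n δ (μHE[n] : Measure M) x k ≤ CT n * (δ + dy k ^ 2) := by
  have hom := om_pos n
  have ha : 0 < c3 n / 64 := div_pos (c3_pos n) (by norm_num)
  have hCt := Ct_nonneg n ha hom.le
  set a : ℝ := c3 n / 64 with hadef
  have hph : ∀ (x : M) (j : ℕ), 0 ≤ phx n δ (μHE[n] : Measure M) x j :=
    fun x j => phat_nonneg' C hδ0.le x _ j
  have htail : Summable (phat n δ (μHE[n] : Measure M) x a) ∧
      ∀ i, ∑' j, phat n δ (μHE[n] : Measure M) x a (i + j) ≤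
        Ct n a (om n) * (1024 * δ + dy i ^ 2) := by
    refine phat_tail C hδ0.le x ha (by linarith) hom.le (by nlinarith) ?_ ?_
    · refine le_vr_pinch (by norm_num) ?_
      have h1 := hp x (by rw [mem_ball]; linarith) (2 * 16) (by norm_num) (by norm_num)
      rw [vol_ball n (by norm_num), ← ENNReal.ofReal_mul (by linarith)] at h1
      refine (ENNReal.ofReal_le_ofReal ?_).trans h1
      have h2 : 0 ≤ om n * (2 * 16) ^ n := by positivity
      nlinarith
    · intro s hs0 hs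
      exact vr_le_pinch C hδ0.le (by linarith) x hs0 hs
  refine ⟨hph x k, ?_⟩
  have hs : Summable fun j => phat n δ (μHE[n] : Measure M) x a (k + j) := by
    have := (summable_nat_add_iff k).2 htail.1
    simpa [add_comm] using this
  have h1 : phx n δ (μHE[n] : Measure M) x k ≤
      ∑' j, phat n δ (μHE[n] : Measure M) x a (k + j) := by
    have := hs.le_tsum 0 (fun j _ => hph x (k + j))
    simp only [add_zero] at this
    exact this
  refine h1.trans ((htail.2 k).trans ?_)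
  have h3 : 0 ≤ dy k ^ 2 := by positivity
  unfold CT
  nlinarith

/-- **Hessian data at every centre and scale.** -/
theorem hf2 (hn : 1 ≤ n) : ∃ A : ℝ, 0 < A ∧ ∀ {M : Type u} [MetricSpace M] [CompleteSpace M]
    [ConnectedSpace M] [ChartedSpace (EuclideanSpace ℝ (Fin n)) M]
    [IsManifold 𝓘(ℝ, EuclideanSpace ℝ (Fin n)) ∞ M]
    [RiemannianBundle (fun x : M => TangentSpace 𝓘(ℝ, EuclideanSpace ℝ (Fin n)) x)]
    [IsContMDiffRiemannianBundle 𝓘(ℝ, EuclideanSpace ℝ (Fin n)) ∞ (EuclideanSpace ℝ (Fin n))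
      (fun x : M => TangentSpace 𝓘(ℝ, EuclideanSpace ℝ (Fin n)) x)]
    [IsRiemannianManifold 𝓘(ℝ, EuclideanSpace ℝ (Fin n)) M]
    [MeasurableSpace M] [BorelSpace M] [ProperSpace M] [SecondCountableTopology M] [Nonempty M]
    [IsFiniteMeasureOnCompacts (Measure.euclideanHausdorffMeasure n : Measure M)]
    {δ : ℝ} (hδ0 : 0 < δ) (hδ : 4096 * δ ≤ 1) {q : M}
    (hk : HasRicciLowerBound n M (-δ)) (hp : Pin n δ q 50 40)
    {x : M} (hx : dist x q < 1) {k : ℕ} (hk4 : 4 ≤ k),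
    HF2 (Gs939.boch hk) x (6 * dy k) (A * (δ + dy k ^ 2)) := by
  obtain ⟨b, hb0, hb⟩ := Sv436.d2bP.{u} n
  refine ⟨2 * (b * (CT n + 1)) + 1, by have := CT_nonneg n; positivity, ?_⟩
  intro M _ _ _ _ _ _ _ _ _ _ _ _ _ _ δ hδ0 hδ q hk hp x hx k hk4
  obtain ⟨C⟩ := Bgr546.rad_all n δ hδ0.le M hk
  have E : EnvF (Gs939.boch hk) C x (1024 * δ) := Env879.envP hn δ hδ0 hδ M q hk hp C x hx
  obtain ⟨O⟩ := exists_HObj x E.hA hδ0.le
  have hph := phx_le hn hδ0 hδ hk hp C hx k
  refine hf2_of_obj (Gs939.boch hk) O hk4 (b := b * phx n δ (μHE[n] : Measure M) x k)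
    (mul_nonneg hb0.le hph.1) ?_ ?_
  · exact hb δ M μHE[n] (Gs939.boch hk) C x (1024 * δ) E O k hk4
  · have h1 : 0 < δ + dy k ^ 2 := by positivity
    have h2 : b * phx n δ (μHE[n] : Measure M) x k ≤ b * (CT n * (δ + dy k ^ 2)) :=
      mul_le_mul_of_nonneg_left hph.2 hb0.le
    nlinarith

end block

end Crest.Agent.R249.Sta1_397
end
end

-- ▼ part R249/Sta2_397
section

/-!
# R249, leaf D3-START (helper397), file 2: Pythagoras for every pair of centres

* `pyd_const` : abstract passage from "close to a constant" to "small";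
* `pyd_small` : on a pinched manifold `⟨∇f_x, ∇f_y⟩ - f_x - f_y + f_x(y)` is small in `L¹` of
  `ball x (dy k)` for ALL centres `x, y` with `dist x y ≤ dy k / 2`.
-/

set_option autoImplicit false
set_option maxSynthPendingDepth 3
set_option linter.unusedSectionVars false
set_option linter.unusedVariables false

open Bundle Bornology Set MeasureTheory Manifold Filter Metric Topology
open scoped ENNReal ContDiff Topology NNReal RealInnerProductSpace
open Crest.GeometryTopology.CoordMetric Crest.GeometryTopology.ChartCurvature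
open Crest.GeometryTopology.PointedLimit

noncomputable section

namespace Crest.Agent.R249.Sta2_397

universe u

open Crest.Agent.R242 Crest.Agent.R247 Crest.Agent.R247.Dir593 Crest.Agent.R247.Dir593.GradS
open Crest.Agent.R247.Smv126 Crest.Agent.R247.Obj554 Crest.Agent.R247.Hes124
open Crest.Agent.R247.Far553 Crest.Agent.R247.Mcp688 Crest.Agent.R247.Max193
open Crest.Agent.R247.Num824 Crest.Agent.R247.Fd656 Crest.Agent.R247.Loc710
open Crest.Agent.R249.Sta1_397

section abs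
variable {n : ℕ} {X : Type*} [MetricSpace X] [MeasurableSpace X] [BorelSpace X]
  {μ : Measure X}

/-- near `y` the Pythagoras function is small -/
lemma abs_Pyd_near (S : GradS X (F n) μ) {x y u : X} {R τ : ℝ} (hR : 0 < R) (hτ : 0 < τ)
    (hτ1 : τ ≤ 1 / 2) (hx : ‖S.G (fx x) u‖ = dist x u)
    (hy : ‖S.G (fx y) u‖ = dist y u) (hxy : dist x y ≤ R / 2) (hu : u ∈ ball y (τ * R)) :
    |Pyd S x y u| ≤ 3 * τ * R ^ 2 := by
  rw [mem_ball, dist_comm] at hu
  have hxu : dist x u ≤ R := by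
    have h1 := dist_triangle x y u
    have h2 : τ * R ≤ 1 / 2 * R := by gcongr
    linarith
  have h1 : |⟪S.G (fx x) u, S.G (fx y) u⟫| ≤ R * (τ * R) := by
    refine (abs_real_inner_le_norm _ _).trans ?_
    rw [hx, hy]
    gcongr
  have hd1 : |dist x u - dist x y| ≤ dist y u := by
    rw [abs_le]
    have h1 := dist_triangle x y u
    have h2 := dist_triangle x u y
    rw [dist_comm u y] at h2
    constructor <;> linarith
  have h2 : |fx x u - fx x y| ≤ (τ * R) * R := by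
    unfold fx
    have e : dist x u ^ 2 / 2 - dist x y ^ 2 / 2 = (dist x u - dist x y) *
        ((dist x u + dist x y) / 2) := by ring
    rw [e, abs_mul]
    have h3 : |(dist x u + dist x y) / 2| ≤ R := by
      rw [abs_of_nonneg (by positivity)]
      linarith
    exact mul_le_mul (hd1.trans hu.le) h3 (abs_nonneg _) (by positivity)
  have h3 : |fx y u| ≤ (τ * R) * R := by
    unfold fx
    rw [abs_of_nonneg (by positivity)]
    have h4 : dist y u ^ 2 ≤ (τ * R) ^ 2 := by gcongr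
    have h5 : τ * R ≤ R := by nlinarith
    have h6 : (τ * R) ^ 2 ≤ (τ * R) * R := by
      rw [sq]
      exact mul_le_mul_of_nonneg_left h5 (by positivity)
    have h7 : 0 ≤ (τ * R) * R := by positivity
    linarith
  have e : Pyd S x y u = ⟪S.G (fx x) u, S.G (fx y) u⟫ + -(fx x u - fx x y) + -(fx y u) := by
    unfold Pyd; ring
  rw [e]
  refine (abs_add_le _ _).trans ?_
  refine (add_le_add (abs_add_le _ _) le_rfl).trans ?_
  rw [abs_neg, abs_neg]
  nlinarith

/-- **from a constant to zero.** -/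
theorem pyd_const (S : GradS X (F n) μ) (hU : UnitA S) {x y : X} {R τ c K v V : ℝ} (hR : 0 < R)
    (hτ : 0 < τ) (hτ1 : τ ≤ 1 / 2) (hxy : dist x y ≤ R / 2) (hK : 0 ≤ K) (hv : 0 < v) (hV : 0 ≤ V)
    (h : ∫⁻ u in ball x R, ENNReal.ofReal |Pyd S x y u - c| ∂μ ≤ ENNReal.ofReal K)
    (hvol : ENNReal.ofReal (v * (τ * R) ^ n) ≤ μ (ball y (τ * R)))
    (hvol' : μ (ball x R) ≤ ENNReal.ofReal (V * R ^ n)) :
    ∫⁻ u in ball x R, ENNReal.ofReal |Pyd S x y u| ∂μ ≤
      ENNReal.ofReal (K * (1 + V / (v * τ ^ n)) + 3 * V * τ * R ^ (n + 2)) := by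
  have hsub : ball y (τ * R) ⊆ ball x R := by
    refine ball_subset_ball' ?_
    rw [dist_comm]
    nlinarith
  have hfin : μ (ball y (τ * R)) ≠ ⊤ :=
    ne_top_of_le_ne_top ENNReal.ofReal_ne_top ((measure_mono hsub).trans hvol')
  have hpos : 0 < v * (τ * R) ^ n := by positivity
  have hm : v * (τ * R) ^ n ≤ μ.real (ball y (τ * R)) := by
    rw [Measure.real, ← ENNReal.ofReal_le_iff_le_toReal hfin]
    exact hvol
  -- the bound of the constant
  have hc : |c| ≤ K / (v * (τ * R) ^ n) + 3 * τ * R ^ 2 := by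
    have h1 : ∫⁻ u in ball y (τ * R), ENNReal.ofReal |c| ∂μ ≤
        ∫⁻ u in ball y (τ * R), (ENNReal.ofReal |Pyd S x y u - c| +
          ENNReal.ofReal (3 * τ * R ^ 2)) ∂μ := by
      apply lintegral_mono_ae
      refine (ae_restrict_iff' measurableSet_ball).2 ?_
      filter_upwards [hU x, hU y] with u h1 h2 hu
      rw [← ENNReal.ofReal_add (abs_nonneg _) (by positivity)]
      apply ENNReal.ofReal_le_ofReal
      have h3 := abs_Pyd_near S hR hτ hτ1 h1 h2 hxy hu
      have h4 : c = Pyd S x y u - (Pyd S x y u - c) := by ring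
      calc |c| = |Pyd S x y u - (Pyd S x y u - c)| := by rw [← h4]
        _ ≤ |Pyd S x y u| + |Pyd S x y u - c| := abs_sub _ _
        _ ≤ _ := by linarith
    rw [lintegral_add_right' _ aemeasurable_const, lintegral_const, lintegral_const,
      Measure.restrict_apply_univ] at h1
    have h2 : ENNReal.ofReal |c| * μ (ball y (τ * R)) ≤
        ENNReal.ofReal K + ENNReal.ofReal (3 * τ * R ^ 2) * μ (ball y (τ * R)) :=
      h1.trans (add_le_add_left ((lintegral_mono_set hsub).trans h) _)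
    have e : μ (ball y (τ * R)) = ENNReal.ofReal (μ.real (ball y (τ * R))) := by
      rw [Measure.real, ENNReal.ofReal_toReal hfin]
    rw [e, ← ENNReal.ofReal_mul (abs_nonneg _), ← ENNReal.ofReal_mul (by positivity),
      ← ENNReal.ofReal_add hK (by positivity), ENNReal.ofReal_le_ofReal_iff (by positivity)] at h2
    have hmpos : 0 < μ.real (ball y (τ * R)) := hpos.trans_le hm
    have h5 : |c| ≤ K / μ.real (ball y (τ * R)) + 3 * τ * R ^ 2 := by
      rw [div_add' _ _ _ hmpos.ne', le_div_iff₀ hmpos]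
      exact h2
    refine h5.trans ?_
    gcongr
  calc ∫⁻ u in ball x R, ENNReal.ofReal |Pyd S x y u| ∂μ
      ≤ ∫⁻ u in ball x R, (ENNReal.ofReal |Pyd S x y u - c| + ENNReal.ofReal |c|) ∂μ := by
        apply lintegral_mono
        intro u
        show ENNReal.ofReal |Pyd S x y u| ≤ ENNReal.ofReal |Pyd S x y u - c| + ENNReal.ofReal |c|
        rw [← ENNReal.ofReal_add (abs_nonneg _) (abs_nonneg _)]
        apply ENNReal.ofReal_le_ofReal
        have h4 : Pyd S x y u = (Pyd S x y u - c) + c := by ring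
        calc |Pyd S x y u| = |(Pyd S x y u - c) + c| := by rw [← h4]
          _ ≤ _ := abs_add_le _ _
    _ = ∫⁻ u in ball x R, ENNReal.ofReal |Pyd S x y u - c| ∂μ + ENNReal.ofReal |c| * μ (ball x R) := by
        rw [lintegral_add_right' _ aemeasurable_const, lintegral_const,
          Measure.restrict_apply_univ]
    _ ≤ ENNReal.ofReal K + ENNReal.ofReal |c| * ENNReal.ofReal (V * R ^ n) := by gcongr
    _ = ENNReal.ofReal (K + |c| * (V * R ^ n)) := by
        rw [← ENNReal.ofReal_mul (abs_nonneg _), ← ENNReal.ofReal_add hK (by positivity)]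
    _ ≤ _ := by
        apply ENNReal.ofReal_le_ofReal
        have h6 : |c| * (V * R ^ n) ≤ (K / (v * (τ * R) ^ n) + 3 * τ * R ^ 2) * (V * R ^ n) := by
          gcongr
        have h7 : (K / (v * (τ * R) ^ n) + 3 * τ * R ^ 2) * (V * R ^ n) =
            K * (V / (v * τ ^ n)) + 3 * V * τ * R ^ (n + 2) := by
          rw [mul_pow]
          field_simp
          ring
        rw [h7] at h6
        linarith

end abs

section mfd

/-- **Pythagoras on a pinched manifold, all pairs.** -/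
theorem pyd_small {n : ℕ} (hn : 1 ≤ n) {ε : ℝ} (hε : 0 < ε) : ∃ θ : ℝ, 0 < θ ∧
    ∀ {M : Type u} [MetricSpace M] [CompleteSpace M]
    [ConnectedSpace M] [ChartedSpace (EuclideanSpace ℝ (Fin n)) M]
    [IsManifold 𝓘(ℝ, EuclideanSpace ℝ (Fin n)) ∞ M]
    [RiemannianBundle (fun x : M => TangentSpace 𝓘(ℝ, EuclideanSpace ℝ (Fin n)) x)]
    [IsContMDiffRiemannianBundle 𝓘(ℝ, EuclideanSpace ℝ (Fin n)) ∞ (EuclideanSpace ℝ (Fin n))
      (fun x : M => TangentSpace 𝓘(ℝ, EuclideanSpace ℝ (Fin n)) x)]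
    [IsRiemannianManifold 𝓘(ℝ, EuclideanSpace ℝ (Fin n)) M]
    [MeasurableSpace M] [BorelSpace M] [ProperSpace M] [SecondCountableTopology M] [Nonempty M]
    [IsFiniteMeasureOnCompacts (Measure.euclideanHausdorffMeasure n : Measure M)]
    {δ : ℝ} (hδ0 : 0 < δ) (hδ : 4096 * δ ≤ 1) {q : M}
    (hk : HasRicciLowerBound n M (-δ)) (hp : Pin n δ q 50 40)
    {x y : M} (hx : dist x q < 1) (hy : dist y q < 1) {k : ℕ} (hk4 : 4 ≤ k)
    (hθ : δ + dy k ^ 2 ≤ θ) (hxy : dist x y ≤ dy k / 2),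
    ∫⁻ u in ball x (dy k), ENNReal.ofReal |Pyd (Ms322.gradS n M) x y u| ∂(μHE[n] : Measure M) ≤
      ENNReal.ofReal (ε * dy k ^ (n + 2)) := by
  obtain ⟨A, hA0, hA⟩ := hf2.{u} hn
  have hom := om_pos n
  set V : ℝ := 2 * om n * 3 ^ n with hV
  set v : ℝ := om n / 2 with hv
  have hV0 : 0 < V := by positivity
  have hv0 : 0 < v := by positivity
  set τ : ℝ := min (1 / 2) (ε / (6 * V)) with hτ
  have hτ0 : 0 < τ := lt_min (by norm_num) (by positivity)
  have hτ1 : τ ≤ 1 / 2 := min_le_left _ _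
  have hτ2 : 3 * V * τ ≤ ε / 2 := by
    have h1 : τ ≤ ε / (6 * V) := min_le_right _ _
    have h2 : 3 * V * τ ≤ 3 * V * (ε / (6 * V)) := by gcongr
    have h3 : 3 * V * (ε / (6 * V)) = ε / 2 := by field_simp; ring
    linarith
  set Q : ℝ := 2000 * 6 ^ n * (1 + V) * 2 ^ (n + 2) * (1 + V / (v * τ ^ n)) with hQ
  have hQ0 : 0 < Q := by positivity
  set θ : ℝ := (ε / (2 * Q)) ^ 2 / (2 * A) with hθdef
  have hθ0 : 0 < θ := by positivity
  refine ⟨θ, hθ0, ?_⟩
  intro M _ _ _ _ _ _ _ _ _ _ _ _ _ _ δ hδ0 hδ q hk hp x y hx hy k hk4 hθ hxy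
  obtain ⟨C⟩ := Bgr546.rad_all n δ hδ0.le M hk
  have E : EnvF (Gs939.boch hk) C x (1024 * δ) := Env879.envP hn δ hδ0 hδ M q hk hp C x hx
  have hRDG : Loc710.RDG (Gs939.boch hk).toGradS C := fun x φ hφ =>
    Sli554.LK.locLip E.hL x hφ
  have hU : UnitA (Gs939.boch hk).toGradS := unitA_of_rdg hRDG
  set R := dy k with hRdef
  have hR0 : 0 < R := dy_pos k
  have hk16 : R ≤ 1 / 16 := by
    have h1 := dy_anti hk4
    have h2 : dy 4 = 1 / 16 := by unfold dy; norm_num
    linarith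
  set D : ℝ := A * (δ + dy k ^ 2) with hD
  have hD0 : 0 ≤ D := by positivity
  have hAx : ∀ a ∈ ball x R, dist x a < 2 * R := fun a ha => by
    rw [mem_ball, dist_comm] at ha
    linarith
  have hAy : ∀ a ∈ ball x R, dist y a < 2 * R := fun a ha => by
    rw [mem_ball, dist_comm] at ha
    have := dist_triangle y x a
    rw [dist_comm y x] at this
    linarith
  have e6 : 3 * (2 * R) = 6 * R := by ring
  have hx2 : HF2 (Gs939.boch hk) x (3 * (2 * R)) D := by
    rw [e6]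
    exact hA hδ0 hδ hk hp hx hk4
  have hy2 : HF2 (Gs939.boch hk) y (3 * (2 * R)) D := by
    rw [e6]
    exact hA hδ0 hδ hk hp hy hk4
  have hvx : ∀ z : M, dist x z < 20 → ∀ r, 0 < r → r ≤ 20 →
      (μHE[n] : Measure M) (ball z r) ≤ ENNReal.ofReal (2 * om n * r ^ n) := by
    intro z hz r hr hr1
    refine (E.vol_le z r hz hr hr1).trans (ENNReal.ofReal_le_ofReal ?_)
    have : 0 ≤ om n * r ^ n := by positivity
    nlinarith
  have hvy : ∀ z : M, dist x z < 20 → ∀ r, 0 < r → r ≤ 20 →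
      ENNReal.ofReal (v * r ^ n) ≤ (μHE[n] : Measure M) (ball z r) := by
    intro z hz r hr hr1
    refine (ENNReal.ofReal_le_ofReal ?_).trans (E.vol_ge z r hz hr hr1)
    have : 0 ≤ om n * r ^ n := by positivity
    rw [hv]
    nlinarith
  have hmain := L2_gen (Gs939.boch hk) C hδ0.le (by linarith) hRDG hU (x := x) (y := y)
    (r := 2 * R) (V := V) (A := ball x R) (by positivity) (by linarith) hD0 hD0 hV0.le
    (fun D' hD' => hx2.mono (by positivity) hD'.le) (fun D' hD' => hy2.mono (by positivity) hD'.le)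
    (by
      rw [e6]
      refine (hvx x (by simp) (6 * R) (by positivity) (by linarith)).trans (le_of_eq ?_)
      congr 1
      rw [hV, show 6 * R = 3 * (2 * R) by ring, mul_pow 3 (2 * R)]
      ring) measurableSet_ball hAx hAy
  set K : ℝ := 2000 * 6 ^ n * (1 + V) * Real.sqrt (D + D) * (2 * R) ^ (n + 2) with hKdef
  have hK0 : 0 ≤ K := by positivity
  have hfin := pyd_const (Gs939.boch hk).toGradS hU (x := x) (y := y) (R := R) (τ := τ)
    (K := K) (v := v) (V := V) hR0 hτ0 hτ1 hxy hK0 hv0 hV0.le hmain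
    (by
      refine hvy y ?_ (τ * R) (by positivity) (by nlinarith)
      linarith)
    (by
      refine (hvx x (by simp) R hR0 (by linarith)).trans (ENNReal.ofReal_le_ofReal ?_)
      rw [hV]
      have h3 : (1:ℝ) ≤ 3 ^ n := one_le_pow₀ (by norm_num)
      have h4 : 0 ≤ 2 * om n * R ^ n := by positivity
      nlinarith)
  refine (le_of_eq ?_).trans (hfin.trans (ENNReal.ofReal_le_ofReal ?_))
  · rfl
  · have hsq : Real.sqrt (D + D) ≤ ε / (2 * Q) := by
      rw [Real.sqrt_le_left (by positivity)]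
      have h1 : D + D ≤ 2 * A * θ := by
        have : A * (δ + dy k ^ 2) ≤ A * θ := mul_le_mul_of_nonneg_left hθ hA0.le
        rw [hD]
        linarith
      have h2 : 2 * A * θ = (ε / (2 * Q)) ^ 2 := by
        rw [hθdef]
        field_simp
      linarith
    have h5 : K * (1 + V / (v * τ ^ n)) = Q * Real.sqrt (D + D) * R ^ (n + 2) := by
      rw [hKdef, hQ, mul_pow]
      ring
    have h6 : Q * Real.sqrt (D + D) * R ^ (n + 2) ≤ Q * (ε / (2 * Q)) * R ^ (n + 2) := by
      gcongr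
    have h7 : Q * (ε / (2 * Q)) = ε / 2 := by field_simp
    rw [h7] at h6
    have h8 : 3 * V * τ * R ^ (n + 2) ≤ ε / 2 * R ^ (n + 2) := by gcongr
    rw [h5]
    linarith

end mfd

end Crest.Agent.R249.Sta2_397
end
end

-- ▼ part R249/Sta3_397
section

/-!
# R249, leaf D3-START (helper397), file 3: almost orthonormal points

* `exists_points` : on a pinched manifold, for every small `t` there are points `v a`, `a : Fin n`,
  with `d(q, v a) ≈ t` and `d(v a, v b)² ≈ 2 t²` for `a ≠ b` (from 274's unconditional near isometry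
  and 79's quantitative surjectivity).
-/

set_option autoImplicit false
set_option maxSynthPendingDepth 3
set_option linter.unusedSectionVars false
set_option linter.unusedVariables false

open Bundle Bornology Set MeasureTheory Manifold Filter Metric Topology
open scoped ENNReal ContDiff Topology NNReal RealInnerProductSpace
open Crest.GeometryTopology.CoordMetric Crest.GeometryTopology.ChartCurvature
open Crest.GeometryTopology.PointedLimit

noncomputable section

namespace Crest.Agent.R249.Sta3_397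

universe u

open Crest.Agent.R247 Crest.Agent.R249.Sta1_397

/-- `(1 + ε)^n < (1 - ε) (1 - ε)^n + (1/4)^n` for small `ε`, and pointwise algebra of the points -/
lemma sq_close {d t η : ℝ} (ht : 0 ≤ t) (hη : 0 ≤ η) (hη1 : η ≤ 1 / 2) (hd : 0 ≤ d)
    (h : |t - d| ≤ η * d) : |d ^ 2 - t ^ 2| ≤ 6 * η * t ^ 2 := by
  have h1 := abs_le.1 h
  have h2 : d ≤ 2 * t := by nlinarith
  have h3 : |d ^ 2 - t ^ 2| = |t - d| * (d + t) := by
    rw [show d ^ 2 - t ^ 2 = -((t - d) * (d + t)) by ring, abs_neg, abs_mul,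
      abs_of_nonneg (by linarith : 0 ≤ d + t)]
  rw [h3]
  calc |t - d| * (d + t) ≤ (η * d) * (d + t) := by gcongr
    _ ≤ (η * (2 * t)) * (2 * t + t) := by gcongr
    _ = 6 * η * t ^ 2 := by ring

/-- **Almost orthonormal points.** -/
theorem exists_points {n : ℕ} (hn : 1 ≤ n) {η : ℝ} (hη : 0 < η) : ∃ ρ : ℝ, 0 < ρ ∧ ρ ≤ 1 / 4 ∧ ∃ R₁ : ℝ, 50 ≤ R₁ ∧
    ∃ δ₀ : ℝ, 0 < δ₀ ∧ δ₀ ≤ 1 / 4096 ∧
    ∀ {M : Type u} [MetricSpace M] [CompleteSpace M]
    [ConnectedSpace M] [ChartedSpace (EuclideanSpace ℝ (Fin n)) M]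
    [IsManifold 𝓘(ℝ, EuclideanSpace ℝ (Fin n)) ∞ M]
    [RiemannianBundle (fun x : M => TangentSpace 𝓘(ℝ, EuclideanSpace ℝ (Fin n)) x)]
    [IsContMDiffRiemannianBundle 𝓘(ℝ, EuclideanSpace ℝ (Fin n)) ∞ (EuclideanSpace ℝ (Fin n))
      (fun x : M => TangentSpace 𝓘(ℝ, EuclideanSpace ℝ (Fin n)) x)]
    [IsRiemannianManifold 𝓘(ℝ, EuclideanSpace ℝ (Fin n)) M]
    [MeasurableSpace M] [BorelSpace M] {δ : ℝ} (hδ0 : 0 < δ) (hδ : δ ≤ δ₀) {q : M}
    (hk : HasRicciLowerBound n M (-δ)) (hp : Pin n δ q R₁ 40) {t : ℝ} (ht : 0 < t)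
    (htρ : t ≤ ρ / 2),
    ∃ v : Fin n → M, (∀ a, |dist q (v a) ^ 2 - t ^ 2| ≤ η * t ^ 2) ∧
      ∀ a b, a ≠ b → |dist (v a) (v b) ^ 2 - 2 * t ^ 2| ≤ η * t ^ 2 := by
  obtain ⟨c, hc, hN⟩ := Near_274.nearIso40.{u} n
  obtain ⟨ε₀, hε₀, hε₀1, hnum⟩ := Opn79.num n
  set ε : ℝ := min ε₀ (η / 12) with hε
  have hεp : 0 < ε := lt_min hε₀ (by positivity)
  have hε1 : ε ≤ 1 / 2 := (min_le_left _ _).trans hε₀1
  have hε2 : 12 * ε ≤ η := by
    have := min_le_right ε₀ (η / 12)
    rw [← hε] at this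
    linarith
  obtain ⟨ρ', hρ', hρ1', R₀, hR₀, δ', hδ', H⟩ := hN ε hεp
  set ρ : ℝ := min ρ' (1 / 24) with hρdef
  have hρ : 0 < ρ := lt_min hρ' (by norm_num)
  have hρ1 : ρ ≤ 1 / 24 := min_le_right _ _
  have hρ2 : ρ ≤ ρ' := min_le_left _ _
  refine ⟨ρ, hρ, by linarith, max R₀ 50, le_max_right _ _, min δ' (min ε (1 / 4096)), by positivity,
    (min_le_right _ _).trans (min_le_right _ _), ?_⟩
  intro M _ _ _ _ _ _ _ _ _ _ δ hδ0 hδ q hk hp t ht htρ
  have hδa : δ ≤ δ' := hδ.trans (min_le_left _ _)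
  have hδb : δ ≤ ε := hδ.trans ((min_le_right _ _).trans (min_le_left _ _))
  have hpin : ∀ x ∈ ball q R₀, ∀ r : ℝ, 0 < r → r ≤ 40 →
      ENNReal.ofReal (1 - δ') * volume (ball (0 : EuclideanSpace ℝ (Fin n)) r) ≤
        Measure.euclideanHausdorffMeasure n (ball x r) := by
    intro x hx r hr hr1
    refine le_trans ?_ (hp x (ball_subset_ball (le_max_left _ _) hx) r hr hr1)
    gcongr
  obtain ⟨F, hF⟩ := H M q (Asm951.ricci_mono (by linarith) hk) hpin
  set G : M → EuclideanSpace ℝ (Fin n) := fun x => c • F x with hG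
  have hGd : ∀ x z, dist (G x) (G z) = c * dist (F x) (F z) := by
    intro x z
    simp only [hG, dist_smul₀, Real.norm_eq_abs, abs_of_pos hc]
  have hG' : ∀ x z : M, dist q x < 4 * ρ → dist q z < 4 * ρ →
      |dist (G x) (G z) - dist x z| ≤ ε * dist x z := by
    intro x z hx hz
    rw [hGd]
    exact hF x (by rw [mem_ball, dist_comm]; linarith) z (by rw [mem_ball, dist_comm]; linarith)
  have hvol : ∀ z s, 0 < s → (∀ x, dist z x < s → dist q x < 4 * ρ) →
      ENNReal.ofReal (1 - ε) * volume (ball (0 : EuclideanSpace ℝ (Fin n)) s) ≤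
        μHE[n] (ball z s) := by
    intro z s hs hzs
    have hzq : dist q z < 4 * ρ := hzs z (by rw [dist_self]; exact hs)
    have hz1 : z ∈ ball q (max R₀ 50) := by
      rw [mem_ball, dist_comm]
      have := le_max_right R₀ (50:ℝ)
      linarith
    rcases le_or_gt s 40 with h40 | h40
    · refine le_trans ?_ (hp z hz1 s hs h40)
      gcongr
    · exfalso
      refine Asm951.radius_le_one (n := n) (by omega) (F := F) (q := q) (R := 4 * ρ) (ε := ε)
        (c := c) hc hεp.le hε1 (by positivity) (by linarith)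
        (fun x z hx hz => by rw [← hGd]; exact hG' x z hx hz) (z := z)
        (fun x hx => hzs x (by linarith)) ?_
      refine le_trans ?_ (hp z hz1 1 one_pos (by norm_num))
      gcongr
      have := min_le_right ε (1 / 4096 : ℝ)
      have := min_le_right δ' (min ε (1 / 4096 : ℝ))
      linarith
  have hpts : ∀ a : Fin n, ∃ z, dist q z ≤ 4 * t ∧ G z = G q + EuclideanSpace.single a t := by
    intro a
    refine Opn79.surj (G := G) (q := q) (R := 4 * ρ) (ε := ε) hεp.le (by linarith)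
      (hnum ε hεp.le (min_le_left _ _)) hG' hvol (x := q) (y := G q + EuclideanSpace.single a t)
      (t := t) ht (by rw [dist_self]; linarith) ?_
    rw [dist_self_add_right]
    simp [abs_of_pos ht]
  choose v hv hvG using hpts
  have hvR : ∀ a, dist q (v a) < 4 * ρ := fun a => by
    have := hv a
    linarith
  refine ⟨v, fun a => ?_, fun a b hab => ?_⟩
  · have h1 := hG' q (v a) (by rw [dist_self]; positivity) (hvR a)
    have h2 : dist (G q) (G (v a)) = t := by
      rw [hvG a, dist_self_add_right]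
      simp [abs_of_pos ht]
    rw [h2] at h1
    refine (sq_close ht.le hεp.le hε1 dist_nonneg h1).trans ?_
    have : 6 * ε ≤ η := by linarith
    gcongr
  · have h1 := hG' (v a) (v b) (hvR a) (hvR b)
    have h2 : dist (G (v a)) (G (v b)) ^ 2 = 2 * t ^ 2 := by
      rw [hvG a, hvG b, dist_add_left, EuclideanSpace.dist_eq, Real.sq_sqrt (by positivity)]
      rw [← Finset.add_sum_erase _ _ (Finset.mem_univ a),
        ← Finset.add_sum_erase _ _ (Finset.mem_erase.2 ⟨Ne.symm hab, Finset.mem_univ b⟩)]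
      rw [Finset.sum_eq_zero]
      · simp [hab, Ne.symm hab, Real.dist_eq]
        ring
      · intro i hi
        simp only [Finset.mem_erase, Finset.mem_univ, and_true] at hi
        simp [hi.1, hi.2]
    set T := dist (G (v a)) (G (v b)) with hT
    have h3 := sq_close (t := T) dist_nonneg hεp.le hε1 dist_nonneg h1
    rw [h2] at h3
    refine h3.trans ?_
    nlinarith [sq_nonneg t]

end Crest.Agent.R249.Sta3_397
end
end

-- ▼ part R249/Sta4_397
section

/-!
# R249, leaf D3-START (helper397), file 4: the almost splitting functions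

Abstract part: `gram_pt`, `gram_le`, `hess_le` (over a `BochS`).
-/

set_option autoImplicit false
set_option maxSynthPendingDepth 3
set_option linter.unusedSectionVars false
set_option linter.unusedVariables false

open Bundle Bornology Set MeasureTheory Manifold Filter Metric Topology
open scoped ENNReal ContDiff Topology NNReal RealInnerProductSpace
open Crest.GeometryTopology.CoordMetric Crest.GeometryTopology.ChartCurvature
open Crest.GeometryTopology.PointedLimit

noncomputable section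

namespace Crest.Agent.R249.Sta4_397

universe u

open Crest.Agent.R247 Crest.Agent.R247.Dir593 Crest.Agent.R247.Dir593.GradS
open Crest.Agent.R247.Hes124 Crest.Agent.R247.Loc710
open Crest.Agent.R249.Sta1_397

section pt
variable {n : ℕ}

/-- pointwise comparison of Gram entries -/
lemma gram_vec {Gq Ga Gb Wq Wa Wb : F n} {R σ : ℝ} (hR : 0 ≤ R) (hσ : 0 < σ) (hσ1 : σ ≤ 1)
    (ha : ‖Gq - Ga‖ ≤ 2 * R) (hb : ‖Gq - Gb‖ ≤ 2 * R) :
    |⟪Wq - Wa, Wq - Wb⟫ - ⟪Gq - Ga, Gq - Gb⟫| ≤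
      2 * σ * R ^ 2 + 8 / σ * (‖Wq - Gq‖ ^ 2 + ‖Wa - Ga‖ ^ 2 + ‖Wb - Gb‖ ^ 2) := by
  set eq := Wq - Gq with heq
  set ea := Wa - Ga with hea
  set eb := Wb - Gb with heb
  set ma := Gq - Ga with hma
  set mb := Gq - Gb with hmb
  have e1 : Wq - Wa = ma + (eq - ea) := by rw [heq, hea, hma]; abel
  have e2 : Wq - Wb = mb + (eq - eb) := by rw [heq, heb, hmb]; abel
  rw [e1, e2]
  have e3 : ⟪ma + (eq - ea), mb + (eq - eb)⟫ - ⟪ma, mb⟫ =
      ⟪ma, eq - eb⟫ + ⟪eq - ea, mb⟫ + ⟪eq - ea, eq - eb⟫ := by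
    rw [inner_add_left, inner_add_right, inner_add_right]
    ring
  rw [e3]
  set da := ‖eq - ea‖ with hda
  set db := ‖eq - eb‖ with hdb
  have hda0 : 0 ≤ da := norm_nonneg _
  have hdb0 : 0 ≤ db := norm_nonneg _
  have h1 : |⟪ma, eq - eb⟫| ≤ 2 * R * db :=
    (abs_real_inner_le_norm _ _).trans (by gcongr)
  have h2 : |⟪eq - ea, mb⟫| ≤ da * (2 * R) :=
    (abs_real_inner_le_norm _ _).trans (by gcongr)
  have h3 : |⟪eq - ea, eq - eb⟫| ≤ da * db := abs_real_inner_le_norm _ _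
  have h4 : |⟪ma, eq - eb⟫ + ⟪eq - ea, mb⟫ + ⟪eq - ea, eq - eb⟫| ≤
      2 * R * db + da * (2 * R) + da * db :=
    (abs_add_le _ _).trans (add_le_add ((abs_add_le _ _).trans (add_le_add h1 h2)) h3)
  refine h4.trans ?_
  have k1 : ∀ d : ℝ, 2 * R * d ≤ σ * R ^ 2 + d ^ 2 / σ := by
    intro d
    have : σ * R ^ 2 + d ^ 2 / σ - 2 * R * d = 1 / σ * (σ * R - d) ^ 2 := by
      field_simp
      ring
    have h5 : 0 ≤ 1 / σ * (σ * R - d) ^ 2 := by positivity
    linarith
  have k2 : da ^ 2 ≤ 2 * ‖eq‖ ^ 2 + 2 * ‖ea‖ ^ 2 := by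
    have h5 : da ≤ ‖eq‖ + ‖ea‖ := norm_sub_le _ _
    have h6 : da ^ 2 ≤ (‖eq‖ + ‖ea‖) ^ 2 := by gcongr
    nlinarith [sq_nonneg (‖eq‖ - ‖ea‖)]
  have k3 : db ^ 2 ≤ 2 * ‖eq‖ ^ 2 + 2 * ‖eb‖ ^ 2 := by
    have h5 : db ≤ ‖eq‖ + ‖eb‖ := norm_sub_le _ _
    have h6 : db ^ 2 ≤ (‖eq‖ + ‖eb‖) ^ 2 := by gcongr
    nlinarith [sq_nonneg (‖eq‖ - ‖eb‖)]
  have k4 : da * db ≤ (da ^ 2 + db ^ 2) / σ := by
    rw [le_div_iff₀ hσ]
    have : da * db * σ ≤ da * db * 1 := by gcongr
    nlinarith [sq_nonneg (da - db), sq_nonneg (da + db)]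
  have k5 := k1 da
  have k6 := k1 db
  have k7 : (da ^ 2 + db ^ 2) / σ ≤ (4 * ‖eq‖ ^ 2 + 2 * ‖ea‖ ^ 2 + 2 * ‖eb‖ ^ 2) / σ :=
    div_le_div_of_nonneg_right (by linarith) hσ.le
  have k8 : (4 * ‖eq‖ ^ 2 + 2 * ‖ea‖ ^ 2 + 2 * ‖eb‖ ^ 2) / σ ≤
      4 / σ * (‖eq‖ ^ 2 + ‖ea‖ ^ 2 + ‖eb‖ ^ 2) := by
    rw [div_mul_eq_mul_div]
    exact div_le_div_of_nonneg_right (by nlinarith [sq_nonneg ‖ea‖, sq_nonneg ‖eb‖]) hσ.le
  have k9 : da ^ 2 / σ + db ^ 2 / σ = (da ^ 2 + db ^ 2) / σ := by ring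
  have k10 : 8 / σ * (‖eq‖ ^ 2 + ‖ea‖ ^ 2 + ‖eb‖ ^ 2) =
      4 / σ * (‖eq‖ ^ 2 + ‖ea‖ ^ 2 + ‖eb‖ ^ 2) + 4 / σ * (‖eq‖ ^ 2 + ‖ea‖ ^ 2 + ‖eb‖ ^ 2) := by
    ring
  rw [k10]
  linarith

end pt

section abs
variable {n : ℕ} {κ : ℝ} {X : Type*} [MetricSpace X] [MeasurableSpace X] [BorelSpace X]
  {μ : Measure X} [IsFiniteMeasureOnCompacts μ]

/-- the exact expansion of the Gram entries of `f_q - f_a`, `f_q - f_b` -/
lemma gram_exact (S : GradS X (F n) μ) {q a b u : X} (hq : ‖S.G (fx q) u‖ = dist q u) :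
    ⟪S.G (fx q) u - S.G (fx a) u, S.G (fx q) u - S.G (fx b) u⟫ =
      (fx q a + fx q b - fx a b) + (Pyd S a b u - Pyd S q b u - Pyd S q a u) := by
  unfold Pyd
  rw [inner_sub_left, inner_sub_right, inner_sub_right, real_inner_self_eq_norm_sq, hq,
    real_inner_comm (S.G (fx q) u) (S.G (fx a) u)]
  have h1 : dist q u ^ 2 = 2 * fx q u := by unfold fx; ring
  rw [h1]
  ring

/-- pointwise bound of the Gram entries of `w_q - w_a`, `w_q - w_b` -/
lemma gram_pt (S : GradS X (F n) μ) {q a b u : X} {Wq Wa Wb : F n} {R σ : ℝ} (hR : 0 ≤ R)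
    (hσ : 0 < σ) (hσ1 : σ ≤ 1) (hq : ‖S.G (fx q) u‖ = dist q u)
    (ha : ‖S.G (fx a) u‖ = dist a u) (hb : ‖S.G (fx b) u‖ = dist b u) (hqu : dist q u ≤ R)
    (hau : dist a u ≤ R) (hbu : dist b u ≤ R) :
    |⟪Wq - Wa, Wq - Wb⟫ - (fx q a + fx q b - fx a b)| ≤
      2 * σ * R ^ 2 + (|Pyd S a b u| + |Pyd S q b u| + |Pyd S q a u|) +
      8 / σ * (‖Wq - S.G (fx q) u‖ ^ 2 + ‖Wa - S.G (fx a) u‖ ^ 2 + ‖Wb - S.G (fx b) u‖ ^ 2) := by
  have h1 := gram_vec (Gq := S.G (fx q) u) (Ga := S.G (fx a) u) (Gb := S.G (fx b) u)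
    (Wq := Wq) (Wa := Wa) (Wb := Wb) hR hσ hσ1
    ((norm_sub_le _ _).trans (by rw [hq, ha]; linarith))
    ((norm_sub_le _ _).trans (by rw [hq, hb]; linarith))
  have h2 := gram_exact S (a := a) (b := b) hq
  set T := ⟪Wq - Wa, Wq - Wb⟫ with hT
  set T' := ⟪S.G (fx q) u - S.G (fx a) u, S.G (fx q) u - S.G (fx b) u⟫ with hT'
  have h3 : T - (fx q a + fx q b - fx a b) =
      (T - T') + (Pyd S a b u + (-Pyd S q b u) + (-Pyd S q a u)) := by
    rw [h2]; ring
  rw [h3]
  have h4 : |Pyd S a b u + (-Pyd S q b u) + (-Pyd S q a u)| ≤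
      |Pyd S a b u| + |Pyd S q b u| + |Pyd S q a u| := by
    refine (abs_add_le _ _).trans ?_
    rw [abs_neg]
    gcongr
    refine (abs_add_le _ _).trans ?_
    rw [abs_neg]
  refine (abs_add_le _ _).trans ?_
  linarith

/-- integration of a bound with three plus three terms -/
lemma lint_le {S : Set X} (hS : MeasurableSet S) {f : X → ℝ} {c0 Q m K1 K2 : ℝ} (hc : 0 ≤ c0)
    (hQ : 0 ≤ Q) (hm : 0 ≤ m) (hK1 : 0 ≤ K1) (hK2 : 0 ≤ K2) {p E : Fin 3 → X → ℝ}
    (hp : ∀ i, AEMeasurable (p i) μ) (hE : ∀ i, AEMeasurable (E i) μ)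
    (hp0 : ∀ i x, 0 ≤ p i x) (hE0 : ∀ i x, 0 ≤ E i x)
    (hf : ∀ᵐ u ∂μ, u ∈ S → f u ≤ c0 + ∑ i, p i u + Q * ∑ i, E i u)
    (hmS : μ S ≤ ENNReal.ofReal m)
    (hpS : ∀ i, ∫⁻ u in S, ENNReal.ofReal (p i u) ∂μ ≤ ENNReal.ofReal K1)
    (hES : ∀ i, ∫⁻ u in S, ENNReal.ofReal (E i u) ∂μ ≤ ENNReal.ofReal K2) :
    ∫⁻ u in S, ENNReal.ofReal (f u) ∂μ ≤ ENNReal.ofReal (c0 * m + 3 * K1 + Q * (3 * K2)) := by
  have mp : ∀ i, AEMeasurable (fun u => ENNReal.ofReal (p i u)) (μ.restrict S) :=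
    fun i => (hp i).restrict.ennreal_ofReal
  have mE : ∀ i, AEMeasurable (fun u => ENNReal.ofReal (E i u)) (μ.restrict S) :=
    fun i => (hE i).restrict.ennreal_ofReal
  calc ∫⁻ u in S, ENNReal.ofReal (f u) ∂μ
      ≤ ∫⁻ u in S, ((ENNReal.ofReal c0 + ∑ i, ENNReal.ofReal (p i u)) +
          ENNReal.ofReal Q * ∑ i, ENNReal.ofReal (E i u)) ∂μ := by
        apply lintegral_mono_ae
        refine (ae_restrict_iff' hS).2 ?_
        filter_upwards [hf] with u hu huS
        have h1 : 0 ≤ ∑ i, p i u := Finset.sum_nonneg fun i _ => hp0 i u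
        have h2 : 0 ≤ ∑ i, E i u := Finset.sum_nonneg fun i _ => hE0 i u
        refine (ENNReal.ofReal_le_ofReal (hu huS)).trans (le_of_eq ?_)
        rw [ENNReal.ofReal_add (by positivity) (by positivity), ENNReal.ofReal_add hc h1,
          ENNReal.ofReal_mul hQ, ENNReal.ofReal_sum_of_nonneg (fun i _ => hp0 i u),
          ENNReal.ofReal_sum_of_nonneg (fun i _ => hE0 i u)]
    _ = ENNReal.ofReal c0 * μ S + ∑ i, ∫⁻ u in S, ENNReal.ofReal (p i u) ∂μ +
          ENNReal.ofReal Q * ∑ i, ∫⁻ u in S, ENNReal.ofReal (E i u) ∂μ := by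
        rw [lintegral_add_right' _ ((Finset.aemeasurable_fun_sum _ fun i _ => mE i).const_mul _),
          lintegral_add_left' aemeasurable_const, lintegral_const, Measure.restrict_apply_univ,
          lintegral_finsetSum' _ (fun i _ => mp i),
          lintegral_const_mul' _ _ ENNReal.ofReal_ne_top,
          lintegral_finsetSum' _ (fun i _ => mE i)]
    _ ≤ ENNReal.ofReal c0 * ENNReal.ofReal m + ∑ _i : Fin 3, ENNReal.ofReal K1 +
          ENNReal.ofReal Q * ∑ _i : Fin 3, ENNReal.ofReal K2 := by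
        gcongr with i _ i _
        · exact hpS i
        · exact hES i
    _ = _ := by
        rw [Finset.sum_const, Finset.sum_const, Finset.card_univ, Fintype.card_fin,
          nsmul_eq_mul, nsmul_eq_mul, ENNReal.ofReal_add (by positivity) (by positivity),
          ENNReal.ofReal_add (by positivity) (by positivity), ENNReal.ofReal_mul hc,
          ENNReal.ofReal_mul hQ, ENNReal.ofReal_mul (by norm_num), ENNReal.ofReal_mul (by norm_num)]
        norm_num

/-- the Hessian of a difference -/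
theorem hess_int (B : BochS n κ X μ) {wq wa : X → ℝ} (hq : wq ∈ B.core) (ha : wa ∈ B.core)
    {S : Set X} {K : ℝ} (hK : 0 ≤ K)
    (h1 : ∫⁻ z in S, ENNReal.ofReal (‖B.H wq z - idm n‖ ^ 2) ∂μ ≤ ENNReal.ofReal K)
    (h2 : ∫⁻ z in S, ENNReal.ofReal (‖B.H wa z - idm n‖ ^ 2) ∂μ ≤ ENNReal.ofReal K) :
    ∫⁻ z in S, ENNReal.ofReal (‖B.H (fun x => wq x - wa x) z‖ ^ 2) ∂μ ≤ ENNReal.ofReal (4 * K) := by
  have m1 : AEMeasurable (fun z => ENNReal.ofReal (‖B.H wq z - idm n‖ ^ 2)) (μ.restrict S) :=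
    (((B.H_meas hq).sub aestronglyMeasurable_const).norm.aemeasurable.pow_const
      2).ennreal_ofReal.restrict
  calc ∫⁻ z in S, ENNReal.ofReal (‖B.H (fun x => wq x - wa x) z‖ ^ 2) ∂μ
      ≤ ∫⁻ z in S, ENNReal.ofReal 2 *
          (ENNReal.ofReal (‖B.H wq z - idm n‖ ^ 2) + ENNReal.ofReal (‖B.H wa z - idm n‖ ^ 2)) ∂μ := by
        apply lintegral_mono_ae
        filter_upwards [ae_restrict_of_ae (B.H_sub hq ha)] with z hz
        rw [← ENNReal.ofReal_add (by positivity) (by positivity),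
          ← ENNReal.ofReal_mul (by positivity)]
        apply ENNReal.ofReal_le_ofReal
        have e1 : B.H (fun x => wq x - wa x) z = (B.H wq z - idm n) - (B.H wa z - idm n) := by
          rw [hz]
          abel
        rw [e1]
        have h1 := norm_sub_le (B.H wq z - idm n) (B.H wa z - idm n)
        have h2 : ‖(B.H wq z - idm n) - (B.H wa z - idm n)‖ ^ 2 ≤
          (‖B.H wq z - idm n‖ + ‖B.H wa z - idm n‖) ^ 2 := by gcongr
        nlinarith [sq_nonneg (‖B.H wq z - idm n‖ - ‖B.H wa z - idm n‖)]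
    _ = ENNReal.ofReal 2 * (∫⁻ z in S, ENNReal.ofReal (‖B.H wq z - idm n‖ ^ 2) ∂μ +
            ∫⁻ z in S, ENNReal.ofReal (‖B.H wa z - idm n‖ ^ 2) ∂μ) := by
        rw [lintegral_const_mul' _ _ ENNReal.ofReal_ne_top, lintegral_add_left' m1]
    _ ≤ ENNReal.ofReal 2 * (ENNReal.ofReal K + ENNReal.ofReal K) := by gcongr
    _ = ENNReal.ofReal (4 * K) := by
        rw [← ENNReal.ofReal_add hK hK, ← ENNReal.ofReal_mul (by positivity)]
        congr 1
        ring

/-- the Gram entry of two differences, integrated -/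
theorem gram_int [SFinite μ] (B : BochS n κ X μ) (hU : UnitA B.toGradS) {wq wa wb : X → ℝ}
    (hwq : wq ∈ B.core)
    (hwa : wa ∈ B.core) (hwb : wb ∈ B.core) {q a b : X} {S : Set X} (hS : MeasurableSet S)
    {R σ T τ m K1 K2 : ℝ} (hR : 0 ≤ R) (hσ : 0 < σ) (hσ1 : σ ≤ 1) (hτ : 0 ≤ τ) (hm : 0 ≤ m)
    (hK1 : 0 ≤ K1) (hK2 : 0 ≤ K2) (hT : |fx q a + fx q b - fx a b - T| ≤ τ)
    (hSq : ∀ u ∈ S, dist q u ≤ R) (hSa : ∀ u ∈ S, dist a u ≤ R) (hSb : ∀ u ∈ S, dist b u ≤ R)
    (hmS : μ S ≤ ENNReal.ofReal m)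
    (hp1 : ∫⁻ u in S, ENNReal.ofReal |Pyd B.toGradS a b u| ∂μ ≤ ENNReal.ofReal K1)
    (hp2 : ∫⁻ u in S, ENNReal.ofReal |Pyd B.toGradS q b u| ∂μ ≤ ENNReal.ofReal K1)
    (hp3 : ∫⁻ u in S, ENNReal.ofReal |Pyd B.toGradS q a u| ∂μ ≤ ENNReal.ofReal K1)
    (hE1 : ∫⁻ u in S, ENNReal.ofReal (‖B.G wq u - B.G (fx q) u‖ ^ 2) ∂μ ≤ ENNReal.ofReal K2)
    (hE2 : ∫⁻ u in S, ENNReal.ofReal (‖B.G wa u - B.G (fx a) u‖ ^ 2) ∂μ ≤ ENNReal.ofReal K2)
    (hE3 : ∫⁻ u in S, ENNReal.ofReal (‖B.G wb u - B.G (fx b) u‖ ^ 2) ∂μ ≤ ENNReal.ofReal K2) :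
    ∫⁻ u in S, ENNReal.ofReal |⟪B.G (fun x => wq x - wa x) u, B.G (fun x => wq x - wb x) u⟫ - T| ∂μ ≤
      ENNReal.ofReal ((2 * σ * R ^ 2 + τ) * m + 3 * K1 + 8 / σ * (3 * K2)) := by
  have hGa : ∀ᵐ z ∂μ, B.G (fun x => wq x - wa x) z = B.G wq z - B.G wa z :=
    B.toGradS.sub (B.core_test hwq).1 (B.core_test hwa).1
  have hGb : ∀ᵐ z ∂μ, B.G (fun x => wq x - wb x) z = B.G wq z - B.G wb z :=
    B.toGradS.sub (B.core_test hwq).1 (B.core_test hwb).1
  set p : Fin 3 → X → ℝ := ![fun u => |Pyd B.toGradS a b u|,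
    fun u => |Pyd B.toGradS q b u|, fun u => |Pyd B.toGradS q a u|] with hpdef
  set Ef : Fin 3 → X → ℝ := ![fun u => ‖B.G wq u - B.G (fx q) u‖ ^ 2,
    fun u => ‖B.G wa u - B.G (fx a) u‖ ^ 2,
    fun u => ‖B.G wb u - B.G (fx b) u‖ ^ 2] with hEfdef
  have mG : ∀ {f : X → ℝ} (x : X), f ∈ B.core →
      AEMeasurable (fun u => ‖B.G f u - B.G (fx x) u‖ ^ 2) μ := fun x hf =>
    ((B.meas (B.core_test hf).1).sub (B.meas (locLip_fx x))).norm.aemeasurable.pow_const 2
  have mP : ∀ x y : X, AEMeasurable (fun u => |Pyd B.toGradS x y u|) μ :=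
    fun x y => (aesm_Pyd B.toGradS x y).norm.aemeasurable
  refine lint_le (μ := μ) (S := S) hS (c0 := 2 * σ * R ^ 2 + τ) (Q := 8 / σ) (m := m)
    (K1 := K1) (K2 := K2) (p := p) (E := Ef) (by positivity) (by positivity) hm hK1 hK2
    ?_ ?_ ?_ ?_ ?_ hmS ?_ ?_
  · intro i
    fin_cases i
    · exact mP _ _
    · exact mP _ _
    · exact mP _ _
  · intro i
    fin_cases i
    · exact mG _ hwq
    · exact mG _ hwa
    · exact mG _ hwb
  · intro i x
    fin_cases i <;> exact abs_nonneg _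
  · intro i x
    fin_cases i <;> exact sq_nonneg _
  · filter_upwards [hU q, hU a, hU b, hGa, hGb] with u h1 h2 h3 h4 h5 hu
    have h6 := gram_pt B.toGradS (Wq := B.G wq u) (Wa := B.G wa u) (Wb := B.G wb u)
      hR hσ hσ1 h1 h2 h3 (hSq u hu) (hSa u hu) (hSb u hu)
    rw [Fin.sum_univ_three, Fin.sum_univ_three, h4, h5]
    set T' := ⟪B.G wq u - B.G wa u, B.G wq u - B.G wb u⟫ with hT'
    have h8 : T' - T = (T' - (fx q a + fx q b - fx a b)) + (fx q a + fx q b - fx a b - T) := by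
      ring
    rw [h8]
    refine (abs_add_le _ _).trans ?_
    have h9 : p 0 u + p 1 u + p 2 u = |Pyd B.toGradS a b u| +
      |Pyd B.toGradS q b u| + |Pyd B.toGradS q a u| := rfl
    have h10 : Ef 0 u + Ef 1 u + Ef 2 u = ‖B.G wq u - B.G (fx q) u‖ ^ 2 +
      ‖B.G wa u - B.G (fx a) u‖ ^ 2 + ‖B.G wb u - B.G (fx b) u‖ ^ 2 := rfl
    rw [h9, h10]
    linarith
  · intro i
    fin_cases i
    · exact hp1
    · exact hp2
    · exact hp3
  · intro i
    fin_cases i
    · exact hE1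
    · exact hE2
    · exact hE3

end abs

end Crest.Agent.R249.Sta4_397
end
end

-- ▼ part R249/Sta5_397
section

/-!
# R249, leaf D3-START (helper397), file 5: the almost splitting functions on a pinched manifold

* `exists_split` : smooth compactly supported `b : Fin n → M → ℝ` with small Hessian in `L²` and
  Gram matrix close to the identity in `L¹` on a ball.
-/

set_option autoImplicit false
set_option maxSynthPendingDepth 3
set_option linter.unusedSectionVars false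
set_option linter.unusedVariables false

open Bundle Bornology Set MeasureTheory Manifold Filter Metric Topology
open scoped ENNReal ContDiff Topology NNReal RealInnerProductSpace
open Crest.GeometryTopology.CoordMetric Crest.GeometryTopology.ChartCurvature
open Crest.GeometryTopology.PointedLimit

noncomputable section

namespace Crest.Agent.R249.Sta5_397

universe u

open Crest.Agent.R247 Crest.Agent.R247.Dir593 Crest.Agent.R247.Dir593.GradS
open Crest.Agent.R247.Hes124 Crest.Agent.R247.Loc710 Crest.Agent.R247.Far553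
open Crest.Agent.R247.Fd656 Crest.Agent.R247.Bo84
open Crest.Agent.R249.Sta1_397 Crest.Agent.R249.Sta2_397 Crest.Agent.R249.Sta3_397
  Crest.Agent.R249.Sta4_397

/-- small scales exist -/
lemma exists_dy {θ ρ : ℝ} (hθ : 0 < θ) (hρ : 0 < ρ) : ∃ k : ℕ, 4 ≤ k ∧ 2 * dy k ^ 2 ≤ θ ∧
    dy k ≤ ρ := by
  have h1 : Tendsto (fun k : ℕ => dy k) atTop (𝓝 0) := by
    have := tendsto_pow_atTop_nhds_zero_of_lt_one (r := (1 / 2 : ℝ)) (by norm_num) (by norm_num)
    refine this.congr fun k => ?_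
    unfold dy
    rfl
  have h2 : Tendsto (fun k : ℕ => 2 * dy k ^ 2) atTop (𝓝 0) := by
    simpa using (h1.pow 2).const_mul 2
  obtain ⟨k, h3, h4, h5⟩ := ((eventually_ge_atTop 4).and ((h2.eventually (gt_mem_nhds hθ)).and
    (h1.eventually (gt_mem_nhds hρ)))).exists
  exact ⟨k, h3, h4.le, h5.le⟩

section mfd0
variable {n : ℕ} {M : Type*} [MetricSpace M] [ChartedSpace (EuclideanSpace ℝ (Fin n)) M]
  [IsManifold (𝓡 n) ∞ M]
  [RiemannianBundle (fun p : M => TangentSpace (𝓡 n) p)]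
  [IsContMDiffRiemannianBundle (𝓡 n) ∞ (EuclideanSpace ℝ (Fin n)) (fun p : M => TangentSpace (𝓡 n) p)]
  [IsRiemannianManifold (𝓡 n) M] [SecondCountableTopology M] [Nonempty M]

lemma Hf_const_mul {u : M → ℝ} {z : M} (c : ℝ) (hu : ContMDiffAt (𝓡 n) 𝓘(ℝ, ℝ) 2 u z) :
    Bs84.Hf (n := n) (fun y => c * u y) z = c • Bs84.Hf u z := by
  ext ij
  exact mHess_const_mul c hu _ _

lemma mHessSq_const_mul {u : M → ℝ} {z : M} (c : ℝ) (hu : ContMDiffAt (𝓡 n) 𝓘(ℝ, ℝ) 2 u z) :
    mHessSq n (fun y => c * u y) z = c ^ 2 * mHessSq n u z := by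
  have h : ContMDiffAt (𝓡 n) 𝓘(ℝ, ℝ) 2 (fun y => c * u y) z := contMDiffAt_const.mul hu
  rw [← Bs84.norm_Hf_sq h, ← Bs84.norm_Hf_sq hu, Hf_const_mul c hu,
    norm_smul, mul_pow, Real.norm_eq_abs, sq_abs]

end mfd0

section mfd

set_option maxHeartbeats 2000000 in
/-- **Almost splitting functions on a pinched manifold.** -/
theorem exists_split {n : ℕ} (hn : 1 ≤ n) {ε : ℝ} (hε : 0 < ε) : ∃ s : ℝ, 0 < s ∧ s ≤ 1 / 32 ∧
    ∃ R₁ : ℝ, 50 ≤ R₁ ∧ ∃ δ₀ : ℝ, 0 < δ₀ ∧ δ₀ ≤ 1 / 4096 ∧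
    ∀ {M : Type u} [MetricSpace M] [CompleteSpace M]
    [ConnectedSpace M] [ChartedSpace (EuclideanSpace ℝ (Fin n)) M]
    [IsManifold 𝓘(ℝ, EuclideanSpace ℝ (Fin n)) ∞ M]
    [RiemannianBundle (fun x : M => TangentSpace 𝓘(ℝ, EuclideanSpace ℝ (Fin n)) x)]
    [IsContMDiffRiemannianBundle 𝓘(ℝ, EuclideanSpace ℝ (Fin n)) ∞ (EuclideanSpace ℝ (Fin n))
      (fun x : M => TangentSpace 𝓘(ℝ, EuclideanSpace ℝ (Fin n)) x)]
    [IsRiemannianManifold 𝓘(ℝ, EuclideanSpace ℝ (Fin n)) M]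
    [MeasurableSpace M] [BorelSpace M] {δ : ℝ} (hδ0 : 0 < δ) (hδ : δ ≤ δ₀) {q : M}
    (hk : HasRicciLowerBound n M (-δ)) (hp : Pin n δ q R₁ 40),
    (∃ y : M, 5 / 2 * s ≤ dist q y ∧ dist q y ≤ 3 * s) ∧
    ∃ b : Fin n → M → ℝ, (∀ a, ContMDiff (𝓡 n) 𝓘(ℝ) ∞ (b a)) ∧ (∀ a, HasCompactSupport (b a)) ∧
      (∀ a, ∫⁻ z in ball q s, ENNReal.ofReal (mHessSq n (b a) z) ∂(μHE[n] : Measure M) ≤
        ENNReal.ofReal (ε * s ^ n / s ^ 2)) ∧
      ∀ a c, ∫⁻ z in ball q s, ENNReal.ofReal |mGam n (b a) (b c) z - if a = c then 1 else 0|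
        ∂(μHE[n] : Measure M) ≤ ENNReal.ofReal (ε * s ^ n) := by
  obtain ⟨A, hA0, hA⟩ := hf2.{u} hn
  have hom := om_pos n
  set σ : ℝ := min 1 (ε / (1024 * om n)) with hσdef
  have hσ0 : 0 < σ := lt_min one_pos (by positivity)
  have hσ1 : σ ≤ 1 := min_le_left _ _
  have hσ2 : 256 * om n * σ ≤ ε / 4 := by
    have h1 : σ ≤ ε / (1024 * om n) := min_le_right _ _
    have h2 : 256 * om n * σ ≤ 256 * om n * (ε / (1024 * om n)) := by gcongr
    have h3 : 256 * om n * (ε / (1024 * om n)) = ε / 4 := by field_simp; norm_num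
    linarith
  set η : ℝ := min 1 (ε / (16 * om n)) with hηdef
  have hη0 : 0 < η := lt_min one_pos (by positivity)
  have hη1 : η ≤ 1 := min_le_left _ _
  have hη2 : 4 * om n * η ≤ ε / 4 := by
    have h1 : η ≤ ε / (16 * om n) := min_le_right _ _
    have h2 : 4 * om n * η ≤ 4 * om n * (ε / (16 * om n)) := by gcongr
    have h3 : 4 * om n * (ε / (16 * om n)) = ε / 4 := by field_simp; norm_num
    linarith
  set ε₁ : ℝ := ε / (192 * 2 ^ (n + 2)) with hε₁def
  have hε₁0 : 0 < ε₁ := by positivity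
  set D₀ : ℝ := min (ε * σ / (1536 * 12 ^ (n + 2))) (ε / (64 * 12 ^ n)) with hD₀def
  have hD₀0 : 0 < D₀ := lt_min (by positivity) (by positivity)
  obtain ⟨θ₁, hθ₁0, hθ₁⟩ := pyd_small.{u} hn hε₁0
  obtain ⟨ρ, hρ0, hρ1, R₁, hR₁, δ₁, hδ₁0, hδ₁1, hpts⟩ := exists_points.{u} hn (η := min (η / 2) (1 / 10)) (by positivity)
  obtain ⟨k, hk4, hk1, hk2⟩ := exists_dy (θ := min θ₁ (D₀ / A)) (ρ := ρ / 4) (by positivity)
    (by positivity)
  set R := dy k with hRdef
  have hR0 : 0 < R := dy_pos k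
  have hR16 : R ≤ 1 / 16 := by
    have h1 := dy_anti hk4
    have h2 : dy 4 = 1 / 16 := by unfold dy; norm_num
    linarith
  refine ⟨R / 2, by positivity, by linarith, R₁, hR₁, min δ₁ (R ^ 2), by positivity,
    (min_le_left _ _).trans hδ₁1, ?_⟩
  intro M _ _ _ _ _ _ _ _ _ _ δ hδ0 hδ q hk hp
  have := HR216.properSpace_of_riemannian n M
  have := HR216.secondCountable_of_riemannian n M
  have : Nonempty M := ⟨q⟩
  have := Gs939.finOnCompacts (n := n) (M := M)
  have hδa : δ ≤ δ₁ := hδ.trans (min_le_left _ _)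
  have hδb : δ ≤ R ^ 2 := hδ.trans (min_le_right _ _)
  have hδc : 4096 * δ ≤ 1 := by linarith
  have hp50 : Pin n δ q 50 40 := fun x hx r hr hr1 => hp x (ball_subset_ball hR₁ hx) r hr hr1
  have hθ : δ + dy k ^ 2 ≤ min θ₁ (D₀ / A) := by linarith
  have hθa : δ + dy k ^ 2 ≤ θ₁ := hθ.trans (min_le_left _ _)
  have hθb : A * (δ + dy k ^ 2) ≤ D₀ := by
    have := hθ.trans (min_le_right _ _)
    rw [le_div_iff₀ hA0] at this
    linarith
  set t : ℝ := R / 8 with htdef
  have ht0 : 0 < t := by positivity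
  obtain ⟨v, hv1', hv2'⟩ := hpts hδ0 hδa hk hp ht0 (by linarith)
  have hmin : min (η / 2) (1 / 10) * t ^ 2 ≤ η / 2 * t ^ 2 :=
    mul_le_mul_of_nonneg_right (min_le_left _ _) (by positivity)
  have hv1 : ∀ a, |dist q (v a) ^ 2 - t ^ 2| ≤ η / 2 * t ^ 2 := fun a => (hv1' a).trans hmin
  have hv2 : ∀ a b, a ≠ b → |dist (v a) (v b) ^ 2 - 2 * t ^ 2| ≤ η / 2 * t ^ 2 :=
    fun a b hab => (hv2' a b hab).trans hmin
  obtain ⟨C⟩ := Bgr546.rad_all n δ hδ0.le M hk
  have hqq : dist q q < 1 := by rw [dist_self]; norm_num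
  have E : EnvF (Gs939.boch hk) C q (1024 * δ) := Env879.envP hn δ hδ0 hδc M q hk hp50 C q hqq
  have hRDG : Loc710.RDG (Gs939.boch hk).toGradS C := fun x φ hφ =>
    Sli554.LK.locLip E.hL x hφ
  have hU : UnitA (Gs939.boch hk).toGradS := unitA_of_rdg hRDG
  set B := Gs939.boch hk with hB
  -- distances
  have hdv : ∀ a, dist q (v a) ≤ R / 4 := by
    intro a
    have h1 := (abs_le.1 (hv1 a)).2
    have h2 : dist q (v a) ^ 2 ≤ (R / 4) ^ 2 := by
      have : η / 2 * t ^ 2 ≤ 1 * t ^ 2 := by gcongr; linarith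
      rw [htdef] at h1 this
      nlinarith
    exact (abs_le_of_sq_le_sq' h2 (by positivity)).2
  have hdvv : ∀ a c, dist (v a) (v c) ≤ R / 2 := by
    intro a c
    have := dist_triangle (v a) q (v c)
    rw [dist_comm (v a) q] at this
    linarith [hdv a, hdv c]
  have hvq : ∀ a, dist (v a) q < 1 := fun a => by
    rw [dist_comm]
    linarith [hdv a]
  -- Hessian data
  obtain ⟨wq, hwq, hwq1, hwq2⟩ := hA hδ0 hδc hk hp50 hqq hk4
  have hw : ∀ a, ∃ w ∈ B.core,
      ∫⁻ z in ball (v a) (6 * R), ENNReal.ofReal (‖B.G w z - B.G (fx (v a)) z‖ ^ 2) ∂μHE[n] ≤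
        ENNReal.ofReal (A * (δ + R ^ 2) * (6 * R) ^ (n + 2)) ∧
      ∫⁻ z in ball (v a) (6 * R), ENNReal.ofReal (‖B.H w z - idm n‖ ^ 2) ∂μHE[n] ≤
        ENNReal.ofReal (A * (δ + R ^ 2) * (6 * R) ^ n) := fun a => hA hδ0 hδc hk hp50 (hvq a) hk4
  choose w hwc hw1 hw2 using hw
  have hDle : A * (δ + R ^ 2) ≤ D₀ := hθb
  set s : ℝ := R / 2 with hsdef
  have hs0 : 0 < s := by positivity
  have hRs : R = 2 * s := by rw [hsdef]; ring
  have hts : t = s / 4 := by rw [htdef, hsdef]; ring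
  have hsub1 : ball q s ⊆ ball q R := ball_subset_ball (by linarith)
  have hsub2 : ∀ a, ball q s ⊆ ball (v a) R := fun a => ball_subset_ball' (by linarith [hdv a])
  have hsub3 : ball q s ⊆ ball q (6 * R) := ball_subset_ball (by linarith)
  have hsub4 : ∀ a, ball q s ⊆ ball (v a) (6 * R) := fun a =>
    ball_subset_ball' (by linarith [hdv a])
  have hvol : (μHE[n] : Measure M) (ball q s) ≤ ENNReal.ofReal (2 * om n * s ^ n) := by
    refine (E.vol_le q s (by simp) hs0 (by linarith)).trans (ENNReal.ofReal_le_ofReal ?_)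
    have : 0 ≤ om n * s ^ n := by positivity
    nlinarith
  have hcore : ∀ {f : M → ℝ}, f ∈ B.core → ContMDiff (𝓡 n) 𝓘(ℝ) ∞ f ∧ HasCompactSupport f :=
    fun hf => hf
  have hsm : ∀ {f : M → ℝ}, f ∈ B.core → ∀ z, ContMDiffAt (𝓡 n) 𝓘(ℝ) 2 f z :=
    fun hf z => ((hcore hf).1 z).of_le two_le_infty
  set W : Fin n → M → ℝ := fun a x => wq x - w a x with hW
  have hWc : ∀ a, W a ∈ B.core := fun a => B.core_sub hwq (hwc a)
  have hy : ∃ y : M, 5 / 2 * s ≤ dist q y ∧ dist q y ≤ 3 * s := by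
    obtain ⟨y, hy1, -⟩ := hpts hδ0 hδa hk hp (t := 11 / 4 * s) (by positivity) (by linarith)
    have h1 := abs_le.1 (hy1 ⟨0, hn⟩)
    have h2 : min (η / 2) (1 / 10) * (11 / 4 * s) ^ 2 ≤ 1 / 10 * (11 / 4 * s) ^ 2 :=
      mul_le_mul_of_nonneg_right (min_le_right _ _) (by positivity)
    refine ⟨y ⟨0, hn⟩, ?_, ?_⟩
    · refine abs_le_of_sq_le_sq' (?_ : (5 / 2 * s) ^ 2 ≤ dist q (y ⟨0, hn⟩) ^ 2) dist_nonneg |>.2
      nlinarith [h1.1, sq_nonneg s]
    · refine abs_le_of_sq_le_sq' (?_ : dist q (y ⟨0, hn⟩) ^ 2 ≤ (3 * s) ^ 2) (by positivity) |>.2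
      nlinarith [h1.2, sq_nonneg s]
  refine ⟨hy, fun a x => t⁻¹ * W a x, fun a => ?_, fun a => ?_, fun a => ?_, fun a c => ?_⟩
  · exact contMDiff_const.mul (hcore (hWc a)).1
  · exact (hcore (hWc a)).2.mul_left
  · -- the Hessian
    have h0 := hess_int B hwq (hwc a) (S := ball q s) (K := A * (δ + R ^ 2) * (6 * R) ^ n)
      (by positivity) ((lintegral_mono_set hsub3).trans hwq2)
      ((lintegral_mono_set (hsub4 a)).trans (hw2 a))
    calc ∫⁻ z in ball q s, ENNReal.ofReal (mHessSq n (fun x => t⁻¹ * W a x) z) ∂(μHE[n] : Measure M)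
        = ∫⁻ z in ball q s, ENNReal.ofReal (t⁻¹ ^ 2) *
            ENNReal.ofReal (‖B.H (fun x => wq x - w a x) z‖ ^ 2) ∂(μHE[n] : Measure M) := by
          apply lintegral_congr
          intro z
          rw [mHessSq_const_mul _ (hsm (hWc a) z), ← Bs84.norm_Hf_sq (hsm (hWc a) z),
            ENNReal.ofReal_mul (by positivity)]
          rfl
      _ = ENNReal.ofReal (t⁻¹ ^ 2) * ∫⁻ z in ball q s,
            ENNReal.ofReal (‖B.H (fun x => wq x - w a x) z‖ ^ 2) ∂(μHE[n] : Measure M) := by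
          rw [lintegral_const_mul' _ _ ENNReal.ofReal_ne_top]
      _ ≤ ENNReal.ofReal (t⁻¹ ^ 2) *
            ENNReal.ofReal (4 * (A * (δ + R ^ 2) * (6 * R) ^ n)) := by gcongr
      _ = ENNReal.ofReal (64 * 12 ^ n * (A * (δ + R ^ 2)) * s ^ n / s ^ 2) := by
          rw [← ENNReal.ofReal_mul (by positivity)]
          congr 1
          generalize A * (δ + R ^ 2) = D
          rw [hts, hRs, show 6 * (2 * s) = 12 * s by ring, mul_pow]
          field_simp
          ring_nf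
      _ ≤ ENNReal.ofReal (ε * s ^ n / s ^ 2) := by
          apply ENNReal.ofReal_le_ofReal
          have h1 : 64 * 12 ^ n * (A * (δ + R ^ 2)) ≤ ε := by
            have h2 : A * (δ + R ^ 2) ≤ ε / (64 * 12 ^ n) := hDle.trans (min_le_right _ _)
            rw [le_div_iff₀ (by positivity)] at h2
            linarith
          gcongr
  · -- the Gram matrix
    have hccle : |fx q (v a) + fx q (v c) - fx (v a) (v c) - t ^ 2 * (if a = c then 1 else 0)| ≤
        η * t ^ 2 := by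
      have t2 : 0 ≤ η * t ^ 2 := by positivity
      by_cases hac : a = c
      · subst hac
        rw [if_pos rfl]
        unfold fx
        rw [dist_self]
        have h1 := abs_le.1 (hv1 a)
        rw [abs_le]
        constructor <;> nlinarith [h1.1, h1.2]
      · rw [if_neg hac]
        unfold fx
        have h1 := abs_le.1 (hv1 a)
        have h2 := abs_le.1 (hv1 c)
        have h3 := abs_le.1 (hv2 a c hac)
        rw [abs_le]
        constructor <;> nlinarith [h1.1, h1.2, h2.1, h2.2, h3.1, h3.2]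
    have hmain := gram_int B hU hwq (hwc a) (hwc c) (q := q) (a := v a) (b := v c) (S := ball q s)
      measurableSet_ball (R := R) (σ := σ) (T := t ^ 2 * (if a = c then 1 else 0))
      (τ := η * t ^ 2) (m := 2 * om n * s ^ n) (K1 := ε₁ * R ^ (n + 2))
      (K2 := A * (δ + R ^ 2) * (6 * R) ^ (n + 2)) hR0.le hσ0 hσ1 (by positivity) (by positivity)
      (by positivity) (by positivity) hccle
      (fun u hu => by
        have := hsub1 hu
        rw [mem_ball, dist_comm] at this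
        exact this.le)
      (fun u hu => by
        have := hsub2 a hu
        rw [mem_ball, dist_comm] at this
        exact this.le)
      (fun u hu => by
        have := hsub2 c hu
        rw [mem_ball, dist_comm] at this
        exact this.le) hvol
      ((lintegral_mono_set (hsub2 a)).trans
            (hθ₁ hδ0 hδc hk hp50 (hvq a) (hvq c) hk4 hθa (hdvv a c)))
      ((lintegral_mono_set hsub1).trans
            (hθ₁ hδ0 hδc hk hp50 hqq (hvq c) hk4 hθa (by linarith [hdv c])))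
      ((lintegral_mono_set hsub1).trans
            (hθ₁ hδ0 hδc hk hp50 hqq (hvq a) hk4 hθa (by linarith [hdv a])))
      ((lintegral_mono_set hsub3).trans hwq1)
      ((lintegral_mono_set (hsub4 a)).trans (hw1 a))
      ((lintegral_mono_set (hsub4 c)).trans (hw1 c))
    calc ∫⁻ z in ball q s, ENNReal.ofReal |mGam n (fun x => t⁻¹ * W a x) (fun x => t⁻¹ * W c x) z -
            if a = c then 1 else 0| ∂(μHE[n] : Measure M)
        = ∫⁻ z in ball q s, ENNReal.ofReal (t⁻¹ ^ 2) * ENNReal.ofReal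
            |⟪B.G (fun x => wq x - w a x) z, B.G (fun x => wq x - w c x) z⟫ -
              t ^ 2 * (if a = c then 1 else 0)| ∂(μHE[n] : Measure M) := by
          apply lintegral_congr
          intro z
          rw [← ENNReal.ofReal_mul (by positivity)]
          congr 1
          have hda : MDifferentiableAt (𝓡 n) 𝓘(ℝ) (W a) z := (hsm (hWc a) z).mdifferentiableAt
            (by norm_num)
          have hdc : MDifferentiableAt (𝓡 n) 𝓘(ℝ) (W c) z := (hsm (hWc c) z).mdifferentiableAt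
            (by norm_num)
          have e0 : ⟪B.G (fun x => wq x - w a x) z, B.G (fun x => wq x - w c x) z⟫ =
              mGam n (W a) (W c) z := Bs84.inner_Gr_eq (W a) (W c) z
          rw [e0, mGam_const_mul_left _ hda, mGam_const_mul_right _ hdc]
          have e1 : t⁻¹ * (t⁻¹ * mGam n (W a) (W c) z) - (if a = c then 1 else 0) =
              t⁻¹ ^ 2 * (mGam n (W a) (W c) z - t ^ 2 * (if a = c then 1 else 0)) := by
            field_simp
          rw [e1, abs_mul, abs_of_nonneg (by positivity : 0 ≤ t⁻¹ ^ 2)]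
      _ = ENNReal.ofReal (t⁻¹ ^ 2) * ∫⁻ z in ball q s, ENNReal.ofReal
            |⟪B.G (fun x => wq x - w a x) z, B.G (fun x => wq x - w c x) z⟫ -
              t ^ 2 * (if a = c then 1 else 0)| ∂(μHE[n] : Measure M) := by
          rw [lintegral_const_mul' _ _ ENNReal.ofReal_ne_top]
      _ ≤ ENNReal.ofReal (t⁻¹ ^ 2) * ENNReal.ofReal ((2 * σ * R ^ 2 + η * t ^ 2) *
            (2 * om n * s ^ n) + 3 * (ε₁ * R ^ (n + 2)) +
            8 / σ * (3 * (A * (δ + R ^ 2) * (6 * R) ^ (n + 2)))) := by gcongr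
      _ ≤ ENNReal.ofReal (ε * s ^ n) := by
          rw [← ENNReal.ofReal_mul (by positivity)]
          apply ENNReal.ofReal_le_ofReal
          have h1 : 384 / σ * 12 ^ (n + 2) * (A * (δ + R ^ 2)) ≤ ε / 4 := by
            have h2 : A * (δ + R ^ 2) ≤ ε * σ / (1536 * 12 ^ (n + 2)) :=
              hDle.trans (min_le_left _ _)
            calc 384 / σ * 12 ^ (n + 2) * (A * (δ + R ^ 2))
                ≤ 384 / σ * 12 ^ (n + 2) * (ε * σ / (1536 * 12 ^ (n + 2))) := by gcongr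
              _ = ε / 4 := by field_simp; norm_num
          have h2 : 48 * 2 ^ (n + 2) * ε₁ = ε / 4 := by
            rw [hε₁def]
            field_simp
            norm_num
          have h3 : t⁻¹ ^ 2 * ((2 * σ * R ^ 2 + η * t ^ 2) *
              (2 * om n * s ^ n) + 3 * (ε₁ * R ^ (n + 2)) +
              8 / σ * (3 * (A * (δ + R ^ 2) * (6 * R) ^ (n + 2)))) =
              (256 * om n * σ + 2 * om n * η + 48 * 2 ^ (n + 2) * ε₁ +
                384 / σ * 12 ^ (n + 2) * (A * (δ + R ^ 2))) * s ^ n := by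
            rw [hts]
            generalize A * (δ + R ^ 2) = D
            rw [hRs, show 6 * (2 * s) = 12 * s by ring, mul_pow 12 s, mul_pow 2 s]
            field_simp
            ring
          rw [h3]
          have h4 : 256 * om n * σ + 2 * om n * η + 48 * 2 ^ (n + 2) * ε₁ +
                384 / σ * 12 ^ (n + 2) * (A * (δ + R ^ 2)) ≤ ε := by
            have : 0 ≤ om n * η := by positivity
            linarith
          gcongr

end mfd

end Crest.Agent.R249.Sta5_397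
end
end

-- ▼ part R249/Sta6_397

/-!
# R249, leaf D3-START (helper397), file 6: smooth cut-offs, local integrals, interior Hessian estimate

* `exists_cut` : smooth cut-off functions on balls;
* `glue_smooth` : a function which is smooth on an open set, cut off, is smooth on `M`;
* `hess_local` : Caccioppoli for the Hessian of a function which is smooth on a ball only.
-/

set_option autoImplicit false
set_option maxSynthPendingDepth 3
set_option linter.unusedSectionVars false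
set_option linter.unusedVariables false

open Bundle Bornology Set MeasureTheory Manifold Filter Metric Topology
open scoped ENNReal ContDiff Topology NNReal RealInnerProductSpace
open Crest.GeometryTopology.CoordMetric Crest.GeometryTopology.ChartCurvature
open Crest.GeometryTopology.PointedLimit

noncomputable section

namespace Crest.Agent.R249.Sta6_397

universe u

open Crest.Agent.R247 Crest.Agent.R247.Dir593 Crest.Agent.R247.Dir593.GradS
open Crest.Agent.R247.Hes124 Crest.Agent.R247.Bo84 Crest.Agent.R247.Ms322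

variable {n : ℕ} {M : Type u} [MetricSpace M]
    [ChartedSpace (EuclideanSpace ℝ (Fin n)) M]
    [IsManifold 𝓘(ℝ, EuclideanSpace ℝ (Fin n)) ∞ M]
    [RiemannianBundle (fun x : M => TangentSpace 𝓘(ℝ, EuclideanSpace ℝ (Fin n)) x)]
    [IsContMDiffRiemannianBundle 𝓘(ℝ, EuclideanSpace ℝ (Fin n)) ∞ (EuclideanSpace ℝ (Fin n))
      (fun x : M => TangentSpace 𝓘(ℝ, EuclideanSpace ℝ (Fin n)) x)]
    [IsRiemannianManifold 𝓘(ℝ, EuclideanSpace ℝ (Fin n)) M]
    [MeasurableSpace M] [BorelSpace M] [ProperSpace M] [SecondCountableTopology M] [Nonempty M]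

local notation "μM" => (μHE[n] : Measure M)

variable (n) in
/-- smooth cut-off functions on balls -/
theorem exists_cut (q : M) {r₁ r₂ : ℝ} (h : r₁ < r₂) : ∃ χ : M → ℝ,
    ContMDiff (𝓡 n) 𝓘(ℝ) ∞ χ ∧ HasCompactSupport χ ∧ tsupport χ ⊆ closedBall q r₂ ∧
      ∀ x ∈ closedBall q r₁, χ x = 1 := by
  obtain ⟨f, h0, h1, h2⟩ := exists_contMDiffMap_zero_one_of_isClosed (n := (⊤ : ℕ∞)) (𝓡 n)
    (s := (ball q r₂)ᶜ) (t := closedBall q r₁) isOpen_ball.isClosed_compl isClosed_closedBall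
    (by
      rw [Set.disjoint_compl_left_iff_subset]
      exact closedBall_subset_ball h)
  have hs : tsupport f ⊆ closedBall q r₂ := by
    refine closure_minimal ?_ isClosed_closedBall
    intro x hx
    by_contra hx'
    apply hx
    exact h0 (fun hh => hx' (ball_subset_closedBall hh))
  exact ⟨f, f.contMDiff, (isCompact_closedBall q r₂).of_isClosed_subset (isClosed_tsupport _) hs,
    hs, fun x hx => h1 hx⟩

/-- a function smooth on an open set, cut off, is smooth -/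
theorem glue_smooth {O : Set M} (hO : IsOpen O) {F χ : M → ℝ} (hF : ContMDiffOn (𝓡 n) 𝓘(ℝ) ∞ F O)
    (hχ : ContMDiff (𝓡 n) 𝓘(ℝ) ∞ χ) (hs : tsupport χ ⊆ O) :
    ContMDiff (𝓡 n) 𝓘(ℝ) ∞ (fun x => χ x * F x) := by
  refine contMDiff_of_tsupport fun x hx => ?_
  have hx' : x ∈ O := hs (tsupport_mul_subset_left hx)
  exact (hχ x).mul (hF.contMDiffAt (hO.mem_nhds hx'))

lemma smAt {O : Set M} (hO : IsOpen O) {F : M → ℝ} (hF : ContMDiffOn (𝓡 n) 𝓘(ℝ) ∞ F O) {z : M}
    (hz : z ∈ O) : ContMDiffAt (𝓡 n) 𝓘(ℝ) ∞ F z := hF.contMDiffAt (hO.mem_nhds hz)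

lemma cont_mLap {O : Set M} (hO : IsOpen O) {F : M → ℝ} (hF : ContMDiffOn (𝓡 n) 𝓘(ℝ) ∞ F O) :
    ContinuousOn (mLap n F) O := fun z hz =>
  (contMDiffAt_mLap (m := ∞) (smAt hO hF hz) (by simp) le_rfl).continuousAt.continuousWithinAt

lemma cont_mGam {O : Set M} (hO : IsOpen O) {F G : M → ℝ} (hF : ContMDiffOn (𝓡 n) 𝓘(ℝ) ∞ F O)
    (hG : ContMDiffOn (𝓡 n) 𝓘(ℝ) ∞ G O) : ContinuousOn (mGam n F G) O := fun z hz =>
  (contMDiffAt_mGam (m := ∞) (smAt hO hF hz) (smAt hO hG hz) (by simp)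
    le_rfl).continuousAt.continuousWithinAt

lemma cont_mHessSq {O : Set M} (hO : IsOpen O) {F : M → ℝ} (hF : ContMDiffOn (𝓡 n) 𝓘(ℝ) ∞ F O) :
    ContinuousOn (mHessSq n F) O := fun z hz =>
  (Bs84.continuousAt_mHessSq ((smAt hO hF hz).of_le two_le_infty)).continuousWithinAt

/-- **Interior Hessian estimate** for a function which is smooth on a ball. -/
theorem hess_local {κ : ℝ} (hκ : 0 ≤ κ) (hk : HasRicciLowerBound n M (-κ)) (q : M) {r : ℝ}
    (hr : 0 < r) {v : M → ℝ} (hv : ContMDiffOn (𝓡 n) 𝓘(ℝ) ∞ v (ball q (3 * r))) :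
    ∫ z in ball q r, mHessSq n v z ∂μM ≤
      4 * ∫ z in closedBall q (2 * r), mLap n v z ^ 2 ∂μM +
        (2 * κ + 6 * r⁻¹ ^ 2) * ∫ z in closedBall q (2 * r), mGam n v v z ∂μM := by
  have := Gs939.finOnCompacts (n := n) (M := M)
  obtain ⟨χ, hχ, hχc, hχs, hχ1⟩ := exists_cut n q (r₁ := 9 / 4 * r) (r₂ := 5 / 2 * r) (by linarith)
  have hsub : closedBall q (5 / 2 * r) ⊆ ball q (3 * r) := closedBall_subset_ball (by linarith)
  set w : M → ℝ := fun x => χ x * v x with hw
  have hwsm : ContMDiff (𝓡 n) 𝓘(ℝ) ∞ w := glue_smooth isOpen_ball hv hχ (hχs.trans hsub)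
  have hwc : HasCompactSupport w := hχc.mul_right
  set B := Gs939.boch hk with hB
  have hwB : w ∈ B.core := ⟨hwsm, hwc⟩
  -- near the closed ball of radius `2 r` the functions agree
  have hev : ∀ z ∈ closedBall q (2 * r), w =ᶠ[𝓝 z] v := by
    intro z hz
    have hz' : ball q (9 / 4 * r) ∈ 𝓝 z := isOpen_ball.mem_nhds
      (closedBall_subset_ball (by linarith) hz)
    filter_upwards [hz'] with y hy
    rw [hw]
    show χ y * v y = v y
    rw [hχ1 y (ball_subset_closedBall hy), one_mul]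
  have hsub2 : closedBall q (2 * r) ⊆ ball q (3 * r) := closedBall_subset_ball (by linarith)
  -- the Lipschitz cut-off
  set ψ : M → ℝ := fun z => Mcp688.cut r (dist q z) with hψ
  have hψT : IsT ψ := Max193.isT_cut q hr
  have hψs : tsupport ψ ⊆ closedBall q (2 * r) := by
    refine closure_minimal ?_ isClosed_closedBall
    intro z hz
    rw [mem_closedBall, dist_comm]
    by_contra h
    push Not at h
    exact hz (Mcp688.cut_eq_zero hr h.le)
  have hG : ∀ᵐ x ∂μM, ‖B.G ψ x‖ ≤ r⁻¹ := by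
    have hl : LipschitzWith (r⁻¹).toNNReal ψ := by
      refine LipschitzWith.of_dist_le_mul fun y z => ?_
      rw [Real.coe_toNNReal _ (inv_nonneg.2 hr.le), Real.dist_eq]
      refine (Mcp688.abs_cut_sub hr _ _).trans ?_
      have : |dist q y - dist q z| ≤ dist y z := by
        rw [dist_comm q y, dist_comm q z]
        exact abs_dist_sub_le y z q
      gcongr
    filter_upwards [B.norm_le hψT.1 isOpen_univ hl.lipschitzOnWith] with x hx
    have := hx (mem_univ x)
    rwa [Real.coe_toNNReal _ (inv_nonneg.2 hr.le)] at this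
  have hc := B.cacc hκ hwB hψT (fun x => Mcp688.cut_nonneg _ _) (fun x => Mcp688.cut_le_one _ _)
    (c := r⁻¹) hG
  have hcomp : IsCompact (closedBall q (2 * r)) := isCompact_closedBall _ _
  have hwsm2 : ∀ z, ContMDiffAt (𝓡 n) 𝓘(ℝ) 2 w z := fun z => (hwsm z).of_le two_le_infty
  have iL : IntegrableOn (fun z => mLap n v z ^ 2) (closedBall q (2 * r)) μM :=
    (((cont_mLap isOpen_ball hv).mono hsub2).pow 2).integrableOn_compact hcomp
  have iG : IntegrableOn (fun z => mGam n v v z) (closedBall q (2 * r)) μM :=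
    ((cont_mGam isOpen_ball hv hv).mono hsub2).integrableOn_compact hcomp
  have h1 : ∫ x in tsupport ψ, tr (B.H w x) ^ 2 ∂μM ≤
      ∫ z in closedBall q (2 * r), mLap n v z ^ 2 ∂μM := by
    have e : ∀ x ∈ closedBall q (2 * r), tr (B.H w x) ^ 2 = mLap n v x ^ 2 := by
      intro x hx
      have e1 : tr (B.H w x) = mLap n w x := Bs84.tr_Hf (hwsm2 x)
      rw [e1, mLap_congr (hev x hx)]
    have i1 : IntegrableOn (fun x => tr (B.H w x) ^ 2) (closedBall q (2 * r)) μM :=
      iL.congr_fun (fun x hx => (e x hx).symm) isClosed_closedBall.measurableSet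
    rw [← setIntegral_congr_fun isClosed_closedBall.measurableSet e]
    exact setIntegral_mono_set i1 (Eventually.of_forall fun x => sq_nonneg _)
      hψs.eventuallyLE
  have h2 : ∫ x in tsupport ψ, ‖B.G w x‖ ^ 2 ∂μM ≤
      ∫ z in closedBall q (2 * r), mGam n v v z ∂μM := by
    have e : ∀ x ∈ closedBall q (2 * r), ‖B.G w x‖ ^ 2 = mGam n v v x := by
      intro x hx
      have e1 : ‖B.G w x‖ ^ 2 = mGam n w w x := Bs84.norm_Gr_sq_eq w x
      rw [e1, mGam_congr (hev x hx) (hev x hx)]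
    have i1 : IntegrableOn (fun x => ‖B.G w x‖ ^ 2) (closedBall q (2 * r)) μM :=
      iG.congr_fun (fun x hx => (e x hx).symm) isClosed_closedBall.measurableSet
    rw [← setIntegral_congr_fun isClosed_closedBall.measurableSet e]
    exact setIntegral_mono_set i1 (Eventually.of_forall fun x => sq_nonneg _)
      hψs.eventuallyLE
  have h3 : ∫ z in ball q r, mHessSq n v z ∂μM ≤ ∫ x, ψ x ^ 2 * ‖B.H w x‖ ^ 2 ∂μM := by
    have hHi : Integrable (fun x => ‖B.H w x‖ ^ 2) μM := (B.H_memLp hwB).integrable_norm_pow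
      (by norm_num)
    have i1 : Integrable (fun x => ψ x ^ 2 * ‖B.H w x‖ ^ 2) μM := by
      refine hHi.bdd_mul (c := 1) (hψT.1.continuous.pow 2).aestronglyMeasurable
        (Eventually.of_forall fun x => ?_)
      rw [Real.norm_eq_abs, abs_of_nonneg (sq_nonneg _)]
      exact pow_le_one₀ (Mcp688.cut_nonneg _ _) (Mcp688.cut_le_one _ _)
    have e : ∀ x ∈ ball q r, mHessSq n v x = ψ x ^ 2 * ‖B.H w x‖ ^ 2 := by
      intro x hx
      have hx' : x ∈ closedBall q (2 * r) := ball_subset_closedBall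
        (ball_subset_ball (by linarith) hx)
      have e1 : ‖B.H w x‖ ^ 2 = mHessSq n w x := Bs84.norm_Hf_sq (hwsm2 x)
      have e2 : ψ x = 1 := by
        rw [mem_ball, dist_comm] at hx
        exact Mcp688.cut_eq_one hr hx.le
      rw [e1, e2, mHessSq_congr (hev x hx')]
      ring
    rw [setIntegral_congr_fun isOpen_ball.measurableSet e]
    exact setIntegral_le_integral i1 (Eventually.of_forall fun x => by positivity)
  refine h3.trans (hc.trans ?_)
  have h4 : 0 ≤ 2 * κ + 6 * r⁻¹ ^ 2 := by positivity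
  gcongr

end Crest.Agent.R249.Sta6_397
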