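import Crest.Agent.R249.LimDef_41
import Crest.Agent.R249.Dec7_308
import Crest.Agent.R249.Cod6_992
import Crest.Agent.R249.SobI_982
import Crest.Agent.R249.Dec6_308
import Crest.Agent.R249.Sta6_397
import Crest.Agent.R247.Bo8_84
import Crest.Agent.R249.StaD_509
import Crest.Agent.R249.D1Def_104
import Crest.Agent.R247.Bo7_84
import Crest.Agent.R249.SobJ_982

-- ▼ part R249/SD1_308
section

/-!
R249 (S0386), D3 (helper308), assembly of `SDStmt`, part 1: the curvature bound `B = (4/3) Scal`.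
-/

set_option autoImplicit false
set_option maxSynthPendingDepth 3
set_option linter.unusedSectionVars false

open scoped ContDiff ENNReal NNReal Topology Manifold Bundle RealInnerProductSpace
open MeasureTheory Set Filter Metric Bundle
open Crest.GeometryTopology.CoordMetric Crest.GeometryTopology.ChartCurvature
open Crest.Agent.R247 Crest.Agent.R247.Bo84 Crest.Agent.R247.Ms322 Crest.Agent.R247.Bs84
open Crest.Agent.R247.Hes124 (F S mv tr idm)
open Crest.GeometryTopology.PointedLimit Crest.Agent.R247.Mcp688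
open Crest.Agent.R249.Cod992 Crest.Agent.R249.D1Def104 Crest.Agent.R249.Dec308

noncomputable section

namespace Crest.Agent.R249.SD308

variable {M : Type*} [MetricSpace M] [CompleteSpace M] [ConnectedSpace M]
  [ChartedSpace (EuclideanSpace ℝ (Fin 4)) M]
  [IsManifold 𝓘(ℝ, EuclideanSpace ℝ (Fin 4)) ∞ M]
  [RiemannianBundle (fun x : M => TangentSpace 𝓘(ℝ, EuclideanSpace ℝ (Fin 4)) x)]
  [IsContMDiffRiemannianBundle 𝓘(ℝ, EuclideanSpace ℝ (Fin 4)) ∞ (EuclideanSpace ℝ (Fin 4))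
    (fun x : M => TangentSpace 𝓘(ℝ, EuclideanSpace ℝ (Fin 4)) x)]
  [IsRiemannianManifold 𝓘(ℝ, EuclideanSpace ℝ (Fin 4)) M]
  [MeasurableSpace M] [BorelSpace M] [SecondCountableTopology M] [Nonempty M]

/-- the curvature bound -/
def Bc (M : Type*) [MetricSpace M] [ChartedSpace (EuclideanSpace ℝ (Fin 4)) M]
    [RiemannianBundle (fun x : M => TangentSpace 𝓘(ℝ, EuclideanSpace ℝ (Fin 4)) x)] (z : M) : ℝ :=
  (4 / 3) * mScal 4 M z

theorem Bc_nonneg (h : HasNonnegSectionalCurvature 4 M) (z : M) : 0 ≤ Bc M z :=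
  mul_nonneg (by norm_num) (Alg2_104.mScal_nonneg h z)

theorem continuous_Bc : Continuous (Bc M) := continuous_const.mul Sch1_104.continuous_mScal

theorem curvLe_Bc (h : HasNonnegSectionalCurvature 4 M) (z : M) : MCurvLe 4 z (Bc M z) :=
  (mCurvLe_iff (Bc_nonneg h z)).2 fun u v w y => Alg2_104.curv_bound_M h z u v w y

theorem Bc_sq_le (c : ℝ) (z : M) : Bc M z ^ 2 ≤ 60 * c ^ 2 + 16 * mRicDev 4 M c z := by
  have h1 := Sch1_104.mRicDev_split (M := M) (n := 4) (by norm_num) c z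
  have h2 := Sch1_104.density_nonneg (M := M) (n := 4) z
  have h3 : (mScal 4 M z - 4 * c) ^ 2 ≤ 4 * mRicDev 4 M c z := by
    push_cast at h1
    linarith
  unfold Bc
  nlinarith [sq_nonneg (mScal 4 M z - 8 * c), sq_nonneg (mScal 4 M z)]

/-- the `L²` bound of the curvature on balls -/
theorem int_Bc_le (hRic : HasRicciLowerBound 4 M 0) {x y : M} {r R c η : ℝ} (hr : 0 < r)
    (hsub : ball y r ⊆ ball x R) (hη : 0 ≤ η)
    (h : ∫⁻ z in ball x R, ENNReal.ofReal (mRicDev 4 M c z) ∂(μHE[4] : Measure M) ≤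
      ENNReal.ofReal η) :
    ∫ z in ball y r, Bc M z ^ 2 ∂(μHE[4] : Measure M) ≤ 60 * om4 * (c ^ 2 * r ^ 4) + 16 * η := by
  have := HR216.properSpace_of_riemannian 4 M
  have := isLocallyFinite_muHE 4 M
  have hcd : Continuous (mRicDev 4 M c) := Sch1_104.continuous_mRicDev c
  have hfin : (μHE[4] : Measure M) (ball y r) ≠ ⊤ := measure_ball_lt_top.ne
  have hi : ∀ f : M → ℝ, Continuous f → IntegrableOn f (ball y r) (μHE[4] : Measure M) :=
    fun f hf => (hf.continuousOn.integrableOn_compact (isCompact_closedBall y r)).mono_set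
      ball_subset_closedBall
  have h1 : ∫ z in ball y r, Bc M z ^ 2 ∂(μHE[4] : Measure M) ≤
      ∫ z in ball y r, (60 * c ^ 2 + 16 * mRicDev 4 M c z) ∂(μHE[4] : Measure M) :=
    integral_mono (hi _ (continuous_Bc.pow 2)) (hi _ (continuous_const.add
      (continuous_const.mul hcd))) fun z => Bc_sq_le c z
  have h2 : ∫ z in ball y r, mRicDev 4 M c z ∂(μHE[4] : Measure M) ≤ η := by
    rw [integral_eq_lintegral_of_nonneg_ae
      (Eventually.of_forall fun z => Sch1_104.mRicDev_nonneg c z) hcd.aestronglyMeasurable]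
    refine ENNReal.toReal_le_of_le_ofReal hη (le_trans ?_ h)
    exact lintegral_mono_set hsub
  have i1 : Integrable (fun _ : M => 60 * c ^ 2) ((μHE[4] : Measure M).restrict (ball y r)) :=
    hi _ continuous_const
  have i2 : Integrable (fun z : M => 16 * mRicDev 4 M c z)
      ((μHE[4] : Measure M).restrict (ball y r)) := hi _ (continuous_const.mul hcd)
  rw [integral_add i1 i2, setIntegral_const, integral_const_mul, smul_eq_mul] at h1
  have h3 := real_up hRic y r hr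
  have h4 : (μHE[4] : Measure M).real (ball y r) * (60 * c ^ 2) ≤ (om4 * r ^ 4) * (60 * c ^ 2) :=
    mul_le_mul_of_nonneg_right h3 (by positivity)
  nlinarith

end Crest.Agent.R249.SD308
end
end

-- ▼ part R249/En1_920
section

/-!
# R249, leaf D3-DECAY/E1 (helper920): energy and `L⁴` bound for the Hessian of a harmonic function

`n = 4`, `f` of class `C⁴` and harmonic on the open set `W ⊇ closedBall x0 (2s)`, `B` a continuous
curvature bound on `W` with `∫_{ball x0 (2s)} B² ≤ (1/(256 KS))²`, `|∇f| ≤ lam` on `ball x0 (2s)`: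

* `en_l4` : `√(∫_{ball x0 s} |Hess f|⁴) ≤ KS (112 Cth²/s² ∫_{B_2s} |Hess f|² + 384 lam² ∫_{B_2s} B²)`;
* `en_h3` : `∫_{ball x0 s} |∇Hess f|² ≤ 52 Cth²/s² ∫_{B_2s} |Hess f|² + 192 lam² ∫_{B_2s} B²`.
-/

set_option autoImplicit false
set_option maxSynthPendingDepth 3
set_option linter.unusedSectionVars false
set_option linter.unusedVariables false

open Bundle Bornology Set MeasureTheory Manifold Filter Metric
open scoped ENNReal ContDiff Topology NNReal
open Crest.GeometryTopology.CoordMetric Crest.GeometryTopology.ChartCurvature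
open Crest.GeometryTopology.PointedLimit
open Crest.Agent.R226.ChartMet842
open Crest.Agent.R247.Ms322
open Crest.Agent.R247 Crest.Agent.R249.Vf281 Crest.Agent.R249.Cod992
open Crest.Agent.R247.Mcp688 Crest.Agent.R249.SobA_982 Crest.Agent.R249.SobB_982
  Crest.Agent.R249.SobC_982 Crest.Agent.R249.SobD_982 Crest.Agent.R249.SobE_982
  Crest.Agent.R249.SobG_982 Crest.Agent.R249.SobH_982 Crest.Agent.R249.SobI_982

noncomputable section

namespace Crest.Agent.R249.En920

/-- Cauchy–Schwarz, squared form. -/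
theorem cs_sq {X : Type*} [MeasurableSpace X] {μ : Measure X} {f g : X → ℝ}
    (hf : Integrable (fun x => f x ^ 2) μ) (hg : Integrable (fun x => g x ^ 2) μ)
    (hfg : Integrable (fun x => f x * g x) μ) :
    (∫ x, f x * g x ∂μ) ^ 2 ≤ (∫ x, f x ^ 2 ∂μ) * ∫ x, g x ^ 2 ∂μ := by
  have h : ∀ t : ℝ, 0 ≤ (∫ x, f x ^ 2 ∂μ) * (t * t) + (2 * ∫ x, f x * g x ∂μ) * t +
      ∫ x, g x ^ 2 ∂μ := by
    intro t
    have h0 : 0 ≤ ∫ x, (t * f x + g x) ^ 2 ∂μ := integral_nonneg fun x => sq_nonneg _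
    have e : ∀ x, (t * f x + g x) ^ 2 = (t * t) * f x ^ 2 + (2 * t) * (f x * g x) + g x ^ 2 := by
      intro x; ring
    simp_rw [e] at h0
    have j1 : Integrable (fun x => (t * t) * f x ^ 2) μ := hf.const_mul _
    have j2 : Integrable (fun x => (2 * t) * (f x * g x)) μ := hfg.const_mul _
    have j3 : Integrable (fun x => (t * t) * f x ^ 2 + (2 * t) * (f x * g x)) μ := j1.add j2
    rw [integral_add j3 hg, integral_add j1 j2, integral_const_mul, integral_const_mul] at h0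
    linarith
  have := discrim_le_zero h
  unfold discrim at this
  linarith

theorem sq_add_le (p q : ℝ) : (p + q) ^ 2 ≤ 2 * p ^ 2 + 2 * q ^ 2 := by
  nlinarith [sq_nonneg (p - q)]

section reg
variable {n : ℕ} {M : Type*} [MetricSpace M] [ChartedSpace (EuclideanSpace ℝ (Fin n)) M]
  [IsManifold (𝓡 n) ∞ M]
  [RiemannianBundle (fun p : M => TangentSpace (𝓡 n) p)]
  [IsContMDiffRiemannianBundle (𝓡 n) ∞ (EuclideanSpace ℝ (Fin n)) (fun p : M => TangentSpace (𝓡 n) p)]

local notation "𝔼" => EuclideanSpace ℝ (Fin n)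

/-- regularity of the squared norm of the Hessian. -/
theorem contMDiffAt_mHessSq {p : M} {f : M → ℝ} (hf : ContMDiffAt (𝓡 n) 𝓘(ℝ, ℝ) 3 f p) :
    ContMDiffAt (𝓡 n) 𝓘(ℝ, ℝ) 1 (Bo84.mHessSq n f) p := by
  refine Bo84.contMDiffAt_of_inCh (k := 1) Bo84.one_le_infty (mem_chart_source 𝔼 p) ?_
  have h1 : ContDiffAt ℝ 1 (Bo84.hessSq (chartMetric n M p) (Bo84.inCh n p f))
      (chartCentre n M p) := by
    have hA := contDiffAt_hessE (Bo84.isRiemannianOn_chartMetric (n := n) p) (Bo84.centre_mem p)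
      (m := 1) (Bo84.contDiffAt_centre Bo84.three_le_infty hf) (by norm_num)
      (WithTop.coe_le_coe.2 le_top)
    exact contDiffAt_const.clm_apply (hA.clm_comp hA)
  refine ContDiffAt.congr_of_eventuallyEq h1 ?_
  have hf2 : ∀ᶠ z in 𝓝 (chartCentre n M p), ContMDiffAt (𝓡 n) 𝓘(ℝ, ℝ) 2 f
      ((chartAt 𝔼 p).symm z) := by
    refine eventually_contMDiffAt Bo84.two_le_infty (by simp) (Bo84.centre_mem p) ?_
    rw [symm_centre]; exact hf.of_le (by norm_num)
  filter_upwards [(chartAt 𝔼 p).open_target.mem_nhds (Bo84.centre_mem p), hf2] with z hz hfz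
  exact Bo84.mHessSq_chart hz hfz

end reg

section M
variable {M : Type*} [MetricSpace M] [ChartedSpace (EuclideanSpace ℝ (Fin 4)) M]
  [IsManifold (𝓡 4) ∞ M]
  [RiemannianBundle (fun p : M => TangentSpace (𝓡 4) p)]
  [IsContMDiffRiemannianBundle (𝓡 4) ∞ (EuclideanSpace ℝ (Fin 4)) (fun p : M => TangentSpace (𝓡 4) p)]
  [IsRiemannianManifold (𝓡 4) M] [CompleteSpace M]
  [MeasurableSpace M] [BorelSpace M]

/-- the regularised norm of the Hessian and its gradient bound. -/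
theorem lgOn_w {W : Set M} (hW : IsOpen W) {f : M → ℝ}
    [SecondCountableTopology M] [Nonempty M]
    (hf : ∀ z ∈ W, ContMDiffAt (𝓡 4) 𝓘(ℝ, ℝ) 4 f z) {ε : ℝ} (hε : 0 < ε) :
    ∃ G : M → ℝ, LGOn W (fun z => √(Bo84.mHessSq 4 f z + ε ^ 2)) G ∧
      ∀ z ∈ W, G z ^ 2 ≤ mHess3Sq 4 f z := by
  have hT1 : ∀ z ∈ W, ContMDiffAt (𝓡 4) 𝓘(ℝ, ℝ) 1 (Bo84.mHessSq 4 f) z := fun z hz =>
    contMDiffAt_mHessSq ((hf z hz).of_le (by norm_num))
  have hT0 : ∀ z ∈ W, 0 ≤ Bo84.mHessSq 4 f z := fun z hz =>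
    Bo84.mHessSq_nonneg ((hf z hz).of_le (by norm_num))
  have hL := lgOn_of_contMDiffAt (n := 4) hW hT1
  have hΦ : ∀ y ∈ W, ContDiffAt ℝ 1 (fun t : ℝ => √(t + ε ^ 2)) (Bo84.mHessSq 4 f y) := by
    intro y hy
    have h0 := hT0 y hy
    exact (contDiffAt_id.add contDiffAt_const).sqrt (by
      have : 0 < ε ^ 2 := by positivity
      simp only [id]
      positivity)
  refine ⟨_, hL.comp hΦ, fun z hz => ?_⟩
  have h0 := hT0 z hz
  have hε2 : 0 < ε ^ 2 := by positivity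
  have hpos : 0 < Bo84.mHessSq 4 f z + ε ^ 2 := by positivity
  have hd : HasDerivAt (fun t : ℝ => √(t + ε ^ 2)) (1 / (2 * √(Bo84.mHessSq 4 f z + ε ^ 2)))
      (Bo84.mHessSq 4 f z) := by
    have := ((hasDerivAt_id (Bo84.mHessSq 4 f z)).add_const (ε ^ 2)).sqrt hpos.ne'
    simpa using this
  have hk := mkato3 (n := 4) (p := z) ((hf z hz).of_le (show (3 : WithTop ℕ∞) ≤ 4 by norm_num))
  have h3 : 0 ≤ mHess3Sq 4 f z :=
    mHess3Sq_nonneg ((hf z hz).of_le (show (3 : WithTop ℕ∞) ≤ 4 by norm_num))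
  show (|deriv (fun t : ℝ => √(t + ε ^ 2)) (Bo84.mHessSq 4 f z)| *
    ‖Gr (n := 4) (Bo84.mHessSq 4 f) z‖) ^ 2 ≤ _
  rw [hd.deriv, mul_pow, sq_abs, sq_norm_Gr, div_pow, mul_pow, Real.sq_sqrt hpos.le, one_pow,
    one_div, inv_mul_eq_div, div_le_iff₀ (by positivity)]
  nlinarith [mul_nonneg h3 hε2.le]

variable {κ : ℝ} {om : ℝ} {x0 : M} {s Λ v : ℝ} {W : Set M} {f B : M → ℝ} {lam : ℝ}

/-- the arithmetic of the absorption. -/
theorem absorb {K x Y a IT IB l R : ℝ} (hK : 0 < K) (hx0 : 0 ≤ x) (ha : 0 ≤ a) (hIT : 0 ≤ IT)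
    (hIB : 0 ≤ IB) (hl : 0 ≤ l) (hR0 : 0 ≤ R) (hR : R ≤ 1 / (256 * K))
    (h1 : x ≤ K * (2 * Y + 2 * a * IT))
    (h2 : Y ≤ 6 * (a * IT) + 96 * (l * IB) + 64 * (R * x)) :
    x ≤ K * (28 * a * IT + 384 * l * IB) ∧ Y ≤ 13 * a * IT + 192 * l * IB := by
  have h3 : R * x ≤ 1 / (256 * K) * x := mul_le_mul_of_nonneg_right hR hx0
  have h4 : K * (1 / (256 * K) * x) = x / 256 := by field_simp
  have h5 : K * (2 * Y) ≤ K * (2 * (6 * (a * IT) + 96 * (l * IB) + 64 * (1 / (256 * K) * x))) := by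
    apply mul_le_mul_of_nonneg_left _ hK.le
    linarith
  have h6 : x ≤ K * (28 * a * IT + 384 * l * IB) := by
    nlinarith
  refine ⟨h6, ?_⟩
  have h7 : 1 / (256 * K) * x ≤ 1 / (256 * K) * (K * (28 * a * IT + 384 * l * IB)) :=
    mul_le_mul_of_nonneg_left h6 (by positivity)
  have h8 : 1 / (256 * K) * (K * (28 * a * IT + 384 * l * IB)) =
      (28 * a * IT + 384 * l * IB) / 256 := by field_simp
  have h9 : 0 ≤ a * IT := mul_nonneg ha hIT
  have h10 : 0 ≤ l * IB := mul_nonneg hl hIB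
  linarith

set_option maxHeartbeats 1000000 in
/-- **Energy and `L⁴` bounds.** -/
theorem energy (C : Rad 4 κ M (μHE[4] : Measure M)) (hκ : 0 ≤ κ) (hom : 0 ≤ om)
    (hup : ∀ (y : M) (s : ℝ), 0 < s → (μHE[4] : Measure M) (ball y s) ≤ ENNReal.ofReal (om * s ^ 4))
    (hs : 0 < s) (hΛ : 2 ≤ Λ) (hv : 16 * om + 1 ≤ v * Λ ^ 4)
    (hlo : ENNReal.ofReal (v * (Λ * s) ^ 4) ≤ (μHE[4] : Measure M) (ball x0 (Λ * s)))
    (hW : IsOpen W) (hWs : closedBall x0 (2 * s) ⊆ W)
    (hf : ∀ z ∈ W, ContMDiffAt (𝓡 4) 𝓘(ℝ, ℝ) 4 f z) (hh : ∀ z ∈ W, Bo84.mLap 4 f z = 0)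
    (hB0 : ∀ z ∈ W, 0 ≤ B z) (hBc : ContinuousOn B W) (hB : ∀ z ∈ W, MCurvLe 4 z (B z))
    (hlam : ∀ z ∈ ball x0 (2 * s), Bo84.mGam 4 f f z ≤ lam ^ 2)
    (hE : ∫ z in ball x0 (2 * s), B z ^ 2 ∂(μHE[4] : Measure M) ≤
      (1 / (256 * KS κ om Λ s)) ^ 2) :
    √(∫ z in ball x0 s, Bo84.mHessSq 4 f z ^ 2 ∂(μHE[4] : Measure M)) ≤
        KS κ om Λ s * (112 * Cth ^ 2 / s ^ 2 *
            ∫ z in ball x0 (2 * s), Bo84.mHessSq 4 f z ∂(μHE[4] : Measure M) +
          384 * lam ^ 2 * ∫ z in ball x0 (2 * s), B z ^ 2 ∂(μHE[4] : Measure M)) ∧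
      ∫ z in ball x0 s, mHess3Sq 4 f z ∂(μHE[4] : Measure M) ≤
        52 * Cth ^ 2 / s ^ 2 *
            ∫ z in ball x0 (2 * s), Bo84.mHessSq 4 f z ∂(μHE[4] : Measure M) +
          192 * lam ^ 2 * ∫ z in ball x0 (2 * s), B z ^ 2 ∂(μHE[4] : Measure M) := by
  have := HR216.properSpace_of_riemannian 4 M
  have := HR216.secondCountable_of_riemannian 4 M
  have := isLocallyFiniteMeasure 4 M
  have : Nonempty M := ⟨x0⟩
  have : SFinite (μHE[4] : Measure M) := inferInstance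
  have hCth := Cth_pos
  have hKpos : 0 < KS κ om Λ s := KS_pos hom hΛ
  set K := KS κ om Λ s with hKdef
  set μ : Measure M := μHE[4] with hμ
  set T : M → ℝ := Bo84.mHessSq 4 f with hT
  set h3 : M → ℝ := mHess3Sq 4 f with hh3
  set b : ℝ := 3 / 2 * s with hb
  have hab : s < b := by rw [hb]; linarith
  have hb2 : b < 2 * s := by rw [hb]; linarith
  have hbs : b - s = s / 2 := by rw [hb]; ring
  set η := cut2 x0 s b with hη
  set F := dcut2 x0 s b with hF
  set a : ℝ := (Cth / (b - s)) ^ 2 with ha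
  have ha0 : 0 ≤ a := sq_nonneg _
  -- regularity
  have hf3 : ∀ z ∈ W, ContMDiffAt (𝓡 4) 𝓘(ℝ, ℝ) 3 f z := fun z hz => (hf z hz).of_le (by norm_num)
  have hf2 : ∀ z ∈ W, ContMDiffAt (𝓡 4) 𝓘(ℝ, ℝ) 2 f z := fun z hz => (hf z hz).of_le (by norm_num)
  have hf1 : ∀ z ∈ W, ContMDiffAt (𝓡 4) 𝓘(ℝ, ℝ) 1 f z := fun z hz => (hf z hz).of_le (by norm_num)
  have hTc : ContinuousOn T W := continuousOn_mHessSq hf2
  have h3c : ContinuousOn h3 W := continuousOn_mHess3Sq hf3
  have hGc : ContinuousOn (Bo84.mGam 4 f f) W := continuousOn_mGam hf1 hf1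
  have hT0 : ∀ z ∈ W, 0 ≤ T z := fun z hz => Bo84.mHessSq_nonneg (hf2 z hz)
  have h30 : ∀ z ∈ W, 0 ≤ h3 z := fun z hz => mHess3Sq_nonneg (hf3 z hz)
  have hG0 : ∀ z, 0 ≤ Bo84.mGam 4 f f z := fun z => Bo84.mGam_self_nonneg (n := 4) f z
  have hcb : closedBall x0 b ⊆ ball x0 (2 * s) := closedBall_subset_ball hb2
  have hbW : closedBall x0 b ⊆ W := (hcb.trans ball_subset_closedBall).trans hWs
  have h2W : ball x0 (2 * s) ⊆ W := ball_subset_closedBall.trans hWs
  -- the cut-off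
  have hη0 : ∀ x, b ≤ dist x x0 → η x = 0 := fun x hx => cut2_zero hab hx
  have hη1 : ∀ x, |η x| ≤ 1 := fun x => by
    rw [abs_of_nonneg (cut2_nonneg x0 s b x)]; exact cut2_le_one x0 s b x
  have hη2 : ∀ x, η x ^ 2 ≤ 1 := fun x => by
    have := hη1 x
    rw [← sq_abs]
    nlinarith [abs_nonneg (η x)]
  have hηlip : LipschitzWith (Real.toNNReal (Cth / (b - s))) η :=
    LipschitzWith.of_dist_le_mul fun x y => by
      rw [Real.dist_eq, Real.coe_toNNReal _ (by rw [hbs]; positivity)]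
      exact cut2_lip hab x y
  have hηc : HasCompactSupport η :=
    HasCompactSupport.intro (isCompact_closedBall x0 b) fun x hx => hη0 x (by
      have : ¬ dist x x0 ≤ b := hx
      linarith)
  have hηs : tsupport η ⊆ W := (tsupport_cut2 hab).trans hbW
  have hGη : ∀ z, ‖Gr (n := 4) η z‖ ≤ Cth / (b - s) := by
    intro z
    have := norm_Gr_le_of_lipschitzOn (n := 4) (z := z) (U := univ) univ_mem hηlip.lipschitzOnWith
    rwa [Real.coe_toNNReal _ (by rw [hbs]; positivity)] at this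
  -- integrals
  have iT : IntegrableOn T (ball x0 (2 * s)) μ :=
    ((hTc.mono hWs).integrableOn_compact (isCompact_closedBall x0 (2 * s))).mono_set
      ball_subset_closedBall
  have iB : IntegrableOn (fun z => B z ^ 2) (ball x0 (2 * s)) μ :=
    (((hBc.pow 2).mono hWs).integrableOn_compact (isCompact_closedBall x0 (2 * s))).mono_set
      ball_subset_closedBall
  set IT := ∫ z in ball x0 (2 * s), T z ∂μ with hIT
  set IB := ∫ z in ball x0 (2 * s), B z ^ 2 ∂μ with hIB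
  have hIT0 : 0 ≤ IT := setIntegral_nonneg isOpen_ball.measurableSet fun z hz => hT0 z (h2W hz)
  have hIB0 : 0 ≤ IB := setIntegral_nonneg isOpen_ball.measurableSet fun z hz => sq_nonneg _
  -- multiplication by continuous compactly supported functions
  have hη2c : HasCompactSupport (fun z => η z ^ 2) :=
    hηc.comp_left (g := fun t : ℝ => t ^ 2) (by simp)
  have hη4c : HasCompactSupport (fun z => η z ^ 4) :=
    hηc.comp_left (g := fun t : ℝ => t ^ 4) (by simp)
  have hs2 : tsupport (fun z => η z ^ 2) ⊆ W :=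
    (closure_mono (fun z hz => by
      rw [Function.mem_support] at hz ⊢
      intro h0; apply hz; simp [h0])).trans hηs
  have hs4 : tsupport (fun z => η z ^ 4) ⊆ W :=
    (closure_mono (fun z hz => by
      rw [Function.mem_support] at hz ⊢
      intro h0; apply hz; simp [h0])).trans hηs
  have hηcont := hηlip.continuous
  have i3 : Integrable (fun z => η z ^ 2 * h3 z) μ :=
    integrable_mul_of_continuousOn_M (n := 4) h3c (hηcont.pow 2) hη2c hs2
  have iBG : Integrable (fun z => η z ^ 2 * (B z ^ 2 * Bo84.mGam 4 f f z)) μ :=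
    integrable_mul_of_continuousOn_M (n := 4) ((hBc.pow 2).mul hGc) (hηcont.pow 2) hη2c hs2
  have iBT : Integrable (fun z => η z ^ 2 * (B z * T z)) μ :=
    integrable_mul_of_continuousOn_M (n := 4) (hBc.mul hTc) (hηcont.pow 2) hη2c hs2
  have iQ : Integrable (fun z => η z ^ 4 * T z ^ 2) μ :=
    integrable_mul_of_continuousOn_M (n := 4) (hTc.pow 2) (hηcont.pow 4) hη4c hs4
  have iGη : Integrable (fun z => Bo84.mGam 4 η η z * T z) μ :=
    integrable_mGam_mul (n := 4) hTc hηlip.locallyLipschitz hηc hηs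
  set Q := ∫ z, η z ^ 4 * T z ^ 2 ∂μ with hQ
  set Y := ∫ z, η z ^ 2 * h3 z ∂μ with hY
  have hQ0 : 0 ≤ Q := integral_nonneg fun z => by positivity
  have hoff : ∀ {g : M → ℝ}, (∀ z, b ≤ dist z x0 → g z = 0) →
      ∫ z, g z ∂μ = ∫ z in ball x0 (2 * s), g z ∂μ := by
    intro g hg
    symm
    apply setIntegral_eq_integral_of_forall_compl_eq_zero
    intro z hz
    apply hg
    have : ¬ dist z x0 < 2 * s := hz
    linarith
  -- the third order estimate
  have hc3 := int_hess3_le (n := 4) hW hf hh hB0 hBc hB hηlip.locallyLipschitz hηc hηs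
  have e1 : ∫ z, Bo84.mGam 4 η η z * T z ∂μ ≤ a * IT := by
    have e : ∫ z, Bo84.mGam 4 η η z * T z ∂μ =
        ∫ z in ball x0 (2 * s), Bo84.mGam 4 η η z * T z ∂μ := by
      symm
      apply setIntegral_eq_integral_of_forall_compl_eq_zero
      intro z hz
      rw [← norm_Gr_sq_eq_mGam, Gr_zero_off fun h => hz (hcb (tsupport_cut2 hab h)), norm_zero]
      norm_num
    rw [e, hIT, ← integral_const_mul]
    refine setIntegral_mono_on iGη.integrableOn (iT.const_mul _) isOpen_ball.measurableSet ?_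
    intro z hz
    have h1 : Bo84.mGam 4 η η z ≤ a := by
      rw [← norm_Gr_sq_eq_mGam, ha]
      have := hGη z
      gcongr
    exact mul_le_mul_of_nonneg_right h1 (hT0 z (h2W hz))
  have e2 : ∫ z, η z ^ 2 * (B z ^ 2 * Bo84.mGam 4 f f z) ∂μ ≤ lam ^ 2 * IB := by
    rw [hoff (fun z hz => by rw [hη0 z hz]; ring), hIB, ← integral_const_mul]
    refine setIntegral_mono_on iBG.integrableOn (iB.const_mul _) isOpen_ball.measurableSet ?_
    intro z hz
    have h1 := hlam z hz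
    have h2 := hη2 z
    have h4 := hG0 z
    calc η z ^ 2 * (B z ^ 2 * Bo84.mGam 4 f f z) ≤ 1 * (B z ^ 2 * lam ^ 2) := by
          gcongr
      _ = lam ^ 2 * B z ^ 2 := by ring
  have e3 : ∫ z, η z ^ 2 * (B z * T z) ∂μ ≤ √IB * √Q := by
    have e : ∫ z, η z ^ 2 * (B z * T z) ∂μ =
        ∫ z in ball x0 (2 * s), B z * (η z ^ 2 * T z) ∂μ := by
      rw [hoff (fun z hz => by rw [hη0 z hz]; ring)]
      congr 1
      funext z
      ring
    have eQ : Q = ∫ z in ball x0 (2 * s), (η z ^ 2 * T z) ^ 2 ∂μ := by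
      rw [hQ, hoff (fun z hz => by rw [hη0 z hz]; ring)]
      congr 1
      funext z
      ring
    have k1 : IntegrableOn (fun z => (η z ^ 2 * T z) ^ 2) (ball x0 (2 * s)) μ := by
      have : (fun z => (η z ^ 2 * T z) ^ 2) = fun z => η z ^ 4 * T z ^ 2 := by funext z; ring
      rw [this]
      exact iQ.integrableOn
    have k2 : IntegrableOn (fun z => B z * (η z ^ 2 * T z)) (ball x0 (2 * s)) μ := by
      have : (fun z => B z * (η z ^ 2 * T z)) = fun z => η z ^ 2 * (B z * T z) := by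
        funext z; ring
      rw [this]
      exact iBT.integrableOn
    have h1 := cs_sq (μ := μ.restrict (ball x0 (2 * s))) iB k1 k2
    rw [← eQ, ← hIB, ← e] at h1
    rw [← Real.sqrt_mul hIB0]
    exact Real.le_sqrt_of_sq_le h1
  have hYle : Y ≤ 6 * (a * IT) + 96 * (lam ^ 2 * IB) + 64 * (√IB * √Q) := by
    have : Y ≤ 6 * ∫ z, Bo84.mGam 4 η η z * T z ∂μ +
        6 * (4:ℕ) ^ 2 * ∫ z, η z ^ 2 * (B z ^ 2 * Bo84.mGam 4 f f z) ∂μ +
        4 * (4:ℕ) ^ 2 * ∫ z, η z ^ 2 * (B z * T z) ∂μ := hc3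
    norm_num at this
    linarith
  -- Sobolev
  have hSob : ∀ ε : ℝ, 0 < ε → √Q ≤ K * (2 * Y + 2 * a * IT +
      ε ^ 2 * (2 * a * μ.real (ball x0 (2 * s)))) := by
    intro ε hε
    obtain ⟨G, hwL, hG⟩ := lgOn_w hW hf hε
    set w : M → ℝ := fun z => √(Bo84.mHessSq 4 f z + ε ^ 2) with hw
    have hLG : LG (fun y => η y * w y) (fun y => |η y| * G y + |w y| * F y) :=
      hwL.cut (LG_cut2 hab) ((tsupport_cut2 hab).trans hbW) ((tsupport_dcut2 hab).trans hbW)
    set H : M → ℝ := fun y => |η y| * G y + |w y| * F y with hH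
    have hH0 : ∀ x, b ≤ dist x x0 → H x = 0 := by
      intro x hx
      simp only [hH, hη, hF]
      rw [cut2_zero hab hx, dcut2_zero hab hx]
      simp
    have hHi : Integrable (fun y => H y ^ 2) μ :=
      integrable_of_zero_off (hLG.contG.pow 2) (fun x hx => by rw [hH0 x hx.le]; norm_num)
        (x0 := x0) (R := b)
    have key := sobR C hκ hom hup hs hΛ hv hlo hLG
      (fun x hx => by rw [hη0 x (hb2.le.trans hx), zero_mul]) hHi
    have hψi : Integrable (fun y => (η y * w y) ^ 4) μ :=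
      integrable_of_zero_off (hLG.continuous.pow 4) (fun x hx => by
        rw [hη0 x hx.le, zero_mul]; norm_num) (x0 := x0) (R := b)
    have hQle : Q ≤ ∫ x, (η x * w x) ^ 4 ∂μ := by
      refine integral_mono iQ hψi fun z => ?_
      show η z ^ 4 * T z ^ 2 ≤ (η z * w z) ^ 4
      by_cases hz : b ≤ dist z x0
      · rw [hη0 z hz]; simp
      · have hzW : z ∈ W := hbW (by
          rw [mem_closedBall]; exact (not_le.1 hz).le)
        have h0 := hT0 z hzW
        have hw4 : w z ^ 4 = (T z + ε ^ 2) ^ 2 := by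
          have : w z ^ 2 = T z + ε ^ 2 := Real.sq_sqrt (by positivity)
          calc w z ^ 4 = (w z ^ 2) ^ 2 := by ring
            _ = _ := by rw [this]
        rw [mul_pow, hw4]
        have : T z ^ 2 ≤ (T z + ε ^ 2) ^ 2 := by
          have : 0 ≤ ε ^ 2 := sq_nonneg _
          nlinarith
        gcongr
    have hVfin : μ (ball x0 (2 * s)) ≠ ⊤ := measure_ball_lt_top.ne
    have iε : IntegrableOn (fun _ : M => ε ^ 2) (ball x0 (2 * s)) μ := integrableOn_const hVfin
    have hHle : ∫ x, H x ^ 2 ∂μ ≤ 2 * Y + (2 * a * IT +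
        ε ^ 2 * (2 * a * μ.real (ball x0 (2 * s)))) := by
      have e : ∫ x, H x ^ 2 ∂μ = ∫ x in ball x0 (2 * s), H x ^ 2 ∂μ :=
        hoff (fun z hz => by rw [hH0 z hz]; norm_num)
      have eY : Y = ∫ x in ball x0 (2 * s), η x ^ 2 * h3 x ∂μ :=
        hoff (fun z hz => by rw [hη0 z hz]; ring)
      have eV : ε ^ 2 * (2 * a * μ.real (ball x0 (2 * s))) =
          2 * a * ∫ x in ball x0 (2 * s), ε ^ 2 ∂μ := by
        rw [setIntegral_const, smul_eq_mul]; ring
      have iTε : IntegrableOn (fun z => T z + ε ^ 2) (ball x0 (2 * s)) μ := iT.add iε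
      have m1 : IntegrableOn (fun z => 2 * (η z ^ 2 * h3 z)) (ball x0 (2 * s)) μ :=
        i3.integrableOn.const_mul _
      have m2 : IntegrableOn (fun z => 2 * a * (T z + ε ^ 2)) (ball x0 (2 * s)) μ :=
        iTε.const_mul _
      rw [e, eY, eV, hIT, ← mul_add (2 * a), ← integral_add iT iε, ← integral_const_mul,
        ← integral_const_mul, ← integral_add m1 m2]
      refine setIntegral_mono_on hHi.integrableOn (m1.add m2) isOpen_ball.measurableSet ?_
      intro z hz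
      have hzW := h2W hz
      have h0 := hT0 z hzW
      have hw2 : w z ^ 2 = T z + ε ^ 2 := Real.sq_sqrt (by positivity)
      have a2 : F z ≤ Cth / (b - s) := dcut2_le hab
      have a3 : 0 ≤ F z := dcut2_nonneg hab
      have a4 : H z ^ 2 ≤ 2 * (|η z| * G z) ^ 2 + 2 * (|w z| * F z) ^ 2 := by
        exact sq_add_le _ _
      have a5 : (|η z| * G z) ^ 2 ≤ η z ^ 2 * h3 z := by
        rw [mul_pow, sq_abs]
        exact mul_le_mul_of_nonneg_left (hG z hzW) (sq_nonneg _)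
      have a6 : (|w z| * F z) ^ 2 ≤ a * (T z + ε ^ 2) := by
        rw [mul_pow, sq_abs, hw2, mul_comm, ha]
        have : 0 ≤ T z + ε ^ 2 := by positivity
        gcongr
      show H z ^ 2 ≤ 2 * (η z ^ 2 * h3 z) + 2 * a * (T z + ε ^ 2)
      linarith
    calc √Q ≤ √(∫ x, (η x * w x) ^ 4 ∂μ) := Real.sqrt_le_sqrt hQle
      _ ≤ K * ∫ x, H x ^ 2 ∂μ := key
      _ ≤ K * (2 * Y + (2 * a * IT + ε ^ 2 * (2 * a * μ.real (ball x0 (2 * s))))) := by
          gcongr
      _ = _ := by ring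
  have hlim : √Q ≤ K * (2 * Y + 2 * a * IT) := by
    have ht : Tendsto (fun ε : ℝ => K * (2 * Y + 2 * a * IT +
        ε ^ 2 * (2 * a * μ.real (ball x0 (2 * s))))) (𝓝[>] 0)
        (𝓝 (K * (2 * Y + 2 * a * IT + 0 ^ 2 * (2 * a * μ.real (ball x0 (2 * s)))))) := by
      apply tendsto_nhdsWithin_of_tendsto_nhds
      apply Continuous.tendsto
      fun_prop
    have h0 : K * (2 * Y + 2 * a * IT + 0 ^ 2 * (2 * a * μ.real (ball x0 (2 * s)))) =
        K * (2 * Y + 2 * a * IT) := by ring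
    rw [h0] at ht
    refine ge_of_tendsto ht ?_
    filter_upwards [self_mem_nhdsWithin] with ε hε using hSob ε hε
  have hR : √IB ≤ 1 / (256 * K) := by
    rw [← Real.sqrt_sq (show (0:ℝ) ≤ 1 / (256 * K) by positivity)]
    exact Real.sqrt_le_sqrt hE
  obtain ⟨r1, r2⟩ := absorb hKpos (Real.sqrt_nonneg Q) ha0 hIT0 hIB0 (sq_nonneg lam)
    (Real.sqrt_nonneg IB) hR hlim hYle
  have haeq : a = 4 * Cth ^ 2 / s ^ 2 := by
    rw [ha, hbs]
    field_simp
    ring
  have hsub : ball x0 s ⊆ ball x0 (2 * s) := ball_subset_ball (by linarith)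
  constructor
  · have h1 : ∫ z in ball x0 s, T z ^ 2 ∂μ ≤ Q := by
      calc ∫ z in ball x0 s, T z ^ 2 ∂μ = ∫ z in ball x0 s, η z ^ 4 * T z ^ 2 ∂μ := by
            apply setIntegral_congr_fun isOpen_ball.measurableSet
            intro z hz
            have : η z = 1 := cut2_one hab (le_of_lt hz)
            simp only [this]
            ring
        _ ≤ Q := setIntegral_le_integral iQ (Eventually.of_forall fun z => by positivity)
    calc √(∫ z in ball x0 s, T z ^ 2 ∂μ) ≤ √Q := Real.sqrt_le_sqrt h1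
      _ ≤ _ := r1
      _ = _ := by rw [haeq]; ring
  · calc ∫ z in ball x0 s, h3 z ∂μ = ∫ z in ball x0 s, η z ^ 2 * h3 z ∂μ := by
            apply setIntegral_congr_fun isOpen_ball.measurableSet
            intro z hz
            have : η z = 1 := cut2_one hab (le_of_lt hz)
            simp only [this]
            ring
        _ ≤ Y := setIntegral_le_integral i3 (Eventually.of_forall fun z => by
            show 0 ≤ η z ^ 2 * h3 z
            by_cases hz : b ≤ dist z x0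
            · rw [hη0 z hz]; simp
            · have hzW : z ∈ W := hbW (by
                rw [mem_closedBall]; exact (not_le.1 hz).le)
              have := h30 z hzW
              positivity)
        _ ≤ _ := r2
        _ = _ := by rw [haeq]; ring

/-- for `Ric ≥ 0` the Sobolev constant is scale invariant. -/
def K0 (om Λ : ℝ) : ℝ := (12 * (Λ + 2) ^ 4 * (4 ^ 4 * om + 1) * Cth) ^ 2

theorem KS_zero (om Λ s : ℝ) : KS 0 om Λ s = K0 om Λ := by
  simp [KS, K0]

theorem K0_pos (hom : 0 ≤ om) (hΛ : 2 ≤ Λ) : 0 < K0 om Λ := by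
  rw [← KS_zero om Λ 1]; exact KS_pos hom hΛ

end M

section ric
universe u
variable {M : Type u} [MetricSpace M] [CompleteSpace M] [ConnectedSpace M]
  [ChartedSpace (EuclideanSpace ℝ (Fin 4)) M]
  [IsManifold (𝓡 4) ∞ M]
  [RiemannianBundle (fun p : M => TangentSpace (𝓡 4) p)]
  [IsContMDiffRiemannianBundle (𝓡 4) ∞ (EuclideanSpace ℝ (Fin 4)) (fun p : M => TangentSpace (𝓡 4) p)]
  [IsRiemannianManifold (𝓡 4) M]
  [MeasurableSpace M] [BorelSpace M]

variable {om : ℝ} {x0 : M} {s Λ v : ℝ} {W : Set M} {f B : M → ℝ} {lam : ℝ}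

/-- **Energy and `L⁴` bounds**, `Ric ≥ 0`. -/
theorem energy0 (hRic : HasRicciLowerBound 4 M 0) (hom : 0 ≤ om)
    (hup : ∀ (y : M) (s : ℝ), 0 < s → (μHE[4] : Measure M) (ball y s) ≤ ENNReal.ofReal (om * s ^ 4))
    (hs : 0 < s) (hΛ : 2 ≤ Λ) (hv : 16 * om + 1 ≤ v * Λ ^ 4)
    (hlo : ENNReal.ofReal (v * (Λ * s) ^ 4) ≤ (μHE[4] : Measure M) (ball x0 (Λ * s)))
    (hW : IsOpen W) (hWs : closedBall x0 (2 * s) ⊆ W)
    (hf : ∀ z ∈ W, ContMDiffAt (𝓡 4) 𝓘(ℝ, ℝ) 4 f z) (hh : ∀ z ∈ W, Bo84.mLap 4 f z = 0)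
    (hB0 : ∀ z ∈ W, 0 ≤ B z) (hBc : ContinuousOn B W) (hB : ∀ z ∈ W, MCurvLe 4 z (B z))
    (hlam : ∀ z ∈ ball x0 (2 * s), Bo84.mGam 4 f f z ≤ lam ^ 2)
    (hE : ∫ z in ball x0 (2 * s), B z ^ 2 ∂(μHE[4] : Measure M) ≤
      (1 / (256 * K0 om Λ)) ^ 2) :
    √(∫ z in ball x0 s, Bo84.mHessSq 4 f z ^ 2 ∂(μHE[4] : Measure M)) ≤
        K0 om Λ * (112 * Cth ^ 2 / s ^ 2 *
            ∫ z in ball x0 (2 * s), Bo84.mHessSq 4 f z ∂(μHE[4] : Measure M) +
          384 * lam ^ 2 * ∫ z in ball x0 (2 * s), B z ^ 2 ∂(μHE[4] : Measure M)) ∧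
      ∫ z in ball x0 s, mHess3Sq 4 f z ∂(μHE[4] : Measure M) ≤
        52 * Cth ^ 2 / s ^ 2 *
            ∫ z in ball x0 (2 * s), Bo84.mHessSq 4 f z ∂(μHE[4] : Measure M) +
          192 * lam ^ 2 * ∫ z in ball x0 (2 * s), B z ^ 2 ∂(μHE[4] : Measure M) := by
  obtain ⟨C⟩ := Bgr546.rad_all 4 0 le_rfl M (by rw [neg_zero]; exact hRic)
  have h := energy C le_rfl hom hup hs hΛ hv hlo hW hWs hf hh hB0 hBc hB hlam
    (by rw [KS_zero]; exact hE)
  rwa [KS_zero] at h

end ric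

end Crest.Agent.R249.En920
end
end

-- ▼ part R249/En2_920
section

/-!
# R249, leaf D3-DECAY/E1 (helper920), part 2: the `L⁴` bound for a system, in the form of
`Dec308.one_step4` (`hE`), and the third order energy of a system.
-/

set_option autoImplicit false
set_option maxSynthPendingDepth 3
set_option linter.unusedSectionVars false

open scoped ContDiff ENNReal NNReal Topology Manifold Bundle RealInnerProductSpace
open MeasureTheory Set Filter Metric Bundle
open Crest.GeometryTopology.CoordMetric Crest.GeometryTopology.ChartCurvature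
open Crest.Agent.R247 Crest.Agent.R247.Bo84 Crest.Agent.R247.Ms322 Crest.Agent.R247.Bs84
open Crest.GeometryTopology.PointedLimit Crest.Agent.R247.Mcp688
open Crest.Agent.R249.SobE_982 Crest.Agent.R249.SobG_982 Crest.Agent.R249.SobC_982
open Crest.Agent.R249.Cod992 Crest.Agent.R249.Dec308

noncomputable section

namespace Crest.Agent.R249.En920

universe u
variable {M : Type u} [MetricSpace M] [CompleteSpace M] [ConnectedSpace M]
  [ChartedSpace (EuclideanSpace ℝ (Fin 4)) M]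
  [IsManifold 𝓘(ℝ, EuclideanSpace ℝ (Fin 4)) ∞ M]
  [RiemannianBundle (fun x : M => TangentSpace 𝓘(ℝ, EuclideanSpace ℝ (Fin 4)) x)]
  [IsContMDiffRiemannianBundle 𝓘(ℝ, EuclideanSpace ℝ (Fin 4)) ∞ (EuclideanSpace ℝ (Fin 4))
    (fun x : M => TangentSpace 𝓘(ℝ, EuclideanSpace ℝ (Fin 4)) x)]
  [IsRiemannianManifold 𝓘(ℝ, EuclideanSpace ℝ (Fin 4)) M]
  [MeasurableSpace M] [BorelSpace M] [SecondCountableTopology M] [Nonempty M]

local notation "μM" => (μHE[4] : Measure M)

/-- the constant of the `L⁴` bound -/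
def CE4 : ℝ := 2 * K0 om4 3 * (112 * Cth ^ 2 + 6144)

/-- the smallness of the curvature energy -/
def kE : ℝ := (1 / (256 * K0 om4 3)) ^ 2

theorem K04_pos : 0 < K0 om4 3 := K0_pos (by have := om4_ge; linarith) (by norm_num)

theorem CE4_pos : 0 < CE4 := by
  have h1 := K04_pos
  have h2 := Cth_pos
  unfold CE4
  positivity

theorem kE_pos : 0 < kE := by
  have h1 := K04_pos
  unfold kE
  positivity


variable {U : Fin 4 → M → ℝ}

theorem gam_le_of_Gr {f : M → ℝ} {z : M} (h : ‖Gr (n := 4) f z‖ ≤ 2) : mGam 4 f f z ≤ 2 ^ 2 := by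
  rw [← sq_norm_Gr]
  gcongr

/-- one function -/
theorem energyPin (hRic : HasRicciLowerBound 4 M 0) {x : M} {R s : ℝ} (hP : Pin x R)
    (hs : 0 < s) (hsR : s ≤ R) {W : Set M} (hWo : IsOpen W) (hW : closedBall x (2 * s) ⊆ W)
    {f : M → ℝ} (hU : ∀ z ∈ W, ContMDiffAt (𝓡 4) 𝓘(ℝ, ℝ) 4 f z)
    (hL : ∀ z ∈ W, mLap 4 f z = 0) (hΛ : ∀ z ∈ W, ‖Gr (n := 4) f z‖ ≤ 2)
    {B : M → ℝ} (hB0 : ∀ z ∈ W, 0 ≤ B z) (hBc : ContinuousOn B W)
    (hB : ∀ z ∈ W, MCurvLe 4 z (B z)) (hE : ∫ z in ball x (2 * s), B z ^ 2 ∂μM ≤ kE) :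
    √(∫ z in ball x s, mHessSq 4 f z ^ 2 ∂μM) ≤
        K0 om4 3 * (112 * Cth ^ 2 / s ^ 2 * ∫ z in ball x (2 * s), mHessSq 4 f z ∂μM +
          384 * 2 ^ 2 * ∫ z in ball x (2 * s), B z ^ 2 ∂μM) ∧
      ∫ z in ball x s, mHess3Sq 4 f z ∂μM ≤
        52 * Cth ^ 2 / s ^ 2 * ∫ z in ball x (2 * s), mHessSq 4 f z ∂μM +
          192 * 2 ^ 2 * ∫ z in ball x (2 * s), B z ^ 2 ∂μM := by
  have h0 := om4_ge
  have hR0 : 0 < R := by linarith
  refine energy0 hRic (om := om4) (by linarith) (vol_up hRic) hs (Λ := 3) (v := om4 / 2)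
    (by norm_num) (by linarith) ?_ hWo hW hU hL hB0 hBc hB ?_ hE
  · exact vol_lo hP (mem_ball_self hR0) (by positivity) (by linarith)
  · intro z hz
    exact gam_le_of_Gr (hΛ z (hW (ball_subset_closedBall hz)))

theorem sqrt_sum_le (q : Fin 4 → ℝ) (hq : ∀ a, 0 ≤ q a) : √(4 * ∑ a, q a) ≤ 2 * ∑ a, √(q a) := by
  rw [Real.sqrt_le_left (by positivity)]
  have h1 : ∑ a, q a ≤ (∑ a, √(q a)) ^ 2 := by
    calc ∑ a, q a = ∑ a, √(q a) ^ 2 := Finset.sum_congr rfl fun a _ => (Real.sq_sqrt (hq a)).symm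
      _ ≤ (∑ a, √(q a)) ^ 2 := Finset.sum_sq_le_sq_sum_of_nonneg fun a _ => Real.sqrt_nonneg _
  nlinarith

/-- **the hypothesis `hE` of `one_step4`.** -/
theorem hE4 (hRic : HasRicciLowerBound 4 M 0) {x : M} {R s : ℝ} (hP : Pin x R)
    (hs : 0 < s) (hsR : s ≤ R) {W : Set M} (hWo : IsOpen W) (hW : closedBall x (2 * s) ⊆ W)
    (hU : ∀ a, ∀ z ∈ W, ContMDiffAt (𝓡 4) 𝓘(ℝ, ℝ) ∞ (U a) z)
    (hL : ∀ a, ∀ z ∈ W, mLap 4 (U a) z = 0)
    (hΛ : ∀ a, ∀ z ∈ W, ‖Gr (n := 4) (U a) z‖ ≤ 2)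
    {B : M → ℝ} (hB0 : ∀ z ∈ W, 0 ≤ B z) (hBc : ContinuousOn B W)
    (hB : ∀ z ∈ W, MCurvLe 4 z (B z)) (hE : ∫ z in ball x (2 * s), B z ^ 2 ∂μM ≤ kE) :
    √(∫ z in ball x s, T2 4 U z ^ 2 ∂μM) ≤
      CE4 * (s⁻¹ ^ 2 * (∫ z in ball x (2 * s), T2 4 U z ∂μM) +
        ∫ z in ball x (2 * s), B z ^ 2 ∂μM) := by
  have := HR216.properSpace_of_riemannian 4 M
  have := isLocallyFinite_muHE 4 M
  have hU4 : ∀ a, ∀ z ∈ W, ContMDiffAt (𝓡 4) 𝓘(ℝ, ℝ) 4 (U a) z := fun a z hz =>
    (hU a z hz).of_le (WithTop.coe_le_coe.2 le_top)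
  have hU2 : ∀ a, ∀ z ∈ W, ContMDiffAt (𝓡 4) 𝓘(ℝ, ℝ) 2 (U a) z := fun a z hz =>
    (hU a z hz).of_le two_le_infty
  have hW1 : closedBall x s ⊆ W := (closedBall_subset_closedBall (by linarith)).trans hW
  have hca : ∀ a, ∀ z ∈ W, ContinuousAt (mHessSq 4 (U a)) z := fun a z hz =>
    Cod992.continuousAt_mHessSq (hU2 a z hz)
  have hi1 : ∀ a, IntegrableOn (mHessSq 4 (U a)) (ball x (2 * s)) μM := fun a =>
    integrableOn_ball_of_contAt (hca a) hW
  have hi2 : ∀ a, IntegrableOn (fun z => mHessSq 4 (U a) z ^ 2) (ball x s) μM := fun a =>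
    integrableOn_ball_of_contAt (U := W) (fun z hz => (hca a z hz).pow 2) hW1
  have hcT : ∀ z ∈ W, ContinuousAt (T2 4 U) z := fun z hz => continuousAt_T2 fun a => hU2 a z hz
  have hiT2 : IntegrableOn (fun z => T2 4 U z ^ 2) (ball x s) μM :=
    integrableOn_ball_of_contAt (U := W) (fun z hz => (hcT z hz).pow 2) hW1
  have hk := fun a => (energyPin hRic hP hs hsR hWo hW (hU4 a) (hL a) (hΛ a) hB0 hBc hB hE).1
  have h1 : ∫ z in ball x s, T2 4 U z ^ 2 ∂μM ≤
      4 * ∑ a, ∫ z in ball x s, mHessSq 4 (U a) z ^ 2 ∂μM := by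
    rw [← integral_finsetSum _ fun a _ => hi2 a, ← integral_const_mul]
    refine integral_mono hiT2 ((integrable_finsetSum _ fun a _ => hi2 a).const_mul _) fun z => ?_
    show (∑ a, mHessSq 4 (U a) z) ^ 2 ≤ 4 * ∑ a, mHessSq 4 (U a) z ^ 2
    have := sq_sum_le_card_mul_sum_sq (s := Finset.univ) (f := fun a => mHessSq 4 (U a) z)
    simpa using this
  have hsum : ∑ a, ∫ z in ball x (2 * s), mHessSq 4 (U a) z ∂μM =
      ∫ z in ball x (2 * s), T2 4 U z ∂μM := by
    rw [← integral_finsetSum _ fun a _ => hi1 a]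
    rfl
  have hB2 : 0 ≤ ∫ z in ball x (2 * s), B z ^ 2 ∂μM := integral_nonneg fun z => sq_nonneg _
  have hT0 : 0 ≤ ∫ z in ball x (2 * s), T2 4 U z ∂μM :=
    setIntegral_nonneg isOpen_ball.measurableSet fun z hz =>
      T2_nonneg fun a => hU2 a z (hW (ball_subset_closedBall hz))
  have hK := K04_pos
  have hC := Cth_pos
  calc √(∫ z in ball x s, T2 4 U z ^ 2 ∂μM)
      ≤ √(4 * ∑ a, ∫ z in ball x s, mHessSq 4 (U a) z ^ 2 ∂μM) := Real.sqrt_le_sqrt h1
    _ ≤ 2 * ∑ a, √(∫ z in ball x s, mHessSq 4 (U a) z ^ 2 ∂μM) :=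
        sqrt_sum_le _ fun a => integral_nonneg fun z => sq_nonneg _
    _ ≤ 2 * ∑ a, (K0 om4 3 * (112 * Cth ^ 2 / s ^ 2 *
          ∫ z in ball x (2 * s), mHessSq 4 (U a) z ∂μM +
          384 * 2 ^ 2 * ∫ z in ball x (2 * s), B z ^ 2 ∂μM)) := by
        gcongr with a
        exact hk a
    _ = 2 * K0 om4 3 * (112 * Cth ^ 2 * (s⁻¹ ^ 2 * ∫ z in ball x (2 * s), T2 4 U z ∂μM) +
          6144 * ∫ z in ball x (2 * s), B z ^ 2 ∂μM) := by
        rw [← hsum, ← Finset.mul_sum, Finset.sum_add_distrib, ← Finset.mul_sum, Finset.sum_const,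
          Finset.card_univ, Fintype.card_fin, nsmul_eq_mul]
        push_cast
        field_simp
        ring
    _ ≤ CE4 * (s⁻¹ ^ 2 * (∫ z in ball x (2 * s), T2 4 U z ∂μM) +
        ∫ z in ball x (2 * s), B z ^ 2 ∂μM) := by
        unfold CE4
        have e1 : 0 ≤ s⁻¹ ^ 2 * ∫ z in ball x (2 * s), T2 4 U z ∂μM := by positivity
        have e2 : 0 ≤ 2 * K0 om4 3 := by positivity
        rw [mul_assoc (2 * K0 om4 3)]
        apply mul_le_mul_of_nonneg_left _ e2
        nlinarith [sq_nonneg Cth, mul_nonneg (sq_nonneg Cth) hB2]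


end Crest.Agent.R249.En920
end
end

-- ▼ part R249/SD2_308
section

/-!
R249 (S0386), D3 (helper308), assembly of `SDStmt`, part 2: one manifold, all centres and scales.
-/

set_option autoImplicit false
set_option maxSynthPendingDepth 3
set_option linter.unusedSectionVars false

open scoped ContDiff ENNReal NNReal Topology Manifold Bundle RealInnerProductSpace
open MeasureTheory Set Filter Metric Bundle
open Crest.GeometryTopology.CoordMetric Crest.GeometryTopology.ChartCurvature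
open Crest.Agent.R247 Crest.Agent.R247.Bo84 Crest.Agent.R247.Ms322 Crest.Agent.R247.Bs84
open Crest.Agent.R247.Hes124 (F S mv tr idm)
open Crest.GeometryTopology.PointedLimit Crest.Agent.R247.Mcp688
open Crest.Agent.R249.Cod992 Crest.Agent.R249.D1Def104 Crest.Agent.R249.Dec308
open Crest.Agent.R249.SobE_982 Crest.Agent.R249.SobG_982

noncomputable section

namespace Crest.Agent.R249.SD308

theorem norm_le_sum (x : S 4) : ‖x‖ ≤ ∑ a, ∑ b, |x (a, b)| := by
  have h0 : 0 ≤ ∑ a, ∑ b, |x (a, b)| := by positivity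
  refine le_of_sq_le_sq ?_ h0
  rw [Hes124.norm_sq_S]
  have h1 : ∀ a, ∑ b, x (a, b) ^ 2 ≤ (∑ b, |x (a, b)|) ^ 2 := fun a => by
    have := Finset.sum_sq_le_sq_sum_of_nonneg (s := Finset.univ) (f := fun b => |x (a, b)|)
      (fun b _ => abs_nonneg _)
    simpa only [sq_abs] using this
  refine (Finset.sum_le_sum fun a _ => h1 a).trans ?_
  exact Finset.sum_sq_le_sq_sum_of_nonneg (s := Finset.univ) (f := fun a => ∑ b, |x (a, b)|)
    (fun a _ => by positivity)

theorem sum_le_norm (x : S 4) : ∑ a, ∑ b, |x (a, b)| ≤ 4 * ‖x‖ := by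
  refine le_of_sq_le_sq ?_ (by positivity)
  have h1 : (∑ a, ∑ b, |x (a, b)|) ^ 2 ≤ 4 * ∑ a, (∑ b, |x (a, b)|) ^ 2 := by
    have := sq_sum_le_card_mul_sum_sq (s := (Finset.univ : Finset (Fin 4)))
      (f := fun a => ∑ b, |x (a, b)|)
    simpa using this
  have h2 : ∀ a, (∑ b, |x (a, b)|) ^ 2 ≤ 4 * ∑ b, x (a, b) ^ 2 := fun a => by
    have := sq_sum_le_card_mul_sum_sq (s := (Finset.univ : Finset (Fin 4)))
      (f := fun b => |x (a, b)|)
    simpa [sq_abs] using this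
  rw [mul_pow, Hes124.norm_sq_S]
  calc (∑ a, ∑ b, |x (a, b)|) ^ 2 ≤ 4 * ∑ a, (∑ b, |x (a, b)|) ^ 2 := h1
    _ ≤ 4 * ∑ a, 4 * ∑ b, x (a, b) ^ 2 := by
        gcongr with a _
        exact h2 a
    _ = _ := by rw [← Finset.mul_sum]; ring

variable {M : Type} [MetricSpace M] [CompleteSpace M] [ConnectedSpace M]
  [ChartedSpace (EuclideanSpace ℝ (Fin 4)) M]
  [IsManifold 𝓘(ℝ, EuclideanSpace ℝ (Fin 4)) ∞ M]
  [RiemannianBundle (fun x : M => TangentSpace 𝓘(ℝ, EuclideanSpace ℝ (Fin 4)) x)]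
  [IsContMDiffRiemannianBundle 𝓘(ℝ, EuclideanSpace ℝ (Fin 4)) ∞ (EuclideanSpace ℝ (Fin 4))
    (fun x : M => TangentSpace 𝓘(ℝ, EuclideanSpace ℝ (Fin 4)) x)]
  [IsRiemannianManifold 𝓘(ℝ, EuclideanSpace ℝ (Fin 4)) M]
  [MeasurableSpace M] [BorelSpace M] [SecondCountableTopology M] [Nonempty M]

local notation "μM" => (μHE[4] : Measure M)

variable {U : Fin 4 → M → ℝ}


/-- the sum of the deviations of the entries -/
def Dv (U : Fin 4 → M → ℝ) (z : M) : ℝ :=
  ∑ a, ∑ b, |mGam 4 (U a) (U b) z - if a = b then 1 else 0|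

theorem Dv_nonneg (z : M) : 0 ≤ Dv U z := by unfold Dv; positivity

theorem Dv_le (A : S 4) (z : M) : Dv U z ≤ 4 * (‖Fm 4 U z - A‖ + ‖A - idm 4‖) := by
  have h1 := sum_le_norm (Fm 4 U z - idm 4)
  have h2 : ‖Fm 4 U z - idm 4‖ ≤ ‖Fm 4 U z - A‖ + ‖A - idm 4‖ := by
    calc ‖Fm 4 U z - idm 4‖ = ‖(Fm 4 U z - A) + (A - idm 4)‖ := by congr 1; abel
      _ ≤ _ := norm_add_le _ _
  calc Dv U z = ∑ a, ∑ b, |(Fm 4 U z - idm 4) (a, b)| := rfl
    _ ≤ _ := by linarith

theorem continuous_Dv (hU : ∀ a, ContMDiff (𝓡 4) 𝓘(ℝ, ℝ) ∞ (U a)) : Continuous (Dv U) := by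
  unfold Dv
  refine continuous_finsetSum _ fun a _ => continuous_finsetSum _ fun b _ => ?_
  refine ((continuous_iff_continuousAt.2 fun z => ?_).sub continuous_const).abs
  exact (ctF (fun a => hU a z) a b).continuousAt

/-- the average is near the identity -/
theorem Av_near (hU : ∀ a, ContMDiff (𝓡 4) 𝓘(ℝ, ℝ) ∞ (U a)) {y : M} {s v : ℝ} (hs : 0 < s)
    (hv : 0 < v) (hvol : v ≤ (μM).real (ball y s)) :
    ‖Av U y s - idm 4‖ ≤ v⁻¹ * ∫ z in ball y s, Dv U z ∂μM := by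
  have := HR216.properSpace_of_riemannian 4 M
  have := isLocallyFinite_muHE 4 M
  have hfin : (μM) (ball y s) ≠ ⊤ := measure_ball_lt_top.ne
  have hi : ∀ f : M → ℝ, Continuous f → IntegrableOn f (ball y s) (μM) :=
    fun f hf => (hf.continuousOn.integrableOn_compact (isCompact_closedBall y s)).mono_set
      ball_subset_closedBall
  have hc : ∀ a b, Continuous (mGam 4 (U a) (U b)) := fun a b =>
    continuous_iff_continuousAt.2 fun z => (ctF (fun a => hU a z) a b).continuousAt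
  have hV : 0 < (μM).real (ball y s) := hv.trans_le hvol
  have h1 : ∀ a b, |(Av U y s - idm 4) (a, b)| ≤ ((μM).real (ball y s))⁻¹ *
      ∫ z in ball y s, |mGam 4 (U a) (U b) z - if a = b then 1 else 0| ∂μM := by
    intro a b
    have e1 : (Av U y s - idm 4) (a, b) = ((μM).real (ball y s))⁻¹ *
        ∫ z in ball y s, (mGam 4 (U a) (U b) z - if a = b then 1 else 0) ∂μM := by
      have e2 : (Av U y s - idm 4) (a, b) =
        (⨍ z in ball y s, mGam 4 (U a) (U b) z ∂μM) - if a = b then 1 else 0 := rfl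
      have i1 : Integrable (fun z => mGam 4 (U a) (U b) z) ((μM).restrict (ball y s)) :=
        hi _ (hc a b)
      have i2 : Integrable (fun _ : M => if a = b then (1:ℝ) else 0)
        ((μM).restrict (ball y s)) := hi _ continuous_const
      rw [e2, setAverage_eq, integral_sub i1 i2, setIntegral_const, smul_eq_mul, smul_eq_mul]
      field_simp
    rw [e1, abs_mul, abs_of_nonneg (by positivity : 0 ≤ ((μM).real (ball y s))⁻¹)]
    exact mul_le_mul_of_nonneg_left abs_integral_le_integral_abs (by positivity)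
  have hci : ∀ a b, IntegrableOn (fun z => |mGam 4 (U a) (U b) z - if a = b then 1 else 0|)
      (ball y s) (μM) := fun a b => hi _ ((hc a b).sub continuous_const).abs
  have h2 : ∑ a, ∑ b, |(Av U y s - idm 4) (a, b)| ≤ ((μM).real (ball y s))⁻¹ *
      ∫ z in ball y s, Dv U z ∂μM := by
    unfold Dv
    rw [integral_finsetSum _ fun a _ => integrable_finsetSum _ fun b _ => hci a b, Finset.mul_sum]
    refine Finset.sum_le_sum fun a _ => ?_
    rw [integral_finsetSum _ fun b _ => hci a b, Finset.mul_sum]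
    exact Finset.sum_le_sum fun b _ => h1 a b
  have h3 : 0 ≤ ∫ z in ball y s, Dv U z ∂μM := integral_nonneg fun z => Dv_nonneg z
  refine (norm_le_sum _).trans (h2.trans (mul_le_mul_of_nonneg_right ?_ h3))
  exact inv_anti₀ hv hvol

/-- the deviation at the scale `s` from the energy at the scale `2 s` -/
theorem dv_int_le (hRic : HasRicciLowerBound 4 M 0) (hU : ∀ a, ContMDiff (𝓡 4) 𝓘(ℝ, ℝ) ∞ (U a))
    {y : M} {s : ℝ} (hs : 0 < s) {W : Set M} (hWo : IsOpen W) (hW : closedBall y (2 * s) ⊆ W)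
    (hΛ : ∀ a, ∀ z ∈ W, ‖Gr (n := 4) (U a) z‖ ≤ 2) :
    ∫ z in ball y s, Dv U z ∂μM ≤
      4 * om4 * (182 * √(th U y (2 * s)) + ‖Av U y s - idm 4‖) * s ^ 4 := by
  have := HR216.properSpace_of_riemannian 4 M
  have := isLocallyFinite_muHE 4 M
  have h0 := om4_ge
  have hfin : (μM) (ball y s) ≠ ⊤ := measure_ball_lt_top.ne
  have : IsFiniteMeasure ((μM).restrict (ball y s)) := ⟨by
    rw [Measure.restrict_apply_univ]; exact hfin.lt_top⟩
  have hi : ∀ f : M → ℝ, Continuous f → IntegrableOn f (ball y s) (μM) :=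
    fun f hf => (hf.continuousOn.integrableOn_compact (isCompact_closedBall y s)).mono_set
      ball_subset_closedBall
  have hcF : Continuous (fun z => ‖Fm 4 U z - Av U y s‖) := continuous_iff_continuousAt.2 fun z =>
    ((continuousAt_Fm fun a => hU a z).sub continuousAt_const).norm
  have hvol := real_up hRic y s hs
  have h1 : ∫ z in ball y s, Dv U z ∂μM ≤
      ∫ z in ball y s, (4 * ‖Fm 4 U z - Av U y s‖ + 4 * ‖Av U y s - idm 4‖) ∂μM :=
    integral_mono (hi _ (continuous_Dv hU)) (hi _ ((continuous_const.mul hcF).add continuous_const))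
      fun z => by
        have := Dv_le (U := U) (Av U y s) z
        show Dv U z ≤ 4 * ‖Fm 4 U z - Av U y s‖ + 4 * ‖Av U y s - idm 4‖
        linarith
  have i1 : Integrable (fun z => 4 * ‖Fm 4 U z - Av U y s‖) ((μM).restrict (ball y s)) :=
    hi _ (continuous_const.mul hcF)
  have i2 : Integrable (fun _ : M => 4 * ‖Av U y s - idm 4‖) ((μM).restrict (ball y s)) :=
    hi _ continuous_const
  rw [integral_add i1 i2, integral_const_mul, setIntegral_const, smul_eq_mul] at h1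
  -- Cauchy-Schwarz
  have m1 : MemLp (fun z => ‖Fm 4 U z - Av U y s‖) 2 ((μM).restrict (ball y s)) :=
    (memLp_two_iff_integrable_sq hcF.aestronglyMeasurable).2 (hi _ (hcF.pow 2))
  have m2 : MemLp (fun _ : M => (1:ℝ)) 2 ((μM).restrict (ball y s)) := memLp_const 1
  have h2 := (le_abs_self _).trans (Hes124.cs_mul m1 m2)
  simp only [mul_one, one_pow, integral_const, smul_eq_mul] at h2
  have h3 := poinc_Fm hRic hs hWo hW (U := U) (fun a z _ => hU a z) hΛ (A := Av U y s)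
    (fun p => rfl)
  have hth : ∫ z in ball y (2 * s), T2 4 U z ∂μM = 4 * s ^ 2 * th U y (2 * s) := by
    unfold th; field_simp; ring
  have hTn : 0 ≤ ∫ z in ball y (2 * s), T2 4 U z ∂μM :=
    setIntegral_nonneg isOpen_ball.measurableSet fun z _ =>
      T2_nonneg fun a => (hU a z).of_le two_le_infty
  have hth0 : 0 ≤ th U y (2 * s) := by unfold th; positivity
  have h4 : ∫ z in ball y s, ‖Fm 4 U z - Av U y s‖ ^ 2 ∂μM ≤ (182 * √(th U y (2 * s)) * s ^ 2) ^ 2 := by
    refine h3.trans ?_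
    rw [hth, mul_pow, mul_pow, Real.sq_sqrt hth0]
    push_cast
    have : 0 ≤ s ^ 4 * th U y (2 * s) := by positivity
    nlinarith
  have h5 : √(∫ z in ball y s, ‖Fm 4 U z - Av U y s‖ ^ 2 ∂μM) ≤ 182 * √(th U y (2 * s)) * s ^ 2 := by
    rw [Real.sqrt_le_left (by positivity)]; exact h4
  have h6 : √(((μM).restrict (ball y s)).real univ) ≤ om4 * s ^ 2 := by
    rw [Real.sqrt_le_left (by positivity), measureReal_restrict_apply_univ]
    refine hvol.trans ?_
    have : 0 ≤ s ^ 4 := by positivity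
    nlinarith
  have h7 : ∫ z in ball y s, ‖Fm 4 U z - Av U y s‖ ∂μM ≤
      182 * √(th U y (2 * s)) * s ^ 2 * (om4 * s ^ 2) :=
    h2.trans (mul_le_mul h5 h6 (Real.sqrt_nonneg _) (by positivity))
  have h8 : (μM).real (ball y s) * (4 * ‖Av U y s - idm 4‖) ≤
      (om4 * s ^ 4) * (4 * ‖Av U y s - idm 4‖) := mul_le_mul_of_nonneg_right hvol (by positivity)
  nlinarith [h1, h7, h8]

end Crest.Agent.R249.SD308
end
end

-- ▼ part R249/SD3_308
section

/-!
R249 (S0386), D3 (helper308), assembly of `SDStmt`, part 3: one manifold, all centres and scales.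
-/

set_option autoImplicit false
set_option maxSynthPendingDepth 3
set_option linter.unusedSectionVars false

open scoped ContDiff ENNReal NNReal Topology Manifold Bundle RealInnerProductSpace
open MeasureTheory Set Filter Metric Bundle
open Crest.GeometryTopology.CoordMetric Crest.GeometryTopology.ChartCurvature
open Crest.Agent.R247 Crest.Agent.R247.Bo84 Crest.Agent.R247.Ms322 Crest.Agent.R247.Bs84
open Crest.Agent.R247.Hes124 (F S mv tr idm)
open Crest.GeometryTopology.PointedLimit Crest.Agent.R247.Mcp688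
open Crest.Agent.R249.Cod992 Crest.Agent.R249.D1Def104 Crest.Agent.R249.Dec308
open Crest.Agent.R249.SobE_982 Crest.Agent.R249.SobG_982 Crest.Agent.R249.En920

noncomputable section

namespace Crest.Agent.R249.SD308

/-- choice of the small parameter -/
theorem exists_eta {ε C om : ℝ} (hε : 0 < ε) (hC : 0 < C) (hom : 1 ≤ om) :
    ∃ η : ℝ, 0 < η ∧ η ≤ 1 ∧ ∀ A e a b : ℝ, A ≤ 65600 * η ^ 2 → 0 ≤ e → e ≤ η →
      b ≤ η → a ≤ 131072 * η ^ 2 →
      4 * om * (182 * √(C * (A + e ^ 2)) + (a + C * (√A + b))) ≤ ε := by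
  obtain ⟨Q, hQ⟩ : ∃ Q : ℝ, Q = 4 * om * (182 * (257 * (C + 1)) + (131072 + C * 258)) := ⟨_, rfl⟩
  have hQ0 : 0 < Q := by rw [hQ]; positivity
  refine ⟨min 1 (ε / Q), lt_min one_pos (by positivity), min_le_left _ _, ?_⟩
  intro A e a b hA he heη hb ha
  set η := min 1 (ε / Q) with hη
  have hη0 : 0 < η := lt_min one_pos (by positivity)
  have hη1 : η ≤ 1 := min_le_left _ _
  have hηQ : Q * η ≤ ε := by
    have : η ≤ ε / Q := min_le_right _ _
    rw [le_div_iff₀ hQ0] at this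
    linarith
  have h1 : √A ≤ 257 * η := by
    rw [Real.sqrt_le_left (by positivity)]
    nlinarith [sq_nonneg η]
  have h2 : √(C * (A + e ^ 2)) ≤ 257 * (C + 1) * η := by
    rw [Real.sqrt_le_left (by positivity)]
    have h3 : e ^ 2 ≤ η ^ 2 := pow_le_pow_left₀ he heη 2
    have h4 : C * (A + e ^ 2) ≤ C * (65601 * η ^ 2) := mul_le_mul_of_nonneg_left (by linarith) hC.le
    have h5 : (257 * (C + 1) * η) ^ 2 = 66049 * (C ^ 2 + 2 * C + 1) * η ^ 2 := by ring
    rw [h5]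
    have h6 : 0 ≤ C * η ^ 2 := by positivity
    have h7 : 0 ≤ C ^ 2 * η ^ 2 := by positivity
    have h8 : 0 ≤ η ^ 2 := by positivity
    nlinarith
  have h3 : a ≤ 131072 * η := by nlinarith
  have h4 : C * (√A + b) ≤ C * (258 * η) := mul_le_mul_of_nonneg_left (by linarith) hC.le
  have h5 : 182 * √(C * (A + e ^ 2)) + (a + C * (√A + b)) ≤
      (182 * (257 * (C + 1)) + (131072 + C * 258)) * η := by nlinarith
  calc 4 * om * (182 * √(C * (A + e ^ 2)) + (a + C * (√A + b)))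
      ≤ 4 * om * ((182 * (257 * (C + 1)) + (131072 + C * 258)) * η) :=
        mul_le_mul_of_nonneg_left h5 (by positivity)
    _ = Q * η := by rw [hQ]; ring
    _ ≤ ε := hηQ

set_option maxHeartbeats 2000000 in
/-- **one manifold**: decay at all centres of `ball x (8 ρ)`. -/
theorem sd_one {ε : ℝ} (hε : 0 < ε) : ∃ ε₁ C₁ c₁ : ℝ, 0 < ε₁ ∧ ε₁ ≤ 1 ∧ 0 < C₁ ∧ 0 < c₁ ∧
    ∀ {M : Type} [MetricSpace M] [CompleteSpace M] [ConnectedSpace M]
      [ChartedSpace (EuclideanSpace ℝ (Fin 4)) M]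
      [IsManifold 𝓘(ℝ, EuclideanSpace ℝ (Fin 4)) ∞ M]
      [RiemannianBundle (fun x : M => TangentSpace 𝓘(ℝ, EuclideanSpace ℝ (Fin 4)) x)]
      [IsContMDiffRiemannianBundle 𝓘(ℝ, EuclideanSpace ℝ (Fin 4)) ∞ (EuclideanSpace ℝ (Fin 4))
        (fun x : M => TangentSpace 𝓘(ℝ, EuclideanSpace ℝ (Fin 4)) x)]
      [IsRiemannianManifold 𝓘(ℝ, EuclideanSpace ℝ (Fin 4)) M]
      [MeasurableSpace M] [BorelSpace M] [SecondCountableTopology M] [Nonempty M],
      HasNonnegSectionalCurvature 4 M → ∀ (x : M) (ρ e lam : ℝ) (U : Fin 4 → M → ℝ), 0 < ρ →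
      (∀ y ∈ ball x (64 * ρ), ∀ r : ℝ, 0 < r → r ≤ 64 * ρ →
        ENNReal.ofReal (1 / 2) * volume (ball (0 : EuclideanSpace ℝ (Fin 4)) r) ≤
          (μHE[4] : Measure M) (ball y r)) →
      (∀ a, ContMDiff (𝓡 4) 𝓘(ℝ, ℝ) ∞ (U a)) →
      (∀ a, ∀ z ∈ ball x (64 * ρ), mLap 4 (U a) z = 0) →
      (∀ a, ∀ z ∈ ball x (64 * ρ), mGam 4 (U a) (U a) z ≤ 4) →
      (∀ a, ∫ z in ball x (64 * ρ), mHessSq 4 (U a) z ∂(μHE[4] : Measure M) ≤
        ε₁ * (64 * ρ) ^ 2) →
      (∀ a c, ∫ z in ball x (64 * ρ), |mGam 4 (U a) (U c) z - if a = c then 1 else 0|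
        ∂(μHE[4] : Measure M) ≤ ε₁ * (64 * ρ) ^ 4) →
      ∫⁻ z in ball x (64 * ρ), ENNReal.ofReal (mRicDev 4 M lam z) ∂(μHE[4] : Measure M) ≤
        ENNReal.ofReal (e ^ 2) → 0 ≤ e → e ≤ ε₁ → lam ^ 2 * ρ ^ 4 ≤ ε₁ →
      (∀ y ∈ ball x (8 * ρ), ∀ s : ℝ, 0 < s → s ≤ 8 * ρ → e * (1 + Real.log (8 * ρ / s)) ≤ c₁ →
        ∫ z in ball y s, T2 4 U z ∂(μHE[4] : Measure M) ≤
          C₁ * s ^ 2 * ((s / ρ) ^ (2 * (3 / 4 : ℝ)) + e ^ 2) ∧
        ∫ z in ball y s, Dv U z ∂(μHE[4] : Measure M) ≤ ε * s ^ 4) ∧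
      ∫ z in ball x (8 * ρ), T2 4 U z ^ 2 ∂(μHE[4] : Measure M) ≤ C₁ := by
  have hom := om4_ge
  obtain ⟨ε₂, C, c, hε₂, hC, hc, hdec⟩ := decay_center.{0} (α := 3 / 4) (CE := CE4) (κ := kE)
    (K := 60 * om4 + 16) (by norm_num) (by norm_num) CE4_pos.le kE_pos (by positivity)
  obtain ⟨η, hη0, hη1, hη⟩ := exists_eta (om := om4) hε hC hom
  obtain ⟨ε₁, hε₁⟩ : ∃ ε₁ : ℝ, ε₁ = min (η ^ 2) (min (ε₂ / 65536) (1 / 2097152)) := ⟨_, rfl⟩
  have hε₁0 : 0 < ε₁ := by
    rw [hε₁]; exact lt_min (by positivity) (lt_min (by positivity) (by norm_num))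
  have h1a : ε₁ ≤ η ^ 2 := by rw [hε₁]; exact min_le_left _ _
  have h1b : 65536 * ε₁ ≤ ε₂ := by
    have : ε₁ ≤ ε₂ / 65536 := by
      rw [hε₁]; exact (min_le_right _ _).trans (min_le_left _ _)
    linarith
  have h1c : ε₁ ≤ 1 / 2097152 := by rw [hε₁]; exact (min_le_right _ _).trans (min_le_right _ _)
  have hηη : η ^ 2 ≤ η := by nlinarith
  have hCE := CE4_pos
  refine ⟨ε₁, (C * 65601 + (CE4 * (4 * 65600 + kE)) ^ 2), min c η, hε₁0, by linarith,
    by positivity, lt_min hc hη0, ?_⟩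
  intro M _ _ _ _ _ _ _ _ _ _ _ _ hsec x ρ e lam U hρ hpin hU hL hΛ hH hF hR he heε hlam
  have := HR216.properSpace_of_riemannian 4 M
  have := isLocallyFinite_muHE 4 M
  have hRic : HasRicciLowerBound 4 M 0 := Alg2_104.ricBound_of_sec hsec
  have hcT : Continuous (T2 4 U) := continuous_iff_continuousAt.2 fun z =>
    continuousAt_T2 fun a => (hU a z).of_le two_le_infty
  have hTn : ∀ z, 0 ≤ T2 4 U z := fun z => T2_nonneg fun a => (hU a z).of_le two_le_infty
  have hi : ∀ (f : M → ℝ), Continuous f → ∀ y r, IntegrableOn f (ball y r) (μHE[4] : Measure M) :=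
    fun f hf y r => (hf.continuousOn.integrableOn_compact (isCompact_closedBall y r)).mono_set
      ball_subset_closedBall
  have hgr : ∀ a, ∀ z ∈ ball x (64 * ρ), ‖Gr (n := 4) (U a) z‖ ≤ 2 := by
    intro a z hz
    have h1 := hΛ a z hz
    rw [← sq_norm_Gr] at h1
    nlinarith [norm_nonneg (Gr (n := 4) (U a) z)]
  -- the data at a centre
  have hB : ∀ y ∈ ball x (8 * ρ), closedBall y (16 * ρ) ⊆ ball x (64 * ρ) := by
    intro y hy z hz
    rw [mem_closedBall] at hz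
    rw [mem_ball] at hy ⊢
    linarith [dist_triangle z y x]
  have hPin : ∀ y ∈ ball x (8 * ρ), Pin y (16 * ρ) := by
    intro y hy z hz r hr hr3
    exact hpin z (hB y hy (ball_subset_closedBall hz)) r hr (by linarith)
  have hT0 : ∫ z in ball x (64 * ρ), T2 4 U z ∂(μHE[4] : Measure M) ≤ 4 * (ε₁ * (64 * ρ) ^ 2) := by
    have e1 : ∫ z in ball x (64 * ρ), T2 4 U z ∂(μHE[4] : Measure M) =
        ∑ a, ∫ z in ball x (64 * ρ), mHessSq 4 (U a) z ∂(μHE[4] : Measure M) := by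
      unfold T2
      rw [integral_finsetSum _ fun a _ => ?_]
      exact hi _ (continuous_iff_continuousAt.2 fun z =>
        Bs84.continuousAt_mHessSq ((hU a z).of_le two_le_infty)) _ _
    rw [e1]
    refine (Finset.sum_le_sum fun a _ => hH a).trans (le_of_eq ?_)
    simp
  have hD0 : ∫ z in ball x (64 * ρ), Dv U z ∂(μHE[4] : Measure M) ≤ 16 * (ε₁ * (64 * ρ) ^ 4) := by
    have hci : ∀ a b, IntegrableOn (fun z => |mGam 4 (U a) (U b) z - if a = b then 1 else 0|)
        (ball x (64 * ρ)) (μHE[4] : Measure M) := fun a b =>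
      hi _ (((continuous_iff_continuousAt.2 fun z => (ctF (fun a => hU a z) a b).continuousAt).sub
        continuous_const).abs) _ _
    unfold Dv
    rw [integral_finsetSum _ fun a _ => integrable_finsetSum _ fun b _ => hci a b]
    have h1 : ∀ a, ∫ z in ball x (64 * ρ), ∑ b, |mGam 4 (U a) (U b) z - if a = b then 1 else 0|
        ∂(μHE[4] : Measure M) ≤ ∑ b : Fin 4, ε₁ * (64 * ρ) ^ 4 := fun a => by
      rw [integral_finsetSum _ fun b _ => hci a b]
      exact Finset.sum_le_sum fun b _ => hF a b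
    refine (Finset.sum_le_sum fun a _ => h1 a).trans (le_of_eq ?_)
    simp only [Finset.sum_const, Finset.card_univ, Fintype.card_fin, nsmul_eq_mul]
    push_cast
    ring
  -- energies at the initial scale
  have hth : ∀ y ∈ ball x (8 * ρ), th U y (16 * ρ) ≤ 64 * ε₁ := by
    intro y hy
    have h1 : ∫ z in ball y (16 * ρ), T2 4 U z ∂(μHE[4] : Measure M) ≤
        ∫ z in ball x (64 * ρ), T2 4 U z ∂(μHE[4] : Measure M) :=
      setIntegral_mono_set (hi _ hcT _ _) (Eventually.of_forall hTn)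
        (ball_subset_closedBall.trans (hB y hy)).eventuallyLE
    unfold th
    calc (16 * ρ)⁻¹ ^ 2 * ∫ z in ball y (16 * ρ), T2 4 U z ∂(μHE[4] : Measure M)
        ≤ (16 * ρ)⁻¹ ^ 2 * (4 * (ε₁ * (64 * ρ) ^ 2)) :=
          mul_le_mul_of_nonneg_left (h1.trans hT0) (by positivity)
      _ = 64 * ε₁ := by field_simp; ring
  have hAv : ∀ y ∈ ball x (8 * ρ), ‖Av U y (8 * ρ) - idm 4‖ ≤ 131072 * ε₁ := by
    intro y hy
    have h1 := Av_near hU (y := y) (s := 8 * ρ) (v := om4 / 2 * (8 * ρ) ^ 4) (by positivity)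
      (by positivity) (real_lo hRic (hPin y hy) (mem_ball_self (by positivity)) (by positivity)
        (by linarith))
    have h2 : ∫ z in ball y (8 * ρ), Dv U z ∂(μHE[4] : Measure M) ≤
        ∫ z in ball x (64 * ρ), Dv U z ∂(μHE[4] : Measure M) :=
      setIntegral_mono_set (hi _ (continuous_Dv hU) _ _) (Eventually.of_forall Dv_nonneg)
        (((ball_subset_ball (by linarith)).trans ball_subset_closedBall).trans
          (hB y hy)).eventuallyLE
    refine h1.trans ?_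
    calc (om4 / 2 * (8 * ρ) ^ 4)⁻¹ * ∫ z in ball y (8 * ρ), Dv U z ∂(μHE[4] : Measure M)
        ≤ (om4 / 2 * (8 * ρ) ^ 4)⁻¹ * (16 * (ε₁ * (64 * ρ) ^ 4)) :=
          mul_le_mul_of_nonneg_left (h2.trans hD0) (by positivity)
      _ = 131072 * ε₁ / om4 := by field_simp; ring
      _ ≤ 131072 * ε₁ := div_le_self (by positivity) hom
  have hthn : ∀ y r, 0 ≤ th U y r := fun y r =>
    mul_nonneg (by positivity) (setIntegral_nonneg isOpen_ball.measurableSet fun z _ => hTn z)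
  have hA : ∀ y ∈ ball x (8 * ρ), th U y (16 * ρ) + lam ^ 2 * (16 * ρ) ^ 4 ≤ 65600 * ε₁ := by
    intro y hy
    have h1 := hth y hy
    have h2 : lam ^ 2 * (16 * ρ) ^ 4 = 65536 * (lam ^ 2 * ρ ^ 4) := by ring
    rw [h2]
    linarith
  -- the decay theorem at the centres
  have key : ∀ y ∈ ball x (8 * ρ), ∀ r : ℝ, 0 < r → r ≤ 16 * ρ →
      e * Real.log (16 * ρ / r) ≤ c →
        th U y r ≤ C * ((r / (16 * ρ)) ^ (2 * (3 / 4 : ℝ)) *
          (th U y (16 * ρ) + lam ^ 2 * (16 * ρ) ^ 4) + e ^ 2) ∧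
        ∫ z in ball y r, Bc M z ^ 2 ∂(μHE[4] : Measure M) ≤ kE ∧
        ‖Av U y (r / 2) - idm 4‖ ≤ ‖Av U y (16 * ρ / 2) - idm 4‖ +
          C * (√(th U y (16 * ρ) + lam ^ 2 * (16 * ρ) ^ 4) +
            e * (1 + Real.log (16 * ρ / r))) := by
    intro y hy
    refine hdec hRic y (16 * ρ) e (lam ^ 2) (ball x (64 * ρ)) U (Bc M) (by positivity) (hPin y hy)
      isOpen_ball (hB y hy) (fun a z _ => hU a z) hL hgr (fun z _ => Bc_nonneg hsec z)
      continuous_Bc.continuousOn (fun z _ => curvLe_Bc hsec z) ?_ he (sq_nonneg _) ?_ ?_ ?_ ?_ ?_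
    · intro s hs hsR hBk
      exact En920.hE4 hRic (hPin y hy) hs (by linarith) isOpen_ball
        ((closedBall_subset_closedBall hsR).trans (hB y hy)) (fun a z _ => hU a z) hL hgr
        (fun z _ => Bc_nonneg hsec z) continuous_Bc.continuousOn (fun z _ => curvLe_Bc hsec z) hBk
    · intro r hr hrR
      have h1 := int_Bc_le (x := x) (R := 64 * ρ) hRic hr
        ((ball_subset_ball hrR).trans (ball_subset_closedBall.trans (hB y hy))) (sq_nonneg e) hR
      refine h1.trans ?_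
      have h2 : 0 ≤ lam ^ 2 * r ^ 4 := by positivity
      have h3 : 0 ≤ e ^ 2 := sq_nonneg e
      nlinarith [mul_nonneg (by linarith : 0 ≤ om4) h3]
    · exact (hth y hy).trans (by linarith)
    · rw [show 16 * ρ / 2 = 8 * ρ by ring]
      exact (hAv y hy).trans (by linarith)
    · have h2 : lam ^ 2 * (16 * ρ) ^ 4 = 65536 * (lam ^ 2 * ρ ^ 4) := by ring
      rw [h2]; linarith
    · linarith
  have hkc : ∀ s : ℝ, 0 < s → s ≤ 8 * ρ → 0 ≤ Real.log (8 * ρ / s) := fun s hs hs8 =>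
    Real.log_nonneg ((one_le_div hs).2 hs8)
  refine ⟨fun y hy s hs hs8 hes => ?_, ?_⟩
  · have hlog := hkc s hs hs8
    have hes1 : e * (1 + Real.log (8 * ρ / s)) ≤ c := hes.trans (min_le_left _ _)
    have hes2 : e * (1 + Real.log (8 * ρ / s)) ≤ η := hes.trans (min_le_right _ _)
    constructor
    · -- energy at the scale `s`
      have hl2 : Real.log (16 * ρ / s) ≤ 1 + Real.log (8 * ρ / s) := by
        have e1 : 16 * ρ / s = 2 * (8 * ρ / s) := by ring
        rw [e1, Real.log_mul (by norm_num) (by positivity)]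
        have := Real.log_two_lt_d9
        linarith
      obtain ⟨g1, -, -⟩ := key y hy s hs (by linarith)
        ((mul_le_mul_of_nonneg_left hl2 he).trans hes1)
      have e1 : ∫ z in ball y s, T2 4 U z ∂(μHE[4] : Measure M) = s ^ 2 * th U y s := by
        unfold th; field_simp
      rw [e1]
      have h2 : (s / (16 * ρ)) ^ (2 * (3 / 4 : ℝ)) ≤ (s / ρ) ^ (2 * (3 / 4 : ℝ)) := by
        refine Real.rpow_le_rpow (by positivity) ?_ (by norm_num)
        exact div_le_div_of_nonneg_left hs.le hρ (by linarith)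
      have h3 : 0 ≤ (s / ρ) ^ (2 * (3 / 4 : ℝ)) := by positivity
      have h4 : (s / (16 * ρ)) ^ (2 * (3 / 4 : ℝ)) *
          (th U y (16 * ρ) + lam ^ 2 * (16 * ρ) ^ 4) ≤ (s / ρ) ^ (2 * (3 / 4 : ℝ)) * 65600 := by
        refine mul_le_mul h2 ((hA y hy).trans (by linarith)) ?_ h3
        have := hthn y (16 * ρ)
        positivity
      have h5 : th U y s ≤ C * (65601 * ((s / ρ) ^ (2 * (3 / 4 : ℝ)) + e ^ 2)) := by
        refine g1.trans (mul_le_mul_of_nonneg_left ?_ hC.le)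
        nlinarith [sq_nonneg e]
      calc s ^ 2 * th U y s ≤ s ^ 2 * (C * (65601 * ((s / ρ) ^ (2 * (3 / 4 : ℝ)) + e ^ 2))) :=
            mul_le_mul_of_nonneg_left h5 (by positivity)
        _ = (C * 65601) * s ^ 2 * ((s / ρ) ^ (2 * (3 / 4 : ℝ)) + e ^ 2) := by ring
        _ ≤ _ := by
            have h6 : 0 ≤ s ^ 2 * ((s / ρ) ^ (2 * (3 / 4 : ℝ)) + e ^ 2) := by positivity
            have h7 : 0 ≤ (CE4 * (4 * 65600 + kE)) ^ 2 := sq_nonneg _
            nlinarith [mul_nonneg h7 h6]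
    · -- deviation at the scale `s`
      have e2 : 16 * ρ / (2 * s) = 8 * ρ / s := by
        rw [div_eq_div_iff (by positivity) (by positivity)]; ring
      obtain ⟨g1, -, g3⟩ := key y hy (2 * s) (by positivity) (by linarith) (by
        rw [e2]
        refine le_trans ?_ hes1
        exact mul_le_mul_of_nonneg_left (by linarith) he)
      rw [e2, show 2 * s / 2 = s by ring, show 16 * ρ / 2 = 8 * ρ by ring] at g3
      have h1 := dv_int_le hRic hU (y := y) hs isOpen_ball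
        ((closedBall_subset_closedBall (by linarith)).trans (hB y hy)) hgr
      refine h1.trans (mul_le_mul_of_nonneg_right ?_ (by positivity))
      set A := th U y (16 * ρ) + lam ^ 2 * (16 * ρ) ^ 4 with hAdef
      have hA0 : 0 ≤ A := by have := hthn y (16 * ρ); positivity
      have h2 : √(th U y (2 * s)) ≤ √(C * (A + e ^ 2)) := by
        refine Real.sqrt_le_sqrt (g1.trans (mul_le_mul_of_nonneg_left ?_ hC.le))
        have h3 : (2 * s / (16 * ρ)) ^ (2 * (3 / 4 : ℝ)) ≤ 1 := by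
          refine Real.rpow_le_one (by positivity) ?_ (by norm_num)
          rw [div_le_one (by positivity)]; linarith
        nlinarith
      have h4 := hη A e (131072 * ε₁) (e * (1 + Real.log (8 * ρ / s)))
        ((hA y hy).trans (by linarith)) he (by linarith) hes2 (by linarith)
      refine le_trans (mul_le_mul_of_nonneg_left ?_ (by positivity)) h4
      have h5 := hAv y hy
      linarith
  · -- the `L⁴` bound
    have hx : x ∈ ball x (8 * ρ) := mem_ball_self (by positivity)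
    obtain ⟨-, g2, -⟩ := key x hx (16 * ρ) (by positivity) le_rfl (by
      rw [div_self (by positivity), Real.log_one, mul_zero]; exact hc.le)
    have e1 : 2 * (8 * ρ) = 16 * ρ := by ring
    have h1 := En920.hE4 (U := U) (B := Bc M) hRic (hPin x hx) (s := 8 * ρ) (by positivity)
      (by linarith) isOpen_ball (by rw [e1]; exact hB x hx) (fun a z _ => hU a z) hL hgr
      (fun z _ => Bc_nonneg hsec z) continuous_Bc.continuousOn (fun z _ => curvLe_Bc hsec z)
      (by rw [e1]; exact g2)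
    rw [e1] at h1
    have h2 : (8 * ρ)⁻¹ ^ 2 * ∫ z in ball x (16 * ρ), T2 4 U z ∂(μHE[4] : Measure M) =
        4 * th U x (16 * ρ) := by
      unfold th; field_simp; ring
    rw [h2] at h1
    have h3 : √(∫ z in ball x (8 * ρ), T2 4 U z ^ 2 ∂(μHE[4] : Measure M)) ≤
        CE4 * (4 * 65600 + kE) := by
      refine h1.trans (mul_le_mul_of_nonneg_left ?_ hCE.le)
      have := hth x hx
      linarith
    have h4 : ∫ z in ball x (8 * ρ), T2 4 U z ^ 2 ∂(μHE[4] : Measure M) ≤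
        (CE4 * (4 * 65600 + kE)) ^ 2 := by
      have hn : 0 ≤ ∫ z in ball x (8 * ρ), T2 4 U z ^ 2 ∂(μHE[4] : Measure M) :=
        integral_nonneg fun z => sq_nonneg _
      rw [← Real.sq_sqrt hn]
      exact pow_le_pow_left₀ (Real.sqrt_nonneg _) h3 2
    have h5 : 0 ≤ C * 65601 := by positivity
    linarith

end Crest.Agent.R249.SD308
end
end

-- ▼ part R249/Sta7_397
section

/-!
# R249, leaf D3-START (helper397), file 7: harmonic replacement of one function

* `harm_rep` : the harmonic replacement of a compactly supported smooth function on a ball, with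
  its energy and Hessian estimates.
* `gram_rep` : the Gram matrix changes little.
-/

set_option autoImplicit false
set_option maxSynthPendingDepth 3
set_option linter.unusedSectionVars false
set_option linter.unusedVariables false

open Bundle Bornology Set MeasureTheory Manifold Filter Metric Topology
open scoped ENNReal ContDiff Topology NNReal RealInnerProductSpace
open Crest.GeometryTopology.CoordMetric Crest.GeometryTopology.ChartCurvature
open Crest.GeometryTopology.PointedLimit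

noncomputable section

namespace Crest.Agent.R249.Sta7_397

universe u

open Crest.Agent.R247 Crest.Agent.R247.Dir593 Crest.Agent.R247.Dir593.GradS
open Crest.Agent.R247.Hes124 Crest.Agent.R247.Bo84 Crest.Agent.R247.Ms322
open Crest.Agent.R249.Sta6_397

variable {n : ℕ} {M : Type u} [MetricSpace M] [CompleteSpace M] [ConnectedSpace M]
    [ChartedSpace (EuclideanSpace ℝ (Fin n)) M]
    [IsManifold 𝓘(ℝ, EuclideanSpace ℝ (Fin n)) ∞ M]
    [RiemannianBundle (fun x : M => TangentSpace 𝓘(ℝ, EuclideanSpace ℝ (Fin n)) x)]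
    [IsContMDiffRiemannianBundle 𝓘(ℝ, EuclideanSpace ℝ (Fin n)) ∞ (EuclideanSpace ℝ (Fin n))
      (fun x : M => TangentSpace 𝓘(ℝ, EuclideanSpace ℝ (Fin n)) x)]
    [IsRiemannianManifold 𝓘(ℝ, EuclideanSpace ℝ (Fin n)) M]
    [MeasurableSpace M] [BorelSpace M] [ProperSpace M] [SecondCountableTopology M] [Nonempty M]

local notation "μM" => (μHE[n] : Measure M)

lemma hess_le_two {b H : M → ℝ} {z : M} (hb : ContMDiffAt (𝓡 n) 𝓘(ℝ, ℝ) 2 b z)
    (hH : ContMDiffAt (𝓡 n) 𝓘(ℝ, ℝ) 2 H z) :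
    mHessSq n H z ≤ 2 * mHessSq n b z + 2 * mHessSq n (fun y => b y - H y) z := by
  have hV : ContMDiffAt (𝓡 n) 𝓘(ℝ, ℝ) 2 (fun y => b y - H y) z := hb.sub hH
  rw [← Bs84.norm_Hf_sq hb, ← Bs84.norm_Hf_sq hH, ← Bs84.norm_Hf_sq hV,
    Bs84.Hf_sub hb hH]
  have h1 : ‖Bs84.Hf (n := n) H z‖ ≤ ‖Bs84.Hf (n := n) b z‖ +
      ‖Bs84.Hf (n := n) b z - Bs84.Hf (n := n) H z‖ := by
    have := norm_sub_le (Bs84.Hf (n := n) b z) (Bs84.Hf (n := n) b z - Bs84.Hf (n := n) H z)
    rwa [sub_sub_cancel] at this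
  have h2 : ‖Bs84.Hf (n := n) H z‖ ^ 2 ≤ (‖Bs84.Hf (n := n) b z‖ +
      ‖Bs84.Hf (n := n) b z - Bs84.Hf (n := n) H z‖) ^ 2 := by gcongr
  nlinarith [sq_nonneg (‖Bs84.Hf (n := n) b z‖ - ‖Bs84.Hf (n := n) b z - Bs84.Hf (n := n) H z‖)]

variable (n) in
/-- the constant of the Hessian estimate of the harmonic replacement -/
def KH : ℝ := 2 + 8 * n + 110 * (64 * 4 ^ (n + 2)) * n

lemma KH_pos (n : ℕ) : 0 < KH n := by unfold KH; positivity

/-- **Harmonic replacement** of a smooth compactly supported function on a ball. -/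
theorem harm_rep {δ : ℝ} (hδ0 : 0 ≤ δ) (hδ1 : δ ≤ 1)
    (hk : HasRicciLowerBound n M (-δ)) (q y : M) {S : ℝ} (hS : 0 < S) (hS1 : S ≤ 1 / 4)
    (hy1 : 5 / 2 * S ≤ dist q y) (hy2 : dist q y ≤ 3 * S)
    {b : M → ℝ} (hb : ContMDiff (𝓡 n) 𝓘(ℝ) ∞ b) (hbc : HasCompactSupport b) :
    ∃ H : M → ℝ, ContMDiffOn (𝓡 n) 𝓘(ℝ, ℝ) ∞ H (ball q S) ∧ (∀ z ∈ ball q S, mLap n H z = 0) ∧
      MemLp ((ball q S).indicator (Gr (n := n) H)) 2 μM ∧
      ∫ z in ball q S, ‖Gr (n := n) b z - Gr (n := n) H z‖ ^ 2 ∂μM ≤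
        64 * 4 ^ (n + 2) * S ^ 2 * n * ∫ z in ball q S, mHessSq n b z ∂μM ∧
      ∫ z in ball q (S / 3), mHessSq n H z ∂μM ≤ KH n * ∫ z in ball q S, mHessSq n b z ∂μM := by
  have := Gs939.finOnCompacts (n := n) (M := M)
  set B := Gs939.boch hk with hB
  have hbB : b ∈ B.core := ⟨hb, hbc⟩
  have hb2 : ∀ z, ContMDiffAt (𝓡 n) 𝓘(ℝ) 2 b z := fun z => (hb z).of_le two_le_infty
  set O : Set M := ball q S with hO
  have hOo : IsOpen O := isOpen_ball
  have hcO : IsCompact (closedBall q S) := isCompact_closedBall _ _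
  set P : ℝ := 64 * 4 ^ (n + 2) * S ^ 2 with hP
  have hP0 : 0 ≤ P := by positivity
  have hFG : MemLp (O.indicator (Gr (n := n) b)) 2 μM := by
    have : MemLp (Gr (n := n) b) 2 μM := B.G_memLp hbB
    exact this.indicator hOo.measurableSet
  have hLcont : Continuous (mLap n b) := by
    rw [← continuousOn_univ]
    exact cont_mLap isOpen_univ hb.contMDiffOn
  have hHcont : Continuous (mHessSq n b) := by
    rw [← continuousOn_univ]
    exact cont_mHessSq isOpen_univ hb.contMDiffOn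
  have hFL : MemLp (O.indicator (mLap n b)) 2 μM := by
    have h1 : MemLp (fun x => tr (B.H b x)) 2 μM := BochS.memLp_tr (B.H_memLp hbB)
    have h2 : (fun x => tr (B.H b x)) = mLap n b := by
      funext x
      exact Bs84.tr_Hf (hb2 x)
    rw [h2] at h1
    exact h1.indicator hOo.measurableSet
  obtain ⟨H, hHs, hH0, hHG, -, hHd⟩ := HRep308.hrep (n := n) hOo hP0
    (fun f hf hs => StaD_509.dp hδ0 hk q y hS hy1 hy2 (by nlinarith) hf hs)
    hb.contMDiffOn hFG hFL
  have iHb : IntegrableOn (mHessSq n b) O μM :=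
    (hHcont.continuousOn.integrableOn_compact hcO).mono_set ball_subset_closedBall
  have iLb : IntegrableOn (fun z => mLap n b z ^ 2) O μM :=
    ((hLcont.pow 2).continuousOn.integrableOn_compact hcO).mono_set ball_subset_closedBall
  have hLle : ∫ z in O, mLap n b z ^ 2 ∂μM ≤ n * ∫ z in O, mHessSq n b z ∂μM := by
    rw [← integral_const_mul]
    exact integral_mono iLb (iHb.const_mul _) fun z => mLap_sq_le (hb2 z)
  have hD : ∫ z in O, ‖Gr (n := n) b z - Gr (n := n) H z‖ ^ 2 ∂μM ≤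
      P * n * ∫ z in O, mHessSq n b z ∂μM := by
    exact (hHd.trans (mul_le_mul_of_nonneg_left hLle hP0)).trans_eq (by ring)
  refine ⟨H, hHs, hH0, hHG, hD, ?_⟩
  -- the Hessian
  have hr : 0 < S / 3 := by positivity
  set V : M → ℝ := fun z => b z - H z with hV
  have hVs : ContMDiffOn (𝓡 n) 𝓘(ℝ) ∞ V (ball q (3 * (S / 3))) := by
    rw [show 3 * (S / 3) = S by ring]
    exact hb.contMDiffOn.sub hHs
  have hVs' : ContMDiffOn (𝓡 n) 𝓘(ℝ) ∞ V O := hb.contMDiffOn.sub hHs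
  have hloc := hess_local hδ0 hk q hr hVs
  have hsub : closedBall q (2 * (S / 3)) ⊆ O := closedBall_subset_ball (by linarith)
  have hHat : ∀ z ∈ O, ContMDiffAt (𝓡 n) 𝓘(ℝ) 2 H z := fun z hz =>
    (smAt hOo hHs hz).of_le two_le_infty
  have e1 : ∫ z in closedBall q (2 * (S / 3)), mLap n V z ^ 2 ∂μM ≤
      n * ∫ z in O, mHessSq n b z ∂μM := by
    have : ∫ z in closedBall q (2 * (S / 3)), mLap n V z ^ 2 ∂μM =
        ∫ z in closedBall q (2 * (S / 3)), mLap n b z ^ 2 ∂μM := by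
      refine setIntegral_congr_fun isClosed_closedBall.measurableSet fun z hz => ?_
      show mLap n V z ^ 2 = mLap n b z ^ 2
      rw [hV, mLap_sub (hb2 z) (hHat z (hsub hz)), hH0 z (hsub hz), sub_zero]
    rw [this]
    refine (setIntegral_mono_set iLb (Eventually.of_forall fun z => sq_nonneg _)
      hsub.eventuallyLE).trans hLle
  have hGV : ∀ z ∈ O, mGam n V V z = ‖Gr (n := n) b z - Gr (n := n) H z‖ ^ 2 := by
    intro z hz
    rw [← Bs84.norm_Gr_sq_eq, hV, HRep308.Gr_sub_of ((hb2 z).mdifferentiableAt (by norm_num))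
      ((hHat z hz).mdifferentiableAt (by norm_num))]
  have iGV : IntegrableOn (fun z => ‖Gr (n := n) b z - Gr (n := n) H z‖ ^ 2) O μM := by
    have h1 : MemLp (fun z => O.indicator (Gr (n := n) b) z - O.indicator (Gr (n := n) H) z) 2 μM :=
      hFG.sub hHG
    have h2 : Integrable (fun z => ‖O.indicator (Gr (n := n) b) z -
      O.indicator (Gr (n := n) H) z‖ ^ 2) μM := h1.integrable_norm_pow (by norm_num)
    refine (h2.integrableOn (s := O)).congr_fun (fun z hz => ?_) hOo.measurableSet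
    simp only [indicator_of_mem hz]
  have e2 : ∫ z in closedBall q (2 * (S / 3)), mGam n V V z ∂μM ≤
      P * n * ∫ z in O, mHessSq n b z ∂μM := by
    rw [setIntegral_congr_fun isClosed_closedBall.measurableSet (fun z hz => hGV z (hsub hz))]
    exact (setIntegral_mono_set iGV (Eventually.of_forall fun z => sq_nonneg _)
      hsub.eventuallyLE).trans hD
  have hHb0 : 0 ≤ ∫ z in O, mHessSq n b z ∂μM := integral_nonneg fun z => by
    show 0 ≤ mHessSq n b z
    rw [← Bs84.norm_Hf_sq (hb2 z)]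
    positivity
  have e3 : ∫ z in ball q (S / 3), mHessSq n V z ∂μM ≤
      (4 * n + 55 * (64 * 4 ^ (n + 2)) * n) * ∫ z in O, mHessSq n b z ∂μM := by
    refine hloc.trans ?_
    have h1 : 2 * δ + 6 * (S / 3)⁻¹ ^ 2 ≤ 55 * S⁻¹ ^ 2 := by
      have h2 : (S / 3)⁻¹ = 3 * S⁻¹ := by field_simp
      rw [h2]
      have h3 : 4 ≤ S⁻¹ := by
        rw [le_inv_comm₀ (by norm_num) hS]
        linarith
      nlinarith
    have h2 : 0 ≤ 2 * δ + 6 * (S / 3)⁻¹ ^ 2 := by positivity
    have h3 : 0 ≤ P * n * ∫ z in O, mHessSq n b z ∂μM := by positivity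
    calc 4 * ∫ z in closedBall q (2 * (S / 3)), mLap n V z ^ 2 ∂μM +
          (2 * δ + 6 * (S / 3)⁻¹ ^ 2) * ∫ z in closedBall q (2 * (S / 3)), mGam n V V z ∂μM
        ≤ 4 * (n * ∫ z in O, mHessSq n b z ∂μM) + (2 * δ + 6 * (S / 3)⁻¹ ^ 2) *
          (P * n * ∫ z in O, mHessSq n b z ∂μM) := by gcongr
      _ ≤ 4 * (n * ∫ z in O, mHessSq n b z ∂μM) + 55 * S⁻¹ ^ 2 *
          (P * n * ∫ z in O, mHessSq n b z ∂μM) := by gcongr
      _ = _ := by
          rw [hP]
          field_simp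
  have iHV : IntegrableOn (mHessSq n V) (ball q (S / 3)) μM := by
    have h1 : ContinuousOn (mHessSq n V) (closedBall q (2 * (S / 3))) :=
      (cont_mHessSq hOo hVs').mono hsub
    exact (h1.integrableOn_compact (isCompact_closedBall _ _)).mono_set
      (ball_subset_closedBall.trans (closedBall_subset_closedBall (by linarith)))
  have iHH : IntegrableOn (mHessSq n H) (ball q (S / 3)) μM := by
    have h1 : ContinuousOn (mHessSq n H) (closedBall q (2 * (S / 3))) :=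
      (cont_mHessSq hOo hHs).mono hsub
    exact (h1.integrableOn_compact (isCompact_closedBall _ _)).mono_set
      (ball_subset_closedBall.trans (closedBall_subset_closedBall (by linarith)))
  have hsb : ball q (S / 3) ⊆ O := ball_subset_ball (by linarith)
  have iHb' : IntegrableOn (mHessSq n b) (ball q (S / 3)) μM := iHb.mono_set hsb
  calc ∫ z in ball q (S / 3), mHessSq n H z ∂μM
      ≤ ∫ z in ball q (S / 3), (2 * mHessSq n b z + 2 * mHessSq n V z) ∂μM := by
        refine setIntegral_mono_on iHH ((iHb'.const_mul _).add (iHV.const_mul _))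
          measurableSet_ball fun z hz => ?_
        exact hess_le_two (hb2 z) (hHat z (hsb hz))
    _ = 2 * ∫ z in ball q (S / 3), mHessSq n b z ∂μM +
          2 * ∫ z in ball q (S / 3), mHessSq n V z ∂μM := by
        rw [integral_add (iHb'.const_mul _) (iHV.const_mul _), integral_const_mul,
          integral_const_mul]
    _ ≤ 2 * ∫ z in O, mHessSq n b z ∂μM + 2 * ((4 * n + 55 * (64 * 4 ^ (n + 2)) * n) *
          ∫ z in O, mHessSq n b z ∂μM) := by
        have h4 : ∫ z in ball q (S / 3), mHessSq n b z ∂μM ≤ ∫ z in O, mHessSq n b z ∂μM := by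
          refine setIntegral_mono_set iHb (Eventually.of_forall fun z => ?_) hsb.eventuallyLE
          show 0 ≤ mHessSq n b z
          rw [← Bs84.norm_Hf_sq (hb2 z)]
          positivity
        linarith
    _ = KH n * ∫ z in O, mHessSq n b z ∂μM := by
        unfold KH
        ring

end Crest.Agent.R249.Sta7_397
end
end

-- ▼ part R249/Sta8_397
section

/-!
# R249, leaf D3-START (helper397), file 8: almost splitting harmonic functions

* `gram_rep` : the Gram matrix changes little under harmonic replacement.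
* `exists_harm` : on a volume-pinched manifold with `Ric ≥ -δ` there are `n` harmonic functions with
  Hessian small in `L²` and Gram matrix close to the identity in `L¹`.
-/

set_option autoImplicit false
set_option maxSynthPendingDepth 3
set_option linter.unusedSectionVars false
set_option linter.unusedVariables false

open Bundle Bornology Set MeasureTheory Manifold Filter Metric Topology
open scoped ENNReal ContDiff Topology NNReal RealInnerProductSpace
open Crest.GeometryTopology.CoordMetric Crest.GeometryTopology.ChartCurvature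
open Crest.GeometryTopology.PointedLimit

noncomputable section

namespace Crest.Agent.R249.Sta8_397

universe u

open Crest.Agent.R247 Crest.Agent.R247.Dir593 Crest.Agent.R247.Dir593.GradS
open Crest.Agent.R247.Hes124 Crest.Agent.R247.Bo84 Crest.Agent.R247.Ms322
open Crest.Agent.R249.Sta1_397 Crest.Agent.R249.Sta6_397 Crest.Agent.R249.Sta7_397
open Crest.Agent.R247.Fd656

lemma inner_diff_le {E : Type*} [NormedAddCommGroup E] [InnerProductSpace ℝ E] (g k h l : E)
    {σ : ℝ} (hσ : 0 < σ) : |⟪h, l⟫ - ⟪g, k⟫| ≤ σ / 2 * (‖g‖ ^ 2 + ‖k‖ ^ 2) +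
      (1 / (2 * σ) + 1 / 2) * (‖g - h‖ ^ 2 + ‖k - l‖ ^ 2) := by
  have e : ⟪h, l⟫ - ⟪g, k⟫ = -⟪g - h, k⟫ - ⟪g, k - l⟫ + ⟪g - h, k - l⟫ := by
    simp only [inner_sub_left, inner_sub_right]
    ring
  have h1 := abs_real_inner_le_norm (g - h) k
  have h2 := abs_real_inner_le_norm g (k - l)
  have h3 := abs_real_inner_le_norm (g - h) (k - l)
  have h4 : |⟪h, l⟫ - ⟪g, k⟫| ≤ ‖g - h‖ * ‖k‖ + ‖g‖ * ‖k - l‖ + ‖g - h‖ * ‖k - l‖ := by
    rw [e]
    rw [abs_le] at h1 h2 h3 ⊢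
    constructor <;> linarith [h1.1, h1.2, h2.1, h2.2, h3.1, h3.2]
  refine h4.trans ?_
  have y1 : ∀ a b : ℝ, a * b ≤ σ / 2 * b ^ 2 + 1 / (2 * σ) * a ^ 2 := by
    intro a b
    have h5 : 0 ≤ (σ * b - a) ^ 2 / (2 * σ) := by positivity
    have h6 : (σ * b - a) ^ 2 / (2 * σ) = σ / 2 * b ^ 2 + 1 / (2 * σ) * a ^ 2 - a * b := by
      field_simp
      ring
    linarith
  have h5 := y1 ‖g - h‖ ‖k‖
  have h6 := y1 ‖k - l‖ ‖g‖
  nlinarith [sq_nonneg (‖g - h‖ - ‖k - l‖)]

section blk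
variable {n : ℕ} {M : Type u} [MetricSpace M] [CompleteSpace M] [ConnectedSpace M]
    [ChartedSpace (EuclideanSpace ℝ (Fin n)) M]
    [IsManifold 𝓘(ℝ, EuclideanSpace ℝ (Fin n)) ∞ M]
    [RiemannianBundle (fun x : M => TangentSpace 𝓘(ℝ, EuclideanSpace ℝ (Fin n)) x)]
    [IsContMDiffRiemannianBundle 𝓘(ℝ, EuclideanSpace ℝ (Fin n)) ∞ (EuclideanSpace ℝ (Fin n))
      (fun x : M => TangentSpace 𝓘(ℝ, EuclideanSpace ℝ (Fin n)) x)]
    [IsRiemannianManifold 𝓘(ℝ, EuclideanSpace ℝ (Fin n)) M]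
    [MeasurableSpace M] [BorelSpace M] [ProperSpace M] [SecondCountableTopology M] [Nonempty M]

local notation "μM" => (μHE[n] : Measure M)

/-- the Gram matrix changes little -/
theorem gram_rep {O : Set M} (hO : IsOpen O) {b c H K : M → ℝ}
    (hb : MemLp (O.indicator (Gr (n := n) b)) 2 μM)
    (hc : MemLp (O.indicator (Gr (n := n) c)) 2 μM)
    (hH : MemLp (O.indicator (Gr (n := n) H)) 2 μM)
    (hK : MemLp (O.indicator (Gr (n := n) K)) 2 μM) {σ m d : ℝ} (hσ : 0 < σ)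
    (hbm : ∫ z in O, ‖Gr (n := n) b z‖ ^ 2 ∂μM ≤ m) (hcm : ∫ z in O, ‖Gr (n := n) c z‖ ^ 2 ∂μM ≤ m)
    (hbd : ∫ z in O, ‖Gr (n := n) b z - Gr (n := n) H z‖ ^ 2 ∂μM ≤ d)
    (hcd : ∫ z in O, ‖Gr (n := n) c z - Gr (n := n) K z‖ ^ 2 ∂μM ≤ d) :
    IntegrableOn (fun z => ⟪Gr (n := n) H z, Gr (n := n) K z⟫ -
      ⟪Gr (n := n) b z, Gr (n := n) c z⟫) O μM ∧
    ∫ z in O, |⟪Gr (n := n) H z, Gr (n := n) K z⟫ - ⟪Gr (n := n) b z, Gr (n := n) c z⟫| ∂μM ≤
      σ * m + (1 / σ + 1) * d := by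
  have hOm := hO.measurableSet
  have hsq : ∀ {f : M → EuclideanSpace ℝ (Fin n)}, MemLp (O.indicator f) 2 μM →
      IntegrableOn (fun z => ‖f z‖ ^ 2) O μM := by
    intro f hf
    refine ((hf.integrable_norm_pow (by norm_num)).integrableOn (s := O)).congr_fun
      (fun z hz => ?_) hOm
    simp only [indicator_of_mem hz]
  have hin : ∀ {f g : M → EuclideanSpace ℝ (Fin n)}, MemLp (O.indicator f) 2 μM →
      MemLp (O.indicator g) 2 μM → IntegrableOn (fun z => ⟪f z, g z⟫) O μM := by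
    intro f g hf hg
    refine ((int_inner hf hg).integrableOn (s := O)).congr_fun (fun z hz => ?_) hOm
    simp only [indicator_of_mem hz]
  have hsb : ∀ {f g : M → EuclideanSpace ℝ (Fin n)}, MemLp (O.indicator f) 2 μM →
      MemLp (O.indicator g) 2 μM → IntegrableOn (fun z => ‖f z - g z‖ ^ 2) O μM := by
    intro f g hf hg
    have h1 : MemLp (fun z => O.indicator f z - O.indicator g z) 2 μM := hf.sub hg
    refine ((h1.integrable_norm_pow (by norm_num)).integrableOn (s := O)).congr_fun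
      (fun z hz => ?_) hOm
    simp only [indicator_of_mem hz]
  have i1 : IntegrableOn (fun z => ⟪Gr (n := n) H z, Gr (n := n) K z⟫ -
      ⟪Gr (n := n) b z, Gr (n := n) c z⟫) O μM := (hin hH hK).sub (hin hb hc)
  refine ⟨i1, ?_⟩
  have i2 : IntegrableOn (fun z => σ / 2 * (‖Gr (n := n) b z‖ ^ 2 + ‖Gr (n := n) c z‖ ^ 2)) O μM :=
    ((hsq hb).add (hsq hc)).const_mul (σ / 2)
  have i3 : IntegrableOn (fun z => (1 / (2 * σ) + 1 / 2) *
      (‖Gr (n := n) b z - Gr (n := n) H z‖ ^ 2 + ‖Gr (n := n) c z - Gr (n := n) K z‖ ^ 2)) O μM :=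
    ((hsb hb hH).add (hsb hc hK)).const_mul (1 / (2 * σ) + 1 / 2)
  calc ∫ z in O, |⟪Gr (n := n) H z, Gr (n := n) K z⟫ - ⟪Gr (n := n) b z, Gr (n := n) c z⟫| ∂μM
      ≤ ∫ z in O, (σ / 2 * (‖Gr (n := n) b z‖ ^ 2 + ‖Gr (n := n) c z‖ ^ 2) +
        (1 / (2 * σ) + 1 / 2) * (‖Gr (n := n) b z - Gr (n := n) H z‖ ^ 2 +
          ‖Gr (n := n) c z - Gr (n := n) K z‖ ^ 2)) ∂μM := by
        refine integral_mono i1.abs (i2.add i3) fun z => ?_
        exact inner_diff_le _ _ _ _ hσ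
    _ = σ / 2 * (∫ z in O, ‖Gr (n := n) b z‖ ^ 2 ∂μM + ∫ z in O, ‖Gr (n := n) c z‖ ^ 2 ∂μM) +
        (1 / (2 * σ) + 1 / 2) * (∫ z in O, ‖Gr (n := n) b z - Gr (n := n) H z‖ ^ 2 ∂μM +
          ∫ z in O, ‖Gr (n := n) c z - Gr (n := n) K z‖ ^ 2 ∂μM) := by
        rw [integral_add i2 i3, integral_const_mul, integral_const_mul,
          integral_add (hsq hb) (hsq hc), integral_add (hsb hb hH) (hsb hc hK)]
    _ ≤ σ / 2 * (m + m) + (1 / (2 * σ) + 1 / 2) * (d + d) := by gcongr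
    _ = σ * m + (1 / σ + 1) * d := by
        field_simp
        ring

end blk

/-- a lintegral bound gives an integral bound -/
lemma integral_le_of_lint {X : Type*} [MeasurableSpace X] {μ : Measure X} {f : X → ℝ}
    (hf0 : ∀ z, 0 ≤ f z) (hf : AEStronglyMeasurable f μ) {K : ℝ} (hK : 0 ≤ K)
    (h : ∫⁻ z, ENNReal.ofReal (f z) ∂μ ≤ ENNReal.ofReal K) : ∫ z, f z ∂μ ≤ K := by
  rw [integral_eq_lintegral_of_nonneg_ae (Eventually.of_forall hf0) hf]
  exact ENNReal.toReal_le_of_le_ofReal hK h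

set_option maxHeartbeats 1000000 in
/-- **Almost splitting harmonic functions.** -/
theorem exists_harm {n : ℕ} (hn : 1 ≤ n) {ε : ℝ} (hε : 0 < ε) : ∃ s : ℝ, 0 < s ∧ s ≤ 1 / 96 ∧
    ∃ R₁ : ℝ, 50 ≤ R₁ ∧ ∃ δ₀ : ℝ, 0 < δ₀ ∧ δ₀ ≤ 1 / 4096 ∧
    ∀ {M : Type u} [MetricSpace M] [CompleteSpace M]
    [ConnectedSpace M] [ChartedSpace (EuclideanSpace ℝ (Fin n)) M]
    [IsManifold 𝓘(ℝ, EuclideanSpace ℝ (Fin n)) ∞ M]
    [RiemannianBundle (fun x : M => TangentSpace 𝓘(ℝ, EuclideanSpace ℝ (Fin n)) x)]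
    [IsContMDiffRiemannianBundle 𝓘(ℝ, EuclideanSpace ℝ (Fin n)) ∞ (EuclideanSpace ℝ (Fin n))
      (fun x : M => TangentSpace 𝓘(ℝ, EuclideanSpace ℝ (Fin n)) x)]
    [IsRiemannianManifold 𝓘(ℝ, EuclideanSpace ℝ (Fin n)) M]
    [MeasurableSpace M] [BorelSpace M] {δ : ℝ} (hδ0 : 0 < δ) (hδ : δ ≤ δ₀) {q : M}
    (hk : HasRicciLowerBound n M (-δ)) (hp : Pin n δ q R₁ 40),
    ∃ u : Fin n → M → ℝ, (∀ a, ContMDiff (𝓡 n) 𝓘(ℝ) ∞ (u a)) ∧ (∀ a, HasCompactSupport (u a)) ∧
      (∀ a, ∀ z ∈ ball q (3 / 2 * s), mLap n (u a) z = 0) ∧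
      (∀ a, ∫ z in ball q s, mHessSq n (u a) z ∂(μHE[n] : Measure M) ≤ ε * s ^ n / s ^ 2) ∧
      ∀ a c, ∫ z in ball q s, |mGam n (u a) (u c) z - if a = c then 1 else 0|
        ∂(μHE[n] : Measure M) ≤ ε * s ^ n := by
  have hom := om_pos n
  have hK := KH_pos n
  set P₁ : ℝ := 64 * 4 ^ (n + 2) * n with hP₁
  have hn0 : (0:ℝ) < n := by exact_mod_cast hn
  have hP₁0 : 0 < P₁ := by positivity
  set ε₂ : ℝ := ε / 3 ^ n with hε₂
  have hε₂0 : 0 < ε₂ := by positivity
  set σ : ℝ := min 1 (ε₂ / (6 * om n)) with hσdef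
  have hσ0 : 0 < σ := lt_min one_pos (by positivity)
  have hσ1 : σ ≤ 1 := min_le_left _ _
  have hσ2 : 2 * om n * σ ≤ ε₂ / 3 := by
    have h1 : σ ≤ ε₂ / (6 * om n) := min_le_right _ _
    have h2 : 2 * om n * σ ≤ 2 * om n * (ε₂ / (6 * om n)) := by gcongr
    have h3 : 2 * om n * (ε₂ / (6 * om n)) = ε₂ / 3 := by field_simp; norm_num
    linarith
  set ε' : ℝ := min (ε₂ / 6) (min (ε₂ / (3 * ((1 / σ + 1) * P₁))) (ε₂ / KH n)) with hε'
  have hε'0 : 0 < ε' := by positivity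
  have hε'1 : ε' ≤ ε₂ / 6 := min_le_left _ _
  have hε'2 : (1 / σ + 1) * P₁ * ε' ≤ ε₂ / 3 := by
    have h1 : ε' ≤ ε₂ / (3 * ((1 / σ + 1) * P₁)) := (min_le_right _ _).trans (min_le_left _ _)
    calc (1 / σ + 1) * P₁ * ε' ≤ (1 / σ + 1) * P₁ * (ε₂ / (3 * ((1 / σ + 1) * P₁))) := by gcongr
      _ = ε₂ / 3 := by
          have h2 : (1 / σ + 1) * P₁ ≠ 0 := by positivity
          generalize (1 / σ + 1) * P₁ = Q at h2 ⊢
          field_simp
  have hε'3 : KH n * ε' ≤ ε₂ := by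
    have h1 : ε' ≤ ε₂ / KH n := (min_le_right _ _).trans (min_le_right _ _)
    rw [le_div_iff₀ hK] at h1
    linarith
  obtain ⟨S, hS0, hS1, R₁, hR₁, δ₀, hδ₀0, hδ₀1, hsp⟩ := Sta5_397.exists_split.{u} hn hε'0
  refine ⟨S / 3, by positivity, by linarith, R₁, hR₁, δ₀, hδ₀0, hδ₀1, ?_⟩
  intro M _ _ _ _ _ _ _ _ _ _ δ hδ0 hδ q hk hp
  have := HR216.properSpace_of_riemannian n M
  have := HR216.secondCountable_of_riemannian n M
  have : Nonempty M := ⟨q⟩
  have := Gs939.finOnCompacts (n := n) (M := M)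
  obtain ⟨⟨y, hy1, hy2⟩, b, hb, hbc, hbH, hbG⟩ := hsp hδ0 hδ hk hp
  obtain ⟨C⟩ := Bgr546.rad_all n δ hδ0.le M hk
  set O : Set M := ball q S with hO
  have hOo : IsOpen O := isOpen_ball
  have hOm : MeasurableSet O := hOo.measurableSet
  set B := Gs939.boch hk with hB
  have hb2 : ∀ a z, ContMDiffAt (𝓡 n) 𝓘(ℝ) 2 (b a) z := fun a z => (hb a z).of_le two_le_infty
  have hbI : ∀ a, MemLp (O.indicator (Gr (n := n) (b a))) 2 (μHE[n] : Measure M) := fun a => by
    have : MemLp (Gr (n := n) (b a)) 2 (μHE[n] : Measure M) := B.G_memLp (⟨hb a, hbc a⟩ : b a ∈ B.core)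
    exact this.indicator hOm
  have hcG : ∀ a c, Continuous (mGam n (b a) (b c)) := fun a c => by
    rw [← continuousOn_univ]
    exact cont_mGam isOpen_univ (hb a).contMDiffOn (hb c).contMDiffOn
  have hcH : ∀ a, Continuous (mHessSq n (b a)) := fun a => by
    rw [← continuousOn_univ]
    exact cont_mHessSq isOpen_univ (hb a).contMDiffOn
  have hH0 : ∀ a z, 0 ≤ mHessSq n (b a) z := fun a z => by
    rw [← Bs84.norm_Hf_sq (hb2 a z)]
    positivity
  -- real valued integrals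
  have hbH' : ∀ a, ∫ z in O, mHessSq n (b a) z ∂(μHE[n] : Measure M) ≤ ε' * S ^ n / S ^ 2 :=
    fun a => integral_le_of_lint (hH0 a) (hcH a).aestronglyMeasurable (by positivity) (hbH a)
  have hbG' : ∀ a c, ∫ z in O, |mGam n (b a) (b c) z - if a = c then 1 else 0|
      ∂(μHE[n] : Measure M) ≤ ε' * S ^ n := fun a c =>
    integral_le_of_lint (fun z => abs_nonneg _)
      ((hcG a c).sub continuous_const).abs.aestronglyMeasurable (by positivity) (hbG a c)
  have hvol : (μHE[n] : Measure M) O ≤ ENNReal.ofReal (2 * om n * S ^ n) := by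
    refine (measure_mono ball_subset_closedBall).trans
      ((closedBall_le_pinch C hδ0.le (by linarith) q hS0.le (by linarith)).trans ?_)
    apply ENNReal.ofReal_le_ofReal
    have h1 : 1 + 1024 * δ ≤ 2 := by linarith
    gcongr
  have hvol' : (μHE[n] : Measure M).real O ≤ 2 * om n * S ^ n :=
    ENNReal.toReal_le_of_le_ofReal (by positivity) hvol
  have hfin : (μHE[n] : Measure M) O ≠ ⊤ := (hvol.trans_lt ENNReal.ofReal_lt_top).ne
  have hiO : ∀ {f : M → ℝ}, Continuous f → IntegrableOn f O (μHE[n] : Measure M) := fun hf =>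
    (hf.continuousOn.integrableOn_compact (isCompact_closedBall q S)).mono_set
      ball_subset_closedBall
  -- the energy
  have hbm : ∀ a, ∫ z in O, ‖Gr (n := n) (b a) z‖ ^ 2 ∂(μHE[n] : Measure M) ≤
      (2 * om n + ε') * S ^ n := by
    intro a
    have i1 := hiO (hcG a a)
    have i2 : IntegrableOn (fun z => |mGam n (b a) (b a) z - if a = a then 1 else 0| + 1) O
        (μHE[n] : Measure M) := hiO (((hcG a a).sub continuous_const).abs.add continuous_const)
    calc ∫ z in O, ‖Gr (n := n) (b a) z‖ ^ 2 ∂(μHE[n] : Measure M)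
        = ∫ z in O, mGam n (b a) (b a) z ∂(μHE[n] : Measure M) := by
          simp only [Bs84.norm_Gr_sq_eq]
      _ ≤ ∫ z in O, (|mGam n (b a) (b a) z - if a = a then 1 else 0| + 1)
            ∂(μHE[n] : Measure M) := by
          refine integral_mono i1 i2 fun z => ?_
          show mGam n (b a) (b a) z ≤ |mGam n (b a) (b a) z - if a = a then 1 else 0| + 1
          rw [if_pos rfl]
          linarith [le_abs_self (mGam n (b a) (b a) z - 1)]
      _ = ∫ z in O, |mGam n (b a) (b a) z - if a = a then 1 else 0| ∂(μHE[n] : Measure M) +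
            (μHE[n] : Measure M).real O := by
          have j1 : IntegrableOn (fun z => |mGam n (b a) (b a) z - if a = a then (1:ℝ) else 0|) O
              (μHE[n] : Measure M) := hiO ((hcG a a).sub continuous_const).abs
          have j2 : IntegrableOn (fun _ : M => (1:ℝ)) O (μHE[n] : Measure M) :=
            hiO continuous_const
          rw [integral_add j1 j2]
          simp
      _ ≤ (2 * om n + ε') * S ^ n := by linarith [hbG' a a]
  -- harmonic replacements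
  choose H hHs hHL hHI hHd hHH using fun a => harm_rep (n := n) hδ0.le (by linarith) hk q y hS0
    (by linarith) hy1 hy2 (hb a) (hbc a)
  have hd : ∀ a, ∫ z in O, ‖Gr (n := n) (b a) z - Gr (n := n) (H a) z‖ ^ 2
      ∂(μHE[n] : Measure M) ≤ P₁ * ε' * S ^ n := by
    intro a
    refine (hHd a).trans ?_
    calc 64 * 4 ^ (n + 2) * S ^ 2 * n * ∫ z in O, mHessSq n (b a) z ∂(μHE[n] : Measure M)
        ≤ 64 * 4 ^ (n + 2) * S ^ 2 * n * (ε' * S ^ n / S ^ 2) := by
          gcongr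
          exact hbH' a
      _ = P₁ * ε' * S ^ n := by
          rw [hP₁]
          field_simp
  obtain ⟨χ, hχ, hχc, hχs, hχ1⟩ := exists_cut n q (r₁ := 3 / 2 * (S / 3)) (r₂ := 2 * (S / 3))
    (by linarith)
  have hsub : closedBall q (2 * (S / 3)) ⊆ O := closedBall_subset_ball (by linarith)
  have hev : ∀ a, ∀ z ∈ ball q (3 / 2 * (S / 3)), (fun x => χ x * H a x) =ᶠ[𝓝 z] H a := by
    intro a z hz
    filter_upwards [isOpen_ball.mem_nhds hz] with x hx
    rw [hχ1 x (ball_subset_closedBall hx), one_mul]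
  have hss : ball q (S / 3) ⊆ ball q (3 / 2 * (S / 3)) := ball_subset_ball (by linarith)
  have hsO : ball q (S / 3) ⊆ O := ball_subset_ball (by linarith)
  refine ⟨fun a x => χ x * H a x, fun a => glue_smooth hOo (hHs a) hχ (hχs.trans hsub),
    fun a => hχc.mul_right, fun a z hz => ?_, fun a => ?_, fun a c => ?_⟩
  · rw [mLap_congr (hev a z hz)]
    exact hHL a z (ball_subset_ball (by linarith) hz)
  · have e : ∫ z in ball q (S / 3), mHessSq n (fun x => χ x * H a x) z ∂(μHE[n] : Measure M) =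
        ∫ z in ball q (S / 3), mHessSq n (H a) z ∂(μHE[n] : Measure M) :=
      setIntegral_congr_fun measurableSet_ball fun z hz => mHessSq_congr (hev a z (hss hz))
    rw [e]
    refine (hHH a).trans ?_
    have h1 : KH n * ∫ z in O, mHessSq n (b a) z ∂(μHE[n] : Measure M) ≤
        KH n * (ε' * S ^ n / S ^ 2) := mul_le_mul_of_nonneg_left (hbH' a) hK.le
    refine h1.trans ?_
    have h2 : KH n * (ε' * S ^ n / S ^ 2) ≤ ε₂ * (S ^ n / S ^ 2) := by
      have : 0 ≤ S ^ n / S ^ 2 := by positivity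
      calc KH n * (ε' * S ^ n / S ^ 2) = (KH n * ε') * (S ^ n / S ^ 2) := by ring
        _ ≤ _ := by gcongr
    refine h2.trans ?_
    have h3 : ε * (S / 3) ^ n / (S / 3) ^ 2 = 9 * (ε₂ * (S ^ n / S ^ 2)) := by
      rw [hε₂, div_pow]
      field_simp
      norm_num
    rw [h3]
    have : 0 ≤ ε₂ * (S ^ n / S ^ 2) := by positivity
    linarith
  · obtain ⟨i1, hg⟩ := gram_rep (n := n) hOo (hbI a) (hbI c) (hHI a) (hHI c) hσ0 (hbm a) (hbm c)
      (hd a) (hd c)
    have e : ∫ z in ball q (S / 3), |mGam n (fun x => χ x * H a x) (fun x => χ x * H c x) z -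
          if a = c then 1 else 0| ∂(μHE[n] : Measure M) =
        ∫ z in ball q (S / 3), |⟪Gr (n := n) (H a) z, Gr (n := n) (H c) z⟫ -
          if a = c then 1 else 0| ∂(μHE[n] : Measure M) := by
      refine setIntegral_congr_fun measurableSet_ball fun z hz => ?_
      show |mGam n (fun x => χ x * H a x) (fun x => χ x * H c x) z - if a = c then 1 else 0| = _
      rw [mGam_congr (hev a z (hss hz)) (hev c z (hss hz)), Bs84.inner_Gr_eq]
    rw [e]
    have i2 : IntegrableOn (fun z => ⟪Gr (n := n) (b a) z, Gr (n := n) (b c) z⟫ -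
        if a = c then (1:ℝ) else 0) O (μHE[n] : Measure M) := by
      have := hiO ((hcG a c).sub (continuous_const (y := if a = c then (1:ℝ) else 0)))
      refine this.congr_fun (fun z hz => ?_) hOm
      show mGam n (b a) (b c) z - (if a = c then (1:ℝ) else 0) = _
      rw [Bs84.inner_Gr_eq]
    have i3 : IntegrableOn (fun z => |⟪Gr (n := n) (H a) z, Gr (n := n) (H c) z⟫ -
        if a = c then (1:ℝ) else 0|) O (μHE[n] : Measure M) := by
      have h1 : IntegrableOn (fun z => |(⟪Gr (n := n) (H a) z, Gr (n := n) (H c) z⟫ -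
        ⟪Gr (n := n) (b a) z, Gr (n := n) (b c) z⟫) + (⟪Gr (n := n) (b a) z, Gr (n := n) (b c) z⟫ -
        if a = c then (1:ℝ) else 0)|) O (μHE[n] : Measure M) := (i1.add i2).abs
      refine h1.congr_fun (fun z hz => ?_) hOm
      simp only [sub_add_sub_cancel]
    calc ∫ z in ball q (S / 3), |⟪Gr (n := n) (H a) z, Gr (n := n) (H c) z⟫ -
          if a = c then 1 else 0| ∂(μHE[n] : Measure M)
        ≤ ∫ z in O, |⟪Gr (n := n) (H a) z, Gr (n := n) (H c) z⟫ -
          if a = c then 1 else 0| ∂(μHE[n] : Measure M) :=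
          setIntegral_mono_set i3 (Eventually.of_forall fun z => abs_nonneg _) hsO.eventuallyLE
      _ ≤ ∫ z in O, (|⟪Gr (n := n) (H a) z, Gr (n := n) (H c) z⟫ -
            ⟪Gr (n := n) (b a) z, Gr (n := n) (b c) z⟫| +
            |⟪Gr (n := n) (b a) z, Gr (n := n) (b c) z⟫ - if a = c then 1 else 0|)
            ∂(μHE[n] : Measure M) := by
          refine integral_mono i3 (i1.abs.add i2.abs) fun z => ?_
          exact abs_sub_le _ _ _
      _ = ∫ z in O, |⟪Gr (n := n) (H a) z, Gr (n := n) (H c) z⟫ -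
            ⟪Gr (n := n) (b a) z, Gr (n := n) (b c) z⟫| ∂(μHE[n] : Measure M) +
            ∫ z in O, |mGam n (b a) (b c) z - if a = c then 1 else 0|
            ∂(μHE[n] : Measure M) := by
          rw [integral_add i1.abs i2.abs]
          simp only [Bs84.inner_Gr_eq]
      _ ≤ (σ * ((2 * om n + ε') * S ^ n) + (1 / σ + 1) * (P₁ * ε' * S ^ n)) + ε' * S ^ n :=
          add_le_add hg (hbG' a c)
      _ = (2 * om n * σ + (1 / σ + 1) * P₁ * ε' + (1 + σ) * ε') * S ^ n := by ring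
      _ ≤ ε₂ * S ^ n := by
          have : (1 + σ) * ε' ≤ ε₂ / 3 := by nlinarith
          gcongr
          linarith
      _ = ε * (S / 3) ^ n := by
          rw [hε₂, div_pow]
          field_simp

end Crest.Agent.R249.Sta8_397
end
end

-- ▼ part R249/StaS_509
section

/-!
# R249, D3-START (4) SUP (helper509): one sided gradient bound for harmonic functions

`subharmonic` : `Ric ≥ 0`, `u` smooth with `Δu = 0` on the open set `U` ⇒ `|∇u|² - 1` is subharmonic on `U`.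
`sup_le` : from the `L¹` mean value inequality `MV1+` (helper982): if
`∫_{ball q s} |mGam u u - 1| ≤ ε s^n` then `mGam u u ≤ 1 + C ε` on `ball q (s/2)`.
Matrix form (`mat_le`, `abs_mGam_le`) for `u : Fin m → M → ℝ`.
-/

set_option autoImplicit false
set_option maxSynthPendingDepth 3
set_option linter.unusedSectionVars false

open Bundle Set MeasureTheory Manifold Filter Metric Topology
open scoped ENNReal ContDiff Topology NNReal RealInnerProductSpace
open Crest.GeometryTopology.CoordMetric Crest.GeometryTopology.ChartCurvature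
open Crest.GeometryTopology.PointedLimit
open Crest.Agent.R247 Crest.Agent.R247.Ms322 Crest.Agent.R247.Mcp688 Crest.Agent.R247.Bo84
open Crest.Agent.R247.Dir593.GradS (IsT)

noncomputable section
namespace Crest.Agent.R249.StaS_509

universe u
variable {n : ℕ} {M : Type u} [MetricSpace M] [CompleteSpace M] [ConnectedSpace M]
  [ChartedSpace (EuclideanSpace ℝ (Fin n)) M]
  [IsManifold 𝓘(ℝ, EuclideanSpace ℝ (Fin n)) ∞ M]
  [RiemannianBundle (fun x : M => TangentSpace 𝓘(ℝ, EuclideanSpace ℝ (Fin n)) x)]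
  [IsContMDiffRiemannianBundle 𝓘(ℝ, EuclideanSpace ℝ (Fin n)) ∞ (EuclideanSpace ℝ (Fin n))
    (fun x : M => TangentSpace 𝓘(ℝ, EuclideanSpace ℝ (Fin n)) x)]
  [IsRiemannianManifold 𝓘(ℝ, EuclideanSpace ℝ (Fin n)) M]
  [MeasurableSpace M] [BorelSpace M] [SecondCountableTopology M] [Nonempty M]

local notation "μM" => (μHE[n] : Measure M)
local notation "𝓘E" => 𝓘(ℝ, EuclideanSpace ℝ (Fin n))

variable {U : Set M} {u : M → ℝ} {p : M}

/-- The Bochner inequality for harmonic functions with `Ric ≥ 0`. -/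
theorem lap_mGam_ge (hRic : HasRicciLowerBound n M 0) (hU : IsOpen U)
    (hu : ∀ z ∈ U, ContMDiffAt 𝓘E 𝓘(ℝ, ℝ) 3 u z) (hL : ∀ z ∈ U, mLap n u z = 0) (hp : p ∈ U) :
    2 * mHessSq n u p ≤ mLap n (mGam n u u) p := by
  have h1 := mBochner_ineq hRic (hu p hp)
  have h2 : mGam n u (mLap n u) p = 0 := by
    have h3 : mLap n u =ᶠ[𝓝 p] fun _ => (0:ℝ) := by
      filter_upwards [hU.mem_nhds hp] with z hz using hL z hz
    rw [mGam_congr (n := n) (EventuallyEq.refl _ u) h3, mGam_const_right]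
  rw [h2] at h1
  linarith

/-- `|∇u|² - 1` is subharmonic. -/
theorem subharmonic (hRic : HasRicciLowerBound n M 0) (hU : IsOpen U)
    (hu : ∀ z ∈ U, ContMDiffAt 𝓘E 𝓘(ℝ, ℝ) 3 u z) (hL : ∀ z ∈ U, mLap n u z = 0) (c : ℝ)
    (hp : p ∈ U) :
    ContMDiffAt 𝓘E 𝓘(ℝ, ℝ) 2 (fun z => mGam n u u z - c) p ∧
      2 * mHessSq n u p ≤ mLap n (fun z => mGam n u u z - c) p := by
  have h1 : ContMDiffAt 𝓘E 𝓘(ℝ, ℝ) 2 (mGam n u u) p :=
    contMDiffAt_mGam (hu p hp) (hu p hp) (by norm_num) three_le_infty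
  have h2 : ContMDiffAt 𝓘E 𝓘(ℝ, ℝ) 2 (fun _ : M => c) p := contMDiffAt_const
  refine ⟨h1.sub h2, ?_⟩
  rw [mLap_sub h1 h2, mLap_const, sub_zero]
  exact lap_mGam_ge hRic hU hu hL hp

/-- the abstract `L¹` mean value inequality on `ball q s ⊆ ball q (s/2)` with open set `U`. -/
def MV (n : ℕ) {M : Type u} [MetricSpace M] [ChartedSpace (EuclideanSpace ℝ (Fin n)) M]
    [IsManifold 𝓘(ℝ, EuclideanSpace ℝ (Fin n)) ∞ M]
    [RiemannianBundle (fun x : M => TangentSpace 𝓘(ℝ, EuclideanSpace ℝ (Fin n)) x)]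
    [MeasurableSpace M] [BorelSpace M]
    (U : Set M) (q : M) (s C : ℝ) : Prop :=
  ∀ f : M → ℝ, (∀ z ∈ U, ContMDiffAt 𝓘(ℝ, EuclideanSpace ℝ (Fin n)) 𝓘(ℝ, ℝ) 2 f z) →
    (∀ z ∈ U, 0 ≤ mLap n f z) → ∀ x ∈ ball q (s / 2),
      f x ≤ C * ((s ^ n)⁻¹ * ∫ z in ball q s, max (f z) 0 ∂(μHE[n] : Measure M))

/-- **SUP** : `|∇u|² ≤ 1 + C ε` on the half ball. -/
theorem sup_le (hRic : HasRicciLowerBound n M 0) {q : M} {s C ε : ℝ} (hs : 0 < s) (hC : 0 ≤ C)
    (hU : IsOpen U) (hmv : MV n U q s C)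
    (hu : ∀ z ∈ U, ContMDiffAt 𝓘E 𝓘(ℝ, ℝ) 3 u z) (hL : ∀ z ∈ U, mLap n u z = 0)
    (hi : IntegrableOn (fun z => |mGam n u u z - 1|) (ball q s) μM)
    (hε : ∫ z in ball q s, |mGam n u u z - 1| ∂μM ≤ ε * s ^ n) {x : M} (hx : x ∈ ball q (s / 2)) :
    mGam n u u x ≤ 1 + C * ε := by
  have h1 := hmv (fun z => mGam n u u z - 1) (fun z hz => (subharmonic hRic hU hu hL 1 hz).1)
    (fun z hz => by
      have h2 := (subharmonic hRic hU hu hL 1 hz).2
      have h3 := mHessSq_nonneg ((hu z hz).of_le (show (2 : WithTop ℕ∞) ≤ 3 by norm_num))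
      linarith) x hx
  have h2 : ∫ z in ball q s, max (mGam n u u z - 1) 0 ∂μM ≤
      ∫ z in ball q s, |mGam n u u z - 1| ∂μM := by
    refine integral_mono_of_nonneg (Eventually.of_forall fun z => le_max_right _ _) hi
      (Eventually.of_forall fun z => ?_)
    exact max_le (le_abs_self _) (abs_nonneg _)
  have h3 : (s ^ n)⁻¹ * ∫ z in ball q s, max (mGam n u u z - 1) 0 ∂μM ≤ ε := by
    have hsn : 0 < s ^ n := pow_pos hs n
    rw [inv_mul_le_iff₀ hsn]
    linarith [h2.trans hε]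
  have h4 : C * ((s ^ n)⁻¹ * ∫ z in ball q s, max (mGam n u u z - 1) 0 ∂μM) ≤ C * ε := by gcongr
  linarith

/-! ### linear combinations -/

section lin
variable {ι : Type*} {v : ι → M → ℝ}

theorem contMDiffAt_lin {k : WithTop ℕ∞} (t : Finset ι) (ξ : ι → ℝ)
    (hv : ∀ a ∈ t, ContMDiffAt 𝓘E 𝓘(ℝ, ℝ) k (v a) p) :
    ContMDiffAt 𝓘E 𝓘(ℝ, ℝ) k (fun z => ∑ a ∈ t, ξ a * v a z) p := by
  refine ContMDiffAt.sum fun a ha => ?_
  have h1 : ContMDiffAt 𝓘E 𝓘(ℝ, ℝ) k (fun _ : M => ξ a) p := contMDiffAt_const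
  exact h1.mul (hv a ha)

theorem mGam_lin_left (t : Finset ι) (ξ : ι → ℝ) (h : M → ℝ)
    (hv : ∀ a ∈ t, ContMDiffAt 𝓘E 𝓘(ℝ, ℝ) 1 (v a) p) :
    mGam n (fun z => ∑ a ∈ t, ξ a * v a z) h p = ∑ a ∈ t, ξ a * mGam n (v a) h p := by
  classical
  induction t using Finset.induction_on with
  | empty => simp [mGam_const_left]
  | insert a t ha ih =>
    have h1 : ContMDiffAt 𝓘E 𝓘(ℝ, ℝ) 1 (fun z => ξ a * v a z) p := by
      have h1 : ContMDiffAt 𝓘E 𝓘(ℝ, ℝ) 1 (fun _ : M => ξ a) p := contMDiffAt_const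
      exact h1.mul (hv a (Finset.mem_insert_self a t))
    have h2 := contMDiffAt_lin (p := p) t ξ fun b hb => hv b (Finset.mem_insert_of_mem hb)
    have e : (fun z => ∑ b ∈ insert a t, ξ b * v b z) =
        fun z => ξ a * v a z + ∑ b ∈ t, ξ b * v b z := by
      ext z; rw [Finset.sum_insert ha]
    rw [e, mGam_add_left (h1.mdifferentiableAt one_ne_zero) (h2.mdifferentiableAt one_ne_zero),
      mGam_const_mul_left _ ((hv a (Finset.mem_insert_self a t)).mdifferentiableAt one_ne_zero),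
      ih fun b hb => hv b (Finset.mem_insert_of_mem hb), Finset.sum_insert ha]

theorem mLap_lin (t : Finset ι) (ξ : ι → ℝ)
    (hv : ∀ a ∈ t, ContMDiffAt 𝓘E 𝓘(ℝ, ℝ) 2 (v a) p) :
    mLap n (fun z => ∑ a ∈ t, ξ a * v a z) p = ∑ a ∈ t, ξ a * mLap n (v a) p := by
  classical
  induction t using Finset.induction_on with
  | empty => simp [mLap_const]
  | insert a t ha ih =>
    have h1 : ContMDiffAt 𝓘E 𝓘(ℝ, ℝ) 2 (fun z => ξ a * v a z) p := by
      have h1 : ContMDiffAt 𝓘E 𝓘(ℝ, ℝ) 2 (fun _ : M => ξ a) p := contMDiffAt_const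
      exact h1.mul (hv a (Finset.mem_insert_self a t))
    have h2 := contMDiffAt_lin (p := p) t ξ fun b hb => hv b (Finset.mem_insert_of_mem hb)
    have e : (fun z => ∑ b ∈ insert a t, ξ b * v b z) =
        fun z => ξ a * v a z + ∑ b ∈ t, ξ b * v b z := by
      ext z; rw [Finset.sum_insert ha]
    rw [e, mLap_add h1 h2, mLap_const_mul _ (hv a (Finset.mem_insert_self a t)),
      ih fun b hb => hv b (Finset.mem_insert_of_mem hb), Finset.sum_insert ha]

theorem mGam_lin_self (t : Finset ι) (ξ : ι → ℝ)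
    (hv : ∀ a ∈ t, ContMDiffAt 𝓘E 𝓘(ℝ, ℝ) 1 (v a) p) :
    mGam n (fun z => ∑ a ∈ t, ξ a * v a z) (fun z => ∑ a ∈ t, ξ a * v a z) p =
      ∑ a ∈ t, ∑ b ∈ t, ξ a * ξ b * mGam n (v a) (v b) p := by
  rw [mGam_lin_left t ξ _ hv]
  refine Finset.sum_congr rfl fun a ha => ?_
  rw [mGam_comm, mGam_lin_left t ξ _ hv, Finset.mul_sum]
  refine Finset.sum_congr rfl fun b hb => ?_
  rw [mGam_comm (v b) (v a)]
  ring

end lin

/-! ### matrix form -/

section mat
variable {m : ℕ} {v : Fin m → M → ℝ}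

/-- **SUP, matrix form** : the Gram matrix is `≤ (1 + C ε) Id` on the half ball. -/
theorem mat_le (hRic : HasRicciLowerBound n M 0) {q : M} {s C ε : ℝ} (hs : 0 < s) (hC : 0 ≤ C)
    (hU : IsOpen U) (hsU : ball q s ⊆ U) (hmv : MV n U q s C)
    (hv : ∀ a, ∀ z ∈ U, ContMDiffAt 𝓘E 𝓘(ℝ, ℝ) 3 (v a) z)
    (hL : ∀ a, ∀ z ∈ U, mLap n (v a) z = 0)
    (hi : ∀ a b, IntegrableOn (fun z => |mGam n (v a) (v b) z - if a = b then 1 else 0|)
      (ball q s) μM)
    (hε : ∑ a, ∑ b, ∫ z in ball q s, |mGam n (v a) (v b) z - if a = b then 1 else 0| ∂μM ≤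
      ε * s ^ n) {x : M} (hx : x ∈ ball q (s / 2)) (ξ : Fin m → ℝ) (hξ : ∑ a, ξ a ^ 2 = 1) :
    ∑ a, ∑ b, ξ a * ξ b * mGam n (v a) (v b) x ≤ 1 + C * ε := by
  have hξ1 : ∀ a, |ξ a| ≤ 1 := by
    intro a
    have h1 : ξ a ^ 2 ≤ 1 := by
      rw [← hξ]
      exact Finset.single_le_sum (f := fun a => ξ a ^ 2) (fun b _ => sq_nonneg _)
        (Finset.mem_univ a)
    exact abs_le_one_iff_mul_self_le_one.2 (by nlinarith)
  have hone : (1 : WithTop ℕ∞) ≤ 3 := by norm_num
  have hpt : ∀ z ∈ U, |mGam n (fun z => ∑ a, ξ a * v a z) (fun z => ∑ a, ξ a * v a z) z - 1| ≤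
      ∑ a, ∑ b, |mGam n (v a) (v b) z - if a = b then 1 else 0| := by
    intro z hz
    rw [mGam_lin_self Finset.univ ξ fun a _ => (hv a z hz).of_le hone]
    have e1 : (∑ a, ∑ b, ξ a * ξ b * (if a = b then (1:ℝ) else 0)) = 1 := by
      have h0 : ∀ a, ∑ b, ξ a * ξ b * (if a = b then (1:ℝ) else 0) = ξ a ^ 2 := by
        intro a
        simp [sq]
      simp only [h0]
      exact hξ
    have e2 : (∑ a, ∑ b, ξ a * ξ b * mGam n (v a) (v b) z) - 1 =
        ∑ a, ∑ b, ξ a * ξ b * (mGam n (v a) (v b) z - if a = b then (1:ℝ) else 0) := by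
      rw [← e1]
      simp only [mul_sub, Finset.sum_sub_distrib, e1]
    rw [e2]
    refine (Finset.abs_sum_le_sum_abs _ _).trans (Finset.sum_le_sum fun a _ => ?_)
    refine (Finset.abs_sum_le_sum_abs _ _).trans (Finset.sum_le_sum fun b _ => ?_)
    rw [abs_mul, abs_mul]
    exact mul_le_of_le_one_left (abs_nonneg _) (mul_le_one₀ (hξ1 a) (abs_nonneg _) (hξ1 b))
  have hi' : IntegrableOn (fun z => ∑ a, ∑ b, |mGam n (v a) (v b) z - if a = b then 1 else 0|)
      (ball q s) μM :=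
    integrable_finsetSum _ fun a _ => integrable_finsetSum _ fun b _ => hi a b
  have hv' : ∀ z ∈ U, ContMDiffAt 𝓘E 𝓘(ℝ, ℝ) 3 (fun z => ∑ a, ξ a * v a z) z := fun z hz =>
    contMDiffAt_lin Finset.univ ξ fun a _ => hv a z hz
  have hm : AEStronglyMeasurable (fun z => |mGam n (fun z => ∑ a, ξ a * v a z)
      (fun z => ∑ a, ξ a * v a z) z - 1|) (Measure.restrict μM (ball q s)) := by
    refine ContinuousOn.aestronglyMeasurable (fun z hz => ?_) isOpen_ball.measurableSet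
    refine ContinuousAt.continuousWithinAt ?_
    have h1 : ContMDiffAt 𝓘E 𝓘(ℝ, ℝ) 2 (mGam n (fun z => ∑ a, ξ a * v a z)
        (fun z => ∑ a, ξ a * v a z)) z :=
      contMDiffAt_mGam (hv' z (hsU hz)) (hv' z (hsU hz)) (by norm_num) three_le_infty
    exact (h1.continuousAt.sub continuousAt_const).abs
  have hi2 : IntegrableOn (fun z => |mGam n (fun z => ∑ a, ξ a * v a z)
      (fun z => ∑ a, ξ a * v a z) z - 1|) (ball q s) μM := by
    refine Integrable.mono' hi' hm ?_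
    refine (ae_restrict_mem isOpen_ball.measurableSet).mono fun z hz => ?_
    rw [Real.norm_eq_abs, abs_abs]
    exact hpt z (hsU hz)
  have h1 := sup_le (u := fun z => ∑ a, ξ a * v a z) hRic hs hC hU hmv hv' (fun z hz => by
    rw [mLap_lin Finset.univ ξ fun a _ => (hv a z hz).of_le (by norm_num)]
    exact Finset.sum_eq_zero fun a _ => by rw [hL a z hz, mul_zero]) hi2 (by
      refine le_trans ?_ hε
      refine (setIntegral_mono_on hi2 hi' isOpen_ball.measurableSet fun z hz =>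
        hpt z (hsU hz)).trans ?_
      rw [integral_finsetSum _ fun a _ => integrable_finsetSum _ fun b _ => hi a b]
      refine Finset.sum_le_sum fun a _ => ?_
      rw [integral_finsetSum _ fun b _ => hi a b]) hx
  have hxU : x ∈ U := hsU (ball_subset_ball (by linarith) hx)
  rwa [mGam_lin_self Finset.univ ξ fun a _ => (hv a x hxU).of_le hone] at h1


end mat

end Crest.Agent.R249.StaS_509
end
end

-- ▼ part R249/ScF_397
section

/-!
# R249, leaf D3-START (helper397): functions on the rescaled manifold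

`Sc r M` is `M` with all distances divided by `r` (R247.Scal386).

* `mGam_sc`, `mLap_sc`, `mHessSq_sc` : `mGam`, `mLap`, `mHessSq` on `Sc r M`;
* `integral_sc`, `setIntegral_sc` : integrals over the rescaled manifold;
* `contMDiff_sc` : smooth functions.
-/

set_option autoImplicit false
set_option maxSynthPendingDepth 3
noncomputable section
open Set Filter Topology Bundle MeasureTheory
open scoped ContDiff Manifold ENNReal NNReal
open Crest.GeometryTopology.CoordMetric Crest.GeometryTopology.ChartCurvature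
  Crest.GeometryTopology.PointedLimit
open Crest.Agent.R247.Scal386 Crest.Agent.R247.Bo84 Crest.Agent.R202.Tens
open Crest.Agent.R249.D1Def104

namespace Crest.Agent.R249.ScF_397

section coord
variable {n : ℕ} {c : ℝ}

theorem inverseField_smul (hc : c ≠ 0) (g : MetricField n) (x : EuclideanSpace ℝ (Fin n))
    (i j : Fin n) : inverseField (fun y => c • g y) x i j = c⁻¹ * inverseField g x i j := by
  unfold inverseField
  rw [matrix_inv_smul hc]
  rfl

theorem gam_smul (hc : c ≠ 0) (g : MetricField n) (f h : EuclideanSpace ℝ (Fin n) → ℝ)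
    (x : EuclideanSpace ℝ (Fin n)) : gam (fun y => c • g y) f h x = c⁻¹ * gam g f h x := by
  unfold gam
  simp only [inverseField_smul hc, Finset.mul_sum]
  refine Finset.sum_congr rfl fun i _ => Finset.sum_congr rfl fun j _ => ?_
  ring

theorem grad_smul (hc : c ≠ 0) (g : MetricField n) (f : EuclideanSpace ℝ (Fin n) → ℝ)
    (x : EuclideanSpace ℝ (Fin n)) : grad (fun y => c • g y) f x = c⁻¹ • grad g f x := by
  ext i
  rw [grad_apply]
  simp only [inverseField_smul hc, PiLp.smul_apply, grad_apply, smul_eq_mul, Finset.mul_sum]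
  refine Finset.sum_congr rfl fun j _ => ?_
  ring

theorem Gam_smul (hc : c ≠ 0) (g : MetricField n) (x : EuclideanSpace ℝ (Fin n)) :
    Gam (fun y => c • g y) x = Gam g x := by
  unfold Gam
  simp only [christoffel_smul hc]

theorem hessE_smul (hc : c ≠ 0) (g : MetricField n) (f : EuclideanSpace ℝ (Fin n) → ℝ)
    (x : EuclideanSpace ℝ (Fin n)) : hessE (fun y => c • g y) f x = c⁻¹ • hessE g f x := by
  have h1 : grad (fun y => c • g y) f = c⁻¹ • grad g f := by
    funext y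
    exact grad_smul hc g f y
  refine ContinuousLinearMap.ext fun X => ?_
  rw [hessE_apply, Gam_smul hc, h1, fderiv_const_smul_field, ContinuousLinearMap.smul_apply,
    hessE_apply, smul_add]
  congr 1
  rw [Pi.smul_apply, map_smul]

theorem hessSq_smul (hc : c ≠ 0) (g : MetricField n) (f : EuclideanSpace ℝ (Fin n) → ℝ)
    (x : EuclideanSpace ℝ (Fin n)) :
    hessSq (fun y => c • g y) f x = c⁻¹ ^ 2 * hessSq g f x := by
  unfold hessSq
  rw [hessE_smul hc, ContinuousLinearMap.smul_comp, ContinuousLinearMap.comp_smul, map_smul,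
    map_smul, smul_smul, smul_eq_mul, sq]

theorem laplace_smul (hc : 0 < c) (g : MetricField n) (f : EuclideanSpace ℝ (Fin n) → ℝ)
    (x : EuclideanSpace ℝ (Fin n)) :
    laplaceBeltrami (fun y => c • g y) f x = c⁻¹ * laplaceBeltrami g f x := by
  unfold laplaceBeltrami
  have hd : ∀ y : EuclideanSpace ℝ (Fin n), Real.sqrt (c • g y).det =
      Real.sqrt (c ^ n) * Real.sqrt (g y).det := by
    intro y
    rw [Matrix.det_smul, Fintype.card_fin, Real.sqrt_mul (by positivity)]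
  have h0 : Real.sqrt (c ^ n) ≠ 0 := by positivity
  have h1 : ∀ i, pderiv i (fun y => Real.sqrt (c • g y).det *
      ∑ j, inverseField (fun y => c • g y) y i j * pderiv j f y) x =
      (Real.sqrt (c ^ n) * c⁻¹) * pderiv i (fun y => Real.sqrt (g y).det *
      ∑ j, inverseField g y i j * pderiv j f y) x := by
    intro i
    rw [← pderiv_mul]
    congr 1
    funext y
    rw [hd]
    have : ∑ j, inverseField (fun y => c • g y) y i j * pderiv j f y =
        c⁻¹ * ∑ j, inverseField g y i j * pderiv j f y := by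
      rw [Finset.mul_sum]
      refine Finset.sum_congr rfl fun j _ => ?_
      rw [inverseField_smul hc.ne']
      ring
    rw [this]
    ring
  simp only [h1]
  rw [hd, ← Finset.mul_sum]
  field_simp

end coord

section mfd
variable {n : ℕ} {M : Type*} [MetricSpace M] (r : {r : ℝ // 0 < r})
  [ChartedSpace (EuclideanSpace ℝ (Fin n)) M]
  [RiemannianBundle (fun x : M => TangentSpace 𝓘(ℝ, EuclideanSpace ℝ (Fin n)) x)]

theorem mGam_sc (f h : Sc r M → ℝ) (x : Sc r M) :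
    mGam n f h x = r.1 ^ 2 * mGam n (M := M) (fun y : M => f (toSc r y))
      (fun y : M => h (toSc r y)) (ofSc r x) := by
  have hr := r.2
  have hc : (r.1 ^ 2)⁻¹ ≠ 0 := by positivity
  unfold mGam
  rw [chartMetric_sc', chartCentre_sc, gam_smul hc, inv_inv]
  rfl

theorem mLap_sc (f : Sc r M → ℝ) (x : Sc r M) :
    mLap n f x = r.1 ^ 2 * mLap n (M := M) (fun y : M => f (toSc r y)) (ofSc r x) := by
  have hr := r.2
  have hc : 0 < (r.1 ^ 2)⁻¹ := by positivity
  unfold mLap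
  rw [chartMetric_sc', chartCentre_sc, laplace_smul hc, inv_inv]
  rfl

theorem mHessSq_sc (f : Sc r M → ℝ) (x : Sc r M) :
    mHessSq n f x = (r.1 ^ 2) ^ 2 * mHessSq n (M := M) (fun y : M => f (toSc r y)) (ofSc r x) := by
  have hr := r.2
  have hc : (r.1 ^ 2)⁻¹ ≠ 0 := by positivity
  unfold mHessSq
  rw [chartMetric_sc', chartCentre_sc, hessSq_smul hc, inv_inv]
  rfl

omit [RiemannianBundle (fun x : M => TangentSpace 𝓘(ℝ, EuclideanSpace ℝ (Fin n)) x)] in
theorem contMDiff_sc {f : Sc r M → ℝ}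
    (hf : ContMDiff 𝓘(ℝ, EuclideanSpace ℝ (Fin n)) 𝓘(ℝ, ℝ) ∞ f) :
    ContMDiff 𝓘(ℝ, EuclideanSpace ℝ (Fin n)) 𝓘(ℝ, ℝ) ∞ (fun y : M => f (toSc r y)) := hf

theorem compactSupport_sc {f : Sc r M → ℝ} (hf : HasCompactSupport f) :
    HasCompactSupport (fun y : M => f (toSc r y)) := hf

omit [ChartedSpace (EuclideanSpace ℝ (Fin n)) M]
  [RiemannianBundle (fun x : M => TangentSpace 𝓘(ℝ, EuclideanSpace ℝ (Fin n)) x)]

variable [MeasurableSpace M] [BorelSpace M]

/-- integrals over the rescaled space. -/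
theorem integral_sc (n : ℕ) (f : Sc r M → ℝ) :
    ∫ x, f x ∂(μHE[n] : Measure (Sc r M)) =
      (r.1⁻¹) ^ n * ∫ x, f (toSc r x) ∂(μHE[n] : Measure M) := by
  have hr := r.2
  rw [muHE_sc_map, integral_smul_measure, ENNReal.toReal_ofReal (by positivity)]
  rfl

theorem toSc_preimage_ball (q : M) (s : ℝ) :
    (toSc r ⁻¹' Metric.ball (toSc r q) s : Set M) = Metric.ball q (r.1 * s) := by
  have hr := r.2
  ext x
  rw [mem_preimage, Metric.mem_ball, Metric.mem_ball, dist_toSc, inv_mul_lt_iff₀ hr]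

/-- integrals over balls of the rescaled space. -/
theorem setIntegral_sc (n : ℕ) (f : Sc r M → ℝ) (q : M) (s : ℝ) :
    ∫ x in Metric.ball (toSc r q) s, f x ∂(μHE[n] : Measure (Sc r M)) =
      (r.1⁻¹) ^ n * ∫ x in Metric.ball q (r.1 * s), f (toSc r x) ∂(μHE[n] : Measure M) := by
  rw [← integral_indicator Metric.isOpen_ball.measurableSet, integral_sc,
    ← integral_indicator Metric.isOpen_ball.measurableSet]
  congr 2
  funext x
  have e := toSc_preimage_ball r q s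
  by_cases hx : x ∈ Metric.ball q (r.1 * s)
  · have hx' : toSc r x ∈ Metric.ball (toSc r q) s := by
      rw [← e] at hx
      exact hx
    rw [indicator_of_mem hx, indicator_of_mem hx']
  · have hx' : toSc r x ∉ Metric.ball (toSc r q) s := by
      rw [← e] at hx
      exact hx
    rw [indicator_of_notMem hx, indicator_of_notMem hx']

end mfd

end Crest.Agent.R249.ScF_397
end
end

-- ▼ part R249/Sta9_397
section

/-!
# R249, leaf D3-START (helper397), file 9: **START**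

* `mv_of_pin` : the `L¹` mean value inequality (982's `mv1_pos`) on a pinched manifold, `n = 4`;
* `start1` : START at unit scale, with the one-sided gradient bound;
* `start` : START at every scale.
-/

set_option autoImplicit false
set_option maxSynthPendingDepth 3
set_option linter.unusedSectionVars false
set_option linter.unusedVariables false

open Bundle Bornology Set MeasureTheory Manifold Filter Metric Topology
open scoped ENNReal ContDiff Topology NNReal RealInnerProductSpace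
open Crest.GeometryTopology.CoordMetric Crest.GeometryTopology.ChartCurvature
open Crest.GeometryTopology.PointedLimit

noncomputable section

namespace Crest.Agent.R249.Sta9_397

universe u

open Crest.Agent.R247 Crest.Agent.R247.Dir593 Crest.Agent.R247.Dir593.GradS
open Crest.Agent.R247.Hes124 Crest.Agent.R247.Bo84 Crest.Agent.R247.Ms322
open Crest.Agent.R249.Sta1_397 Crest.Agent.R249.Sta6_397 Crest.Agent.R249.Sta7_397
open Crest.Agent.R247.Fd656

/-- `Λ` of the lower volume bounds -/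
def Lam : ℝ := 2 + 2 * (16 * om 4 + 1) / om 4

lemma two_le_Lam : 2 ≤ Lam := by
  have := om_pos 4
  unfold Lam
  have : 0 ≤ 2 * (16 * om 4 + 1) / om 4 := by positivity
  linarith

lemma Lam_spec : 16 * om 4 + 1 ≤ om 4 / 2 * Lam ^ 4 := by
  have h0 := om_pos 4
  have h1 : 2 * (16 * om 4 + 1) / om 4 ≤ Lam := by
    unfold Lam
    linarith
  have h2 : Lam ≤ Lam ^ 4 := by
    have := two_le_Lam
    calc Lam = Lam ^ 1 := (pow_one _).symm
      _ ≤ Lam ^ 4 := pow_le_pow_right₀ (by linarith) (by norm_num)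
  have h3 : 2 * (16 * om 4 + 1) / om 4 ≤ Lam ^ 4 := h1.trans h2
  rw [div_le_iff₀ h0] at h3
  linarith

/-- the constant of the mean value inequality -/
def Cmv : ℝ := 4096 * SobI_982.CM 0 (om 4) Lam 1 ^ 2

lemma Cmv_nonneg : 0 ≤ Cmv := by unfold Cmv; positivity

lemma CM_zero (om Λ r : ℝ) : SobI_982.CM 0 om Λ r = SobI_982.CM 0 om Λ 1 := by
  simp [SobI_982.CM, SobG_982.KS]

section blk
variable {M : Type u} [MetricSpace M] [CompleteSpace M] [ConnectedSpace M]
    [ChartedSpace (EuclideanSpace ℝ (Fin 4)) M]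
    [IsManifold 𝓘(ℝ, EuclideanSpace ℝ (Fin 4)) ∞ M]
    [RiemannianBundle (fun x : M => TangentSpace 𝓘(ℝ, EuclideanSpace ℝ (Fin 4)) x)]
    [IsContMDiffRiemannianBundle 𝓘(ℝ, EuclideanSpace ℝ (Fin 4)) ∞ (EuclideanSpace ℝ (Fin 4))
      (fun x : M => TangentSpace 𝓘(ℝ, EuclideanSpace ℝ (Fin 4)) x)]
    [IsRiemannianManifold 𝓘(ℝ, EuclideanSpace ℝ (Fin 4)) M]
    [MeasurableSpace M] [BorelSpace M]

/-- upper volume bound, `Ric ≥ 0` -/
theorem vol_up (hk : HasRicciLowerBound 4 M 0) (y : M) (s : ℝ) :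
    (μHE[4] : Measure M) (ball y s) ≤ ENNReal.ofReal (om 4 * s ^ 4) := by
  have hk' : HasRicciLowerBound 4 M (-0) := by rwa [neg_zero]
  obtain ⟨C⟩ := Bgr546.rad_all 4 0 le_rfl M hk'
  have := HR216.properSpace_of_riemannian 4 M
  have := HR216.secondCountable_of_riemannian 4 M
  have := Gs939.finOnCompacts (n := 4) (M := M)
  refine (measure_mono ball_subset_closedBall).trans ((closedBall_le_om C le_rfl y s).trans ?_)
  apply ENNReal.ofReal_le_ofReal
  rw [zero_mul, zero_div, Real.exp_zero, one_mul, mul_comm]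

/-- the mean value inequality on a pinched manifold -/
theorem mv_of_pin (hk : HasRicciLowerBound 4 M 0) {q : M} {R : ℝ}
    (hp : ∀ x ∈ ball q R, ∀ r : ℝ, 0 < r → r ≤ R →
      ENNReal.ofReal (1 / 2) * volume (ball (0 : EuclideanSpace ℝ (Fin 4)) r) ≤
        (μHE[4] : Measure M) (ball x r)) {U : Set M} (hU : IsOpen U) {s : ℝ} (hs : 0 < s)
    (hsR : Lam * s ≤ R) (hsU : closedBall q s ⊆ U) : StaS_509.MV 4 U q s Cmv := by
  have hk' : HasRicciLowerBound 4 M (-0) := by rwa [neg_zero]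
  obtain ⟨C⟩ := Bgr546.rad_all 4 0 le_rfl M hk'
  have hL := two_le_Lam
  have hsR' : s ≤ R := by nlinarith
  intro f hf hfL x hx
  have h := SobJ_982.mv1_pos C le_rfl (om_pos 4).le (fun y s _ => vol_up hk y s) (x0 := q)
    (r := s) (Λ := Lam) (v := om 4 / 2) hs hL Lam_spec (fun y hy t ht hts => by
      have h1 : Lam * t ≤ R := by nlinarith
      have h2 := hp y (ball_subset_ball hsR' hy) (Lam * t) (by positivity) h1
      refine le_trans (le_of_eq ?_) h2
      rw [vol_ball 4 (by positivity), ← ENNReal.ofReal_mul (by norm_num)]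
      congr 1
      ring) hU hsU hf hfL hx
  rw [CM_zero] at h
  refine h.trans (le_of_eq ?_)
  unfold Cmv
  rw [div_eq_inv_mul]

end blk

set_option maxHeartbeats 1000000 in
/-- **START at unit scale**, with the one-sided gradient bound (`n = 4`, `Ric ≥ 0`). -/
theorem start1 {ε : ℝ} (hε : 0 < ε) : ∃ s : ℝ, 0 < s ∧ s ≤ 1 / 192 ∧
    ∃ T : ℝ, 50 ≤ T ∧ ∃ δ₀ : ℝ, 0 < δ₀ ∧ δ₀ ≤ 1 / 4096 ∧
    ∀ {M : Type u} [MetricSpace M] [CompleteSpace M]
    [ConnectedSpace M] [ChartedSpace (EuclideanSpace ℝ (Fin 4)) M]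
    [IsManifold 𝓘(ℝ, EuclideanSpace ℝ (Fin 4)) ∞ M]
    [RiemannianBundle (fun x : M => TangentSpace 𝓘(ℝ, EuclideanSpace ℝ (Fin 4)) x)]
    [IsContMDiffRiemannianBundle 𝓘(ℝ, EuclideanSpace ℝ (Fin 4)) ∞ (EuclideanSpace ℝ (Fin 4))
      (fun x : M => TangentSpace 𝓘(ℝ, EuclideanSpace ℝ (Fin 4)) x)]
    [IsRiemannianManifold 𝓘(ℝ, EuclideanSpace ℝ (Fin 4)) M]
    [MeasurableSpace M] [BorelSpace M] {q : M}
    (hk : HasRicciLowerBound 4 M 0)
    (hp : ∀ x ∈ ball q T, ∀ r : ℝ, 0 < r → r ≤ T →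
      ENNReal.ofReal (1 - δ₀) * volume (ball (0 : EuclideanSpace ℝ (Fin 4)) r) ≤
        (μHE[4] : Measure M) (ball x r)),
    ∃ u : Fin 4 → M → ℝ, (∀ a, ContMDiff (𝓡 4) 𝓘(ℝ) ∞ (u a)) ∧ (∀ a, HasCompactSupport (u a)) ∧
      (∀ a, ∀ z ∈ ball q (2 * s), mLap 4 (u a) z = 0) ∧
      (∀ a, ∫ z in ball q s, mHessSq 4 (u a) z ∂(μHE[4] : Measure M) ≤ ε * s ^ 2) ∧
      (∀ a c, ∫ z in ball q s, |mGam 4 (u a) (u c) z - if a = c then 1 else 0|
        ∂(μHE[4] : Measure M) ≤ ε * s ^ 4) ∧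
      ∀ z ∈ ball q s, ∀ ξ : Fin 4 → ℝ, ∑ a, ξ a ^ 2 = 1 →
        ∑ a, ∑ c, ξ a * ξ c * mGam 4 (u a) (u c) z ≤ 1 + ε := by
  have hC := Cmv_nonneg
  set ε' : ℝ := min (ε / 16) (ε / (16 * (Cmv + 1))) with hε'
  have hε'0 : 0 < ε' := by positivity
  have hε'1 : 16 * ε' ≤ ε := by
    have : ε' ≤ ε / 16 := min_le_left _ _
    linarith
  have hε'2 : Cmv * (16 * ε') ≤ ε := by
    have h1 : ε' ≤ ε / (16 * (Cmv + 1)) := min_le_right _ _
    rw [le_div_iff₀ (by positivity)] at h1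
    nlinarith
  obtain ⟨S, hS0, hS1, R₁, hR₁, δ₀, hδ₀0, hδ₀1, hsp⟩ := Sta8_397.exists_harm.{u} (n := 4)
    (by norm_num) hε'0
  have hL := two_le_Lam
  refine ⟨S / 2, by positivity, by linarith, max R₁ Lam, hR₁.trans (le_max_left _ _), δ₀, hδ₀0,
    hδ₀1, ?_⟩
  intro M _ _ _ _ _ _ _ _ _ _ q hk hp
  have := HR216.properSpace_of_riemannian 4 M
  have := HR216.secondCountable_of_riemannian 4 M
  have : Nonempty M := ⟨q⟩
  have := Gs939.finOnCompacts (n := 4) (M := M)
  have hk' : HasRicciLowerBound 4 M (-δ₀) := Asm951.ricci_mono (by linarith) hk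
  have hp1 : Pin 4 δ₀ q R₁ 40 := fun x hx r hr hr1 =>
    hp x (ball_subset_ball (le_max_left _ _) hx) r hr (by
      have := le_max_left R₁ Lam
      linarith)
  obtain ⟨u, hus, huc, huL, huH, huG⟩ := hsp hδ₀0 le_rfl hk' hp1
  set U : Set M := ball q (3 / 2 * S) with hU
  have hUo : IsOpen U := isOpen_ball
  have hSU : closedBall q S ⊆ U := closedBall_subset_ball (by linarith)
  have hmv : StaS_509.MV 4 U q S Cmv := by
    refine mv_of_pin hk (R := max R₁ Lam) (fun x hx r hr hr1 => ?_) hUo hS0 ?_ hSU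
    · refine le_trans ?_ (hp x hx r hr hr1)
      gcongr
      linarith
    · have := le_max_right R₁ Lam
      nlinarith
  have hcG : ∀ a c, Continuous (mGam 4 (u a) (u c)) := fun a c => by
    rw [← continuousOn_univ]
    exact cont_mGam isOpen_univ (hus a).contMDiffOn (hus c).contMDiffOn
  have hcH : ∀ a, Continuous (mHessSq 4 (u a)) := fun a => by
    rw [← continuousOn_univ]
    exact cont_mHessSq isOpen_univ (hus a).contMDiffOn
  have hiO : ∀ {f : M → ℝ}, Continuous f → IntegrableOn f (ball q S) (μHE[4] : Measure M) :=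
    fun hf => (hf.continuousOn.integrableOn_compact (isCompact_closedBall q S)).mono_set
      ball_subset_closedBall
  have hsub : ball q (S / 2) ⊆ ball q S := ball_subset_ball (by linarith)
  have hi : ∀ a c, IntegrableOn (fun z => |mGam 4 (u a) (u c) z - if a = c then (1:ℝ) else 0|)
      (ball q S) (μHE[4] : Measure M) := fun a c => hiO ((hcG a c).sub continuous_const).abs
  refine ⟨u, hus, huc, fun a z hz => huL a z (ball_subset_ball (by linarith) hz), fun a => ?_,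
    fun a c => ?_, fun z hz ξ hξ => ?_⟩
  · calc ∫ z in ball q (S / 2), mHessSq 4 (u a) z ∂(μHE[4] : Measure M)
        ≤ ∫ z in ball q S, mHessSq 4 (u a) z ∂(μHE[4] : Measure M) :=
          setIntegral_mono_set (hiO (hcH a)) (Eventually.of_forall fun z => by
            show 0 ≤ mHessSq 4 (u a) z
            rw [← Bs84.norm_Hf_sq ((hus a z).of_le two_le_infty)]
            positivity) hsub.eventuallyLE
      _ ≤ ε' * S ^ 4 / S ^ 2 := huH a
      _ = 4 * ε' * (S / 2) ^ 2 := by field_simp; ring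
      _ ≤ ε * (S / 2) ^ 2 := by
          gcongr
          linarith
  · calc ∫ z in ball q (S / 2), |mGam 4 (u a) (u c) z - if a = c then (1:ℝ) else 0|
          ∂(μHE[4] : Measure M)
        ≤ ∫ z in ball q S, |mGam 4 (u a) (u c) z - if a = c then (1:ℝ) else 0|
          ∂(μHE[4] : Measure M) :=
          setIntegral_mono_set (hi a c) (Eventually.of_forall fun z => abs_nonneg _)
            hsub.eventuallyLE
      _ ≤ ε' * S ^ 4 := huG a c
      _ = 16 * ε' * (S / 2) ^ 4 := by ring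
      _ ≤ ε * (S / 2) ^ 4 := by gcongr
  · have h := StaS_509.mat_le hk hS0 hC hUo (ball_subset_closedBall.trans hSU) hmv
      (v := u) (ε := 16 * ε')
      (fun a z _ => (hus a z).of_le three_le_infty) huL hi (by
        calc ∑ a, ∑ c, ∫ z in ball q S, |mGam 4 (u a) (u c) z - if a = c then (1:ℝ) else 0|
              ∂(μHE[4] : Measure M)
            ≤ ∑ a : Fin 4, ∑ c : Fin 4, ε' * S ^ 4 :=
              Finset.sum_le_sum fun a _ => Finset.sum_le_sum fun c _ => huG a c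
          _ = 16 * ε' * S ^ 4 := by
              simp only [Finset.sum_const, Finset.card_univ, Fintype.card_fin, nsmul_eq_mul]
              push_cast
              ring) hz ξ hξ
    linarith

set_option maxHeartbeats 1000000 in
/-- **START** at every scale (`n = 4`, `Ric ≥ 0`): almost splitting harmonic functions on
`ball q (s R)` from volume pinching on `ball q R` at the scales `≤ R`. -/
theorem start {ε : ℝ} (hε : 0 < ε) : ∃ s : ℝ, 0 < s ∧ s ≤ 1 / 192 ∧
    ∃ δ₀ : ℝ, 0 < δ₀ ∧ δ₀ ≤ 1 / 4096 ∧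
    ∀ {M : Type u} [MetricSpace M] [CompleteSpace M]
    [ConnectedSpace M] [ChartedSpace (EuclideanSpace ℝ (Fin 4)) M]
    [IsManifold 𝓘(ℝ, EuclideanSpace ℝ (Fin 4)) ∞ M]
    [RiemannianBundle (fun x : M => TangentSpace 𝓘(ℝ, EuclideanSpace ℝ (Fin 4)) x)]
    [IsContMDiffRiemannianBundle 𝓘(ℝ, EuclideanSpace ℝ (Fin 4)) ∞ (EuclideanSpace ℝ (Fin 4))
      (fun x : M => TangentSpace 𝓘(ℝ, EuclideanSpace ℝ (Fin 4)) x)]
    [IsRiemannianManifold 𝓘(ℝ, EuclideanSpace ℝ (Fin 4)) M]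
    [MeasurableSpace M] [BorelSpace M] {q : M} {R : ℝ} (hR : 0 < R)
    (hk : HasRicciLowerBound 4 M 0)
    (hp : ∀ x ∈ ball q R, ∀ r : ℝ, 0 < r → r ≤ R →
      ENNReal.ofReal (1 - δ₀) * volume (ball (0 : EuclideanSpace ℝ (Fin 4)) r) ≤
        (μHE[4] : Measure M) (ball x r)),
    ∃ u : Fin 4 → M → ℝ, (∀ a, ContMDiff (𝓡 4) 𝓘(ℝ) ∞ (u a)) ∧ (∀ a, HasCompactSupport (u a)) ∧
      (∀ a, ∀ z ∈ ball q (2 * (s * R)), mLap 4 (u a) z = 0) ∧
      (∀ a, ∫ z in ball q (s * R), mHessSq 4 (u a) z ∂(μHE[4] : Measure M) ≤ ε * (s * R) ^ 2) ∧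
      (∀ a c, ∫ z in ball q (s * R), |mGam 4 (u a) (u c) z - if a = c then 1 else 0|
        ∂(μHE[4] : Measure M) ≤ ε * (s * R) ^ 4) ∧
      ∀ z ∈ ball q (s * R), ∀ ξ : Fin 4 → ℝ, ∑ a, ξ a ^ 2 = 1 →
        ∑ a, ∑ c, ξ a * ξ c * mGam 4 (u a) (u c) z ≤ 1 + ε := by
  obtain ⟨s, hs0, hs1, T, hT, δ₀, hδ₀0, hδ₀1, hst⟩ := start1.{u} hε
  have hT0 : 0 < T := by linarith
  refine ⟨s / T, by positivity, ?_, δ₀, hδ₀0, hδ₀1, ?_⟩
  · rw [div_le_iff₀ hT0]
    nlinarith
  intro M _ _ _ _ _ _ _ _ _ _ q R hR hk hp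
  set ρ : {r : ℝ // 0 < r} := ⟨R / T, by positivity⟩ with hρ
  have hρ0 : 0 < ρ.1 := ρ.2
  have hρT : ρ.1 * T = R := by
    rw [hρ]
    field_simp
  have hsT : s / T * R = ρ.1 * s := by
    rw [hρ]
    field_simp
  have hkS : HasRicciLowerBound 4 (Scal386.Sc ρ M) 0 := by
    have := Scal386.ricciLB_sc ρ hk
    rwa [zero_mul] at this
  have hpS : ∀ x ∈ ball (Scal386.toSc ρ q) T, ∀ r : ℝ, 0 < r → r ≤ T →
      ENNReal.ofReal (1 - δ₀) * volume (ball (0 : EuclideanSpace ℝ (Fin 4)) r) ≤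
        (μHE[4] : Measure (Scal386.Sc ρ M)) (ball x r) := by
    intro x hx r hr hrT
    have hx' : Scal386.ofSc ρ x ∈ ball q R := by
      have : x ∈ ball (Scal386.toSc ρ q) T := hx
      rw [mem_ball, Scal386.dist_sc, inv_mul_lt_iff₀ hρ0, hρT] at this
      exact this
    have h1 := hp (Scal386.ofSc ρ x) hx' (ρ.1 * r) (by positivity) (by
      rw [← hρT]
      gcongr)
    rw [D1Def104.muHE_sc_eq]
    have e1 : (Scal386.toSc ρ ⁻¹' ball x r : Set M) = ball (Scal386.ofSc ρ x) (ρ.1 * r) :=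
      ScF_397.toSc_preimage_ball ρ (Scal386.ofSc ρ x) r
    rw [e1]
    refine le_trans (le_of_eq ?_) (mul_le_mul_right h1 (ENNReal.ofReal (ρ.1⁻¹ ^ 4)))
    have e2 : volume (ball (0 : EuclideanSpace ℝ (Fin 4)) r) = ENNReal.ofReal (ρ.1⁻¹ ^ 4) *
        volume (ball (0 : EuclideanSpace ℝ (Fin 4)) (ρ.1 * r)) := by
      rw [vol_ball 4 hr, vol_ball 4 (mul_pos hρ0 hr), ← ENNReal.ofReal_mul (by positivity)]
      congr 1
      field_simp
    rw [e2, mul_left_comm]
  obtain ⟨v, hvs, hvc, hvL, hvH, hvG, hvM⟩ := hst hkS hpS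
  have hvs' : ∀ a, ContMDiff (𝓡 4) 𝓘(ℝ) ∞ (fun y : M => v a (Scal386.toSc ρ y)) :=
    fun a => ScF_397.contMDiff_sc ρ (hvs a)
  have hv1 : ∀ a z, MDifferentiableAt (𝓡 4) 𝓘(ℝ) (fun y : M => v a (Scal386.toSc ρ y)) z :=
    fun a z => (hvs' a z).mdifferentiableAt (by simp)
  have hv2 : ∀ a z, ContMDiffAt (𝓡 4) 𝓘(ℝ) 2 (fun y : M => v a (Scal386.toSc ρ y)) z :=
    fun a z => (hvs' a z).of_le two_le_infty
  -- the functions
  have eG : ∀ a c z, mGam 4 (fun y : M => ρ.1 * v a (Scal386.toSc ρ y))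
      (fun y : M => ρ.1 * v c (Scal386.toSc ρ y)) z = mGam 4 (v a) (v c) (Scal386.toSc ρ z) := by
    intro a c z
    rw [mGam_const_mul_left _ (hv1 a z), mGam_const_mul_right _ (hv1 c z), ScF_397.mGam_sc]
    have : Scal386.ofSc ρ (Scal386.toSc ρ z) = z := rfl
    rw [this]
    ring
  have eH : ∀ a z, mHessSq 4 (fun y : M => ρ.1 * v a (Scal386.toSc ρ y)) z =
      (ρ.1⁻¹) ^ 2 * mHessSq 4 (v a) (Scal386.toSc ρ z) := by
    intro a z
    have hne : Nonempty M := ⟨z⟩
    have := HR216.secondCountable_of_riemannian 4 M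
    rw [Sta5_397.mHessSq_const_mul _ (hv2 a z), ScF_397.mHessSq_sc]
    have : Scal386.ofSc ρ (Scal386.toSc ρ z) = z := rfl
    rw [this]
    field_simp
  have eL : ∀ a z, mLap 4 (fun y : M => ρ.1 * v a (Scal386.toSc ρ y)) z =
      ρ.1⁻¹ * mLap 4 (v a) (Scal386.toSc ρ z) := by
    intro a z
    rw [mLap_const_mul _ (hv2 a z), ScF_397.mLap_sc]
    have : Scal386.ofSc ρ (Scal386.toSc ρ z) = z := rfl
    rw [this]
    field_simp
  have hmem : ∀ t : ℝ, ∀ z ∈ ball q (ρ.1 * t), Scal386.toSc ρ z ∈ ball (Scal386.toSc ρ q) t := by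
    intro t z hz
    rw [← ScF_397.toSc_preimage_ball] at hz
    exact hz
  rw [hsT]
  refine ⟨fun a y => ρ.1 * v a (Scal386.toSc ρ y), fun a => contMDiff_const.mul (hvs' a),
    fun a => ?_, fun a z hz => ?_, fun a => ?_, fun a c => ?_, fun z hz ξ hξ => ?_⟩
  · have : HasCompactSupport (fun y : M => v a (Scal386.toSc ρ y)) :=
      ScF_397.compactSupport_sc ρ (hvc a)
    exact this.mul_left
  · rw [eL, hvL a _ (hmem (2 * s) z (by rwa [mul_left_comm])), mul_zero]
  · simp only [eH]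
    have h1 := hvH a
    rw [ScF_397.setIntegral_sc] at h1
    rw [integral_const_mul]
    have h2 : ∫ z in ball q (ρ.1 * s), mHessSq 4 (v a) (Scal386.toSc ρ z)
        ∂(μHE[4] : Measure M) ≤ ρ.1 ^ 4 * (ε * s ^ 2) := by
      rw [inv_pow, inv_mul_le_iff₀ (by positivity)] at h1
      exact h1
    calc ρ.1⁻¹ ^ 2 * ∫ z in ball q (ρ.1 * s), mHessSq 4 (v a) (Scal386.toSc ρ z)
          ∂(μHE[4] : Measure M) ≤ ρ.1⁻¹ ^ 2 * (ρ.1 ^ 4 * (ε * s ^ 2)) := by gcongr
      _ = ε * (ρ.1 * s) ^ 2 := by field_simp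
  · simp only [eG]
    have h1 := hvG a c
    rw [ScF_397.setIntegral_sc, inv_pow, inv_mul_le_iff₀ (by positivity)] at h1
    refine h1.trans (le_of_eq ?_)
    ring
  · simp only [eG]
    exact hvM _ (hmem s z hz) ξ hξ

end Crest.Agent.R249.Sta9_397
end
end

-- ▼ part R249/SD4_308

/-!
R249 (S0386), D3 (helper308), assembly of `SDStmt`, part 4: **`sdStmt : SDStmt`** (harmonic almost
coordinates with decay, along the sequence).
-/

set_option autoImplicit false
set_option maxSynthPendingDepth 3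
set_option linter.unusedSectionVars false

open scoped ContDiff ENNReal NNReal Topology Manifold Bundle RealInnerProductSpace
open MeasureTheory Set Filter Metric Bundle
open Crest.GeometryTopology.CoordMetric Crest.GeometryTopology.ChartCurvature
open Crest.Agent.R247 Crest.Agent.R247.Bo84 Crest.Agent.R247.Ms322 Crest.Agent.R247.Bs84
open Crest.Agent.R247.Hes124 (F S mv tr idm)
open Crest.GeometryTopology.PointedLimit Crest.Agent.R247.Mcp688
open Crest.Agent.R249.Cod992 Crest.Agent.R249.D1Def104 Crest.Agent.R249.Dec308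
open Crest.Agent.R249.SobE_982 Crest.Agent.R249.SobG_982 Crest.Agent.R249.En920
open Crest.Agent.R249.Ul174 Crest.Agent.R249.AsmD832 Crest.Agent.R249.LimDef41

noncomputable section

namespace Crest.Agent.R249.SD308

/-! ### subtracting a constant -/

section shift

variable {n : ℕ} {M : Type*} [MetricSpace M] [ChartedSpace (EuclideanSpace ℝ (Fin n)) M]
  [IsManifold (𝓡 n) ∞ M]
  [RiemannianBundle (fun p : M => TangentSpace (𝓡 n) p)]
  [IsContMDiffRiemannianBundle (𝓡 n) ∞ (EuclideanSpace ℝ (Fin n))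
    (fun p : M => TangentSpace (𝓡 n) p)]
  [SecondCountableTopology M] [Nonempty M]

variable {u v : M → ℝ} {z : M}

theorem mLap_shift (hu : ContMDiffAt (𝓡 n) 𝓘(ℝ, ℝ) 2 u z) (c : ℝ) :
    mLap n (fun q => u q + c) z = mLap n u z := by
  rw [mLap_add hu contMDiffAt_const, mLap_const, add_zero]

theorem mGam_shift (hu : MDifferentiableAt (𝓡 n) 𝓘(ℝ, ℝ) u z)
    (hv : MDifferentiableAt (𝓡 n) 𝓘(ℝ, ℝ) v z) (c d : ℝ) :
    mGam n (fun q => u q + c) (fun q => v q + d) z = mGam n u v z := by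
  rw [mGam_add_left hu mdifferentiableAt_const, mGam_const_left, add_zero,
    mGam_add_right hv mdifferentiableAt_const, mGam_const_right, add_zero]

theorem mHessSq_shift (hu : ContMDiffAt (𝓡 n) 𝓘(ℝ, ℝ) 2 u z) (c : ℝ) :
    mHessSq n (fun q => u q + c) z = mHessSq n u z := by
  have h1 : ContMDiffAt (𝓡 n) 𝓘(ℝ, ℝ) 2 (fun q => u q + c) z := hu.add contMDiffAt_const
  rw [← norm_Hf_sq h1, ← norm_Hf_sq hu]
  congr 2
  ext ij
  show mHess n (fun q => u q + c) z _ _ = mHess n u z _ _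
  rw [mHess_add hu contMDiffAt_const, mHess_const, add_zero]

end shift

/-- the data on one manifold of the sequence -/
structure Good1 {M : Type} [MetricSpace M] [ChartedSpace (EuclideanSpace ℝ (Fin 4)) M]
    [IsManifold 𝓘(ℝ, EuclideanSpace ℝ (Fin 4)) ∞ M]
    [RiemannianBundle (fun x : M => TangentSpace 𝓘(ℝ, EuclideanSpace ℝ (Fin 4)) x)]
    [IsContMDiffRiemannianBundle 𝓘(ℝ, EuclideanSpace ℝ (Fin 4)) ∞ (EuclideanSpace ℝ (Fin 4))
      (fun x : M => TangentSpace 𝓘(ℝ, EuclideanSpace ℝ (Fin 4)) x)]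
    [MeasurableSpace M] [BorelSpace M] (x : M) (ρ ε₁ : ℝ) (u : Fin 4 → M → ℝ) : Prop where
  smooth : ∀ a, ContMDiff (𝓡 4) 𝓘(ℝ, ℝ) ∞ (u a)
  harm : ∀ a, ∀ z ∈ ball x (64 * ρ), mLap 4 (u a) z = 0
  grad : ∀ a, ∀ z ∈ ball x (64 * ρ), mGam 4 (u a) (u a) z ≤ 4
  hess : ∀ a, ∫ z in ball x (64 * ρ), mHessSq 4 (u a) z ∂(μHE[4] : Measure M) ≤
    ε₁ * (64 * ρ) ^ 2
  gram : ∀ a c, ∫ z in ball x (64 * ρ), |mGam 4 (u a) (u c) z - if a = c then 1 else 0|
    ∂(μHE[4] : Measure M) ≤ ε₁ * (64 * ρ) ^ 4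
  zero : ∀ a, u a x = 0

/-- START in the form of `Good1` -/
theorem exists_good1 {ε₁ : ℝ} (hε : 0 < ε₁) (hε1 : ε₁ ≤ 1) : ∃ s : ℝ, 0 < s ∧ s ≤ 1 ∧
    ∃ δ₀ : ℝ, 0 < δ₀ ∧ δ₀ ≤ 1 / 2 ∧
    ∀ {M : Type} [MetricSpace M] [CompleteSpace M] [ConnectedSpace M]
      [ChartedSpace (EuclideanSpace ℝ (Fin 4)) M]
      [IsManifold 𝓘(ℝ, EuclideanSpace ℝ (Fin 4)) ∞ M]
      [RiemannianBundle (fun x : M => TangentSpace 𝓘(ℝ, EuclideanSpace ℝ (Fin 4)) x)]
      [IsContMDiffRiemannianBundle 𝓘(ℝ, EuclideanSpace ℝ (Fin 4)) ∞ (EuclideanSpace ℝ (Fin 4))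
        (fun x : M => TangentSpace 𝓘(ℝ, EuclideanSpace ℝ (Fin 4)) x)]
      [IsRiemannianManifold 𝓘(ℝ, EuclideanSpace ℝ (Fin 4)) M]
      [MeasurableSpace M] [BorelSpace M] {x : M} {R ρ : ℝ}, 0 < ρ → 64 * ρ ≤ s * R →
      HasRicciLowerBound 4 M 0 →
      (∀ y ∈ ball x R, ∀ r : ℝ, 0 < r → r ≤ R →
        ENNReal.ofReal (1 - δ₀) * volume (ball (0 : EuclideanSpace ℝ (Fin 4)) r) ≤
          (μHE[4] : Measure M) (ball y r)) →
      ∃ u : Fin 4 → M → ℝ, Good1 x ρ ε₁ u := by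
  obtain ⟨s, hs0, hs1, δ₀, hδ0, hδ1, hst⟩ := Sta9_397.start.{0} hε
  refine ⟨s, hs0, by linarith, δ₀, hδ0, by linarith, ?_⟩
  intro M _ _ _ _ _ _ _ _ _ _ x R ρ hρ hρR hRic hpin
  have := HR216.properSpace_of_riemannian 4 M
  have := HR216.secondCountable_of_riemannian 4 M
  have : Nonempty M := ⟨x⟩
  -- the scale
  have hR' : 0 < 64 * ρ / s := by positivity
  have hR'R : 64 * ρ / s ≤ R := by rw [div_le_iff₀ hs0]; linarith
  have hsR : s * (64 * ρ / s) = 64 * ρ := by field_simp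
  obtain ⟨u, hu, -, hL, hH, hG, hsup⟩ := hst (q := x) hR' hRic
    (fun y hy r hr hrR => hpin y (ball_subset_ball hR'R hy) r hr (hrR.trans hR'R))
  rw [hsR] at hL hH hG hsup
  have h2 : ∀ a z, ContMDiffAt (𝓡 4) 𝓘(ℝ, ℝ) 2 (u a) z := fun a z =>
    (hu a z).of_le two_le_infty
  have hmd : ∀ a z, MDifferentiableAt (𝓡 4) 𝓘(ℝ, ℝ) (u a) z := fun a z =>
    (h2 a z).mdifferentiableAt (by norm_num)
  refine ⟨fun a z => u a z + (- u a x), ?_, ?_, ?_, ?_, ?_, ?_⟩
  · exact fun a => (hu a).add contMDiff_const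
  · intro a z hz
    rw [mLap_shift (h2 a z)]
    exact hL a z (ball_subset_ball (by linarith) hz)
  · intro a z hz
    rw [mGam_shift (hmd a z) (hmd a z)]
    have h3 := hsup z hz (fun b => if b = a then 1 else 0) (by simp)
    simp only [ite_mul, one_mul, zero_mul, mul_ite, mul_one, mul_zero, Finset.sum_ite_eq',
      Finset.mem_univ, if_true] at h3
    linarith
  · intro a
    refine le_trans (le_of_eq ?_) (hH a)
    exact setIntegral_congr_fun isOpen_ball.measurableSet fun z _ => mHessSq_shift (h2 a z) _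
  · intro a c
    refine le_trans (le_of_eq ?_) (hG a c)
    refine setIntegral_congr_fun isOpen_ball.measurableSet fun z _ => ?_
    show |mGam 4 (fun z => u a z + (- u a x)) (fun z => u c z + (- u c x)) z - _| = _
    rw [mGam_shift (hmd a z) (hmd c z)]
  · intro a
    show u a x + (- u a x) = 0
    ring

theorem exists_rho {s R lam ε₁ : ℝ} (hs : 0 < s) (hR : 0 < R) (hε : 0 < ε₁) :
    ∃ ρ : ℝ, 0 < ρ ∧ ρ ≤ 1 ∧ 64 * ρ ≤ s * R ∧ 64 * ρ ≤ R ∧ (|lam| + 1) ^ 2 * ρ ^ 4 ≤ ε₁ := by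
  obtain ⟨L, hL⟩ : ∃ L, L = (|lam| + 1) ^ 2 := ⟨_, rfl⟩
  have hL1 : 1 ≤ L := by rw [hL]; nlinarith [abs_nonneg lam]
  obtain ⟨ρ, hρ⟩ : ∃ ρ, ρ = min (min 1 (s * R / 64)) (min (R / 64) (ε₁ / L)) := ⟨_, rfl⟩
  have hρ0 : 0 < ρ := by
    rw [hρ]; exact lt_min (lt_min one_pos (by positivity)) (lt_min (by positivity) (by positivity))
  have h1 : ρ ≤ 1 := by rw [hρ]; exact (min_le_left _ _).trans (min_le_left _ _)
  have h2 : ρ ≤ s * R / 64 := by rw [hρ]; exact (min_le_left _ _).trans (min_le_right _ _)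
  have h3 : ρ ≤ R / 64 := by rw [hρ]; exact (min_le_right _ _).trans (min_le_left _ _)
  have h4 : ρ ≤ ε₁ / L := by rw [hρ]; exact (min_le_right _ _).trans (min_le_right _ _)
  refine ⟨ρ, hρ0, h1, by linarith, by linarith, ?_⟩
  rw [← hL]
  have h5 : ρ ^ 4 ≤ ρ := by
    have : ρ ^ 4 ≤ ρ ^ 1 := pow_le_pow_of_le_one hρ0.le h1 (by norm_num)
    simpa using this
  calc L * ρ ^ 4 ≤ L * (ε₁ / L) := mul_le_mul_of_nonneg_left (h5.trans h4) (by linarith)
    _ = ε₁ := by field_simp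

theorem exists_small_eta {ε₁ c₁ σ ρ : ℝ} (hε : 0 < ε₁) (hc : 0 < c₁) (hσ : 0 < σ) :
    ∃ η : ℝ, 0 < η ∧ √η ≤ ε₁ ∧ η ≤ σ ^ (2 * (3 / 4 : ℝ)) ∧
      ∀ s : ℝ, σ ≤ s → s ≤ 8 * ρ → √η * (1 + Real.log (8 * ρ / s)) ≤ c₁ := by
  obtain ⟨L, hL⟩ : ∃ L, L = 1 + |Real.log (8 * ρ / σ)| := ⟨_, rfl⟩
  have hL1 : 1 ≤ L := by rw [hL]; linarith [abs_nonneg (Real.log (8 * ρ / σ))]
  obtain ⟨q, hq⟩ : ∃ q, q = min (min ε₁ (c₁ / L)) (min 1 (σ ^ (2 * (3 / 4 : ℝ)))) := ⟨_, rfl⟩
  have hq0 : 0 < q := by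
    rw [hq]
    exact lt_min (lt_min hε (by positivity)) (lt_min one_pos (Real.rpow_pos_of_pos hσ _))
  have h1 : q ≤ ε₁ := by rw [hq]; exact (min_le_left _ _).trans (min_le_left _ _)
  have h2 : q ≤ c₁ / L := by rw [hq]; exact (min_le_left _ _).trans (min_le_right _ _)
  have h3 : q ≤ 1 := by rw [hq]; exact (min_le_right _ _).trans (min_le_left _ _)
  have h4 : q ≤ σ ^ (2 * (3 / 4 : ℝ)) := by
    rw [hq]; exact (min_le_right _ _).trans (min_le_right _ _)
  refine ⟨q ^ 2, by positivity, ?_, ?_, ?_⟩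
  · rw [Real.sqrt_sq hq0.le]; exact h1
  · have : q ^ 2 ≤ q * 1 := by rw [sq]; exact mul_le_mul_of_nonneg_left h3 hq0.le
    linarith
  · intro s hs hs8
    have hs0 : 0 < s := hσ.trans_le hs
    rw [Real.sqrt_sq hq0.le]
    have h5 : Real.log (8 * ρ / s) ≤ Real.log (8 * ρ / σ) := by
      have h8 : 0 < 8 * ρ := hs0.trans_le hs8
      refine Real.log_le_log (by positivity) ?_
      exact div_le_div_of_nonneg_left h8.le hσ hs
    have h6 : 1 + Real.log (8 * ρ / s) ≤ L := by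
      rw [hL]; linarith [le_abs_self (Real.log (8 * ρ / σ))]
    calc q * (1 + Real.log (8 * ρ / s)) ≤ q * L := mul_le_mul_of_nonneg_left h6 hq0.le
      _ ≤ c₁ / L * L := mul_le_mul_of_nonneg_right h2 (by linarith)
      _ = c₁ := by field_simp

set_option maxHeartbeats 2000000 in
/-- **START + DECAY along the sequence.** -/
theorem sdStmt : SDStmt := by
  intro ε hε
  obtain ⟨ε₁, C₁, c₁, hε₁, hε₁1, hC₁, hc₁, hone⟩ := sd_one hε
  obtain ⟨s, hs, hs1, δ₀, hδ0, hδ1, hgood⟩ := exists_good1 hε₁ hε₁1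
  refine ⟨δ₀, hδ0, ?_⟩
  intro M _ _ _ _ _ _ _ _ _ _ x lam lamk R hlam hR hlim hsec hpin
  obtain ⟨ρ, hρ, hρ1, hρs, hρR, hρl⟩ := exists_rho (lam := lam) hs hR hε₁
  have hprop : ∀ k, ProperSpace (M k) := fun k => HR216.properSpace_of_riemannian 4 (M k)
  have hsc : ∀ k, SecondCountableTopology (M k) := fun k =>
    HR216.secondCountable_of_riemannian 4 (M k)
  have hne : ∀ k, Nonempty (M k) := fun k => ⟨x k⟩
  have hric : ∀ᶠ k in om, HasRicciLowerBound 4 (M k) 0 := by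
    filter_upwards [hsec] with k hk using Alg2_104.ricBound_of_sec hk
  have hP1 := hpin 1 one_pos
  classical
  -- the functions
  have hex : ∀ᶠ k in om, ∃ u : Fin 4 → M k → ℝ, Good1 (x k) ρ ε₁ u := by
    filter_upwards [hric, hP1] with k hk hPk
    exact hgood hρ hρs hk hPk.1
  let u : ∀ k, Fin 4 → M k → ℝ := fun k =>
    if h : ∃ u : Fin 4 → M k → ℝ, Good1 (x k) ρ ε₁ u then h.choose else fun _ _ => 0
  have hu : ∀ᶠ k in om, Good1 (x k) ρ ε₁ (u k) := by
    filter_upwards [hex] with k hk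
    have : u k = hk.choose := by simp only [u, dif_pos hk]
    rw [this]
    exact hk.choose_spec
  have hlamk : ∀ᶠ k in om, lamk k ^ 2 * ρ ^ 4 ≤ ε₁ := by
    have h1 : ∀ᶠ k in om, |lamk k - lam| < 1 := by
      have := (tendsto_order.1 ((hlim.sub_const lam).abs)).2 1 (by simp)
      exact this
    filter_upwards [h1] with k hk
    have h2 : |lamk k| ≤ |lam| + 1 := by
      have := abs_add_le (lamk k - lam) lam
      rw [sub_add_cancel] at this
      linarith
    have h3 : lamk k ^ 2 ≤ (|lam| + 1) ^ 2 := by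
      rw [← sq_abs]; exact pow_le_pow_left₀ (abs_nonneg _) h2 2
    exact (mul_le_mul_of_nonneg_right h3 (by positivity)).trans hρl
  -- the decay, for every lower scale
  have hmain : ∀ σ : ℝ, 0 < σ → ∀ᶠ k in om,
      (∀ y ∈ ball (x k) (8 * ρ), ∀ r : ℝ, σ ≤ r → r ≤ 8 * ρ →
        ∫ z in ball y r, T2 4 (u k) z ∂(μHE[4] : Measure (M k)) ≤
          C₁ * (ρ⁻¹ ^ (2 * (3 / 4 : ℝ)) + 1) * r ^ (2 + 2 * (3 / 4 : ℝ)) ∧
        ∫ z in ball y r, Dv (u k) z ∂(μHE[4] : Measure (M k)) ≤ ε * r ^ 4) ∧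
      ∫ z in ball (x k) (8 * ρ), T2 4 (u k) z ^ 2 ∂(μHE[4] : Measure (M k)) ≤ C₁ := by
    intro σ hσ
    obtain ⟨η, hη0, hη1, hη2, hη3⟩ := exists_small_eta (ρ := ρ) hε₁ hc₁ hσ
    filter_upwards [hu, hsec, hpin η hη0, hlamk] with k hk hsk hPk hlk
    have hR64 : ball (x k) (64 * ρ) ⊆ ball (x k) R := ball_subset_ball hρR
    have hdev : ∫⁻ z in ball (x k) (64 * ρ), ENNReal.ofReal (mRicDev 4 (M k) (lamk k) z)
        ∂(μHE[4] : Measure (M k)) ≤ ENNReal.ofReal (√η ^ 2) := by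
      rw [Real.sq_sqrt hη0.le]
      exact (lintegral_mono_set hR64).trans hPk.2
    have hpk : ∀ y ∈ ball (x k) (64 * ρ), ∀ r : ℝ, 0 < r → r ≤ 64 * ρ →
        ENNReal.ofReal (1 / 2) * volume (ball (0 : EuclideanSpace ℝ (Fin 4)) r) ≤
          (μHE[4] : Measure (M k)) (ball y r) := by
      intro y hy r hr hr2
      refine le_trans ?_ (hPk.1 y (hR64 hy) r hr (hr2.trans hρR))
      gcongr
      linarith
    obtain ⟨g1, g2⟩ := hone hsk (x k) ρ (√η) (lamk k) (u k) hρ hpk hk.smooth hk.harm hk.grad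
      hk.hess hk.gram hdev (Real.sqrt_nonneg _) hη1 hlk
    refine ⟨fun y hy r hσr hr8 => ?_, g2⟩
    have hr0 : 0 < r := hσ.trans_le hσr
    obtain ⟨g3, g4⟩ := g1 y hy r hr0 hr8 (hη3 r hσr hr8)
    refine ⟨g3.trans ?_, g4⟩
    rw [Real.sq_sqrt hη0.le]
    have h1 : η ≤ r ^ (2 * (3 / 4 : ℝ)) :=
      hη2.trans (Real.rpow_le_rpow hσ.le hσr (by norm_num))
    have h2 : (r / ρ) ^ (2 * (3 / 4 : ℝ)) = ρ⁻¹ ^ (2 * (3 / 4 : ℝ)) * r ^ (2 * (3 / 4 : ℝ)) := by
      rw [div_eq_mul_inv, mul_comm, Real.mul_rpow (by positivity) hr0.le]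
    have h3 : r ^ (2 + 2 * (3 / 4 : ℝ)) = r ^ 2 * r ^ (2 * (3 / 4 : ℝ)) := by
      rw [Real.rpow_add hr0]
      norm_cast
    rw [h2, h3]
    have h4 : ρ⁻¹ ^ (2 * (3 / 4 : ℝ)) * r ^ (2 * (3 / 4 : ℝ)) + η ≤
        (ρ⁻¹ ^ (2 * (3 / 4 : ℝ)) + 1) * r ^ (2 * (3 / 4 : ℝ)) := by linarith
    calc C₁ * r ^ 2 * (ρ⁻¹ ^ (2 * (3 / 4 : ℝ)) * r ^ (2 * (3 / 4 : ℝ)) + η)
        ≤ C₁ * r ^ 2 * ((ρ⁻¹ ^ (2 * (3 / 4 : ℝ)) + 1) * r ^ (2 * (3 / 4 : ℝ))) :=
          mul_le_mul_of_nonneg_left h4 (by positivity)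
      _ = _ := by ring
  refine ⟨ρ, 3 / 4, C₁ * (ρ⁻¹ ^ (2 * (3 / 4 : ℝ)) + 1), u, by linarith, ?_⟩
  have hρi : 0 < ρ⁻¹ ^ (2 * (3 / 4 : ℝ)) := Real.rpow_pos_of_pos (by positivity) _
  refine
    { ρ_pos := hρ
      ρ_le := hρ1
      α_gt := by norm_num
      α_lt := by norm_num
      C_pos := by positivity
      ric := hric
      sec := hsec
      pinch := ?_
      smooth := ?_
      harm := ?_
      zero := ?_
      hess := ?_
      near := ?_
      l4 := ?_
      ricdev := ?_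
      lam_nonneg := hlam
      lamk_lim := hlim }
  · filter_upwards [hP1] with k hk y hy r hr hr2
    exact hk.1 y (ball_subset_ball (by linarith) hy) r hr (by linarith)
  · filter_upwards [hu] with k hk a
    exact (hk.smooth a).contMDiffOn
  · filter_upwards [hu] with k hk a p hp
    have hp' : p ∈ ball (x k) (64 * ρ) := ball_subset_ball (by linarith) hp
    exact ⟨hk.harm a p hp', hk.grad a p hp'⟩
  · filter_upwards [hu] with k hk a
    exact hk.zero a
  · intro σ hσ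
    filter_upwards [hmain σ hσ] with k hk y hy r hr1 hr2
    exact (hk.1 y hy r hr1 hr2).1
  · intro σ hσ
    filter_upwards [hmain σ hσ] with k hk y hy r hr1 hr2
    exact (hk.1 y hy r hr1 hr2).2
  · filter_upwards [hmain 1 one_pos, hu] with k hk huk
    have hci : ∀ (f : M k → ℝ), Continuous f →
        IntegrableOn f (ball (x k) (8 * ρ)) (μHE[4] : Measure (M k)) := fun f hf => by
      have := isLocallyFinite_muHE 4 (M k)
      exact (hf.continuousOn.integrableOn_compact (isCompact_closedBall (x k) (8 * ρ))).mono_set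
        ball_subset_closedBall
    have hcm : ∀ a, Continuous (mHessSq 4 (u k a)) := fun a =>
      continuous_iff_continuousAt.2 fun z =>
        Bs84.continuousAt_mHessSq ((huk.smooth a z).of_le two_le_infty)
    have hnn : ∀ a z, 0 ≤ mHessSq 4 (u k a) z := fun a z => by
      rw [← norm_Hf_sq ((huk.smooth a z).of_le two_le_infty)]; positivity
    have h1 : ∫ z in ball (x k) (8 * ρ), ∑ a, mHessSq 4 (u k a) z ^ 2
        ∂(μHE[4] : Measure (M k)) ≤
        ∫ z in ball (x k) (8 * ρ), T2 4 (u k) z ^ 2 ∂(μHE[4] : Measure (M k)) := by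
      refine integral_mono (hci _ (continuous_finsetSum _ fun a _ => (hcm a).pow 2))
        (hci _ ((continuous_finsetSum _ fun a _ => hcm a).pow 2)) fun z => ?_
      exact Finset.sum_sq_le_sq_sum_of_nonneg fun a _ => hnn a z
    refine h1.trans (hk.2.trans ?_)
    nlinarith
  · rw [ENNReal.tendsto_nhds_zero]
    intro b hb
    rcases eq_or_ne b ⊤ with hbt | hbt
    · exact Eventually.of_forall fun k => hbt ▸ le_top
    · have hb' : 0 < b.toReal := ENNReal.toReal_pos hb.ne' hbt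
      filter_upwards [hpin b.toReal hb'] with k hk
      refine (lintegral_mono_set (ball_subset_ball (by linarith))).trans (hk.2.trans ?_)
      rw [ENNReal.ofReal_toReal hbt]

end Crest.Agent.R249.SD308
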