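import Crest.Agent.R249.Bia3_104
import Crest.Agent.R247.Bs1_84

-- ▼ part R249/Bia4_104
section

/-!
# R249, D1 (helper104): the divergence of `Ric(∇f)`

* `contDiffAt_ricci`, `contDiffAt_scalarCurv`, `contDiffAt_ricE` : smoothness;
* `fderiv_scal` : `ds(V) = Σ_b (∇_V Ric)(e_b, e_b)`;
* `divg_ricE` : `div (Ric ∇f) = ½ ⟨ds, df⟩ + tr (Ric ∘ Hess f)`;
* `divg_key` : `div (Ric ∇f - ½ s ∇f) = tr (Ric ∘ Hess f) - ½ s Δ f`.
-/

set_option autoImplicit false
set_option maxSynthPendingDepth 3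

open scoped ContDiff Topology
open Filter Set
open Crest.GeometryTopology.CoordMetric Crest.GeometryTopology.ChartCurvature
  Crest.GeometryTopology.RicciEnergy
open Crest.Agent.R202.Tens Crest.Agent.R247.Bo84

noncomputable section

namespace Crest.Agent.R249.Bia4_104

open Crest.Agent.R249.Bia1_104 Crest.Agent.R249.Bia2_104 Crest.Agent.R249.Bia3_104

variable {n : ℕ}

local notation "𝔼" => EuclideanSpace ℝ (Fin n)

variable {g : MetricField n} {U : Set (EuclideanSpace ℝ (Fin n))} {x : EuclideanSpace ℝ (Fin n)}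

/-! ### smoothness -/

lemma contDiffAt_christoffel (hg : IsRiemannianOn g U) (hx : x ∈ U) (k i j : Fin n) :
    ContDiffAt ℝ ∞ (fun y => christoffel g y k i j) x :=
  (contDiffOn_christoffel hg k i j).contDiffAt (hg.isOpen.mem_nhds hx)

lemma contDiffAt_pderiv_inf {f : 𝔼 → ℝ} (hf : ContDiffAt ℝ ∞ f x) (i : Fin n) :
    ContDiffAt ℝ ∞ (pderiv i f) x := contDiffAt_pderiv hf (by norm_cast) i

lemma contDiffAt_ricci (hg : IsRiemannianOn g U) (hx : x ∈ U) (i j : Fin n) :
    ContDiffAt ℝ ∞ (fun y => ricci g y i j) x := by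
  unfold ricci
  have h := contDiffAt_christoffel hg hx
  refine ContDiffAt.sub (ContDiffAt.add (ContDiffAt.sub ?_ ?_) ?_) ?_
  · exact ContDiffAt.sum fun k _ => contDiffAt_pderiv_inf (h k i j) k
  · exact contDiffAt_pderiv_inf (ContDiffAt.sum fun k _ => h k k i) j
  · exact ContDiffAt.sum fun k _ => ContDiffAt.sum fun l _ => (h k k l).mul (h l i j)
  · exact ContDiffAt.sum fun k _ => ContDiffAt.sum fun l _ => (h k j l).mul (h l k i)

lemma contDiffAt_scalarCurv (hg : IsRiemannianOn g U) (hx : x ∈ U) :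
    ContDiffAt ℝ ∞ (scalarCurv g) x := by
  unfold scalarCurv
  exact ContDiffAt.sum fun i _ => ContDiffAt.sum fun j _ =>
    (contDiffAt_inv hg hx i j).mul (contDiffAt_ricci hg hx i j)

lemma contDiffAt_ricE (hg : IsRiemannianOn g U) (hx : x ∈ U) :
    ContDiffAt ℝ ∞ (ricE g) x := by
  unfold ricE
  refine ContDiffAt.sum fun i _ => ContDiffAt.sum fun k _ => ?_
  exact (ContDiffAt.sum fun j _ => (contDiffAt_inv hg hx i j).mul
    (contDiffAt_ricci hg hx j k)).smul contDiffAt_const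

lemma differentiableAt_ricE (hg : IsRiemannianOn g U) (hx : x ∈ U) :
    DifferentiableAt ℝ (ricE g) x := (contDiffAt_ricE hg hx).differentiableAt (by simp)

/-! ### covariant derivative of the Ricci endomorphism -/

/-- `(∇_V P) X` for the Ricci endomorphism `P`. -/
def covE (g : MetricField n) (x V X : EuclideanSpace ℝ (Fin n)) : EuclideanSpace ℝ (Fin n) :=
  fderiv ℝ (ricE g) x V X + Gam g x V (ricE g x X) - ricE g x (Gam g x V X)

lemma bil_covE (hg : IsRiemannianOn g U) (hx : x ∈ U) (V X Y : 𝔼) :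
    bil (g x) (covE g x V X) Y = covRic g x V X Y := by
  have hP : DifferentiableAt ℝ (fun y => ricE g y X) x :=
    (differentiableAt_ricE hg hx).clm_apply (differentiableAt_const _)
  have h1 := fderiv_bil hg hx hP (differentiableAt_const Y) V
  have h2 : (fun y => bil (g y) (ricE g y X) Y) =ᶠ[𝓝 x] fun y => ricF g y X Y := by
    filter_upwards [hg.isOpen.mem_nhds hx] with y hy using bil_ricE hg hy X Y
  have h3 : fderiv ℝ (fun y => ricE g y X) x V = fderiv ℝ (ricE g) x V X := by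
    rw [fderiv_clm_apply (differentiableAt_ricE hg hx) (differentiableAt_const _)]
    simp
  rw [h2.fderiv_eq] at h1
  simp only [cov_apply, fderiv_fun_const, Pi.zero_apply, zero_apply, zero_add] at h1
  rw [h3] at h1
  rw [covRic, h1, covE]
  simp only [map_add, map_sub, add_apply, sub_apply]
  rw [bil_ricE hg hx, bil_ricE hg hx]
  ring

lemma covE_add2 (g : MetricField n) (x V X X' : 𝔼) :
    covE g x V (X + X') = covE g x V X + covE g x V X' := by
  simp only [covE, map_add]; abel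

lemma covE_smul2 (g : MetricField n) (c : ℝ) (x V X : 𝔼) :
    covE g x V (c • X) = c • covE g x V X := by
  simp only [covE, map_smul, smul_add, smul_sub]

lemma covE_add1 (g : MetricField n) (x V V' X : 𝔼) :
    covE g x (V + V') X = covE g x V X + covE g x V' X := by
  simp only [covE, map_add, add_apply]; abel

lemma covE_smul1 (g : MetricField n) (c : ℝ) (x V X : 𝔼) :
    covE g x (c • V) X = c • covE g x V X := by
  simp only [covE, map_smul, smul_apply, smul_add, smul_sub]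

/-- the derivative of the scalar curvature -/
lemma fderiv_scal (hg : IsRiemannianOn g U) (hx : x ∈ U) {ξ : Fin n → 𝔼}
    (h : IsFrame (g x) ξ) (V : 𝔼) :
    fderiv ℝ (scalarCurv g) x V = ∑ b, covRic g x V (ξ b) (ξ b) := by
  have h1 : scalarCurv g =ᶠ[𝓝 x] fun y => trL (ricE g y) := by
    filter_upwards [hg.isOpen.mem_nhds hx] with y hy using (trL_ricE g y hg hy).symm
  have h2 : fderiv ℝ (fun y => trL (ricE g y)) x = (trL (n := n)).comp (fderiv ℝ (ricE g) x) :=
    ((trL (n := n)).hasFDerivAt.comp x (differentiableAt_ricE hg hx).hasFDerivAt).fderiv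
  have h3 : trL (fderiv ℝ (ricE g) x V) = trF (covE g x V) := by
    have e : covE g x V = fun X => (fderiv ℝ (ricE g) x V X + (Gam g x V).comp (ricE g x) X)
        - (ricE g x).comp (Gam g x V) X := rfl
    rw [e, trF_sub, trF_add, trF_eq_trL, trF_eq_trL, trF_eq_trL,
      trL_comp_comm (Gam g x V) (ricE g x)]
    ring
  rw [h1.fderiv_eq, h2, ContinuousLinearMap.comp_apply, h3,
    trF_frame hg hx h (covE_add2 g x V) (fun c X => covE_smul2 g c x V X)]
  exact Finset.sum_congr rfl fun b _ => bil_covE hg hx _ _ _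

/-- the divergence of the Ricci endomorphism is half of the differential of the scalar curvature -/
lemma trF_covE (hg : IsRiemannianOn g U) (hx : x ∈ U) (Z : 𝔼) :
    trF (fun W => covE g x W Z) = (1 / 2) * fderiv ℝ (scalarCurv g) x Z := by
  obtain ⟨ξ, h⟩ := exists_frame hg hx
  rw [trF_frame hg hx h (T := fun W => covE g x W Z) (fun W W' => covE_add1 g x W W' Z)
    (fun c W => covE_smul1 g c x W Z), fderiv_scal hg hx h, ← contracted hg hx h]
  simp only [bil_covE hg hx]
  ring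

/-- **divergence of `Ric(∇ f)`.** -/
theorem divg_ricE (hg : IsRiemannianOn g U) (hx : x ∈ U) {f : 𝔼 → ℝ} (hf : ContDiffAt ℝ 2 f x) :
    divg g (fun y => ricE g y (grad g f y)) x =
      (1 / 2) * gam g (scalarCurv g) f x + trL ((ricE g x).comp (hessE g f x)) := by
  have hgr : DifferentiableAt ℝ (grad g f) x :=
    (contDiffAt_grad hg hx (m := 1) hf (by norm_num) (by simp)).differentiableAt (by norm_num)
  have hP := differentiableAt_ricE hg hx
  have hV : DifferentiableAt ℝ (fun y => ricE g y (grad g f y)) x := hP.clm_apply hgr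
  rw [divg_eq_trL hg hx hV, ← trF_eq_trL]
  have e : (fun W => cov g (fun y => ricE g y (grad g f y)) x W) = fun W =>
      covE g x W (grad g f x) + (ricE g x).comp (hessE g f x) W := by
    funext W
    rw [cov_apply, fderiv_clm_apply hP hgr]
    simp only [add_apply, ContinuousLinearMap.comp_apply, ContinuousLinearMap.flip_apply, covE,
      hessE_apply]
    change ricE g x (fderiv ℝ (grad g f) x W) + fderiv ℝ (ricE g) x W (grad g f x) +
      Gam g x W (ricE g x (grad g f x)) = fderiv ℝ (ricE g) x W (grad g f x) +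
      Gam g x W (ricE g x (grad g f x)) - ricE g x (Gam g x W (grad g f x)) +
      ricE g x (fderiv ℝ (grad g f) x W + Gam g x W (grad g f x))
    rw [map_add]
    abel
  rw [e, trF_add, trF_covE hg hx, trF_eq_trL, ← gam_eq_fderiv_grad]

/-- divergence of `φ ∇ f` -/
lemma divg_smul_grad (hg : IsRiemannianOn g U) (hx : x ∈ U) {f φ : 𝔼 → ℝ}
    (hf : ContDiffAt ℝ 2 f x) (hφ : DifferentiableAt ℝ φ x) :
    divg g (fun y => φ y • grad g f y) x = gam g φ f x + φ x * laplaceBeltrami g f x := by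
  have hgr : DifferentiableAt ℝ (grad g f) x :=
    (contDiffAt_grad hg hx (m := 1) hf (by norm_num) (by simp)).differentiableAt (by norm_num)
  rw [divg_eq_trL hg hx (hφ.fun_smul hgr), lap_eq_trL hg hx hf, ← trF_eq_trL, ← trF_eq_trL]
  have e : (fun W => cov g (fun y => φ y • grad g f y) x W) = fun W =>
      (fderiv ℝ φ x W • grad g f x) + φ x • hessE g f x W := by
    funext W
    rw [cov_apply, hessE_apply, fderiv_fun_smul hφ hgr]
    simp only [add_apply, smul_apply, ContinuousLinearMap.smulRight_apply, map_smul, smul_add]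
    abel
  rw [e, trF_add, gam_eq_fderiv_grad, fderiv_eq_sum φ x (grad g f x)]
  congr 1
  · simp only [trF, PiLp.smul_apply, smul_eq_mul]
    refine Finset.sum_congr rfl fun k _ => ?_
    rw [mul_comm]; rfl
  · simp only [trF, PiLp.smul_apply, smul_eq_mul, Finset.mul_sum]

/-- **the key divergence identity** (contracted Bianchi): `div (Ric ∇f - ½ s ∇f) =
tr (Ric ∘ Hess f) - ½ s Δ f`. -/
theorem divg_key (hg : IsRiemannianOn g U) (hx : x ∈ U) {f : 𝔼 → ℝ} (hf : ContDiffAt ℝ 2 f x) :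
    divg g (fun y => ricE g y (grad g f y) - ((1 / 2) * scalarCurv g y) • grad g f y) x =
      trL ((ricE g x).comp (hessE g f x)) -
        (1 / 2) * scalarCurv g x * laplaceBeltrami g f x := by
  have hgr : DifferentiableAt ℝ (grad g f) x :=
    (contDiffAt_grad hg hx (m := 1) hf (by norm_num) (by simp)).differentiableAt (by norm_num)
  have hP := differentiableAt_ricE hg hx
  have hV : DifferentiableAt ℝ (fun y => ricE g y (grad g f y)) x := hP.clm_apply hgr
  have hs : DifferentiableAt ℝ (fun y => (1 / 2) * scalarCurv g y) x :=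
    ((contDiffAt_scalarCurv hg hx).differentiableAt (by simp)).const_mul _
  have hW : DifferentiableAt ℝ (fun y => ((1 / 2) * scalarCurv g y) • grad g f y) x :=
    hs.smul hgr
  have h1 := divg_ricE hg hx hf
  have h2 := divg_smul_grad hg hx hf hs
  rw [divg_eq_trL hg hx hV] at h1
  rw [divg_eq_trL hg hx hW] at h2
  rw [divg_eq_trL hg hx (hV.fun_sub hW)]
  have e : cov g (fun y => ricE g y (grad g f y) - ((1 / 2) * scalarCurv g y) • grad g f y) x =
      cov g (fun y => ricE g y (grad g f y)) x -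
        cov g (fun y => ((1 / 2) * scalarCurv g y) • grad g f y) x := by
    ext1 W
    rw [sub_apply, cov_apply, cov_apply, cov_apply, fderiv_fun_sub hV hW]
    simp only [sub_apply, map_sub]
    abel
  have h3 : gam g (fun y => (1 / 2) * scalarCurv g y) f x =
      (1 / 2) * gam g (scalarCurv g) f x := by
    rw [gam_eq_fderiv_grad, gam_eq_fderiv_grad,
      fderiv_const_mul ((contDiffAt_scalarCurv hg hx).differentiableAt (by simp)), smul_apply,
      smul_eq_mul]
  rw [h3] at h2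
  rw [e, map_sub, h1, h2]
  ring

end Crest.Agent.R249.Bia4_104
end
end

-- ▼ part R249/Sch1_104

/-!
# R249, D1 (helper104): Ricci and scalar curvature in the measurable orthonormal frame

With `Ricf z`, `Hf u z : S n` (matrices in the frame `fr z`, `R247.Bs1_84`):
* `tr_Ricf` : `tr (Ricf z) = mScal n M z`; `norm_Ricf_sq`; `Ricf_symm`;
* `mRicDev_eq` : `mRicDev n M c z = ‖Ricf z - c • idm n‖²`;
* `density_eq` : `tracefreeRicciDensity n M z = ‖Ricf z‖² - (mScal n M z)² / n`;
* `scalarCurv_chart`, `trL_chart` : the scalar curvature and `tr (Ric ∘ Hess f)` in every chart;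
* `contMDiff_mScal`.
-/

set_option autoImplicit false
set_option maxSynthPendingDepth 3
set_option linter.unusedSectionVars false

open scoped ContDiff Topology Manifold RealInnerProductSpace
open Filter Set Bundle
open Crest.GeometryTopology.CoordMetric Crest.GeometryTopology.ChartCurvature
  Crest.GeometryTopology.PointedLimit Crest.GeometryTopology.RicciEnergy
open Crest.Agent.R202.Tens Crest.Agent.R247.Bo84 Crest.Agent.R247.Ms322
open Crest.Agent.R247.Hes124 (F S mv tr idm)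
open Crest.Agent.R247.Bs84
open Crest.Agent.R249.Bia3_104 Crest.Agent.R249.Bia4_104 Crest.Agent.R249.D1Def104

noncomputable section

namespace Crest.Agent.R249.Sch1_104

/-! ### coordinate facts in a frame -/

section coord
variable {n : ℕ}

local notation "𝔼" => EuclideanSpace ℝ (Fin n)

variable {g : MetricField n} {U : Set (EuclideanSpace ℝ (Fin n))} {x : EuclideanSpace ℝ (Fin n)}

/-- the bilinear form `Σ ricci i j u_i v_j` is the Ricci form. -/
lemma ricF_eq' (hg : IsRiemannianOn g U) (hx : x ∈ U) (X Y : 𝔼) :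
    ricF g x X Y = ∑ i, ∑ j, ricci g x i j * X i * Y j := by
  rw [ricF_symm hg hx, ricF_eq hg hx]

lemma scal_frame (hg : IsRiemannianOn g U) (hx : x ∈ U) {ξ : Fin n → 𝔼}
    (h : IsFrame (g x) ξ) : scalarCurv g x = ∑ a, ricF g x (ξ a) (ξ a) := by
  rw [← trL_ricE g x hg hx, h.trL_eq hg hx]
  exact Finset.sum_congr rfl fun a _ => bil_ricE hg hx _ _

lemma trL_frame (hg : IsRiemannianOn g U) (hx : x ∈ U) {f : 𝔼 → ℝ} (hf : ContDiffAt ℝ 2 f x)
    {ξ : Fin n → 𝔼} (h : IsFrame (g x) ξ) :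
    trL ((ricE g x).comp (hessE g f x)) =
      ∑ a, ∑ b, ricF g x (ξ a) (ξ b) * hess g f x (ξ a) (ξ b) := by
  rw [h.trL_eq hg hx]
  refine Finset.sum_congr rfl fun a _ => ?_
  rw [ContinuousLinearMap.comp_apply, bil_ricE hg hx, ricF_symm hg hx, ← bil_ricE hg hx,
    h.bil_eq hg hx]
  refine Finset.sum_congr rfl fun b _ => ?_
  rw [bil_ricE hg hx, bil_hessE hg hx hf]

/-- `Σ g^{ia} g^{jb} E_ij E_ab` in a frame. -/
lemma normSq_frame {ξ : Fin n → 𝔼} (h : IsFrame (g x) ξ) (E : Fin n → Fin n → ℝ) :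
    ∑ i, ∑ j, ∑ a, ∑ b, inverseField g x i a * inverseField g x j b * E i j * E a b =
      ∑ c, ∑ d, (∑ i, ∑ j, E i j * ξ c i * ξ d j) ^ 2 := by
  have h1 : ∀ i a : Fin n, inverseField g x i a = ∑ c, ξ c i * ξ c a := h.inv
  simp only [h1]
  have h2 : ∀ c d : Fin n, (∑ i, ∑ j, E i j * ξ c i * ξ d j) ^ 2 =
      ∑ i, ∑ j, ∑ a, ∑ b, (E i j * ξ c i * ξ d j) * (E a b * ξ c a * ξ d b) := by
    intro c d
    rw [sq, Finset.sum_mul]
    refine Finset.sum_congr rfl fun i _ => ?_
    rw [Finset.sum_mul]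
    refine Finset.sum_congr rfl fun j _ => ?_
    rw [Finset.mul_sum]
    refine Finset.sum_congr rfl fun a _ => ?_
    rw [Finset.mul_sum]
  simp only [h2]
  -- move the frame sums inside
  have h3 : ∀ i j a b : Fin n, (∑ c, ξ c i * ξ c a) * (∑ c, ξ c j * ξ c b) * E i j * E a b =
      ∑ c, ∑ d, (E i j * ξ c i * ξ d j) * (E a b * ξ c a * ξ d b) := by
    intro i j a b
    rw [Finset.sum_mul_sum, Finset.sum_mul, Finset.sum_mul]
    refine Finset.sum_congr rfl fun c _ => ?_
    rw [Finset.sum_mul, Finset.sum_mul]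
    refine Finset.sum_congr rfl fun d _ => by ring
  simp only [h3]
  rw [Finset.sum_comm' (t' := Finset.univ) (s' := fun _ => Finset.univ) (by simp)]
  have key : ∀ (G : Fin n → Fin n → Fin n → Fin n → Fin n → Fin n → ℝ),
      ∑ j, ∑ i, ∑ a, ∑ b, ∑ c, ∑ d, G i j a b c d =
        ∑ c, ∑ d, ∑ i, ∑ j, ∑ a, ∑ b, G i j a b c d := by
    intro G
    have e1 : ∀ i j, ∑ a, ∑ b, ∑ c, ∑ d, G i j a b c d = ∑ c, ∑ d, ∑ a, ∑ b, G i j a b c d := by
      intro i j
      calc ∑ a, ∑ b, ∑ c, ∑ d, G i j a b c d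
          = ∑ a, ∑ c, ∑ b, ∑ d, G i j a b c d :=
            Finset.sum_congr rfl fun a _ => Finset.sum_comm
        _ = ∑ c, ∑ a, ∑ b, ∑ d, G i j a b c d := Finset.sum_comm
        _ = ∑ c, ∑ a, ∑ d, ∑ b, G i j a b c d :=
            Finset.sum_congr rfl fun c _ => Finset.sum_congr rfl fun a _ => Finset.sum_comm
        _ = ∑ c, ∑ d, ∑ a, ∑ b, G i j a b c d :=
            Finset.sum_congr rfl fun c _ => Finset.sum_comm
    simp only [e1]
    calc ∑ j, ∑ i, ∑ c, ∑ d, ∑ a, ∑ b, G i j a b c d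
        = ∑ i, ∑ j, ∑ c, ∑ d, ∑ a, ∑ b, G i j a b c d := Finset.sum_comm
      _ = ∑ i, ∑ c, ∑ j, ∑ d, ∑ a, ∑ b, G i j a b c d :=
          Finset.sum_congr rfl fun i _ => Finset.sum_comm
      _ = ∑ c, ∑ i, ∑ j, ∑ d, ∑ a, ∑ b, G i j a b c d := Finset.sum_comm
      _ = ∑ c, ∑ i, ∑ d, ∑ j, ∑ a, ∑ b, G i j a b c d :=
          Finset.sum_congr rfl fun c _ => Finset.sum_congr rfl fun i _ => Finset.sum_comm
      _ = ∑ c, ∑ d, ∑ i, ∑ j, ∑ a, ∑ b, G i j a b c d :=
          Finset.sum_congr rfl fun c _ => Finset.sum_comm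
  exact key fun i j a b c d => (E i j * ξ c i * ξ d j) * (E a b * ξ c a * ξ d b)

lemma ricDev_frame (hg : IsRiemannianOn g U) (hx : x ∈ U) {ξ : Fin n → 𝔼}
    (h : IsFrame (g x) ξ) (c : ℝ) :
    ricDev c g x = ∑ a, ∑ b, (ricF g x (ξ a) (ξ b) - c * (if a = b then 1 else 0)) ^ 2 := by
  unfold ricDev
  rw [normSq_frame h (fun i j => ricci g x i j - c * g x i j)]
  refine Finset.sum_congr rfl fun a _ => Finset.sum_congr rfl fun b _ => ?_
  congr 1
  rw [ricF_eq' hg hx, ← h.orth a b, bil_apply, Finset.mul_sum, ← Finset.sum_sub_distrib]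
  refine Finset.sum_congr rfl fun i _ => ?_
  rw [Finset.mul_sum, ← Finset.sum_sub_distrib]
  refine Finset.sum_congr rfl fun j _ => by ring


end coord

/-! ### on the manifold -/

variable {n : ℕ} {M : Type*} [MetricSpace M] [ChartedSpace (EuclideanSpace ℝ (Fin n)) M]
  [IsManifold (𝓡 n) ∞ M]
  [RiemannianBundle (fun p : M => TangentSpace (𝓡 n) p)]
  [IsContMDiffRiemannianBundle (𝓡 n) ∞ (EuclideanSpace ℝ (Fin n))
    (fun p : M => TangentSpace (𝓡 n) p)]
  [SecondCountableTopology M] [Nonempty M]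

local notation "𝔼" => EuclideanSpace ℝ (Fin n)

/-- the frame `fr z` read in the chart at `x₀` -/
def frc (x₀ z : M) (a : Fin n) : EuclideanSpace ℝ (Fin n) := dCh x₀ z (fr z a)

lemma isFrame_frc (x₀ : M) {y : 𝔼} (hy : y ∈ (chartAt 𝔼 x₀).target) :
    IsFrame (chartMetric n M x₀ y) (frc x₀ ((chartAt 𝔼 x₀).symm y)) := by
  refine isFrame_of_orth (g := chartMetric n M x₀) (x := y) fun a b => ?_
  have h1 := inner_eq_bil x₀ ((chartAt 𝔼 x₀).map_target hy)
    (fr ((chartAt 𝔼 x₀).symm y) a) (fr ((chartAt 𝔼 x₀).symm y) b)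
  rw [(chartAt 𝔼 x₀).right_inv hy] at h1
  rw [← fr_orth ((chartAt 𝔼 x₀).symm y) a b]
  exact h1.symm

lemma dSy_frc (x₀ : M) {y : 𝔼} (hy : y ∈ (chartAt 𝔼 x₀).target) (a : Fin n) :
    dSy x₀ y (frc x₀ ((chartAt 𝔼 x₀).symm y) a) = fr ((chartAt 𝔼 x₀).symm y) a := by
  have h1 := dSy_dCh x₀ ((chartAt 𝔼 x₀).map_target hy) (fr ((chartAt 𝔼 x₀).symm y) a)
  rw [(chartAt 𝔼 x₀).right_inv hy] at h1
  exact h1

/-- the Ricci form in the frame is the Ricci form in the chart -/
lemma ricF_frc (x₀ : M) {y : 𝔼} (hy : y ∈ (chartAt 𝔼 x₀).target) (a b : Fin n) :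
    ricF (chartMetric n M x₀) y (frc x₀ ((chartAt 𝔼 x₀).symm y) a)
      (frc x₀ ((chartAt 𝔼 x₀).symm y) b) = Ricf (n := n) ((chartAt 𝔼 x₀).symm y) (a, b) := by
  rw [ricF_eq' (Crest.Agent.R247.Bo84.isRiemannianOn_chartMetric (n := n) x₀) hy, ← mRic_chart hy, dSy_frc x₀ hy,
    dSy_frc x₀ hy, Ricf_apply]

lemma hess_frc (x₀ : M) {y : 𝔼} (hy : y ∈ (chartAt 𝔼 x₀).target) {f : M → ℝ}
    (hf : ContMDiffAt (𝓡 n) 𝓘(ℝ, ℝ) 2 f ((chartAt 𝔼 x₀).symm y)) (a b : Fin n) :
    hess (chartMetric n M x₀) (inCh n x₀ f) y (frc x₀ ((chartAt 𝔼 x₀).symm y) a)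
      (frc x₀ ((chartAt 𝔼 x₀).symm y) b) = Hf (n := n) f ((chartAt 𝔼 x₀).symm y) (a, b) := by
  rw [← mHess_chart hy hf, dSy_frc x₀ hy, dSy_frc x₀ hy, Hf_apply]

lemma inner_S (A B : S n) : ⟪A, B⟫ = ∑ a, ∑ b, A (a, b) * B (a, b) := by
  rw [PiLp.inner_apply, Fintype.sum_prod_type]
  refine Finset.sum_congr rfl fun a _ => Finset.sum_congr rfl fun b _ => ?_
  simp only [RCLike.inner_apply, conj_trivial]
  ring

lemma centre_symm (z : M) : (chartAt 𝔼 z).symm (chartCentre n M z) = z :=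
  (chartAt 𝔼 z).left_inv (mem_chart_source 𝔼 z)

/-- the scalar curvature in every chart -/
theorem scalarCurv_chart (x₀ : M) {y : 𝔼} (hy : y ∈ (chartAt 𝔼 x₀).target) :
    scalarCurv (chartMetric n M x₀) y = tr (Ricf (n := n) ((chartAt 𝔼 x₀).symm y)) := by
  rw [scal_frame (Crest.Agent.R247.Bo84.isRiemannianOn_chartMetric (n := n) x₀) hy (isFrame_frc x₀ hy)]
  exact Finset.sum_congr rfl fun a _ => ricF_frc x₀ hy a a

theorem tr_Ricf (z : M) : tr (Ricf (n := n) z) = mScal n M z := by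
  have h := scalarCurv_chart z (centre_mem (n := n) z)
  rw [centre_symm] at h
  exact h.symm

theorem mScal_chart (x₀ : M) {y : 𝔼} (hy : y ∈ (chartAt 𝔼 x₀).target) :
    mScal n M ((chartAt 𝔼 x₀).symm y) = scalarCurv (chartMetric n M x₀) y := by
  rw [scalarCurv_chart x₀ hy, tr_Ricf]

/-- `tr (Ric ∘ Hess f)` in every chart -/
theorem trL_chart (x₀ : M) {y : 𝔼} (hy : y ∈ (chartAt 𝔼 x₀).target) {f : M → ℝ}
    (hf : ContMDiffAt (𝓡 n) 𝓘(ℝ, ℝ) 2 f ((chartAt 𝔼 x₀).symm y)) :
    trL ((ricE (chartMetric n M x₀) y).comp (hessE (chartMetric n M x₀) (inCh n x₀ f) y)) =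
      ⟪Ricf (n := n) ((chartAt 𝔼 x₀).symm y), Hf (n := n) f ((chartAt 𝔼 x₀).symm y)⟫ := by
  rw [trL_frame (Crest.Agent.R247.Bo84.isRiemannianOn_chartMetric (n := n) x₀) hy (contDiffAt_inCh two_le_infty hy hf)
    (isFrame_frc x₀ hy), inner_S]
  exact Finset.sum_congr rfl fun a _ => Finset.sum_congr rfl fun b _ => by
    rw [ricF_frc x₀ hy, hess_frc x₀ hy hf]


/-- `|Ric - c g|²` in the frame -/
theorem mRicDev_eq (c : ℝ) (z : M) : mRicDev n M c z = ‖Ricf (n := n) z - c • idm n‖ ^ 2 := by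
  have h1 := ricDev_frame (Crest.Agent.R247.Bo84.isRiemannianOn_chartMetric (n := n) z) (centre_mem (n := n) z)
    (isFrame_frc z (centre_mem (n := n) z)) c
  rw [mRicDev, h1, Crest.Agent.R247.Hes124.norm_sq_S]
  refine Finset.sum_congr rfl fun a _ => Finset.sum_congr rfl fun b _ => ?_
  rw [ricF_frc z (centre_mem (n := n) z), centre_symm]
  rfl

theorem mRicDev_expand (c : ℝ) (z : M) :
    mRicDev n M c z = ‖Ricf (n := n) z‖ ^ 2 - 2 * c * mScal n M z + c ^ 2 * n := by
  rw [mRicDev_eq, norm_sub_sq_real, norm_smul, mul_pow, Crest.Agent.R247.Hes124.norm_idm_sq,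
    inner_smul_right, Crest.Agent.R247.Hes124.inner_idm, tr_Ricf, Real.norm_eq_abs, sq_abs]
  ring

theorem density_eq (hn : n ≠ 0) (z : M) : tracefreeRicciDensity n M z =
    ‖Ricf (n := n) z‖ ^ 2 - mScal n M z ^ 2 / n := by
  have h1 : tracefreeRicciDensity n M z = mRicDev n M (mScal n M z / n) z := rfl
  have hn' : (n : ℝ) ≠ 0 := by exact_mod_cast hn
  rw [h1, mRicDev_expand]
  field_simp
  ring

theorem density_nonneg (z : M) : 0 ≤ tracefreeRicciDensity n M z := by
  have h1 : tracefreeRicciDensity n M z = mRicDev n M (mScal n M z / n) z := rfl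
  rw [h1, mRicDev_eq]
  positivity

theorem mRicDev_nonneg (c : ℝ) (z : M) : 0 ≤ mRicDev n M c z := by
  rw [mRicDev_eq]; positivity

/-- `|Ric - c g|² = |Ric₀|² + (s - n c)² / n`. -/
theorem mRicDev_split (hn : n ≠ 0) (c : ℝ) (z : M) : mRicDev n M c z =
    tracefreeRicciDensity n M z + (mScal n M z - n * c) ^ 2 / n := by
  have hn' : (n : ℝ) ≠ 0 := by exact_mod_cast hn
  rw [mRicDev_expand, density_eq hn]
  field_simp
  ring

/-- the scalar curvature is smooth -/
theorem contMDiff_mScal : ContMDiff (𝓡 n) 𝓘(ℝ, ℝ) ∞ (mScal n M) := by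
  intro p
  refine contMDiffAt_of_inCh le_rfl (mem_chart_source 𝔼 p) ?_
  have h1 : inCh n p (mScal n M) =ᶠ[𝓝 (chartAt 𝔼 p p)] scalarCurv (chartMetric n M p) := by
    filter_upwards [(chartAt 𝔼 p).open_target.mem_nhds (mem_chart_target 𝔼 p)] with y hy
    exact mScal_chart p hy
  exact (contDiffAt_scalarCurv (Crest.Agent.R247.Bo84.isRiemannianOn_chartMetric (n := n) p)
    (mem_chart_target 𝔼 p)).congr_of_eventuallyEq h1

theorem continuous_mScal : Continuous (mScal n M) := contMDiff_mScal.continuous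

/-! ### continuity of the densities -/

lemma continuousAt_of_chart {φ : M → ℝ} {p : M} {G : 𝔼 → ℝ}
    (h : ∀ y ∈ (chartAt 𝔼 p).target, φ ((chartAt 𝔼 p).symm y) = G y)
    (hG : ContinuousAt G (chartAt 𝔼 p p)) : ContinuousAt φ p := by
  have h1 : φ =ᶠ[𝓝 p] fun q => G (chartAt 𝔼 p q) := by
    filter_upwards [(chartAt 𝔼 p).open_source.mem_nhds (mem_chart_source 𝔼 p)] with q hq
    rw [← h _ ((chartAt 𝔼 p).map_source hq), (chartAt 𝔼 p).left_inv hq]
  exact (hG.comp ((chartAt 𝔼 p).continuousAt (mem_chart_source 𝔼 p))).congr_of_eventuallyEq h1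

/-- `|Ric - c g|²` in every chart -/
theorem mRicDev_chart (c : ℝ) (x₀ : M) {y : 𝔼} (hy : y ∈ (chartAt 𝔼 x₀).target) :
    mRicDev n M c ((chartAt 𝔼 x₀).symm y) = ricDev c (chartMetric n M x₀) y := by
  rw [ricDev_frame (Crest.Agent.R247.Bo84.isRiemannianOn_chartMetric (n := n) x₀) hy (isFrame_frc x₀ hy) c,
    mRicDev_eq, Crest.Agent.R247.Hes124.norm_sq_S]
  refine Finset.sum_congr rfl fun a _ => Finset.sum_congr rfl fun b _ => ?_
  rw [ricF_frc x₀ hy]
  rfl

lemma contDiffAt_ricDev {g : MetricField n} {U : Set 𝔼} {x : 𝔼} (hg : IsRiemannianOn g U)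
    (hx : x ∈ U) (c : ℝ) : ContDiffAt ℝ ∞ (ricDev c g) x := by
  unfold ricDev
  have h : ∀ i j : Fin n, ContDiffAt ℝ ∞ (fun y => ricci g y i j - c * g y i j) x := fun i j =>
    (contDiffAt_ricci hg hx i j).sub (contDiffAt_const.mul (contDiffAt_entry hg hx i j))
  exact ContDiffAt.sum fun i _ => ContDiffAt.sum fun j _ => ContDiffAt.sum fun a _ =>
    ContDiffAt.sum fun b _ => (((contDiffAt_inv hg hx i a).mul (contDiffAt_inv hg hx j b)).mul
      (h i j)).mul (h a b)

theorem continuous_mRicDev (c : ℝ) : Continuous (mRicDev n M c) := by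
  rw [continuous_iff_continuousAt]
  intro p
  refine continuousAt_of_chart (G := ricDev c (chartMetric n M p))
    (fun y hy => mRicDev_chart c p hy) ?_
  exact (contDiffAt_ricDev (Crest.Agent.R247.Bo84.isRiemannianOn_chartMetric (n := n) p) (mem_chart_target 𝔼 p)
    c).continuousAt

theorem continuous_density (hn : n ≠ 0) : Continuous (tracefreeRicciDensity n M) := by
  have h : tracefreeRicciDensity n M = fun z => mRicDev n M 0 z - mScal n M z ^ 2 / n := by
    funext z
    rw [mRicDev_expand, density_eq hn]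
    ring
  rw [h]
  exact (continuous_mRicDev 0).sub ((continuous_mScal.pow 2).div_const _)

end Crest.Agent.R249.Sch1_104
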