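import Crest.Agent.R249.WH1_509
import Crest.Agent.R249.AsmD_832
import Crest.Agent.R249.Ul4_174
import Crest.Agent.R247.Ar4_659
import Crest.Agent.R249.LimDef_41

-- ▼ part R249/WH2_509
section

/-!
# R249, D3-LIM/WH (2) (helper509): weak harmonicity in the limit charts

`Link` : data of a limit chart (harmonic maps `U k` converging to the chart `e`, convergence of the
Gram matrices and of the push-forward measures, = output (O1), (O4)-(O6) of helper174's L-H).
* `Link.harmChart` : `HarmChart n e`;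
* `Link.coord`     : `∫ Σᵢ ∂ᵢφ Gⁱʲ J = 0`;
* `Link.wh`        : limits `f` of harmonic functions satisfy `∫ f(e.symm z) Σᵢⱼ Gⁱʲ ∂ᵢ∂ⱼφ J = 0`;
* `Link.coordHarm`, `Link.WH` : the same for an `RChart` with `G = h⁻¹`, `J = √det h`.
-/

set_option autoImplicit false
set_option maxSynthPendingDepth 3
set_option linter.unusedSectionVars false

open Bundle Set MeasureTheory Manifold Filter Metric Topology
open scoped ENNReal ContDiff Topology NNReal RealInnerProductSpace
open Crest.GeometryTopology.CoordMetric Crest.GeometryTopology.ChartCurvature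
open Crest.GeometryTopology.PointedLimit
open Crest.Agent.R247 Crest.Agent.R247.Ms322 Crest.Agent.R247.Bo84
open Crest.Agent.R249.Vf281 Crest.Agent.R247.Bs84 Crest.Agent.R249.Ul174
open Crest.Agent.R249.AsmD832 Crest.Agent.R249.Len47

noncomputable section
namespace Crest.Agent.R249.WH_509

universe u

variable {n : ℕ} {M : ℕ → Type u} [∀ k, MetricSpace (M k)]
  [∀ k, ChartedSpace (EuclideanSpace ℝ (Fin n)) (M k)]
  [∀ k, IsManifold 𝓘(ℝ, EuclideanSpace ℝ (Fin n)) ∞ (M k)]
  [∀ k, RiemannianBundle (fun x : M k => TangentSpace 𝓘(ℝ, EuclideanSpace ℝ (Fin n)) x)]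
  [∀ k, IsContMDiffRiemannianBundle 𝓘(ℝ, EuclideanSpace ℝ (Fin n)) ∞ (EuclideanSpace ℝ (Fin n))
    (fun x : M k => TangentSpace 𝓘(ℝ, EuclideanSpace ℝ (Fin n)) x)]
  [∀ k, MeasurableSpace (M k)]

local notation "𝔼" => EuclideanSpace ℝ (Fin n)

/-- Data of a limit chart. -/
structure Link {q : ∀ k, M k} (x : ∀ k, M k) (hx : Bd q x) (s₀ : ℝ) (U : ∀ k, M k → 𝔼)
    (e : OpenPartialHomeomorph (UL q) 𝔼) (G : 𝔼 → Fin n → Fin n → ℝ) (J : 𝔼 → ℝ)
    [∀ k, BorelSpace (M k)] : Prop where
  harm : ∀ a, HarmSeq n x s₀ (fun k y => U k y a)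
  lim : ∀ a, LimOn (ball (UL.mk x hx) s₀) (fun k y => U k y a) (fun z => e z a)
  sub : e.source ⊆ ball (UL.mk x hx) s₀
  inj : ∀ z ∈ ball (UL.mk x hx) s₀, e z ∈ e.target → z ∈ e.source
  supp : ∀ K : Set 𝔼, IsCompact K → K ⊆ e.target → ∃ s₁ : ℝ, s₁ < s₀ ∧
    ∀ᶠ k in om, ∀ y ∈ ball (x k) s₀, U k y ∈ K → dist (x k) y ≤ s₁
  contG : ∀ a b, ContinuousOn (fun w => G w a b) e.target
  contJ : ContinuousOn J e.target
  meas : ∀ φ : 𝔼 → ℝ, Continuous φ → HasCompactSupport φ → tsupport φ ⊆ e.target →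
    Tendsto (fun k => ∫ y in ball (x k) s₀, φ (U k y) ∂(μHE[n] : Measure (M k))) om
      (𝓝 (∫ w, φ w * J w))
  gram : ∀ φ : 𝔼 → ℝ, Continuous φ → HasCompactSupport φ → tsupport φ ⊆ e.target → ∀ a b,
    Tendsto (fun k => ∫ y in ball (x k) s₀, |φ (U k y)| *
      |mGam n (fun z => U k z a) (fun z => U k z b) y - G (U k y) a b| ∂(μHE[n] : Measure (M k)))
      om (𝓝 0)

section Aux

variable {X : Type*} [MetricSpace X] [ProperSpace X] [MeasurableSpace X] [BorelSpace X]
  {μ : Measure X} [IsFiniteMeasureOnCompacts μ]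

theorem integrableOn_ball_of_bdd {f : X → ℝ} {x : X} {s C : ℝ} (hf : ContinuousOn f (ball x s))
    (hC : ∀ y ∈ ball x s, |f y| ≤ C) : IntegrableOn f (ball x s) μ := by
  have h1 : μ (ball x s) < ⊤ :=
    (measure_mono ball_subset_closedBall).trans_lt
      (isCompact_closedBall x s).measure_lt_top
  have : IsFiniteMeasure (μ.restrict (ball x s)) := ⟨by rwa [Measure.restrict_apply_univ]⟩
  refine Integrable.of_bound (hf.aestronglyMeasurable isOpen_ball.measurableSet) C ?_
  exact (ae_restrict_mem isOpen_ball.measurableSet).mono fun y hy => hC y hy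

end Aux

/-- a continuous function multiplied by a compactly supported one, both on an open set. -/
theorem continuous_mul_of_tsupport {E : Type*} [TopologicalSpace E] {ψ g : E → ℝ} {V : Set E}
    (hV : IsOpen V) (hψ : Continuous ψ) (hs : tsupport ψ ⊆ V) (hg : ContinuousOn g V) :
    Continuous fun w => g w * ψ w := by
  rw [continuous_iff_continuousAt]
  intro w
  by_cases hw : w ∈ tsupport ψ
  · exact (hg.continuousAt (hV.mem_nhds (hs hw))).mul hψ.continuousAt
  · have h1 : (fun w => g w * ψ w) =ᶠ[𝓝 w] fun _ => (0:ℝ) := by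
      filter_upwards [notMem_tsupport_iff_eventuallyEq.1 hw] with y hy
      rw [hy, Pi.zero_apply, mul_zero]
    rw [continuousAt_congr h1]
    exact continuousAt_const

/-- a continuous function on a compact support is bounded. -/
theorem exists_bound_of_compact {E : Type*} [TopologicalSpace E] {ψ : E → ℝ}
    (hψ : Continuous ψ) (hc : HasCompactSupport ψ) : ∃ C : ℝ, 0 ≤ C ∧ ∀ w, |ψ w| ≤ C := by
  obtain ⟨C, hC⟩ := hψ.bounded_above_of_compact_support hc
  exact ⟨max C 0, le_max_right _ _, fun w => (hC w).trans (le_max_left _ _)⟩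

section One

variable {N : Type*} [MetricSpace N] [ChartedSpace (EuclideanSpace ℝ (Fin n)) N]
  [IsManifold 𝓘(ℝ, EuclideanSpace ℝ (Fin n)) ∞ N]
  [RiemannianBundle (fun x : N => TangentSpace 𝓘(ℝ, EuclideanSpace ℝ (Fin n)) x)]
  [IsContMDiffRiemannianBundle 𝓘(ℝ, EuclideanSpace ℝ (Fin n)) ∞ (EuclideanSpace ℝ (Fin n))
    (fun x : N => TangentSpace 𝓘(ℝ, EuclideanSpace ℝ (Fin n)) x)]

variable {u : N → EuclideanSpace ℝ (Fin n)} {w : N → ℝ} {x : N} {s : ℝ}

theorem smoothAt (hw : ContMDiffOn 𝓘(ℝ, 𝔼) 𝓘(ℝ, ℝ) ∞ w (ball x s)) {y : N} (hy : y ∈ ball x s) :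
    ContMDiffAt 𝓘(ℝ, 𝔼) 𝓘(ℝ, ℝ) ∞ w y := hw.contMDiffAt (isOpen_ball.mem_nhds hy)

theorem contU (hu : ∀ a, ContMDiffOn 𝓘(ℝ, 𝔼) 𝓘(ℝ, ℝ) ∞ (fun y => u y a) (ball x s)) :
    ContinuousOn u (ball x s) := by
  have h2 : ContinuousOn (fun q => (WithLp.ofLp (u q) : Fin n → ℝ)) (ball x s) :=
    continuousOn_pi.2 fun a => (hu a).continuousOn
  exact (PiLp.continuous_toLp 2 _).comp_continuousOn h2

theorem contF (hu : ∀ a, ContMDiffOn 𝓘(ℝ, 𝔼) 𝓘(ℝ, ℝ) ∞ (fun y => u y a) (ball x s))
    (a b : Fin n) :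
    ContinuousOn (fun y => mGam n (fun z => u z a) (fun z => u z b) y) (ball x s) := by
  intro y hy
  have h1 : ContMDiffAt 𝓘(ℝ, 𝔼) 𝓘(ℝ, ℝ) 1 (mGam n (fun z => u z a) (fun z => u z b)) y :=
    contMDiffAt_mGam (smoothAt (hu a) hy) (smoothAt (hu b) hy) (by norm_num; exact two_le_infty) le_rfl
  exact h1.continuousAt.continuousWithinAt

theorem absF (hu : ∀ a, ∀ y ∈ ball x s, mGam n (fun z => u z a) (fun z => u z a) y ≤ 4)
    (a b : Fin n) {y : N} (hy : y ∈ ball x s) :
    |mGam n (fun z => u z a) (fun z => u z b) y| ≤ 4 := by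
  have h1 := hu a y hy
  have h2 := hu b y hy
  rw [mGam_self] at h1 h2
  rw [mGam_eq_inner]
  refine (abs_real_inner_le_norm _ _).trans ?_
  nlinarith [sq_nonneg (‖mgrad n (fun z => u z a) y‖ - ‖mgrad n (fun z => u z b) y‖)]

end One

/-! ### sequences -/

/-- a property of points fails eventually uniformly if it fails along every sequence. -/
theorem ev_forall_not {X : ℕ → Type*} [∀ k, Nonempty (X k)] {P : ∀ k, X k → Prop}
    (h : ∀ z : ∀ k, X k, ¬ ∀ᶠ k in om, P k (z k)) : ∀ᶠ k in om, ∀ z, ¬ P k z := by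
  classical
  rcases ev_or_not (fun k => ∀ z, ¬ P k z) with h1 | h1
  · exact h1
  · exfalso
    have h2 : ∀ k, ∃ z : X k, (¬ ∀ z, ¬ P k z) → P k z := by
      intro k
      by_cases hk : ∀ z, ¬ P k z
      · exact ⟨Classical.arbitrary _, fun h => absurd hk h⟩
      · push Not at hk
        obtain ⟨z, hz⟩ := hk
        exact ⟨z, fun _ => hz⟩
    choose z hz using h2
    exact h z (h1.mono fun k hk => hz k hk)

section Seq

variable [∀ k, BorelSpace (M k)] {q : ∀ k, M k} {x : ∀ k, M k} {hx : Bd q x} {s₀ : ℝ}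
  {U : ∀ k, M k → EuclideanSpace ℝ (Fin n)}
  {e : OpenPartialHomeomorph (UL q) (EuclideanSpace ℝ (Fin n))}
  {G : EuclideanSpace ℝ (Fin n) → Fin n → Fin n → ℝ} {J : EuclideanSpace ℝ (Fin n) → ℝ}

theorem bd_of_ball {y z : ∀ k, M k} (hy : Bd q y) {s : ℝ} (h : ∀ᶠ k in om, z k ∈ ball (y k) s) :
    Bd q z := by
  refine hy.trans (C := s) (h.mono fun k hk => ?_)
  rw [mem_ball, dist_comm] at hk
  exact hk.le

theorem Link.tendsto (L : Link x hx s₀ U e G J) {z : ∀ k, M k} (hz : Bd q z)
    (h : UL.mk z hz ∈ ball (UL.mk x hx) s₀) :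
    Tendsto (fun k => U k (z k)) om (𝓝 (e (UL.mk z hz))) := by
  have h1 : Tendsto (fun k => (WithLp.ofLp (U k (z k)) : Fin n → ℝ)) om
      (𝓝 (WithLp.ofLp (e (UL.mk z hz)))) := tendsto_pi_nhds.2 fun a => L.lim a z hz h
  exact ((PiLp.continuous_toLp 2 _).tendsto _).comp h1

theorem Link.harmChart (L : Link x hx s₀ U e G J) : HarmChart n e := by
  intro y hy hys
  have h1 := L.sub hys
  rw [mem_ball] at h1
  set R := (s₀ - dist (UL.mk y hy) (UL.mk x hx)) / 2 with hR
  have hR0 : 0 < R := by rw [hR]; linarith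
  have h2 : ∀ᶠ k in om, dist (y k) (x k) < s₀ - R := by
    refine UL.ev_lt hy hx ?_
    rw [hR]; linarith
  refine ⟨R, hR0, fun a => ⟨fun k z => U k z a, ?_, ?_⟩⟩
  · filter_upwards [L.harm a, h2] with k hk hk2
    have hsub : ball (y k) R ⊆ ball (x k) s₀ := by
      intro z hz
      rw [mem_ball] at hz ⊢
      have := dist_triangle z (y k) (x k)
      linarith
    exact ⟨hk.1.mono hsub, fun p hp => hk.2 p (hsub hp)⟩
  · intro z hz hzR
    refine L.lim a z hz ?_
    rw [mem_ball] at hzR ⊢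
    have := dist_triangle (UL.mk z hz) (UL.mk y hy) (UL.mk x hx)
    linarith

variable [∀ k, Nonempty (M k)]

/-- the sequence argument: points mapped to a compact subset of the target. -/
theorem Link.limit_point (L : Link x hx s₀ U e G J) {K : Set (EuclideanSpace ℝ (Fin n))}
    (hK : IsCompact K) (hKt : K ⊆ e.target) {z : ∀ k, M k}
    (hz1 : ∀ᶠ k in om, z k ∈ ball (x k) s₀ ∧ U k (z k) ∈ K) :
    ∃ hz : Bd q z, UL.mk z hz ∈ e.source ∧ e (UL.mk z hz) ∈ K ∧
      Tendsto (fun k => U k (z k)) om (𝓝 (e (UL.mk z hz))) := by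
  obtain ⟨s₁, hs₁, hev⟩ := L.supp K hK hKt
  have hz : Bd q z := bd_of_ball hx (hz1.mono fun k hk => hk.1)
  have h1 : UL.mk z hz ∈ ball (UL.mk x hx) s₀ := by
    rw [mem_ball]
    refine lt_of_le_of_lt (UL.dist_le hz hx (a := s₁) ?_) hs₁
    filter_upwards [hev, hz1] with k hk hk1
    rw [dist_comm]
    exact hk _ hk1.1 hk1.2
  have h2 := L.tendsto hz h1
  have h3 : e (UL.mk z hz) ∈ K :=
    hK.isClosed.mem_of_tendsto h2 (hz1.mono fun k hk => hk.2)
  exact ⟨hz, L.inj _ h1 (hKt h3), h3, h2⟩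

theorem Link.ev_near (L : Link x hx s₀ U e G J) {K : Set (EuclideanSpace ℝ (Fin n))}
    (hK : IsCompact K) (hKt : K ⊆ e.target) {y : ∀ k, M k} (hy : Bd q y) {r : ℝ}
    (hr : ∀ w ∈ K, e.symm w ∈ ball (UL.mk y hy) r) :
    ∀ᶠ k in om, ∀ z ∈ ball (x k) s₀, U k z ∈ K → dist (y k) z < r := by
  have h : ∀ᶠ k in om, ∀ z, ¬ ((z ∈ ball (x k) s₀ ∧ U k z ∈ K) ∧ ¬ dist (y k) z < r) := by
    refine ev_forall_not fun z hzP => ?_
    obtain ⟨hz, h1, h2, h3⟩ := L.limit_point hK hKt (hzP.mono fun k hk => hk.1)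
    have h4 : UL.mk z hz ∈ ball (UL.mk y hy) r := by
      have := hr _ h2
      rwa [e.left_inv h1] at this
    have h5 : ∀ᶠ k in om, dist (z k) (y k) < r := UL.ev_lt hz hy h4
    obtain ⟨k, hk1, hk2⟩ := (hzP.and h5).exists
    rw [dist_comm] at hk2
    exact hk1.2 hk2
  filter_upwards [h] with k hk z hz hzK
  by_contra hc
  exact hk z ⟨⟨hz, hzK⟩, hc⟩

theorem Link.ev_approx (L : Link x hx s₀ U e G J) {K : Set (EuclideanSpace ℝ (Fin n))}
    (hK : IsCompact K) (hKt : K ⊆ e.target) {y : ∀ k, M k} (hy : Bd q y) {R : ℝ}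
    (hr : ∀ w ∈ K, e.symm w ∈ ball (UL.mk y hy) R) {w : ∀ k, M k → ℝ} {f : UL q → ℝ}
    (hf : LimOn (ball (UL.mk y hy) R) w f)
    (hc : ∀ v ∈ K, ContinuousAt (fun v => f (e.symm v)) v) {ε : ℝ} (hε : 0 < ε) :
    ∀ᶠ k in om, ∀ z ∈ ball (x k) s₀, U k z ∈ K → |w k z - f (e.symm (U k z))| < ε := by
  have h : ∀ᶠ k in om, ∀ z, ¬ ((z ∈ ball (x k) s₀ ∧ U k z ∈ K) ∧
      ¬ |w k z - f (e.symm (U k z))| < ε) := by
    refine ev_forall_not fun z hzP => ?_
    obtain ⟨hz, h1, h2, h3⟩ := L.limit_point hK hKt (hzP.mono fun k hk => hk.1)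
    have h4 : UL.mk z hz ∈ ball (UL.mk y hy) R := by
      have := hr _ h2
      rwa [e.left_inv h1] at this
    have h5 : Tendsto (fun k => w k (z k)) om (𝓝 (f (UL.mk z hz))) := hf z hz h4
    have h6 : Tendsto (fun k => f (e.symm (U k (z k)))) om (𝓝 (f (UL.mk z hz))) := by
      have := (hc _ h2).tendsto.comp h3
      simp only [e.left_inv h1] at this
      exact this
    have h7 := (h5.sub h6).abs
    rw [sub_self, abs_zero] at h7
    obtain ⟨k, hk1, hk2⟩ := (hzP.and (h7.eventually_lt_const hε)).exists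
    exact hk1.2 hk2
  filter_upwards [h] with k hk z hz hzK
  by_contra hc
  exact hk z ⟨⟨hz, hzK⟩, hc⟩

variable [∀ k, CompleteSpace (M k)]
  [∀ k, IsRiemannianManifold 𝓘(ℝ, EuclideanSpace ℝ (Fin n)) (M k)]

/-- integrability of `ψ(U) F` on one manifold. -/
theorem integrable_pair {N : Type*} [MetricSpace N] [ChartedSpace (EuclideanSpace ℝ (Fin n)) N]
    [IsManifold 𝓘(ℝ, EuclideanSpace ℝ (Fin n)) ∞ N]
    [RiemannianBundle (fun x : N => TangentSpace 𝓘(ℝ, EuclideanSpace ℝ (Fin n)) x)]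
    [IsContMDiffRiemannianBundle 𝓘(ℝ, EuclideanSpace ℝ (Fin n)) ∞ (EuclideanSpace ℝ (Fin n))
      (fun x : N => TangentSpace 𝓘(ℝ, EuclideanSpace ℝ (Fin n)) x)]
    [MeasurableSpace N] [BorelSpace N] [CompleteSpace N]
    [IsRiemannianManifold 𝓘(ℝ, EuclideanSpace ℝ (Fin n)) N]
    {u : N → EuclideanSpace ℝ (Fin n)} {x : N} {s : ℝ}
    (hu : ∀ a, ContMDiffOn 𝓘(ℝ, 𝔼) 𝓘(ℝ, ℝ) ∞ (fun y => u y a) (ball x s))
    (hF : ∀ a, ∀ y ∈ ball x s, mGam n (fun z => u z a) (fun z => u z a) y ≤ 4)
    {ψ : 𝔼 → ℝ} (hψ : Continuous ψ) (hc : HasCompactSupport ψ) (a b : Fin n) :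
    IntegrableOn (fun y => ψ (u y)) (ball x s) (μHE[n] : Measure N) ∧
    IntegrableOn (fun y => ψ (u y) * mGam n (fun z => u z a) (fun z => u z b) y) (ball x s)
      (μHE[n] : Measure N) := by
  have := HR216.properSpace_of_riemannian n N
  have := Mcp688.isLocallyFinite_muHE n N
  obtain ⟨C, hC0, hC⟩ := exists_bound_of_compact hψ hc
  have hcu : ContinuousOn (fun y => ψ (u y)) (ball x s) := hψ.comp_continuousOn (contU hu)
  refine ⟨integrableOn_ball_of_bdd hcu (C := C) fun y _ => hC _,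
    integrableOn_ball_of_bdd (hcu.mul (contF hu a b)) (C := C * 4) fun y hy => ?_⟩
  rw [abs_mul]
  exact mul_le_mul (hC _) (absF hF a b hy) (abs_nonneg _) hC0

theorem Link.int_pair (L : Link x hx s₀ U e G J) {ψ : EuclideanSpace ℝ (Fin n) → ℝ}
    (hψ : Continuous ψ) (hc : HasCompactSupport ψ) (hs : tsupport ψ ⊆ e.target) (a b : Fin n) :
    Tendsto (fun k => ∫ y in ball (x k) s₀, ψ (U k y) *
      mGam n (fun z => U k z a) (fun z => U k z b) y ∂(μHE[n] : Measure (M k))) om
      (𝓝 (∫ w, G w a b * ψ w * J w)) := by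
  have hψG : Continuous fun w => G w a b * ψ w :=
    continuous_mul_of_tsupport e.open_target hψ hs (L.contG a b)
  have hcG : HasCompactSupport fun w => G w a b * ψ w := hc.mul_left
  have hsG : tsupport (fun w => G w a b * ψ w) ⊆ e.target :=
    (tsupport_mul_subset_right).trans hs
  have h1 := L.meas _ hψG hcG hsG
  have h2 := L.gram ψ hψ hc hs a b
  have h3 : Tendsto (fun k => (∫ y in ball (x k) s₀, ψ (U k y) *
      mGam n (fun z => U k z a) (fun z => U k z b) y ∂(μHE[n] : Measure (M k))) -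
      ∫ y in ball (x k) s₀, G (U k y) a b * ψ (U k y) ∂(μHE[n] : Measure (M k))) om (𝓝 0) := by
    refine squeeze_zero_norm' ?_ h2
    filter_upwards [eventually_all.2 L.harm] with k hk
    obtain ⟨-, i1⟩ := integrable_pair (fun a => (hk a).1) (fun a y hy => ((hk a).2 y hy).2) hψ hc
      a b
    obtain ⟨i2, -⟩ := integrable_pair (fun a => (hk a).1) (fun a y hy => ((hk a).2 y hy).2) hψG hcG
      a b
    rw [← integral_sub i1 i2]
    refine (norm_integral_le_integral_norm _).trans (le_of_eq ?_)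
    refine integral_congr_ae (Eventually.of_forall fun y => ?_)
    simp only [Real.norm_eq_abs]
    rw [← abs_mul]
    congr 1
    ring
  have h4 := h3.add h1
  simpa using h4

theorem tendsto_of_sum {ι : Type*} (t : Finset ι) {f : ι → ℕ → ℝ} {l : ι → ℝ}
    (h : ∀ i ∈ t, Tendsto (f i) om (𝓝 (l i))) :
    Tendsto (fun k => ∑ i ∈ t, f i k) om (𝓝 (∑ i ∈ t, l i)) := tendsto_finsetSum t h

/-- convergence of `∫ Σ ψᵢⱼ(U) Fᵢⱼ`. -/
theorem Link.int_sum (L : Link x hx s₀ U e G J) {ψ : Fin n → Fin n → EuclideanSpace ℝ (Fin n) → ℝ}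
    (hψ : ∀ i j, Continuous (ψ i j)) (hc : ∀ i j, HasCompactSupport (ψ i j))
    (hs : ∀ i j, tsupport (ψ i j) ⊆ e.target) :
    Tendsto (fun k => ∫ y in ball (x k) s₀, ∑ i, ∑ j, ψ i j (U k y) *
      mGam n (fun z => U k z i) (fun z => U k z j) y ∂(μHE[n] : Measure (M k))) om
      (𝓝 (∑ i, ∑ j, ∫ w, G w i j * ψ i j w * J w)) := by
  have h1 := tendsto_of_sum Finset.univ (fun i _ => tendsto_of_sum Finset.univ (fun j _ =>
    L.int_pair (hψ i j) (hc i j) (hs i j) i j))
  refine h1.congr' ?_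
  filter_upwards [eventually_all.2 L.harm] with k hk
  have hi := fun i j => (integrable_pair (fun a => (hk a).1) (fun a y hy => ((hk a).2 y hy).2)
    (hψ i j) (hc i j) i j).2
  rw [integral_finsetSum _ fun i _ => integrable_finsetSum _ fun j _ => hi i j]
  refine Finset.sum_congr rfl fun i _ => ?_
  rw [integral_finsetSum _ fun j _ => hi i j]

omit [∀ k, MetricSpace (M k)] in
theorem cd_pderiv {φ : EuclideanSpace ℝ (Fin n) → ℝ} (hφ : ContDiff ℝ ∞ φ) (i : Fin n) :
    ContDiff ℝ ∞ (pderiv i φ) :=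
  contDiff_iff_contDiffAt.2 fun w => contDiffAt_pderiv hφ.contDiffAt (by simp) i

theorem tsupport_pd {φ : EuclideanSpace ℝ (Fin n) → ℝ} (i : Fin n) :
    tsupport (pderiv i φ) ⊆ tsupport φ :=
  closure_minimal (fun w hw => by
    by_contra h
    exact hw (pderiv_eq_zero h i)) (isClosed_tsupport φ)

theorem tsupport_pd2 {φ : EuclideanSpace ℝ (Fin n) → ℝ} (i j : Fin n) :
    tsupport (pderiv i (pderiv j φ)) ⊆ tsupport φ := (tsupport_pd i).trans (tsupport_pd j)

theorem hcs_of_subset {E : Type*} [TopologicalSpace E] {ψ φ : E → ℝ} (hc : HasCompactSupport φ)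
    (h : tsupport ψ ⊆ tsupport φ) : HasCompactSupport ψ :=
  hc.isCompact.of_isClosed_subset (isClosed_tsupport _) h

theorem Link.integrable_pair (L : Link x hx s₀ U e G J) {ψ : EuclideanSpace ℝ (Fin n) → ℝ}
    (hψ : Continuous ψ) (hc : HasCompactSupport ψ) (hs : tsupport ψ ⊆ e.target) (a b : Fin n) :
    Integrable (fun w => G w a b * ψ w * J w) := by
  have h1 : Continuous fun w => G w a b * ψ w :=
    continuous_mul_of_tsupport e.open_target hψ hs (L.contG a b)
  have h2 : Continuous fun w => J w * (G w a b * ψ w) :=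
    continuous_mul_of_tsupport e.open_target h1 ((tsupport_mul_subset_right).trans hs) L.contJ
  have h3 : HasCompactSupport fun w => J w * (G w a b * ψ w) := (hc.mul_left).mul_left
  refine (h2.integrable_of_hasCompactSupport h3).congr (Eventually.of_forall fun w => ?_)
  simp only
  ring

variable [∀ k, ConnectedSpace (M k)]

/-- **the coordinates are weakly harmonic.** -/
theorem Link.coord (L : Link x hx s₀ U e G J) (j : Fin n) {φ : EuclideanSpace ℝ (Fin n) → ℝ}
    (hφ : ContDiff ℝ ∞ φ) (hc : HasCompactSupport φ) (hs : tsupport φ ⊆ e.target) :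
    ∫ z, (∑ i, pderiv i φ z * G z i j) * J z = 0 := by
  have hψ : ∀ i, Continuous (pderiv i φ) := fun i => (cd_pderiv hφ i).continuous
  have hψc : ∀ i, HasCompactSupport (pderiv i φ) := fun i => hcs_of_subset hc (tsupport_pd i)
  have hψs : ∀ i, tsupport (pderiv i φ) ⊆ e.target := fun i => (tsupport_pd i).trans hs
  have h1 := tendsto_of_sum Finset.univ (fun i _ => L.int_pair (hψ i) (hψc i) (hψs i) i j)
  obtain ⟨s₁, hs₁, hev⟩ := L.supp _ hc.isCompact hs
  have h2 : Tendsto (fun k => ∑ i, ∫ y in ball (x k) s₀, pderiv i φ (U k y) *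
      mGam n (fun z => U k z i) (fun z => U k z j) y ∂(μHE[n] : Measure (M k))) om (𝓝 0) := by
    refine tendsto_const_nhds.congr' ?_
    filter_upwards [eventually_all.2 L.harm, hev] with k hk hk2
    have := HR216.properSpace_of_riemannian n (M k)
    have hi := fun i => (WH_509.integrable_pair (fun a => (hk a).1)
      (fun a y hy => ((hk a).2 y hy).2) (hψ i) (hψc i) i j).2
    rw [← integral_finsetSum _ fun i _ => hi i]
    symm
    refine coord_one (U := ball (x k) s₀) (K := closedBall (x k) s₁) isOpen_ball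
      (isCompact_closedBall _ _) (fun z hz => lt_of_le_of_lt hz hs₁)
      (fun a z hz => (smoothAt (hk a).1 hz).of_le two_le_infty) (fun a z hz => ((hk a).2 z hz).1)
      (hφ.of_le two_le_infty) (fun z hz hzK => ?_) j
    rw [mem_closedBall, dist_comm]
    exact hk2 z hz hzK
  have h3 := tendsto_nhds_unique h1 h2
  rw [← h3, ← integral_finsetSum _ fun i _ => L.integrable_pair (hψ i) (hψc i) (hψs i) i j]
  refine integral_congr_ae (Eventually.of_forall fun z => ?_)
  simp only [Finset.sum_mul]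
  exact Finset.sum_congr rfl fun i _ => by ring

end Seq

end Crest.Agent.R249.WH_509
end
end

-- ▼ part R249/WH3_509
section

/-!
# R249, D3-LIM/WH (3) (helper509): very weak harmonicity of limits of harmonic functions

* `continuousOn_lim` : the limit of a `HarmSeq` is continuous;
* `Link.wh`, `Link.coordHarm`, `Link.wh_chart`.
-/

set_option autoImplicit false
set_option maxSynthPendingDepth 3
set_option linter.unusedSectionVars false

open Bundle Set MeasureTheory Manifold Filter Metric Topology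
open scoped ENNReal ContDiff Topology NNReal RealInnerProductSpace
open Crest.GeometryTopology.CoordMetric Crest.GeometryTopology.ChartCurvature
open Crest.GeometryTopology.PointedLimit
open Crest.Agent.R247 Crest.Agent.R247.Ms322 Crest.Agent.R247.Bo84
open Crest.Agent.R249.Vf281 Crest.Agent.R247.Bs84 Crest.Agent.R249.Ul174
open Crest.Agent.R249.AsmD832 Crest.Agent.R249.Len47

noncomputable section
namespace Crest.Agent.R249.WH_509

universe u

variable {n : ℕ} {M : ℕ → Type u} [∀ k, MetricSpace (M k)]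
  [∀ k, ChartedSpace (EuclideanSpace ℝ (Fin n)) (M k)]
  [∀ k, IsManifold 𝓘(ℝ, EuclideanSpace ℝ (Fin n)) ∞ (M k)]
  [∀ k, RiemannianBundle (fun x : M k => TangentSpace 𝓘(ℝ, EuclideanSpace ℝ (Fin n)) x)]
  [∀ k, IsContMDiffRiemannianBundle 𝓘(ℝ, EuclideanSpace ℝ (Fin n)) ∞ (EuclideanSpace ℝ (Fin n))
    (fun x : M k => TangentSpace 𝓘(ℝ, EuclideanSpace ℝ (Fin n)) x)]
  [∀ k, IsRiemannianManifold 𝓘(ℝ, EuclideanSpace ℝ (Fin n)) (M k)]
  [∀ k, CompleteSpace (M k)] [∀ k, ConnectedSpace (M k)]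

/-- limits of harmonic functions with bounded gradient are Lipschitz. -/
theorem lip_lim {q y : ∀ k, M k} (hy : Bd q y) {R : ℝ} {w : ∀ k, M k → ℝ} {f : UL q → ℝ}
    (hw : HarmSeq n y R w) (hf : LimOn (ball (UL.mk y hy) R) w f) {a b : UL q}
    (ha : a ∈ ball (UL.mk y hy) (R / 2)) (hb : b ∈ ball (UL.mk y hy) (R / 2)) :
    |f a - f b| ≤ 2 * dist a b := by
  have hR : 0 < R := by
    have := pos_of_mem_ball ha
    linarith
  obtain ⟨a', ha', rfl⟩ := UL.exists_rep a
  obtain ⟨b', hb', rfl⟩ := UL.exists_rep b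
  have h1 := hf a' ha' (ball_subset_ball (by linarith) ha)
  have h2 := hf b' hb' (ball_subset_ball (by linarith) hb)
  have h3 := (h1.sub h2).abs
  have h4 := (UL.tendsto_dist ha' hb').const_mul 2
  refine le_of_tendsto_of_tendsto h3 h4 ?_
  have e1 : ∀ᶠ k in om, dist (a' k) (y k) < R / 2 := UL.ev_lt ha' hy ha
  have e2 : ∀ᶠ k in om, dist (b' k) (y k) < R / 2 := UL.ev_lt hb' hy hb
  filter_upwards [hw, e1, e2] with k hk h5 h6
  exact lip_of_grad (n := n) (Λ := 2) two_pos
    (fun z hz => (hk.1.contMDiffAt (isOpen_ball.mem_nhds hz)).of_le (by exact_mod_cast one_le_infty))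
    (fun z hz => ((hk.2 z hz).2).trans (by norm_num)) h5 h6

theorem continuousOn_lim {q y : ∀ k, M k} (hy : Bd q y) {R : ℝ} {w : ∀ k, M k → ℝ}
    {f : UL q → ℝ} (hw : HarmSeq n y R w) (hf : LimOn (ball (UL.mk y hy) R) w f) :
    ContinuousOn f (ball (UL.mk y hy) (R / 2)) := by
  have h : LipschitzOnWith 2 f (ball (UL.mk y hy) (R / 2)) :=
    LipschitzOnWith.of_dist_le_mul fun a ha b hb => by
      rw [Real.dist_eq]
      exact lip_lim hy hw hf ha hb
  exact h.continuousOn

variable [∀ k, MeasurableSpace (M k)] [∀ k, BorelSpace (M k)]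

variable {q : ∀ k, M k} {x : ∀ k, M k} {hx : Bd q x} {s₀ : ℝ}
  {U : ∀ k, M k → EuclideanSpace ℝ (Fin n)}
  {e : OpenPartialHomeomorph (UL q) (EuclideanSpace ℝ (Fin n))}
  {G : EuclideanSpace ℝ (Fin n) → Fin n → Fin n → ℝ} {J : EuclideanSpace ℝ (Fin n) → ℝ}

theorem Link.wh (L : Link x hx s₀ U e G J) {y : ∀ k, M k} (hy : Bd q y) {R : ℝ} (hR : 0 < R)
    (hys : UL.mk y hy ∈ e.source) {w : ∀ k, M k → ℝ} {f : UL q → ℝ} (hw : HarmSeq n y R w)
    (hf : LimOn (ball (UL.mk y hy) R) w f) :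
    ∃ ρ : ℝ, 0 < ρ ∧ ball (e (UL.mk y hy)) ρ ⊆ e.target ∧
      ∀ φ : EuclideanSpace ℝ (Fin n) → ℝ, ContDiff ℝ ∞ φ → HasCompactSupport φ →
        tsupport φ ⊆ ball (e (UL.mk y hy)) ρ →
        ∫ z, f (e.symm z) * (∑ i, ∑ j, G z i j * pderiv i (pderiv j φ) z) * J z = 0 := by
  have := fun k => (inferInstance : Nonempty (M k))
  set V : Set (EuclideanSpace ℝ (Fin n)) :=
    e.target ∩ e.symm ⁻¹' ball (UL.mk y hy) (R / 2) with hV
  have hVo : IsOpen V := e.isOpen_inter_preimage_symm isOpen_ball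
  have hyV : e (UL.mk y hy) ∈ V := ⟨e.map_source hys, by
    rw [mem_preimage, e.left_inv hys]
    exact mem_ball_self (by linarith)⟩
  obtain ⟨ρ, hρ, hρV⟩ := Metric.isOpen_iff.1 hVo _ hyV
  refine ⟨ρ, hρ, hρV.trans inter_subset_left, fun φ hφ hc hs => ?_⟩
  have hsV : tsupport φ ⊆ V := hs.trans hρV
  have hst : tsupport φ ⊆ e.target := hsV.trans inter_subset_left
  have hg : ContinuousOn (fun v => f (e.symm v)) V :=
    (continuousOn_lim hy hw hf).comp (e.continuousOn_symm.mono inter_subset_left)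
      fun v hv => hv.2
  set ψ : Fin n → Fin n → EuclideanSpace ℝ (Fin n) → ℝ := fun i j v =>
    f (e.symm v) * pderiv i (pderiv j φ) v with hψdef
  have hpc : ∀ i j, Continuous (pderiv i (pderiv j φ)) := fun i j =>
    (cd_pderiv (cd_pderiv hφ j) i).continuous
  have hps : ∀ i j, tsupport (pderiv i (pderiv j φ)) ⊆ tsupport φ := fun i j => tsupport_pd2 i j
  have hpk : ∀ i j, HasCompactSupport (pderiv i (pderiv j φ)) := fun i j =>
    hcs_of_subset hc (hps i j)
  have hψ : ∀ i j, Continuous (ψ i j) := fun i j =>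
    continuous_mul_of_tsupport hVo (hpc i j) ((hps i j).trans hsV) hg
  have hψs : ∀ i j, tsupport (ψ i j) ⊆ tsupport φ := fun i j =>
    (tsupport_mul_subset_right).trans (hps i j)
  have hψc : ∀ i j, HasCompactSupport (ψ i j) := fun i j => hcs_of_subset hc (hψs i j)
  have h1 := L.int_sum hψ hψc fun i j => (hψs i j).trans hst
  -- the limit is zero
  have h2 : Tendsto (fun k => ∫ z in ball (x k) s₀, ∑ i, ∑ j, ψ i j (U k z) *
      mGam n (fun z => U k z i) (fun z => U k z j) z ∂(μHE[n] : Measure (M k))) om (𝓝 0) := by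
    have habs : ∀ i j, Continuous fun v => |pderiv i (pderiv j φ) v| := fun i j => (hpc i j).abs
    have habk : ∀ i j, HasCompactSupport fun v => |pderiv i (pderiv j φ) v| := fun i j =>
      (hpk i j).comp_left (g := fun t : ℝ => |t|) abs_zero
    have habs' : ∀ i j, tsupport (fun v => |pderiv i (pderiv j φ) v|) ⊆ e.target := fun i j =>
      ((closure_mono fun v hv => by
        intro h0
        exact hv (by simp only; rw [h0, abs_zero])).trans (hps i j)).trans hst
    have h3 := tendsto_of_sum Finset.univ (fun i _ => tendsto_of_sum Finset.univ (fun j _ =>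
      L.meas _ (habs i j) (habk i j) (habs' i j)))
    set S := ∑ i, ∑ j, ∫ v, |pderiv i (pderiv j φ) v| * J v with hS
    rw [Metric.tendsto_nhds]
    intro ε hε
    set ε' := ε / (4 * (|S| + 1) + 1) with hε'
    have hden : 0 < 4 * (|S| + 1) + 1 := by positivity
    have hε'0 : 0 < ε' := by positivity
    obtain ⟨s₁, hs₁, hev⟩ := L.supp _ hc.isCompact hst
    have hnear := L.ev_near hc.isCompact hst hy (r := R / 2) fun v hv => (hsV hv).2
    have happ := L.ev_approx hc.isCompact hst hy (R := R)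
      (fun v hv => ball_subset_ball (by linarith) (hsV hv).2) hf
      (fun v hv => hg.continuousAt (hVo.mem_nhds (hsV hv))) hε'0
    have hlt : ∀ᶠ k in om, (∑ i, ∑ j, ∫ z in ball (x k) s₀, |pderiv i (pderiv j φ) (U k z)|
        ∂(μHE[n] : Measure (M k))) < |S| + 1 :=
      h3.eventually_lt_const (by linarith [le_abs_self S])
    filter_upwards [eventually_all.2 L.harm, hw, hev, hnear, happ, hlt] with k hk hwk hk1 hk2 hk3 hk4
    have := HR216.properSpace_of_riemannian n (M k)
    have := Mcp688.isLocallyFinite_muHE n (M k)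
    have iA := fun i j => (WH_509.integrable_pair (fun a => (hk a).1)
      (fun a y hy => ((hk a).2 y hy).2) (hψ i j) (hψc i j) i j).2
    have iC := fun i j => (WH_509.integrable_pair (fun a => (hk a).1)
      (fun a y hy => ((hk a).2 y hy).2) (habs i j) (habk i j) i j).1
    set A : M k → ℝ := fun z => ∑ i, ∑ j, ψ i j (U k z) *
      mGam n (fun z => U k z i) (fun z => U k z j) z with hA
    set B : M k → ℝ := fun z => w k z * ∑ i, ∑ j, pderiv i (pderiv j φ) (U k z) *
      mGam n (fun z => U k z i) (fun z => U k z j) z with hB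
    set D : M k → ℝ := fun z => ε' * 4 * ∑ i, ∑ j, |pderiv i (pderiv j φ) (U k z)| with hD
    have iA' : IntegrableOn A (ball (x k) s₀) (μHE[n] : Measure (M k)) :=
      integrable_finsetSum _ fun i _ => integrable_finsetSum _ fun j _ => iA i j
    have iD : IntegrableOn D (ball (x k) s₀) (μHE[n] : Measure (M k)) :=
      (integrable_finsetSum _ fun i _ => integrable_finsetSum _ fun j _ => iC i j).const_mul _
    have hAB : ∀ z ∈ ball (x k) s₀, |A z - B z| ≤ D z := by
      intro z hz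
      have e1 : A z - B z = ∑ i, ∑ j, (f (e.symm (U k z)) - w k z) *
          (pderiv i (pderiv j φ) (U k z) *
            mGam n (fun z => U k z i) (fun z => U k z j) z) := by
        simp only [hA, hB, hψdef, Finset.mul_sum, ← Finset.sum_sub_distrib]
        exact Finset.sum_congr rfl fun i _ => Finset.sum_congr rfl fun j _ => by ring
      rw [e1]
      simp only [hD, Finset.mul_sum]
      refine (Finset.abs_sum_le_sum_abs _ _).trans (Finset.sum_le_sum fun i _ => ?_)
      refine (Finset.abs_sum_le_sum_abs _ _).trans (Finset.sum_le_sum fun j _ => ?_)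
      by_cases hzK : U k z ∈ tsupport φ
      · rw [abs_mul, abs_mul]
        have h5 := absF (fun a y hy => ((hk a).2 y hy).2) i j hz
        have h6 : |f (e.symm (U k z)) - w k z| ≤ ε' := by
          rw [abs_sub_comm]
          exact (hk3 z hz hzK).le
        calc |f (e.symm (U k z)) - w k z| * (|pderiv i (pderiv j φ) (U k z)| *
              |mGam n (fun z => U k z i) (fun z => U k z j) z|)
            ≤ ε' * (|pderiv i (pderiv j φ) (U k z)| * 4) := by gcongr
          _ = ε' * 4 * |pderiv i (pderiv j φ) (U k z)| := by ring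
      · rw [pderiv2_eq_zero hzK i j]
        simp
    have hBm : AEStronglyMeasurable B (Measure.restrict (μHE[n] : Measure (M k))
        (ball (x k) s₀)) := by
      refine ContinuousOn.aestronglyMeasurable (fun z hz => ?_) isOpen_ball.measurableSet
      refine ContinuousAt.continuousWithinAt ?_
      have hUc : ContinuousAt (U k) z :=
        (contU fun a => (hk a).1).continuousAt (isOpen_ball.mem_nhds hz)
      have hFc : ContinuousAt (fun z => ∑ i, ∑ j, pderiv i (pderiv j φ) (U k z) *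
          mGam n (fun z => U k z i) (fun z => U k z j) z) z := by
        refine tendsto_finsetSum _ fun i _ => tendsto_finsetSum _ fun j _ => ?_
        exact ((hpc i j).continuousAt.comp hUc).mul
          ((contF (fun a => (hk a).1) i j).continuousAt (isOpen_ball.mem_nhds hz))
      by_cases hzK : U k z ∈ tsupport φ
      · have h7 : z ∈ ball (y k) R := by
          have := hk2 z hz hzK
          rw [mem_ball, dist_comm]
          linarith
        exact ((smoothAt hwk.1 h7).continuousAt).mul hFc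
      · have h8 : B =ᶠ[𝓝 z] fun _ => (0:ℝ) := by
          have h9 : ∀ᶠ z' in 𝓝 z, U k z' ∉ tsupport φ :=
            hUc.eventually ((isClosed_tsupport φ).isOpen_compl.mem_nhds hzK)
          filter_upwards [h9] with z' hz'
          simp only [hB]
          rw [Finset.sum_eq_zero fun i _ => Finset.sum_eq_zero fun j _ => by
            rw [pderiv2_eq_zero hz' i j, zero_mul], mul_zero]
        rw [continuousAt_congr h8]
        exact continuousAt_const
    have iB : IntegrableOn B (ball (x k) s₀) (μHE[n] : Measure (M k)) := by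
      refine Integrable.mono' (iA'.abs.add iD) hBm ?_
      refine (ae_restrict_mem isOpen_ball.measurableSet).mono fun z hz => ?_
      rw [Real.norm_eq_abs, Pi.add_apply]
      have h5 := hAB z hz
      have h6 : |B z| ≤ |A z| + |A z - B z| := by
        have := abs_sub_abs_le_abs_sub (B z) (A z)
        rw [abs_sub_comm (B z)] at this
        linarith
      linarith
    have hzero : ∫ z in ball (x k) s₀, B z ∂(μHE[n] : Measure (M k)) = 0 := by
      refine wh_one (U := ball (x k) s₀) (W := ball (y k) R)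
        (K := closedBall (x k) s₁ ∩ closedBall (y k) (R / 2)) isOpen_ball isOpen_ball
        ((isCompact_closedBall _ _).inter_right isClosed_closedBall)
        (fun z hz => lt_of_le_of_lt hz.1 hs₁)
        (fun z hz => lt_of_le_of_lt hz.2 (half_lt_self hR))
        (fun a z hz => (smoothAt (hk a).1 hz).of_le two_le_infty)
        (fun a z hz => ((hk a).2 z hz).1)
        (fun z hz => (smoothAt hwk.1 hz).of_le two_le_infty)
        (fun z hz => (hwk.2 z hz).1) (hφ.of_le two_le_infty) (fun z hz hzK => ⟨?_, ?_⟩)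
      · rw [mem_closedBall, dist_comm]
        exact hk1 z hz hzK
      · rw [mem_closedBall, dist_comm]
        exact (hk2 z hz hzK).le
    have key : |∫ z in ball (x k) s₀, A z ∂(μHE[n] : Measure (M k))| ≤
        ∫ z in ball (x k) s₀, D z ∂(μHE[n] : Measure (M k)) := by
      have e2 : ∫ z in ball (x k) s₀, A z ∂(μHE[n] : Measure (M k)) =
          ∫ z in ball (x k) s₀, (A z - B z) ∂(μHE[n] : Measure (M k)) := by
        rw [integral_sub iA' iB, hzero, sub_zero]
      rw [e2]
      exact norm_integral_le_of_norm_le (f := fun z => A z - B z) iD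
        ((ae_restrict_mem isOpen_ball.measurableSet).mono fun z hz => hAB z hz)
    have e3 : ∫ z in ball (x k) s₀, D z ∂(μHE[n] : Measure (M k)) =
        ε' * 4 * ∑ i, ∑ j, ∫ z in ball (x k) s₀, |pderiv i (pderiv j φ) (U k z)|
          ∂(μHE[n] : Measure (M k)) := by
      simp only [hD]
      rw [integral_const_mul,
        integral_finsetSum _ fun i _ => integrable_finsetSum _ fun j _ => iC i j]
      congr 1
      exact Finset.sum_congr rfl fun i _ => integral_finsetSum _ fun j _ => iC i j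
    rw [Real.dist_eq, sub_zero]
    refine key.trans_lt ?_
    rw [e3]
    calc ε' * 4 * ∑ i, ∑ j, ∫ z in ball (x k) s₀, |pderiv i (pderiv j φ) (U k z)|
          ∂(μHE[n] : Measure (M k)) ≤ ε' * 4 * (|S| + 1) := by
          gcongr
      _ < ε' * (4 * (|S| + 1) + 1) := by nlinarith
      _ = ε := by rw [hε']; field_simp
  have h4 := tendsto_nhds_unique h1 h2
  have i5 : ∀ i j, Integrable fun v => G v i j * ψ i j v * J v := fun i j =>
    L.integrable_pair (hψ i j) (hψc i j) ((hψs i j).trans hst) i j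
  rw [← h4]
  rw [show (∑ i, ∑ j, ∫ v, G v i j * ψ i j v * J v) =
      ∫ v, ∑ i, ∑ j, G v i j * ψ i j v * J v by
    rw [integral_finsetSum _ fun i _ => integrable_finsetSum _ fun j _ => i5 i j]
    exact Finset.sum_congr rfl fun i _ => (integral_finsetSum _ fun j _ => i5 i j).symm]
  refine integral_congr_ae (Eventually.of_forall fun v => ?_)
  simp only [hψdef, Finset.mul_sum, Finset.sum_mul]
  exact Finset.sum_congr rfl fun i _ => Finset.sum_congr rfl fun j _ => by ring

/-! ### the clauses of `RThm` -/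

/-- **CoordHarm** of `AsmD_832`. -/
theorem Link.coordHarm {lam : ℝ} {C : RChart n (UL q) lam}
    (L : Link x hx s₀ U C.e (fun w i j => inverseField C.h w i j)
      (fun w => Real.sqrt (C.h w).det)) : CoordHarm C := by
  have := fun k => (inferInstance : Nonempty (M k))
  intro j φ hφ hc hs
  exact L.coord j hφ hc hs

/-- **WH** of `AsmD_832`. -/
theorem Link.wh_chart {lam : ℝ} {C : RChart n (UL q) lam}
    (L : Link x hx s₀ U C.e (fun w i j => inverseField C.h w i j)
      (fun w => Real.sqrt (C.h w).det)) : WH n C := by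
  intro y hy R w f hR hys hw hf
  exact L.wh hy hR hys hw hf

end Crest.Agent.R249.WH_509
end
end

-- ▼ part R249/WH4_509

/-!
# R249, D3-LIM/WH (4) (helper509): leaf WH of `LimDef_41`

`wh_all` : `HData`, `AvOut`, `ChOut`, `SpOut`, `MsOut`, `StOut` and a chart `C : RChart` with
`C.e = e`, `C.h = h⁻¹` give `HarmChart 4 C.e`, `CoordHarm C`, `WH 4 C`.
-/

set_option autoImplicit false
set_option maxSynthPendingDepth 3
set_option linter.unusedSectionVars false

open Bundle Set MeasureTheory Manifold Filter Metric Topology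
open scoped ENNReal ContDiff Topology NNReal RealInnerProductSpace
open Crest.GeometryTopology.CoordMetric Crest.GeometryTopology.ChartCurvature
open Crest.GeometryTopology.PointedLimit
open Crest.Agent.R247 Crest.Agent.R247.Bo84 Crest.Agent.R249.Ul174
open Crest.Agent.R249.AsmD832 Crest.Agent.R249.Len47 Crest.Agent.R249.LimDef41

noncomputable section
namespace Crest.Agent.R249.WH_509

variable {M : ℕ → Type} [∀ k, MetricSpace (M k)]
  [∀ k, ChartedSpace (EuclideanSpace ℝ (Fin 4)) (M k)]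
  [∀ k, IsManifold 𝓘(ℝ, EuclideanSpace ℝ (Fin 4)) ∞ (M k)]
  [∀ k, RiemannianBundle (fun x : M k => TangentSpace 𝓘(ℝ, EuclideanSpace ℝ (Fin 4)) x)]
  [∀ k, IsContMDiffRiemannianBundle 𝓘(ℝ, EuclideanSpace ℝ (Fin 4)) ∞ (EuclideanSpace ℝ (Fin 4))
    (fun x : M k => TangentSpace 𝓘(ℝ, EuclideanSpace ℝ (Fin 4)) x)]
  [∀ k, MeasurableSpace (M k)] [∀ k, BorelSpace (M k)]

variable {q : ∀ k, M k} {x : ∀ k, M k} {hx : Bd q x}

theorem Link.congr {s₀ : ℝ} {U : ∀ k, M k → EuclideanSpace ℝ (Fin 4)}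
    {e : OpenPartialHomeomorph (UL q) (EuclideanSpace ℝ (Fin 4))}
    {G G' : EuclideanSpace ℝ (Fin 4) → Fin 4 → Fin 4 → ℝ} {J J' : EuclideanSpace ℝ (Fin 4) → ℝ}
    (L : Link x hx s₀ U e G J) (hG : ∀ w ∈ e.target, ∀ a b, G' w a b = G w a b)
    (hJ : ∀ w ∈ e.target, J' w = J w) : Link x hx s₀ U e G' J' where
  harm := L.harm
  lim := L.lim
  sub := L.sub
  inj := L.inj
  supp := L.supp
  contG := fun a b => (L.contG a b).congr fun w hw => hG w hw a b
  contJ := L.contJ.congr fun w hw => hJ w hw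
  meas := by
    intro φ hφ hc hs
    have h1 := L.meas φ hφ hc hs
    have e1 : (fun w => φ w * J w) = fun w => φ w * J' w := by
      funext w
      by_cases hw : w ∈ tsupport φ
      · rw [hJ w (hs hw)]
      · rw [image_eq_zero_of_notMem_tsupport hw, zero_mul, zero_mul]
    rwa [e1] at h1
  gram := by
    intro φ hφ hc hs a b
    have h1 := L.gram φ hφ hc hs a b
    have e1 : ∀ k, (fun y => |φ (U k y)| *
        |mGam 4 (fun z => U k z a) (fun z => U k z b) y - G (U k y) a b|) = fun y =>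
        |φ (U k y)| * |mGam 4 (fun z => U k z a) (fun z => U k z b) y - G' (U k y) a b| := by
      intro k
      funext y
      by_cases hw : U k y ∈ tsupport φ
      · rw [hG _ (hs hw)]
      · rw [image_eq_zero_of_notMem_tsupport hw, abs_zero, zero_mul, zero_mul]
    simpa only [e1] using h1

variable {ρ α C C' ε ε₁ δ lam : ℝ} {lamk : ℕ → ℝ} {u : ∀ k, Fin 4 → M k → ℝ}
  {h : UL q → Matrix (Fin 4) (Fin 4) ℝ} {r₀ : ℝ} {U : UL q → EuclideanSpace ℝ (Fin 4)}
  {e : OpenPartialHomeomorph (UL q) (EuclideanSpace ℝ (Fin 4))}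

theorem continuousOn_h (A : AvOut x hx ρ α C' ε₁ u h) (hα : 0 < α) (a b : Fin 4) :
    ContinuousOn (fun z => h z a b) (ball (UL.mk x hx) (4 * ρ)) := by
  intro z hz
  rw [ContinuousWithinAt, tendsto_iff_dist_tendsto_zero]
  have h1 : Tendsto (fun z' => C' * dist z' z ^ α) (𝓝[ball (UL.mk x hx) (4 * ρ)] z) (𝓝 0) := by
    have h2 : Tendsto (fun z' => dist z' z) (𝓝[ball (UL.mk x hx) (4 * ρ)] z) (𝓝 0) := by
      have h3 : ContinuousWithinAt (fun z' => dist z' z) (ball (UL.mk x hx) (4 * ρ)) z :=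
        (continuous_id.dist continuous_const).continuousWithinAt
      rw [ContinuousWithinAt, dist_self] at h3
      exact h3
    have h4 := (h2.rpow_const (p := α) (Or.inr hα.le)).const_mul C'
    rwa [Real.zero_rpow hα.ne', mul_zero] at h4
  refine squeeze_zero' (Eventually.of_forall fun _ => dist_nonneg) ?_ h1
  filter_upwards [self_mem_nhdsWithin] with z' hz'
  rw [Real.dist_eq]
  exact A.hold z' hz' z hz a b

/-- the chart data of `LimDef_41` form a `Link`. -/
theorem link_of (H : HData x ρ α C ε δ lam lamk u) (A : AvOut x hx ρ α C' ε₁ u h)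
    (Ch : ChOut x hx ρ u h r₀ U e) (Sp : SpOut x u r₀ e) (Ms : MsOut x u h r₀ e)
    (St : StOut x u h r₀ e) (hdet : ∀ w ∈ e.target, 0 < (h (e.symm w)).det) :
    Link x hx r₀ (fun k y => WithLp.toLp 2 fun a => u k a y) e
      (fun w a b => h (e.symm w) a b) (fun w => (√(h (e.symm w)).det)⁻¹) := by
  have hr1 := Ch.r_le
  have hr0 := Ch.r_pos
  have hρ := H.ρ_pos
  have hcG : ∀ a b, ContinuousOn (fun w => h (e.symm w) a b) e.target := fun a b =>
    (continuousOn_h A (lt_trans (by norm_num) H.α_gt) a b).comp e.continuousOn_symm fun w hw => by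
      have h1 := e.map_target hw
      rw [Ch.source] at h1
      exact ball_subset_ball (by linarith) h1
  constructor
  · intro a
    filter_upwards [H.smooth, H.harm] with k hk1 hk2
    have hsub : ball (x k) r₀ ⊆ ball (x k) (16 * ρ) := ball_subset_ball (by linarith)
    exact ⟨(hk1 a).mono hsub, fun p hp => hk2 a p (hsub hp)⟩
  · intro a y hy hyb
    have h1 := Ch.lim a y hy (ball_subset_ball (by linarith) hyb)
    simp only [Ch.eq]
    exact h1
  · rw [Ch.source]
  · intro z hz _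
    rw [Ch.source]
    exact hz
  · intro K hK hKt
    obtain ⟨r₁, -, hr₁, hev⟩ := Sp K hK hKt
    refine ⟨r₁, hr₁, hev.mono fun k hk y hy hyK => ?_⟩
    rw [dist_comm]
    exact hk y (ball_subset_closedBall hy) hyK
  · exact hcG
  · have h1 : ContinuousOn (fun w => (h (e.symm w)).det) e.target := by
      have h2 : ContinuousOn (fun w => h (e.symm w)) e.target :=
        continuousOn_pi.2 fun a => continuousOn_pi.2 fun b => hcG a b
      exact continuous_id.matrix_det.comp_continuousOn h2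
    refine ContinuousOn.inv₀ (Real.continuous_sqrt.comp_continuousOn h1) fun w hw => ?_
    exact (Real.sqrt_pos.2 (hdet w hw)).ne'
  · intro φ hφ hc hs
    exact Ms φ ⟨hφ, hc, hs⟩
  · intro φ hφ hc hs a b
    have h1 := St φ ⟨hφ, hc, hs⟩ a b
    simpa only [abs_mul] using h1

variable [∀ k, IsRiemannianManifold 𝓘(ℝ, EuclideanSpace ℝ (Fin 4)) (M k)]
  [∀ k, CompleteSpace (M k)] [∀ k, ConnectedSpace (M k)]

/-- **leaf WH.** -/
theorem wh_all (H : HData x ρ α C ε δ lam lamk u) (A : AvOut x hx ρ α C' ε₁ u h)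
    (Ch : ChOut x hx ρ u h r₀ U e) (Sp : SpOut x u r₀ e) (Ms : MsOut x u h r₀ e)
    (St : StOut x u h r₀ e) {lam' : ℝ} (R : RChart 4 (UL q) lam') (hRe : R.e = e)
    (hRh : ∀ w ∈ e.target, R.h w = (h (e.symm w))⁻¹) :
    HarmChart 4 R.e ∧ CoordHarm R ∧ WH 4 R := by
  subst hRe
  have hpd : ∀ w ∈ R.e.target, (h (R.e.symm w)).PosDef := by
    intro w hw
    have h1 := R.riem.posDef w hw
    rw [hRh w hw] at h1
    have h2 : (h (R.e.symm w)).det ≠ 0 := by
      intro h0
      have h3 := h1.det_pos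
      rw [Matrix.nonsing_inv_apply_not_isUnit _ (by rw [h0]; exact not_isUnit_zero)] at h3
      simp at h3
    have h4 := h1.inv
    rwa [Matrix.nonsing_inv_nonsing_inv _ (Ne.isUnit h2)] at h4
  have hdet : ∀ w ∈ R.e.target, 0 < (h (R.e.symm w)).det := fun w hw => (hpd w hw).det_pos
  have L := link_of H A Ch Sp Ms St hdet
  have L' : Link x hx r₀ (fun k y => WithLp.toLp 2 fun a => u k a y) R.e
      (fun w i j => inverseField R.h w i j) (fun w => Real.sqrt (R.h w).det) := by
    refine L.congr (fun w hw a b => ?_) fun w hw => ?_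
    · unfold inverseField
      rw [hRh w hw, Matrix.nonsing_inv_nonsing_inv _ (hdet w hw).ne'.isUnit]
    · rw [hRh w hw, Matrix.det_nonsing_inv, Ring.inverse_eq_inv', Real.sqrt_inv]
  exact ⟨L'.harmChart, L'.coordHarm, L'.wh_chart⟩

end Crest.Agent.R249.WH_509
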