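import Crest.Agent.R249.PoisC_324_Mg
import Crest.Agent.R249.Fin2_832
import Crest.Agent.R249.Fin1_832
import Crest.Agent.R249.WH4_509
import Crest.Agent.R249.Fin3_832
import Crest.Agent.R249.LimH_41
import Crest.Agent.R249.St1_174
import Crest.Agent.R249.Ch3_174
import Crest.Agent.R249.Av1_509
import Crest.Agent.R249.SD4_308
import Crest.Agent.R085.Lim1
import Crest.Agent.R249.Ul1_174
import Crest.Agent.R249.LimDef_41
import Crest.Agent.R249.Ms2_222
import Crest.Agent.R249.Vf4_281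
import Crest.Agent.R249.Ch1_174
import Crest.Agent.R249.Sta6_397
import Crest.Agent.R249.Alg2_104
import Crest.Agent.R249.Sch1_104

-- ▼ part R249/AsmD6_832
section

/-!
# R249 (S0386), part D: what is left (helper832)

`S0386_of_parts` : the statement of S0386 from `IdxStmt` (part C) and the closed statements of
D3 (`SDStmt`, `AvStmt`, `ChStmt`, `MsStStmt`, `SysStmt`, `RegStmt`, `WhStmt`).
-/

set_option autoImplicit false
set_option maxSynthPendingDepth 3
noncomputable section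
open Set Filter Topology Bundle MeasureTheory Metric
open scoped ContDiff Manifold ENNReal NNReal
open Crest.GeometryTopology.CoordMetric Crest.GeometryTopology.ChartCurvature
  Crest.GeometryTopology.RicciEnergy Crest.GeometryTopology.PointedLimit
open Crest.Agent.R249.D1Def104 Crest.Agent.R249.Ul174 Crest.Agent.R249.Pul47
  Crest.Agent.R249.Len47 Crest.Agent.R249.LimDef41 Crest.Agent.R249.Fin832

namespace Crest.Agent.R249.AsmD832

/-- the conclusion of S0386 -/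
def S0386Concl : Prop :=
  ∃ ε : ℝ, 0 < ε ∧ ∀ (M : Type) [MetricSpace M] [ChartedSpace (EuclideanSpace ℝ (Fin 4)) M]
      [IsManifold 𝓘(ℝ, EuclideanSpace ℝ (Fin 4)) ∞ M] [CompactSpace M] [SimplyConnectedSpace M]
      [RiemannianBundle (fun x : M => TangentSpace 𝓘(ℝ, EuclideanSpace ℝ (Fin 4)) x)]
      [IsContMDiffRiemannianBundle 𝓘(ℝ, EuclideanSpace ℝ (Fin 4)) ∞ (EuclideanSpace ℝ (Fin 4))
        (fun x : M => TangentSpace 𝓘(ℝ, EuclideanSpace ℝ (Fin 4)) x)]
      [IsRiemannianManifold 𝓘(ℝ, EuclideanSpace ℝ (Fin 4)) M]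
      [MeasurableSpace M] [BorelSpace M],
      HasNonnegSectionalCurvature 4 M → tracefreeRicciEnergy 4 M < ENNReal.ofReal ε →
        IsDiffeoToRoundFourSphere M ∨ IsDiffeoToComplexProjectivePlane M ∨
          IsDiffeoToTwoSphereProduct M

/-- S0386 from part C and THEOREM R -/
theorem S0386_of_idx_r (hI : IdxStmt) (hR : RThm)
    (hcl : EinsteinNonnegSectionalAreModelCovered) : S0386Concl :=
  S0386_of' hI Grn324.poisStmt hR Cov11_802.covEnd hcl


end Crest.Agent.R249.AsmD832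
end
end

-- ▼ part R249/Fin4_832
section

/-!
# R249, D3-LIM/FIN (helper832), part 4: `whStmt : WhStmt` (from helper509's `wh_all`)
-/

set_option autoImplicit false
set_option maxSynthPendingDepth 3
noncomputable section
open Set Filter Topology Bundle MeasureTheory Metric
open scoped ContDiff Manifold ENNReal NNReal Matrix
open Crest.GeometryTopology.CoordMetric Crest.GeometryTopology.ChartCurvature
  Crest.GeometryTopology.RicciEnergy Crest.GeometryTopology.PointedLimit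
open Crest.Agent.R249.Ul174 Crest.Agent.R249.AsmD832 Crest.Agent.R249.LimDef41

namespace Crest.Agent.R249.Fin832

/-- **`WhStmt` holds.** -/
theorem whStmt : WhStmt := by
  refine ⟨1, 1, one_pos, one_pos, ?_⟩
  intro M _ _ _ _ _ _ _ _ _ _ q x hx ρ α C C' ε δ lam lamk u h r₀ U e _ hD hA hC hS hM hSt R
    hRe hRh
  exact WH_509.wh_all hD hA hC hS hM hSt R hRe fun w _ => by rw [hRh]; rfl

end Crest.Agent.R249.Fin832
end
end

-- ▼ part R249/Fin5_832
section

/-!
# R249, D3-LIM/FIN (helper832), part 5: `SysStmt` from the leaf BD and helper41's `lim_main`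

* `BDStmt` : the closed statement of the leaf BD (`LData` from `HData`, ..., `StOut`);
* `sys_of_bd : BDStmt → SysStmt`.
-/

set_option autoImplicit false
set_option maxSynthPendingDepth 3
noncomputable section
open Set Filter Topology Bundle MeasureTheory Metric
open scoped ContDiff Manifold ENNReal NNReal Matrix
open Crest.GeometryTopology.CoordMetric Crest.GeometryTopology.ChartCurvature
  Crest.GeometryTopology.RicciEnergy Crest.GeometryTopology.PointedLimit
open Crest.Agent.R249.Ul174 Crest.Agent.R249.AsmD832 Crest.Agent.R249.LimDef41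

namespace Crest.Agent.R249.Fin832

/-- closed statement of the leaf BD -/
def BDStmt : Prop := ∃ ε₁ δ₁ : ℝ, 0 < ε₁ ∧ 0 < δ₁ ∧
  ∀ (M : ℕ → Type) [∀ k, MetricSpace (M k)] [∀ k, CompleteSpace (M k)]
    [∀ k, ConnectedSpace (M k)] [∀ k, ChartedSpace (EuclideanSpace ℝ (Fin 4)) (M k)]
    [∀ k, IsManifold 𝓘(ℝ, EuclideanSpace ℝ (Fin 4)) ∞ (M k)]
    [∀ k, RiemannianBundle (fun x : M k => TangentSpace 𝓘(ℝ, EuclideanSpace ℝ (Fin 4)) x)]
    [∀ k, IsContMDiffRiemannianBundle 𝓘(ℝ, EuclideanSpace ℝ (Fin 4)) ∞ (EuclideanSpace ℝ (Fin 4))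
      (fun x : M k => TangentSpace 𝓘(ℝ, EuclideanSpace ℝ (Fin 4)) x)]
    [∀ k, IsRiemannianManifold 𝓘(ℝ, EuclideanSpace ℝ (Fin 4)) (M k)]
    [∀ k, MeasurableSpace (M k)] [∀ k, BorelSpace (M k)]
    (q : ∀ k, M k) (x : ∀ k, M k) (hx : Bd q x) (ρ α C C' ε δ lam : ℝ) (lamk : ℕ → ℝ)
    (u : ∀ k, Fin 4 → M k → ℝ) (h : UL q → Matrix (Fin 4) (Fin 4) ℝ) (r₀ : ℝ)
    (U : UL q → EuclideanSpace ℝ (Fin 4))
    (e : OpenPartialHomeomorph (UL q) (EuclideanSpace ℝ (Fin 4))), δ ≤ δ₁ →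
    HData x ρ α C ε δ lam lamk u → AvOut x hx ρ α C' ε₁ u h → ChOut x hx ρ u h r₀ U e →
    SpOut x u r₀ e → MsOut x u h r₀ e → StOut x u h r₀ e →
    ∃ (m : ∀ k, Measure (M k)) (v : ∀ k, M k → EuclideanSpace ℝ (Fin 4))
      (F : ∀ k, M k → Matrix (Fin 4) (Fin 4) ℝ)
      (P : ∀ k, M k → Fin 4 → Fin 4 → Fin 4 → ℝ) (D G R : ∀ k, M k → Fin 4 → Fin 4 → ℝ)
      (Mm C'' : ℝ),
      Lim41.LData om e.target m v (fun y => h (e.symm y)) F P D G R lam Mm C'' α

/-- the output is monotone in the constant of the Morrey bound -/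
theorem lOut_mono {n : ℕ} {Ω : Set (EuclideanSpace ℝ (Fin n))}
    {h : EuclideanSpace ℝ (Fin n) → Matrix (Fin n) (Fin n) ℝ}
    {H : Fin n → Fin n → Fin n → EuclideanSpace ℝ (Fin n) → ℝ} {lam C C' α : ℝ}
    (hL : Lim41.LOut Ω h H lam C α) (hC : C ≤ C') : Lim41.LOut Ω h H lam C' α :=
  { hL with
    morrey := fun z r hr hz a b c => (hL.morrey z r hr hz a b c).trans
      (mul_le_mul_of_nonneg_right hC (by positivity)) }

theorem sys_of_bd (hB : BDStmt) : SysStmt := by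
  obtain ⟨ε₁, δ₁, hε₁, hδ₁, hB⟩ := hB
  refine ⟨ε₁, δ₁, hε₁, hδ₁, ?_⟩
  intro M _ _ _ _ _ _ _ _ _ _ q x hx ρ α C C' ε δ lam lamk u h r₀ U e hδ hD hA hC hS hM hSt
  obtain ⟨m, v, F, P, D, G, R, Mm, C'', hL⟩ :=
    hB M q x hx ρ α C C' ε δ lam lamk u h r₀ U e hδ hD hA hC hS hM hSt
  obtain ⟨H, C₃, hO⟩ := Lim41.lim_main hL
  refine ⟨H, max C'' C₃, fun y hy z hz a b => ?_, lOut_mono hO (le_max_right _ _)⟩
  exact (hL.h_hold y hy z hz a b).trans (mul_le_mul_of_nonneg_right (le_max_left _ _)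
    (by positivity))

end Crest.Agent.R249.Fin832
end
end

-- ▼ part R249/Av2_509
section

/-!
# R249, D3-LIM/AV (2) (helper509): leaf AV of `LimDef_41`

`avStmt : LimDef41.AvStmt` : the averages of the Gram matrices converge, the limit is Hölder.
-/

set_option autoImplicit false
set_option maxSynthPendingDepth 3
set_option linter.unusedSectionVars false

open scoped ContDiff ENNReal NNReal Topology Manifold Bundle RealInnerProductSpace
open MeasureTheory Set Filter Metric Bundle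
open Crest.GeometryTopology.CoordMetric Crest.GeometryTopology.ChartCurvature
open Crest.Agent.R247 Crest.Agent.R247.Bo84
open Crest.GeometryTopology.PointedLimit Crest.Agent.R247.Mcp688
open Crest.Agent.R249.Dec308 (om4 om4_ge real_up vol4)
open Crest.Agent.R249.Ul174 Crest.Agent.R249.LimDef41
open Crest.Agent.R249.LPt_191 (N1 N1_nonneg N1_add_le N1_neg abs_le_N1)

noncomputable section

namespace Crest.Agent.R249.Av509

variable {M : ℕ → Type} [∀ k, MetricSpace (M k)] [∀ k, CompleteSpace (M k)]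
  [∀ k, ConnectedSpace (M k)] [∀ k, ChartedSpace (EuclideanSpace ℝ (Fin 4)) (M k)]
  [∀ k, IsManifold 𝓘(ℝ, EuclideanSpace ℝ (Fin 4)) ∞ (M k)]
  [∀ k, RiemannianBundle (fun x : M k => TangentSpace 𝓘(ℝ, EuclideanSpace ℝ (Fin 4)) x)]
  [∀ k, IsContMDiffRiemannianBundle 𝓘(ℝ, EuclideanSpace ℝ (Fin 4)) ∞ (EuclideanSpace ℝ (Fin 4))
    (fun x : M k => TangentSpace 𝓘(ℝ, EuclideanSpace ℝ (Fin 4)) x)]
  [∀ k, IsRiemannianManifold 𝓘(ℝ, EuclideanSpace ℝ (Fin 4)) (M k)]
  [∀ k, MeasurableSpace (M k)] [∀ k, BorelSpace (M k)]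

variable {q : ∀ k, M k} {x : ∀ k, M k} {hx : Bd q x}
variable {ρ α C ε δ lam : ℝ} {lamk : ℕ → ℝ} {u : ∀ k, Fin 4 → M k → ℝ}

/-- the integral of `Dev` over a ball -/
def DI (u : ∀ k, Fin 4 → M k → ℝ) (k : ℕ) (y : M k) (s : ℝ) (L : Matrix (Fin 4) (Fin 4) ℝ) : ℝ :=
  ∫ z in ball y s, Dev (u k) L z ∂(μHE[4] : Measure (M k))

/-- what is known for a good index `k` -/
structure Gd (x : ∀ k, M k) (ρ : ℝ) (u : ∀ k, Fin 4 → M k → ℝ) (k : ℕ) : Prop where
  ric : HasRicciLowerBound 4 (M k) 0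
  smooth : ∀ a, ∀ z ∈ ball (x k) (16 * ρ), ContMDiffAt (𝓡 4) 𝓘(ℝ, ℝ) ∞ (u k a) z
  grad : ∀ a, ∀ z ∈ ball (x k) (16 * ρ), mGam 4 (u k a) (u k a) z ≤ 4
  lo : ∀ y ∈ ball (x k) (8 * ρ), ∀ r : ℝ, 0 < r → r ≤ ρ →
    om4 / 2 * r ^ 4 ≤ (μHE[4] : Measure (M k)).real (ball y r)
  up : ∀ y : M k, ∀ r : ℝ, 0 < r → (μHE[4] : Measure (M k)).real (ball y r) ≤ om4 * r ^ 4

theorem gd (H : HData x ρ α C ε δ lam lamk u) (hδ : δ ≤ 1 / 2) : ∀ᶠ k in om, Gd x ρ u k := by
  have h0 := om4_ge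
  filter_upwards [H.ric, H.smooth, H.harm, H.pinch] with k h1 h2 h3 h4
  have hρ := H.ρ_pos
  have hup : ∀ y : M k, ∀ r : ℝ, 0 < r → (μHE[4] : Measure (M k)).real (ball y r) ≤ om4 * r ^ 4 := by
    intro y r hr
    have := HR216.secondCountable_of_riemannian 4 (M k)
    have : Nonempty (M k) := ⟨y⟩
    exact real_up h1 y r hr
  refine ⟨h1, fun a z hz => (h2 a).contMDiffAt (isOpen_ball.mem_nhds hz), fun a z hz => (h3 a z hz).2,
    fun y hy r hr hrρ => ?_, hup⟩
  have h5 := h4 y (ball_subset_ball (by linarith) hy) r hr (by linarith)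
  rw [vol4 hr, ← ENNReal.ofReal_mul (by linarith)] at h5
  have h6 : ENNReal.ofReal (om4 / 2 * r ^ 4) ≤ (μHE[4] : Measure (M k)) (ball y r) := by
    refine le_trans (ENNReal.ofReal_le_ofReal ?_) h5
    have h7 : 0 ≤ om4 * r ^ 4 := by positivity
    nlinarith
  exact (ENNReal.ofReal_le_iff_le_toReal (ball_fin y r)).1 h6

variable {k : ℕ} {y y' : M k} {s r : ℝ} {L L' : Matrix (Fin 4) (Fin 4) ℝ}

theorem Gd.sub (hρ : 0 < ρ) (hy : y ∈ ball (x k) (8 * ρ)) {t : ℝ} (ht : t ≤ 4 * ρ) :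
    closedBall y t ⊆ ball (x k) (16 * ρ) := by
  intro z hz
  rw [mem_closedBall] at hz
  rw [mem_ball] at hy ⊢
  have := dist_triangle z y (x k)
  linarith

theorem Gd.DI_le (G : Gd x ρ u k) (hρ : 0 < ρ) (hy : y ∈ ball (x k) (8 * ρ)) (hs : 0 < s)
    (hsρ : s ≤ ρ) : DI u k y s L ≤ DI u k y s L' + om4 * s ^ 4 * N1 (L - L') := by
  have h1 := int_Dev_le (L := L) (L' := L') G.smooth (Gd.sub hρ hy (t := s) (by linarith))
  have h2 := mul_le_mul_of_nonneg_right (G.up y s hs) (N1_nonneg (L - L'))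
  unfold DI
  linarith

theorem Gd.N1_le (G : Gd x ρ u k) (hρ : 0 < ρ) (hy : y ∈ ball (x k) (8 * ρ)) (hs : 0 < s)
    (hsρ : s ≤ ρ) : om4 / 2 * s ^ 4 * N1 (L - L') ≤ DI u k y s L + DI u k y s L' := by
  refine le_trans ?_ (N1_int_le G.smooth (Gd.sub hρ hy (by linarith)))
  exact mul_le_mul_of_nonneg_right (G.lo y hy s hs hsρ) (N1_nonneg (L - L'))

theorem Gd.mono (G : Gd x ρ u k) (hρ : 0 < ρ) (hy : y ∈ ball (x k) (8 * ρ)) (hsρ : s ≤ ρ)
    (h : ball y' r ⊆ ball y s) : DI u k y' r L ≤ DI u k y s L :=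
  int_Dev_mono G.smooth (Gd.sub hρ hy (by linarith)) h


/-- Poincaré at all points, one scale -/
theorem av_k (H : HData x ρ α C ε δ lam lamk u) (hδ : δ ≤ 1 / 2) {s : ℝ} (hs : 0 < s)
    (hsρ : s ≤ ρ) : ∀ᶠ k in om, ∀ y ∈ ball (x k) (8 * ρ), ∃ A : Matrix (Fin 4) (Fin 4) ℝ,
      (∀ a b, |A a b| ≤ 4) ∧ DI u k y s A ≤ KP C * s ^ (4 + α) := by
  have hρ := H.ρ_pos
  have hα := H.α_gt
  filter_upwards [gd H hδ, H.hess (2 * s) (by positivity)] with k G hh
  intro y hy
  exact exists_av G.ric (by linarith) H.α_lt.le H.C_pos.le hs isOpen_ball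
    (Gd.sub hρ hy (by linarith)) G.smooth G.grad (hh y hy (2 * s) le_rfl (by linarith))

/-- the constants -/
def K1 (C : ℝ) : ℝ := KP C + om4

def K2 (C α : ℝ) : ℝ := 64 * K1 C / (1 - 2⁻¹ ^ α)

def K3 (C α : ℝ) : ℝ := 32 * (K1 C + 16 * om4 * K2 C α)

theorem K1_pos (hC : 0 < C) : 0 < K1 C := by
  have h0 := om4_ge
  have := KP_pos hC
  unfold K1
  linarith

theorem half_pow_lt (hα : 0 < α) : (2⁻¹ : ℝ) ^ α < 1 :=
  Real.rpow_lt_one (by norm_num) (by norm_num) hα

theorem K2_pos (hC : 0 < C) (hα : 0 < α) : 0 < K2 C α := by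
  have h1 := K1_pos hC
  have h2 := half_pow_lt hα
  unfold K2
  exact div_pos (by positivity) (by linarith)

theorem K3_pos (hC : 0 < C) (hα : 0 < α) : 0 < K3 C α := by
  have h1 := K1_pos hC
  have h2 := K2_pos hC hα
  have h0 := om4_ge
  unfold K3
  positivity

/-- **the limit matrix at a point** -/
theorem exists_L (H : HData x ρ α C ε δ lam lamk u) (hδ : δ ≤ 1 / 2) {z : ∀ k, M k}
    (hz : ∀ᶠ k in om, z k ∈ ball (x k) (8 * ρ)) : ∃ L : Matrix (Fin 4) (Fin 4) ℝ,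
      ∀ s : ℝ, 0 < s → s ≤ ρ → ∀ᶠ k in om, DI u k (z k) s L ≤ K3 C α * s ^ (4 + α) := by
  classical
  have hρ := H.ρ_pos
  have hα : 0 < α := by linarith [H.α_gt]
  have hC := H.C_pos
  have h0 := om4_ge
  have hK1 := K1_pos hC
  have hθ := half_pow_lt hα
  have hθ0 : (0:ℝ) < 2⁻¹ ^ α := Real.rpow_pos_of_pos (by norm_num) _
  set sj : ℕ → ℝ := fun j => ρ * 2⁻¹ ^ j with hsj
  have hsj0 : ∀ j, 0 < sj j := fun j => by positivity
  have hsj1 : ∀ j, sj j ≤ ρ := fun j => by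
    have : (2⁻¹ : ℝ) ^ j ≤ 1 := pow_le_one₀ (by norm_num) (by norm_num)
    calc sj j = ρ * 2⁻¹ ^ j := rfl
      _ ≤ ρ * 1 := by gcongr
      _ = ρ := mul_one ρ
  have hsjs : ∀ j, sj (j + 1) = sj j / 2 := fun j => by
    simp only [hsj, pow_succ]; ring
  -- the averages
  have hA : ∀ j k, ∃ A : Matrix (Fin 4) (Fin 4) ℝ, (∀ a b, |A a b| ≤ 4) ∧
      ((∃ A : Matrix (Fin 4) (Fin 4) ℝ, (∀ a b, |A a b| ≤ 4) ∧
        DI u k (z k) (sj j) A ≤ KP C * sj j ^ (4 + α)) →
        DI u k (z k) (sj j) A ≤ KP C * sj j ^ (4 + α)) := by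
    intro j k
    by_cases h : ∃ A : Matrix (Fin 4) (Fin 4) ℝ, (∀ a b, |A a b| ≤ 4) ∧
        DI u k (z k) (sj j) A ≤ KP C * sj j ^ (4 + α)
    · obtain ⟨A, hA1, hA2⟩ := h
      exact ⟨A, hA1, fun _ => hA2⟩
    · exact ⟨0, fun a b => by simp, fun h' => absurd h' h⟩
  choose A hA1 hA2 using hA
  have hA3 : ∀ j, ∀ᶠ k in om, DI u k (z k) (sj j) (A j k) ≤ KP C * sj j ^ (4 + α) := by
    intro j
    filter_upwards [av_k H hδ (hsj0 j) (hsj1 j), hz] with k hk hzk
    exact hA2 j k (hk (z k) hzk)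
  -- limits
  have hl : ∀ j a b, ∃ l : ℝ, Tendsto (fun k => A j k a b) om (𝓝 l) := fun j a b => by
    obtain ⟨l, -, hl⟩ := exists_lim_real (f := fun k => A j k a b) (C := 4)
      (Eventually.of_forall fun k => hA1 j k a b)
    exact ⟨l, hl⟩
  choose B hB using hl
  set Bm : ℕ → Matrix (Fin 4) (Fin 4) ℝ := fun j => Matrix.of (B j) with hBm
  have hN : ∀ j, ∀ᶠ k in om, N1 (Bm j - A j k) ≤ sj j ^ α := by
    intro j
    have h1 : Tendsto (fun k => N1 (Bm j - A j k)) om (𝓝 0) := by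
      have h2 : Tendsto (fun k => ∑ a, ∑ b, |B j a b - A j k a b|) om
          (𝓝 (∑ a, ∑ b, |B j a b - B j a b|)) :=
        tendsto_finsetSum _ fun a _ => tendsto_finsetSum _ fun b _ =>
          (tendsto_const_nhds.sub (hB j a b)).abs
      simp only [sub_self, abs_zero, Finset.sum_const_zero] at h2
      exact h2
    exact (h1.eventually_lt_const (Real.rpow_pos_of_pos (hsj0 j) α)).mono fun k hk => hk.le
  have e4 : ∀ t : ℝ, 0 < t → t ^ 4 * t ^ α = t ^ (4 + α) := fun t ht => by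
    rw [← Real.rpow_natCast t 4, ← Real.rpow_add ht]
    norm_num
  have hG : ∀ j, ∀ᶠ k in om, DI u k (z k) (sj j) (Bm j) ≤ K1 C * sj j ^ (4 + α) := by
    intro j
    filter_upwards [gd H hδ, hz, hA3 j, hN j] with k G hzk h1 h2
    have h3 := G.DI_le (L := Bm j) (L' := A j k) hρ hzk (hsj0 j) (hsj1 j)
    have h4 : om4 * sj j ^ 4 * N1 (Bm j - A j k) ≤ om4 * sj j ^ 4 * sj j ^ α :=
      mul_le_mul_of_nonneg_left h2 (by have := hsj0 j; positivity)
    have h5 : om4 * sj j ^ 4 * sj j ^ α = om4 * sj j ^ (4 + α) := by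
      rw [← e4 _ (hsj0 j)]; ring
    rw [h5] at h4
    unfold K1
    linarith
  -- consecutive scales
  have hstep : ∀ j, N1 (Bm j - Bm (j + 1)) ≤ 64 * K1 C * sj j ^ α := by
    intro j
    obtain ⟨k, G, hzk, h1, h2⟩ := ((gd H hδ).and (hz.and ((hG j).and (hG (j + 1))))).exists
    have h3 := G.N1_le (L := Bm j) (L' := Bm (j + 1)) hρ hzk (hsj0 (j + 1)) (hsj1 (j + 1))
    have h4 : DI u k (z k) (sj (j + 1)) (Bm j) ≤ DI u k (z k) (sj j) (Bm j) :=
      G.mono hρ hzk (hsj1 j) (ball_subset_ball (by rw [hsjs]; linarith [hsj0 j]))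
    have h5 : sj (j + 1) ^ (4 + α) ≤ sj j ^ (4 + α) :=
      Real.rpow_le_rpow (hsj0 _).le (by rw [hsjs]; linarith [hsj0 j]) (by linarith)
    have h6 : om4 / 2 * sj (j + 1) ^ 4 * N1 (Bm j - Bm (j + 1)) ≤ 2 * K1 C * sj j ^ (4 + α) := by
      have := mul_le_mul_of_nonneg_left h5 hK1.le
      linarith
    rw [hsjs, ← e4 _ (hsj0 j)] at h6
    have h7 : 0 < sj j ^ 4 := by have := hsj0 j; positivity
    have h8 : om4 * N1 (Bm j - Bm (j + 1)) ≤ 64 * K1 C * sj j ^ α := by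
      have h9 : sj j ^ 4 * (om4 * N1 (Bm j - Bm (j + 1))) ≤ sj j ^ 4 * (64 * K1 C * sj j ^ α) := by
        nlinarith
      exact le_of_mul_le_mul_left h9 h7
    have h9 : N1 (Bm j - Bm (j + 1)) ≤ om4 * N1 (Bm j - Bm (j + 1)) :=
      le_mul_of_one_le_left (N1_nonneg _) h0
    linarith
  have hsα : ∀ j, sj j ^ α = ρ ^ α * (2⁻¹ ^ α) ^ j := fun j => by
    simp only [hsj]
    rw [Real.mul_rpow hρ.le (by positivity), ← Real.rpow_natCast (2⁻¹ : ℝ) j, ← Real.rpow_mul (by norm_num),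
      ← Real.rpow_natCast ((2⁻¹ : ℝ) ^ α) j, ← Real.rpow_mul (by norm_num), mul_comm (j:ℝ) α]
  -- the limit
  have hdist : ∀ a b j, dist (B j a b) (B (j + 1) a b) ≤ 64 * K1 C * ρ ^ α * (2⁻¹ ^ α) ^ j := by
    intro a b j
    rw [Real.dist_eq]
    have h1 := (abs_le_N1 (Bm j - Bm (j + 1)) a b).trans (hstep j)
    rw [hsα j] at h1
    refine le_trans (le_of_eq ?_) (h1.trans (le_of_eq (by ring)))
    rfl
  have hlim : ∀ a b, ∃ l, Tendsto (fun j => B j a b) atTop (𝓝 l) := fun a b =>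
    cauchySeq_tendsto_of_complete (cauchySeq_of_le_geometric _ _ hθ (hdist a b))
  choose L hL using hlim
  have hBL : ∀ j, N1 (Matrix.of L - Bm j) ≤ 16 * K2 C α * sj j ^ α := by
    intro j
    have h1 : ∀ a b, |L a b - B j a b| ≤ K2 C α * sj j ^ α := by
      intro a b
      have := dist_le_of_le_geometric_of_tendsto _ _ hθ (hdist a b) (hL a b) j
      rw [dist_comm, Real.dist_eq] at this
      refine this.trans (le_of_eq ?_)
      rw [hsα j]
      unfold K2
      field_simp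
    calc N1 (Matrix.of L - Bm j) = ∑ a, ∑ b, |L a b - B j a b| := rfl
      _ ≤ ∑ _a : Fin 4, ∑ _b : Fin 4, K2 C α * sj j ^ α :=
          Finset.sum_le_sum fun a _ => Finset.sum_le_sum fun b _ => h1 a b
      _ = 16 * K2 C α * sj j ^ α := by
          simp only [Finset.sum_const, Finset.card_univ, Fintype.card_fin, nsmul_eq_mul]
          push_cast
          ring
  refine ⟨Matrix.of L, fun s hs hsρ => ?_⟩
  obtain ⟨j, hj1, hj2⟩ := exists_nat_pow_near_of_lt_one (x := s / ρ) (y := 2⁻¹)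
    (by positivity) ((div_le_one hρ).2 hsρ) (by norm_num) (by norm_num)
  have hs1 : s ≤ sj j := by
    rw [div_le_iff₀ hρ] at hj2
    simp only [hsj]
    linarith
  have hs2 : sj j ≤ 2 * s := by
    rw [lt_div_iff₀ hρ, pow_succ] at hj1
    simp only [hsj]
    linarith
  filter_upwards [gd H hδ, hz, hG j] with k G hzk h1
  have h2 := G.DI_le (L := Matrix.of L) (L' := Bm j) hρ hzk (hsj0 j) (hsj1 j)
  have h3 : DI u k (z k) s (Matrix.of L) ≤ DI u k (z k) (sj j) (Matrix.of L) :=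
    G.mono hρ hzk (hsj1 j) (ball_subset_ball hs1)
  have h4 : om4 * sj j ^ 4 * N1 (Matrix.of L - Bm j) ≤
      om4 * sj j ^ 4 * (16 * K2 C α * sj j ^ α) :=
    mul_le_mul_of_nonneg_left (hBL j) (by have := hsj0 j; positivity)
  have h5 : om4 * sj j ^ 4 * (16 * K2 C α * sj j ^ α) = 16 * om4 * K2 C α * sj j ^ (4 + α) := by
    rw [← e4 _ (hsj0 j)]; ring
  rw [h5] at h4
  have h6 : sj j ^ (4 + α) ≤ 32 * s ^ (4 + α) := by
    calc sj j ^ (4 + α) ≤ (2 * s) ^ (4 + α) :=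
          Real.rpow_le_rpow (hsj0 j).le hs2 (by linarith)
      _ = 2 ^ (4 + α) * s ^ (4 + α) := Real.mul_rpow (by norm_num) hs.le
      _ ≤ 32 * s ^ (4 + α) := by
          have h7 : (2:ℝ) ^ (4 + α) ≤ 2 ^ (5:ℝ) :=
            Real.rpow_le_rpow_of_exponent_le (by norm_num) (by linarith [H.α_lt])
          have h8 : (2:ℝ) ^ (5:ℝ) = 32 := by norm_num
          rw [h8] at h7
          exact mul_le_mul_of_nonneg_right h7 (Real.rpow_nonneg hs.le _)
  have hK2 := K2_pos hC hα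
  calc DI u k (z k) s (Matrix.of L) ≤ (K1 C + 16 * om4 * K2 C α) * sj j ^ (4 + α) := by linarith
    _ ≤ (K1 C + 16 * om4 * K2 C α) * (32 * s ^ (4 + α)) :=
        mul_le_mul_of_nonneg_left h6 (by positivity)
    _ = K3 C α * s ^ (4 + α) := by unfold K3; ring

theorem Dev_transpose {X : Type*} [TopologicalSpace X] [ChartedSpace (EuclideanSpace ℝ (Fin 4)) X]
    [IsManifold 𝓘(ℝ, EuclideanSpace ℝ (Fin 4)) ∞ X]
    [RiemannianBundle (fun x : X => TangentSpace 𝓘(ℝ, EuclideanSpace ℝ (Fin 4)) x)]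
    [IsContMDiffRiemannianBundle 𝓘(ℝ, EuclideanSpace ℝ (Fin 4)) ∞ (EuclideanSpace ℝ (Fin 4))
      (fun x : X => TangentSpace 𝓘(ℝ, EuclideanSpace ℝ (Fin 4)) x)]
    (U : Fin 4 → X → ℝ) (L : Matrix (Fin 4) (Fin 4) ℝ) (z : X) :
    ∑ a, ∑ b, |mGam 4 (U a) (U b) z - L.transpose a b| =
      ∑ a, ∑ b, |mGam 4 (U a) (U b) z - L a b| := by
  rw [Finset.sum_comm]
  refine Finset.sum_congr rfl fun a _ => Finset.sum_congr rfl fun b _ => ?_
  rw [mGam_comm, Matrix.transpose_apply]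

theorem DI_transpose : DI u k y s L.transpose = DI u k y s L := by
  unfold DI
  refine integral_congr_ae (Eventually.of_forall fun z => ?_)
  exact Dev_transpose (u k) L z

/-- passage to the limit `s → 0` -/
theorem le_of_small {X K c : ℝ} (hα : 0 < α) (hρ : 0 < ρ)
    (h : ∀ s : ℝ, 0 < s → s ≤ ρ → X ≤ K * s ^ α + c) : X ≤ c := by
  have h1 : Tendsto (fun s : ℝ => K * s ^ α + c) (𝓝[>] 0) (𝓝 (K * 0 + c)) := by
    have h2 : Tendsto (fun s : ℝ => s ^ α) (𝓝[>] 0) (𝓝 0) := by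
      have h3 := (Real.continuousAt_rpow_const 0 α (Or.inr hα.le)).tendsto
      rw [Real.zero_rpow hα.ne'] at h3
      exact h3.mono_left nhdsWithin_le_nhds
    exact (h2.const_mul K).add_const c
  rw [mul_zero, zero_add] at h1
  refine ge_of_tendsto h1 ?_
  filter_upwards [Ioc_mem_nhdsGT hρ] with s hs
  exact h s hs.1 hs.2

/-- the property of the limit matrix at `z` -/
def Lim (u : ∀ k, Fin 4 → M k → ℝ) (ρ α K : ℝ) (z : ∀ k, M k) (L : Matrix (Fin 4) (Fin 4) ℝ) :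
    Prop := ∀ s : ℝ, 0 < s → s ≤ ρ → ∀ᶠ k in om, DI u k (z k) s L ≤ K * s ^ (4 + α)

theorem e4 {t : ℝ} (ht : 0 < t) : t ^ (4 + α) = t ^ 4 * t ^ α := by
  rw [← Real.rpow_natCast t 4, ← Real.rpow_add ht]
  norm_num

theorem Lim.near (H : HData x ρ α C ε δ lam lamk u) (hδ : δ ≤ 1 / 2) {K : ℝ} {z : ∀ k, M k}
    (hz : ∀ᶠ k in om, z k ∈ ball (x k) (8 * ρ)) (h : Lim u ρ α K z L) : N1 (L - 1) ≤ 2 * ε := by
  have hρ := H.ρ_pos
  have hα : 0 < α := by linarith [H.α_gt]
  have h0 := om4_ge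
  refine le_of_small hα hρ (K := 2 * K) fun s hs hsρ => ?_
  obtain ⟨k, G, hzk, h1, h2⟩ := ((gd H hδ).and (hz.and ((h s hs hsρ).and (H.near s hs)))).exists
  have h3 := G.N1_le (L := L) (L' := 1) hρ hzk hs hsρ
  have h4 : DI u k (z k) s 1 ≤ ε * s ^ 4 := h2 (z k) hzk s le_rfl (by linarith)
  rw [e4 hs] at h1
  have h5 : 0 < s ^ 4 := by positivity
  have h6 : s ^ 4 * (om4 * N1 (L - 1)) ≤ s ^ 4 * (2 * K * s ^ α + 2 * ε) := by nlinarith
  have h7 := le_of_mul_le_mul_left h6 h5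
  have h8 : N1 (L - 1) ≤ om4 * N1 (L - 1) := le_mul_of_one_le_left (N1_nonneg _) h0
  linarith

theorem Lim.symm (H : HData x ρ α C ε δ lam lamk u) (hδ : δ ≤ 1 / 2) {K : ℝ} {z : ∀ k, M k}
    (hz : ∀ᶠ k in om, z k ∈ ball (x k) (8 * ρ)) (h : Lim u ρ α K z L) (a b : Fin 4) :
    L a b = L b a := by
  have hρ := H.ρ_pos
  have hα : 0 < α := by linarith [H.α_gt]
  have h0 := om4_ge
  have key : N1 (L - L.transpose) ≤ 0 := by
    refine le_of_small hα hρ (K := 4 * K) fun s hs hsρ => ?_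
    obtain ⟨k, G, hzk, h1⟩ := ((gd H hδ).and (hz.and (h s hs hsρ))).exists
    have h3 := G.N1_le (L := L) (L' := L.transpose) hρ hzk hs hsρ
    rw [DI_transpose] at h3
    rw [e4 hs] at h1
    have h5 : 0 < s ^ 4 := by positivity
    have h6 : s ^ 4 * (om4 * N1 (L - L.transpose)) ≤ s ^ 4 * (4 * K * s ^ α) := by nlinarith
    have h7 := le_of_mul_le_mul_left h6 h5
    have h8 : N1 (L - L.transpose) ≤ om4 * N1 (L - L.transpose) :=
      le_mul_of_one_le_left (N1_nonneg _) h0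
    linarith
  have h1 := (abs_le_N1 (L - L.transpose) a b).trans key
  have h2 : (L - L.transpose) a b = 0 := abs_nonpos_iff.1 h1
  rw [Matrix.sub_apply, Matrix.transpose_apply] at h2
  linarith

theorem Lim.hold (H : HData x ρ α C ε δ lam lamk u) (hδ : δ ≤ 1 / 2) {K d : ℝ} {z z' : ∀ k, M k}
    (hz : ∀ᶠ k in om, z k ∈ ball (x k) (8 * ρ)) (hz' : ∀ᶠ k in om, z' k ∈ ball (x k) (8 * ρ))
    (hK : 0 < K) (hd : 0 < d) (hdρ : 4 * d ≤ ρ) (hzz : ∀ᶠ k in om, dist (z k) (z' k) < 2 * d)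
    (h : Lim u ρ α K z L) (h' : Lim u ρ α K z' L') : N1 (L - L') ≤ 2050 * K * d ^ α := by
  have hρ := H.ρ_pos
  have hα : 0 < α := by linarith [H.α_gt]
  have h0 := om4_ge
  obtain ⟨k, G, hzk, hzk', hdk, h1, h2⟩ := ((gd H hδ).and (hz.and (hz'.and (hzz.and
    ((h (4 * d) (by positivity) hdρ).and (h' d hd (by linarith))))))).exists
  have h3 := G.N1_le (L := L) (L' := L') hρ hzk' hd (by linarith)
  have h4 : DI u k (z' k) d L ≤ DI u k (z k) (4 * d) L := by
    refine G.mono hρ hzk hdρ fun y hy => ?_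
    rw [mem_ball] at hy ⊢
    have := dist_triangle y (z' k) (z k)
    rw [dist_comm (z' k)] at this
    linarith
  have h5 : (4 * d) ^ (4 + α) ≤ 1024 * d ^ (4 + α) := by
    rw [Real.mul_rpow (by norm_num) hd.le]
    have h7 : (4:ℝ) ^ (4 + α) ≤ 4 ^ (5:ℝ) :=
      Real.rpow_le_rpow_of_exponent_le (by norm_num) (by linarith [H.α_lt])
    have h8 : (4:ℝ) ^ (5:ℝ) = 1024 := by norm_num
    rw [h8] at h7
    exact mul_le_mul_of_nonneg_right h7 (Real.rpow_nonneg hd.le _)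
  have h6 := mul_le_mul_of_nonneg_left h5 hK.le
  rw [e4 hd] at h2 h5 h6
  have h7 : 0 < d ^ 4 := by positivity
  have h8 : d ^ 4 * (om4 * N1 (L - L')) ≤ d ^ 4 * (2050 * K * d ^ α) := by nlinarith
  have h9 := le_of_mul_le_mul_left h8 h7
  have h10 : N1 (L - L') ≤ om4 * N1 (L - L') := le_mul_of_one_le_left (N1_nonneg _) h0
  linarith

/-- **leaf AV** -/
theorem avStmt : AvStmt := by
  intro ε₁ hε₁
  refine ⟨ε₁ / 2, by positivity, ?_⟩
  intro M _ _ _ _ _ _ _ _ _ _ q x hx ρ α C δ lam lamk u hδ H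
  classical
  have hρ := H.ρ_pos
  have hα : 0 < α := by linarith [H.α_gt]
  have hC := H.C_pos
  have hK := K3_pos hC hα
  have hzb : ∀ z ∈ ball (UL.mk x hx) (4 * ρ), ∀ᶠ k in om, z.rep k ∈ ball (x k) (8 * ρ) := by
    intro z hz
    have h1 : dist (UL.mk z.rep z.bd_rep) (UL.mk x hx) < 8 * ρ := by
      rw [UL.mk_rep]
      rw [mem_ball] at hz
      linarith
    exact UL.ev_lt z.bd_rep hx h1
  have hex : ∀ z : UL q, ∃ L : Matrix (Fin 4) (Fin 4) ℝ,
      (z ∈ ball (UL.mk x hx) (4 * ρ) → Lim u ρ α (K3 C α) z.rep L) ∧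
      (z ∉ ball (UL.mk x hx) (4 * ρ) → L = 1) := by
    intro z
    by_cases hz : z ∈ ball (UL.mk x hx) (4 * ρ)
    · obtain ⟨L, hL⟩ := exists_L H hδ (hzb z hz)
      exact ⟨L, fun _ => hL, fun h => absurd hz h⟩
    · exact ⟨1, fun h => absurd h hz, fun _ => rfl⟩
  choose h hh1 hh2 using hex
  have hnear : ∀ z ∈ ball (UL.mk x hx) (4 * ρ), N1 (h z - 1) ≤ ε₁ := by
    intro z hz
    have := (hh1 z hz).near H hδ (hzb z hz)
    linarith
  set C' : ℝ := 2050 * K3 C α + 2 * ε₁ / (ρ / 4) ^ α with hC'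
  have hρα : 0 < (ρ / 4) ^ α := Real.rpow_pos_of_pos (by positivity) _
  have hC'1 : 2050 * K3 C α ≤ C' := by
    have : 0 ≤ 2 * ε₁ / (ρ / 4) ^ α := by positivity
    linarith
  have hC'0 : 0 < C' := by positivity
  refine ⟨C', h, hC'0, ?_, ?_, ?_, ?_⟩
  · intro z a b
    by_cases hz : z ∈ ball (UL.mk x hx) (4 * ρ)
    · exact (hh1 z hz).symm H hδ (hzb z hz) a b
    · rw [hh2 z hz, Matrix.one_apply, Matrix.one_apply]
      simp only [eq_comm]
  · intro z hz
    exact hnear z hz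
  · intro z hz z' hz' a b
    by_cases hd0 : dist z z' = 0
    · rw [dist_eq_zero.1 hd0, sub_self, abs_zero, dist_self]
      positivity
    have hd : 0 < dist z z' := lt_of_le_of_ne dist_nonneg (Ne.symm hd0)
    by_cases hd1 : 4 * dist z z' ≤ ρ
    · have hzz : ∀ᶠ k in om, dist (z.rep k) (z'.rep k) < 2 * dist z z' := by
        refine UL.ev_lt z.bd_rep z'.bd_rep ?_
        rw [UL.mk_rep, UL.mk_rep]
        linarith
      have h1 := (hh1 z hz).hold H hδ (hzb z hz) (hzb z' hz') hK hd hd1 hzz (hh1 z' hz')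
      have h2 := (abs_le_N1 (h z - h z') a b).trans h1
      rw [Matrix.sub_apply] at h2
      refine h2.trans ?_
      exact mul_le_mul_of_nonneg_right hC'1 (Real.rpow_nonneg hd.le _)
    · have h1 := (abs_le_N1 (h z - 1) a b).trans (hnear z hz)
      have h2 := (abs_le_N1 (h z' - 1) a b).trans (hnear z' hz')
      rw [Matrix.sub_apply] at h1 h2
      have h3 : |h z a b - h z' a b| ≤ 2 * ε₁ := by
        rw [abs_le] at h1 h2 ⊢
        constructor <;> linarith [h1.1, h1.2, h2.1, h2.2]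
      refine h3.trans ?_
      have h4 : (ρ / 4) ^ α ≤ dist z z' ^ α :=
        Real.rpow_le_rpow (by positivity) (by linarith) hα.le
      calc 2 * ε₁ = 2 * ε₁ / (ρ / 4) ^ α * (ρ / 4) ^ α := by field_simp
        _ ≤ C' * dist z z' ^ α := by
            refine mul_le_mul ?_ h4 hρα.le hC'0.le
            rw [hC']
            have : 0 < 2050 * K3 C α := by positivity
            linarith
  · intro z hz s hs hsρ
    filter_upwards [hh1 z hz s hs hsρ] with k hk
    have h1 : K3 C α * s ^ (4 + α) ≤ C' * s ^ (4 + α) :=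
      mul_le_mul_of_nonneg_right (by linarith) (Real.rpow_nonneg hs.le _)
    exact le_trans hk h1

end Crest.Agent.R249.Av509
end
end

-- ▼ part R249/Ms1_717
section

/-!
# R249, D3-LIM/MS (1) (helper717): the limit measure of the push-forwards along the ultrafilter

`exists_riesz` : if `m k` is a measure on `X k` of mass `≤ C` and `v k : X k → ℝⁿ`, there is a
finite measure `ν` on `ℝⁿ` with `∫ φ (v k) dm_k → ∫ φ dν` for all `φ ∈ C_c`, and with the two
one-sided comparisons of the measures of sets.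
-/

set_option autoImplicit false
noncomputable section
open Set Filter Topology MeasureTheory Metric
open scoped ENNReal NNReal
open Crest.Agent.R249.Ul174 Crest.Agent.R085

namespace Crest.Agent.R249.Ms1_717

variable {n : ℕ} {X : ℕ → Type*} [∀ k, MeasurableSpace (X k)]

/-- the limit measure -/
structure LimMeas (m : ∀ k, Measure (X k)) (v : ∀ k, X k → EuclideanSpace ℝ (Fin n))
    (ν : Measure (EuclideanSpace ℝ (Fin n))) : Prop where
  fin : IsFiniteMeasure ν
  lim : ∀ φ : EuclideanSpace ℝ (Fin n) → ℝ, Continuous φ → HasCompactSupport φ →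
    Tendsto (fun k => ∫ y, φ (v k y) ∂(m k)) om (𝓝 (∫ z, φ z ∂ν))
  /-- open sets -/
  le_open : ∀ G : Set (EuclideanSpace ℝ (Fin n)), IsOpen G → ∀ b : ℝ≥0∞,
    (∀ᶠ k in om, m k {y | v k y ∈ G} ≤ b) → ν G ≤ b
  /-- compact sets -/
  ge_compact : ∀ K : Set (EuclideanSpace ℝ (Fin n)), IsCompact K → ∀ b : ℝ≥0∞,
    (∀ᶠ k in om, b ≤ m k {y | v k y ∈ K}) → b ≤ ν K
  /-- (R+) -/
  le_of : ∀ K O : Set (EuclideanSpace ℝ (Fin n)), K ⊆ O → IsOpen O → ∀ b : ℝ≥0∞,
    (∀ᶠ k in om, m k {y | v k y ∈ O} ≤ b) → ν K ≤ b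
  /-- (R-) -/
  ge_of : ∀ K O : Set (EuclideanSpace ℝ (Fin n)), IsCompact K → K ⊆ O → ∀ b : ℝ≥0∞,
    (∀ᶠ k in om, b ≤ m k {y | v k y ∈ K}) → b ≤ ν O

theorem exists_riesz (m : ∀ k, Measure (X k)) (v : ∀ k, X k → EuclideanSpace ℝ (Fin n)) (C : ℝ)
    (hC : ∀ᶠ k in om, m k univ ≤ ENNReal.ofReal C) (hv : ∀ᶠ k in om, AEMeasurable (v k) (m k)) :
    ∃ ν : Measure (EuclideanSpace ℝ (Fin n)), LimMeas m v ν := by
  classical
  set μ : ℕ → Measure (EuclideanSpace ℝ (Fin n)) := fun k =>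
    if m k univ ≤ ENNReal.ofReal C then (m k).map (v k) else 0 with hμ
  have hμC : ∀ k, μ k univ ≤ ENNReal.ofReal C := by
    intro k
    simp only [hμ]
    split_ifs with h
    · by_cases h1 : AEMeasurable (v k) (m k)
      · rw [Measure.map_apply_of_aemeasurable h1 MeasurableSet.univ, preimage_univ]
        exact h
      · rw [Measure.map_of_not_aemeasurable h1]
        simp
    · simp
  have hfin : ∀ k, IsFiniteMeasure (μ k) := fun k =>
    ⟨(hμC k).trans_lt ENNReal.ofReal_lt_top⟩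
  have hunif : UnifLocBdd (omU : Filter ℕ) μ := by
    intro K _
    refine ⟨C.toNNReal, Eventually.of_forall fun k => ?_⟩
    exact (measure_mono (subset_univ K)).trans (hμC k)
  obtain ⟨ν, hν1, hν2, hν3⟩ := exists_vagueTendsto omU μ hunif
  -- measures of sets
  have hset : ∀ᶠ k in om, ∀ A : Set (EuclideanSpace ℝ (Fin n)), MeasurableSet A →
      μ k A = m k {y | v k y ∈ A} := by
    filter_upwards [hC, hv] with k h1 h2 A hA
    simp only [hμ, h1, if_true]
    exact Measure.map_apply_of_aemeasurable h2 hA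
  have hopen : ∀ G : Set (EuclideanSpace ℝ (Fin n)), IsOpen G → ∀ b : ℝ≥0∞,
      (∀ᶠ k in om, m k {y | v k y ∈ G} ≤ b) → ν G ≤ b := by
    intro G hG b hb
    have h1 : ∀ᶠ k in (omU : Filter ℕ), μ k G ≤ b := by
      have : ∀ᶠ k in om, μ k G ≤ b := by
        filter_upwards [hset, hb] with k h1 h2
        rw [h1 G hG.measurableSet]
        exact h2
      exact this
    exact hν3.measure_open_le hG h1.frequently
  have hcomp : ∀ K : Set (EuclideanSpace ℝ (Fin n)), IsCompact K → ∀ b : ℝ≥0∞,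
      (∀ᶠ k in om, b ≤ m k {y | v k y ∈ K}) → b ≤ ν K := by
    intro K hK b hb
    have h1 : ∀ᶠ k in (omU : Filter ℕ), b ≤ μ k K := by
      have : ∀ᶠ k in om, b ≤ μ k K := by
        filter_upwards [hset, hb] with k h1 h2
        rw [h1 K hK.measurableSet]
        exact h2
      exact this
    exact hν3.le_measure_compact hK h1.frequently
  refine ⟨ν, ⟨⟨?_⟩, ?_, hopen, hcomp, ?_, ?_⟩⟩
  · refine (hopen univ isOpen_univ (ENNReal.ofReal C) ?_).trans_lt ENNReal.ofReal_lt_top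
    filter_upwards [hC] with k hk
    simpa using hk
  · intro φ hφ hφc
    have h1 := hν3 φ hφ hφc
    refine Tendsto.congr' ?_ h1
    have : ∀ᶠ k in om, ∫ x, φ x ∂(μ k) = ∫ y, φ (v k y) ∂(m k) := by
      filter_upwards [hC, hv] with k h1 h2
      simp only [hμ, h1, if_true]
      exact integral_map h2 hφ.aestronglyMeasurable
    exact this
  · intro K O hKO hO b hb
    exact (measure_mono hKO).trans (hopen O hO b hb)
  · intro K O hK hKO b hb
    exact (hcomp K hK b hb).trans (measure_mono hKO)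

end Crest.Agent.R249.Ms1_717
end
end

-- ▼ part R249/Ms1b_717
section

/-!
# R249, D3-LIM/MS (1b) (helper717): `MS1`, the limit measure for `HData`

`MS1'` : the limit measure `ν` of the push-forwards of `μHE[4]` on `ball (x k) r₀` under `u k`,
with `LimMeas` (convergence of integrals, open/compact comparisons);
`MS1`  : the form asked by helper222.
-/

set_option autoImplicit false
noncomputable section
open Set Filter Topology Bundle MeasureTheory Metric
open scoped ContDiff Manifold ENNReal NNReal Matrix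
open Crest.GeometryTopology.CoordMetric Crest.GeometryTopology.ChartCurvature
  Crest.GeometryTopology.RicciEnergy Crest.GeometryTopology.PointedLimit
open Crest.Agent.R247.Bo84
open Crest.Agent.R249.D1Def104 Crest.Agent.R249.Ul174 Crest.Agent.R249.Len47
open Crest.Agent.R249.AsmD832 Crest.Agent.R249.LimDef41

namespace Crest.Agent.R249.Ms1_717

local notation "𝔼" => EuclideanSpace ℝ (Fin 4)

variable {M : ℕ → Type} [∀ k, MetricSpace (M k)] [∀ k, CompleteSpace (M k)]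
  [∀ k, ConnectedSpace (M k)]
  [∀ k, ChartedSpace (EuclideanSpace ℝ (Fin 4)) (M k)]
  [∀ k, IsManifold 𝓘(ℝ, EuclideanSpace ℝ (Fin 4)) ∞ (M k)]
  [∀ k, RiemannianBundle (fun x : M k => TangentSpace 𝓘(ℝ, EuclideanSpace ℝ (Fin 4)) x)]
  [∀ k, IsContMDiffRiemannianBundle 𝓘(ℝ, EuclideanSpace ℝ (Fin 4)) ∞ (EuclideanSpace ℝ (Fin 4))
    (fun x : M k => TangentSpace 𝓘(ℝ, EuclideanSpace ℝ (Fin 4)) x)]
  [∀ k, IsRiemannianManifold 𝓘(ℝ, EuclideanSpace ℝ (Fin 4)) (M k)]
  [∀ k, MeasurableSpace (M k)] [∀ k, BorelSpace (M k)]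

/-- the limit measure, with comparisons -/
theorem MS1' {x : ∀ k, M k} {ρ α C ε δ lam : ℝ} {lamk : ℕ → ℝ} {u : ∀ k, Fin 4 → M k → ℝ}
    (H : HData x ρ α C ε δ lam lamk u) {r₀ : ℝ} (hr : 0 < r₀) (hrρ : 4 * r₀ ≤ ρ) :
    ∃ ν : Measure 𝔼, LimMeas
      (fun k => (μHE[4] : Measure (M k)).restrict (ball (x k) r₀))
      (fun k y => (WithLp.toLp 2 fun a => u k a y : 𝔼)) ν := by
  refine exists_riesz _ _ (St174.om4 * r₀ ^ 4) ?_ ?_
  · filter_upwards [H.ric] with k hk
    rw [Measure.restrict_apply_univ]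
    exact St174.vol_le hk (x k) hr
  · filter_upwards [H.smooth] with k hk
    have hρ := H.ρ_pos
    have hsub : ball (x k) r₀ ⊆ ball (x k) (16 * ρ) := ball_subset_ball (by linarith)
    have hc : ContinuousOn (fun y => (WithLp.toLp 2 fun a => u k a y : 𝔼)) (ball (x k) r₀) := by
      refine (PiLp.continuous_toLp 2 _).comp_continuousOn ?_
      exact continuousOn_pi.2 fun a => ((hk a).continuousOn).mono hsub
    exact hc.aemeasurable measurableSet_ball

/-- **MS1** -/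
theorem MS1 {x : ∀ k, M k} {ρ α C ε δ lam : ℝ} {lamk : ℕ → ℝ} {u : ∀ k, Fin 4 → M k → ℝ}
    (H : HData x ρ α C ε δ lam lamk u) {r₀ : ℝ} (hr : 0 < r₀) (hrρ : 4 * r₀ ≤ ρ) :
    ∃ ν : Measure 𝔼, IsFiniteMeasure ν ∧ ∀ φ : 𝔼 → ℝ, Continuous φ → HasCompactSupport φ →
      Tendsto (fun k => ∫ y in ball (x k) r₀, φ (WithLp.toLp 2 fun a => u k a y)
        ∂(μHE[4] : Measure (M k))) om (𝓝 (∫ z, φ z ∂ν)) := by
  obtain ⟨ν, hν⟩ := MS1' H hr hrρ
  exact ⟨ν, hν.fin, hν.lim⟩

end Crest.Agent.R249.Ms1_717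
end
end

-- ▼ part R249/Ms3_222
section

/-!
# R249 (helper222), D3-LIM/MS: `msOut` and the closed statement `msStStmt : MsStStmt`
-/

set_option autoImplicit false
noncomputable section
open Set Filter Topology Bundle MeasureTheory Metric
open scoped ContDiff Manifold ENNReal NNReal Matrix
open Crest.GeometryTopology.CoordMetric Crest.GeometryTopology.ChartCurvature
  Crest.GeometryTopology.RicciEnergy Crest.GeometryTopology.PointedLimit
open Crest.Agent.R247.Bo84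
open Crest.Agent.R249.D1Def104 Crest.Agent.R249.Ul174 Crest.Agent.R249.Len47
open Crest.Agent.R249.AsmD832 Crest.Agent.R249.LimDef41 Crest.Agent.R249.St174

namespace Crest.Agent.R249.Ms3_222

section final

variable {M : ℕ → Type} [∀ k, MetricSpace (M k)] [∀ k, CompleteSpace (M k)]
  [∀ k, ConnectedSpace (M k)] [∀ k, ChartedSpace (EuclideanSpace ℝ (Fin 4)) (M k)]
  [∀ k, IsManifold 𝓘(ℝ, EuclideanSpace ℝ (Fin 4)) ∞ (M k)]
  [∀ k, RiemannianBundle (fun x : M k => TangentSpace 𝓘(ℝ, EuclideanSpace ℝ (Fin 4)) x)]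
  [∀ k, IsContMDiffRiemannianBundle 𝓘(ℝ, EuclideanSpace ℝ (Fin 4)) ∞ (EuclideanSpace ℝ (Fin 4))
    (fun x : M k => TangentSpace 𝓘(ℝ, EuclideanSpace ℝ (Fin 4)) x)]
  [∀ k, IsRiemannianManifold 𝓘(ℝ, EuclideanSpace ℝ (Fin 4)) (M k)]
  [∀ k, MeasurableSpace (M k)] [∀ k, BorelSpace (M k)] {q : ∀ k, M k}

/-- **MS**: convergence of the measures. -/
theorem msOut {x : ∀ k, M k} {hx : Bd q x} {ρ α C C' ε ε₁ δ lam : ℝ} {lamk : ℕ → ℝ}
    {u : ∀ k, Fin 4 → M k → ℝ} {h : UL q → Matrix (Fin 4) (Fin 4) ℝ} {r₀ : ℝ}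
    {U : UL q → EuclideanSpace ℝ (Fin 4)}
    {e : OpenPartialHomeomorph (UL q) (EuclideanSpace ℝ (Fin 4))} (hδ : δ ≤ 1 / 2)
    (hε₁ : ε₁ ≤ 1 / 2) (hD : HData x ρ α C ε δ lam lamk u) (hA : AvOut x hx ρ α C' ε₁ u h)
    (hC : ChOut x hx ρ u h r₀ U e) : MsOut x u h r₀ e := by
  obtain ⟨ν, hfin, hν⟩ := Ms1_717.MS1 hD hC.r_pos hC.r_le
  exact Ms2_222.msOut_of hδ hε₁ hD hA hC hν

end final

/-- **D3-LIM/MS + ST** -/
theorem msStStmt : MsStStmt := by
  refine ⟨1 / 2, 1 / 2, by norm_num, by norm_num, ?_⟩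
  intro M _ _ _ _ _ _ _ _ _ _ q x hx ρ α C C' ε δ lam lamk u h r₀ U e hδ hD hA hC hS
  exact ⟨msOut hδ le_rfl hD hA hC, stOut hδ hD hA hC hS⟩

end Crest.Agent.R249.Ms3_222
end
end

-- ▼ part R249/AsmD10_832
section

/-!
# R249 (S0386), part D: what is left (helper832), 5

`S0386_of_bd` : the statement of S0386 from `IdxStmt` (part C) and `BDStmt`;
`rthm_of_bd` : `BDStmt → RThm`.
-/

set_option autoImplicit false
open Crest.GeometryTopology.RicciEnergy
open Crest.Agent.R249.D1Def104 Crest.Agent.R249.LimDef41 Crest.Agent.R249.Fin832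

namespace Crest.Agent.R249.AsmD832

theorem rthm_of_bd (hB : BDStmt) : RThm :=
  rthm_of SD308.sdStmt Av509.avStmt Ch174.chStmt Ms3_222.msStStmt (sys_of_bd hB) regStmt whStmt


end Crest.Agent.R249.AsmD832
end

-- ▼ part R249/Vf5_281
section

/-!
Row 249 (helper281), D3-TST: test functions `φ(u)`, `u : M → ℝ^m` smooth on the open set `O`, and the
integral identities for `F^{ab} = ⟨du^a, du^b⟩`, `P^{ab,c} = ⟨dF^{ab}, du^c⟩`.
-/

set_option autoImplicit false
set_option maxSynthPendingDepth 3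
set_option linter.unusedSectionVars false

open scoped ContDiff Topology Manifold
open Filter Set Bundle MeasureTheory
open Crest.GeometryTopology.CoordMetric Crest.GeometryTopology.ChartCurvature
  Crest.GeometryTopology.PointedLimit
open Crest.Agent.R202.Tens
open Crest.Agent.R247.Bo84
open Crest.Agent.R247

noncomputable section

namespace Crest.Agent.R249.Vf281

variable (n : ℕ) {M : Type*} [MetricSpace M] [ChartedSpace (EuclideanSpace ℝ (Fin n)) M]
  [IsManifold (𝓡 n) ∞ M]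
  [RiemannianBundle (fun p : M => TangentSpace (𝓡 n) p)]
  [IsContMDiffRiemannianBundle (𝓡 n) ∞ (EuclideanSpace ℝ (Fin n)) (fun p : M => TangentSpace (𝓡 n) p)]

local notation "𝔼" => EuclideanSpace ℝ (Fin n)

variable {m : ℕ}

/-- Test data: `u` smooth on the open set `O`, `φ` smooth, `φ ∘ u` vanishes on `O` off the compact set
`K ⊆ O` (together with a neighbourhood). -/
structure Tst (O K : Set M) (u : M → EuclideanSpace ℝ (Fin m))
    (φ : EuclideanSpace ℝ (Fin m) → ℝ) : Prop where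
  isOpen : IsOpen O
  isCompact : IsCompact K
  sub : K ⊆ O
  smooth_u : ∀ z ∈ O, ∀ c, ContMDiffAt (𝓡 n) 𝓘(ℝ, ℝ) ∞ (fun q => u q c) z
  smooth_φ : ContDiff ℝ ∞ φ
  mem : ∀ z ∈ O, u z ∈ tsupport φ → z ∈ K

/-- the test function `φ(u)` on `O`, extended by zero. -/
def tst (O : Set M) (u : M → EuclideanSpace ℝ (Fin m)) (φ : EuclideanSpace ℝ (Fin m) → ℝ) : M → ℝ :=
  O.indicator fun z => φ (u z)

/-- the expression `∑ φ_c(u) Δu^c + ∑ φ_{cd}(u) ⟨du^c, du^d⟩`. -/
def lapU (u : M → EuclideanSpace ℝ (Fin m)) (φ : EuclideanSpace ℝ (Fin m) → ℝ) (z : M) : ℝ :=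
  ∑ c, pderiv c φ (u z) * mLap n (fun q => u q c) z +
    ∑ c, ∑ d, pderiv d (pderiv c φ) (u z) * mGam n (fun q => u q c) (fun q => u q d) z

variable {n}
variable {O K : Set M} {u : M → EuclideanSpace ℝ (Fin m)} {φ : EuclideanSpace ℝ (Fin m) → ℝ}



namespace Tst


lemma zero (T : Tst n O K u φ) {z : M} (hz : z ∈ O) (hzK : z ∉ K) : φ (u z) = 0 :=
  image_eq_zero_of_notMem_tsupport fun h => hzK (T.mem z hz h)


lemma of_mem (u : M → EuclideanSpace ℝ (Fin m)) (φ : EuclideanSpace ℝ (Fin m) → ℝ) {z : M}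
    (hz : z ∈ O) : tst O u φ z = φ (u z) := indicator_of_mem hz _

lemma tst_zero (T : Tst n O K u φ) {z : M} (hz : z ∉ K) : tst O u φ z = 0 := by
  by_cases h : z ∈ O
  · rw [of_mem u φ h, T.zero h hz]
  · exact indicator_of_notMem h _

lemma eventually (T : Tst n O K u φ) {z : M} (hz : z ∈ O) :
    tst O u φ =ᶠ[𝓝 z] fun q => φ (u q) := by
  filter_upwards [T.isOpen.mem_nhds hz] with q hq using of_mem u φ hq

lemma eventually_zero (T : Tst n O K u φ) {z : M} (hz : z ∉ K) :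
    tst O u φ =ᶠ[𝓝 z] fun _ => 0 := by
  filter_upwards [T.isCompact.isClosed.isOpen_compl.mem_nhds hz] with q hq using T.tst_zero hq

lemma contMDiffAt (T : Tst n O K u φ) (z : M) :
    ContMDiffAt (𝓡 n) 𝓘(ℝ, ℝ) ∞ (tst O u φ) z := by
  by_cases hz : z ∈ O
  · exact (contMDiffAt_compV le_rfl T.smooth_φ.contDiffAt
      (T.smooth_u z hz)).congr_of_eventuallyEq (T.eventually hz)
  · exact contMDiffAt_const.congr_of_eventuallyEq (T.eventually_zero fun h => hz (T.sub h))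

lemma tsupport_subset (T : Tst n O K u φ) : tsupport (tst O u φ) ⊆ K :=
  closure_minimal (fun z hz => by
    by_contra h
    exact hz (T.tst_zero h)) T.isCompact.isClosed

lemma hasCompactSupport (T : Tst n O K u φ) : HasCompactSupport (tst O u φ) :=
  T.isCompact.of_isClosed_subset (isClosed_tsupport _) T.tsupport_subset

lemma mGam_eq (T : Tst n O K u φ) {z : M} (hz : z ∈ O) (k : M → ℝ) :
    mGam n (tst O u φ) k z =
      ∑ c, pderiv c φ (u z) * mGam n (fun q => u q c) k z := by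
  rw [mGam_congr (T.eventually hz) (EventuallyEq.refl _ k)]
  exact mGam_compV (T.smooth_φ.contDiffAt.differentiableAt (by simp))
    (fun c => (T.smooth_u z hz c).mdifferentiableAt (by simp)) k

lemma mLap_eq (T : Tst n O K u φ) {z : M} (hz : z ∈ O) :
    mLap n (tst O u φ) z = lapU n u φ z := by
  rw [mLap_congr (T.eventually hz)]
  exact mLap_compV (T.smooth_φ.contDiffAt.of_le two_le_infty)
    (fun c => (T.smooth_u z hz c).of_le two_le_infty)

lemma mGam_zero (T : Tst n O K u φ) {z : M} (hz : z ∉ K) (k : M → ℝ) :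
    mGam n (tst O u φ) k z = 0 := by
  rw [mGam_congr (T.eventually_zero hz) (EventuallyEq.refl _ k), mGam_const_left]

lemma mLap_zero (T : Tst n O K u φ) {z : M} (hz : z ∉ K) : mLap n (tst O u φ) z = 0 := by
  rw [mLap_congr (T.eventually_zero hz), mLap_const]


lemma continuous_mLap (T : Tst n O K u φ) : Continuous (mLap n (tst O u φ)) := by
  refine continuous_iff_continuousAt.2 fun z => ?_
  exact (contMDiffAt_mLap (m := 0) ((T.contMDiffAt z).of_le two_le_infty) (by norm_num)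
    two_le_infty).continuousAt

lemma hasCompactSupport_mLap (T : Tst n O K u φ) : HasCompactSupport (mLap n (tst O u φ)) := by
  refine HasCompactSupport.of_support_subset_isCompact T.isCompact ?_
  intro z hz
  by_contra h
  exact hz (T.mLap_zero h)

lemma tsupport_mLap (T : Tst n O K u φ) : tsupport (mLap n (tst O u φ)) ⊆ K :=
  closure_minimal (fun z hz => by
    by_contra h
    exact hz (T.mLap_zero h)) T.isCompact.isClosed

variable [IsRiemannianManifold (𝓡 n) M]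

lemma locallyLipschitz (T : Tst n O K u φ) : LocallyLipschitz (tst O u φ) := by
  refine Ms322.LLo.loc (Ms322.LLo.of_contMDiffAt (n := n) fun z _ => ?_)
  exact (T.contMDiffAt z).of_le one_le_infty

variable [SecondCountableTopology M] [Nonempty M] [MeasurableSpace M] [BorelSpace M]

/-- integrals over `O` of functions vanishing off `K`. -/
lemma setIntegral_eq (T : Tst n O K u φ) {g G : M → ℝ} (h1 : ∀ z ∈ O, G z = g z)
    (h2 : ∀ z, z ∉ K → G z = 0) :
    ∫ z in O, g z ∂(μHE[n] : Measure M) = ∫ z, G z ∂(μHE[n] : Measure M) := by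
  rw [← setIntegral_eq_integral_of_forall_compl_eq_zero (s := O)
    (fun z hz => h2 z fun h => hz (T.sub h))]
  exact setIntegral_congr_fun T.isOpen.measurableSet fun z hz => (h1 z hz).symm

lemma integrableOn_of (T : Tst n O K u φ) {g G : M → ℝ} (h1 : ∀ z ∈ O, G z = g z)
    (hG : Integrable G (μHE[n] : Measure M)) : IntegrableOn g O (μHE[n] : Measure M) :=
  (hG.integrableOn (s := O)).congr_fun (fun z hz => h1 z hz) T.isOpen.measurableSet

/-- `φ(u) w` is integrable on `O` for `w` continuous on `O`. -/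
lemma integrableOn_mul (T : Tst n O K u φ) {w : M → ℝ} (hw : ContinuousOn w O) :
    IntegrableOn (fun z => φ (u z) * w z) O (μHE[n] : Measure M) := by
  have h1 := Ms322.integrable_mul_of_continuousOn_M (n := n) hw
    (T.locallyLipschitz.continuous) T.hasCompactSupport (T.tsupport_subset.trans T.sub)
  exact T.integrableOn_of (fun z hz => by rw [of_mem u φ hz]) h1

/-- (T1) -/
theorem integral_lapU (T : Tst n O K u φ) :
    IntegrableOn (lapU n u φ) O (μHE[n] : Measure M) ∧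
      ∫ z in O, lapU n u φ z ∂(μHE[n] : Measure M) = 0 := by
  have hX : ∀ z ∈ (univ : Set M), VSm n 1 (mgrad n (tst O u φ)) z := fun z _ =>
    VSm_mgrad ((T.contMDiffAt z).of_le two_le_infty) (by norm_num) two_le_infty
  have h0 : ∀ z, z ∉ K → mgrad n (tst O u φ) z = 0 := by
    intro z hz
    rw [mgrad_congr (T.eventually_zero hz), mgrad_const]
  have h1 := integral_mDiv_eq_zero isOpen_univ hX T.isCompact (subset_univ K) h0
  have e : mDiv n (mgrad n (tst O u φ)) = mLap n (tst O u φ) := funext fun z => mDiv_mgrad _ z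
  rw [e] at h1
  refine ⟨T.integrableOn_of (fun z hz => T.mLap_eq hz) h1.1, ?_⟩
  rw [T.setIntegral_eq (fun z hz => T.mLap_eq hz) (fun z hz => T.mLap_zero hz)]
  exact h1.2

/-- (T2) `∫ f ⟨dφ(u), dh⟩ = - ∫ φ(u) (f Δh + ⟨df, dh⟩)`. -/
theorem integral_green (T : Tst n O K u φ) {f h : M → ℝ}
    (hf : ∀ z ∈ O, ContMDiffAt (𝓡 n) 𝓘(ℝ, ℝ) 1 f z)
    (hh : ∀ z ∈ O, ContMDiffAt (𝓡 n) 𝓘(ℝ, ℝ) 2 h z) :
    IntegrableOn (fun z => f z * ∑ c, pderiv c φ (u z) *
      mGam n (fun q => u q c) h z) O (μHE[n] : Measure M) ∧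
    IntegrableOn (fun z => φ (u z) * (f z * mLap n h z + mGam n f h z)) O
      (μHE[n] : Measure M) ∧
    ∫ z in O, f z * ∑ c, pderiv c φ (u z) * mGam n (fun q => u q c) h z
        ∂(μHE[n] : Measure M) =
      - ∫ z in O, φ (u z) * (f z * mLap n h z + mGam n f h z) ∂(μHE[n] : Measure M) := by
  obtain ⟨i1, i2, i3⟩ := green T.isOpen hf hh T.locallyLipschitz T.hasCompactSupport
    (T.tsupport_subset.trans T.sub)
  have e1 : ∀ z ∈ O, f z * mGam n (tst O u φ) h z =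
      f z * ∑ c, pderiv c φ (u z) * mGam n (fun q => u q c) h z :=
    fun z hz => by rw [T.mGam_eq hz]
  have e2 : ∀ z ∈ O, tst O u φ z * (f z * mLap n h z + mGam n f h z) =
      φ (u z) * (f z * mLap n h z + mGam n f h z) := fun z hz => by rw [of_mem u φ hz]
  refine ⟨T.integrableOn_of e1 i1, T.integrableOn_of e2 i2, ?_⟩
  rw [T.setIntegral_eq e1 (fun z hz => by rw [T.mGam_zero hz, mul_zero]),
    T.setIntegral_eq e2 (fun z hz => by rw [T.tst_zero hz, zero_mul]), i3]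

/-- (T3) `∫ ⟨dφ(u), dh⟩ = - ∫ φ(u) Δh`. -/
theorem integral_ibp (T : Tst n O K u φ) {h : M → ℝ}
    (hh : ∀ z ∈ O, ContMDiffAt (𝓡 n) 𝓘(ℝ, ℝ) 2 h z) :
    IntegrableOn (fun z => ∑ c, pderiv c φ (u z) *
      mGam n (fun q => u q c) h z) O (μHE[n] : Measure M) ∧
    IntegrableOn (fun z => φ (u z) * mLap n h z) O (μHE[n] : Measure M) ∧
    ∫ z in O, ∑ c, pderiv c φ (u z) * mGam n (fun q => u q c) h z
        ∂(μHE[n] : Measure M) =
      - ∫ z in O, φ (u z) * mLap n h z ∂(μHE[n] : Measure M) := by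
  have h1 := T.integral_green (f := fun _ => (1:ℝ)) (h := h) (fun z _ => contMDiffAt_const) hh
  simp only [one_mul, mGam_const_left, add_zero] at h1
  exact h1

/-- (T4) `∫ φ(u) |dh|² = - ∫ φ(u) h Δh + ½ ∫ h² Δφ(u)`. -/
theorem integral_energy (T : Tst n O K u φ) {h : M → ℝ}
    (hh : ∀ z ∈ O, ContMDiffAt (𝓡 n) 𝓘(ℝ, ℝ) 2 h z) :
    IntegrableOn (fun z => φ (u z) * mGam n h h z) O (μHE[n] : Measure M) ∧
    IntegrableOn (fun z => φ (u z) * (h z * mLap n h z)) O (μHE[n] : Measure M) ∧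
    IntegrableOn (fun z => h z ^ 2 * lapU n u φ z) O (μHE[n] : Measure M) ∧
    ∫ z in O, φ (u z) * mGam n h h z ∂(μHE[n] : Measure M) =
      - ∫ z in O, φ (u z) * (h z * mLap n h z) ∂(μHE[n] : Measure M) +
        (1 / 2) * ∫ z in O, h z ^ 2 * lapU n u φ z ∂(μHE[n] : Measure M) := by
  have hh1 : ∀ z ∈ O, ContMDiffAt (𝓡 n) 𝓘(ℝ, ℝ) 1 h z := fun z hz => (hh z hz).of_le (by norm_num)
  have hcg : ContinuousOn (mGam n h h) O := fun z hz =>
    (contMDiffAt_mGam (n := n) (m := 1) (hh z hz) (hh z hz) (by norm_num)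
      two_le_infty).continuousAt.continuousWithinAt
  have hch : ContinuousOn h O := fun z hz => (hh z hz).continuousAt.continuousWithinAt
  have hcl : ContinuousOn (fun z => h z * mLap n h z) O :=
    hch.mul (Ms322.continuousOn_mLap hh)
  have j1 := T.integrableOn_mul hcg
  have j2 := T.integrableOn_mul hcl
  have j3' : Integrable (fun z => mLap n (tst O u φ) z * h z ^ 2) (μHE[n] : Measure M) :=
    Ms322.integrable_mul_of_continuousOn_M (n := n) (hch.pow 2) T.continuous_mLap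
      T.hasCompactSupport_mLap (T.tsupport_mLap.trans T.sub)
  have j3 : IntegrableOn (fun z => h z ^ 2 * lapU n u φ z) O (μHE[n] : Measure M) :=
    T.integrableOn_of (fun z hz => by rw [T.mLap_eq hz]; ring) j3'
  refine ⟨j1, j2, j3, ?_⟩
  -- the field `h² ∇φ(u)`
  set w := tst O u φ with hw
  have hsq : ∀ z ∈ O, ContMDiffAt (𝓡 n) 𝓘(ℝ, ℝ) 1 (fun q => h q ^ 2) z := fun z hz =>
    (hh1 z hz).pow 2
  have hX : ∀ z ∈ O, VSm n 1 (fun q => h q ^ 2 • mgrad n w q) z := fun z hz =>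
    VSm.smul one_le_infty (hsq z hz)
      (VSm_mgrad ((T.contMDiffAt z).of_le two_le_infty) (by norm_num) two_le_infty)
  have h0 : ∀ z, z ∉ K → h z ^ 2 • mgrad n w z = 0 := by
    intro z hz
    rw [mgrad_congr (T.eventually_zero hz), mgrad_const, smul_zero]
  obtain ⟨i1, i2⟩ := integral_mDiv_eq_zero T.isOpen hX T.isCompact T.sub h0
  have hdiv : ∀ z ∈ O, mDiv n (fun q => h q ^ 2 • mgrad n w q) z =
      h z ^ 2 * lapU n u φ z + 2 * (h z * ∑ c, pderiv c φ (u z) *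
        mGam n (fun q => u q c) h z) := by
    intro z hz
    rw [mDiv_smul_mgrad ((hsq z hz).mdifferentiableAt (by norm_num))
      ((T.contMDiffAt z).of_le two_le_infty), T.mLap_eq hz, ← T.mGam_eq hz]
    have e : (fun q => h q ^ 2) = fun q => h q * h q := by funext q; ring
    rw [e, mGam_mul_left ((hh1 z hz).mdifferentiableAt (by norm_num))
      ((hh1 z hz).mdifferentiableAt (by norm_num)), mGam_comm h w]
    ring
  obtain ⟨g1, g2, g3⟩ := T.integral_green hh1 hh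
  have i3 : ∫ z in O, (h z ^ 2 * lapU n u φ z + 2 * (h z * ∑ c, pderiv c φ (u z) *
        mGam n (fun q => u q c) h z)) ∂(μHE[n] : Measure M) = 0 := by
    rw [T.setIntegral_eq (G := mDiv n (fun q => h q ^ 2 • mgrad n w q)) hdiv (fun z hz =>
      mDiv_zero_off (by
        filter_upwards [T.isCompact.isClosed.isOpen_compl.mem_nhds hz] with q hq using h0 q hq))]
    exact i2
  rw [integral_add j3 (g1.const_mul 2), integral_const_mul, g3] at i3
  have e4 : ∫ z in O, φ (u z) * (h z * mLap n h z + mGam n h h z) ∂(μHE[n] : Measure M) =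
      ∫ z in O, φ (u z) * (h z * mLap n h z) ∂(μHE[n] : Measure M) +
        ∫ z in O, φ (u z) * mGam n h h z ∂(μHE[n] : Measure M) := by
    rw [← integral_add j2 j1]
    exact integral_congr_ae (Eventually.of_forall fun z => by ring)
  rw [e4] at i3
  linarith

end Tst

end Crest.Agent.R249.Vf281
end
end

-- ▼ part R249/Vf6_281
section

/-!
Row 249 (helper281), D3-TST part 2: harmonic `u : M → ℝ^m` on the open set `O`.
`FF u a b = ⟨du^a, du^b⟩`, `PP u a b c = ⟨dF^{ab}, du^c⟩`, `SS u a b = ⟨Hess u^a, Hess u^b⟩`,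
`RR u a b = Ric(du^a, du^b)`; integral identities (c) and pointwise identities (d) of post 1053.
-/

set_option autoImplicit false
set_option maxSynthPendingDepth 3
set_option linter.unusedSectionVars false

open scoped ContDiff Topology Manifold
open Filter Set Bundle MeasureTheory
open Crest.GeometryTopology.CoordMetric Crest.GeometryTopology.ChartCurvature
  Crest.GeometryTopology.PointedLimit
open Crest.Agent.R202.Tens
open Crest.Agent.R247.Bo84
open Crest.Agent.R247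

noncomputable section

namespace Crest.Agent.R249.Vf281

section Calc

variable (n : ℕ) {M : Type*} [TopologicalSpace M] [ChartedSpace (EuclideanSpace ℝ (Fin n)) M]
  [IsManifold 𝓘(ℝ, EuclideanSpace ℝ (Fin n)) ∞ M]
  [RiemannianBundle (fun x : M => TangentSpace 𝓘(ℝ, EuclideanSpace ℝ (Fin n)) x)]
  [IsContMDiffRiemannianBundle 𝓘(ℝ, EuclideanSpace ℝ (Fin n)) ∞ (EuclideanSpace ℝ (Fin n))
      (fun x : M => TangentSpace 𝓘(ℝ, EuclideanSpace ℝ (Fin n)) x)]

variable {m : ℕ}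

/-- `F^{ab} = ⟨du^a, du^b⟩`. -/
def FF (u : M → EuclideanSpace ℝ (Fin m)) (a b : Fin m) (z : M) : ℝ :=
  mGam n (fun q => u q a) (fun q => u q b) z

/-- `P^{ab,c} = ⟨dF^{ab}, du^c⟩`. -/
def PP (u : M → EuclideanSpace ℝ (Fin m)) (a b c : Fin m) (z : M) : ℝ :=
  mGam n (FF n u a b) (fun q => u q c) z

/-- `S^{ab} = ⟨Hess u^a, Hess u^b⟩`. -/
def SS (u : M → EuclideanSpace ℝ (Fin m)) (a b : Fin m) (z : M) : ℝ :=
  mHessIn n (fun q => u q a) (fun q => u q b) z

/-- `R^{ab} = Ric(du^a, du^b)`. -/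
def RR (u : M → EuclideanSpace ℝ (Fin m)) (a b : Fin m) (z : M) : ℝ :=
  mRic n z (mgrad n (fun q => u q a) z) (mgrad n (fun q => u q b) z)

/-- the Christoffel-type combination. -/
def kosz (P : Fin m → Fin m → Fin m → ℝ) (a b c : Fin m) : ℝ :=
  (P a b c + P a c b - P b c a) / 2

/-- `S` as a function of `F` and `P`. -/
def sFun (G : Matrix (Fin m) (Fin m) ℝ) (P : Fin m → Fin m → Fin m → ℝ) (a b : Fin m) : ℝ :=
  ∑ c, ∑ d, ∑ e, ∑ f, G⁻¹ c d * (G⁻¹ e f * (kosz P a c e * kosz P b d f))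

/-- `|dF^{ab}|²` as a function of `F` and `P`. -/
def eFun (G : Matrix (Fin m) (Fin m) ℝ) (P : Fin m → Fin m → Fin m → ℝ) (a b : Fin m) : ℝ :=
  ∑ c, ∑ d, G⁻¹ c d * (P a b c * P a b d)

variable {n}
variable {u : M → EuclideanSpace ℝ (Fin m)} {z : M}



/-- Koszul: `Hess u^a(∇u^b, ∇u^c)`. -/
theorem mHess_kosz (hu : ∀ c, ContMDiffAt (𝓡 n) 𝓘(ℝ, ℝ) 2 (fun q => u q c) z) (a b c : Fin m) :
    mHess n (fun q => u q a) z (mgrad n (fun q => u q b) z) (mgrad n (fun q => u q c) z) =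
      kosz (fun a b c => PP n u a b c z) a b c := by
  have h1 := mHess_mgrad (hu a) (hu b) (hu c)
  have h2 : kosz (fun a b c => PP n u a b c z) a b c =
      (mGam n (mGam n (fun q => u q a) (fun q => u q b)) (fun q => u q c) z +
        mGam n (mGam n (fun q => u q a) (fun q => u q c)) (fun q => u q b) z -
        mGam n (mGam n (fun q => u q b) (fun q => u q c)) (fun q => u q a) z) / 2 := rfl
  rw [h2]
  linarith

/-- `ΔF^{ab} = 2 S^{ab} + 2 R^{ab}` for harmonic `u`. -/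
theorem mLap_FF {O : Set M} (hO : IsOpen O)
    (hu : ∀ z ∈ O, ∀ c, ContMDiffAt (𝓡 n) 𝓘(ℝ, ℝ) 3 (fun q => u q c) z)
    (hH : ∀ z ∈ O, ∀ c, mLap n (fun q => u q c) z = 0) (hz : z ∈ O) (a b : Fin m) :
    mLap n (FF n u a b) z = 2 * SS n u a b z + 2 * RR n u a b z := by
  have h0 : ∀ c, mLap n (fun q => u q c) =ᶠ[𝓝 z] fun _ => 0 := by
    intro c
    filter_upwards [hO.mem_nhds hz] with q hq using hH q hq c
  have h1 := mBochner_polar (hu z hz a) (hu z hz b)
  rw [mGam_congr (h0 a) (EventuallyEq.refl _ _), mGam_const_left,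
    mGam_congr (EventuallyEq.refl _ _) (h0 b), mGam_const_right] at h1
  have h2 : mLap n (FF n u a b) z =
    mLap n (mGam n (fun q => u q a) (fun q => u q b)) z := rfl
  rw [h2, h1]
  simp only [SS, RR]
  ring



lemma contMDiffAt_FF {k l : WithTop ℕ∞} (hu : ∀ c, ContMDiffAt (𝓡 n) 𝓘(ℝ, ℝ) l (fun q => u q c) z)
    (hkl : k + 1 ≤ l) (hl : l ≤ ∞) (a b : Fin m) :
    ContMDiffAt (𝓡 n) 𝓘(ℝ, ℝ) k (FF n u a b) z := contMDiffAt_mGam (hu a) (hu b) hkl hl

end Calc

section Gram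

variable {n : ℕ} {M : Type*} [TopologicalSpace M] [ChartedSpace (EuclideanSpace ℝ (Fin n)) M]
  [IsManifold 𝓘(ℝ, EuclideanSpace ℝ (Fin n)) ∞ M]
  [RiemannianBundle (fun x : M => TangentSpace 𝓘(ℝ, EuclideanSpace ℝ (Fin n)) x)]
  [IsContMDiffRiemannianBundle 𝓘(ℝ, EuclideanSpace ℝ (Fin n)) ∞ (EuclideanSpace ℝ (Fin n))
      (fun x : M => TangentSpace 𝓘(ℝ, EuclideanSpace ℝ (Fin n)) x)]
  {u : M → EuclideanSpace ℝ (Fin n)} {z : M}

/-- the matrix `F` at a point. -/
def Fm (u : M → EuclideanSpace ℝ (Fin n)) (z : M) : Matrix (Fin n) (Fin n) ℝ :=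
  Matrix.of fun a b => FF n u a b z



/-- `S^{ab} = s(F, P)` where `F` is invertible. -/
theorem SS_eq_sFun (hu : ∀ c, ContMDiffAt (𝓡 n) 𝓘(ℝ, ℝ) 2 (fun q => u q c) z)
    (hdet : (Fm u z).det ≠ 0) (a b : Fin n) :
    SS n u a b z = sFun (Fm u z) (fun a b c => PP n u a b c z) a b := by
  rw [SS, mHessIn_gram (hu a) (hu b) (u := fun a q => u q a) hdet, sFun]
  refine Finset.sum_congr rfl fun c _ => Finset.sum_congr rfl fun d _ =>
    Finset.sum_congr rfl fun e _ => Finset.sum_congr rfl fun f _ => ?_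
  rw [mHess_kosz hu, mHess_kosz hu]
  rfl

/-- `|dF^{ab}|² = e(F, P)` where `F` is invertible. -/
theorem mGam_FF_eq_eFun (hdet : (Fm u z).det ≠ 0) (a b : Fin n) :
    mGam n (FF n u a b) (FF n u a b) z = eFun (Fm u z) (fun a b c => PP n u a b c z) a b :=
  mGam_gram (u := fun a q => u q a) hdet _ _

end Gram

section Int

variable {n : ℕ} {M : Type*} [MetricSpace M] [ChartedSpace (EuclideanSpace ℝ (Fin n)) M]
  [IsManifold (𝓡 n) ∞ M]
  [RiemannianBundle (fun p : M => TangentSpace (𝓡 n) p)]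
  [IsContMDiffRiemannianBundle (𝓡 n) ∞ (EuclideanSpace ℝ (Fin n)) (fun p : M => TangentSpace (𝓡 n) p)]
  {m : ℕ} {O K : Set M} {u : M → EuclideanSpace ℝ (Fin m)} {φ : EuclideanSpace ℝ (Fin m) → ℝ}

namespace Tst

lemma smooth_FF (T : Tst n O K u φ) (a b : Fin m) {z : M} (hz : z ∈ O) :
    ContMDiffAt (𝓡 n) 𝓘(ℝ, ℝ) ∞ (FF n u a b) z :=
  contMDiffAt_FF (T.smooth_u z hz) (by simp) le_rfl a b

lemma lapU_eq (hH : ∀ z ∈ O, ∀ c, mLap n (fun q => u q c) z = 0) {z : M} (hz : z ∈ O) :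
    lapU n u φ z = ∑ c, ∑ d, pderiv d (pderiv c φ) (u z) * FF n u c d z := by
  rw [lapU]
  simp only [hH z hz, mul_zero, Finset.sum_const_zero, zero_add]
  rfl

variable [IsRiemannianManifold (𝓡 n) M]
  [SecondCountableTopology M] [Nonempty M] [MeasurableSpace M] [BorelSpace M]

/-- (c1) `∫ φ_{cd}(u) F^{cd} = 0`. -/
theorem c1 (T : Tst n O K u φ) (hH : ∀ z ∈ O, ∀ c, mLap n (fun q => u q c) z = 0) :
    IntegrableOn (fun z => ∑ c, ∑ d, pderiv d (pderiv c φ) (u z) * FF n u c d z) O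
      (μHE[n] : Measure M) ∧
    ∫ z in O, ∑ c, ∑ d, pderiv d (pderiv c φ) (u z) * FF n u c d z ∂(μHE[n] : Measure M) = 0 := by
  obtain ⟨h1, h2⟩ := T.integral_lapU
  refine ⟨h1.congr_fun (fun z hz => lapU_eq hH hz) T.isOpen.measurableSet, ?_⟩
  rw [← h2]
  exact setIntegral_congr_fun T.isOpen.measurableSet fun z hz => (lapU_eq hH hz).symm


/-- (c2) `∫ φ(u) P^{ab,c} = - ∫ F^{ab} φ_d(u) F^{dc}`. -/
theorem c2 (T : Tst n O K u φ) (hH : ∀ z ∈ O, ∀ c, mLap n (fun q => u q c) z = 0)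
    (a b c : Fin m) :
    IntegrableOn (fun z => φ (u z) * PP n u a b c z) O (μHE[n] : Measure M) ∧
    IntegrableOn (fun z => FF n u a b z * ∑ d, pderiv d φ (u z) * FF n u d c z) O
      (μHE[n] : Measure M) ∧
    ∫ z in O, φ (u z) * PP n u a b c z ∂(μHE[n] : Measure M) =
      - ∫ z in O, FF n u a b z * ∑ d, pderiv d φ (u z) * FF n u d c z
        ∂(μHE[n] : Measure M) := by
  obtain ⟨h1, h2, h3⟩ := T.integral_green (f := FF n u a b) (h := fun q => u q c)
    (fun z hz => (T.smooth_FF a b hz).of_le one_le_infty)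
    (fun z hz => (T.smooth_u z hz c).of_le two_le_infty)
  have e : ∀ z ∈ O, φ (u z) * (FF n u a b z * mLap n (fun q => u q c) z +
      mGam n (FF n u a b) (fun q => u q c) z) = φ (u z) * PP n u a b c z := by
    intro z hz
    rw [hH z hz c, mul_zero, zero_add]
    rfl
  refine ⟨h2.congr_fun e T.isOpen.measurableSet, h1, ?_⟩
  rw [setIntegral_congr_fun T.isOpen.measurableSet e] at h3
  have h5 : ∫ z in O, FF n u a b z * ∑ d, pderiv d φ (u z) * FF n u d c z
        ∂(μHE[n] : Measure M) = - ∫ z in O, φ (u z) * PP n u a b c z ∂(μHE[n] : Measure M) := h3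
  rw [h5, neg_neg]

/-- (c3) `∫ φ_c(u) P^{ab,c} = - ∫ φ(u) (2 S^{ab} + 2 R^{ab})`. -/
theorem c3 (T : Tst n O K u φ) (hH : ∀ z ∈ O, ∀ c, mLap n (fun q => u q c) z = 0)
    (a b : Fin m) :
    IntegrableOn (fun z => ∑ c, pderiv c φ (u z) * PP n u a b c z) O (μHE[n] : Measure M) ∧
    IntegrableOn (fun z => φ (u z) * (2 * SS n u a b z + 2 * RR n u a b z)) O
      (μHE[n] : Measure M) ∧
    ∫ z in O, ∑ c, pderiv c φ (u z) * PP n u a b c z ∂(μHE[n] : Measure M) =
      - ∫ z in O, φ (u z) * (2 * SS n u a b z + 2 * RR n u a b z) ∂(μHE[n] : Measure M) := by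
  obtain ⟨h1, h2, h3⟩ := T.integral_ibp (h := FF n u a b)
    (fun z hz => (T.smooth_FF a b hz).of_le two_le_infty)
  have e1 : ∀ z ∈ O, ∑ c, pderiv c φ (u z) * mGam n (fun q => u q c) (FF n u a b) z =
      ∑ c, pderiv c φ (u z) * PP n u a b c z := fun z _ =>
    Finset.sum_congr rfl fun c _ => by rw [mGam_comm]; rfl
  have e2 : ∀ z ∈ O, φ (u z) * mLap n (FF n u a b) z =
      φ (u z) * (2 * SS n u a b z + 2 * RR n u a b z) := fun z hz => by
    rw [mLap_FF T.isOpen (fun w hw c => (T.smooth_u w hw c).of_le three_le_infty) hH hz]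
  refine ⟨h1.congr_fun e1 T.isOpen.measurableSet, h2.congr_fun e2 T.isOpen.measurableSet, ?_⟩
  rw [setIntegral_congr_fun T.isOpen.measurableSet e1,
    setIntegral_congr_fun T.isOpen.measurableSet e2] at h3
  exact h3

/-- (c4) `∫ φ(u) |dF^{ab}|² = - ∫ φ(u) F^{ab} (2 S^{ab} + 2 R^{ab}) + ½ ∫ (F^{ab})² φ_{cd}(u) F^{cd}`. -/
theorem c4 (T : Tst n O K u φ) (hH : ∀ z ∈ O, ∀ c, mLap n (fun q => u q c) z = 0)
    (a b : Fin m) :
    IntegrableOn (fun z => φ (u z) * mGam n (FF n u a b) (FF n u a b) z) O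
      (μHE[n] : Measure M) ∧
    IntegrableOn (fun z => φ (u z) * (FF n u a b z * (2 * SS n u a b z + 2 * RR n u a b z))) O
      (μHE[n] : Measure M) ∧
    IntegrableOn (fun z => FF n u a b z ^ 2 *
      ∑ c, ∑ d, pderiv d (pderiv c φ) (u z) * FF n u c d z) O (μHE[n] : Measure M) ∧
    ∫ z in O, φ (u z) * mGam n (FF n u a b) (FF n u a b) z ∂(μHE[n] : Measure M) =
      - ∫ z in O, φ (u z) * (FF n u a b z * (2 * SS n u a b z + 2 * RR n u a b z))
          ∂(μHE[n] : Measure M) +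
        (1 / 2) * ∫ z in O, FF n u a b z ^ 2 *
          ∑ c, ∑ d, pderiv d (pderiv c φ) (u z) * FF n u c d z ∂(μHE[n] : Measure M) := by
  obtain ⟨h1, h2, h3, h4⟩ := T.integral_energy (h := FF n u a b)
    (fun z hz => (T.smooth_FF a b hz).of_le two_le_infty)
  have e2 : ∀ z ∈ O, φ (u z) * (FF n u a b z * mLap n (FF n u a b) z) =
      φ (u z) * (FF n u a b z * (2 * SS n u a b z + 2 * RR n u a b z)) := fun z hz => by
    rw [mLap_FF T.isOpen (fun w hw c => (T.smooth_u w hw c).of_le three_le_infty) hH hz]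
  have e3 : ∀ z ∈ O, FF n u a b z ^ 2 * lapU n u φ z = FF n u a b z ^ 2 *
      ∑ c, ∑ d, pderiv d (pderiv c φ) (u z) * FF n u c d z := fun z hz => by
    rw [lapU_eq hH hz]
  refine ⟨h1, h2.congr_fun e2 T.isOpen.measurableSet, h3.congr_fun e3 T.isOpen.measurableSet, ?_⟩
  rw [setIntegral_congr_fun T.isOpen.measurableSet e2,
    setIntegral_congr_fun T.isOpen.measurableSet e3] at h4
  exact h4

end Tst

end Int

end Crest.Agent.R249.Vf281
end
end

-- ▼ part R249/BDa_41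
section

/-!
R249 / D3-LIM / BD (helper41).  Geometric lemmas for the fields of `Lim41.LData`: the Euclidean balls in
the target come from small balls of `M k`; the measures; the Hölder continuity of `h ∘ e.symm`.
-/

set_option autoImplicit false
set_option maxSynthPendingDepth 3
noncomputable section
open Set Filter Topology Bundle MeasureTheory Metric
open scoped ContDiff Manifold ENNReal NNReal Matrix
open Crest.GeometryTopology.CoordMetric Crest.GeometryTopology.ChartCurvature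
  Crest.GeometryTopology.RicciEnergy Crest.GeometryTopology.PointedLimit
open Crest.Agent.R247.Bo84
open Crest.Agent.R249.D1Def104 Crest.Agent.R249.Ul174 Crest.Agent.R249.Len47
open Crest.Agent.R249.AsmD832 Crest.Agent.R249.LimDef41
open Crest.Agent.R249.St174 (ev_forall bd_of_closedBall mem_closedBall_mk)

namespace Crest.Agent.R249.BD41

local notation "𝔼" => EuclideanSpace ℝ (Fin 4)

section seq

variable {M : ℕ → Type} [∀ k, MetricSpace (M k)] {q : ∀ k, M k}

/-- the map into `ℝ⁴` -/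
def uu (u : ∀ k, Fin 4 → M k → ℝ) (k : ℕ) (y : M k) : 𝔼 := WithLp.toLp 2 fun a => u k a y

theorem lim_uu {S : Set (UL q)} {u : ∀ k, Fin 4 → M k → ℝ} {U : UL q → 𝔼}
    (hlim : ∀ a, LimOn S (fun k => u k a) fun y => U y a) {y : ∀ k, M k} (hy : Bd q y)
    (hS : UL.mk y hy ∈ S) : Tendsto (fun k => uu u k (y k)) om (𝓝 (U (UL.mk y hy))) := by
  have h2 : Tendsto (fun k => (fun a => u k a (y k) : Fin 4 → ℝ)) om
      (𝓝 fun a => U (UL.mk y hy) a) := by
    rw [tendsto_pi_nhds]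
    exact fun a => hlim a y hy hS
  exact ((PiLp.continuous_toLp 2 _).tendsto _).comp h2

end seq

section seq

variable {M : ℕ → Type} [∀ k, MetricSpace (M k)]
  [∀ k, ChartedSpace (EuclideanSpace ℝ (Fin 4)) (M k)]
  [∀ k, IsManifold 𝓘(ℝ, EuclideanSpace ℝ (Fin 4)) ∞ (M k)]
  [∀ k, RiemannianBundle (fun x : M k => TangentSpace 𝓘(ℝ, EuclideanSpace ℝ (Fin 4)) x)]
  [∀ k, IsContMDiffRiemannianBundle 𝓘(ℝ, EuclideanSpace ℝ (Fin 4)) ∞ (EuclideanSpace ℝ (Fin 4))
    (fun x : M k => TangentSpace 𝓘(ℝ, EuclideanSpace ℝ (Fin 4)) x)]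
  [∀ k, MeasurableSpace (M k)] [∀ k, BorelSpace (M k)] {q : ∀ k, M k}

variable {x : ∀ k, M k} {hx : Bd q x} {ρ : ℝ} {u : ∀ k, Fin 4 → M k → ℝ}
  {h : UL q → Matrix (Fin 4) (Fin 4) ℝ} {r₀ : ℝ} {U : UL q → EuclideanSpace ℝ (Fin 4)}
  {e : OpenPartialHomeomorph (UL q) (EuclideanSpace ℝ (Fin 4))}

theorem symm_mem (hC : ChOut x hx ρ u h r₀ U e) {z : 𝔼} (hz : z ∈ e.target) :
    e.symm z ∈ ball (UL.mk x hx) r₀ := by
  rw [← hC.source]; exact e.map_target hz

theorem U_symm (hC : ChOut x hx ρ u h r₀ U e) {z : 𝔼} (hz : z ∈ e.target) :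
    U (e.symm z) = z := by
  rw [← hC.eq, e.right_inv hz]

theorem dist_symm_le (hC : ChOut x hx ρ u h r₀ U e) {z w : 𝔼} (hz : z ∈ e.target)
    (hw : w ∈ e.target) : dist (e.symm z) (e.symm w) ≤ 10 / 9 * dist z w := by
  have hr := hC.r_pos
  have h1 := hC.ni (e.symm z) (ball_subset_ball (by linarith) (symm_mem hC hz)) (e.symm w)
    (ball_subset_ball (by linarith) (symm_mem hC hw))
  rw [U_symm hC hz, U_symm hC hw] at h1
  have := (abs_le.1 h1).1
  linarith

theorem le_dist_symm (hC : ChOut x hx ρ u h r₀ U e) {z w : 𝔼} (hz : z ∈ e.target)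
    (hw : w ∈ e.target) : dist z w ≤ 11 / 10 * dist (e.symm z) (e.symm w) := by
  have hr := hC.r_pos
  have h1 := hC.ni (e.symm z) (ball_subset_ball (by linarith) (symm_mem hC hz)) (e.symm w)
    (ball_subset_ball (by linarith) (symm_mem hC hw))
  rw [U_symm hC hz, U_symm hC hw] at h1
  have := (abs_le.1 h1).2
  linarith

/-- balls in the target are small -/
theorem rad_le (hC : ChOut x hx ρ u h r₀ U e) {z : 𝔼} {r : ℝ} (hr : 0 < r)
    (hz : closedBall z r ⊆ e.target) : r ≤ 11 / 10 * r₀ := by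
  set v : 𝔼 := EuclideanSpace.single 0 r with hv
  have hvn : ‖v‖ = r := by rw [hv, EuclideanSpace.norm_single, Real.norm_eq_abs, abs_of_pos hr]
  have h1 : z + v ∈ closedBall z r := by
    rw [mem_closedBall, dist_eq_norm, add_sub_cancel_left, hvn]
  have h2 : z - v ∈ closedBall z r := by
    rw [mem_closedBall, dist_eq_norm, sub_sub_cancel_left, norm_neg, hvn]
  have h3 := le_dist_symm hC (hz h1) (hz h2)
  have h4 : dist (z + v) (z - v) = 2 * r := by
    rw [dist_eq_norm, add_sub_sub_cancel, ← two_smul ℝ v, norm_smul, hvn]; norm_num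
  have h5 := mem_ball.1 (symm_mem hC (hz h1))
  have h6 := mem_ball.1 (symm_mem hC (hz h2))
  have h7 := dist_triangle_right (e.symm (z + v)) (e.symm (z - v)) (UL.mk x hx)
  rw [h4] at h3
  linarith

/-- Euclidean balls in the target pull back into small balls -/
theorem pull_ball (hC : ChOut x hx ρ u h r₀ U e) {z : 𝔼} {r : ℝ} (hr : 0 < r)
    (hz : closedBall z r ⊆ e.target) :
    ∀ᶠ k in om, ∀ y ∈ closedBall (x k) r₀, uu u k y ∈ closedBall z r →
      y ∈ ball ((e.symm z).rep k) (2 * r) := by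
  have hne : ∀ k, Nonempty (M k) := fun k => ⟨x k⟩
  have hr₀ := hC.r_pos
  have hzt : z ∈ e.target := hz (mem_closedBall_self hr.le)
  have key := ev_forall (M := M) (S := fun k => {y | y ∈ closedBall (x k) r₀ ∧
    uu u k y ∈ closedBall z r}) (P := fun k y => y ∈ ball ((e.symm z).rep k) (2 * r)) (by
    intro y hy
    have hy1 : ∀ᶠ k in om, y k ∈ closedBall (x k) r₀ := hy.mono fun k hk => hk.1
    have hy2 : ∀ᶠ k in om, uu u k (y k) ∈ closedBall z r := hy.mono fun k hk => hk.2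
    have hyb := bd_of_closedBall hx hy1
    have hY := mem_closedBall_mk hx hyb hy1
    have hρ := hC.r_le
    have hYR : UL.mk y hyb ∈ ball (UL.mk x hx) (8 * ρ) := by
      rw [mem_ball]; exact (mem_closedBall.1 hY).trans_lt (by linarith)
    have h1 := lim_uu hC.lim hyb hYR
    have h2 : U (UL.mk y hyb) ∈ closedBall z r := isClosed_closedBall.mem_of_tendsto h1 hy2
    have h3 := hC.ni (UL.mk y hyb) (by
      rw [mem_ball]; exact (mem_closedBall.1 hY).trans_lt (by linarith)) (e.symm z)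
      (ball_subset_ball (by linarith) (symm_mem hC hzt))
    rw [U_symm hC hzt] at h3
    have h4 := (abs_le.1 h3).1
    have h5 := mem_closedBall.1 h2
    have h6 : dist (UL.mk y hyb) (e.symm z) < 2 * r := by linarith
    have h7 : dist (UL.mk y hyb) (UL.mk (e.symm z).rep (e.symm z).bd_rep) < 2 * r := by
      rwa [UL.mk_rep]
    exact UL.ev_lt hyb (e.symm z).bd_rep h7)
  exact key.mono fun k hk y hy hyK => hk y ⟨hy, hyK⟩

/-- representatives of points of the chart domain -/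
theorem rep_mem (hC : ChOut x hx ρ u h r₀ U e) {z : 𝔼} (hz : z ∈ e.target) :
    ∀ᶠ k in om, (e.symm z).rep k ∈ ball (x k) r₀ := by
  have h1 := mem_ball.1 (symm_mem hC hz)
  have h2 : dist (UL.mk (e.symm z).rep (e.symm z).bd_rep) (UL.mk x hx) < r₀ := by
    rwa [UL.mk_rep]
  exact UL.ev_lt (e.symm z).bd_rep hx h2

/-- Hölder continuity of `h` in the chart -/
theorem hold_symm {α C' ε₁ : ℝ} (hα : 0 ≤ α) (hC0 : 0 ≤ C') (hA : AvOut x hx ρ α C' ε₁ u h)
    (hC : ChOut x hx ρ u h r₀ U e) {z w : 𝔼} (hz : z ∈ e.target) (hw : w ∈ e.target)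
    (a b : Fin 4) :
    |h (e.symm z) a b - h (e.symm w) a b| ≤ C' * (10 / 9) ^ α * dist z w ^ α := by
  have hr := hC.r_pos
  have hρ := hC.r_le
  refine (hA.hold _ (ball_subset_ball (by linarith) (symm_mem hC hz)) _
    (ball_subset_ball (by linarith) (symm_mem hC hw)) a b).trans ?_
  rw [mul_assoc, ← Real.mul_rpow (by norm_num) dist_nonneg]
  refine mul_le_mul_of_nonneg_left ?_ hC0
  exact Real.rpow_le_rpow dist_nonneg (dist_symm_le hC hz hw) hα

theorem near_symm {α C' ε₁ : ℝ} (hA : AvOut x hx ρ α C' ε₁ u h) (hε : ε₁ ≤ 1 / 8)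
    (hC : ChOut x hx ρ u h r₀ U e) {z : 𝔼} (hz : z ∈ e.target) :
    Crest.Agent.R249.LPt_191.N1 (h (e.symm z) - 1) ≤ 1 / 8 := by
  have hr := hC.r_pos
  have hρ := hC.r_le
  refine le_trans (le_of_eq ?_) ((hA.near _ (ball_subset_ball (by linarith)
    (symm_mem hC hz))).trans hε)
  unfold Crest.Agent.R249.LPt_191.N1
  refine Finset.sum_congr rfl fun a _ => Finset.sum_congr rfl fun b _ => ?_
  rw [Matrix.sub_apply, Matrix.one_apply]

end seq

end Crest.Agent.R249.BD41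
end
end

-- ▼ part R249/BDb_41
section

/-!
R249 / D3-LIM / BD (helper41).  The good indices, the measures, the maps; fields `base`, `wc_one`,
`sc_F`, `F_meas`, `F_bdd`, `P_mem`, `P_bdd`, `D_*`, `H11` of `Lim41.LData`.
-/

set_option autoImplicit false
set_option maxSynthPendingDepth 3
noncomputable section
open Set Filter Topology Bundle MeasureTheory Metric
open scoped ContDiff Manifold ENNReal NNReal Matrix
open Crest.GeometryTopology.CoordMetric Crest.GeometryTopology.ChartCurvature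
  Crest.GeometryTopology.RicciEnergy Crest.GeometryTopology.PointedLimit
open Crest.Agent.R247.Bo84
open Crest.Agent.R249.D1Def104 Crest.Agent.R249.Ul174 Crest.Agent.R249.Len47
open Crest.Agent.R249.AsmD832 Crest.Agent.R249.LimDef41
open Crest.Agent.R249.St174 (ev_forall bd_of_closedBall mem_closedBall_mk om4 om4_pos)

namespace Crest.Agent.R249.BD41

local notation "𝔼" => EuclideanSpace ℝ (Fin 4)

section one

variable {M : Type} [MetricSpace M] [CompleteSpace M] [ConnectedSpace M]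
  [ChartedSpace (EuclideanSpace ℝ (Fin 4)) M]
  [IsManifold 𝓘(ℝ, EuclideanSpace ℝ (Fin 4)) ∞ M]
  [RiemannianBundle (fun x : M => TangentSpace 𝓘(ℝ, EuclideanSpace ℝ (Fin 4)) x)]
  [IsContMDiffRiemannianBundle 𝓘(ℝ, EuclideanSpace ℝ (Fin 4)) ∞ (EuclideanSpace ℝ (Fin 4))
    (fun x : M => TangentSpace 𝓘(ℝ, EuclideanSpace ℝ (Fin 4)) x)]
  [IsRiemannianManifold 𝓘(ℝ, EuclideanSpace ℝ (Fin 4)) M]
  [MeasurableSpace M] [BorelSpace M]

/-- a good manifold -/
structure Gd (x : M) (ρ α C lam lamk : ℝ) (u : Fin 4 → M → ℝ) : Prop where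
  ric : HasRicciLowerBound 4 M 0
  smooth : ∀ a, ContMDiffOn 𝓘(ℝ, 𝔼) 𝓘(ℝ, ℝ) ∞ (u a) (ball x (16 * ρ))
  harm : ∀ a, ∀ p ∈ ball x (16 * ρ), mLap 4 (u a) p = 0 ∧ mGam 4 (u a) (u a) p ≤ 4
  hess : ∫ z in ball x (8 * ρ), ∑ a, mHessSq 4 (u a) z ∂(μHE[4] : Measure M) ≤
    C * (8 * ρ) ^ (2 + 2 * α)
  l4 : ∫ z in ball x (8 * ρ), ∑ a, mHessSq 4 (u a) z ^ 2 ∂(μHE[4] : Measure M) ≤ C
  ricdev : ∫⁻ z in ball x (16 * ρ), ENNReal.ofReal (mRicDev 4 M lamk z)
    ∂(μHE[4] : Measure M) ≤ 1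
  lam_bd : |lamk| ≤ lam + 1

variable {x : M} {ρ α C lam lamk : ℝ} {u : Fin 4 → M → ℝ}

/-- the sum of the Hessians -/
def HH (u : Fin 4 → M → ℝ) (p : M) : ℝ := ∑ a, mHessSq 4 (u a) p

namespace Gd

variable (g : Gd x ρ α C lam lamk u)
include g

theorem smAt {p : M} (hp : p ∈ ball x (16 * ρ)) (a : Fin 4) :
    ContMDiffAt 𝓘(ℝ, 𝔼) 𝓘(ℝ, ℝ) ∞ (u a) p := (g.smooth a).contMDiffAt (isOpen_ball.mem_nhds hp)

theorem smAt2 {p : M} (hp : p ∈ ball x (16 * ρ)) (a : Fin 4) :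
    ContMDiffAt 𝓘(ℝ, 𝔼) 𝓘(ℝ, ℝ) 2 (u a) p := (g.smAt hp a).of_le two_le_infty

theorem smF {p : M} (hp : p ∈ ball x (16 * ρ)) (a b : Fin 4) :
    ContMDiffAt 𝓘(ℝ, 𝔼) 𝓘(ℝ, ℝ) ∞ (mGam 4 (u a) (u b)) p :=
  contMDiffAt_mGam (m := ∞) (g.smAt hp a) (g.smAt hp b) (by simp) le_rfl

theorem hs_nonneg {p : M} (hp : p ∈ ball x (16 * ρ)) (a : Fin 4) : 0 ≤ mHessSq 4 (u a) p :=
  mHessSq_nonneg (g.smAt2 hp a)

theorem HH_nonneg {p : M} (hp : p ∈ ball x (16 * ρ)) : 0 ≤ HH u p :=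
  Finset.sum_nonneg fun a _ => g.hs_nonneg hp a

theorem hs_le {p : M} (hp : p ∈ ball x (16 * ρ)) (a : Fin 4) : mHessSq 4 (u a) p ≤ HH u p :=
  Finset.single_le_sum (f := fun a => mHessSq 4 (u a) p) (fun a _ => g.hs_nonneg hp a)
    (Finset.mem_univ a)

theorem F_le {p : M} (hp : p ∈ ball x (16 * ρ)) (a b : Fin 4) :
    |mGam 4 (u a) (u b) p| ≤ 4 := by
  have h1 := mGam_sq_le (n := 4) (u a) (u b) p
  have h2 := (g.harm a p hp).2
  have h3 := (g.harm b p hp).2
  have h4 := mGam_self_nonneg (n := 4) (u a) p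
  have h5 := mGam_self_nonneg (n := 4) (u b) p
  refine abs_le_of_sq_le_sq ?_ (by norm_num)
  nlinarith

theorem D_le {p : M} (hp : p ∈ ball x (16 * ρ)) (a b : Fin 4) :
    mGam 4 (mGam 4 (u a) (u b)) (mGam 4 (u a) (u b)) p ≤ 16 * HH u p := by
  have h1 := Crest.Agent.R249.Vf281.mGam_mGam_self_le (g.smAt2 hp a) (g.smAt2 hp b)
  have h2 := (g.harm a p hp).2
  have h3 := (g.harm b p hp).2
  have h4 := g.hs_nonneg hp a
  have h5 := g.hs_nonneg hp b
  have h6 := g.hs_le hp a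
  have h7 := g.hs_le hp b
  nlinarith

theorem P_sq_le {p : M} (hp : p ∈ ball x (16 * ρ)) (a b c : Fin 4) :
    mGam 4 (mGam 4 (u a) (u b)) (u c) p ^ 2 ≤ 64 * HH u p := by
  have h1 := mGam_sq_le (n := 4) (mGam 4 (u a) (u b)) (u c) p
  have h2 := g.D_le hp a b
  have h3 := (g.harm c p hp).2
  have h4 := mGam_self_nonneg (n := 4) (u c) p
  have h5 := mGam_self_nonneg (n := 4) (mGam 4 (u a) (u b)) p
  nlinarith

theorem cont_F (a b : Fin 4) : ContinuousOn (mGam 4 (u a) (u b)) (ball x (16 * ρ)) :=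
  fun _ hp => (g.smF hp a b).continuousAt.continuousWithinAt

theorem cont_P (a b c : Fin 4) :
    ContinuousOn (mGam 4 (mGam 4 (u a) (u b)) (u c)) (ball x (16 * ρ)) := fun _ hp =>
  (contMDiffAt_mGam (m := ∞) (g.smF hp a b) (g.smAt hp c) (by simp)
    le_rfl).continuousAt.continuousWithinAt

theorem cont_D (a b : Fin 4) :
    ContinuousOn (mGam 4 (mGam 4 (u a) (u b)) (mGam 4 (u a) (u b))) (ball x (16 * ρ)) :=
  fun _ hp => (contMDiffAt_mGam (m := ∞) (g.smF hp a b) (g.smF hp a b) (by simp)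
    le_rfl).continuousAt.continuousWithinAt

theorem cont_G (a b : Fin 4) :
    ContinuousOn (mLap 4 (mGam 4 (u a) (u b))) (ball x (16 * ρ)) :=
  fun _ hp => (contMDiffAt_mLap (m := ∞) (g.smF hp a b) (by simp)
    le_rfl).continuousAt.continuousWithinAt

theorem cont_HH : ContinuousOn (HH u) (ball x (16 * ρ)) := by
  unfold HH
  refine continuousOn_finsetSum _ fun a _ => fun z hz => ?_
  exact (Crest.Agent.R247.Bs84.continuousAt_mHessSq (g.smAt2 hz a)).continuousWithinAt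

end Gd

omit [CompleteSpace M] [ConnectedSpace M]
  [IsRiemannianManifold 𝓘(ℝ, EuclideanSpace ℝ (Fin 4)) M] in
/-- measurability on subballs -/
theorem aesm_of_cont {f : M → ℝ} {S O : Set M} (hf : ContinuousOn f O) (hS : MeasurableSet S)
    (hSO : S ⊆ O) : AEStronglyMeasurable f ((μHE[4] : Measure M).restrict S) :=
  (hf.mono hSO).aestronglyMeasurable hS

/-- bounded functions, continuous on the closed ball, are integrable -/
theorem integrableOn_of_cont {f : M → ℝ} {O : Set M} (hf : ContinuousOn f O) {y : M} {r : ℝ}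
    (hr : closedBall y r ⊆ O) : IntegrableOn f (ball y r) (μHE[4] : Measure M) := by
  have hpr : ProperSpace M := Crest.Agent.R247.HR216.properSpace_of_riemannian 4 M
  have hlf : IsLocallyFiniteMeasure (μHE[4] : Measure M) :=
    Crest.Agent.R247.GluM923.isLocallyFinite 4 M
  exact ((hf.mono hr).integrableOn_compact (isCompact_closedBall y r)).mono_set
    ball_subset_closedBall

end one

section seq

variable {M : ℕ → Type} [∀ k, MetricSpace (M k)] [∀ k, CompleteSpace (M k)]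
  [∀ k, ConnectedSpace (M k)]
  [∀ k, ChartedSpace (EuclideanSpace ℝ (Fin 4)) (M k)]
  [∀ k, IsManifold 𝓘(ℝ, EuclideanSpace ℝ (Fin 4)) ∞ (M k)]
  [∀ k, RiemannianBundle (fun x : M k => TangentSpace 𝓘(ℝ, EuclideanSpace ℝ (Fin 4)) x)]
  [∀ k, IsContMDiffRiemannianBundle 𝓘(ℝ, EuclideanSpace ℝ (Fin 4)) ∞ (EuclideanSpace ℝ (Fin 4))
    (fun x : M k => TangentSpace 𝓘(ℝ, EuclideanSpace ℝ (Fin 4)) x)]
  [∀ k, IsRiemannianManifold 𝓘(ℝ, EuclideanSpace ℝ (Fin 4)) (M k)]
  [∀ k, MeasurableSpace (M k)] [∀ k, BorelSpace (M k)] {q : ∀ k, M k}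

variable {x : ∀ k, M k} {hx : Bd q x} {ρ α C C' ε ε₁ δ lam : ℝ} {lamk : ℕ → ℝ}
  {u : ∀ k, Fin 4 → M k → ℝ}
  {h : UL q → Matrix (Fin 4) (Fin 4) ℝ} {r₀ : ℝ} {U : UL q → EuclideanSpace ℝ (Fin 4)}
  {e : OpenPartialHomeomorph (UL q) (EuclideanSpace ℝ (Fin 4))}

/-- the good indices -/
def Gk (x : ∀ k, M k) (ρ α C lam : ℝ) (lamk : ℕ → ℝ) (u : ∀ k, Fin 4 → M k → ℝ) (k : ℕ) : Prop :=
  Gd (x k) ρ α C lam (lamk k) (u k)

theorem ev_Gk (H : HData x ρ α C ε δ lam lamk u) : ∀ᶠ k in om, Gk x ρ α C lam lamk u k := by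
  have hρ := H.ρ_pos
  have h1 : ∀ᶠ k in om, |lamk k| ≤ lam + 1 := by
    have h2 : ∀ᶠ k in om, |lamk k - lam| < 1 := by
      have := (Metric.tendsto_nhds.1 H.lamk_lim) 1 one_pos
      simpa [Real.dist_eq] using this
    filter_upwards [h2] with k hk
    have h3 := abs_lt.1 hk
    have h4 := H.lam_nonneg
    rw [abs_le]
    constructor <;> linarith
  have h2 : ∀ᶠ k in om, ∫⁻ z in ball (x k) (16 * ρ), ENNReal.ofReal (mRicDev 4 (M k) (lamk k) z)
      ∂(μHE[4] : Measure (M k)) ≤ 1 := by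
    have := H.ricdev.eventually (gt_mem_nhds (show (0 : ℝ≥0∞) < 1 by simp))
    exact this.mono fun k hk => hk.le
  filter_upwards [H.ric, H.smooth, H.harm, H.hess (8 * ρ) (by positivity), H.l4, h1, h2]
    with k a1 a2 a3 a4 a5 a6 a7
  exact ⟨a1, a2, a3, a4 (x k) (mem_ball_self (by positivity)) (8 * ρ) le_rfl le_rfl, a5, a7, a6⟩

open Classical in
/-- the measures -/
def mm (x : ∀ k, M k) (ρ α C lam : ℝ) (lamk : ℕ → ℝ) (u : ∀ k, Fin 4 → M k → ℝ) (r₀ : ℝ)
    (k : ℕ) : Measure (M k) :=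
  if Gk x ρ α C lam lamk u k then (μHE[4] : Measure (M k)).restrict (ball (x k) r₀) else 0

open Classical in
/-- the maps -/
def vv (x : ∀ k, M k) (ρ α C lam : ℝ) (lamk : ℕ → ℝ) (u : ∀ k, Fin 4 → M k → ℝ)
    (k : ℕ) : M k → 𝔼 :=
  if Gk x ρ α C lam lamk u k then (ball (x k) (16 * ρ)).piecewise (uu u k) (fun _ => 0)
  else fun _ => 0

theorem mm_of {k : ℕ} (hk : Gk x ρ α C lam lamk u k) :
    mm x ρ α C lam lamk u r₀ k = (μHE[4] : Measure (M k)).restrict (ball (x k) r₀) := if_pos hk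

theorem mm_of_not {k : ℕ} (hk : ¬ Gk x ρ α C lam lamk u k) :
    mm x ρ α C lam lamk u r₀ k = 0 := if_neg hk

theorem vv_of {k : ℕ} (hk : Gk x ρ α C lam lamk u k) {y : M k} (hy : y ∈ ball (x k) (16 * ρ)) :
    vv x ρ α C lam lamk u k y = uu u k y := by
  classical
  unfold vv
  rw [if_pos hk, Set.piecewise_eq_of_mem _ _ _ hy]

theorem vv_meas (k : ℕ) : Measurable (vv x ρ α C lam lamk u k) := by
  classical
  unfold vv
  split_ifs with hk
  · refine ContinuousOn.measurable_piecewise ?_ continuousOn_const measurableSet_ball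
    intro y hy
    have h1 : ContinuousAt (fun y => (fun a => u k a y : Fin 4 → ℝ)) y := by
      rw [continuousAt_pi]
      exact fun a => (hk.smAt hy a).continuousAt
    exact ((PiLp.continuous_toLp 2 _).continuousAt.comp h1).continuousWithinAt
  · exact measurable_const

theorem sub16 (H : HData x ρ α C ε δ lam lamk u) (hC : ChOut x hx ρ u h r₀ U e) (k : ℕ) :
    ball (x k) r₀ ⊆ ball (x k) (16 * ρ) := by
  have := H.ρ_pos
  have := hC.r_le
  exact ball_subset_ball (by linarith)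

theorem csub16 (H : HData x ρ α C ε δ lam lamk u) (hC : ChOut x hx ρ u h r₀ U e) (k : ℕ) :
    closedBall (x k) r₀ ⊆ ball (x k) (16 * ρ) := by
  have := H.ρ_pos
  have := hC.r_le
  exact closedBall_subset_ball (by linarith)

/-- integrals against `mm` -/
theorem int_mm (H : HData x ρ α C ε δ lam lamk u) (hC : ChOut x hx ρ u h r₀ U e) {k : ℕ}
    (hk : Gk x ρ α C lam lamk u k) (Φ : 𝔼 → M k → ℝ) :
    ∫ y, Φ (vv x ρ α C lam lamk u k y) y ∂(mm x ρ α C lam lamk u r₀ k) =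
      ∫ y in ball (x k) r₀, Φ (uu u k y) y ∂(μHE[4] : Measure (M k)) := by
  rw [mm_of hk]
  refine setIntegral_congr_fun measurableSet_ball fun y hy => ?_
  simp only [vv_of hk (sub16 H hC k hy)]

theorem base (H : HData x ρ α C ε δ lam lamk u) (hC : ChOut x hx ρ u h r₀ U e) :
    Lim41.Base e.target (mm x ρ α C lam lamk u r₀) (vv x ρ α C lam lamk u) (om4 * r₀ ^ 4) := by
  have hr := hC.r_pos
  refine ⟨e.open_target, vv_meas, fun k => ?_, fun k => ?_⟩
  · by_cases hk : Gk x ρ α C lam lamk u k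
    · rw [mm_of hk]
      refine ⟨?_⟩
      rw [Measure.restrict_apply_univ]
      exact (Crest.Agent.R249.St174.vol_le hk.ric (x k) hr).trans_lt ENNReal.ofReal_lt_top
    · rw [mm_of_not hk]; infer_instance
  · by_cases hk : Gk x ρ α C lam lamk u k
    · rw [mm_of hk, Measure.real, Measure.restrict_apply_univ]
      exact ENNReal.toReal_le_of_le_ofReal (by have := om4_pos; positivity)
        (Crest.Agent.R249.St174.vol_le hk.ric (x k) hr)
    · rw [mm_of_not hk]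
      have := om4_pos
      simp only [Measure.real, Measure.coe_zero, Pi.zero_apply, ENNReal.toReal_zero]
      positivity

theorem wc_one (H : HData x ρ α C ε δ lam lamk u) (hC : ChOut x hx ρ u h r₀ U e)
    (hM : MsOut x u h r₀ e) :
    Lim41.WC om e.target (mm x ρ α C lam lamk u r₀) (vv x ρ α C lam lamk u) (fun _ _ => 1)
      (fun y => (√(h (e.symm y)).det)⁻¹) := by
  intro φ hφ
  refine (hM φ hφ).congr' ?_
  filter_upwards [ev_Gk H] with k hk
  have := int_mm (r₀ := r₀) H hC hk (fun v _ => φ v * 1)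
  simp only [mul_one] at this ⊢
  rw [this]
  rfl

theorem sc_F (H : HData x ρ α C ε δ lam lamk u) (hC : ChOut x hx ρ u h r₀ U e)
    (hS : StOut x u h r₀ e) (a b : Fin 4) :
    Lim41.SC om e.target (mm x ρ α C lam lamk u r₀) (vv x ρ α C lam lamk u)
      (fun k y => mGam 4 (u k a) (u k b) y) (fun y => h (e.symm y) a b) := by
  intro φ hφ
  refine (hS φ hφ a b).congr' ?_
  filter_upwards [ev_Gk H] with k hk
  have := int_mm (r₀ := r₀) H hC hk (fun v y => ‖φ v • (mGam 4 (u k a) (u k b) y -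
    h (e.symm v) a b)‖)
  rw [this]
  rfl

/-- almost everywhere statements -/
theorem ae_mm (H : HData x ρ α C ε δ lam lamk u) (hC : ChOut x hx ρ u h r₀ U e) (k : ℕ)
    {p : M k → Prop} (hp : Gk x ρ α C lam lamk u k → ∀ y ∈ ball (x k) r₀, p y) :
    ∀ᵐ y ∂(mm x ρ α C lam lamk u r₀ k), p y := by
  by_cases hk : Gk x ρ α C lam lamk u k
  · rw [mm_of hk, ae_restrict_iff' measurableSet_ball]
    exact Eventually.of_forall fun y hy => hp hk y hy
  · rw [mm_of_not hk]; simp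

theorem aesm_mm (H : HData x ρ α C ε δ lam lamk u) (hC : ChOut x hx ρ u h r₀ U e) (k : ℕ)
    {f : M k → ℝ} (hf : Gk x ρ α C lam lamk u k → ContinuousOn f (ball (x k) (16 * ρ))) :
    AEStronglyMeasurable f (mm x ρ α C lam lamk u r₀ k) := by
  by_cases hk : Gk x ρ α C lam lamk u k
  · rw [mm_of hk]
    exact aesm_of_cont (hf hk) measurableSet_ball (sub16 H hC k)
  · rw [mm_of_not hk]; exact aestronglyMeasurable_zero_measure _

theorem int_mm' (H : HData x ρ α C ε δ lam lamk u) (hC : ChOut x hx ρ u h r₀ U e) (k : ℕ)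
    {f : M k → ℝ} (hf : Gk x ρ α C lam lamk u k → ContinuousOn f (ball (x k) (16 * ρ))) :
    Integrable f (mm x ρ α C lam lamk u r₀ k) := by
  by_cases hk : Gk x ρ α C lam lamk u k
  · rw [mm_of hk]
    exact integrableOn_of_cont (hf hk) (csub16 H hC k)
  · rw [mm_of_not hk]; exact integrable_zero_measure

theorem memLp_mm (H : HData x ρ α C ε δ lam lamk u) (hC : ChOut x hx ρ u h r₀ U e) (k : ℕ)
    {f : M k → ℝ} (hf : Gk x ρ α C lam lamk u k → ContinuousOn f (ball (x k) (16 * ρ))) :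
    MemLp f 2 (mm x ρ α C lam lamk u r₀ k) := by
  rw [memLp_two_iff_integrable_sq (aesm_mm H hC k hf)]
  exact int_mm' H hC k fun hk => (hf hk).pow 2

theorem F_bdd (H : HData x ρ α C ε δ lam lamk u) (hC : ChOut x hx ρ u h r₀ U e) (k : ℕ) :
    ∀ᵐ y ∂(mm x ρ α C lam lamk u r₀ k), ∀ a b, |mGam 4 (u k a) (u k b) y| ≤ 4 :=
  ae_mm H hC k fun hk _ hy a b => hk.F_le (sub16 H hC k hy) a b

/-- the bound of integrals by the Hessians -/
theorem int_le_HH (H : HData x ρ α C ε δ lam lamk u) (hC : ChOut x hx ρ u h r₀ U e) (k : ℕ)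
    {f : M k → ℝ} {c : ℝ} (hc : 0 ≤ c)
    (hf : Gk x ρ α C lam lamk u k → ContinuousOn f (ball (x k) (16 * ρ)))
    (hfc : Gk x ρ α C lam lamk u k → ∀ y ∈ ball (x k) (16 * ρ), f y ≤ c * HH (u k) y) :
    ∫ y, f y ∂(mm x ρ α C lam lamk u r₀ k) ≤ c * (C * (8 * ρ) ^ (2 + 2 * α)) := by
  have hρ := H.ρ_pos
  have hC0 := H.C_pos
  by_cases hk : Gk x ρ α C lam lamk u k
  · rw [mm_of hk]
    have h8 : closedBall (x k) (8 * ρ) ⊆ ball (x k) (16 * ρ) :=
      closedBall_subset_ball (by linarith)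
    have h08 : ball (x k) r₀ ⊆ ball (x k) (8 * ρ) := by
      have := hC.r_le
      exact ball_subset_ball (by linarith)
    have i1 : IntegrableOn (fun y => c * HH (u k) y) (ball (x k) (8 * ρ))
        (μHE[4] : Measure (M k)) := (integrableOn_of_cont hk.cont_HH h8).const_mul c
    calc ∫ y in ball (x k) r₀, f y ∂(μHE[4] : Measure (M k))
        ≤ ∫ y in ball (x k) r₀, c * HH (u k) y ∂(μHE[4] : Measure (M k)) := by
          apply setIntegral_mono_on (integrableOn_of_cont (hf hk) (csub16 H hC k))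
            (i1.mono_set h08) measurableSet_ball
          exact fun y hy => hfc hk y (sub16 H hC k hy)
      _ ≤ ∫ y in ball (x k) (8 * ρ), c * HH (u k) y ∂(μHE[4] : Measure (M k)) := by
          refine setIntegral_mono_set i1 ?_ h08.eventuallyLE
          rw [EventuallyLE, ae_restrict_iff' measurableSet_ball]
          exact Eventually.of_forall fun y hy =>
            mul_nonneg hc (hk.HH_nonneg (h8 (ball_subset_closedBall hy)))
      _ = c * ∫ y in ball (x k) (8 * ρ), HH (u k) y ∂(μHE[4] : Measure (M k)) :=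
          integral_const_mul _ _
      _ ≤ _ := mul_le_mul_of_nonneg_left hk.hess hc
  · rw [mm_of_not hk, integral_zero_measure]
    positivity

theorem P_bdd (H : HData x ρ α C ε δ lam lamk u) (hC : ChOut x hx ρ u h r₀ U e) (k : ℕ)
    (a b c : Fin 4) :
    ∫ y, mGam 4 (mGam 4 (u k a) (u k b)) (u k c) y ^ 2 ∂(mm x ρ α C lam lamk u r₀ k) ≤
      64 * (C * (8 * ρ) ^ (2 + 2 * α)) :=
  int_le_HH H hC k (by norm_num) (fun hk => (hk.cont_P a b c).pow 2)
    fun hk y hy => hk.P_sq_le hy a b c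

theorem D_bdd (H : HData x ρ α C ε δ lam lamk u) (hC : ChOut x hx ρ u h r₀ U e) (k : ℕ)
    (a b : Fin 4) :
    ∫ y, |mGam 4 (mGam 4 (u k a) (u k b)) (mGam 4 (u k a) (u k b)) y|
      ∂(mm x ρ α C lam lamk u r₀ k) ≤ 16 * (C * (8 * ρ) ^ (2 + 2 * α)) :=
  int_le_HH H hC k (by norm_num) (fun hk => (hk.cont_D a b).abs)
    fun hk y hy => by
      rw [abs_of_nonneg (mGam_self_nonneg _ _)]
      exact hk.D_le hy a b

/-- the Morrey bound -/
theorem morrey (H : HData x ρ α C ε δ lam lamk u) (hC : ChOut x hx ρ u h r₀ U e) {z : 𝔼}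
    {r : ℝ} (hr : 0 < r) (hz : closedBall z r ⊆ e.target) (a b c : Fin 4) :
    ∀ᶠ k in om, ∫ y in (vv x ρ α C lam lamk u k) ⁻¹' ball z r,
      mGam 4 (mGam 4 (u k a) (u k b)) (u k c) y ^ 2 ∂(mm x ρ α C lam lamk u r₀ k) ≤
      64 * C * 2 ^ (2 + 2 * α) * r ^ (((4 : ℕ) : ℝ) - 2 + 2 * α) := by
  have hρ := H.ρ_pos
  have hr₀ := hC.r_pos
  have hrρ := hC.r_le
  have hzt : z ∈ e.target := hz (mem_closedBall_self hr.le)
  have hrr := rad_le hC hr hz
  filter_upwards [ev_Gk H, pull_ball hC hr hz, rep_mem hC hzt,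
    H.hess (2 * r) (by positivity)] with k hk hpull hrep hhess
  set w := (e.symm z).rep k with hw
  have hw8 : w ∈ ball (x k) (8 * ρ) := ball_subset_ball (by linarith) hrep
  have h1 := hhess w hw8 (2 * r) le_rfl (by linarith)
  have hbs : closedBall w (2 * r) ⊆ ball (x k) (16 * ρ) := by
    intro y hy
    rw [mem_closedBall] at hy
    rw [mem_ball] at hrep ⊢
    have := dist_triangle y w (x k)
    linarith
  have i1 : IntegrableOn (fun y => 64 * HH (u k) y) (ball w (2 * r))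
      (μHE[4] : Measure (M k)) := (integrableOn_of_cont hk.cont_HH hbs).const_mul _
  have i2 : IntegrableOn (fun y => mGam 4 (mGam 4 (u k a) (u k b)) (u k c) y ^ 2)
      (ball (x k) r₀) (μHE[4] : Measure (M k)) :=
    integrableOn_of_cont ((hk.cont_P a b c).pow 2) (csub16 H hC k)
  have hSm : MeasurableSet ((vv x ρ α C lam lamk u k) ⁻¹' ball z r) :=
    vv_meas k measurableSet_ball
  rw [mm_of hk, Measure.restrict_restrict hSm]
  have hsub : (vv x ρ α C lam lamk u k) ⁻¹' ball z r ∩ ball (x k) r₀ ⊆ ball w (2 * r) := by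
    rintro y ⟨hy1, hy2⟩
    refine hpull y (ball_subset_closedBall hy2) ?_
    have : vv x ρ α C lam lamk u k y ∈ ball z r := hy1
    rw [vv_of hk (sub16 H hC k hy2)] at this
    exact ball_subset_closedBall this
  calc ∫ y in (vv x ρ α C lam lamk u k) ⁻¹' ball z r ∩ ball (x k) r₀,
        mGam 4 (mGam 4 (u k a) (u k b)) (u k c) y ^ 2 ∂(μHE[4] : Measure (M k))
      ≤ ∫ y in (vv x ρ α C lam lamk u k) ⁻¹' ball z r ∩ ball (x k) r₀,
        64 * HH (u k) y ∂(μHE[4] : Measure (M k)) := by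
        apply setIntegral_mono_on (i2.mono_set inter_subset_right) (i1.mono_set hsub)
          (hSm.inter measurableSet_ball)
        exact fun y hy => hk.P_sq_le (sub16 H hC k hy.2) a b c
    _ ≤ ∫ y in ball w (2 * r), 64 * HH (u k) y ∂(μHE[4] : Measure (M k)) := by
        refine setIntegral_mono_set i1 ?_ hsub.eventuallyLE
        rw [EventuallyLE, ae_restrict_iff' measurableSet_ball]
        exact Eventually.of_forall fun y hy =>
          mul_nonneg (by norm_num) (hk.HH_nonneg (hbs (ball_subset_closedBall hy)))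
    _ = 64 * ∫ y in ball w (2 * r), HH (u k) y ∂(μHE[4] : Measure (M k)) :=
        integral_const_mul _ _
    _ ≤ 64 * (C * (2 * r) ^ (2 + 2 * α)) := mul_le_mul_of_nonneg_left h1 (by norm_num)
    _ = _ := by
        rw [Real.mul_rpow (by norm_num) hr.le]
        have : ((4 : ℕ) : ℝ) - 2 + 2 * α = 2 + 2 * α := by push_cast; ring
        rw [this]
        ring

end seq

end Crest.Agent.R249.BD41
end
end

-- ▼ part R249/BDc_41
section

/-!
R249 / D3-LIM / BD (helper41).  Green identities `H4`-`H7` and the pointwise identities `H9D`, `H9G`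
of `Lim41.LData`.
-/

set_option autoImplicit false
set_option maxSynthPendingDepth 3
noncomputable section
open Set Filter Topology Bundle MeasureTheory Metric
open scoped ContDiff Manifold ENNReal NNReal Matrix
open Crest.GeometryTopology.CoordMetric Crest.GeometryTopology.ChartCurvature
  Crest.GeometryTopology.RicciEnergy Crest.GeometryTopology.PointedLimit
open Crest.Agent.R247.Bo84
open Crest.Agent.R249.D1Def104 Crest.Agent.R249.Ul174 Crest.Agent.R249.Len47
open Crest.Agent.R249.AsmD832 Crest.Agent.R249.LimDef41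
open Crest.Agent.R249.Vf281 (Tst FF PP SS RR Fm kosz sFun eFun)
open Crest.Agent.R249.LPt_191 (N1 sS kos)

namespace Crest.Agent.R249.BD41

local notation "𝔼" => EuclideanSpace ℝ (Fin 4)

section seq

variable {M : ℕ → Type} [∀ k, MetricSpace (M k)] [∀ k, CompleteSpace (M k)]
  [∀ k, ConnectedSpace (M k)]
  [∀ k, ChartedSpace (EuclideanSpace ℝ (Fin 4)) (M k)]
  [∀ k, IsManifold 𝓘(ℝ, EuclideanSpace ℝ (Fin 4)) ∞ (M k)]
  [∀ k, RiemannianBundle (fun x : M k => TangentSpace 𝓘(ℝ, EuclideanSpace ℝ (Fin 4)) x)]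
  [∀ k, IsContMDiffRiemannianBundle 𝓘(ℝ, EuclideanSpace ℝ (Fin 4)) ∞ (EuclideanSpace ℝ (Fin 4))
    (fun x : M k => TangentSpace 𝓘(ℝ, EuclideanSpace ℝ (Fin 4)) x)]
  [∀ k, IsRiemannianManifold 𝓘(ℝ, EuclideanSpace ℝ (Fin 4)) (M k)]
  [∀ k, MeasurableSpace (M k)] [∀ k, BorelSpace (M k)] {q : ∀ k, M k}

variable {x : ∀ k, M k} {hx : Bd q x} {ρ α C C' ε ε₁ δ lam : ℝ} {lamk : ℕ → ℝ}
  {u : ∀ k, Fin 4 → M k → ℝ}
  {h : UL q → Matrix (Fin 4) (Fin 4) ℝ} {r₀ : ℝ} {U : UL q → EuclideanSpace ℝ (Fin 4)}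
  {e : OpenPartialHomeomorph (UL q) (EuclideanSpace ℝ (Fin 4))}

/-- the test data -/
theorem ev_tst (H : HData x ρ α C ε δ lam lamk u) (hC : ChOut x hx ρ u h r₀ U e)
    (hS : SpOut x u r₀ e) {φ : 𝔼 → ℝ} (hφ : Lim41.CS e.target φ) :
    ∀ᶠ k in om, ∃ K : Set (M k), Tst 4 (ball (x k) r₀) K (uu u k) φ := by
  obtain ⟨r₁, -, hr1, hK⟩ := hS (tsupport φ) hφ.comp hφ.supp
  filter_upwards [hK, ev_Gk H] with k hk hg
  have hpr : ProperSpace (M k) := Crest.Agent.R247.HR216.properSpace_of_riemannian 4 (M k)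
  exact ⟨closedBall (x k) r₁,
    { isOpen := isOpen_ball
      isCompact := isCompact_closedBall _ _
      sub := closedBall_subset_ball hr1
      smooth_u := fun z hz c => hg.smAt (sub16 H hC k hz) c
      smooth_φ := hφ.smooth
      mem := fun z hz hzφ => hk z (ball_subset_closedBall hz) hzφ }⟩

/-- `φ(u)` is continuous on the ball -/
theorem cont_φ {k : ℕ} (hk : Gk x ρ α C lam lamk u k) {φ : 𝔼 → ℝ} (hφ : Continuous φ) :
    ContinuousOn (fun y => φ (uu u k y)) (ball (x k) (16 * ρ)) := by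
  intro y hy
  have h1 : ContinuousAt (fun y => (fun a => u k a y : Fin 4 → ℝ)) y := by
    rw [continuousAt_pi]
    exact fun a => (hk.smAt hy a).continuousAt
  have h2 : ContinuousAt (uu u k) y := (PiLp.continuous_toLp 2 _).continuousAt.comp h1
  exact (hφ.continuousAt.comp h2).continuousWithinAt

theorem H4 (H : HData x ρ α C ε δ lam lamk u) (hC : ChOut x hx ρ u h r₀ U e)
    (hS : SpOut x u r₀ e) (c : Fin 4) {φ : 𝔼 → ℝ} (hφ : Lim41.CS e.target φ) :
    ∀ᶠ k in om, ∫ y, ∑ d, pderiv d φ (vv x ρ α C lam lamk u k y) * mGam 4 (u k d) (u k c) y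
      ∂(mm x ρ α C lam lamk u r₀ k) = 0 := by
  filter_upwards [ev_Gk H, ev_tst H hC hS hφ] with k hk ⟨K, T⟩
  have hne : Nonempty (M k) := ⟨x k⟩
  have hsc : SecondCountableTopology (M k) :=
    Crest.Agent.R247.HR216.secondCountable_of_riemannian 4 (M k)
  have e1 := int_mm (r₀ := r₀) H hC hk (fun v y => ∑ d, pderiv d φ v * mGam 4 (u k d) (u k c) y)
  rw [e1]
  have h1 := (T.integral_ibp (h := u k c) (fun z hz => hk.smAt2 (sub16 H hC k hz) c)).2.2
  have h2 : ∫ z in ball (x k) r₀, φ (uu u k z) * mLap 4 (u k c) z ∂(μHE[4] : Measure (M k)) =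
      0 := by
    rw [setIntegral_congr_fun (g := fun _ => (0 : ℝ)) measurableSet_ball fun z hz => by
      simp only [(hk.harm c z (sub16 H hC k hz)).1, mul_zero]]
    simp
  rw [h2, neg_zero] at h1
  exact h1

theorem H5 (H : HData x ρ α C ε δ lam lamk u) (hC : ChOut x hx ρ u h r₀ U e)
    (hS : SpOut x u r₀ e) (a b c : Fin 4) {φ : 𝔼 → ℝ} (hφ : Lim41.CS e.target φ) :
    ∀ᶠ k in om, ∫ y, φ (vv x ρ α C lam lamk u k y) * mGam 4 (mGam 4 (u k a) (u k b)) (u k c) y
      ∂(mm x ρ α C lam lamk u r₀ k) =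
      - ∫ y, mGam 4 (u k a) (u k b) y * ∑ d, pderiv d φ (vv x ρ α C lam lamk u k y) *
        mGam 4 (u k d) (u k c) y ∂(mm x ρ α C lam lamk u r₀ k) := by
  filter_upwards [ev_Gk H, ev_tst H hC hS hφ] with k hk ⟨K, T⟩
  have hne : Nonempty (M k) := ⟨x k⟩
  have hsc : SecondCountableTopology (M k) :=
    Crest.Agent.R247.HR216.secondCountable_of_riemannian 4 (M k)
  have e1 := int_mm (r₀ := r₀) H hC hk
    (fun v y => φ v * mGam 4 (mGam 4 (u k a) (u k b)) (u k c) y)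
  have e2 := int_mm (r₀ := r₀) H hC hk (fun v y => mGam 4 (u k a) (u k b) y *
    ∑ d, pderiv d φ v * mGam 4 (u k d) (u k c) y)
  rw [e1, e2]
  exact (T.c2 (fun z hz c => (hk.harm c z (sub16 H hC k hz)).1) a b c).2.2

theorem H6 (H : HData x ρ α C ε δ lam lamk u) (hC : ChOut x hx ρ u h r₀ U e)
    (hS : SpOut x u r₀ e) (a b : Fin 4) {φ : 𝔼 → ℝ} (hφ : Lim41.CS e.target φ) :
    ∀ᶠ k in om, ∫ y, ∑ c, pderiv c φ (vv x ρ α C lam lamk u k y) *
      mGam 4 (mGam 4 (u k a) (u k b)) (u k c) y ∂(mm x ρ α C lam lamk u r₀ k) =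
      - ∫ y, φ (vv x ρ α C lam lamk u k y) * mLap 4 (mGam 4 (u k a) (u k b)) y
        ∂(mm x ρ α C lam lamk u r₀ k) := by
  filter_upwards [ev_Gk H, ev_tst H hC hS hφ] with k hk ⟨K, T⟩
  have hne : Nonempty (M k) := ⟨x k⟩
  have hsc : SecondCountableTopology (M k) :=
    Crest.Agent.R247.HR216.secondCountable_of_riemannian 4 (M k)
  have e1 := int_mm (r₀ := r₀) H hC hk
    (fun v y => ∑ c, pderiv c φ v * mGam 4 (mGam 4 (u k a) (u k b)) (u k c) y)
  have e2 := int_mm (r₀ := r₀) H hC hk (fun v y => φ v * mLap 4 (mGam 4 (u k a) (u k b)) y)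
  rw [e1, e2]
  have h1 := (T.integral_ibp (h := mGam 4 (u k a) (u k b))
    (fun z hz => (hk.smF (sub16 H hC k hz) a b).of_le two_le_infty)).2.2
  rw [← h1]
  refine setIntegral_congr_fun measurableSet_ball fun z _ => ?_
  refine Finset.sum_congr rfl fun c _ => ?_
  rw [mGam_comm]
  rfl

theorem H7 (H : HData x ρ α C ε δ lam lamk u) (hC : ChOut x hx ρ u h r₀ U e)
    (hS : SpOut x u r₀ e) (a b : Fin 4) {φ : 𝔼 → ℝ} (hφ : Lim41.CS e.target φ) :
    ∀ᶠ k in om, ∫ y, φ (vv x ρ α C lam lamk u k y) *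
      mGam 4 (mGam 4 (u k a) (u k b)) (mGam 4 (u k a) (u k b)) y
        ∂(mm x ρ α C lam lamk u r₀ k) =
      - (∫ y, φ (vv x ρ α C lam lamk u k y) * (mGam 4 (u k a) (u k b) y *
        mLap 4 (mGam 4 (u k a) (u k b)) y) ∂(mm x ρ α C lam lamk u r₀ k)) -
      ∫ y, mGam 4 (u k a) (u k b) y * ∑ c, pderiv c φ (vv x ρ α C lam lamk u k y) *
        mGam 4 (mGam 4 (u k a) (u k b)) (u k c) y ∂(mm x ρ α C lam lamk u r₀ k) := by
  filter_upwards [ev_Gk H, ev_tst H hC hS hφ] with k hk ⟨K, T⟩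
  have hne : Nonempty (M k) := ⟨x k⟩
  have hsc : SecondCountableTopology (M k) :=
    Crest.Agent.R247.HR216.secondCountable_of_riemannian 4 (M k)
  have e1 := int_mm (r₀ := r₀) H hC hk
    (fun v y => φ v * mGam 4 (mGam 4 (u k a) (u k b)) (mGam 4 (u k a) (u k b)) y)
  have e2 := int_mm (r₀ := r₀) H hC hk (fun v y => φ v * (mGam 4 (u k a) (u k b) y *
        mLap 4 (mGam 4 (u k a) (u k b)) y))
  have e3 := int_mm (r₀ := r₀) H hC hk (fun v y => mGam 4 (u k a) (u k b) y *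
    ∑ c, pderiv c φ v * mGam 4 (mGam 4 (u k a) (u k b)) (u k c) y)
  rw [e1, e2, e3]
  have hF2 : ∀ z ∈ ball (x k) r₀, ContMDiffAt 𝓘(ℝ, 𝔼) 𝓘(ℝ, ℝ) 2 (mGam 4 (u k a) (u k b)) z :=
    fun z hz => (hk.smF (sub16 H hC k hz) a b).of_le two_le_infty
  have h1 := (T.integral_green (f := mGam 4 (u k a) (u k b)) (h := mGam 4 (u k a) (u k b))
    (fun z hz => (hF2 z hz).of_le (by norm_num)) hF2).2.2
  have i1 : IntegrableOn (fun z => φ (uu u k z) * (mGam 4 (u k a) (u k b) z *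
        mLap 4 (mGam 4 (u k a) (u k b)) z)) (ball (x k) r₀) (μHE[4] : Measure (M k)) :=
    integrableOn_of_cont ((cont_φ hk hφ.cc.cont).mul ((hk.cont_F a b).mul (hk.cont_G a b)))
      (csub16 H hC k)
  have i2 : IntegrableOn (fun z => φ (uu u k z) *
      mGam 4 (mGam 4 (u k a) (u k b)) (mGam 4 (u k a) (u k b)) z) (ball (x k) r₀)
      (μHE[4] : Measure (M k)) :=
    integrableOn_of_cont ((cont_φ hk hφ.cc.cont).mul (hk.cont_D a b)) (csub16 H hC k)
  have h2 : ∫ z in ball (x k) r₀, φ (uu u k z) * (mGam 4 (u k a) (u k b) z *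
        mLap 4 (mGam 4 (u k a) (u k b)) z +
        mGam 4 (mGam 4 (u k a) (u k b)) (mGam 4 (u k a) (u k b)) z)
        ∂(μHE[4] : Measure (M k)) =
      (∫ z in ball (x k) r₀, φ (uu u k z) * (mGam 4 (u k a) (u k b) z *
        mLap 4 (mGam 4 (u k a) (u k b)) z) ∂(μHE[4] : Measure (M k))) +
      ∫ z in ball (x k) r₀, φ (uu u k z) *
        mGam 4 (mGam 4 (u k a) (u k b)) (mGam 4 (u k a) (u k b)) z
        ∂(μHE[4] : Measure (M k)) := by
    rw [← integral_add i1 i2]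
    congr 1
    ext z
    ring
  rw [h2] at h1
  have h3 : ∫ z in ball (x k) r₀, mGam 4 (u k a) (u k b) z * ∑ c, pderiv c φ (uu u k z) *
        mGam 4 (fun q => uu u k q c) (mGam 4 (u k a) (u k b)) z ∂(μHE[4] : Measure (M k)) =
      ∫ z in ball (x k) r₀, mGam 4 (u k a) (u k b) z * ∑ c, pderiv c φ (uu u k z) *
        mGam 4 (mGam 4 (u k a) (u k b)) (u k c) z ∂(μHE[4] : Measure (M k)) := by
    refine setIntegral_congr_fun measurableSet_ball fun z _ => ?_
    simp only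
    congr 1
    refine Finset.sum_congr rfl fun c _ => ?_
    rw [mGam_comm]
    rfl
  rw [h3] at h1
  linarith

/-! ### pointwise identities -/

theorem eFun_eq {n : ℕ} (G : Matrix (Fin n) (Fin n) ℝ) (P : Fin n → Fin n → Fin n → ℝ)
    (a b : Fin n) : eFun G P a b = ∑ c, ∑ d, G⁻¹ c d * P a b c * P a b d := by
  unfold eFun
  refine Finset.sum_congr rfl fun c _ => Finset.sum_congr rfl fun d _ => ?_
  ring

theorem sFun_eq {n : ℕ} (G : Matrix (Fin n) (Fin n) ℝ) (P : Fin n → Fin n → Fin n → ℝ)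
    (a b : Fin n) : sFun G P a b = sS G P a b := by
  unfold sFun sS
  refine Finset.sum_congr rfl fun c _ => ?_
  rw [Finset.sum_comm]
  refine Finset.sum_congr rfl fun d _ => Finset.sum_congr rfl fun c' _ =>
    Finset.sum_congr rfl fun d' _ => ?_
  have h1 : ∀ a b c, kosz P a b c = kos P a b c := fun _ _ _ => rfl
  rw [h1, h1]
  ring

/-- the Gram matrix -/
def Fk (u : ∀ k, Fin 4 → M k → ℝ) (k : ℕ) (y : M k) : Matrix (Fin 4) (Fin 4) ℝ :=
  Matrix.of fun a b => mGam 4 (u k a) (u k b) y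

theorem H9D (H : HData x ρ α C ε δ lam lamk u) (hC : ChOut x hx ρ u h r₀ U e) (k : ℕ) :
    ∀ᵐ y ∂(mm x ρ α C lam lamk u r₀ k), N1 (Fk u k y - 1) ≤ 1 / 4 → ∀ a b,
      mGam 4 (mGam 4 (u k a) (u k b)) (mGam 4 (u k a) (u k b)) y =
        ∑ c, ∑ d, (Fk u k y)⁻¹ c d * mGam 4 (mGam 4 (u k a) (u k b)) (u k c) y *
          mGam 4 (mGam 4 (u k a) (u k b)) (u k d) y := by
  refine ae_mm H hC k fun hk y hy hN a b => ?_
  have hdet : (Fk u k y).det ≠ 0 :=
    Crest.Agent.R249.LPt_191.det_ne_zero (lt_of_le_of_lt hN (by norm_num))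
  have h1 := Crest.Agent.R249.Vf281.mGam_FF_eq_eFun (u := uu u k) (z := y) hdet a b
  rw [eFun_eq] at h1
  exact h1

theorem H9G (H : HData x ρ α C ε δ lam lamk u) (hC : ChOut x hx ρ u h r₀ U e) (k : ℕ) :
    ∀ᵐ y ∂(mm x ρ α C lam lamk u r₀ k), N1 (Fk u k y - 1) ≤ 1 / 4 → ∀ a b,
      mLap 4 (mGam 4 (u k a) (u k b)) y =
        2 * sS (Fk u k y) (fun a b c => mGam 4 (mGam 4 (u k a) (u k b)) (u k c) y) a b +
        2 * RR 4 (uu u k) a b y := by
  refine ae_mm H hC k fun hk y hy hN a b => ?_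
  have hdet : (Fk u k y).det ≠ 0 :=
    Crest.Agent.R249.LPt_191.det_ne_zero (lt_of_le_of_lt hN (by norm_num))
  have h1 := Crest.Agent.R249.Vf281.mLap_FF (u := uu u k) (O := ball (x k) (16 * ρ)) (z := y)
    isOpen_ball (fun z hz c => (hk.smAt hz c).of_le three_le_infty)
    (fun z hz c => (hk.harm c z hz).1) (sub16 H hC k hy) a b
  have h2 := Crest.Agent.R249.Vf281.SS_eq_sFun (u := uu u k) (z := y)
    (fun c => hk.smAt2 (sub16 H hC k hy) c) hdet a b
  rw [sFun_eq] at h2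
  rw [h2] at h1
  exact h1

end seq

end Crest.Agent.R249.BD41
end
end

-- ▼ part R249/BDe_41
section

/-!
R249 / D3-LIM / BD (helper41).  Assembly: `Lim41.LData` from `HData`, `AvOut`, `ChOut`, `SpOut`, `MsOut`,
`StOut` and the Ricci group (R1)-(R3).
-/

set_option autoImplicit false
set_option maxSynthPendingDepth 3
noncomputable section
open Set Filter Topology Bundle MeasureTheory Metric
open scoped ContDiff Manifold ENNReal NNReal Matrix
open Crest.GeometryTopology.CoordMetric Crest.GeometryTopology.ChartCurvature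
  Crest.GeometryTopology.RicciEnergy Crest.GeometryTopology.PointedLimit
open Crest.Agent.R247.Bo84
open Crest.Agent.R249.D1Def104 Crest.Agent.R249.Ul174 Crest.Agent.R249.Len47
open Crest.Agent.R249.AsmD832 Crest.Agent.R249.LimDef41
open Crest.Agent.R249.Vf281 (Tst FF PP SS RR Fm kosz sFun eFun)
open Crest.Agent.R249.LPt_191 (N1 sS kos)
open Crest.Agent.R249.St174 (om4 om4_pos)

namespace Crest.Agent.R249.BD41

local notation "𝔼" => EuclideanSpace ℝ (Fin 4)

section seq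

variable {M : ℕ → Type} [∀ k, MetricSpace (M k)] [∀ k, CompleteSpace (M k)]
  [∀ k, ConnectedSpace (M k)]
  [∀ k, ChartedSpace (EuclideanSpace ℝ (Fin 4)) (M k)]
  [∀ k, IsManifold 𝓘(ℝ, EuclideanSpace ℝ (Fin 4)) ∞ (M k)]
  [∀ k, RiemannianBundle (fun x : M k => TangentSpace 𝓘(ℝ, EuclideanSpace ℝ (Fin 4)) x)]
  [∀ k, IsContMDiffRiemannianBundle 𝓘(ℝ, EuclideanSpace ℝ (Fin 4)) ∞ (EuclideanSpace ℝ (Fin 4))
    (fun x : M k => TangentSpace 𝓘(ℝ, EuclideanSpace ℝ (Fin 4)) x)]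
  [∀ k, IsRiemannianManifold 𝓘(ℝ, EuclideanSpace ℝ (Fin 4)) (M k)]
  [∀ k, MeasurableSpace (M k)] [∀ k, BorelSpace (M k)] {q : ∀ k, M k}

variable {x : ∀ k, M k} {hx : Bd q x} {ρ α C C' ε ε₁ δ lam : ℝ} {lamk : ℕ → ℝ}
  {u : ∀ k, Fin 4 → M k → ℝ}
  {h : UL q → Matrix (Fin 4) (Fin 4) ℝ} {r₀ : ℝ} {U : UL q → EuclideanSpace ℝ (Fin 4)}
  {e : OpenPartialHomeomorph (UL q) (EuclideanSpace ℝ (Fin 4))}

theorem hold_symm' {α C' ε₁ : ℝ} (hα : 0 ≤ α) (hA : AvOut x hx ρ α C' ε₁ u h)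
    (hC : ChOut x hx ρ u h r₀ U e) {z w : 𝔼} (hz : z ∈ e.target) (hw : w ∈ e.target)
    (a b : Fin 4) :
    |h (e.symm z) a b - h (e.symm w) a b| ≤ max C' 0 * (10 / 9) ^ α * dist z w ^ α := by
  refine hold_symm hα (le_max_right _ _) (⟨hA.symm, hA.near, fun z hz z' hz' a b =>
    (hA.hold z hz z' hz' a b).trans (mul_le_mul_of_nonneg_right (le_max_left _ _)
      (Real.rpow_nonneg dist_nonneg _)), fun z hz s hs hsρ => ?_⟩ : AvOut x hx ρ α (max C' 0) ε₁ u h)
    hC hz hw a b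
  filter_upwards [hA.av z hz s hs hsρ] with k hk
  exact hk.trans (mul_le_mul_of_nonneg_right (le_max_left _ _) (Real.rpow_nonneg hs.le _))

/-- **assembly of `LData`** -/
theorem ldata_of (H : HData x ρ α C ε δ lam lamk u) (hA : AvOut x hx ρ α C' ε₁ u h)
    (hε : ε₁ ≤ 1 / 8) (hC : ChOut x hx ρ u h r₀ U e) (hS : SpOut x u r₀ e)
    (hM : MsOut x u h r₀ e) (hSt : StOut x u h r₀ e)
    (R1 : ∃ A, ∀ k a b, ∫ y, mLap 4 (mGam 4 (u k a) (u k b)) y ^ 2
      ∂(mm x ρ α C lam lamk u r₀ k) ≤ A)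
    (R2 : ∀ k a b, Integrable (fun y => RR 4 (uu u k) a b y) (mm x ρ α C lam lamk u r₀ k))
    (R3 : ∀ a b, Tendsto (fun k => ∫ y, |RR 4 (uu u k) a b y - lam * mGam 4 (u k a) (u k b) y|
      ∂(mm x ρ α C lam lamk u r₀ k)) om (𝓝 0)) :
    ∃ C'', Lim41.LData om e.target (mm x ρ α C lam lamk u r₀) (vv x ρ α C lam lamk u)
      (fun y => h (e.symm y)) (Fk u)
      (fun k y a b c => mGam 4 (mGam 4 (u k a) (u k b)) (u k c) y)
      (fun k y a b => mGam 4 (mGam 4 (u k a) (u k b)) (mGam 4 (u k a) (u k b)) y)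
      (fun k y a b => mLap 4 (mGam 4 (u k a) (u k b)) y)
      (fun k y a b => RR 4 (uu u k) a b y) lam (om4 * r₀ ^ 4) C'' α := by
  obtain ⟨A, hAG⟩ := R1
  have hρ := H.ρ_pos
  have hα0 : 0 < α := lt_trans (by norm_num) H.α_gt
  have hC0 := H.C_pos
  set K1 := max C' 0 * (10 / 9 : ℝ) ^ α with hK1
  set K2 := C * (8 * ρ) ^ (2 + 2 * α) with hK2
  set K3 := 64 * C * (2 : ℝ) ^ (2 + 2 * α) with hK3
  have hK1' : 0 ≤ K1 := by positivity
  have hK2' : 0 ≤ K2 := by positivity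
  have hK3' : 0 ≤ K3 := by positivity
  have hA0 : 0 ≤ A := le_trans (integral_nonneg fun y => sq_nonneg _) (hAG 0 0 0)
  set C'' := 4 + K1 + 64 * K2 + K3 + A with hC''
  refine ⟨C'', ?_⟩
  exact
  { base := base H hC
    α_gt := lt_trans (by norm_num) H.α_gt
    α_le := H.α_lt.le
    C_nonneg := by positivity
    h_symm := fun y _ a b => hA.symm _ a b
    h_near := fun y hy => near_symm hA hε hC hy
    h_hold := fun y hy z hz a b => (hold_symm' hα0.le hA hC hy hz a b).trans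
      (mul_le_mul_of_nonneg_right (by linarith) (Real.rpow_nonneg dist_nonneg _))
    F_meas := fun k a b => aesm_mm H hC k fun hk => hk.cont_F a b
    F_bdd := fun k => by
      filter_upwards [F_bdd H hC k] with y hy a b
      exact (hy a b).trans (by linarith)
    P_mem := fun k a b c => memLp_mm H hC k fun hk => hk.cont_P a b c
    P_bdd := fun k a b c => (P_bdd H hC k a b c).trans (by linarith)
    D_int := fun k a b => int_mm' H hC k fun hk => hk.cont_D a b
    D_bdd := fun k a b => (D_bdd H hC k a b).trans (by linarith)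
    D_nonneg := fun k a b => Eventually.of_forall fun y => mGam_self_nonneg _ _
    G_mem := fun k a b => memLp_mm H hC k fun hk => hk.cont_G a b
    G_bdd := fun k a b => (hAG k a b).trans (by linarith)
    R_int := R2
    wc_one := wc_one H hC hM
    sc_F := fun a b => sc_F H hC hSt a b
    H4 := fun c φ hφ => H4 H hC hS c hφ
    H5 := fun a b c φ hφ => H5 H hC hS a b c hφ
    H6 := fun a b φ hφ => H6 H hC hS a b hφ
    H7 := fun a b φ hφ => H7 H hC hS a b hφ
    H9D := fun k => H9D H hC k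
    H9G := fun k => H9G H hC k
    H10 := R3
    H11 := fun z r hr hz a b c => by
      filter_upwards [morrey H hC hr hz a b c] with k hk
      refine hk.trans (mul_le_mul_of_nonneg_right ?_ (Real.rpow_nonneg hr.le _))
      linarith }

end seq

/-- the Ricci group as a closed statement -/
def RicStmt : Prop := ∀ (M : ℕ → Type) [∀ k, MetricSpace (M k)] [∀ k, CompleteSpace (M k)]
    [∀ k, ConnectedSpace (M k)] [∀ k, ChartedSpace (EuclideanSpace ℝ (Fin 4)) (M k)]
    [∀ k, IsManifold 𝓘(ℝ, EuclideanSpace ℝ (Fin 4)) ∞ (M k)]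
    [∀ k, RiemannianBundle (fun x : M k => TangentSpace 𝓘(ℝ, EuclideanSpace ℝ (Fin 4)) x)]
    [∀ k, IsContMDiffRiemannianBundle 𝓘(ℝ, EuclideanSpace ℝ (Fin 4)) ∞ (EuclideanSpace ℝ (Fin 4))
      (fun x : M k => TangentSpace 𝓘(ℝ, EuclideanSpace ℝ (Fin 4)) x)]
    [∀ k, IsRiemannianManifold 𝓘(ℝ, EuclideanSpace ℝ (Fin 4)) (M k)]
    [∀ k, MeasurableSpace (M k)] [∀ k, BorelSpace (M k)]
    (q : ∀ k, M k) (x : ∀ k, M k) (hx : Bd q x) (ρ α C ε δ lam : ℝ) (lamk : ℕ → ℝ)
    (u : ∀ k, Fin 4 → M k → ℝ) (h : UL q → Matrix (Fin 4) (Fin 4) ℝ) (r₀ : ℝ)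
    (U : UL q → EuclideanSpace ℝ (Fin 4))
    (e : OpenPartialHomeomorph (UL q) (EuclideanSpace ℝ (Fin 4))),
    HData x ρ α C ε δ lam lamk u → ChOut x hx ρ u h r₀ U e →
    (∃ A, ∀ k a b, ∫ y, mLap 4 (mGam 4 (u k a) (u k b)) y ^ 2
      ∂(mm x ρ α C lam lamk u r₀ k) ≤ A) ∧
    (∀ k a b, Integrable (fun y => RR 4 (uu u k) a b y) (mm x ρ α C lam lamk u r₀ k)) ∧
    (∀ a b, Tendsto (fun k => ∫ y, |RR 4 (uu u k) a b y - lam * mGam 4 (u k a) (u k b) y|
      ∂(mm x ρ α C lam lamk u r₀ k)) om (𝓝 0))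

theorem bd_of_ric (hR : RicStmt) : Fin832.BDStmt := by
  refine ⟨1 / 8, 1, by norm_num, by norm_num, ?_⟩
  intro M _ _ _ _ _ _ _ _ _ _ q x hx ρ α C C' ε δ lam lamk u h r₀ U e hδ hD hA hC hS hM hSt
  obtain ⟨R1, R2, R3⟩ := hR M q x hx ρ α C ε δ lam lamk u h r₀ U e hD hC
  obtain ⟨C'', hL⟩ := ldata_of hD hA le_rfl hC hS hM hSt R1 R2 R3
  exact ⟨_, _, _, _, _, _, _, _, C'', hL⟩

end Crest.Agent.R249.BD41
end
end

-- ▼ part R249/RicDev_104
section

/-!
# R249 (helper104): `|Ric(v,w) - c ⟨v,w⟩| ≤ |Ric - c g| |v| |w|`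

* `ric_dev_bil` : in coordinates (bilinear form of `Alg2_104.ric_dev_bound`);
* `mRic_dev` : on the manifold, `|mRic n p v w - c * ⟪v,w⟫| ≤ √(mRicDev n M c p) * (‖v‖ * ‖w‖)`;
* `mRic_grad_dev` : for gradients, `|mRic n p (∇f) (∇h) - c * mGam n f h p| ≤ √(mRicDev) * √(mGam f f) * √(mGam h h)`.
-/

set_option autoImplicit false
set_option maxSynthPendingDepth 3
set_option linter.unusedSectionVars false

open Bundle Set MeasureTheory Manifold Filter Metric
open scoped ContDiff Topology NNReal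
open Crest.GeometryTopology.CoordMetric Crest.GeometryTopology.ChartCurvature
  Crest.GeometryTopology.PointedLimit
open Crest.Agent.R202.Tens Crest.Agent.R247.Bo84
open Crest.Agent.R249.Bia1_104 Crest.Agent.R249.Bia3_104 Crest.Agent.R249.D1Def104
open Crest.Agent.R249.Alg1_104 Crest.Agent.R249.Sch1_104

noncomputable section

namespace Crest.Agent.R249.RicDev_104

section coord

variable {n : ℕ}

local notation "𝔼" => EuclideanSpace ℝ (Fin n)

variable {g : MetricField n} {U : Set (EuclideanSpace ℝ (Fin n))} {x : EuclideanSpace ℝ (Fin n)}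

theorem ric_dev_bil (hg : IsRiemannianOn g U) (hx : x ∈ U) (c : ℝ) (v w : 𝔼) :
    |ricF g x v w - c * bil (g x) v w| ≤
      √(ricDev c g x) * (√(bil (g x) v v) * √(bil (g x) w w)) := by
  obtain ⟨ξ, h⟩ := exists_frame hg hx
  set a : Fin n → ℝ := fun i => bil (g x) v (ξ i) with ha
  set b : Fin n → ℝ := fun i => bil (g x) w (ξ i) with hb
  have hv : v = ∑ i, a i • ξ i := h.expand hg hx v
  have hw : w = ∑ i, b i • ξ i := h.expand hg hx w
  have hQv : bil (g x) v v = ∑ i, a i ^ 2 := by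
    rw [h.bil_eq hg hx v v]
    exact Finset.sum_congr rfl fun i _ => by rw [sq]
  have hQw : bil (g x) w w = ∑ i, b i ^ 2 := by
    rw [h.bil_eq hg hx w w]
    exact Finset.sum_congr rfl fun i _ => by rw [sq]
  have hQ : bil (g x) v w = ∑ i, a i * b i := h.bil_eq hg hx v w
  have hsum : ∀ (v : 𝔼) (s : Finset (Fin n)) (f : Fin n → 𝔼), ricF g x v (∑ a ∈ s, f a) =
      ∑ a ∈ s, ricF g x v (f a) := by
    classical
    intro v s f
    induction s using Finset.induction_on with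
    | empty =>
      have := ricF_smul hg hx v 0 0
      simpa using this
    | insert b s hb ih => rw [Finset.sum_insert hb, ricF_add hg hx, ih, Finset.sum_insert hb]
  have hR : ricF g x v w = ∑ i, ∑ j, a i * b j * ricF g x (ξ i) (ξ j) := by
    have e2 : ∀ j, ricF g x v (ξ j) = ∑ i, a i * ricF g x (ξ i) (ξ j) := by
      intro j
      rw [ricF_symm hg hx]
      conv_lhs => rw [hv]
      rw [hsum]
      exact Finset.sum_congr rfl fun i _ => by rw [ricF_smul hg hx, ricF_symm hg hx]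
    have e3 : ricF g x v w = ∑ j, b j * ricF g x v (ξ j) := by
      conv_lhs => rw [hw, hsum]
      exact Finset.sum_congr rfl fun i _ => by rw [ricF_smul hg hx]
    rw [e3]
    simp only [e2, Finset.mul_sum]
    rw [Finset.sum_comm]
    refine Finset.sum_congr rfl fun i _ => Finset.sum_congr rfl fun j _ => by ring
  have hD : ricF g x v w - c * bil (g x) v w =
      ∑ i, ∑ j, (a i * b j) * (ricF g x (ξ i) (ξ j) - c * (if i = j then 1 else 0)) := by
    rw [hR, hQ, Finset.mul_sum, ← Finset.sum_sub_distrib]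
    refine Finset.sum_congr rfl fun i _ => ?_
    have e : ∀ j, (a i * b j) * (ricF g x (ξ i) (ξ j) - c * (if i = j then 1 else 0)) =
        a i * b j * ricF g x (ξ i) (ξ j) - (if i = j then c * (a i * b j) else 0) := by
      intro j
      split_ifs <;> ring
    simp only [e, Finset.sum_sub_distrib, Finset.sum_ite_eq, Finset.mem_univ, if_true]
  have hCS : (∑ i, ∑ j, (a i * b j) *
      (ricF g x (ξ i) (ξ j) - c * (if i = j then 1 else 0))) ^ 2 ≤
      (∑ i, ∑ j, (a i * b j) ^ 2) * ricDev c g x := by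
    rw [ricDev_frame hg hx h c]
    have h1 := Finset.sum_mul_sq_le_sq_mul_sq (Finset.univ : Finset (Fin n × Fin n))
      (fun p => a p.1 * b p.2)
      (fun p => ricF g x (ξ p.1) (ξ p.2) - c * (if p.1 = p.2 then 1 else 0))
    simpa only [Fintype.sum_prod_type] using h1
  have hQ2 : ∑ i, ∑ j, (a i * b j) ^ 2 = bil (g x) v v * bil (g x) w w := by
    rw [hQv, hQw, Finset.sum_mul_sum]
    refine Finset.sum_congr rfl fun i _ => Finset.sum_congr rfl fun j _ => by ring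
  rw [hQ2, ← hD] at hCS
  have h0 := bil_nonneg hg hx v
  have h0' := bil_nonneg hg hx w
  have h1 := Real.abs_le_sqrt hCS
  rw [Real.sqrt_mul (mul_nonneg h0 h0'), Real.sqrt_mul h0] at h1
  linarith

end coord

variable {n : ℕ} {M : Type*} [MetricSpace M] [ChartedSpace (EuclideanSpace ℝ (Fin n)) M]
  [IsManifold (𝓡 n) ∞ M]
  [RiemannianBundle (fun p : M => TangentSpace (𝓡 n) p)]
  [IsContMDiffRiemannianBundle (𝓡 n) ∞ (EuclideanSpace ℝ (Fin n))
    (fun p : M => TangentSpace (𝓡 n) p)]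

local notation "𝔼" => EuclideanSpace ℝ (Fin n)

theorem mRic_dev (c : ℝ) (p : M) (v w : TangentSpace (𝓡 n) p) :
    |mRic n p v w - c * inner ℝ v w| ≤ √(mRicDev n M c p) * (‖v‖ * ‖w‖) := by
  have hg := Crest.Agent.R247.Bo84.isRiemannianOn_chartMetric (n := n) p
  have h1 := ric_dev_bil hg (centre_mem p) c (dCh p p v) (dCh p p w)
  have e1 : ∀ v w : TangentSpace (𝓡 n) p,
      inner ℝ v w = bil (chartMetric n M p (chartCentre n M p)) (dCh p p v) (dCh p p w) :=
    fun v w => inner_eq_bil p (mem_chart_source 𝔼 p) v w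
  have e2 : ∀ v : TangentSpace (𝓡 n) p,
      √(bil (chartMetric n M p (chartCentre n M p)) (dCh p p v) (dCh p p v)) = ‖v‖ := by
    intro v
    rw [← e1, real_inner_self_eq_norm_sq, Real.sqrt_sq (norm_nonneg _)]
  rw [e2, e2, ← e1, ricF_eq' hg (centre_mem p)] at h1
  exact h1

/-- for gradients -/
theorem mRic_grad_dev (c : ℝ) (p : M) (f h : M → ℝ) :
    |mRic n p (mgrad n f p) (mgrad n h p) - c * mGam n f h p| ≤
      √(mRicDev n M c p) * (√(mGam n f f p) * √(mGam n h h p)) := by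
  have h1 := mRic_dev c p (mgrad n f p) (mgrad n h p)
  have e : ∀ f : M → ℝ, ‖mgrad n f p‖ = √(mGam n f f p) := by
    intro f
    rw [mGam_eq_inner, real_inner_self_eq_norm_sq, Real.sqrt_sq (norm_nonneg _)]
  rw [← e, ← e, mGam_eq_inner]
  exact h1

end Crest.Agent.R249.RicDev_104
end
end

-- ▼ part R249/BDr_832
section

/-!
R249 / D3-LIM / BD (helper832): the Ricci group of `Lim41.LData`: `G_mem`, `G_bdd`, `R_int`, `H10`,
and the Bochner formula `ΔF = 2⟨Hess, Hess⟩ + 2 Ric`.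
-/

set_option autoImplicit false
set_option maxSynthPendingDepth 3
set_option linter.unusedSectionVars false
noncomputable section
open Set Filter Topology Bundle MeasureTheory Metric
open scoped ContDiff Manifold ENNReal NNReal Matrix
open Crest.GeometryTopology.CoordMetric Crest.GeometryTopology.ChartCurvature
  Crest.GeometryTopology.RicciEnergy Crest.GeometryTopology.PointedLimit
open Crest.Agent.R247.Bo84
open Crest.Agent.R249.D1Def104 Crest.Agent.R249.Ul174 Crest.Agent.R249.Len47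
open Crest.Agent.R249.AsmD832 Crest.Agent.R249.LimDef41
open Crest.Agent.R249.St174 (ev_forall bd_of_closedBall mem_closedBall_mk om4 om4_pos)
open Crest.Agent.R249.BD41 Crest.Agent.R249.Vf281

namespace Crest.Agent.R249.BD832

local notation "𝔼" => EuclideanSpace ℝ (Fin 4)

section one

variable {M : Type} [MetricSpace M] [CompleteSpace M] [ConnectedSpace M]
  [ChartedSpace (EuclideanSpace ℝ (Fin 4)) M]
  [IsManifold 𝓘(ℝ, EuclideanSpace ℝ (Fin 4)) ∞ M]
  [RiemannianBundle (fun x : M => TangentSpace 𝓘(ℝ, EuclideanSpace ℝ (Fin 4)) x)]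
  [IsContMDiffRiemannianBundle 𝓘(ℝ, EuclideanSpace ℝ (Fin 4)) ∞ (EuclideanSpace ℝ (Fin 4))
    (fun x : M => TangentSpace 𝓘(ℝ, EuclideanSpace ℝ (Fin 4)) x)]
  [IsRiemannianManifold 𝓘(ℝ, EuclideanSpace ℝ (Fin 4)) M]
  [MeasurableSpace M] [BorelSpace M]

/-- `Ric(du^a, du^b)` -/
def Rr (u : Fin 4 → M → ℝ) (a b : Fin 4) (p : M) : ℝ :=
  mRic 4 p (mgrad 4 (u a) p) (mgrad 4 (u b) p)

variable {x : M} {ρ α C lam lamk : ℝ} {u : Fin 4 → M → ℝ}

omit [MeasurableSpace M] [BorelSpace M] in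

theorem sc_M (_x : M) : SecondCountableTopology M := by
  have hp : ProperSpace M := Crest.Agent.R247.HR216.properSpace_of_riemannian 4 M
  infer_instance

omit [MeasurableSpace M] [BorelSpace M] in
theorem dev_nonneg (c : ℝ) (z : M) : 0 ≤ mRicDev 4 M c z := by
  have hne : Nonempty M := ⟨z⟩
  have h2c := sc_M z
  exact Sch1_104.mRicDev_nonneg c z

omit [MeasurableSpace M] [BorelSpace M] in
theorem dev_cont (z : M) (c : ℝ) : Continuous (mRicDev 4 M c) := by
  have hne : Nonempty M := ⟨z⟩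
  have h2c := sc_M z
  exact Sch1_104.continuous_mRicDev c

theorem R_dev (g : Gd x ρ α C lam lamk u) {p : M} (hp : p ∈ ball x (16 * ρ)) (a b : Fin 4) :
    |Rr u a b p - lamk * mGam 4 (u a) (u b) p| ≤ 4 * √(mRicDev 4 M lamk p) := by
  have h1 := RicDev_104.mRic_grad_dev (n := 4) lamk p (u a) (u b)
  have h2 : √(mGam 4 (u a) (u a) p) ≤ 2 := by
    rw [show (2 : ℝ) = √4 by rw [show (4 : ℝ) = 2 ^ 2 by norm_num, Real.sqrt_sq (by norm_num)]]
    exact Real.sqrt_le_sqrt (g.harm a p hp).2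
  have h3 : √(mGam 4 (u b) (u b) p) ≤ 2 := by
    rw [show (2 : ℝ) = √4 by rw [show (4 : ℝ) = 2 ^ 2 by norm_num, Real.sqrt_sq (by norm_num)]]
    exact Real.sqrt_le_sqrt (g.harm b p hp).2
  have h4 : √(mGam 4 (u a) (u a) p) * √(mGam 4 (u b) (u b) p) ≤ 2 * 2 :=
    mul_le_mul h2 h3 (Real.sqrt_nonneg _) (by norm_num)
  have h5 := mul_le_mul_of_nonneg_left h4 (Real.sqrt_nonneg (mRicDev 4 M lamk p))
  unfold Rr
  linarith

theorem G_eq (g : Gd x ρ α C lam lamk u) {p : M} (hp : p ∈ ball x (16 * ρ)) (a b : Fin 4) :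
    mLap 4 (mGam 4 (u a) (u b)) p = 2 * mHessIn 4 (u a) (u b) p + 2 * Rr u a b p := by
  have h0 : ∀ c, mLap 4 (u c) =ᶠ[𝓝 p] fun _ => 0 := by
    intro c
    filter_upwards [isOpen_ball.mem_nhds hp] with q hq using (g.harm c q hq).1
  have h1 := mBochner_polar (n := 4) ((g.smAt hp a).of_le three_le_infty)
    ((g.smAt hp b).of_le three_le_infty)
  rw [mGam_congr (h0 a) (EventuallyEq.refl _ _), mGam_const_left,
    mGam_congr (EventuallyEq.refl _ _) (h0 b), mGam_const_right] at h1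
  rw [h1]
  unfold Rr
  ring

theorem cont_HI (g : Gd x ρ α C lam lamk u) (a b : Fin 4) :
    ContinuousOn (mHessIn 4 (u a) (u b)) (ball x (16 * ρ)) := by
  intro p hp
  refine ContinuousAt.continuousWithinAt ?_
  have hev : ∀ᶠ q in 𝓝 p, mHessIn 4 (u a) (u b) q =
      (mHessSq 4 (fun q => u a q + u b q) q - mHessSq 4 (u a) q - mHessSq 4 (u b) q) / 2 := by
    filter_upwards [isOpen_ball.mem_nhds hp] with q hq
    rw [mHessSq_add (g.smAt2 hq a) (g.smAt2 hq b)]
    ring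
  refine ContinuousAt.congr ?_ (hev.mono fun _ hq => hq.symm)
  have c1 := Crest.Agent.R247.Bs84.continuousAt_mHessSq ((g.smAt2 hp a).add (g.smAt2 hp b))
  have c2 := Crest.Agent.R247.Bs84.continuousAt_mHessSq (g.smAt2 hp a)
  have c3 := Crest.Agent.R247.Bs84.continuousAt_mHessSq (g.smAt2 hp b)
  exact ((c1.sub c2).sub c3).div_const 2

theorem cont_R (g : Gd x ρ α C lam lamk u) (a b : Fin 4) :
    ContinuousOn (Rr u a b) (ball x (16 * ρ)) := by
  have h1 : ContinuousOn (fun p => (mLap 4 (mGam 4 (u a) (u b)) p -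
      2 * mHessIn 4 (u a) (u b) p) / 2) (ball x (16 * ρ)) :=
    ((g.cont_G a b).sub ((cont_HI g a b).const_mul 2)).div_const 2
  refine h1.congr fun p hp => ?_
  simp only []
  rw [G_eq g hp a b]
  ring

/-- the pointwise bound of `(ΔF)²` -/
theorem G_sq_le (g : Gd x ρ α C lam lamk u) {p : M} (hp : p ∈ ball x (16 * ρ)) (a b : Fin 4) :
    mLap 4 (mGam 4 (u a) (u b)) p ^ 2 ≤
      8 * ∑ a, mHessSq 4 (u a) p ^ 2 + (256 * mRicDev 4 M lamk p + 256 * (lam + 1) ^ 2) := by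
  have e := G_eq g hp a b
  have h1 := mHessIn_sq_le (g.smAt2 hp a) (g.smAt2 hp b)
  have h2 : mHessSq 4 (u a) p ^ 2 ≤ ∑ a, mHessSq 4 (u a) p ^ 2 :=
    Finset.single_le_sum (f := fun a => mHessSq 4 (u a) p ^ 2) (fun a _ => sq_nonneg _)
      (Finset.mem_univ a)
  have h3 : mHessSq 4 (u b) p ^ 2 ≤ ∑ a, mHessSq 4 (u a) p ^ 2 :=
    Finset.single_le_sum (f := fun a => mHessSq 4 (u a) p ^ 2) (fun a _ => sq_nonneg _)
      (Finset.mem_univ b)
  have h4 : mHessIn 4 (u a) (u b) p ^ 2 ≤ ∑ a, mHessSq 4 (u a) p ^ 2 := by nlinarith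
  have h5 := R_dev g hp a b
  have h6 := g.F_le hp a b
  have h7 := g.lam_bd
  have hD := dev_nonneg lamk p
  have h8 : (Rr u a b p - lamk * mGam 4 (u a) (u b) p) ^ 2 ≤ 16 * mRicDev 4 M lamk p := by
    have := sq_le_sq' (by linarith [(abs_le.1 h5).1]) (abs_le.1 h5).2
    rwa [mul_pow, Real.sq_sqrt hD, show (4 : ℝ) ^ 2 = 16 by norm_num] at this
  have h9 : (lamk * mGam 4 (u a) (u b) p) ^ 2 ≤ 16 * (lam + 1) ^ 2 := by
    rw [mul_pow]
    have e1 : lamk ^ 2 ≤ (lam + 1) ^ 2 := sq_le_sq' (by linarith [(abs_le.1 h7).1]) (abs_le.1 h7).2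
    have e2 : mGam 4 (u a) (u b) p ^ 2 ≤ 4 ^ 2 :=
      sq_le_sq' (by linarith [(abs_le.1 h6).1]) (abs_le.1 h6).2
    nlinarith [sq_nonneg lamk, sq_nonneg (mGam 4 (u a) (u b) p)]
  have h10 : Rr u a b p ^ 2 ≤ 32 * mRicDev 4 M lamk p + 32 * (lam + 1) ^ 2 := by
    nlinarith [sq_nonneg (Rr u a b p - 2 * (lamk * mGam 4 (u a) (u b) p))]
  rw [e]
  nlinarith [sq_nonneg (mHessIn 4 (u a) (u b) p - Rr u a b p)]

/-- the integral of `|Ric - c g|²` as a Bochner integral -/
theorem int_dev_eq (x : M) {S : Set M} (c : ℝ) :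
    ∫ z in S, mRicDev 4 M c z ∂(μHE[4] : Measure M) =
      (∫⁻ z in S, ENNReal.ofReal (mRicDev 4 M c z) ∂(μHE[4] : Measure M)).toReal := by
  have h2c := sc_M x
  exact integral_eq_lintegral_of_nonneg_ae (Eventually.of_forall fun z => dev_nonneg c z)
    (dev_cont x c).aestronglyMeasurable

end one

section seq

variable {M : ℕ → Type} [∀ k, MetricSpace (M k)] [∀ k, CompleteSpace (M k)]
  [∀ k, ConnectedSpace (M k)]
  [∀ k, ChartedSpace (EuclideanSpace ℝ (Fin 4)) (M k)]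
  [∀ k, IsManifold 𝓘(ℝ, EuclideanSpace ℝ (Fin 4)) ∞ (M k)]
  [∀ k, RiemannianBundle (fun x : M k => TangentSpace 𝓘(ℝ, EuclideanSpace ℝ (Fin 4)) x)]
  [∀ k, IsContMDiffRiemannianBundle 𝓘(ℝ, EuclideanSpace ℝ (Fin 4)) ∞ (EuclideanSpace ℝ (Fin 4))
    (fun x : M k => TangentSpace 𝓘(ℝ, EuclideanSpace ℝ (Fin 4)) x)]
  [∀ k, IsRiemannianManifold 𝓘(ℝ, EuclideanSpace ℝ (Fin 4)) (M k)]
  [∀ k, MeasurableSpace (M k)] [∀ k, BorelSpace (M k)] {q : ∀ k, M k}

variable {x : ∀ k, M k} {hx : Bd q x} {ρ α C C' ε ε₁ δ lam : ℝ} {lamk : ℕ → ℝ}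
  {u : ∀ k, Fin 4 → M k → ℝ}
  {h : UL q → Matrix (Fin 4) (Fin 4) ℝ} {r₀ : ℝ} {U : UL q → EuclideanSpace ℝ (Fin 4)}
  {e : OpenPartialHomeomorph (UL q) (EuclideanSpace ℝ (Fin 4))}


theorem R_int (H : HData x ρ α C ε δ lam lamk u) (hC : ChOut x hx ρ u h r₀ U e) (k : ℕ)
    (a b : Fin 4) :
    Integrable (fun y => Rr (u k) a b y) (mm x ρ α C lam lamk u r₀ k) :=
  int_mm' H hC k fun hk => cont_R hk a b

/-- the constant of `G_bdd` -/
def KG (C lam r₀ : ℝ) : ℝ := 8 * C + (256 + 256 * (lam + 1) ^ 2 * (om4 * r₀ ^ 4))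

theorem vol_real_le {k : ℕ} (hk : Gk x ρ α C lam lamk u k) {r₀ : ℝ} (hr : 0 < r₀) :
    (μHE[4] : Measure (M k)).real (ball (x k) r₀) ≤ om4 * r₀ ^ 4 :=
  ENNReal.toReal_le_of_le_ofReal (by have := om4_pos; positivity)
    (Crest.Agent.R249.St174.vol_le hk.ric (x k) hr)

theorem G_bdd (H : HData x ρ α C ε δ lam lamk u) (hC : ChOut x hx ρ u h r₀ U e) (k : ℕ)
    (a b : Fin 4) :
    ∫ y, mLap 4 (mGam 4 (u k a) (u k b)) y ^ 2 ∂(mm x ρ α C lam lamk u r₀ k) ≤ KG C lam r₀ := by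
  have hρ := H.ρ_pos
  have hC0 := H.C_pos
  have hr := hC.r_pos
  have hom := om4_pos
  by_cases hk : Gk x ρ α C lam lamk u k
  swap
  · rw [mm_of_not hk, integral_zero_measure]
    unfold KG
    positivity
  rw [mm_of hk]
  have h8 : closedBall (x k) (8 * ρ) ⊆ ball (x k) (16 * ρ) :=
    closedBall_subset_ball (by linarith)
  have h08 : ball (x k) r₀ ⊆ ball (x k) (8 * ρ) := by
    have := hC.r_le
    exact ball_subset_ball (by linarith)
  have cH : ContinuousOn (fun y => ∑ a, mHessSq 4 (u k a) y ^ 2) (ball (x k) (16 * ρ)) := by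
    refine continuousOn_finsetSum _ fun a _ => ContinuousOn.pow (fun z hz => ?_) 2
    exact (Crest.Agent.R247.Bs84.continuousAt_mHessSq (hk.smAt2 hz a)).continuousWithinAt
  have i1 : IntegrableOn (fun y => 8 * ∑ a, mHessSq 4 (u k a) y ^ 2) (ball (x k) (8 * ρ))
      (μHE[4] : Measure (M k)) := (integrableOn_of_cont cH h8).const_mul 8
  have cd : Continuous (mRicDev 4 (M k) (lamk k)) := dev_cont (x k) (lamk k)
  have i2 : IntegrableOn (fun y => 256 * mRicDev 4 (M k) (lamk k) y) (ball (x k) (8 * ρ))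
      (μHE[4] : Measure (M k)) :=
    (integrableOn_of_cont (O := univ) cd.continuousOn (subset_univ _)).const_mul 256
  have hlf : IsLocallyFiniteMeasure (μHE[4] : Measure (M k)) :=
    Crest.Agent.R247.GluM923.isLocallyFinite 4 (M k)
  have i3 : IntegrableOn (fun _ : M k => 256 * (lam + 1) ^ 2) (ball (x k) r₀)
      (μHE[4] : Measure (M k)) :=
    integrableOn_of_cont (O := univ) continuousOn_const (subset_univ _)
  have b1 : ∫ y in ball (x k) r₀, 8 * ∑ a, mHessSq 4 (u k a) y ^ 2 ∂(μHE[4] : Measure (M k)) ≤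
      8 * C := by
    calc _ ≤ ∫ y in ball (x k) (8 * ρ), 8 * ∑ a, mHessSq 4 (u k a) y ^ 2
          ∂(μHE[4] : Measure (M k)) := by
          refine setIntegral_mono_set i1 ?_ h08.eventuallyLE
          exact Eventually.of_forall fun y => by
            simp only [Pi.zero_apply]; positivity
      _ = 8 * ∫ y in ball (x k) (8 * ρ), ∑ a, mHessSq 4 (u k a) y ^ 2
          ∂(μHE[4] : Measure (M k)) := integral_const_mul _ _
      _ ≤ 8 * C := mul_le_mul_of_nonneg_left hk.l4 (by norm_num)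
  have b2 : ∫ y in ball (x k) r₀, 256 * mRicDev 4 (M k) (lamk k) y ∂(μHE[4] : Measure (M k)) ≤
      256 := by
    have b3 : ∫ y in ball (x k) r₀, mRicDev 4 (M k) (lamk k) y ∂(μHE[4] : Measure (M k)) ≤ 1 := by
      rw [int_dev_eq (x k)]
      refine ENNReal.toReal_le_of_le_ofReal (by norm_num) ?_
      rw [ENNReal.ofReal_one]
      exact (lintegral_mono_set (sub16 H hC k)).trans hk.ricdev
    rw [integral_const_mul]
    linarith
  have b4 : ∫ y in ball (x k) r₀, 256 * (lam + 1) ^ 2 ∂(μHE[4] : Measure (M k)) ≤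
      256 * (lam + 1) ^ 2 * (om4 * r₀ ^ 4) := by
    rw [setIntegral_const, smul_eq_mul, mul_comm]
    exact mul_le_mul_of_nonneg_left (vol_real_le hk hr) (by positivity)
  calc ∫ y in ball (x k) r₀, mLap 4 (mGam 4 (u k a) (u k b)) y ^ 2 ∂(μHE[4] : Measure (M k))
      ≤ ∫ y in ball (x k) r₀, (8 * ∑ a, mHessSq 4 (u k a) y ^ 2 +
          (256 * mRicDev 4 (M k) (lamk k) y + 256 * (lam + 1) ^ 2)) ∂(μHE[4] : Measure (M k)) := by
        apply setIntegral_mono_on (integrableOn_of_cont ((hk.cont_G a b).pow 2) (csub16 H hC k))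
          ((i1.mono_set h08).add ((i2.mono_set h08).add i3)) measurableSet_ball
        exact fun y hy => G_sq_le hk (sub16 H hC k hy) a b
    _ = ∫ y in ball (x k) r₀, 8 * ∑ a, mHessSq 4 (u k a) y ^ 2 ∂(μHE[4] : Measure (M k)) +
          (∫ y in ball (x k) r₀, 256 * mRicDev 4 (M k) (lamk k) y ∂(μHE[4] : Measure (M k)) +
            ∫ y in ball (x k) r₀, 256 * (lam + 1) ^ 2 ∂(μHE[4] : Measure (M k))) := by
        have e1 := integral_add (i1.mono_set h08) ((i2.mono_set h08).add i3)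
        have e2 := integral_add (i2.mono_set h08) i3
        simp only [Pi.add_apply] at e1 e2
        rw [e1, e2]
    _ ≤ _ := by unfold KG; linarith

/-- almost Einstein -/
theorem H10 (H : HData x ρ α C ε δ lam lamk u) (hC : ChOut x hx ρ u h r₀ U e) (a b : Fin 4) :
    Tendsto (fun k => ∫ y, |Rr (u k) a b y - lam * mGam 4 (u k a) (u k b) y|
      ∂(mm x ρ α C lam lamk u r₀ k)) om (𝓝 0) := by
  have hρ := H.ρ_pos
  have hr := hC.r_pos
  have hom := om4_pos
  set V : ℝ := om4 * r₀ ^ 4 with hV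
  have hV0 : 0 ≤ V := by positivity
  have hlim : Tendsto (fun k => 4 * (√(∫⁻ z in ball (x k) (16 * ρ),
      ENNReal.ofReal (mRicDev 4 (M k) (lamk k) z) ∂(μHE[4] : Measure (M k))).toReal * √V) +
      4 * |lamk k - lam| * V) om (𝓝 0) := by
    have t1 : Tendsto (fun k => (∫⁻ z in ball (x k) (16 * ρ),
        ENNReal.ofReal (mRicDev 4 (M k) (lamk k) z) ∂(μHE[4] : Measure (M k))).toReal) om
        (𝓝 0) := by
      have := (ENNReal.tendsto_toReal ENNReal.zero_ne_top).comp H.ricdev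
      simpa [Function.comp_def] using this
    have t2 : Tendsto (fun k => |lamk k - lam|) om (𝓝 0) := by
      have := (H.lamk_lim.sub_const lam).abs
      simpa using this
    have t3 := (t1.sqrt.mul_const √V).const_mul 4
    have t4 := (t2.const_mul 4).mul_const V
    have := t3.add t4
    simpa using this
  refine squeeze_zero' (Eventually.of_forall fun k => integral_nonneg fun y => abs_nonneg _) ?_
    hlim
  filter_upwards [ev_Gk H] with k hk
  rw [mm_of hk]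
  have cd : Continuous (mRicDev 4 (M k) (lamk k)) := dev_cont (x k) (lamk k)
  have h2c := sc_M (x k)
  have cs : Continuous (fun y => √(mRicDev 4 (M k) (lamk k) y)) := cd.sqrt
  have i1 : IntegrableOn (fun y => 4 * √(mRicDev 4 (M k) (lamk k) y)) (ball (x k) r₀)
      (μHE[4] : Measure (M k)) :=
    (integrableOn_of_cont (O := univ) cs.continuousOn (subset_univ _)).const_mul 4
  have i3 : IntegrableOn (fun _ : M k => 4 * |lamk k - lam|) (ball (x k) r₀)
      (μHE[4] : Measure (M k)) :=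
    integrableOn_of_cont (O := univ) continuousOn_const (subset_univ _)
  have i0 : IntegrableOn (fun y => |Rr (u k) a b y - lam * mGam 4 (u k a) (u k b) y|)
      (ball (x k) r₀) (μHE[4] : Measure (M k)) :=
    integrableOn_of_cont ((cont_R hk a b).sub ((hk.cont_F a b).const_mul lam)).abs
      (csub16 H hC k)
  have pt : ∀ y ∈ ball (x k) r₀, |Rr (u k) a b y - lam * mGam 4 (u k a) (u k b) y| ≤
      4 * √(mRicDev 4 (M k) (lamk k) y) + 4 * |lamk k - lam| := by
    intro y hy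
    have hy16 := sub16 H hC k hy
    have h1 := R_dev hk hy16 a b
    have h2 := hk.F_le hy16 a b
    have h3 : |(lamk k - lam) * mGam 4 (u k a) (u k b) y| ≤ 4 * |lamk k - lam| := by
      rw [abs_mul]
      nlinarith [abs_nonneg (lamk k - lam)]
    have h4 := abs_add_le (Rr (u k) a b y - lamk k * mGam 4 (u k a) (u k b) y)
      ((lamk k - lam) * mGam 4 (u k a) (u k b) y)
    have e : Rr (u k) a b y - lamk k * mGam 4 (u k a) (u k b) y +
        (lamk k - lam) * mGam 4 (u k a) (u k b) y =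
        Rr (u k) a b y - lam * mGam 4 (u k a) (u k b) y := by ring
    rw [e] at h4
    linarith
  have hfin : (μHE[4] : Measure (M k)) (ball (x k) r₀) < ⊤ :=
    (Crest.Agent.R249.St174.vol_le hk.ric (x k) hr).trans_lt ENNReal.ofReal_lt_top
  have cs2 : ∫ y in ball (x k) r₀, √(mRicDev 4 (M k) (lamk k) y) ∂(μHE[4] : Measure (M k)) ≤
      √(∫⁻ z in ball (x k) (16 * ρ), ENNReal.ofReal (mRicDev 4 (M k) (lamk k) z)
        ∂(μHE[4] : Measure (M k))).toReal * √V := by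
    have hfm : IsFiniteMeasure ((μHE[4] : Measure (M k)).restrict (ball (x k) r₀)) :=
      ⟨by rwa [Measure.restrict_apply_univ]⟩
    have hd2 : IntegrableOn (mRicDev 4 (M k) (lamk k)) (ball (x k) r₀)
        (μHE[4] : Measure (M k)) :=
      integrableOn_of_cont (O := univ) cd.continuousOn (subset_univ _)
    have m1 : MemLp (fun y => √(mRicDev 4 (M k) (lamk k) y)) (ENNReal.ofReal 2)
        ((μHE[4] : Measure (M k)).restrict (ball (x k) r₀)) := by
      rw [ENNReal.ofReal_ofNat, memLp_two_iff_integrable_sq cs.aestronglyMeasurable]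
      refine hd2.congr (Eventually.of_forall fun y => ?_)
      simp only [Real.sq_sqrt (dev_nonneg (lamk k) y)]
    have m2 : MemLp (fun _ : M k => (1 : ℝ)) (ENNReal.ofReal 2)
        ((μHE[4] : Measure (M k)).restrict (ball (x k) r₀)) := memLp_const 1
    have hH := integral_mul_le_Lp_mul_Lq_of_nonneg (μ := (μHE[4] : Measure (M k)).restrict
      (ball (x k) r₀)) (Real.HolderConjugate.two_two) (Eventually.of_forall fun y =>
        Real.sqrt_nonneg (mRicDev 4 (M k) (lamk k) y)) (Eventually.of_forall fun _ =>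
        zero_le_one) m1 m2
    simp only [mul_one, Real.one_rpow, integral_const, smul_eq_mul, MeasurableSet.univ,
      measureReal_restrict_apply, univ_inter] at hH
    have e1 : ∫ y in ball (x k) r₀, √(mRicDev 4 (M k) (lamk k) y) ^ (2 : ℝ)
        ∂(μHE[4] : Measure (M k)) = ∫ y in ball (x k) r₀, mRicDev 4 (M k) (lamk k) y
        ∂(μHE[4] : Measure (M k)) := by
      refine integral_congr_ae (Eventually.of_forall fun y => ?_)
      simp only
      rw [Real.rpow_two, Real.sq_sqrt (dev_nonneg (lamk k) y)]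
    rw [e1, ← Real.sqrt_eq_rpow, ← Real.sqrt_eq_rpow] at hH
    refine hH.trans (mul_le_mul (Real.sqrt_le_sqrt ?_) (Real.sqrt_le_sqrt (vol_real_le hk hr))
      (Real.sqrt_nonneg _) (Real.sqrt_nonneg _))
    rw [int_dev_eq (x k)]
    exact ENNReal.toReal_mono (hk.ricdev.trans_lt ENNReal.one_lt_top).ne
      (lintegral_mono_set (sub16 H hC k))
  calc ∫ y in ball (x k) r₀, |Rr (u k) a b y - lam * mGam 4 (u k a) (u k b) y|
        ∂(μHE[4] : Measure (M k))
      ≤ ∫ y in ball (x k) r₀, (4 * √(mRicDev 4 (M k) (lamk k) y) + 4 * |lamk k - lam|)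
        ∂(μHE[4] : Measure (M k)) :=
        setIntegral_mono_on i0 (i1.add i3) measurableSet_ball pt
    _ = 4 * ∫ y in ball (x k) r₀, √(mRicDev 4 (M k) (lamk k) y) ∂(μHE[4] : Measure (M k)) +
        4 * |lamk k - lam| * (μHE[4] : Measure (M k)).real (ball (x k) r₀) := by
        rw [integral_add i1 i3, integral_const_mul, setIntegral_const, smul_eq_mul]
        ring
    _ ≤ _ := by
        have := vol_real_le hk hr
        have := mul_le_mul_of_nonneg_left this (show 0 ≤ 4 * |lamk k - lam| by positivity)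
        linarith


/-- (R1) -/
theorem r1 (H : HData x ρ α C ε δ lam lamk u) (hC : ChOut x hx ρ u h r₀ U e) :
    ∃ A : ℝ, ∀ k a b, ∫ y, mLap 4 (mGam 4 (u k a) (u k b)) y ^ 2
      ∂(mm x ρ α C lam lamk u r₀ k) ≤ A := ⟨KG C lam r₀, G_bdd H hC⟩

/-- (R2) -/
theorem r2 (H : HData x ρ α C ε δ lam lamk u) (hC : ChOut x hx ρ u h r₀ U e) :
    ∀ k a b, Integrable (fun y => RR 4 (uu u k) a b y) (mm x ρ α C lam lamk u r₀ k) :=
  fun k a b => R_int H hC k a b

/-- (R3) -/
theorem r3 (H : HData x ρ α C ε δ lam lamk u) (hC : ChOut x hx ρ u h r₀ U e) :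
    ∀ a b, Tendsto (fun k => ∫ y, |RR 4 (uu u k) a b y - lam * mGam 4 (u k a) (u k b) y|
      ∂(mm x ρ α C lam lamk u r₀ k)) om (𝓝 0) :=
  fun a b => H10 H hC a b

end seq

end Crest.Agent.R249.BD832
end
end

-- ▼ part R249/AsmD11_832

/-!
# R249 (S0386), part D is closed (helper832)

* `bdStmt : Fin832.BDStmt`;
* `rThm : RThm` (THEOREM R);
* `S0386_of_idx` : the statement of S0386 from `IdxStmt` (part C).
-/

set_option autoImplicit false
open Crest.GeometryTopology.RicciEnergy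
open Crest.Agent.R249.D1Def104 Crest.Agent.R249.LimDef41 Crest.Agent.R249.Fin832

namespace Crest.Agent.R249.AsmD832

theorem ricStmt : BD41.RicStmt := by
  intro M _ _ _ _ _ _ _ _ _ _ q x hx ρ α C ε δ lam lamk u h r₀ U e H hC
  exact ⟨BD832.r1 H hC, BD832.r2 H hC, BD832.r3 H hC⟩

theorem bdStmt : Fin832.BDStmt := BD41.bd_of_ric ricStmt

/-- THEOREM R -/
theorem rThm : RThm := rthm_of_bd bdStmt

/-- S0386 from part C -/
theorem S0386_of_idx (hI : IdxStmt)
    (hcl : EinsteinNonnegSectionalAreModelCovered) : S0386Concl :=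
  S0386_of_idx_r hI rThm hcl

end Crest.Agent.R249.AsmD832
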