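import Crest.Agent.R249.Pul3_47
import Crest.Agent.R249.Len2_47
import Crest.Agent.R249.AsmD_832

-- ▼ part R249/Pul4_47
section

/-!
# Row 249, leaf D6-PUL, part 4 (helper47): the local data from a local diffeomorphism to a metric
space with charts

`XCharts n X ι`: charts of a metric space `X` with smooth metrics satisfying the infinitesimal
scaling, differentiable transitions.  `XCharts.locAtlas`: a continuous map `Φ : M → X` which is a
smooth local diffeomorphism in the charts gives a `LocAtlas n M`.  `end_S0386_of_map`.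
-/

set_option autoImplicit false
set_option linter.style.haveILetI false
set_option maxSynthPendingDepth 3
set_option linter.unusedSectionVars false

noncomputable section

open Bundle Set Metric Filter
open scoped Manifold ContDiff Bundle ENNReal Topology
open Crest.GeometryTopology.CoordMetric Crest.GeometryTopology.ChartCurvature
  Crest.GeometryTopology.RicciEnergy
open Crest.Agent.R249.Len47 Crest.Agent.R202.Tens

namespace Crest.Agent.R249.Pul47

/-- charts with smooth metrics on a metric space -/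
structure XCharts (n : ℕ) (X : Type*) [MetricSpace X] (ι : Type*) where
  /-- the charts -/
  e : ι → OpenPartialHomeomorph X (EuclideanSpace ℝ (Fin n))
  /-- the metrics -/
  h : ι → MetricField n
  riem : ∀ a, IsRiemannianOn (h a) (e a).target
  inf : ∀ a, InfScale (e a) (h a)
  trans : ∀ a b, ∀ x ∈ (e a).source, x ∈ (e b).source →
    DifferentiableAt ℝ (e b ∘ (e a).symm) (e a x)

section

variable {n : ℕ} {M : Type*} [TopologicalSpace M] [ChartedSpace (EuclideanSpace ℝ (Fin n)) M]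
  [IsManifold (𝓡 n) ∞ M] {X : Type*} [MetricSpace X] {ι : Type*}

local notation "𝔼" => EuclideanSpace ℝ (Fin n)

/-- quadratic forms of transitions -/
theorem XCharts.quadForm_trans (C : XCharts n X ι) {a b : ι} {x : X} (ha : x ∈ (C.e a).source)
    (hb : x ∈ (C.e b).source) (v : 𝔼) :
    quadForm (C.h b) (C.e b x) (fderiv ℝ (C.e b ∘ (C.e a).symm) (C.e a x) v) =
      quadForm (C.h a) (C.e a x) v := by
  have h1 := nrm_transition (ContMetric.of_riem (C.riem a)) (ContMetric.of_riem (C.riem b))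
    (C.inf a) (C.inf b) ha hb (C.trans a b x ha hb).hasFDerivAt v
  have hpos : ∀ (c : ι), x ∈ (C.e c).source → ∀ w : 𝔼, 0 ≤ quadForm (C.h c) (C.e c x) w := by
    intro c hc w
    rw [quadForm_eq]
    rcases eq_or_ne w 0 with rfl | hw
    · simp
    · exact (bil_pos (C.riem c) ((C.e c).map_source hc) hw).le
  have h2 : nrm (C.h b) (C.e b x) (fderiv ℝ (C.e b ∘ (C.e a).symm) (C.e a x) v) ^ 2 =
      nrm (C.h a) (C.e a x) v ^ 2 := by rw [h1]
  rwa [nrm, nrm, Real.sq_sqrt (hpos b hb _), Real.sq_sqrt (hpos a ha _)] at h2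

/-- a continuous map to `X` which is a smooth local diffeomorphism in the charts -/
structure LocDiff (C : XCharts n X ι) (Φ : M → X) : Prop where
  cont : Continuous Φ
  cov : ∀ p : M, ∃ a, Φ p ∈ (C.e a).source
  smooth : ∀ a, ContMDiffOn (𝓡 n) (𝓡 n) ∞ (fun p => C.e a (Φ p)) (Φ ⁻¹' (C.e a).source)
  inj : ∀ a p, Φ p ∈ (C.e a).source →
    Function.Injective (mfderiv (𝓡 n) (𝓡 n) (fun p => C.e a (Φ p)) p)

/-- local data of a local diffeomorphism -/
def XCharts.locData (C : XCharts n X ι) {Φ : M → X} (hΦ : LocDiff C Φ) (a : ι) : LocData n M where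
  W := Φ ⁻¹' (C.e a).source
  psi := fun p => C.e a (Φ p)
  h := C.h a
  V := (C.e a).target
  isOpen := (C.e a).open_source.preimage hΦ.cont
  smooth := hΦ.smooth a
  inj := fun p hp => hΦ.inj a p hp
  riem := C.riem a
  maps := fun _ hp => (C.e a).map_source hp

theorem XCharts.compat (C : XCharts n X ι) {Φ : M → X} (hΦ : LocDiff C Φ) (a b : ι) (y : M)
    (ha : Φ y ∈ (C.e a).source) (hb : Φ y ∈ (C.e b).source) (v : TangentSpace (𝓡 n) y) :
    (C.locData hΦ a).q y v = (C.locData hΦ b).q y v := by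
  have hma : MDifferentiableAt (𝓡 n) (𝓡 n) (fun p => C.e a (Φ p)) y :=
    ((hΦ.smooth a).contMDiffAt (((C.e a).open_source.preimage hΦ.cont).mem_nhds ha)).mdifferentiableAt
      (by simp)
  have ht : MDifferentiableAt (𝓡 n) (𝓡 n) (C.e b ∘ (C.e a).symm) (C.e a (Φ y)) :=
    (C.trans a b _ ha hb).mdifferentiableAt
  have h1 : mfderiv (𝓡 n) (𝓡 n) (fun p => C.e b (Φ p)) y =
      (mfderiv (𝓡 n) (𝓡 n) (C.e b ∘ (C.e a).symm) (C.e a (Φ y))).comp
        (mfderiv (𝓡 n) (𝓡 n) (fun p => C.e a (Φ p)) y) := by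
    have h2 : (fun p => C.e b (Φ p)) =ᶠ[𝓝 y] (C.e b ∘ (C.e a).symm) ∘ (fun p => C.e a (Φ p)) := by
      filter_upwards [((C.e a).open_source.preimage hΦ.cont).mem_nhds ha] with p hp
      simp only [Function.comp_apply]
      rw [(C.e a).left_inv hp]
    rw [h2.mfderiv_eq]
    exact mfderiv_comp y ht hma
  have h3 := C.quadForm_trans ha hb (mfderiv (𝓡 n) (𝓡 n) (fun p => C.e a (Φ p)) y v)
  have h4 : (mfderiv (𝓡 n) (𝓡 n) (fun p => C.e b (Φ p)) y v : 𝔼) =
      fderiv ℝ (C.e b ∘ (C.e a).symm) (C.e a (Φ y))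
        (mfderiv (𝓡 n) (𝓡 n) (fun p => C.e a (Φ p)) y v) := by
    rw [h1, mfderiv_eq_fderiv]; rfl
  show quadForm (C.h a) (C.e a (Φ y)) (mfderiv (𝓡 n) (𝓡 n) (fun p => C.e a (Φ p)) y v) =
    quadForm (C.h b) (C.e b (Φ y)) (mfderiv (𝓡 n) (𝓡 n) (fun p => C.e b (Φ p)) y v)
  rw [h4]
  exact h3.symm

/-- the compatible family of a local diffeomorphism -/
def XCharts.locAtlas (C : XCharts n X ι) {Φ : M → X} (hΦ : LocDiff C Φ) : LocAtlas n M where
  D p := C.locData hΦ (hΦ.cov p).choose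
  mem p := (hΦ.cov p).choose_spec
  compat p q y hp hq v := C.compat hΦ _ _ y hp hq v

end

/-- **The end of S0386**, from a smooth local diffeomorphism to the limit space. -/
theorem end_S0386_of_map (hcov : CovEnd) (hcl : EinsteinNonnegSectionalAreModelCovered)
    (M : Type) [MetricSpace M] [ChartedSpace (EuclideanSpace ℝ (Fin 4)) M]
    [IsManifold 𝓘(ℝ, EuclideanSpace ℝ (Fin 4)) ∞ M] [CompactSpace M] [SimplyConnectedSpace M]
    {X : Type*} [MetricSpace X] {ι : Type*} (C : XCharts 4 X ι)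
    (hE : ∀ a, ∀ x ∈ (C.e a).target, ∀ i j, ricci (C.h a) x i j = 3 * C.h a x i j)
    (hS : ∀ a, ∀ x ∈ (C.e a).target, ∀ u v, 0 ≤ secNumer (C.h a) x u v)
    {Φ : M → X} (hΦ : LocDiff C Φ) :
    IsDiffeoToRoundFourSphere M ∨ IsDiffeoToComplexProjectivePlane M ∨
      IsDiffeoToTwoSphereProduct M :=
  end_S0386 hcov hcl M (C.locAtlas hΦ) (fun p => hE _) (fun p => hS _)

end Crest.Agent.R249.Pul47
end
end

-- ▼ part R249/AsmD2_832
section

/-!
# R249 (S0386), part D: the assembly of the limit argument (helper832)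

* `toXCharts`  : finitely many `RChart`s with smooth transitions give `XCharts` (helper47);
* `limit_core` : from `RThm`, `TransStmt`, `D2Out`, `D4Out`, `KRic`: a sequence of closed manifolds
  with `sec ≥ 0`, volume `≥ v`, diameter `≤ D` and `∫ |Ric - 3g|² → 0` admits, for `om`-almost every
  `k`, a `LocDiff` to its ultralimit, which carries an Einstein metric with `sec ≥ 0`.
-/

set_option autoImplicit false
set_option maxSynthPendingDepth 3
noncomputable section
open Set Filter Topology Bundle MeasureTheory Metric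
open scoped ContDiff Manifold ENNReal NNReal
open Crest.GeometryTopology.CoordMetric Crest.GeometryTopology.ChartCurvature
  Crest.GeometryTopology.RicciEnergy Crest.GeometryTopology.PointedLimit
open Crest.Agent.R247.Scal386 Crest.Agent.R247.Bo84
open Crest.Agent.R249.D1Def104 Crest.Agent.R249.Ul174 Crest.Agent.R249.Pul47
  Crest.Agent.R249.Len47

namespace Crest.Agent.R249.AsmD832

/-- the overlap of two charts -/
def ovl {n : ℕ} {X : Type*} [MetricSpace X] {lam : ℝ} (C C' : RChart n X lam) :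
    Set (EuclideanSpace ℝ (Fin n)) :=
  {y | y ∈ C.e.target ∧ C.e.symm y ∈ C'.e.source}

theorem isOpen_ovl {n : ℕ} {X : Type*} [MetricSpace X] {lam : ℝ} (C C' : RChart n X lam) :
    IsOpen (ovl C C') :=
  C.e.isOpen_inter_preimage_symm C'.e.open_source

/-- charts with smooth transitions give `XCharts` -/
def toXCharts {n : ℕ} {X : Type*} [MetricSpace X] {lam : ℝ} {ι : Type*} (C : ι → RChart n X lam)
    (htr : ∀ a b, ContDiffOn ℝ ∞ (fun y => (C b).e ((C a).e.symm y)) (ovl (C a) (C b))) :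
    XCharts n X ι where
  e a := (C a).e
  h a := (C a).h
  riem a := (C a).riem
  inf a := (C a).inf
  trans a b x ha hb := by
    have h1 : (C a).e x ∈ ovl (C a) (C b) :=
      ⟨(C a).e.map_source ha, by rw [(C a).e.left_inv ha]; exact hb⟩
    exact ((htr a b).contDiffAt ((isOpen_ovl _ _).mem_nhds h1)).differentiableAt (by simp)

theorem limit_core (hR : RThm) (hT : TransStmt) (h2 : D2Out) (h4 : D4Out) (hK : KRic)
    (M : ℕ → Type) [∀ k, MetricSpace (M k)] [∀ k, CompactSpace (M k)]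
    [∀ k, ConnectedSpace (M k)] [∀ k, ChartedSpace (EuclideanSpace ℝ (Fin 4)) (M k)]
    [∀ k, IsManifold 𝓘(ℝ, EuclideanSpace ℝ (Fin 4)) ∞ (M k)]
    [∀ k, RiemannianBundle (fun x : M k => TangentSpace 𝓘(ℝ, EuclideanSpace ℝ (Fin 4)) x)]
    [∀ k, IsContMDiffRiemannianBundle 𝓘(ℝ, EuclideanSpace ℝ (Fin 4)) ∞ (EuclideanSpace ℝ (Fin 4))
      (fun x : M k => TangentSpace 𝓘(ℝ, EuclideanSpace ℝ (Fin 4)) x)]
    [∀ k, IsRiemannianManifold 𝓘(ℝ, EuclideanSpace ℝ (Fin 4)) (M k)]
    [∀ k, MeasurableSpace (M k)] [∀ k, BorelSpace (M k)] (v D : ℝ) (hv : 0 < v) (hD : 0 < D)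
    (hS : ∀ k, HasNonnegSectionalCurvature 4 (M k))
    (hG : ∀ η : ℝ, 0 < η → ∀ᶠ k in om, Good v D η (M k)) :
    ∃ (q : ∀ k, M k) (m : ℕ) (C : Fin m → RChart 4 (UL q) 3)
      (htr : ∀ a b, ContDiffOn ℝ ∞ (fun y => (C b).e ((C a).e.symm y)) (ovl (C a) (C b))),
      ∀ᶠ k in om, ∃ Φ : M k → UL q, LocDiff (toXCharts C htr) Φ := by
  have hne : ∀ k, Nonempty (M k) := fun k => inferInstance
  set q : ∀ k, M k := fun k => Classical.arbitrary (M k) with hq
  have hRic : ∀ᶠ k in om, HasRicciLowerBound 4 (M k) (-0) :=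
    Eventually.of_forall fun k => by rw [neg_zero]; exact hK (M k) (hS k)
  have hpack : Pack q := pack_of_ricci le_rfl q hRic
  haveI : ProperSpace (UL q) := hpack.properSpace
  have hdiam : ∀ᶠ k in om, ∀ x y : M k, dist x y ≤ D :=
    (hG 1 one_pos).mono fun k hk => hk.2.1
  have hbd : ∀ x : ∀ k, M k, Bd q x := fun x => ⟨D, hdiam.mono fun k hk => hk _ _⟩
  haveI : CompactSpace (UL q) := by
    refine ⟨?_⟩
    have h1 : (univ : Set (UL q)) = closedBall (UL.base q) D := by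
      refine (eq_univ_of_forall fun y => ?_).symm
      obtain ⟨x, hx, rfl⟩ := UL.exists_rep y
      exact UL.dist_le hx (Bd.refl q) (hdiam.mono fun k hk => hk _ _)
    rw [h1]
    exact isCompact_closedBall _ _
  obtain ⟨δ₀, hδ₀, hR⟩ := hR
  obtain ⟨r₀, hr₀, hvol⟩ := h2 M v D hv hD (Eventually.of_forall hS) hG δ₀ hδ₀
  have hpin : ∀ x : ∀ k, M k, ∀ η : ℝ, 0 < η →
      ∀ᶠ k in om, PinchAt (x k) r₀ δ₀ ((fun _ : ℕ => (3:ℝ)) k) η := by
    intro x η hη
    filter_upwards [hvol, hG η hη] with k h1 h3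
    exact ⟨fun y _ r hr hr' => h1 y r hr hr', (setLIntegral_le_lintegral _ _).trans h3.2.2⟩
  have hchart : ∀ z : UL q, ∃ C : RChart 4 (UL q) 3, z ∈ C.e.source ∧ HarmChart 4 C.e ∧
      CoordHarm C ∧ WH 4 C := by
    intro z
    obtain ⟨x, hx, rfl⟩ := UL.exists_rep z
    exact hR M q x hx 3 (fun _ => 3) r₀ (by norm_num) hr₀ tendsto_const_nhds
      (Eventually.of_forall hS) (hpin x)
  choose C0 hC0 hH0 hCo0 hW0 using hchart
  obtain ⟨t, ht⟩ := CompactSpace.elim_nhds_subcover (fun z => (C0 z).e.source)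
    (fun z => (C0 z).e.open_source.mem_nhds (hC0 z))
  set eq : Fin t.card ≃ t := t.equivFin.symm with heq
  set C : Fin t.card → RChart 4 (UL q) 3 := fun a => C0 (eq a).1 with hC
  have hcov : ∀ z, ∃ a, z ∈ (C a).e.source := by
    intro z
    have h1 : z ∈ ⋃ x ∈ t, (C0 x).e.source := by rw [ht]; trivial
    simp only [mem_iUnion] at h1
    obtain ⟨x, hx, hz⟩ := h1
    refine ⟨eq.symm ⟨x, hx⟩, ?_⟩
    simpa only [hC, Equiv.apply_symm_apply] using hz
  have htr : ∀ a b, ContDiffOn ℝ ∞ (fun y => (C b).e ((C a).e.symm y)) (ovl (C a) (C b)) :=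
    fun a b => hT M q 3 (C a) (C b) (hH0 _) (hCo0 _) (hW0 _)
  refine ⟨q, t.card, C, htr, ?_⟩
  filter_upwards [h4 M q D 3 hD hpack (Eventually.of_forall hS) hdiam t.card C hcov htr]
    with k hk
  obtain ⟨Φ, hΦ, hΦ2⟩ := hk
  exact ⟨Φ, hΦ, fun p => hcov (Φ p), fun a => (hΦ2 a).1, fun a p hp => (hΦ2 a).2 p hp⟩

end Crest.Agent.R249.AsmD832
end
end

-- ▼ part R249/AsmD3_832

/-!
# R249 (S0386), part D: `S0386_of` (helper832)

The statement of S0386 from `D1Stmt`, `RThm`, `TransStmt`, `D2Out`, `D4Out`, `KRic`, `CovEnd`.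
-/

set_option autoImplicit false
set_option maxSynthPendingDepth 3
noncomputable section
open Set Filter Topology Bundle MeasureTheory Metric
open scoped ContDiff Manifold ENNReal NNReal
open Crest.GeometryTopology.CoordMetric Crest.GeometryTopology.ChartCurvature
  Crest.GeometryTopology.RicciEnergy Crest.GeometryTopology.PointedLimit
open Crest.Agent.R247.Scal386 Crest.Agent.R247.Bo84
open Crest.Agent.R249.D1Def104 Crest.Agent.R249.Ul174 Crest.Agent.R249.Pul47
  Crest.Agent.R249.Len47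

namespace Crest.Agent.R249.AsmD832

/-- a closed simply connected Riemannian 4-manifold, bundled -/
structure Bun where
  M : Type
  [i1 : MetricSpace M]
  [i2 : ChartedSpace (EuclideanSpace ℝ (Fin 4)) M]
  [i3 : IsManifold 𝓘(ℝ, EuclideanSpace ℝ (Fin 4)) ∞ M]
  [i4 : CompactSpace M]
  [i5 : SimplyConnectedSpace M]
  [i6 : RiemannianBundle (fun x : M => TangentSpace 𝓘(ℝ, EuclideanSpace ℝ (Fin 4)) x)]
  [i7 : IsContMDiffRiemannianBundle 𝓘(ℝ, EuclideanSpace ℝ (Fin 4)) ∞ (EuclideanSpace ℝ (Fin 4))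
        (fun x : M => TangentSpace 𝓘(ℝ, EuclideanSpace ℝ (Fin 4)) x)]
  [i8 : IsRiemannianManifold 𝓘(ℝ, EuclideanSpace ℝ (Fin 4)) M]
  [i9 : MeasurableSpace M]
  [i10 : BorelSpace M]

attribute [instance] Bun.i1 Bun.i2 Bun.i3 Bun.i4 Bun.i5 Bun.i6 Bun.i7 Bun.i8 Bun.i9 Bun.i10

/-- the conclusion of S0386 -/
def Con (M : Type) [TopologicalSpace M] [ChartedSpace (EuclideanSpace ℝ (Fin 4)) M] : Prop :=
  IsDiffeoToRoundFourSphere M ∨ IsDiffeoToComplexProjectivePlane M ∨
          IsDiffeoToTwoSphereProduct M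

theorem con_of_sc (r : {r : ℝ // 0 < r}) (M : Type) [MetricSpace M]
    [ChartedSpace (EuclideanSpace ℝ (Fin 4)) M] (h : Con (Sc r M)) : Con M := h

/-- **S0386 from the interfaces of part D.** -/
theorem S0386_of (hD1 : D1Stmt) (hR : RThm) (hT : TransStmt) (h2 : D2Out) (h4 : D4Out)
    (hK : KRic) (hcov : CovEnd) (hcl : EinsteinNonnegSectionalAreModelCovered) :
    ∃ ε : ℝ, 0 < ε ∧ ∀ (M : Type) [MetricSpace M] [ChartedSpace (EuclideanSpace ℝ (Fin 4)) M]
      [IsManifold 𝓘(ℝ, EuclideanSpace ℝ (Fin 4)) ∞ M] [CompactSpace M] [SimplyConnectedSpace M]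
      [RiemannianBundle (fun x : M => TangentSpace 𝓘(ℝ, EuclideanSpace ℝ (Fin 4)) x)]
      [IsContMDiffRiemannianBundle 𝓘(ℝ, EuclideanSpace ℝ (Fin 4)) ∞ (EuclideanSpace ℝ (Fin 4))
        (fun x : M => TangentSpace 𝓘(ℝ, EuclideanSpace ℝ (Fin 4)) x)]
      [IsRiemannianManifold 𝓘(ℝ, EuclideanSpace ℝ (Fin 4)) M]
      [MeasurableSpace M] [BorelSpace M],
      HasNonnegSectionalCurvature 4 M → tracefreeRicciEnergy 4 M < ENNReal.ofReal ε →
        IsDiffeoToRoundFourSphere M ∨ IsDiffeoToComplexProjectivePlane M ∨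
          IsDiffeoToTwoSphereProduct M := by
  by_contra hcon
  have hcex : ∀ ε : ℝ, 0 < ε → ∃ B : Bun, HasNonnegSectionalCurvature 4 B.M ∧
      tracefreeRicciEnergy 4 B.M < ENNReal.ofReal ε ∧ ¬ Con B.M := by
    intro ε hε
    by_contra h
    refine hcon ⟨ε, hε, ?_⟩
    intro M _ _ _ _ _ _ _ _ _ _ hs he
    by_contra hc
    exact h ⟨⟨M⟩, hs, he, hc⟩
  obtain ⟨v, D, C, ε₀, hv, hD, hC, hε₀, hD1⟩ := hD1
  set ε : ℕ → ℝ := fun k => min ε₀ (1 / ((k : ℝ) + 1)) with hε
  have hεpos : ∀ k, 0 < ε k := fun k => lt_min hε₀ (by positivity)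
  choose B hB1 hB2 hB3 using fun k => hcex (ε k) (hεpos k)
  have h3 : ∀ k, ∃ r : {r : ℝ // 0 < r}, Good v D (C * ε k) (Sc r (B k).M) := fun k =>
    hD1 (B k).M (hB1 k) (ε k) (hεpos k) (min_le_left _ _) (hB2 k)
  choose r hr using h3
  have hεlim : Tendsto ε atTop (𝓝 0) := by
    refine squeeze_zero (fun k => (hεpos k).le) (fun k => min_le_right _ _) ?_
    exact tendsto_one_div_add_atTop_nhds_zero_nat
  have hG : ∀ η : ℝ, 0 < η → ∀ᶠ k in om, Good v D η (Sc (r k) (B k).M) := by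
    intro η hη
    have h4 : Tendsto (fun k => C * ε k) atTop (𝓝 (C * 0)) := hεlim.const_mul C
    rw [mul_zero] at h4
    filter_upwards [ev_om_of_atTop (h4.eventually_le_const hη)] with k hk
    exact ⟨(hr k).1, (hr k).2.1, (hr k).2.2.trans (ENNReal.ofReal_le_ofReal hk)⟩
  obtain ⟨q, m, Ch, htr, hΦ⟩ := limit_core hR hT h2 h4 hK (fun k => Sc (r k) (B k).M) v D hv hD
    (fun k => nonnegSec_sc (r k) (hB1 k)) hG
  obtain ⟨k, Φ, hk⟩ := hΦ.exists
  refine hB3 k (con_of_sc (r k) (B k).M ?_)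
  exact end_S0386_of_map hcov hcl (Sc (r k) (B k).M) (toXCharts Ch htr)
    (fun a x hx i j => (Ch a).ein x hx i j) (fun a x hx u v => (Ch a).sec x hx u v) hk

end Crest.Agent.R249.AsmD832
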