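import Crest.Agent.R249.B2Pull_474
import Crest.Agent.R249.B2Defs_474
import Crest.Agent.R249.MS_662
import Mathlib
import Crest.Agent.R249.Ptw_850
import Crest.Agent.R249.Asm1_49
import Crest.Agent.R226.GeoThm_542

-- ▼ part R249/B2Key_474
section

set_option autoImplicit false
set_option maxSynthPendingDepth 3
set_option linter.unusedSectionVars false

open Bundle Set Filter Topology MeasureTheory
open scoped ContDiff Manifold
open Crest.Agent.R244.CF (IsLC curv cov LocIsoAt)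
open Crest.Agent.R226 Crest.Agent.R226.ChartMet842 Crest.Agent.R226.LocalNearThm996
open Crest.Agent.R226.GeoLoc577 Crest.Agent.R226.GeoBasic616
open Crest.GeometryTopology.MTW
open Crest.Agent.R249.B2Defs_474 Crest.Agent.R249.B2Jac_474 Crest.Agent.R249.B2Geo_474
open Crest.Agent.R249.B2Iso_474 Crest.Agent.R249.B2Pull_474

noncomputable section

namespace Crest.Agent.R249.B2Key_474

variable {n : ℕ} {M : Type*} [MetricSpace M] [ChartedSpace (EuclideanSpace ℝ (Fin n)) M]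
  [IsManifold (𝓡 n) ∞ M]
  [RiemannianBundle (fun p : M => TangentSpace (𝓡 n) p)]
  [IsContMDiffRiemannianBundle (𝓡 n) ∞ (EuclideanSpace ℝ (Fin n)) (fun p : M => TangentSpace (𝓡 n) p)]

local notation "𝔼" => EuclideanSpace ℝ (Fin n)

/-- a local isometry from the model defines a frame at the image of the base point -/
def frameOf {m : Mdl n} {Γ : 𝔼 → 𝔼 →L[ℝ] 𝔼 →L[ℝ] 𝔼} (hm : MdlLC m Γ) {H : 𝔼 → M}
    (h : IsoM m.g0 H 0) : Frame n m.R0 (H 0) where
  I := fderiv ℝ (FC (n := n) H (H 0)) 0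
  iso u v := by
    have hL := h.locIso hm.lc m.D_zero (y₀ := H 0) (mem_chart_source _ _)
    have h1 := hL.iso.self_of_nhds u v
    rw [hm.g0_zero] at h1
    exact h1.symm
  curv_eq u v w := by
    have hL := h.locIso hm.lc m.D_zero (y₀ := H 0) (mem_chart_source _ _)
    have h1 := hL.curv hm.lc (isLC_gm (H 0)) u v w
    rw [hm.curv0] at h1
    exact h1.symm

variable [IsRiemannianManifold (𝓡 n) M]

theorem frame_change_seg (m : Mdl n) (hP : ParCurv n M) (G : GeoData n M) {p : M}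
    (P : Frame n m.R0 p) (g : m.G) (hg : g • m.e 0 ∈ m.Reg) :
    ∃ p' : M, ∃ P' : Frame n m.R0 p', ∀ w : 𝔼,
      (∀ t ∈ Icc (0 : ℝ) 1, t • w ∈ m.D ∧ g • m.e (t • w) ∈ m.Reg) →
      FX G p P.I (m.lg (g • m.e w)) = FX G p' P'.I w := by
  obtain ⟨Γ, hm⟩ := exists_mdlLC m hP G P
  set H : 𝔼 → M := fun w => FX G p P.I (m.lg (g • m.e w)) with hH
  have hiso : ∀ w ∈ m.D, g • m.e w ∈ m.Reg → IsoM m.g0 H w := by
    intro w hw hr
    exact (isoM_FX m hP G P (m.lg_mem _ hr)).comp (m.kappa g w hw hr)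
  have h0 : IsoM m.g0 H 0 := hiso 0 m.D_zero hg
  refine ⟨H 0, frameOf hm h0, fun w hw => ?_⟩
  have h1 := nat_exp G hm.lc m.D_zero hm.rad (H := H) (w := w) (fun t ht => (hw t ht).1)
    (fun t ht => hiso _ (hw t ht).1 (hw t ht).2)
  have h2 : (mfderiv 𝓘(ℝ, 𝔼) (𝓡 n) H 0 w : 𝔼) = fderiv ℝ (FC (n := n) H (H 0)) 0 w := by
    rw [fderiv_FC (h0.1.self_of_nhds.mdifferentiableAt (by simp)) (mem_chart_source _ _)]
    exact (dC_self (H 0) _).symm
  have h3 : H w = G.ex (H 0) (fderiv ℝ (FC (n := n) H (H 0)) 0 w : TangentSpace (𝓡 n) (H 0)) := by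
    rw [h1]
    exact congrArg (fun z : TangentSpace (𝓡 n) (H 0) => G.ex (H 0) z) h2
  exact h3

theorem frame_change (m : Mdl n) (hP : ParCurv n M) (G : GeoData n M) {p : M}
    (P : Frame n m.R0 p) (g : m.G) (hg : g • m.e 0 ∈ m.Reg) :
    ∃ p' : M, ∃ P' : Frame n m.R0 p', ∀ w ∈ m.D, g • m.e w ∈ m.Reg →
      FX G p P.I (m.lg (g • m.e w)) = FX G p' P'.I w := by
  obtain ⟨p', P', h⟩ := frame_change_seg m hP G P g hg
  refine ⟨p', P', fun w hw hr => ?_⟩
  by_contra hne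
  have hc1 : ContinuousAt (fun w => FX (n := n) G p P.I (m.lg (g • m.e w))) w :=
    (contMDiff_FX G p P.I).continuous.continuousAt.comp (m.kappa g w hw hr).smooth.continuousAt
  have hc2 : ContinuousAt (fun w => FX (n := n) G p' P'.I w) w :=
    (contMDiff_FX G p' P'.I).continuous.continuousAt
  have h3 : ∀ᶠ z in 𝓝 w, FX (n := n) G p P.I (m.lg (g • m.e z)) ≠ FX G p' P'.I z := by
    have h4 := (hc1.prodMk hc2).eventually (isClosed_diagonal.isOpen_compl.mem_nhds hne)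
    exact h4
  obtain ⟨ε, hε, hεs⟩ := Metric.eventually_nhds_iff.1 h3
  obtain ⟨w', hw', hseg⟩ := m.star_dense g hg w hw ε hε
  exact hεs (by rw [dist_eq_norm]; exact hw') (h w' hseg)

theorem exists_frame_change (m : Mdl n) (hP : ParCurv n M) (G : GeoData n M) {p : M}
    (P : Frame n m.R0 p) (h h' : m.G) (hg : (h⁻¹ * h') • m.e 0 ∈ m.Reg) :
    ∃ p' : M, ∃ P' : Frame n m.R0 p', ∀ c : m.X, h⁻¹ • c ∈ m.Reg → h'⁻¹ • c ∈ m.Reg →
      FX G p P.I (m.lg (h⁻¹ • c)) = FX G p' P'.I (m.lg (h'⁻¹ • c)) := by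
  obtain ⟨p', P', hk⟩ := frame_change m hP G P (h⁻¹ * h') hg
  refine ⟨p', P', fun c h1 h2 => ?_⟩
  have h3 : m.d ((h⁻¹ * h') • m.e (m.lg (h'⁻¹ • c))) (h⁻¹ • c) = 0 := by
    have h4 : h⁻¹ • c = (h⁻¹ * h') • (h'⁻¹ • c) := by
      rw [smul_smul, mul_assoc, mul_inv_cancel, mul_one]
    rw [h4, m.d_smul]
    exact m.e_lg _ h2
  have h5 := m.lg_congr _ _ (by rw [m.d_symm]; exact h3) h1
  rw [← hk _ (m.lg_mem _ h2) h5.1, h5.2]

end Crest.Agent.R249.B2Key_474
end
end

-- ▼ part R249/B2Glue_474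
section

set_option autoImplicit false
set_option maxSynthPendingDepth 3
set_option linter.unusedSectionVars false

open Bundle Set Filter Topology MeasureTheory
open scoped ContDiff Manifold
open Crest.Agent.R244.CF (IsLC curv cov LocIsoAt)
open Crest.Agent.R226 Crest.Agent.R226.ChartMet842 Crest.Agent.R226.LocalNearThm996
open Crest.Agent.R226.GeoLoc577 Crest.Agent.R226.GeoBasic616
open Crest.GeometryTopology.MTW
open Crest.Agent.R249.B2Defs_474 Crest.Agent.R249.B2Jac_474 Crest.Agent.R249.B2Geo_474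
open Crest.Agent.R249.B2Iso_474 Crest.Agent.R249.B2Pull_474 Crest.Agent.R249.B2Key_474

noncomputable section

namespace Crest.Agent.R249.B2Glue_474

variable {n : ℕ} {M : Type*} [MetricSpace M] [ChartedSpace (EuclideanSpace ℝ (Fin n)) M]
  [IsManifold (𝓡 n) ∞ M]
  [RiemannianBundle (fun p : M => TangentSpace (𝓡 n) p)]
  [IsContMDiffRiemannianBundle (𝓡 n) ∞ (EuclideanSpace ℝ (Fin n)) (fun p : M => TangentSpace (𝓡 n) p)]

local notation "𝔼" => EuclideanSpace ℝ (Fin n)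

/-- the norm of `I v` -/
theorem norm_frame {R0 : 𝔼 → 𝔼 → 𝔼 → 𝔼} {p : M} (P : Frame n R0 p) (v : 𝔼) :
    @norm (TangentSpace (𝓡 n) p) _ (P.I v) = ‖v‖ := by
  have h1 : @norm (TangentSpace (𝓡 n) p) _ (P.I v) ^ 2 = ‖v‖ ^ 2 := by
    have h2 := norm_sq_eq_gm (n := n) p (mem_chart_source _ p) (P.I v)
    have h3 : (dC p p (P.I v) : 𝔼) = P.I v := dC_self p (P.I v)
    rw [h3, P.iso, real_inner_self_eq_norm_sq] at h2
    exact h2
  exact (pow_left_inj₀ (norm_nonneg _) (norm_nonneg _) two_ne_zero).1 h1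

theorem frame_surj {R0 : 𝔼 → 𝔼 → 𝔼 → 𝔼} {p : M} (P : Frame n R0 p) :
    Function.Surjective P.I := by
  have hinj : Function.Injective (P.I : 𝔼 →ₗ[ℝ] 𝔼) := by
    intro a b hab
    have h1 := norm_frame P (a - b)
    have h2 : P.I (a - b) = 0 := by
      rw [map_sub]; exact sub_eq_zero.2 hab
    rw [h2] at h1
    have h3 : @norm (TangentSpace (𝓡 n) p) _ (0 : 𝔼) = 0 := norm_zero
    rw [h3] at h1
    exact sub_eq_zero.1 (norm_eq_zero.1 h1.symm)
  exact (LinearMap.injective_iff_surjective (f := (P.I : 𝔼 →ₗ[ℝ] 𝔼))).1 hinj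

variable [IsRiemannianManifold (𝓡 n) M]

theorem dist_ray (G : GeoData n M) (p : M) (v : TangentSpace (𝓡 n) p) (hv : ‖v‖ < G.r₀) :
    dist p (G.ex p v) = ‖v‖ := by
  have h4 := G.dist_eq p v 0 1 (by rw [zero_sub, abs_neg, abs_one, one_mul]; exact hv)
  rwa [ray_zero G, ray_one G, zero_sub, abs_neg, abs_one, one_mul] at h4

section dev

variable (m : Mdl n)

theorem cont_dev (G : GeoData n M) {p : M} (P : Frame n m.R0 p) (h : m.G) {c : m.X}
    (hc : h⁻¹ • c ∈ m.Reg) {ε : ℝ} (hε : 0 < ε) :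
    ∃ δ > 0, ∀ z, m.d c z < δ → h⁻¹ • z ∈ m.Reg ∧
      dist (FX G p P.I (m.lg (h⁻¹ • c))) (FX G p P.I (m.lg (h⁻¹ • z))) < ε := by
  have hF : ContinuousAt (FX (n := n) G p P.I) (m.lg (h⁻¹ • c)) :=
    (contMDiff_FX G p P.I).continuous.continuousAt
  obtain ⟨η, hη, hηs⟩ := Metric.continuousAt_iff.1 hF ε hε
  obtain ⟨δ, hδ, hδs⟩ := m.lg_cont _ hc η hη
  refine ⟨δ, hδ, fun z hz => ?_⟩
  obtain ⟨h1, h2⟩ := hδs (h⁻¹ • z) (by rw [m.d_smul]; exact hz)
  refine ⟨h1, ?_⟩
  rw [dist_comm]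
  exact hηs (by rw [dist_eq_norm]; exact h2)

/-- two developments which agree on a dense set agree -/
theorem dev_unique (G : GeoData n M) {p p' : M} (P : Frame n m.R0 p) (P' : Frame n m.R0 p')
    (h h' h'' : m.G) {c : m.X} (hc : h⁻¹ • c ∈ m.Reg) (hc' : h'⁻¹ • c ∈ m.Reg)
    (hag : ∀ z, h⁻¹ • z ∈ m.Reg → h'⁻¹ • z ∈ m.Reg → h''⁻¹ • z ∈ m.Reg →
      FX G p P.I (m.lg (h⁻¹ • z)) = FX G p' P'.I (m.lg (h'⁻¹ • z))) :
    FX G p P.I (m.lg (h⁻¹ • c)) = FX G p' P'.I (m.lg (h'⁻¹ • c)) := by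
  refine eq_of_forall_dist_le fun ε hε => ?_
  obtain ⟨δ, hδ, hδs⟩ := cont_dev m G P h hc (half_pos hε)
  obtain ⟨δ', hδ', hδs'⟩ := cont_dev m G P' h' hc' (half_pos hε)
  obtain ⟨z, hz, hzd⟩ := m.dense (h''⁻¹ • c) (min δ δ') (lt_min hδ hδ')
  have e1 : h''⁻¹ • (h'' • z) = z := inv_smul_smul _ _
  have e2 : m.d c (h'' • z) < min δ δ' := by
    rw [← m.d_smul h''⁻¹, e1]; exact hzd
  obtain ⟨a1, a2⟩ := hδs _ (e2.trans_le (min_le_left _ _))
  obtain ⟨b1, b2⟩ := hδs' _ (e2.trans_le (min_le_right _ _))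
  have e3 := hag _ a1 b1 (by rw [e1]; exact hz)
  rw [e3] at a2
  have := dist_triangle_right (FX G p P.I (m.lg (h⁻¹ • c))) (FX G p' P'.I (m.lg (h'⁻¹ • c)))
    (FX G p' P'.I (m.lg (h'⁻¹ • (h'' • z))))
  linarith

/-- **the developing map** -/
theorem exists_dev (hP : ParCurv n M) (G : GeoData n M) {p : M} (P : Frame n m.R0 p) :
    ∃ Φ : m.X → M, ∀ h : m.G, ∃ p' : M, ∃ P' : Frame n m.R0 p', ∀ c, h⁻¹ • c ∈ m.Reg →
      Φ c = FX G p' P'.I (m.lg (h⁻¹ • c)) := by
  have hone : ∀ c : m.X, (1 : m.G)⁻¹ • c = c := fun c => by rw [inv_one, one_smul]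
  -- frames in the position `h`
  have step1 : ∀ h : m.G, h • m.e 0 ∈ m.Reg → ∃ p' : M, ∃ P' : Frame n m.R0 p', ∀ c : m.X,
      c ∈ m.Reg → h⁻¹ • c ∈ m.Reg → FX G p P.I (m.lg c) = FX G p' P'.I (m.lg (h⁻¹ • c)) := by
    intro h hh
    obtain ⟨p', P', hk⟩ := exists_frame_change m hP G P 1 h (by rw [inv_one, one_mul]; exact hh)
    refine ⟨p', P', fun c h1 h2 => ?_⟩
    have := hk c (by rw [hone]; exact h1) h2
    rwa [hone] at this
  choose pp PP hPP using step1
  choose hc hc1 hc2 using m.cov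
  let Φ : m.X → M := fun c => FX G (pp (hc c) (hc1 c)) (PP (hc c) (hc1 c)).I (m.lg ((hc c)⁻¹ • c))
  -- independence of the position
  have ind : ∀ (h : m.G) (hh : h • m.e 0 ∈ m.Reg) (c : m.X), h⁻¹ • c ∈ m.Reg →
      Φ c = FX G (pp h hh) (PP h hh).I (m.lg (h⁻¹ • c)) := by
    intro h hh c hcr
    refine dev_unique m G (PP (hc c) (hc1 c)) (PP h hh) (hc c) h 1 (hc2 c) hcr ?_
    intro z h1 h2 h3
    rw [hone] at h3
    rw [← hPP _ _ z h3 h1, ← hPP _ _ z h3 h2]
  refine ⟨Φ, fun h => ?_⟩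
  -- an intermediate position
  obtain ⟨k, hk1, hk2⟩ := m.cov (h • m.e 0)
  obtain ⟨p', P', hfr⟩ := exists_frame_change m hP G (PP k hk1) k h (by
    rw [mul_smul]; exact hk2)
  refine ⟨p', P', fun c hcr => ?_⟩
  refine dev_unique m G (PP (hc c) (hc1 c)) P' (hc c) h k (hc2 c) hcr ?_
  intro z h1 h2 h3
  rw [← hfr z h3 h2, ← ind k hk1 z h3, ind (hc c) (hc1 c) z h1]

end dev

theorem lg_zero (m : Mdl n) : m.lg (m.e 0) = 0 := m.lg_e 0 m.D_zero

/-- a `δ`-ball around the base point is regular -/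
theorem exists_reg (m : Mdl n) : ∃ δ > 0, ∀ y, m.d (m.e 0) y < δ → y ∈ m.Reg := by
  obtain ⟨δ, hδ, h⟩ := m.lg_cont (m.e 0) (m.e_mem 0 m.D_zero) 1 one_pos
  exact ⟨δ, hδ, fun y hy => (h y hy).1⟩

theorem norm_lg (m : Mdl n) {y : m.X} (hy : y ∈ m.Reg) : ‖m.lg y‖ = m.d (m.e 0) y := by
  rw [← m.d_e _ (m.lg_mem y hy)]
  have h1 := m.d_tri (m.e 0) (m.e (m.lg y)) y
  have h2 := m.d_tri (m.e 0) y (m.e (m.lg y))
  have h3 := m.e_lg y hy
  have h4 := m.d_symm y (m.e (m.lg y))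
  linarith

/-- **Part B2**: the covering by the model -/
theorem exists_cover [ConnectedSpace M] (m : Mdl n) (hP : ParCurv n M) (G : GeoData n M) {p : M}
    (P : Frame n m.R0 p) :
    ∃ Φ : m.X → M, Function.Surjective Φ ∧ ∃ ρ > 0, ∀ x y, m.d x y < ρ →
      dist (Φ x) (Φ y) = m.d x y := by
  obtain ⟨Φ, hΦ⟩ := exists_dev m hP G P
  obtain ⟨δ, hδ, hreg⟩ := exists_reg m
  obtain ⟨η, hη, hηs⟩ := Metric.isOpen_iff.1 m.D_open 0 m.D_zero
  -- description of `Φ` near `x`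
  have loc : ∀ x : m.X, ∃ h : m.G, h • m.e 0 = x ∧ ∃ P' : Frame n m.R0 (Φ x),
      ∀ c, h⁻¹ • c ∈ m.Reg → Φ c = FX G (Φ x) P'.I (m.lg (h⁻¹ • c)) := by
    intro x
    obtain ⟨h, hx⟩ := m.trans x
    obtain ⟨p', P', hk⟩ := hΦ h
    have h1 : h⁻¹ • x = m.e 0 := by rw [← hx, inv_smul_smul]
    have h2 : Φ x = p' := by
      rw [hk x (by rw [h1]; exact m.e_mem 0 m.D_zero), h1, lg_zero, FX_zero]
    subst h2
    exact ⟨h, hx, P', hk⟩
  have hdist : ∀ x y, m.d x y < min δ G.r₀ → dist (Φ x) (Φ y) = m.d x y := by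
    intro x y hxy
    obtain ⟨h, hx, P', hk⟩ := loc x
    have h1 : m.d (m.e 0) (h⁻¹ • y) = m.d x y := by
      rw [← m.d_smul h, hx, smul_inv_smul]
    have h2 : h⁻¹ • y ∈ m.Reg := hreg _ (by rw [h1]; exact hxy.trans_le (min_le_left _ _))
    rw [hk y h2]
    have h3 : ‖m.lg (h⁻¹ • y)‖ = m.d x y := by rw [norm_lg m h2, h1]
    have h5 := norm_frame P' (m.lg (h⁻¹ • y))
    have h4 := dist_ray G (Φ x) (P'.I (m.lg (h⁻¹ • y))) (by
      rw [h5, h3]
      exact hxy.trans_le (min_le_right _ _))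
    rw [h5, h3] at h4
    exact h4
  have hball : ∀ x q, dist (Φ x) q < η → q ∈ range Φ := by
    intro x q hq
    obtain ⟨h, hx, P', hk⟩ := loc x
    obtain ⟨v, hv, hvn⟩ := G.surj (Φ x) q
    obtain ⟨u, hu⟩ := frame_surj P' v
    have h1 : ‖u‖ = dist (Φ x) q := by
      rw [← norm_frame P' u, ← hvn]
      exact congrArg (fun z : 𝔼 => @norm (TangentSpace (𝓡 n) (Φ x)) _ z) hu
    have h2 : u ∈ m.D := hηs (by rw [mem_ball_zero_iff, h1]; exact hq)
    refine ⟨h • m.e u, ?_⟩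
    have h3 : h⁻¹ • (h • m.e u) = m.e u := inv_smul_smul _ _
    rw [hk _ (by rw [h3]; exact m.e_mem u h2), h3, m.lg_e u h2]
    show G.ex (Φ x) (P'.I u : TangentSpace (𝓡 n) (Φ x)) = q
    rw [← hv]
    exact congrArg (fun z : 𝔼 => G.ex (Φ x) z) hu
  refine ⟨Φ, ?_, min δ G.r₀, lt_min hδ G.r₀_pos, hdist⟩
  have hopen : IsOpen (range Φ) := by
    rw [Metric.isOpen_iff]
    rintro _ ⟨x, rfl⟩
    exact ⟨η, hη, fun q hq => hball x q (by rw [dist_comm]; exact hq)⟩
  have hclosed : IsClosed (range Φ) := by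
    rw [← isOpen_compl_iff, Metric.isOpen_iff]
    intro q hq
    refine ⟨η, hη, fun y hy => ?_⟩
    rintro ⟨x, hx⟩
    exact hq (hball x q (by rw [hx]; exact hy))
  have huniv : range Φ = univ := by
    refine IsClopen.eq_univ ⟨hclosed, hopen⟩ ⟨Φ (m.e 0), ⟨_, rfl⟩⟩
  exact range_eq_univ.1 huniv

end Crest.Agent.R249.B2Glue_474
end
end

-- ▼ part R249/MdlScale_654
section

set_option autoImplicit false
set_option maxSynthPendingDepth 3

open Set Filter Topology
open scoped ContDiff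
open Crest.Agent.R244.CF (LocIsoAt)
open Crest.Agent.R249.B2Defs_474

noncomputable section

namespace Crest.Agent.R249.MdlScale_654

section aux

variable {E : Type*} [NormedAddCommGroup E] [NormedSpace ℝ E]

theorem smul_inv_cancel' {s : ℝ} (hs : 0 < s) (w : E) : s • s⁻¹ • w = w :=
  smul_inv_smul₀ hs.ne' w

theorem inv_smul_cancel' {s : ℝ} (hs : 0 < s) (w : E) : s⁻¹ • s • w = w :=
  inv_smul_smul₀ hs.ne' w

theorem tendsto_smul_nhds (s : ℝ) (w : E) : Tendsto (fun y : E => s • y) (𝓝 w) (𝓝 (s • w)) :=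
  (continuous_const_smul s).continuousAt

theorem hasFDerivAt_scaled {s : ℝ} (hs : 0 < s) {φ : E → E} {y : E}
    (h : DifferentiableAt ℝ φ (s • y)) :
    HasFDerivAt (fun w => s⁻¹ • φ (s • w)) (fderiv ℝ φ (s • y)) y := by
  have h1 : HasFDerivAt (fun w : E => s • w) (s • ContinuousLinearMap.id ℝ E) y :=
    (hasFDerivAt_id y).const_smul s
  have h2 : HasFDerivAt (fun w => φ (s • w)) ((fderiv ℝ φ (s • y)).comp
      (s • ContinuousLinearMap.id ℝ E)) y :=
    HasFDerivAt.comp y h.hasFDerivAt h1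
  have h3 := h2.const_smul s⁻¹
  have h4 : s⁻¹ • ((fderiv ℝ φ (s • y)).comp (s • ContinuousLinearMap.id ℝ E))
      = fderiv ℝ φ (s • y) := by
    ext v
    simp [hs.ne']
  rw [h4] at h3
  exact h3

theorem fderiv_scaled {s : ℝ} (hs : 0 < s) {φ : E → E} {y : E}
    (h : DifferentiableAt ℝ φ (s • y)) :
    fderiv ℝ (fun w => s⁻¹ • φ (s • w)) y = fderiv ℝ φ (s • y) :=
  (hasFDerivAt_scaled hs h).fderiv

/-- scaling of a local isometry -/
theorem locIsoAt_scaled {s : ℝ} (hs : 0 < s) {U U' : Set E}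
    {g g' : E → E →L[ℝ] E →L[ℝ] ℝ} {φ : E → E} {w : E} (h : LocIsoAt U g U' g' φ (s • w)) :
    LocIsoAt {y | s • y ∈ U} (fun y => g (s • y)) {y | s • y ∈ U'} (fun y => g' (s • y))
      (fun y => s⁻¹ • φ (s • y)) w := by
  have hd : ∀ᶠ y in 𝓝 w, DifferentiableAt ℝ φ (s • y) :=
    (tendsto_smul_nhds s w).eventually
      (h.smooth'.mono fun y hy => hy.differentiableAt (by simp))
  refine ⟨h.mem, ?_, ?_, ?_, ?_⟩
  · show s • s⁻¹ • φ (s • w) ∈ U'
    rw [smul_inv_cancel' hs]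
    exact h.mem'
  · refine ((tendsto_smul_nhds s w).eventually h.smooth').mono fun y hy => ?_
    have h1 : ContDiffAt ℝ ∞ (fun y : E => s • y) y := (contDiff_const_smul s).contDiffAt
    exact (ContDiffAt.comp y hy h1).const_smul s⁻¹
  · filter_upwards [hd, (tendsto_smul_nhds s w).eventually h.surj] with y hy1 hy2
    rw [fderiv_scaled hs hy1]
    exact hy2
  · filter_upwards [hd, (tendsto_smul_nhds s w).eventually h.iso] with y hy1 hy2 u v
    rw [fderiv_scaled hs hy1]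
    show g (s • y) u v = g' (s • s⁻¹ • φ (s • y)) _ _
    rw [smul_inv_cancel' hs]
    exact hy2 u v

end aux

variable {n : ℕ}

local notation "𝔼" => EuclideanSpace ℝ (Fin n)

/-- Scaling of a model: all distances are divided by `s`. -/
def scale (m : Mdl n) (s : ℝ) (hs : 0 < s) : Mdl n where
  X := m.X
  G := m.G
  grp := m.grp
  act := m.act
  d x y := m.d x y / s
  e w := m.e (s • w)
  lg x := s⁻¹ • m.lg x
  D := {w | s • w ∈ m.D}
  Reg := m.Reg
  R0 u v w := s⁻¹ • m.R0 (s • u) (s • v) (s • w)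
  g0 w := m.g0 (s • w)
  J v u t := s⁻¹ • m.J (s • v) (s • u) t
  J' v u t := s⁻¹ • m.J' (s • v) (s • u) t
  D_open := m.D_open.preimage (continuous_const_smul s)
  D_zero := by
    show s • (0 : 𝔼) ∈ m.D
    rw [smul_zero]
    exact m.D_zero
  D_star w hw t ht := by
    show s • t • w ∈ m.D
    rw [smul_comm]
    exact m.D_star _ hw t ht
  g0_smooth := m.g0_smooth.comp (contDiff_const_smul s).contDiffOn (fun _ hw => hw)
  g0_symm w hw u v := m.g0_symm _ hw u v
  g0_pos w hw u hu := m.g0_pos _ hw u hu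
  J_zero v u := by rw [m.J_zero, smul_zero]
  J_one v u := by rw [m.J_one, inv_smul_cancel' hs]
  J_deriv v u t := (m.J_deriv (s • v) (s • u) t).const_smul s⁻¹
  J'_deriv v u t := by
    have h := (m.J'_deriv (s • v) (s • u) t).const_smul s⁻¹
    rw [smul_neg] at h
    rw [smul_inv_cancel' hs]
    exact h
  J_g0 v hv u u' := by
    have h := m.J_g0 (s • v) hv (s • u) (s • u')
    rw [map_smul, map_smul, FunLike.coe_smul, Pi.smul_apply, smul_eq_mul, smul_eq_mul] at h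
    rw [inner_smul_left, inner_smul_right, ← h]
    simp only [conj_trivial]
    field_simp
  d_symm x y := by rw [m.d_symm]
  d_self x := by rw [m.d_self, zero_div]
  d_tri x y z := by
    rw [← add_div]
    exact div_le_div_of_nonneg_right (m.d_tri x y z) hs.le
  d_smul g x y := by rw [m.d_smul]
  d_e w hw := by
    rw [smul_zero, m.d_e _ hw, norm_smul, Real.norm_of_nonneg hs.le]
    field_simp
  e_cont w hw ε hε := by
    obtain ⟨δ, hδ, h⟩ := m.e_cont (s • w) hw (s * ε) (by positivity)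
    refine ⟨δ / s, by positivity, fun w' hw' => ?_⟩
    rw [div_lt_iff₀ hs, mul_comm]
    refine h _ ?_
    rw [← smul_sub, norm_smul, Real.norm_of_nonneg hs.le]
    rw [lt_div_iff₀ hs] at hw'
    linarith
  e_mem w hw := m.e_mem _ hw
  lg_mem x hx := by
    show s • s⁻¹ • m.lg x ∈ m.D
    rw [smul_inv_cancel' hs]
    exact m.lg_mem x hx
  lg_e w hw := by
    rw [m.lg_e _ hw, inv_smul_cancel' hs]
  e_lg x hx := by
    rw [smul_inv_cancel' hs, m.e_lg x hx, zero_div]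
  lg_congr x y hxy hx := by
    have h : m.d x y = 0 := by
      rcases div_eq_zero_iff.1 hxy with h | h
      · exact h
      · exact absurd h hs.ne'
    obtain ⟨h1, h2⟩ := m.lg_congr x y h hx
    exact ⟨h1, by rw [h2]⟩
  lg_cont x hx ε hε := by
    obtain ⟨δ, hδ, h⟩ := m.lg_cont x hx (s * ε) (by positivity)
    refine ⟨δ / s, by positivity, fun y hy => ?_⟩
    have hy' : m.d x y < δ := by
      rw [div_lt_div_iff_of_pos_right hs] at hy
      exact hy
    obtain ⟨h1, h2⟩ := h y hy'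
    refine ⟨h1, ?_⟩
    rw [← smul_sub, norm_smul, norm_inv, Real.norm_of_nonneg hs.le, inv_mul_lt_iff₀ hs]
    exact h2
  trans x := by
    obtain ⟨g, hg⟩ := m.trans x
    exact ⟨g, by rw [smul_zero]; exact hg⟩
  kappa g w hw hg := locIsoAt_scaled hs (m.kappa g (s • w) hw hg)
  star_dense g hg w hw ε hε := by
    have hg' : g • m.e 0 ∈ m.Reg := by
      have h := hg
      rw [smul_zero] at h
      exact h
    obtain ⟨w', h1, h2⟩ := m.star_dense g hg' (s • w) hw (s * ε) (by positivity)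
    refine ⟨s⁻¹ • w', ?_, fun t ht => ?_⟩
    · have h3 : s⁻¹ • w' - w = s⁻¹ • (w' - s • w) := by
        rw [smul_sub, inv_smul_cancel' hs]
      rw [h3, norm_smul, norm_inv, Real.norm_of_nonneg hs.le, inv_mul_lt_iff₀ hs]
      exact h1
    · have h4 : s • t • s⁻¹ • w' = t • w' := by
        rw [smul_comm s t, smul_inv_cancel' hs]
      obtain ⟨h5, h6⟩ := h2 t ht
      refine ⟨?_, ?_⟩
      · show s • t • s⁻¹ • w' ∈ m.D
        rw [h4]
        exact h5
      · rw [h4]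
        exact h6
  dense x ε hε := by
    obtain ⟨z, hz, h⟩ := m.dense x (s * ε) (by positivity)
    refine ⟨z, hz, ?_⟩
    rw [div_lt_iff₀ hs, mul_comm]
    exact h
  cov x := by
    obtain ⟨g, h1, h2⟩ := m.cov x
    exact ⟨g, by rw [smul_zero]; exact h1, h2⟩

section api

variable (m : Mdl n) (s : ℝ) (hs : 0 < s)




theorem scale_R0 (u v w : 𝔼) :
    (scale m s hs).R0 u v w = s⁻¹ • m.R0 (s • u) (s • v) (s • w) := rfl

/-- for a homogeneous `R0` the curvature is multiplied by `s ^ 2` -/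
theorem scale_R0_of_hom (hR : ∀ (c : ℝ) (u v w : 𝔼), m.R0 (c • u) (c • v) (c • w) = c ^ 3 • m.R0 u v w)
    (u v w : 𝔼) : (scale m s hs).R0 u v w = s ^ 2 • m.R0 u v w := by
  rw [scale_R0, hR, smul_smul]
  congr 1
  field_simp

/-- Scaling with curvature factor `a`: distances are divided by `√a`. -/
def scaleSqrt (m : Mdl n) (a : ℝ) (ha : 0 < a) : Mdl n := scale m (Real.sqrt a) (Real.sqrt_pos.2 ha)


theorem scaleSqrt_d (a : ℝ) (ha : 0 < a) (x y : m.X) :
    (scaleSqrt m a ha).d x y = m.d x y / Real.sqrt a := rfl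

theorem scaleSqrt_R0 (a : ℝ) (ha : 0 < a)
    (hR : ∀ (c : ℝ) (u v w : 𝔼), m.R0 (c • u) (c • v) (c • w) = c ^ 3 • m.R0 u v w)
    (u v w : 𝔼) : (scaleSqrt m a ha).R0 u v w = a • m.R0 u v w := by
  have h := scale_R0_of_hom m (Real.sqrt a) (Real.sqrt_pos.2 ha) hR u v w
  rw [Real.sq_sqrt ha.le] at h
  exact h

end api

end Crest.Agent.R249.MdlScale_654
end
end

-- ▼ part R249/MP_662
section

set_option autoImplicit false
set_option maxSynthPendingDepth 3

open Real Set Filter Topology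
open scoped ContDiff InnerProductSpace
open Crest.Agent.R244.CF (LocIsoAt)
open Crest.Agent.R249.B2Defs_474 (Mdl)

noncomputable section

namespace Crest.Agent.R249.MP_662

/-- orthogonal splitting `R^n = R^a ⊕ R^b` -/
structure Split (a b n : ℕ) where
  p1 : EuclideanSpace ℝ (Fin n) →L[ℝ] EuclideanSpace ℝ (Fin a)
  p2 : EuclideanSpace ℝ (Fin n) →L[ℝ] EuclideanSpace ℝ (Fin b)
  i1 : EuclideanSpace ℝ (Fin a) →L[ℝ] EuclideanSpace ℝ (Fin n)
  i2 : EuclideanSpace ℝ (Fin b) →L[ℝ] EuclideanSpace ℝ (Fin n)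
  p1_i1 : ∀ u, p1 (i1 u) = u
  p1_i2 : ∀ u, p1 (i2 u) = 0
  p2_i1 : ∀ u, p2 (i1 u) = 0
  p2_i2 : ∀ u, p2 (i2 u) = u
  dec : ∀ w, i1 (p1 w) + i2 (p2 w) = w
  inner_eq : ∀ u v, inner ℝ u v = inner ℝ (p1 u) (p1 v) + inner ℝ (p2 u) (p2 v)

namespace Split

variable {a b n : ℕ} (S : Split a b n)

theorem norm_sq (u : EuclideanSpace ℝ (Fin n)) : ‖u‖ ^ 2 = ‖S.p1 u‖ ^ 2 + ‖S.p2 u‖ ^ 2 := by
  rw [← real_inner_self_eq_norm_sq, ← real_inner_self_eq_norm_sq, ← real_inner_self_eq_norm_sq,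
    S.inner_eq]

theorem ext {u v : EuclideanSpace ℝ (Fin n)} (h1 : S.p1 u = S.p1 v) (h2 : S.p2 u = S.p2 v) :
    u = v := by
  rw [← S.dec u, ← S.dec v, h1, h2]

theorem p1_add (u : EuclideanSpace ℝ (Fin a)) (v : EuclideanSpace ℝ (Fin b)) :
    S.p1 (S.i1 u + S.i2 v) = u := by
  rw [map_add, S.p1_i1, S.p1_i2, add_zero]

theorem p2_add (u : EuclideanSpace ℝ (Fin a)) (v : EuclideanSpace ℝ (Fin b)) :
    S.p2 (S.i1 u + S.i2 v) = v := by
  rw [map_add, S.p2_i1, S.p2_i2, zero_add]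

theorem norm_le (u : EuclideanSpace ℝ (Fin n)) : ‖u‖ ≤ ‖S.p1 u‖ + ‖S.p2 u‖ := by
  have h := S.norm_sq u
  have h1 := norm_nonneg (S.p1 u)
  have h2 := norm_nonneg (S.p2 u)
  have h3 := norm_nonneg u
  nlinarith

/-- a bilinear form on the sum -/
def bil (g1 : EuclideanSpace ℝ (Fin a) →L[ℝ] EuclideanSpace ℝ (Fin a) →L[ℝ] ℝ)
    (g2 : EuclideanSpace ℝ (Fin b) →L[ℝ] EuclideanSpace ℝ (Fin b) →L[ℝ] ℝ) :
    EuclideanSpace ℝ (Fin n) →L[ℝ] EuclideanSpace ℝ (Fin n) →L[ℝ] ℝ :=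
  ((ContinuousLinearMap.compL ℝ (EuclideanSpace ℝ (Fin n)) (EuclideanSpace ℝ (Fin a)) ℝ).flip
      S.p1).comp (g1.comp S.p1) +
  ((ContinuousLinearMap.compL ℝ (EuclideanSpace ℝ (Fin n)) (EuclideanSpace ℝ (Fin b)) ℝ).flip
      S.p2).comp (g2.comp S.p2)

theorem bil_apply (g1 : EuclideanSpace ℝ (Fin a) →L[ℝ] EuclideanSpace ℝ (Fin a) →L[ℝ] ℝ)
    (g2 : EuclideanSpace ℝ (Fin b) →L[ℝ] EuclideanSpace ℝ (Fin b) →L[ℝ] ℝ)
    (u v : EuclideanSpace ℝ (Fin n)) :
    S.bil g1 g2 u v = g1 (S.p1 u) (S.p1 v) + g2 (S.p2 u) (S.p2 v) := rfl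

/-- the product metric -/
def gP (g1 : EuclideanSpace ℝ (Fin a) → EuclideanSpace ℝ (Fin a) →L[ℝ]
      EuclideanSpace ℝ (Fin a) →L[ℝ] ℝ)
    (g2 : EuclideanSpace ℝ (Fin b) → EuclideanSpace ℝ (Fin b) →L[ℝ]
      EuclideanSpace ℝ (Fin b) →L[ℝ] ℝ) (w : EuclideanSpace ℝ (Fin n)) :
    EuclideanSpace ℝ (Fin n) →L[ℝ] EuclideanSpace ℝ (Fin n) →L[ℝ] ℝ :=
  S.bil (g1 (S.p1 w)) (g2 (S.p2 w))

theorem contDiffOn_gP
    {g1 : EuclideanSpace ℝ (Fin a) → EuclideanSpace ℝ (Fin a) →L[ℝ]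
      EuclideanSpace ℝ (Fin a) →L[ℝ] ℝ}
    {g2 : EuclideanSpace ℝ (Fin b) → EuclideanSpace ℝ (Fin b) →L[ℝ]
      EuclideanSpace ℝ (Fin b) →L[ℝ] ℝ} {D1 : Set (EuclideanSpace ℝ (Fin a))}
    {D2 : Set (EuclideanSpace ℝ (Fin b))}
    (h1 : ContDiffOn ℝ ∞ g1 D1) (h2 : ContDiffOn ℝ ∞ g2 D2) :
    ContDiffOn ℝ ∞ (S.gP g1 g2) {w | S.p1 w ∈ D1 ∧ S.p2 w ∈ D2} := by
  have e1 : ContDiffOn ℝ ∞ (fun w => g1 (S.p1 w)) {w | S.p1 w ∈ D1 ∧ S.p2 w ∈ D2} :=
    h1.comp S.p1.contDiff.contDiffOn fun w hw => hw.1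
  have e2 : ContDiffOn ℝ ∞ (fun w => g2 (S.p2 w)) {w | S.p1 w ∈ D1 ∧ S.p2 w ∈ D2} :=
    h2.comp S.p2.contDiff.contDiffOn fun w hw => hw.2
  unfold gP bil
  exact (contDiffOn_const.clm_comp (e1.clm_comp contDiffOn_const)).add
    (contDiffOn_const.clm_comp (e2.clm_comp contDiffOn_const))

theorem locIso
    {g1 : EuclideanSpace ℝ (Fin a) → EuclideanSpace ℝ (Fin a) →L[ℝ]
      EuclideanSpace ℝ (Fin a) →L[ℝ] ℝ}
    {g2 : EuclideanSpace ℝ (Fin b) → EuclideanSpace ℝ (Fin b) →L[ℝ]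
      EuclideanSpace ℝ (Fin b) →L[ℝ] ℝ} {D1 : Set (EuclideanSpace ℝ (Fin a))}
    {D2 : Set (EuclideanSpace ℝ (Fin b))}
    {k1 : EuclideanSpace ℝ (Fin a) → EuclideanSpace ℝ (Fin a)}
    {k2 : EuclideanSpace ℝ (Fin b) → EuclideanSpace ℝ (Fin b)} {w : EuclideanSpace ℝ (Fin n)}
    (h1 : LocIsoAt D1 g1 D1 g1 k1 (S.p1 w)) (h2 : LocIsoAt D2 g2 D2 g2 k2 (S.p2 w)) :
    LocIsoAt {w | S.p1 w ∈ D1 ∧ S.p2 w ∈ D2} (S.gP g1 g2) {w | S.p1 w ∈ D1 ∧ S.p2 w ∈ D2}
      (S.gP g1 g2) (fun w => S.i1 (k1 (S.p1 w)) + S.i2 (k2 (S.p2 w))) w := by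
  have c1 : Tendsto S.p1 (𝓝 w) (𝓝 (S.p1 w)) := S.p1.continuous.continuousAt
  have c2 : Tendsto S.p2 (𝓝 w) (𝓝 (S.p2 w)) := S.p2.continuous.continuousAt
  have s1 : ∀ᶠ y in 𝓝 w, ContDiffAt ℝ ∞ k1 (S.p1 y) := c1.eventually h1.smooth'
  have s2 : ∀ᶠ y in 𝓝 w, ContDiffAt ℝ ∞ k2 (S.p2 y) := c2.eventually h2.smooth'
  have hd : ∀ᶠ y in 𝓝 w, HasFDerivAt (fun w => S.i1 (k1 (S.p1 w)) + S.i2 (k2 (S.p2 w)))
      (S.i1.comp ((fderiv ℝ k1 (S.p1 y)).comp S.p1) +
        S.i2.comp ((fderiv ℝ k2 (S.p2 y)).comp S.p2)) y := by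
    filter_upwards [s1, s2] with y e1 e2
    have f1 : HasFDerivAt (fun w => k1 (S.p1 w)) ((fderiv ℝ k1 (S.p1 y)).comp S.p1) y :=
      (e1.differentiableAt (by simp)).hasFDerivAt.comp y S.p1.hasFDerivAt
    have f2 : HasFDerivAt (fun w => k2 (S.p2 w)) ((fderiv ℝ k2 (S.p2 y)).comp S.p2) y :=
      (e2.differentiableAt (by simp)).hasFDerivAt.comp y S.p2.hasFDerivAt
    exact (S.i1.hasFDerivAt.comp y f1).add (S.i2.hasFDerivAt.comp y f2)
  refine ⟨⟨h1.mem, h2.mem⟩, ?_, ?_, ?_, ?_⟩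
  · show S.p1 (S.i1 _ + S.i2 _) ∈ D1 ∧ S.p2 (S.i1 _ + S.i2 _) ∈ D2
    rw [S.p1_add, S.p2_add]
    exact ⟨h1.mem', h2.mem'⟩
  · filter_upwards [s1, s2] with y e1 e2
    exact (S.i1.contDiff.contDiffAt.comp y (e1.comp y S.p1.contDiff.contDiffAt)).add
      (S.i2.contDiff.contDiffAt.comp y (e2.comp y S.p2.contDiff.contDiffAt))
  · filter_upwards [hd, c1.eventually h1.surj, c2.eventually h2.surj] with y e e1 e2
    rw [e.fderiv]
    intro z
    obtain ⟨u1, hu1⟩ := e1 (S.p1 z)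
    obtain ⟨u2, hu2⟩ := e2 (S.p2 z)
    refine ⟨S.i1 u1 + S.i2 u2, ?_⟩
    simp only [_root_.add_apply, ContinuousLinearMap.comp_apply, S.p1_add, S.p2_add,
      hu1, hu2, S.dec]
  · filter_upwards [hd, c1.eventually h1.iso, c2.eventually h2.iso] with y e e1 e2
    intro u v
    rw [e.fderiv]
    show g1 (S.p1 y) (S.p1 u) (S.p1 v) + g2 (S.p2 y) (S.p2 u) (S.p2 v) = _
    rw [e1, e2]
    unfold gP
    rw [bil_apply]
    simp only [_root_.add_apply, ContinuousLinearMap.comp_apply, S.p1_add, S.p2_add]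

end Split

theorem sqrt_tri {a1 a2 b1 b2 c1 c2 : ℝ} (ha : 0 ≤ c1) (hb : 0 ≤ c2) (h1 : c1 ≤ a1 + b1)
    (h2 : c2 ≤ a2 + b2) : √(c1 ^ 2 + c2 ^ 2) ≤ √(a1 ^ 2 + a2 ^ 2) + √(b1 ^ 2 + b2 ^ 2) := by
  have h3 : √(c1 ^ 2 + c2 ^ 2) ≤ √((a1 + b1) ^ 2 + (a2 + b2) ^ 2) := by
    apply Real.sqrt_le_sqrt
    nlinarith
  refine h3.trans ?_
  have h := norm_add_le ((a1 : ℂ) + a2 * Complex.I) ((b1 : ℂ) + b2 * Complex.I)
  have e1 : ((a1 : ℂ) + a2 * Complex.I) + ((b1 : ℂ) + b2 * Complex.I) =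
      ((a1 + b1 : ℝ) : ℂ) + ((a2 + b2 : ℝ) : ℂ) * Complex.I := by push_cast; ring
  rw [e1, Complex.norm_add_mul_I, Complex.norm_add_mul_I, Complex.norm_add_mul_I] at h
  exact h

section prod

variable {a b n : ℕ} (S : Split a b n) (m1 : Mdl a) (m2 : Mdl b)

theorem d_nonneg {n : ℕ} (m : Mdl n) (x y : m.X) : 0 ≤ m.d x y := by
  have h := m.d_tri x y x
  rw [m.d_self, m.d_symm y x] at h
  linarith

/-- product distance -/
def dP (x y : m1.X × m2.X) : ℝ := √(m1.d x.1 y.1 ^ 2 + m2.d x.2 y.2 ^ 2)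

theorem dP_eq_zero {x y : m1.X × m2.X} (h : dP m1 m2 x y = 0) :
    m1.d x.1 y.1 = 0 ∧ m2.d x.2 y.2 = 0 := by
  unfold dP at h
  rw [Real.sqrt_eq_zero (by positivity)] at h
  constructor <;> nlinarith [sq_nonneg (m1.d x.1 y.1), sq_nonneg (m2.d x.2 y.2)]

theorem d1_le_dP (x y : m1.X × m2.X) : m1.d x.1 y.1 ≤ dP m1 m2 x y :=
  Real.le_sqrt_of_sq_le (by nlinarith [sq_nonneg (m2.d x.2 y.2)])

theorem d2_le_dP (x y : m1.X × m2.X) : m2.d x.2 y.2 ≤ dP m1 m2 x y :=
  Real.le_sqrt_of_sq_le (by nlinarith [sq_nonneg (m1.d x.1 y.1)])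

theorem dP_lt {x y : m1.X × m2.X} {ε : ℝ} (hε : 0 < ε) (h1 : m1.d x.1 y.1 < ε / 2)
    (h2 : m2.d x.2 y.2 < ε / 2) : dP m1 m2 x y < ε := by
  unfold dP
  have h3 := d_nonneg m1 x.1 y.1
  have h4 := d_nonneg m2 x.2 y.2
  rw [Real.sqrt_lt' hε]
  nlinarith

/-- the action of the product group -/
@[reducible] def actP : MulAction (m1.G × m2.G) (m1.X × m2.X) where
  smul g x := (g.1 • x.1, g.2 • x.2)
  one_smul _ := Prod.ext (one_smul _ _) (one_smul _ _)
  mul_smul _ _ _ := Prod.ext (mul_smul _ _ _) (mul_smul _ _ _)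

/-- The product of two model spaces. -/
def prod : Mdl n where
  X := m1.X × m2.X
  G := m1.G × m2.G
  act := actP m1 m2
  d := dP m1 m2
  e := fun w => (m1.e (S.p1 w), m2.e (S.p2 w))
  lg := fun x => S.i1 (m1.lg x.1) + S.i2 (m2.lg x.2)
  D := {w | S.p1 w ∈ m1.D ∧ S.p2 w ∈ m2.D}
  Reg := {x | x.1 ∈ m1.Reg ∧ x.2 ∈ m2.Reg}
  R0 := fun u v w => S.i1 (m1.R0 (S.p1 u) (S.p1 v) (S.p1 w)) +
    S.i2 (m2.R0 (S.p2 u) (S.p2 v) (S.p2 w))
  g0 := S.gP m1.g0 m2.g0
  J := fun v u t => S.i1 (m1.J (S.p1 v) (S.p1 u) t) + S.i2 (m2.J (S.p2 v) (S.p2 u) t)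
  J' := fun v u t => S.i1 (m1.J' (S.p1 v) (S.p1 u) t) + S.i2 (m2.J' (S.p2 v) (S.p2 u) t)
  D_open := (m1.D_open.preimage S.p1.continuous).inter (m2.D_open.preimage S.p2.continuous)
  D_zero := ⟨by rw [map_zero]; exact m1.D_zero, by rw [map_zero]; exact m2.D_zero⟩
  D_star := fun w hw t ht => ⟨by rw [map_smul]; exact m1.D_star _ hw.1 t ht,
    by rw [map_smul]; exact m2.D_star _ hw.2 t ht⟩
  g0_smooth := S.contDiffOn_gP m1.g0_smooth m2.g0_smooth
  g0_symm := fun w hw u v => by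
    show m1.g0 _ _ _ + m2.g0 _ _ _ = m1.g0 _ _ _ + m2.g0 _ _ _
    rw [m1.g0_symm _ hw.1, m2.g0_symm _ hw.2]
  g0_pos := fun w hw u hu => by
    show 0 < m1.g0 _ _ _ + m2.g0 _ _ _
    have n1 : 0 ≤ m1.g0 (S.p1 w) (S.p1 u) (S.p1 u) := by
      by_cases h : S.p1 u = 0
      · rw [h, map_zero]
      · exact (m1.g0_pos _ hw.1 _ h).le
    have n2 : 0 ≤ m2.g0 (S.p2 w) (S.p2 u) (S.p2 u) := by
      by_cases h : S.p2 u = 0
      · rw [h, map_zero]
      · exact (m2.g0_pos _ hw.2 _ h).le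
    by_cases h : S.p1 u = 0
    · have h2 : S.p2 u ≠ 0 := fun h2 => hu (by rw [← S.dec u, h, h2]; simp)
      exact add_pos_of_nonneg_of_pos n1 (m2.g0_pos _ hw.2 _ h2)
    · exact add_pos_of_pos_of_nonneg (m1.g0_pos _ hw.1 _ h) n2
  J_zero := fun v u => by rw [m1.J_zero, m2.J_zero]; simp
  J_one := fun v u => by rw [m1.J_one, m2.J_one, S.dec]
  J_deriv := fun v u t =>
    (S.i1.hasFDerivAt.comp_hasDerivAt t (m1.J_deriv _ _ t)).add
      (S.i2.hasFDerivAt.comp_hasDerivAt t (m2.J_deriv _ _ t))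
  J'_deriv := fun v u t => by
    have h := (S.i1.hasFDerivAt.comp_hasDerivAt t (m1.J'_deriv (S.p1 v) (S.p1 u) t)).add
      (S.i2.hasFDerivAt.comp_hasDerivAt t (m2.J'_deriv (S.p2 v) (S.p2 u) t))
    refine h.congr_deriv ?_
    rw [S.p1_add, S.p2_add, map_neg, map_neg, neg_add]
  J_g0 := fun v hv u u' => by
    show m1.g0 _ _ _ + m2.g0 _ _ _ = _
    rw [m1.J_g0 _ hv.1, m2.J_g0 _ hv.2, S.inner_eq, S.p1_add, S.p1_add, S.p2_add, S.p2_add]
    rfl
  d_symm := fun x y => by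
    unfold dP
    rw [m1.d_symm, m2.d_symm]
  d_self := fun x => by
    unfold dP
    rw [m1.d_self, m2.d_self]; simp
  d_tri := fun x y z => sqrt_tri (d_nonneg _ _ _) (d_nonneg _ _ _) (m1.d_tri _ _ _)
    (m2.d_tri _ _ _)
  d_smul := fun g x y => by
    show √(m1.d (g.1 • x.1) (g.1 • y.1) ^ 2 + m2.d (g.2 • x.2) (g.2 • y.2) ^ 2) = dP m1 m2 x y
    rw [m1.d_smul, m2.d_smul]; rfl
  d_e := fun w hw => by
    show √(m1.d (m1.e (S.p1 0)) (m1.e (S.p1 w)) ^ 2 + m2.d (m2.e (S.p2 0)) (m2.e (S.p2 w)) ^ 2) =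
      ‖w‖
    rw [map_zero, map_zero, m1.d_e _ hw.1, m2.d_e _ hw.2, ← S.norm_sq, Real.sqrt_sq (norm_nonneg _)]
  e_cont := fun w hw ε hε => by
    obtain ⟨δ1, hδ1, h1⟩ := m1.e_cont _ hw.1 (ε / 2) (by positivity)
    obtain ⟨δ2, hδ2, h2⟩ := m2.e_cont _ hw.2 (ε / 2) (by positivity)
    refine ⟨min δ1 δ2, lt_min hδ1 hδ2, fun w' hw' => ?_⟩
    have e1 : ‖S.p1 w' - S.p1 w‖ ≤ ‖w' - w‖ := by
      rw [← map_sub]
      have := S.norm_sq (w' - w)
      nlinarith [norm_nonneg (S.p1 (w' - w)), norm_nonneg (w' - w), sq_nonneg ‖S.p2 (w' - w)‖]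
    have e2 : ‖S.p2 w' - S.p2 w‖ ≤ ‖w' - w‖ := by
      rw [← map_sub]
      have := S.norm_sq (w' - w)
      nlinarith [norm_nonneg (S.p2 (w' - w)), norm_nonneg (w' - w), sq_nonneg ‖S.p1 (w' - w)‖]
    exact dP_lt m1 m2 hε (h1 _ (e1.trans_lt (hw'.trans_le (min_le_left _ _))))
      (h2 _ (e2.trans_lt (hw'.trans_le (min_le_right _ _))))
  e_mem := fun w hw => ⟨m1.e_mem _ hw.1, m2.e_mem _ hw.2⟩
  lg_mem := fun x hx => by
    show S.p1 (S.i1 _ + S.i2 _) ∈ m1.D ∧ S.p2 (S.i1 _ + S.i2 _) ∈ m2.D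
    rw [S.p1_add, S.p2_add]
    exact ⟨m1.lg_mem _ hx.1, m2.lg_mem _ hx.2⟩
  lg_e := fun w hw => by
    show S.i1 (m1.lg (m1.e _)) + S.i2 (m2.lg (m2.e _)) = w
    rw [m1.lg_e _ hw.1, m2.lg_e _ hw.2, S.dec]
  e_lg := fun x hx => by
    show √(m1.d (m1.e (S.p1 (S.i1 _ + S.i2 _))) x.1 ^ 2 +
      m2.d (m2.e (S.p2 (S.i1 _ + S.i2 _))) x.2 ^ 2) = 0
    rw [S.p1_add, S.p2_add, m1.e_lg _ hx.1, m2.e_lg _ hx.2]; simp
  lg_congr := fun x y h hx => by
    obtain ⟨h1, h2⟩ := dP_eq_zero m1 m2 h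
    obtain ⟨a1, a2⟩ := m1.lg_congr _ _ h1 hx.1
    obtain ⟨b1, b2⟩ := m2.lg_congr _ _ h2 hx.2
    refine ⟨⟨a1, b1⟩, ?_⟩
    rw [a2, b2]
  lg_cont := fun x hx ε hε => by
    obtain ⟨δ1, hδ1, h1⟩ := m1.lg_cont _ hx.1 (ε / 2) (by positivity)
    obtain ⟨δ2, hδ2, h2⟩ := m2.lg_cont _ hx.2 (ε / 2) (by positivity)
    refine ⟨min δ1 δ2, lt_min hδ1 hδ2, fun y hy => ?_⟩
    have e1 := h1 y.1 (((d1_le_dP m1 m2 x y).trans_lt hy).trans_le (min_le_left _ _))
    have e2 := h2 y.2 (((d2_le_dP m1 m2 x y).trans_lt hy).trans_le (min_le_right _ _))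
    refine ⟨⟨e1.1, e2.1⟩, ?_⟩
    refine (S.norm_le _).trans_lt ?_
    rw [map_sub, map_sub, S.p1_add, S.p1_add, S.p2_add, S.p2_add]
    linarith [e1.2, e2.2]
  trans := fun x => by
    obtain ⟨g1, h1⟩ := m1.trans x.1
    obtain ⟨g2, h2⟩ := m2.trans x.2
    refine ⟨(g1, g2), ?_⟩
    show (g1 • m1.e (S.p1 0), g2 • m2.e (S.p2 0)) = x
    rw [map_zero, map_zero, h1, h2]
  kappa := fun g w hw hg =>
    S.locIso (m1.kappa g.1 _ hw.1 hg.1) (m2.kappa g.2 _ hw.2 hg.2)
  star_dense := fun g hg w hw ε hε => by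
    have hg1 : g.1 • m1.e 0 ∈ m1.Reg := by
      have : g.1 • m1.e (S.p1 0) ∈ m1.Reg := hg.1
      rwa [map_zero] at this
    have hg2 : g.2 • m2.e 0 ∈ m2.Reg := by
      have : g.2 • m2.e (S.p2 0) ∈ m2.Reg := hg.2
      rwa [map_zero] at this
    obtain ⟨w1, h1, h1'⟩ := m1.star_dense g.1 hg1 _ hw.1 (ε / 2) (by positivity)
    obtain ⟨w2, h2, h2'⟩ := m2.star_dense g.2 hg2 _ hw.2 (ε / 2) (by positivity)
    refine ⟨S.i1 w1 + S.i2 w2, ?_, fun t ht => ?_⟩
    · refine (S.norm_le _).trans_lt ?_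
      rw [map_sub, map_sub, S.p1_add, S.p2_add]
      linarith
    · have q1 : S.p1 (t • (S.i1 w1 + S.i2 w2)) = t • w1 := by rw [map_smul, S.p1_add]
      have q2 : S.p2 (t • (S.i1 w1 + S.i2 w2)) = t • w2 := by rw [map_smul, S.p2_add]
      refine ⟨⟨?_, ?_⟩, ?_, ?_⟩
      · rw [q1]; exact (h1' t ht).1
      · rw [q2]; exact (h2' t ht).1
      · show g.1 • m1.e (S.p1 (t • (S.i1 w1 + S.i2 w2))) ∈ m1.Reg
        rw [q1]; exact (h1' t ht).2
      · show g.2 • m2.e (S.p2 (t • (S.i1 w1 + S.i2 w2))) ∈ m2.Reg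
        rw [q2]; exact (h2' t ht).2
  dense := fun x ε hε => by
    obtain ⟨z1, h1, h1'⟩ := m1.dense x.1 (ε / 2) (by positivity)
    obtain ⟨z2, h2, h2'⟩ := m2.dense x.2 (ε / 2) (by positivity)
    exact ⟨(z1, z2), ⟨h1, h2⟩, dP_lt m1 m2 hε h1' h2'⟩
  cov := fun x => by
    obtain ⟨g1, h1, h1'⟩ := m1.cov x.1
    obtain ⟨g2, h2, h2'⟩ := m2.cov x.2
    refine ⟨(g1, g2), ⟨?_, ?_⟩, h1', h2'⟩
    · show g1 • m1.e (S.p1 0) ∈ m1.Reg
      rw [map_zero]; exact h1
    · show g2 • m2.e (S.p2 0) ∈ m2.Reg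
      rw [map_zero]; exact h2

end prod

section split

variable (a b : ℕ)

/-- first block of coordinates -/
def q1 : EuclideanSpace ℝ (Fin (a + b)) →L[ℝ] EuclideanSpace ℝ (Fin a) :=
  LinearMap.toContinuousLinearMap
    { toFun := fun w => WithLp.toLp 2 fun i => w (Fin.castAdd b i)
      map_add' := fun _ _ => rfl
      map_smul' := fun _ _ => rfl }

theorem q1_apply (w : EuclideanSpace ℝ (Fin (a + b))) (i : Fin a) :
    q1 a b w i = w (Fin.castAdd b i) := rfl

/-- second block of coordinates -/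
def q2 : EuclideanSpace ℝ (Fin (a + b)) →L[ℝ] EuclideanSpace ℝ (Fin b) :=
  LinearMap.toContinuousLinearMap
    { toFun := fun w => WithLp.toLp 2 fun i => w (Fin.natAdd a i)
      map_add' := fun _ _ => rfl
      map_smul' := fun _ _ => rfl }

theorem q2_apply (w : EuclideanSpace ℝ (Fin (a + b))) (i : Fin b) :
    q2 a b w i = w (Fin.natAdd a i) := rfl

/-- inclusion of the first block -/
def j1 : EuclideanSpace ℝ (Fin a) →L[ℝ] EuclideanSpace ℝ (Fin (a + b)) :=
  LinearMap.toContinuousLinearMap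
    { toFun := fun w => WithLp.toLp 2 (Fin.append (fun i => w i) (fun _ : Fin b => (0 : ℝ)))
      map_add' := fun u v => by
        ext i
        refine Fin.addCases (fun i => ?_) (fun i => ?_) i <;> simp
      map_smul' := fun c v => by
        ext i
        refine Fin.addCases (fun i => ?_) (fun i => ?_) i <;> simp }

theorem j1_castAdd (w : EuclideanSpace ℝ (Fin a)) (i : Fin a) :
    j1 a b w (Fin.castAdd b i) = w i := by
  show Fin.append (fun i => w i) (fun _ : Fin b => (0 : ℝ)) (Fin.castAdd b i) = w i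
  simp

theorem j1_natAdd (w : EuclideanSpace ℝ (Fin a)) (i : Fin b) :
    j1 a b w (Fin.natAdd a i) = 0 := by
  show Fin.append (fun i => w i) (fun _ : Fin b => (0 : ℝ)) (Fin.natAdd a i) = 0
  simp

/-- inclusion of the second block -/
def j2 : EuclideanSpace ℝ (Fin b) →L[ℝ] EuclideanSpace ℝ (Fin (a + b)) :=
  LinearMap.toContinuousLinearMap
    { toFun := fun w => WithLp.toLp 2 (Fin.append (fun _ : Fin a => (0 : ℝ)) (fun i => w i))
      map_add' := fun u v => by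
        ext i
        refine Fin.addCases (fun i => ?_) (fun i => ?_) i <;> simp
      map_smul' := fun c v => by
        ext i
        refine Fin.addCases (fun i => ?_) (fun i => ?_) i <;> simp }

theorem j2_castAdd (w : EuclideanSpace ℝ (Fin b)) (i : Fin a) :
    j2 a b w (Fin.castAdd b i) = 0 := by
  show Fin.append (fun _ : Fin a => (0 : ℝ)) (fun i => w i) (Fin.castAdd b i) = 0
  simp

theorem j2_natAdd (w : EuclideanSpace ℝ (Fin b)) (i : Fin b) :
    j2 a b w (Fin.natAdd a i) = w i := by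
  show Fin.append (fun _ : Fin a => (0 : ℝ)) (fun i => w i) (Fin.natAdd a i) = w i
  simp

/-- `R^(a+b) = R^a ⊕ R^b` by blocks of coordinates -/
def splitAdd : Split a b (a + b) where
  p1 := q1 a b
  p2 := q2 a b
  i1 := j1 a b
  i2 := j2 a b
  p1_i1 := fun u => by ext i; rw [q1_apply, j1_castAdd]
  p1_i2 := fun u => by ext i; rw [q1_apply, j2_castAdd]; rfl
  p2_i1 := fun u => by ext i; rw [q2_apply, j1_natAdd]; rfl
  p2_i2 := fun u => by ext i; rw [q2_apply, j2_natAdd]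
  dec := fun w => by
    ext i
    refine Fin.addCases (fun i => ?_) (fun i => ?_) i
    · rw [PiLp.add_apply, j1_castAdd, j2_castAdd, q1_apply, add_zero]
    · rw [PiLp.add_apply, j1_natAdd, j2_natAdd, q2_apply, zero_add]
  inner_eq := fun u v => by
    simp only [PiLp.inner_apply]
    rw [Fin.sum_univ_add]
    rfl

end split

/-- `S^2 × S^2` (two unit spheres) as a model space; coordinates `0, 1` and `2, 3`. -/
def mSS : Mdl 4 := prod (splitAdd 2 2) (MS_662.mS 2 le_rfl) (MS_662.mS 2 le_rfl)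


/-- distance of `S^2 × S^2` -/
theorem mSS_d (x y : Metric.sphere (0 : EuclideanSpace ℝ (Fin (2 + 1))) 1 ×
    Metric.sphere (0 : EuclideanSpace ℝ (Fin (2 + 1))) 1) :
    mSS.d x y = √(arccos ⟪x.1.1, y.1.1⟫_ℝ ^ 2 + arccos ⟪x.2.1, y.2.1⟫_ℝ ^ 2) := rfl

/-- the curvature of `S^2 × S^2` -/
theorem mSS_R0 (u v w : EuclideanSpace ℝ (Fin 4)) :
    mSS.R0 u v w = WithLp.toLp 2 ![(v 0 * w 0 + v 1 * w 1) * u 0 - (u 0 * w 0 + u 1 * w 1) * v 0,
      (v 0 * w 0 + v 1 * w 1) * u 1 - (u 0 * w 0 + u 1 * w 1) * v 1,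
      (v 2 * w 2 + v 3 * w 3) * u 2 - (u 2 * w 2 + u 3 * w 3) * v 2,
      (v 2 * w 2 + v 3 * w 3) * u 3 - (u 2 * w 2 + u 3 * w 3) * v 3] := by
  have h : mSS.R0 u v w = j1 2 2 (TrigS_662.R0 (q1 2 2 u) (q1 2 2 v) (q1 2 2 w)) +
      j2 2 2 (TrigS_662.R0 (q2 2 2 u) (q2 2 2 v) (q2 2 2 w)) := rfl
  rw [h]
  have hR : ∀ (x y z : EuclideanSpace ℝ (Fin 2)) (i : Fin 2), TrigS_662.R0 x y z i =
      (y 0 * z 0 + y 1 * z 1) * x i - (x 0 * z 0 + x 1 * z 1) * y i := by
    intro x y z i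
    simp only [TrigS_662.R0, PiLp.sub_apply, PiLp.smul_apply, PiLp.inner_apply, Fin.sum_univ_two,
      smul_eq_mul, RCLike.inner_apply, RCLike.conj_to_real]
    ring
  ext i
  have e0 : (0 : Fin 4) = Fin.castAdd 2 (0 : Fin 2) := rfl
  have e1 : (1 : Fin 4) = Fin.castAdd 2 (1 : Fin 2) := rfl
  have e2 : (2 : Fin 4) = Fin.natAdd 2 (0 : Fin 2) := rfl
  have e3 : (3 : Fin 4) = Fin.natAdd 2 (1 : Fin 2) := rfl
  fin_cases i
  · show (j1 2 2 _ + j2 2 2 _ : EuclideanSpace ℝ (Fin 4)) 0 = _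
    rw [PiLp.add_apply, e0, j1_castAdd, j2_castAdd, hR]
    simp only [q1_apply, add_zero]
    rfl
  · show (j1 2 2 _ + j2 2 2 _ : EuclideanSpace ℝ (Fin 4)) 1 = _
    rw [PiLp.add_apply, e1, j1_castAdd, j2_castAdd, hR]
    simp only [q1_apply, add_zero]
    rfl
  · show (j1 2 2 _ + j2 2 2 _ : EuclideanSpace ℝ (Fin 4)) 2 = _
    rw [PiLp.add_apply, e2, j1_natAdd, j2_natAdd, hR]
    simp only [q2_apply, zero_add]
    rfl
  · show (j1 2 2 _ + j2 2 2 _ : EuclideanSpace ℝ (Fin 4)) 3 = _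
    rw [PiLp.add_apply, e3, j1_natAdd, j2_natAdd, hR]
    simp only [q2_apply, zero_add]
    rfl

end Crest.Agent.R249.MP_662
end
end

-- ▼ part R249/MCPa_48
section

set_option autoImplicit false

open Real Filter Topology Set
open scoped ContDiff

noncomputable section

namespace Crest.Agent.R249.MCPa_48

/-- sum of the power series with coefficients `c` -/
def ps (c : ℕ → ℝ) (x : ℝ) : ℝ := FormalMultilinearSeries.ofScalarsSum c x

theorem ps_eq_of_hasSum {c : ℕ → ℝ} {x a : ℝ} (h : HasSum (fun n => c n * x ^ n) a) : ps c x = a := by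
  unfold ps
  rw [FormalMultilinearSeries.ofScalars_sum_eq]
  simp only [smul_eq_mul]
  exact h.tsum_eq

theorem ofScalars_norm_le' (c : ℕ → ℝ) (n : ℕ) :
    ‖FormalMultilinearSeries.ofScalars ℝ c n‖ = ‖c n‖ :=
  FormalMultilinearSeries.ofScalars_norm ℝ c n

theorem ps_contDiffOn {c : ℕ → ℝ} {r K : ℝ} (hr : 0 < r) (hc : ∀ n, |c n| * r ^ n ≤ K) :
    ContDiffOn ℝ ∞ (ps c) (Metric.ball 0 r) := by
  have h1 : (r.toNNReal : ENNReal) ≤ (FormalMultilinearSeries.ofScalars ℝ c).radius := by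
    refine FormalMultilinearSeries.le_radius_of_bound _ K ?_
    intro n
    rw [ofScalars_norm_le', Real.coe_toNNReal _ hr.le]
    exact hc n
  have hpos : (0 : ENNReal) < (FormalMultilinearSeries.ofScalars ℝ c).radius := by
    refine lt_of_lt_of_le ?_ h1
    rw [ENNReal.coe_pos, Real.toNNReal_pos]
    exact hr
  have h2 := ((FormalMultilinearSeries.ofScalars ℝ c).hasFPowerSeriesOnBall hpos).analyticOnNhd
  have h3 : AnalyticOnNhd ℝ (ps c) (Metric.ball 0 r) := by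
    intro x hx
    refine h2 x ?_
    refine Metric.eball_subset_eball h1 ?_
    rw [Metric.mem_ball] at hx
    rw [Metric.mem_eball, edist_nndist, ENNReal.coe_lt_coe, Real.lt_toNNReal_iff_coe_lt]
    exact hx
  intro x hx
  exact ((h3 x hx).contDiffAt.of_le le_top).contDiffWithinAt

theorem ps_contDiff {c : ℕ → ℝ} (hc : ∀ n, |c n| ≤ 1 / n.factorial) : ContDiff ℝ ∞ (ps c) := by
  rw [contDiff_iff_contDiffAt]
  intro x
  have hr : (0 : ℝ) < |x| + 1 := by positivity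
  have h := ps_contDiffOn (c := c) (r := |x| + 1) (K := Real.exp (|x| + 1)) hr ?_
  · refine h.contDiffAt ?_
    refine Metric.isOpen_ball.mem_nhds ?_
    rw [mem_ball_zero_iff, Real.norm_eq_abs]
    linarith
  · intro n
    calc |c n| * (|x| + 1) ^ n ≤ (1 / n.factorial) * (|x| + 1) ^ n := by
          gcongr
          exact hc n
      _ = (|x| + 1) ^ n / n.factorial := by ring
      _ ≤ Real.exp (|x| + 1) := Real.pow_div_factorial_le_exp _ hr.le _

/-- `cos √s` -/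
def C : ℝ → ℝ := ps (fun n => (-1) ^ n / (2 * n).factorial)
/-- `sin √s / √s` -/
def S : ℝ → ℝ := ps (fun n => (-1) ^ n / (2 * n + 1).factorial)

theorem C_contDiff : ContDiff ℝ ∞ C := by
  refine ps_contDiff fun n => ?_
  rw [abs_div, abs_pow, abs_neg, abs_one, one_pow, abs_of_pos (by positivity)]
  refine one_div_le_one_div_of_le (by positivity) ?_
  exact_mod_cast Nat.factorial_le (by omega)

theorem S_contDiff : ContDiff ℝ ∞ S := by
  refine ps_contDiff fun n => ?_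
  rw [abs_div, abs_pow, abs_neg, abs_one, one_pow, abs_of_pos (by positivity)]
  refine one_div_le_one_div_of_le (by positivity) ?_
  exact_mod_cast Nat.factorial_le (by omega)

theorem C_sq (r : ℝ) : C (r ^ 2) = cos r := by
  refine ps_eq_of_hasSum ?_
  convert Real.hasSum_cos r using 1
  funext n
  rw [← pow_mul]
  ring

theorem S_zero : S 0 = 1 := by
  refine ps_eq_of_hasSum ?_
  convert hasSum_single 0 ?_ using 2
  · simp
  · intro n hn
    simp [hn]

theorem S_sq (r : ℝ) : r * S (r ^ 2) = sin r := by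
  rcases eq_or_ne r 0 with rfl | hr
  · simp
  · have h : S (r ^ 2) = r⁻¹ * sin r := by
      refine ps_eq_of_hasSum ?_
      have h3 := (Real.hasSum_sin r).mul_left r⁻¹
      have h4 : (fun n : ℕ => (-1) ^ n / ((2 * n + 1).factorial : ℝ) * (r ^ 2) ^ n) =
          fun n : ℕ => r⁻¹ * ((-1) ^ n * r ^ (2 * n + 1) / ((2 * n + 1).factorial : ℝ)) := by
        funext n
        rw [← pow_mul, pow_succ r]
        field_simp
      rw [h4]
      exact h3
    rw [h]
    field_simp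

theorem C_zero : C 0 = 1 := by
  have := C_sq 0
  simpa using this

theorem CS (s : ℝ) (hs : 0 ≤ s) : C s ^ 2 + s * S s ^ 2 = 1 := by
  obtain ⟨r, rfl⟩ : ∃ r : ℝ, s = r ^ 2 := ⟨√s, (Real.sq_sqrt hs).symm⟩
  have h := S_sq r
  rw [C_sq]
  have h2 : r ^ 2 * S (r ^ 2) ^ 2 = sin r ^ 2 := by
    rw [← h]
    ring
  rw [h2]
  exact Real.cos_sq_add_sin_sq r

/-- `T = 2 S'` -/
def T (s : ℝ) : ℝ := 2 * deriv S s

theorem T_contDiff : ContDiff ℝ ∞ T := by
  unfold T
  have : ContDiff ℝ ∞ (deriv S) := (contDiff_infty_iff_deriv.1 S_contDiff).2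
  exact contDiff_const.mul this

theorem hasDerivAt_S (s : ℝ) : HasDerivAt S (T s / 2) s := by
  have h : DifferentiableAt ℝ S s := S_contDiff.differentiable (by simp) s
  have h2 := h.hasDerivAt
  have h3 : T s / 2 = deriv S s := by
    unfold T
    ring
  rw [h3]
  exact h2

theorem mul_T (s : ℝ) (hs : 0 ≤ s) : s * T s = C s - S s := by
  rcases hs.eq_or_lt with rfl | hs
  · rw [C_zero, S_zero]
    ring
  · obtain ⟨r, hr, rfl⟩ : ∃ r : ℝ, 0 < r ∧ s = r ^ 2 :=
      ⟨√s, Real.sqrt_pos.2 hs, (Real.sq_sqrt hs.le).symm⟩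
    have h1 : HasDerivAt (fun r : ℝ => r * S (r ^ 2)) (1 * S (r ^ 2) + r * (T (r ^ 2) / 2 * (2 * r))) r := by
      have h2 : HasDerivAt (fun r : ℝ => r ^ 2) (2 * r) r := by
        simpa using hasDerivAt_pow 2 r
      exact (hasDerivAt_id r).mul ((hasDerivAt_S (r ^ 2)).comp r h2)
    have h3 : HasDerivAt (fun r : ℝ => r * S (r ^ 2)) (cos r) r := by
      have : (fun r : ℝ => r * S (r ^ 2)) = sin := by
        funext r
        exact S_sq r
      rw [this]
      exact Real.hasDerivAt_sin r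
    have h4 := h1.unique h3
    rw [C_sq]
    linarith

theorem hasDerivAt_C (s : ℝ) (hs : 0 < s) : HasDerivAt C (-S s / 2) s := by
  obtain ⟨r, hr, rfl⟩ : ∃ r : ℝ, 0 < r ∧ s = r ^ 2 :=
    ⟨√s, Real.sqrt_pos.2 hs, (Real.sq_sqrt hs.le).symm⟩
  have h : DifferentiableAt ℝ C (r ^ 2) := C_contDiff.differentiable (by simp) _
  have h1 : HasDerivAt (fun r : ℝ => C (r ^ 2)) (deriv C (r ^ 2) * (2 * r)) r := by
    have h2 : HasDerivAt (fun r : ℝ => r ^ 2) (2 * r) r := by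
      simpa using hasDerivAt_pow 2 r
    exact HasDerivAt.comp (h := fun r : ℝ => r ^ 2) r h.hasDerivAt h2
  have h3 : HasDerivAt (fun r : ℝ => C (r ^ 2)) (-sin r) r := by
    have : (fun r : ℝ => C (r ^ 2)) = cos := by
      funext r
      exact C_sq r
    rw [this]
    exact Real.hasDerivAt_cos r
  have h4 := h1.unique h3
  have h5 : deriv C (r ^ 2) = -S (r ^ 2) / 2 := by
    have h6 := S_sq r
    rw [← h6] at h4
    have : 2 * r * (deriv C (r ^ 2) - -S (r ^ 2) / 2) = 0 := by linarith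
    rcases mul_eq_zero.1 this with h | h
    · exfalso
      linarith
    · linarith
  rw [← h5]
  exact h.hasDerivAt

/-- `psi (τ ^ 2) = arctan τ / τ` for `τ ≥ 0` -/
def psi (q : ℝ) : ℝ := if q = 0 then 1 else arctan (√q) / √q

theorem psi_sq {t : ℝ} (ht : 0 ≤ t) : psi (t ^ 2) * t = arctan t := by
  unfold psi
  rcases ht.eq_or_lt with rfl | ht
  · simp
  · rw [if_neg (by positivity), Real.sqrt_sq ht.le]
    field_simp

/-- the power series of `psi` -/
def psi0 : ℝ → ℝ := ps (fun n => (-1) ^ n / (2 * n + 1))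

theorem psi0_contDiffOn : ContDiffOn ℝ ∞ psi0 (Metric.ball 0 1) := by
  refine ps_contDiffOn one_pos (K := 1) fun n => ?_
  rw [abs_div, abs_pow, abs_neg, abs_one, one_pow, abs_of_pos (by positivity), mul_one]
  rw [div_le_one (by positivity)]
  have : (0 : ℝ) ≤ n := by positivity
  linarith

theorem psi_eq_psi0 {q : ℝ} (h0 : 0 ≤ q) (h1 : q < 1) : psi q = psi0 q := by
  symm
  rcases h0.eq_or_lt with rfl | hq
  · refine ps_eq_of_hasSum ?_
    unfold psi
    rw [if_pos rfl]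
    convert hasSum_single 0 ?_ using 2
    · simp
    · intro n hn
      simp [hn]
  · unfold psi
    rw [if_neg hq.ne']
    refine ps_eq_of_hasSum ?_
    have hs : 0 < √q := Real.sqrt_pos.2 hq
    have h2 : ‖√q‖ < 1 := by
      rw [Real.norm_eq_abs, abs_of_pos hs]
      rw [Real.sqrt_lt' one_pos]
      linarith
    have h3 := (Real.hasSum_arctan h2).mul_right (√q)⁻¹
    rw [div_eq_mul_inv]
    have h5 : (fun n : ℕ => (-1) ^ n / (2 * (n : ℝ) + 1) * q ^ n) =
        fun n : ℕ => (-1) ^ n * √q ^ (2 * n + 1) / ((2 * n + 1 : ℕ) : ℝ) * (√q)⁻¹ := by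
      funext n
      have h4 : √q ^ (2 * n + 1) = q ^ n * √q := by
        rw [pow_succ, pow_mul, Real.sq_sqrt hq.le]
      rw [h4]
      push_cast
      field_simp
    rw [h5]
    exact h3

/-- smoothness of `psi` composed with a smooth nonnegative function -/
theorem psi_comp {F : Type*} [NormedAddCommGroup F] [NormedSpace ℝ F] {f : F → ℝ} {x : F}
    (hf : ContDiffAt ℝ ∞ f x) (h0 : ∀ᶠ y in 𝓝 x, 0 ≤ f y) :
    ContDiffAt ℝ ∞ (fun y => psi (f y)) x := by
  have hx := h0.self_of_nhds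
  rcases hx.eq_or_lt with hx | hx
  · have h1 : ContDiffAt ℝ ∞ (fun y => psi0 (f y)) x := by
      refine ContDiffAt.comp x ?_ hf
      rw [← hx]
      exact psi0_contDiffOn.contDiffAt (Metric.ball_mem_nhds _ one_pos)
    refine h1.congr_of_eventuallyEq ?_
    have h2 : ∀ᶠ y in 𝓝 x, f y < 1 :=
      hf.continuousAt.eventually_lt continuousAt_const (by rw [← hx]; exact one_pos)
    filter_upwards [h0, h2] with y h3 h4
    exact psi_eq_psi0 h3 h4
  · have h1 : ContDiffAt ℝ ∞ (fun y => arctan (√(f y)) / √(f y)) x := by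
      have hs : ContDiffAt ℝ ∞ (fun y => √(f y)) x := hf.sqrt hx.ne'
      exact (Real.contDiff_arctan.contDiffAt.comp x hs).div hs (Real.sqrt_pos.2 hx).ne'
    refine h1.congr_of_eventuallyEq ?_
    have h2 : ∀ᶠ y in 𝓝 x, 0 < f y :=
      continuousAt_const.eventually_lt hf.continuousAt hx
    filter_upwards [h2] with y h3
    unfold psi
    rw [if_neg h3.ne']

end Crest.Agent.R249.MCPa_48
end
end

-- ▼ part R249/MCPb_48
section

set_option autoImplicit false

open Real Filter Topology Set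
open scoped ContDiff ComplexConjugate

noncomputable section

namespace Crest.Agent.R249.MCPb_48

/-- `ℝ⁴` -/
abbrev E := EuclideanSpace ℝ (Fin 4)
/-- `ℂ³` -/
abbrev V := EuclideanSpace ℂ (Fin 3)

/-- base point -/
def p : V := EuclideanSpace.single 0 1

/-- `ℝ⁴ → ℂ³`, `w ↦ (0, w₀ + i w₁, w₂ + i w₃)` -/
def iotaL : E →ₗ[ℝ] V where
  toFun w := !₂[0, ⟨w 0, w 1⟩, ⟨w 2, w 3⟩]
  map_add' u v := by
    ext i
    fin_cases i <;> simp [Complex.ext_iff]
  map_smul' a v := by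
    ext i
    fin_cases i <;> simp [Complex.ext_iff]

/-- complex structure of `ℝ⁴` -/
def JL : E →ₗ[ℝ] E where
  toFun w := !₂[-w 1, w 0, -w 3, w 2]
  map_add' u v := by
    ext i
    fin_cases i <;> simp <;> ring
  map_smul' a v := by
    ext i
    fin_cases i <;> simp

/-- `ℂ³ → ℝ⁴` -/
def prL : V →ₗ[ℝ] E where
  toFun x := !₂[(x 1).re, (x 1).im, (x 2).re, (x 2).im]
  map_add' u v := by
    ext i
    fin_cases i <;> simp
  map_smul' a v := by
    ext i
    fin_cases i <;> simp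

/-- the continuous linear map -/
def iota : E →L[ℝ] V := LinearMap.toContinuousLinearMap iotaL
/-- the continuous linear map -/
def J : E →L[ℝ] E := LinearMap.toContinuousLinearMap JL
/-- the continuous linear map -/
def pr : V →L[ℝ] E := LinearMap.toContinuousLinearMap prL

theorem iota_apply (w : E) : iota w = !₂[0, ⟨w 0, w 1⟩, ⟨w 2, w 3⟩] := rfl
theorem J_apply (w : E) : J w = !₂[-w 1, w 0, -w 3, w 2] := rfl
theorem pr_apply (x : V) : pr x = !₂[(x 1).re, (x 1).im, (x 2).re, (x 2).im] := rfl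

theorem inner_V (x y : V) : inner ℂ x y = conj (x 0) * y 0 + conj (x 1) * y 1 + conj (x 2) * y 2 := by
  rw [PiLp.inner_apply]
  simp [Fin.sum_univ_three, mul_comm]

theorem inner_E (x y : E) : inner ℝ x y = x 0 * y 0 + x 1 * y 1 + x 2 * y 2 + x 3 * y 3 := by
  rw [PiLp.inner_apply]
  simp [Fin.sum_univ_four, mul_comm]

theorem inner_p (x : V) : inner ℂ p x = x 0 := by
  rw [inner_V]
  simp [p]

theorem norm_p : ‖p‖ = 1 := by
  unfold p
  simp

theorem inner_iota (u v : E) :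
    inner ℂ (iota u) (iota v) = ((inner ℝ u v : ℝ) : ℂ) + ((inner ℝ (J u) v : ℝ) : ℂ) * Complex.I := by
  rw [inner_V, inner_E, inner_E, iota_apply, iota_apply, J_apply]
  apply Complex.ext
  · simp
    ring
  · simp
    ring

theorem inner_p_iota (u : E) : inner ℂ p (iota u) = 0 := by
  rw [inner_p, iota_apply]
  simp

theorem inner_iota_p (u : E) : inner ℂ (iota u) p = 0 := by
  rw [← inner_conj_symm, inner_p_iota, map_zero]

theorem inner_J_self (u : E) : inner ℝ (J u) u = 0 := by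
  rw [inner_E, J_apply]
  simp
  ring

theorem inner_self_J (u : E) : inner ℝ u (J u) = 0 := by
  rw [real_inner_comm, inner_J_self]

theorem inner_J_J (u v : E) : inner ℝ (J u) (J v) = inner ℝ u v := by
  rw [inner_E, inner_E, J_apply, J_apply]
  simp
  ring

theorem inner_J_left (u v : E) : inner ℝ (J u) v = -inner ℝ u (J v) := by
  rw [inner_E, inner_E, J_apply, J_apply]
  simp
  ring


theorem norm_J (u : E) : ‖J u‖ = ‖u‖ := by
  have h := inner_J_J u u
  rw [real_inner_self_eq_norm_sq, real_inner_self_eq_norm_sq] at h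
  exact (sq_eq_sq₀ (norm_nonneg _) (norm_nonneg _)).1 h


theorem iota_J (u : E) : iota (J u) = Complex.I • iota u := by
  ext i
  rw [iota_apply, iota_apply, J_apply]
  fin_cases i <;> simp [Complex.ext_iff]

theorem pr_iota (u : E) : pr (iota u) = u := by
  ext i
  rw [iota_apply, pr_apply]
  fin_cases i <;> simp

theorem pr_p : pr p = 0 := by
  ext i
  rw [pr_apply]
  fin_cases i <;> simp [p]

theorem iota_pr (x : V) : iota (pr x) = x - x 0 • p := by
  ext i
  rw [iota_apply, pr_apply]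
  fin_cases i <;> simp [p]

theorem decomp (x : V) : x = x 0 • p + iota (pr x) := by
  rw [iota_pr]
  abel



end Crest.Agent.R249.MCPb_48
end
end

-- ▼ part R249/MCPc_48
section

set_option autoImplicit false
set_option maxSynthPendingDepth 3

open Real Filter Topology Set
open scoped ContDiff ComplexConjugate
open Crest.Agent.R249.MCPa_48 Crest.Agent.R249.MCPb_48

noncomputable section

namespace Crest.Agent.R249.MCPc_48

/-- exponential map with values in `ℂ³` -/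
def ex (w : E) : V := C (‖w‖ ^ 2) • p + S (‖w‖ ^ 2) • iota w

theorem nsq_contDiff : ContDiff ℝ ∞ (fun w : E => ‖w‖ ^ 2) := contDiff_norm_sq ℝ

theorem ex_contDiff : ContDiff ℝ ∞ ex := by
  unfold ex
  have h1 : ContDiff ℝ ∞ (fun w : E => C (‖w‖ ^ 2)) := C_contDiff.comp nsq_contDiff
  have h2 : ContDiff ℝ ∞ (fun w : E => S (‖w‖ ^ 2)) := S_contDiff.comp nsq_contDiff
  exact (h1.smul contDiff_const).add (h2.smul iota.contDiff)

/-- derivative of `ex` -/
def dex (w : E) : E →L[ℝ] V :=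
  (-S (‖w‖ ^ 2)) • ((innerSL ℝ w).smulRight p) + (T (‖w‖ ^ 2)) • ((innerSL ℝ w).smulRight (iota w))
    + S (‖w‖ ^ 2) • iota

theorem dex_apply (w u : E) : dex w u = (-S (‖w‖ ^ 2) * inner ℝ w u) • p +
    (T (‖w‖ ^ 2) * inner ℝ w u) • iota w + S (‖w‖ ^ 2) • iota u := by
  unfold dex
  simp [smul_smul]

theorem hasFDerivAt_nsq (w : E) : HasFDerivAt (fun w : E => ‖w‖ ^ 2) ((2 : ℝ) • innerSL ℝ w) w := by
  refine (hasStrictFDerivAt_norm_sq w).hasFDerivAt.congr_fderiv ?_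
  ext1 u
  simp

theorem hasFDerivAt_C (w : E) :
    HasFDerivAt (fun w : E => C (‖w‖ ^ 2)) ((-S (‖w‖ ^ 2)) • innerSL ℝ w) w := by
  have hC : DifferentiableAt ℝ C (‖w‖ ^ 2) := C_contDiff.differentiable (by simp) _
  refine (hC.hasDerivAt.comp_hasFDerivAt w (hasFDerivAt_nsq w)).congr_fderiv ?_
  rcases eq_or_ne w 0 with rfl | hw
  · simp
  · have h2 := MCPa_48.hasDerivAt_C (‖w‖ ^ 2) (by positivity)
    rw [h2.deriv, smul_smul]
    congr 1
    ring

theorem hasFDerivAt_S (w : E) :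
    HasFDerivAt (fun w : E => S (‖w‖ ^ 2)) ((T (‖w‖ ^ 2)) • innerSL ℝ w) w := by
  refine ((MCPa_48.hasDerivAt_S (‖w‖ ^ 2)).comp_hasFDerivAt w (hasFDerivAt_nsq w)).congr_fderiv ?_
  rw [smul_smul]
  congr 1
  ring

theorem hasFDerivAt_ex (w : E) : HasFDerivAt ex (dex w) w := by
  have h1 := (hasFDerivAt_C w).smul_const p
  have h2 := (hasFDerivAt_S w).smul iota.hasFDerivAt
  refine (h1.add h2).congr_fderiv ?_
  ext1 u
  rw [dex_apply]
  simp [smul_smul]
  abel

/-- horizontal form -/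
def hor (x ξ η : V) : ℝ := (inner ℂ ξ η - conj (inner ℂ x ξ) * inner ℂ x η).re

theorem hor_add (x ξ η : V) (a b : ℂ) (hx : ‖x‖ = 1) :
    hor x (ξ + a • x) (η + b • x) = hor x ξ η := by
  unfold hor
  congr 1
  have h1 : inner ℂ x x = 1 := by
    rw [inner_self_eq_norm_sq_to_K, hx]
    simp
  have h2 : inner ℂ ξ x = conj (inner ℂ x ξ) := (inner_conj_symm ξ x).symm
  simp only [inner_add_left, inner_add_right, inner_smul_left, inner_smul_right, h1, h2, map_add,
    map_mul, mul_one]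
  ring

theorem hor_smul (x ξ η : V) (a : ℂ) (ha : ‖a‖ = 1) :
    hor (a • x) (a • ξ) (a • η) = hor x ξ η := by
  unfold hor
  congr 1
  have h1 : conj a * a = 1 := by
    rw [mul_comm, Complex.mul_conj, Complex.normSq_eq_norm_sq, ha]
    simp
  simp only [inner_smul_left, inner_smul_right, map_mul, Complex.conj_conj]
  linear_combination (inner ℂ ξ η - conj (inner ℂ x ξ) * inner ℂ x η * (1 + conj a * a)) * h1

theorem hor_map (g : V ≃ₗᵢ[ℂ] V) (x ξ η : V) : hor (g x) (g ξ) (g η) = hor x ξ η := by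
  unfold hor
  simp only [LinearIsometryEquiv.inner_map_map]

/-- the metric in normal coordinates -/
def B (s : ℝ) : ℝ := S s ^ 2 + s * T s ^ 2 + 2 * S s * T s

theorem mul_B (s : ℝ) (hs : 0 ≤ s) : s * B s = 1 - S s ^ 2 := by
  have h1 := mul_T s hs
  have h2 := CS s hs
  unfold B
  have : s * (S s ^ 2 + s * T s ^ 2 + 2 * S s * T s) = s * S s ^ 2 + (s * T s) ^ 2 + 2 * S s * (s * T s) := by
    ring
  rw [this, h1]
  linear_combination h2

/-- the inner product as a bilinear map -/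
def innE : E →L[ℝ] E →L[ℝ] ℝ := LinearMap.toContinuousLinearMap
  { toFun := fun u => innerSL ℝ u
    map_add' := fun u v => by
      ext w
      simp
    map_smul' := fun a v => by
      ext w
      simp }

theorem innE_apply (u v : E) : innE u v = inner ℝ u v := rfl

/-- the metric in normal coordinates -/
def g0 (w : E) : E →L[ℝ] E →L[ℝ] ℝ :=
  (S (‖w‖ ^ 2) ^ 2) • innE + (B (‖w‖ ^ 2)) • ((innE w).smulRight (innE w))
    - (S (‖w‖ ^ 2) ^ 4) • ((innE (J w)).smulRight (innE (J w)))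

theorem g0_apply (w u v : E) : g0 w u v = S (‖w‖ ^ 2) ^ 2 * inner ℝ u v +
    B (‖w‖ ^ 2) * (inner ℝ w u * inner ℝ w v) - S (‖w‖ ^ 2) ^ 4 * (inner ℝ (J w) u * inner ℝ (J w) v) := by
  unfold g0
  simp [innE_apply]

theorem rs (a : ℝ) (x : V) : a • x = (a : ℂ) • x := by
  ext i
  simp

/-- inner product of two combinations -/
theorem inner_comb (a b c a' b' c' : ℝ) (w u v : E) :
    inner ℂ (a • p + b • iota w + c • iota u) (a' • p + b' • iota w + c' • iota v) =
      ((a * a' + b * b' * ‖w‖ ^ 2 + b * c' * inner ℝ w v + c * b' * inner ℝ w u +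
        c * c' * inner ℝ u v : ℝ) : ℂ) +
      ((b * c' * inner ℝ (J w) v - c * b' * inner ℝ (J w) u + c * c' * inner ℝ (J u) v : ℝ) : ℂ)
        * Complex.I := by
  have h1 : inner ℂ p p = 1 := by
    rw [inner_self_eq_norm_sq_to_K, norm_p]
    simp
  have h2 : inner ℝ w w = ‖w‖ ^ 2 := real_inner_self_eq_norm_sq w
  have h3 : inner ℝ (J u) w = -inner ℝ (J w) u := by
    rw [inner_J_left, real_inner_comm]
  have h4 : inner ℝ u w = inner ℝ w u := real_inner_comm w u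
  simp only [rs, inner_add_left, inner_add_right, inner_smul_left, inner_smul_right, inner_p_iota,
    inner_iota_p, inner_iota, h1, inner_J_self, Complex.conj_ofReal, h2, h3, h4]
  push_cast
  ring

theorem ex_eq (w : E) : ex w = C (‖w‖ ^ 2) • p + S (‖w‖ ^ 2) • iota w + (0 : ℝ) • iota 0 := by
  unfold ex
  simp

theorem norm_ex (w : E) : ‖ex w‖ = 1 := by
  have h : ‖ex w‖ ^ 2 = 1 := by
    have h1 : (inner ℂ (ex w) (ex w)).re = ‖ex w‖ ^ 2 := by
      rw [inner_self_eq_norm_sq_to_K]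
      simp [← Complex.ofReal_pow]
    rw [← h1]
    nth_rw 1 [ex_eq]
    rw [ex_eq, inner_comb]
    have h2 := CS (‖w‖ ^ 2) (by positivity)
    simp [← Complex.ofReal_pow]
    linarith
  have h0 := norm_nonneg (ex w)
  nlinarith

theorem inner_ex_dex (w v : E) : inner ℂ (ex w) (dex w v) =
    ((S (‖w‖ ^ 2) ^ 2 * inner ℝ (J w) v : ℝ) : ℂ) * Complex.I := by
  rw [ex_eq, dex_apply, inner_comb]
  have h1 := mul_T (‖w‖ ^ 2) (by positivity)
  have aux : ∀ a b c : ℝ, a = 0 → b = c → (a : ℂ) + (b : ℂ) * Complex.I = (c : ℂ) * Complex.I := by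
    rintro a b c rfl rfl
    simp
  refine aux _ _ _ ?_ ?_
  · simp only [map_zero, inner_zero_left, zero_mul, mul_zero, add_zero]
    linear_combination S (‖w‖ ^ 2) * inner ℝ w v * h1
  · simp only [map_zero, inner_zero_left, zero_mul, mul_zero, add_zero]
    ring

theorem hor_dex (w u v : E) : hor (ex w) (dex w u) (dex w v) = g0 w u v := by
  have aux : ∀ a b c d : ℝ, ((a : ℂ) + (b : ℂ) * Complex.I -
      conj ((c : ℂ) * Complex.I) * ((d : ℂ) * Complex.I)).re = a - c * d := by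
    intro a b c d
    simp
    ring
  unfold hor
  rw [inner_ex_dex, inner_ex_dex, dex_apply, dex_apply, inner_comb, g0_apply, aux]
  unfold B
  ring

theorem B_contDiff : ContDiff ℝ ∞ B := by
  unfold B
  exact ((S_contDiff.pow 2).add (contDiff_id.mul (T_contDiff.pow 2))).add
    ((contDiff_const.mul S_contDiff).mul T_contDiff)

theorem g0_contDiff : ContDiff ℝ ∞ g0 := by
  unfold g0
  have h1 : ContDiff ℝ ∞ (fun w : E => S (‖w‖ ^ 2)) := S_contDiff.comp nsq_contDiff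
  have h2 : ContDiff ℝ ∞ (fun w : E => B (‖w‖ ^ 2)) := B_contDiff.comp nsq_contDiff
  have h3 : ContDiff ℝ ∞ (fun w : E => (innE w).smulRight (innE w)) :=
    innE.contDiff.smulRight innE.contDiff
  have h4 : ContDiff ℝ ∞ (fun w : E => (innE (J w)).smulRight (innE (J w))) :=
    (innE.contDiff.comp J.contDiff).smulRight (innE.contDiff.comp J.contDiff)
  exact (((h1.pow 2).smul contDiff_const).add (h2.smul h3)).sub ((h1.pow 4).smul h4)

theorem g0_symm (w u v : E) : g0 w u v = g0 w v u := by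
  rw [g0_apply, g0_apply, real_inner_comm u v]
  ring

/-- orthogonal part -/
def orth (v u : E) : E := u - (inner ℝ u v / ‖v‖ ^ 2) • v - (inner ℝ u (J v) / ‖v‖ ^ 2) • J v

theorem orth_v {v : E} (hv : v ≠ 0) (u : E) : inner ℝ (orth v u) v = 0 := by
  have h : ‖v‖ ^ 2 ≠ 0 := by positivity
  unfold orth
  rw [inner_sub_left, inner_sub_left, real_inner_smul_left, real_inner_smul_left, inner_J_self,
    real_inner_self_eq_norm_sq]
  field_simp
  ring

theorem orth_Jv {v : E} (hv : v ≠ 0) (u : E) : inner ℝ (orth v u) (J v) = 0 := by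
  have h : ‖v‖ ^ 2 ≠ 0 := by positivity
  unfold orth
  rw [inner_sub_left, inner_sub_left, real_inner_smul_left, real_inner_smul_left, inner_J_J,
    real_inner_self_eq_norm_sq, inner_self_J]
  field_simp
  ring

theorem orth_add {v : E} (u : E) :
    u = (inner ℝ u v / ‖v‖ ^ 2) • v + (inner ℝ u (J v) / ‖v‖ ^ 2) • J v + orth v u := by
  unfold orth
  abel

theorem inner_orth {v : E} (hv : v ≠ 0) (u u' : E) : inner ℝ (orth v u) (orth v u') =
    inner ℝ u u' - inner ℝ u v * inner ℝ u' v / ‖v‖ ^ 2 - inner ℝ u (J v) * inner ℝ u' (J v) / ‖v‖ ^ 2 := by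
  have h : ‖v‖ ^ 2 ≠ 0 := by positivity
  conv_lhs => rw [orth]
  rw [inner_sub_left, inner_sub_left, real_inner_smul_left, real_inner_smul_left,
    real_inner_comm (orth v u') v, real_inner_comm (orth v u') (J v), orth_v hv, orth_Jv hv]
  unfold orth
  rw [inner_sub_right, inner_sub_right, real_inner_smul_right, real_inner_smul_right]
  ring

theorem bessel {v : E} (hv : v ≠ 0) (u : E) :
    ‖orth v u‖ ^ 2 = ‖u‖ ^ 2 - inner ℝ u v ^ 2 / ‖v‖ ^ 2 - inner ℝ u (J v) ^ 2 / ‖v‖ ^ 2 := by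
  rw [← real_inner_self_eq_norm_sq, inner_orth hv, real_inner_self_eq_norm_sq]
  ring

theorem g0_pos {w : E} (hw : ‖w‖ < π / 2) {u : E} (hu : u ≠ 0) : 0 < g0 w u u := by
  rcases eq_or_ne w 0 with rfl | h0
  · rw [g0_apply]
    simp only [norm_zero, inner_zero_left, map_zero, mul_zero, add_zero, sub_zero]
    have : (0 : ℝ) ^ 2 = 0 := by norm_num
    rw [this, S_zero, real_inner_self_eq_norm_sq]
    positivity
  · have hr : 0 < ‖w‖ := by positivity
    have hs : 0 < ‖w‖ ^ 2 := by positivity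
    have h1 := mul_B (‖w‖ ^ 2) hs.le
    have h2 := CS (‖w‖ ^ 2) hs.le
    have hS : 0 < S (‖w‖ ^ 2) := by
      have h3 := S_sq ‖w‖
      have h4 : 0 < sin ‖w‖ := Real.sin_pos_of_pos_of_lt_pi hr (by linarith [Real.pi_pos])
      rw [← h3] at h4
      exact (pos_iff_pos_of_mul_pos h4).1 hr
    have hC : 0 < C (‖w‖ ^ 2) := by
      rw [C_sq]
      exact Real.cos_pos_of_mem_Ioo ⟨by linarith [Real.pi_pos], hw⟩
    have hb := bessel h0 u
    have hb0 : 0 ≤ ‖orth w u‖ ^ 2 := by positivity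
    have key : ‖w‖ ^ 2 * g0 w u u = S (‖w‖ ^ 2) ^ 2 * ‖w‖ ^ 2 * ‖orth w u‖ ^ 2 +
        inner ℝ u w ^ 2 + S (‖w‖ ^ 2) ^ 2 * C (‖w‖ ^ 2) ^ 2 * inner ℝ u (J w) ^ 2 := by
      rw [g0_apply, hb, real_inner_self_eq_norm_sq, real_inner_comm u w, real_inner_comm u (J w)]
      field_simp
      linear_combination (inner ℝ u w) ^ 2 * h1 -
        S (‖w‖ ^ 2) ^ 2 * inner ℝ u (J w) ^ 2 * h2
    have hpos : 0 < ‖w‖ ^ 2 * g0 w u u := by
      rw [key]
      by_cases hO : orth w u = 0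
      · by_cases ha : inner ℝ u w = 0
        · have hJ : inner ℝ u (J w) ≠ 0 := by
            intro hJ
            apply hu
            rw [orth_add (v := w) u, hO, ha, hJ]
            simp
          have : 0 < S (‖w‖ ^ 2) ^ 2 * C (‖w‖ ^ 2) ^ 2 * inner ℝ u (J w) ^ 2 := by positivity
          positivity
        · have : 0 < inner ℝ u w ^ 2 := by positivity
          positivity
      · have : 0 < ‖orth w u‖ := by positivity
        positivity
    exact (pos_iff_pos_of_mul_pos hpos).1 hs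

/-- Jacobi fields -/
def Jac (v u : E) (t : ℝ) : E := if v = 0 then t • u else
  (t * (inner ℝ u v / ‖v‖ ^ 2)) • v + (sin (2 * ‖v‖ * t) / (2 * ‖v‖) * (inner ℝ u (J v) / ‖v‖ ^ 2)) • J v
    + (sin (‖v‖ * t) / ‖v‖) • orth v u

/-- derivative of Jacobi fields -/
def Jac' (v u : E) (t : ℝ) : E := if v = 0 then u else
  (inner ℝ u v / ‖v‖ ^ 2) • v + (cos (2 * ‖v‖ * t) * (inner ℝ u (J v) / ‖v‖ ^ 2)) • J v
    + (cos (‖v‖ * t)) • orth v u

/-- curvature at the base point -/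
def R0 (u v w : E) : E := (inner ℝ v w) • u - (inner ℝ u w) • v + (inner ℝ (J v) w) • J u
  - (inner ℝ (J u) w) • J v + (2 * inner ℝ u (J v)) • J w

theorem Jac_zero (v u : E) : Jac v u 0 = 0 := by
  unfold Jac
  split_ifs <;> simp

theorem Jac'_zero (v u : E) : Jac' v u 0 = u := by
  unfold Jac'
  split_ifs
  · rfl
  · conv_rhs => rw [orth_add (v := v) u]
    simp

theorem Jac_deriv (v u : E) (t : ℝ) : HasDerivAt (Jac v u) (Jac' v u t) t := by
  by_cases hv : v = 0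
  · have h1 : Jac v u = fun t => t • u := by
      funext t
      simp [Jac, hv]
    have h2 : Jac' v u t = (1 : ℝ) • u := by simp [Jac', hv]
    rw [h1, h2]
    exact (hasDerivAt_id t).smul_const u
  · have hr : ‖v‖ ≠ 0 := by positivity
    have h1 : Jac v u = fun t => (t * (inner ℝ u v / ‖v‖ ^ 2)) • v +
        (sin (2 * ‖v‖ * t) / (2 * ‖v‖) * (inner ℝ u (J v) / ‖v‖ ^ 2)) • J v
        + (sin (‖v‖ * t) / ‖v‖) • orth v u := by
      funext t
      simp [Jac, hv]
    have h2 : Jac' v u t = (inner ℝ u v / ‖v‖ ^ 2) • v +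
        (cos (2 * ‖v‖ * t) * (inner ℝ u (J v) / ‖v‖ ^ 2)) • J v + (cos (‖v‖ * t)) • orth v u := by
      simp [Jac', hv]
    rw [h1, h2]
    have a1 : HasDerivAt (fun t : ℝ => t * (inner ℝ u v / ‖v‖ ^ 2)) (inner ℝ u v / ‖v‖ ^ 2) t := by
      simpa using (hasDerivAt_id t).mul_const (inner ℝ u v / ‖v‖ ^ 2)
    have a2 : HasDerivAt (fun t : ℝ => sin (2 * ‖v‖ * t) / (2 * ‖v‖) * (inner ℝ u (J v) / ‖v‖ ^ 2))
        (cos (2 * ‖v‖ * t) * (inner ℝ u (J v) / ‖v‖ ^ 2)) t := by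
      have b : HasDerivAt (fun t : ℝ => 2 * ‖v‖ * t) (2 * ‖v‖) t := by
        simpa using (hasDerivAt_id t).const_mul (2 * ‖v‖)
      have c := ((b.sin).div_const (2 * ‖v‖)).mul_const (inner ℝ u (J v) / ‖v‖ ^ 2)
      refine c.congr_deriv ?_
      field_simp
    have a3 : HasDerivAt (fun t : ℝ => sin (‖v‖ * t) / ‖v‖) (cos (‖v‖ * t)) t := by
      have b : HasDerivAt (fun t : ℝ => ‖v‖ * t) ‖v‖ t := by
        simpa using (hasDerivAt_id t).const_mul ‖v‖
      have c := (b.sin).div_const ‖v‖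
      refine c.congr_deriv ?_
      field_simp
    exact ((a1.smul_const v).add (a2.smul_const (J v))).add (a3.smul_const (orth v u))

theorem R0_v (X v : E) : R0 X v v = (‖v‖ ^ 2) • X - (inner ℝ X v) • v + (3 * inner ℝ X (J v)) • J v := by
  unfold R0
  rw [inner_J_self, real_inner_self_eq_norm_sq, inner_J_left]
  module

theorem Jac'_deriv (v u : E) (t : ℝ) : HasDerivAt (Jac' v u) (-R0 (Jac v u t) v v) t := by
  by_cases hv : v = 0
  · have h1 : Jac' v u = fun t => u := by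
      funext t
      simp [Jac', hv]
    have h2 : -R0 (Jac v u t) v v = 0 := by
      rw [R0_v, hv]
      simp
    rw [h1, h2]
    exact hasDerivAt_const t u
  · have hr : ‖v‖ ≠ 0 := by positivity
    have h1 : Jac' v u = fun t => (inner ℝ u v / ‖v‖ ^ 2) • v +
        (cos (2 * ‖v‖ * t) * (inner ℝ u (J v) / ‖v‖ ^ 2)) • J v + (cos (‖v‖ * t)) • orth v u := by
      funext t
      simp [Jac', hv]
    have h2 : Jac v u t = (t * (inner ℝ u v / ‖v‖ ^ 2)) • v +
        (sin (2 * ‖v‖ * t) / (2 * ‖v‖) * (inner ℝ u (J v) / ‖v‖ ^ 2)) • J v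
        + (sin (‖v‖ * t) / ‖v‖) • orth v u := by
      simp [Jac, hv]
    have h3 : -R0 (Jac v u t) v v = (0 : ℝ) • v +
        (-(2 * ‖v‖) * sin (2 * ‖v‖ * t) * (inner ℝ u (J v) / ‖v‖ ^ 2)) • J v +
        (-‖v‖ * sin (‖v‖ * t)) • orth v u := by
      have c1 : inner ℝ (Jac v u t) v = t * (inner ℝ u v / ‖v‖ ^ 2) * ‖v‖ ^ 2 := by
        rw [h2, inner_add_left, inner_add_left, real_inner_smul_left, real_inner_smul_left,
          real_inner_smul_left, orth_v hv, inner_J_self, real_inner_self_eq_norm_sq]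
        ring
      have c2 : inner ℝ (Jac v u t) (J v) =
          sin (2 * ‖v‖ * t) / (2 * ‖v‖) * (inner ℝ u (J v) / ‖v‖ ^ 2) * ‖v‖ ^ 2 := by
        rw [h2, inner_add_left, inner_add_left, real_inner_smul_left, real_inner_smul_left,
          real_inner_smul_left, orth_Jv hv, inner_self_J, inner_J_J,
          real_inner_self_eq_norm_sq]
        ring
      rw [R0_v, c1, c2, h2]
      have d1 : (‖v‖ ^ 2) • ((t * (inner ℝ u v / ‖v‖ ^ 2)) • v +
        (sin (2 * ‖v‖ * t) / (2 * ‖v‖) * (inner ℝ u (J v) / ‖v‖ ^ 2)) • J v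
        + (sin (‖v‖ * t) / ‖v‖) • orth v u) = (t * (inner ℝ u v / ‖v‖ ^ 2) * ‖v‖ ^ 2) • v +
          (sin (2 * ‖v‖ * t) / (2 * ‖v‖) * (inner ℝ u (J v) / ‖v‖ ^ 2) * ‖v‖ ^ 2) • J v +
          (‖v‖ * sin (‖v‖ * t)) • orth v u := by
        rw [smul_add, smul_add, smul_smul, smul_smul, smul_smul]
        congr 1
        · congr 1
          · congr 1
            ring
          · congr 1
            ring
        · congr 1
          field_simp
      rw [d1]
      have d2 : -(2 * ‖v‖) * sin (2 * ‖v‖ * t) * (inner ℝ u (J v) / ‖v‖ ^ 2) =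
          -(4 * (sin (2 * ‖v‖ * t) / (2 * ‖v‖) * (inner ℝ u (J v) / ‖v‖ ^ 2) * ‖v‖ ^ 2)) := by
        field_simp
        ring
      rw [d2]
      module
    rw [h1, h3]
    have a1 : HasDerivAt (fun t : ℝ => (inner ℝ u v / ‖v‖ ^ 2)) 0 t := hasDerivAt_const _ _
    have a2 : HasDerivAt (fun t : ℝ => cos (2 * ‖v‖ * t) * (inner ℝ u (J v) / ‖v‖ ^ 2))
        (-(2 * ‖v‖) * sin (2 * ‖v‖ * t) * (inner ℝ u (J v) / ‖v‖ ^ 2)) t := by
      have b : HasDerivAt (fun t : ℝ => 2 * ‖v‖ * t) (2 * ‖v‖) t := by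
        simpa using (hasDerivAt_id t).const_mul (2 * ‖v‖)
      have c := (b.cos).mul_const (inner ℝ u (J v) / ‖v‖ ^ 2)
      refine c.congr_deriv ?_
      ring
    have a3 : HasDerivAt (fun t : ℝ => cos (‖v‖ * t)) (-‖v‖ * sin (‖v‖ * t)) t := by
      have b : HasDerivAt (fun t : ℝ => ‖v‖ * t) ‖v‖ t := by
        simpa using (hasDerivAt_id t).const_mul ‖v‖
      refine (b.cos).congr_deriv ?_
      ring
    exact ((a1.smul_const v).add (a2.smul_const (J v))).add (a3.smul_const (orth v u))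

theorem Jac_g0 (v u u' : E) : g0 v u u' = inner ℝ (Jac v u 1) (Jac v u' 1) := by
  by_cases hv : v = 0
  · rw [g0_apply]
    simp only [Jac, hv, norm_zero, inner_zero_left, map_zero, mul_zero, add_zero, sub_zero, if_true,
      one_smul]
    have : (0 : ℝ) ^ 2 = 0 := by norm_num
    rw [this, S_zero]
    ring
  · have hr : ‖v‖ ≠ 0 := by positivity
    have hs : 0 < ‖v‖ ^ 2 := by positivity
    have h1 := mul_B (‖v‖ ^ 2) hs.le
    have h2 := CS (‖v‖ ^ 2) hs.le
    have h3 := S_sq ‖v‖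
    have e1 : ∀ u, Jac v u 1 = (inner ℝ u v / ‖v‖ ^ 2) • v +
        (S (‖v‖ ^ 2) * C (‖v‖ ^ 2) * (inner ℝ u (J v) / ‖v‖ ^ 2)) • J v
        + S (‖v‖ ^ 2) • orth v u := by
      intro u
      simp only [Jac, hv, if_false, mul_one, one_mul, Real.sin_two_mul]
      rw [← h3, C_sq]
      congr 3
      · field_simp
      · field_simp
    have o1 : ∀ u, inner ℝ v (orth v u) = 0 := fun u => by
      rw [real_inner_comm, orth_v hv]
    have o2 : ∀ u, inner ℝ (J v) (orth v u) = 0 := fun u => by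
      rw [real_inner_comm, orth_Jv hv]
    rw [e1, e1]
    simp only [inner_add_left, inner_add_right, real_inner_smul_left, real_inner_smul_right, orth_v hv,
      orth_Jv hv, o1, o2, inner_self_J, inner_J_self, inner_orth hv, real_inner_self_eq_norm_sq, norm_J]
    rw [g0_apply, real_inner_comm u v, real_inner_comm u' v, real_inner_comm u (J v),
      real_inner_comm u' (J v)]
    field_simp
    linear_combination ‖v‖ ^ 2 * inner ℝ u v * inner ℝ u' v * h1 -
      ‖v‖ ^ 2 * S (‖v‖ ^ 2) ^ 2 * inner ℝ u (J v) * inner ℝ u' (J v) * h2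

end Crest.Agent.R249.MCPc_48
end
end

-- ▼ part R249/MCPd_48
section

set_option autoImplicit false
set_option maxSynthPendingDepth 3

open Real Filter Topology Set
open scoped ContDiff ComplexConjugate
open Crest.Agent.R249.MCPa_48 Crest.Agent.R249.MCPb_48 Crest.Agent.R249.MCPc_48

noncomputable section

namespace Crest.Agent.R249.MCPd_48

/-- Fubini-Study distance -/
def dV (x y : V) : ℝ := arccos ‖inner ℂ x y‖

theorem exists_phase (z : ℂ) : ∃ a : ℂ, ‖a‖ = 1 ∧ conj a * z = (‖z‖ : ℂ) := by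
  rcases eq_or_ne z 0 with rfl | hz
  · exact ⟨1, by simp, by simp⟩
  · have h : (‖z‖ : ℂ) ≠ 0 := by simpa using hz
    refine ⟨z / ‖z‖, ?_, ?_⟩
    · rw [norm_div, Complex.norm_real, norm_norm]
      exact div_self (by simpa using hz)
    · rw [map_div₀, Complex.conj_ofReal, div_mul_eq_mul_div, mul_comm, Complex.mul_conj,
        Complex.normSq_eq_norm_sq]
      push_cast
      field_simp

theorem norm_inner_le {x y : V} (hx : ‖x‖ = 1) (hy : ‖y‖ = 1) : ‖inner ℂ x y‖ ≤ 1 := by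
  have := norm_inner_le_norm (𝕜 := ℂ) x y
  rwa [hx, hy, one_mul] at this

theorem cos_dV {x y : V} (hx : ‖x‖ = 1) (hy : ‖y‖ = 1) : cos (dV x y) = ‖inner ℂ x y‖ :=
  Real.cos_arccos (by linarith [norm_nonneg (inner ℂ x y)]) (norm_inner_le hx hy)

theorem dV_symm (x y : V) : dV x y = dV y x := by
  unfold dV
  rw [norm_inner_symm]

theorem dV_smul {a : ℂ} (ha : ‖a‖ = 1) (x y : V) : dV (a • x) y = dV x y := by
  unfold dV
  rw [inner_smul_left, norm_mul, RCLike.norm_conj, ha, one_mul]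

theorem dV_smul' {a : ℂ} (ha : ‖a‖ = 1) (x y : V) : dV x (a • y) = dV x y := by
  rw [dV_symm, dV_smul ha, dV_symm]

theorem inner_self_one {x : V} (hx : ‖x‖ = 1) : inner ℂ x x = 1 := by
  rw [inner_self_eq_norm_sq_to_K, hx]
  simp

theorem dV_self {x : V} (hx : ‖x‖ = 1) : dV x x = 0 := by
  unfold dV
  rw [inner_self_one hx]
  simp

theorem dV_nonneg (x y : V) : 0 ≤ dV x y := Real.arccos_nonneg _

theorem dV_eq_zero {x y : V} (hx : ‖x‖ = 1) (hy : ‖y‖ = 1) (h : dV x y = 0) :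
    ∃ a : ℂ, ‖a‖ = 1 ∧ y = a • x := by
  have h1 : ‖inner ℂ x y‖ = 1 := by
    rw [← cos_dV hx hy, h, Real.cos_zero]
  refine ⟨inner ℂ x y, h1, ?_⟩
  rw [← sub_eq_zero, ← inner_self_eq_zero (𝕜 := ℂ)]
  simp only [inner_sub_left, inner_sub_right, inner_smul_left, inner_smul_right, inner_self_one hx,
    inner_self_one hy]
  have h2 : inner ℂ y x = conj (inner ℂ x y) := (inner_conj_symm y x).symm
  have h3 : inner ℂ x y * conj (inner ℂ x y) = 1 := by
    rw [Complex.mul_conj, Complex.normSq_eq_norm_sq, h1]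
    simp
  rw [h2]
  linear_combination -h3

theorem angle_eq {x y : V} (hx : ‖x‖ = 1) (hy : ‖y‖ = 1) :
    InnerProductGeometry.angle x y = arccos (inner ℂ x y).re := by
  unfold InnerProductGeometry.angle
  rw [hx, hy, mul_one, div_one]
  rfl

theorem dV_tri {x y z : V} (hx : ‖x‖ = 1) (hy : ‖y‖ = 1) (hz : ‖z‖ = 1) :
    dV x z ≤ dV x y + dV y z := by
  obtain ⟨a, ha, ha2⟩ := exists_phase (inner ℂ x y)
  obtain ⟨b, hb, hb2⟩ := exists_phase (conj (inner ℂ y z))
  have hb3 : b * inner ℂ y z = (‖inner ℂ y z‖ : ℂ) := by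
    have := congrArg conj hb2
    rw [map_mul, Complex.conj_conj, Complex.conj_conj, Complex.conj_ofReal, RCLike.norm_conj] at this
    exact this
  have hx' : ‖a • x‖ = 1 := by rw [norm_smul, ha, hx, one_mul]
  have hz' : ‖b • z‖ = 1 := by rw [norm_smul, hb, hz, one_mul]
  have h1 : InnerProductGeometry.angle (a • x) y = dV x y := by
    rw [angle_eq hx' hy, inner_smul_left, ha2]
    simp [dV]
  have h2 : InnerProductGeometry.angle y (b • z) = dV y z := by
    rw [angle_eq hy hz', inner_smul_right, hb3]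
    simp [dV]
  have h3 : dV x z = dV (a • x) (b • z) := by rw [dV_smul ha, dV_smul' hb]
  rw [h3, ← h1, ← h2]
  refine le_trans ?_ (InnerProductGeometry.angle_le_angle_add_angle (a • x) y (b • z))
  rw [angle_eq hx' hz']
  exact Real.arccos_le_arccos (Complex.re_le_norm _)

theorem dV_map (g : V ≃ₗᵢ[ℂ] V) (x y : V) : dV (g x) (g y) = dV x y := by
  unfold dV
  rw [LinearIsometryEquiv.inner_map_map]

/-- approximate phase: a representative of `y` close to `x` -/
theorem exists_close {x y : V} (hx : ‖x‖ = 1) (hy : ‖y‖ = 1) :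
    ∃ a : ℂ, ‖a‖ = 1 ∧ ‖a • y - x‖ ≤ dV x y := by
  obtain ⟨b, hb, hb2⟩ := exists_phase (conj (inner ℂ x y))
  have hb3 : b * inner ℂ x y = (‖inner ℂ x y‖ : ℂ) := by
    have := congrArg conj hb2
    rw [map_mul, Complex.conj_conj, Complex.conj_conj, Complex.conj_ofReal, RCLike.norm_conj] at this
    exact this
  refine ⟨b, hb, ?_⟩
  have hy' : ‖b • y‖ = 1 := by rw [norm_smul, hb, hy, one_mul]
  have h1 : ‖b • y - x‖ ^ 2 = 2 - 2 * ‖inner ℂ x y‖ := by
    have h2 := norm_sub_sq (𝕜 := ℂ) x (b • y)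
    rw [hx, hy', inner_smul_right, hb3] at h2
    rw [norm_sub_rev, h2]
    simp
    ring
  have h2 := Real.one_sub_sq_div_two_le_cos (x := dV x y)
  rw [cos_dV hx hy] at h2
  have h3 : ‖b • y - x‖ ^ 2 ≤ dV x y ^ 2 := by
    rw [h1]
    linarith
  exact (sq_le_sq₀ (norm_nonneg _) (dV_nonneg x y)).1 h3

/-- affine coordinate -/
def zt (x : V) : E := pr ((x 0)⁻¹ • x)

/-- logarithm -/
def lgV (x : V) : E := psi (‖zt x‖ ^ 2) • zt x

theorem zt_smul {a : ℂ} (ha : a ≠ 0) (x : V) : zt (a • x) = zt x := by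
  unfold zt
  congr 1
  rw [smul_smul]
  congr 1
  simp only [PiLp.smul_apply, smul_eq_mul, mul_inv]
  rcases eq_or_ne (x 0) 0 with h | h
  · rw [h]
    simp
  · field_simp

theorem lgV_smul {a : ℂ} (ha : a ≠ 0) (x : V) : lgV (a • x) = lgV x := by
  unfold lgV
  rw [zt_smul ha]

theorem psi_nonneg (q : ℝ) : 0 ≤ psi q := by
  unfold psi
  split_ifs
  · exact zero_le_one
  · have h := Real.sqrt_nonneg q
    have h2 : 0 ≤ arctan (√q) := by
      rw [← Real.arctan_zero]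
      exact Real.arctan_strictMono.monotone h
    positivity

theorem norm_lgV (x : V) : ‖lgV x‖ = arctan ‖zt x‖ := by
  unfold lgV
  rw [norm_smul, Real.norm_of_nonneg (psi_nonneg _), psi_sq (norm_nonneg _)]

theorem norm_lgV_lt (x : V) : ‖lgV x‖ < π / 2 := by
  rw [norm_lgV]
  exact Real.arctan_lt_pi_div_two _

theorem ex_zero_coord (w : E) : (ex w) 0 = (C (‖w‖ ^ 2) : ℂ) := by
  have h := inner_p (ex w)
  rw [← h]
  unfold ex
  rw [inner_add_right, rs, rs, inner_smul_right, inner_smul_right, inner_p_iota,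
    inner_self_one norm_p]
  simp

theorem C_pos {w : E} (hw : ‖w‖ < π / 2) : 0 < C (‖w‖ ^ 2) := by
  rw [C_sq]
  exact Real.cos_pos_of_mem_Ioo ⟨by linarith [Real.pi_pos, norm_nonneg w], hw⟩

theorem pr_ex (w : E) : pr (ex w) = S (‖w‖ ^ 2) • w := by
  unfold ex
  rw [map_add, map_smul, map_smul, pr_p, pr_iota]
  simp

theorem lgV_ex {w : E} (hw : ‖w‖ < π / 2) : lgV (ex w) = w := by
  have hC := C_pos hw
  have h1 : zt (ex w) = (S (‖w‖ ^ 2) / C (‖w‖ ^ 2)) • w := by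
    unfold zt
    rw [ex_zero_coord, ← Complex.ofReal_inv, ← rs, map_smul, pr_ex, smul_smul]
    congr 1
    field_simp
  unfold lgV
  rw [h1]
  rcases eq_or_ne w 0 with rfl | hw0
  · simp
  · have hr : 0 < ‖w‖ := by positivity
    have hS : 0 < S (‖w‖ ^ 2) := by
      have h3 := S_sq ‖w‖
      have h4 : 0 < sin ‖w‖ := Real.sin_pos_of_pos_of_lt_pi hr (by linarith [Real.pi_pos])
      rw [← h3] at h4
      exact (pos_iff_pos_of_mul_pos h4).1 hr
    have hq : 0 < S (‖w‖ ^ 2) / C (‖w‖ ^ 2) := by positivity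
    have h2 : ‖(S (‖w‖ ^ 2) / C (‖w‖ ^ 2)) • w‖ = tan ‖w‖ := by
      rw [norm_smul, Real.norm_of_nonneg hq.le, Real.tan_eq_sin_div_cos, ← S_sq, ← C_sq]
      ring
    rw [h2, smul_smul]
    have ht : 0 ≤ tan ‖w‖ := by
      rw [← h2]
      positivity
    have h3 := psi_sq ht
    rw [Real.arctan_tan (by linarith [Real.pi_pos]) hw] at h3
    have h4 : psi (tan ‖w‖ ^ 2) * (S (‖w‖ ^ 2) / C (‖w‖ ^ 2)) = 1 := by
      have h5 : tan ‖w‖ = S (‖w‖ ^ 2) / C (‖w‖ ^ 2) * ‖w‖ := by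
        rw [Real.tan_eq_sin_div_cos, ← S_sq, ← C_sq]
        ring
      have h6 : (psi (tan ‖w‖ ^ 2) * (S (‖w‖ ^ 2) / C (‖w‖ ^ 2))) * ‖w‖ = 1 * ‖w‖ := by
        rw [one_mul, mul_assoc, ← h5, h3]
      exact mul_right_cancel₀ hr.ne' h6
    rw [h4, one_smul]

theorem ex_lgV {x : V} (h0 : x 0 ≠ 0) :
    ex (lgV x) = ((cos (arctan ‖zt x‖) : ℂ) * (x 0)⁻¹) • x := by
  have h1 : (x 0)⁻¹ • x = p + iota (zt x) := by
    have h2 := decomp ((x 0)⁻¹ • x)
    have h3 : ((x 0)⁻¹ • x) 0 = 1 := by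
      simp only [PiLp.smul_apply, smul_eq_mul]
      exact inv_mul_cancel₀ h0
    rw [h3, one_smul] at h2
    exact h2
  rw [mul_smul, h1]
  have h4 : ex (lgV x) = cos (arctan ‖zt x‖) • (p + iota (zt x)) := by
    unfold ex
    rw [norm_lgV, C_sq, smul_add]
    congr 1
    unfold lgV
    rw [map_smul, smul_smul]
    rcases eq_or_ne (zt x) 0 with hz | hz
    · rw [hz]
      simp
    · have hr : 0 < ‖zt x‖ := by positivity
      congr 1
      have h5 := S_sq (arctan ‖zt x‖)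
      have h6 := psi_sq (norm_nonneg (zt x))
      have h7 : sin (arctan ‖zt x‖) = ‖zt x‖ * cos (arctan ‖zt x‖) := by
        have h8 := Real.tan_arctan ‖zt x‖
        rw [Real.tan_eq_sin_div_cos, div_eq_iff (Real.cos_arctan_pos _).ne'] at h8
        exact h8
      have h9 : (S (arctan ‖zt x‖ ^ 2) * psi (‖zt x‖ ^ 2)) * ‖zt x‖ = cos (arctan ‖zt x‖) * ‖zt x‖ := by
        rw [mul_assoc, h6, mul_comm, h5, h7]
        ring
      exact mul_right_cancel₀ hr.ne' h9
  rw [h4, rs]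

theorem lgV_contDiffAt {x : V} (h0 : x 0 ≠ 0) : ContDiffAt ℝ ∞ lgV x := by
  have h1 : ContDiffAt ℝ ∞ (fun x : V => x 0) x := by
    have : (fun x : V => x 0) = fun x : V => inner ℂ p x := by
      funext x
      rw [inner_p]
    rw [this]
    exact (contDiffAt_const.inner ℂ contDiffAt_id)
  have h2 : ContDiffAt ℝ ∞ zt x := by
    unfold zt
    exact pr.contDiff.contDiffAt.comp x ((h1.inv h0).smul contDiffAt_id)
  unfold lgV
  have h3 : ContDiffAt ℝ ∞ (fun x => ‖zt x‖ ^ 2) x := h2.norm_sq ℝ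
  exact (psi_comp h3 (Eventually.of_forall fun y => by positivity)).smul h2

end Crest.Agent.R249.MCPd_48
end
end

-- ▼ part R249/MCP_48
section

set_option autoImplicit false
set_option maxSynthPendingDepth 3

open Real Filter Topology Set
open scoped ContDiff ComplexConjugate
open Crest.Agent.R249.MCPa_48 Crest.Agent.R249.MCPb_48 Crest.Agent.R249.MCPc_48
  Crest.Agent.R249.MCPd_48
open Crest.Agent.R244.CF (LocIsoAt)

noncomputable section

namespace Crest.Agent.R249.MCP_48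

/-- points -/
abbrev X := Metric.sphere (0 : V) 1

/-- isometry group -/
abbrev G := V ≃ₗᵢ[ℂ] V

theorem nX (x : X) : ‖(x : V)‖ = 1 := by
  have := x.2
  rwa [mem_sphere_zero_iff_norm] at this

instance : MulAction G X where
  smul g x := ⟨g x, by rw [mem_sphere_zero_iff_norm, LinearIsometryEquiv.norm_map, nX]⟩
  one_smul x := rfl
  mul_smul g h x := rfl

theorem coe_smul (g : G) (x : X) : ((g • x : X) : V) = g x := rfl

/-- exponential map -/
def e (w : E) : X := ⟨ex w, by rw [mem_sphere_zero_iff_norm, norm_ex]⟩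

theorem coe_e (w : E) : (e w : V) = ex w := rfl

theorem ex_zero : ex 0 = p := by
  unfold ex
  simp [C_zero]

/-- regular set -/
def Reg : Set X := {x | (x : V) 0 ≠ 0}

theorem mem_Reg (x : X) : x ∈ Reg ↔ (x : V) 0 ≠ 0 := Iff.rfl

theorem norm_one_of_inner {z : V} (h : inner ℂ z z = 1) : ‖z‖ = 1 := by
  have h1 : (inner ℂ z z).re = ‖z‖ ^ 2 := by
    rw [inner_self_eq_norm_sq_to_K]
    simp [← Complex.ofReal_pow]
  rw [h, Complex.one_re] at h1
  have h3 := norm_nonneg z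
  nlinarith

theorem coord_inner (x : V) : x 0 = inner ℂ p x := (inner_p x).symm

/-- local isometries -/
theorem kappa_aux (g : G) {w : E} (hw : ‖w‖ < π / 2) (h0 : (g (ex w)) 0 ≠ 0) :
    ContDiffAt ℝ ∞ (fun w => lgV (g (ex w))) w ∧
    ∀ u v, g0 w u v = g0 (lgV (g (ex w))) (fderiv ℝ (fun w => lgV (g (ex w))) w u)
      (fderiv ℝ (fun w => lgV (g (ex w))) w v) := by
  -- the real-linear map `g`
  let gl : V →L[ℝ] V := (g.toContinuousLinearEquiv : V →L[ℂ] V).restrictScalars ℝ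
  have hgl : ∀ x, gl x = g x := fun x => rfl
  have hx : ContDiffAt ℝ ∞ (fun w => g (ex w)) w := by
    have : (fun w => g (ex w)) = fun w => gl (ex w) := rfl
    rw [this]
    exact gl.contDiff.contDiffAt.comp w ex_contDiff.contDiffAt
  have hxd : HasFDerivAt (fun w => g (ex w)) (gl.comp (dex w)) w := by
    have : (fun w => g (ex w)) = fun w => gl (ex w) := rfl
    rw [this]
    exact gl.hasFDerivAt.comp w (hasFDerivAt_ex w)
  have hk : ContDiffAt ℝ ∞ (fun w => lgV (g (ex w))) w := 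
    ContDiffAt.comp (g := lgV) (f := fun w => g (ex w)) w (lgV_contDiffAt h0) hx
  refine ⟨hk, ?_⟩
  set κ : E → E := fun w => lgV (g (ex w)) with hκ
  have hkd : HasFDerivAt κ (fderiv ℝ κ w) w := (hk.differentiableAt (by simp)).hasFDerivAt
  -- the phase
  set ph : E → ℂ := fun y => inner ℂ (g (ex y)) (ex (κ y)) with hph
  have hnear : ∀ᶠ y in 𝓝 w, (g (ex y)) 0 ≠ 0 := by
    have hc : ContinuousAt (fun y => (g (ex y)) 0) w := by
      have : (fun y => (g (ex y)) 0) = fun y => inner ℂ p (g (ex y)) := by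
        funext y
        rw [coord_inner]
      rw [this]
      exact continuousAt_const.inner hx.continuousAt
    exact hc.eventually_ne h0
  have hrel : ∀ y, (g (ex y)) 0 ≠ 0 → ex (κ y) = ph y • g (ex y) := by
    intro y hy
    have h1 := ex_lgV hy
    have h2 : ph y = (cos (arctan ‖zt (g (ex y))‖) : ℂ) * ((g (ex y)) 0)⁻¹ := by
      simp only [hph, hκ]
      rw [h1, inner_smul_right, inner_self_one, mul_one]
      rw [LinearIsometryEquiv.norm_map, norm_ex]
    rw [h2]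
    exact h1
  have hek : HasFDerivAt (fun y => ex (κ y)) ((dex (κ w)).comp (fderiv ℝ κ w)) w :=
    (hasFDerivAt_ex (κ w)).comp w hkd
  have hphd : HasFDerivAt ph (fderiv ℝ ph w) w := by
    have : DifferentiableAt ℝ ph w := hxd.differentiableAt.inner ℂ hek.differentiableAt
    exact this.hasFDerivAt
  have hprod : HasFDerivAt (fun y => ph y • g (ex y))
      (ph w • gl.comp (dex w) + (fderiv ℝ ph w).smulRight (g (ex w))) w := hphd.smul hxd
  have heq : (dex (κ w)).comp (fderiv ℝ κ w) =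
      ph w • gl.comp (dex w) + (fderiv ℝ ph w).smulRight (g (ex w)) := by
    have h1 : (fun y => ex (κ y)) =ᶠ[𝓝 w] fun y => ph y • g (ex y) := by
      filter_upwards [hnear] with y hy using hrel y hy
    exact (hek.congr_of_eventuallyEq h1.symm).unique hprod
  have hphn : ‖ph w‖ = 1 := by
    have h1 := congrArg norm (hrel w h0)
    rw [norm_ex, norm_smul, LinearIsometryEquiv.norm_map, norm_ex, mul_one] at h1
    exact h1.symm
  have hph0 : ph w ≠ 0 := by
    intro h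
    rw [h, norm_zero] at hphn
    exact zero_ne_one hphn
  intro u v
  have hd : ∀ u, dex (κ w) (fderiv ℝ κ w u) =
      ph w • g (dex w u) + (fderiv ℝ ph w u * (ph w)⁻¹) • (ph w • g (ex w)) := by
    intro u
    have h1 := congrArg (fun L : E →L[ℝ] V => L u) heq
    simp only [ContinuousLinearMap.comp_apply, add_apply,
      smul_apply, ContinuousLinearMap.smulRight_apply, hgl] at h1
    rw [h1, smul_smul, mul_assoc, inv_mul_cancel₀ hph0, mul_one]
  change g0 w u v = g0 (κ w) (fderiv ℝ κ w u) (fderiv ℝ κ w v)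
  rw [← hor_dex (κ w), hd u, hd v, hrel w h0, hor_add, hor_smul _ _ _ _ hphn, hor_map, hor_dex]
  rw [norm_smul, hphn, LinearIsometryEquiv.norm_map, norm_ex, one_mul]

theorem kappa (g : G) (w : E) (hw : w ∈ Metric.ball (0 : E) (π / 2)) (h : g • e w ∈ Reg) :
    LocIsoAt (Metric.ball (0 : E) (π / 2)) g0 (Metric.ball (0 : E) (π / 2)) g0
      (fun w => lgV ((g • e w : X) : V)) w := by
  have hball : ∀ x : V, lgV x ∈ Metric.ball (0 : E) (π / 2) := fun x => by
    rw [mem_ball_zero_iff]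
    exact norm_lgV_lt x
  have hnear : ∀ᶠ y in 𝓝 w, ‖y‖ < π / 2 ∧ (g (ex y)) 0 ≠ 0 := by
    have hc : Continuous (fun y => (g (ex y)) 0) := by
      have : (fun y => (g (ex y)) 0) = fun y => inner ℂ p (g (ex y)) := by
        funext y
        rw [coord_inner]
      rw [this]
      exact continuous_const.inner (g.continuous.comp ex_contDiff.continuous)
    have h1 : ∀ᶠ y in 𝓝 w, (g (ex y)) 0 ≠ 0 := hc.continuousAt.eventually_ne h
    have h2 : ∀ᶠ y in 𝓝 w, ‖y‖ < π / 2 := by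
      have := Metric.isOpen_ball.mem_nhds hw
      filter_upwards [this] with y hy
      rwa [mem_ball_zero_iff] at hy
    exact h2.and h1
  refine ⟨hw, hball _, ?_, ?_, ?_⟩
  · filter_upwards [hnear] with y hy
    exact (kappa_aux g hy.1 hy.2).1
  · filter_upwards [hnear] with y hy
    have h1 := (kappa_aux g hy.1 hy.2).2
    have hinj : Function.Injective (fderiv ℝ (fun w => lgV (g (ex w))) y) := by
      rw [injective_iff_map_eq_zero]
      intro u hu
      by_contra hne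
      have h2 := h1 u u
      rw [hu] at h2
      simp only [map_zero] at h2
      have h3 := g0_pos hy.1 hne
      rw [h2] at h3
      exact lt_irrefl _ h3
    exact LinearMap.surjective_of_injective
      (f := ((fderiv ℝ (fun w => lgV (g (ex w))) y : E →L[ℝ] E) : E →ₗ[ℝ] E)) hinj
  · filter_upwards [hnear] with y hy
    exact (kappa_aux g hy.1 hy.2).2

theorem trans (x : X) : ∃ g : G, g • e 0 = x := by
  have hon : Orthonormal ℂ (({0} : Set (Fin 3)).domRestrict (fun _ : Fin 3 => (x : V))) := by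
    rw [orthonormal_iff_ite]
    rintro ⟨i, hi⟩ ⟨j, hj⟩
    have hi' : i = 0 := hi
    have hj' : j = 0 := hj
    subst hi'
    subst hj'
    simp only [if_true]
    exact inner_self_one (nX x)
  obtain ⟨b, hb⟩ := hon.exists_orthonormalBasis_extension_of_card_eq (by simp)
  refine ⟨(EuclideanSpace.basisFun (Fin 3) ℂ).equiv b (Equiv.refl _), ?_⟩
  apply Subtype.ext
  rw [coe_smul, coe_e, ex_zero]
  have h1 : p = (EuclideanSpace.basisFun (Fin 3) ℂ) 0 := by
    rw [EuclideanSpace.basisFun_apply]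
    rfl
  rw [h1, OrthonormalBasis.equiv_apply_basis]
  exact hb 0 rfl

/-- distance -/
def d (x y : X) : ℝ := dV (x : V) (y : V)

theorem e_cont (w : E) {ε : ℝ} (hε : 0 < ε) : ∃ δ > 0, ∀ w', ‖w' - w‖ < δ → d (e w) (e w') < ε := by
  have hc : Continuous (fun w' => dV (ex w) (ex w')) := by
    unfold dV
    exact Real.continuous_arccos.comp (continuous_const.inner ex_contDiff.continuous).norm
  have h0 : dV (ex w) (ex w) < ε := by
    rw [dV_self (norm_ex w)]
    exact hε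
  have h1 := hc.continuousAt.eventually_lt continuousAt_const h0
  rw [Metric.eventually_nhds_iff] at h1
  obtain ⟨δ, hδ, h2⟩ := h1
  refine ⟨δ, hδ, fun w' hw' => h2 ?_⟩
  rw [dist_eq_norm]
  exact hw'

theorem lg_cont (x : X) (hx : x ∈ Reg) {ε : ℝ} (hε : 0 < ε) :
    ∃ δ > 0, ∀ y, d x y < δ → y ∈ Reg ∧ ‖lgV (y : V) - lgV (x : V)‖ < ε := by
  have h1 : ∀ᶠ y in 𝓝 (x : V), y 0 ≠ 0 := by
    have hc : Continuous (fun y : V => y 0) := by
      have : (fun y : V => y 0) = fun y => inner ℂ p y := by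
        funext y
        rw [coord_inner]
      rw [this]
      exact continuous_const.inner continuous_id
    exact hc.continuousAt.eventually_ne hx
  have h2 : ∀ᶠ y in 𝓝 (x : V), ‖lgV y - lgV x‖ < ε := by
    have hc := (lgV_contDiffAt hx).continuousAt
    have := Metric.tendsto_nhds.1 hc ε hε
    filter_upwards [this] with y hy
    rwa [dist_eq_norm] at hy
  have h3 := h1.and h2
  rw [Metric.eventually_nhds_iff] at h3
  obtain ⟨δ, hδ, h4⟩ := h3
  refine ⟨δ, hδ, fun y hy => ?_⟩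
  obtain ⟨a, ha, ha2⟩ := exists_close (nX x) (nX y)
  have ha0 : a ≠ 0 := by
    intro h
    rw [h, norm_zero] at ha
    exact zero_ne_one ha
  have h5 := h4 (y := a • (y : V)) (by
    rw [dist_eq_norm]
    exact lt_of_le_of_lt ha2 hy)
  rw [lgV_smul ha0] at h5
  refine ⟨?_, h5.2⟩
  have h6 := h5.1
  rw [mem_Reg]
  intro h
  apply h6
  simp only [PiLp.smul_apply, smul_eq_mul, h, mul_zero]

theorem lg_congr (x y : X) (h : d x y = 0) (hx : x ∈ Reg) : y ∈ Reg ∧ lgV (y : V) = lgV (x : V) := by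
  obtain ⟨a, ha, hy⟩ := dV_eq_zero (nX x) (nX y) h
  have ha0 : a ≠ 0 := by
    intro h
    rw [h, norm_zero] at ha
    exact zero_ne_one ha
  refine ⟨?_, by rw [hy, lgV_smul ha0]⟩
  rw [mem_Reg, hy]
  simp only [PiLp.smul_apply, smul_eq_mul]
  exact mul_ne_zero ha0 hx

theorem e_lg (x : X) (hx : x ∈ Reg) : d (e (lgV (x : V))) x = 0 := by
  unfold d
  rw [coe_e]
  have h1 := ex_lgV hx
  have hph : ‖(cos (arctan ‖zt (x : V)‖) : ℂ) * ((x : V) 0)⁻¹‖ = 1 := by
    have h2 := congrArg norm h1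
    rw [norm_ex, norm_smul, nX, mul_one] at h2
    exact h2.symm
  rw [h1, dV_smul hph]
  exact dV_self (nX x)

theorem dense (x : X) {ε : ℝ} (hε : 0 < ε) : ∃ z ∈ Reg, d x z < ε := by
  by_cases hx : x ∈ Reg
  · exact ⟨x, hx, by
      unfold d
      rw [dV_self (nX x)]
      exact hε⟩
  · have hx0 : inner ℂ p (x : V) = 0 := by
      rw [inner_p]
      by_contra h
      exact hx h
    have hx1 : inner ℂ (x : V) p = 0 := by
      rw [← inner_conj_symm, hx0, map_zero]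
    set t : ℝ := min (ε / 2) 1 with ht
    have ht0 : 0 < t := by positivity
    have ht1 : t ≤ 1 := min_le_right _ _
    have htε : t < ε := lt_of_le_of_lt (min_le_left _ _) (by linarith)
    have hsin : 0 < sin t := Real.sin_pos_of_pos_of_lt_pi ht0 (by linarith [Real.pi_gt_three])
    have hcos : 0 < cos t := Real.cos_pos_of_mem_Ioo ⟨by linarith [Real.pi_gt_three],
      by linarith [Real.pi_gt_three]⟩
    set z : V := (cos t : ℂ) • (x : V) + (sin t : ℂ) • p with hz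
    have hxx : inner ℂ (x : V) (x : V) = 1 := inner_self_one (nX x)
    have hpp : inner ℂ p p = 1 := inner_self_one norm_p
    have hzn : ‖z‖ = 1 := by
      have h1 : (inner ℂ z z : ℂ) = 1 := by
        rw [hz]
        simp only [inner_add_left, inner_add_right, inner_smul_left, inner_smul_right, hx0, hx1, hxx,
          hpp, ← Complex.ofReal_cos, ← Complex.ofReal_sin, Complex.conj_ofReal]
        have := Real.cos_sq_add_sin_sq t
        have h2 : ((cos t : ℝ) : ℂ) ^ 2 + ((sin t : ℝ) : ℂ) ^ 2 = 1 := by exact_mod_cast this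
        linear_combination h2
      exact norm_one_of_inner h1
    refine ⟨⟨z, by rw [mem_sphere_zero_iff_norm, hzn]⟩, ?_, ?_⟩
    · rw [mem_Reg, ← inner_p]
      change inner ℂ p z ≠ 0
      rw [hz, inner_add_right, inner_smul_right, inner_smul_right, hx0, hpp]
      simp only [mul_zero, zero_add, mul_one, ← Complex.ofReal_sin]
      exact_mod_cast hsin.ne'
    · change dV (x : V) z < ε
      unfold dV
      rw [hz, inner_add_right, inner_smul_right, inner_smul_right, hx1, hxx]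
      simp only [mul_zero, add_zero, mul_one, ← Complex.ofReal_cos, Complex.norm_real]
      rw [Real.norm_of_nonneg hcos.le, Real.arccos_cos ht0.le (by linarith [Real.pi_gt_three])]
      exact htε

theorem cov (x : X) : ∃ g : G, g • e 0 ∈ Reg ∧ g⁻¹ • x ∈ Reg := by
  -- find `y` with `⟨p, y⟩ ≠ 0` and `⟨y, x⟩ ≠ 0`
  have key : ∃ y : X, inner ℂ p (y : V) ≠ 0 ∧ inner ℂ (y : V) (x : V) ≠ 0 := by
    by_cases hx : x ∈ Reg
    · refine ⟨x, ?_, ?_⟩
      · rw [inner_p]
        exact hx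
      · rw [inner_self_one (nX x)]
        exact one_ne_zero
    · have hx0 : inner ℂ p (x : V) = 0 := by
        rw [inner_p]
        by_contra h
        exact hx h
      have hx1 : inner ℂ (x : V) p = 0 := by
        rw [← inner_conj_symm, hx0, map_zero]
      have hxx : inner ℂ (x : V) (x : V) = 1 := inner_self_one (nX x)
      have hpp : inner ℂ p p = 1 := inner_self_one norm_p
      set z : V := ((3 / 5 : ℝ) : ℂ) • (x : V) + ((4 / 5 : ℝ) : ℂ) • p with hz
      have hzn : ‖z‖ = 1 := by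
        have h1 : (inner ℂ z z : ℂ) = 1 := by
          rw [hz]
          simp only [inner_add_left, inner_add_right, inner_smul_left, inner_smul_right, hx0, hx1, hxx,
            hpp, Complex.conj_ofReal]
          push_cast
          norm_num
        exact norm_one_of_inner h1
      refine ⟨⟨z, by rw [mem_sphere_zero_iff_norm, hzn]⟩, ?_, ?_⟩
      · change inner ℂ p z ≠ 0
        rw [hz, inner_add_right, inner_smul_right, inner_smul_right, hx0, hpp]
        norm_num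
      · change inner ℂ z (x : V) ≠ 0
        rw [hz, inner_add_left, inner_smul_left, inner_smul_left, hx0, hxx, Complex.conj_ofReal]
        norm_num
  obtain ⟨y, hy1, hy2⟩ := key
  obtain ⟨g, hg⟩ := trans y
  have hgp : g p = (y : V) := by
    have := congrArg (fun x : X => (x : V)) hg
    rw [← this]
    simp only [coe_smul, coe_e, ex_zero]
  refine ⟨g, ?_, ?_⟩
  · rw [hg, mem_Reg, ← inner_p]
    exact hy1
  · rw [mem_Reg, ← inner_p, coe_smul]
    have h1 : inner ℂ p (g⁻¹ (x : V)) = inner ℂ (y : V) (x : V) := by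
      rw [← hgp, ← g.inner_map_map p (g⁻¹ (x : V))]
      congr 1
      exact g.apply_symm_apply (x : V)
    rw [h1]
    exact hy2

theorem star_dense (g : G) (hg : g • e 0 ∈ Reg) (w : E) (hw : w ∈ Metric.ball (0 : E) (π / 2))
    {ε : ℝ} (hε : 0 < ε) : ∃ w', ‖w' - w‖ < ε ∧ ∀ t ∈ Icc (0 : ℝ) 1,
      t • w' ∈ Metric.ball (0 : E) (π / 2) ∧ g • e (t • w') ∈ Reg := by
  set a : ℂ := inner ℂ p (g p) with ha
  have ha0 : a ≠ 0 := by
    rw [mem_Reg, ← inner_p, coe_smul, coe_e, ex_zero] at hg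
    exact hg
  -- the good vectors
  have good : ∀ w' : E, ‖w'‖ < π / 2 → (inner ℂ p (g (iota w')) = 0 ∨
      (inner ℂ p (g (iota w')) / a).im ≠ 0) → ∀ t ∈ Icc (0 : ℝ) 1,
      t • w' ∈ Metric.ball (0 : E) (π / 2) ∧ g • e (t • w') ∈ Reg := by
    intro w' hw' hgood t ht
    have htw : ‖t • w'‖ < π / 2 := by
      rw [norm_smul, Real.norm_of_nonneg ht.1]
      exact lt_of_le_of_lt (mul_le_of_le_one_left (norm_nonneg _) ht.2) hw'
    refine ⟨by rwa [mem_ball_zero_iff], ?_⟩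
    rw [mem_Reg, ← inner_p, coe_smul, coe_e]
    have hC := C_pos htw
    have h1 : inner ℂ p (g (ex (t • w'))) = (C (‖t • w'‖ ^ 2) : ℂ) * a +
        ((S (‖t • w'‖ ^ 2) * t : ℝ) : ℂ) * inner ℂ p (g (iota w')) := by
      unfold ex
      rw [map_smul iota, rs, smul_smul, rs, map_add, map_smul, map_smul, inner_add_right,
        inner_smul_right, inner_smul_right]
    rw [h1]
    intro h0
    rcases hgood with h | h
    · rw [h, mul_zero, add_zero] at h0
      rcases mul_eq_zero.1 h0 with h | h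
      · have : C (‖t • w'‖ ^ 2) = 0 := Complex.ofReal_eq_zero.1 h
        linarith
      · exact ha0 h
    · have h2 : (C (‖t • w'‖ ^ 2) : ℂ) + ((S (‖t • w'‖ ^ 2) * t : ℝ) : ℂ) *
          (inner ℂ p (g (iota w')) / a) = 0 := by
        have h3 : ((C (‖t • w'‖ ^ 2) : ℂ) + ((S (‖t • w'‖ ^ 2) * t : ℝ) : ℂ) *
          (inner ℂ p (g (iota w')) / a)) * a = 0 := by
          rw [← h0]
          field_simp
        exact (mul_eq_zero.1 h3).resolve_right ha0
      have h3 := congrArg Complex.im h2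
      rw [Complex.add_im, Complex.ofReal_im, zero_add, Complex.im_ofReal_mul, Complex.zero_im] at h3
      rcases mul_eq_zero.1 h3 with h4 | h4
      · have h5 := congrArg Complex.re h2
        rw [h4] at h5
        simp at h5
        linarith
      · exact h h4
  by_cases hall : ∀ u : E, inner ℂ p (g (iota u)) = 0
  · exact ⟨w, by simpa using hε, good w (by rwa [mem_ball_zero_iff] at hw) (Or.inl (hall w))⟩
  · push Not at hall
    obtain ⟨u0, hu0⟩ := hall
    -- a direction with nonzero imaginary part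
    have hu : ∃ u : E, (inner ℂ p (g (iota u)) / a).im ≠ 0 := by
      by_contra hcon
      push Not at hcon
      have h1 := hcon u0
      have h2 := hcon (J u0)
      rw [iota_J, map_smul, inner_smul_right, mul_div_assoc, Complex.I_mul_im] at h2
      have h3 : inner ℂ p (g (iota u0)) / a = 0 := Complex.ext h2 h1
      rcases div_eq_zero_iff.1 h3 with h | h
      · exact hu0 h
      · exact ha0 h
    obtain ⟨u, hu⟩ := hu
    by_cases hw1 : (inner ℂ p (g (iota w)) / a).im ≠ 0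
    · exact ⟨w, by simpa using hε, good w (by rwa [mem_ball_zero_iff] at hw) (Or.inr hw1)⟩
    · push Not at hw1
      have hu1 : u ≠ 0 := by
        rintro rfl
        simp at hu
      have hun : 0 < ‖u‖ := by positivity
      rw [mem_ball_zero_iff] at hw
      set s : ℝ := min (ε / 2) ((π / 2 - ‖w‖) / 2) / ‖u‖ with hs
      have hs0 : 0 < s := by
        have : 0 < (π / 2 - ‖w‖) / 2 := by linarith
        positivity
      have hsu : s * ‖u‖ = min (ε / 2) ((π / 2 - ‖w‖) / 2) := by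
        rw [hs]
        field_simp
      refine ⟨w + s • u, ?_, good _ ?_ (Or.inr ?_)⟩
      · rw [add_sub_cancel_left, norm_smul, Real.norm_of_nonneg hs0.le, hsu]
        exact lt_of_le_of_lt (min_le_left _ _) (by linarith)
      · refine lt_of_le_of_lt (norm_add_le _ _) ?_
        rw [norm_smul, Real.norm_of_nonneg hs0.le, hsu]
        have := min_le_right (ε / 2) ((π / 2 - ‖w‖) / 2)
        linarith
      · rw [map_add, map_smul, rs, map_add, map_smul, inner_add_right, inner_smul_right, add_div,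
          Complex.add_im, hw1, zero_add, mul_div_assoc, Complex.im_ofReal_mul]
        exact mul_ne_zero hs0.ne' hu

/-- The complex projective plane (holomorphic curvature 4) as a model space. -/
def mCP : B2Defs_474.Mdl 4 where
  X := X
  G := G
  d := d
  e := e
  lg x := lgV (x : V)
  D := Metric.ball 0 (π / 2)
  Reg := Reg
  R0 := R0
  g0 := g0
  J := Jac
  J' := Jac'
  D_open := Metric.isOpen_ball
  D_zero := Metric.mem_ball_self (by positivity)
  D_star w hw t ht := by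
    rw [mem_ball_zero_iff] at hw ⊢
    rw [norm_smul, Real.norm_of_nonneg ht.1]
    exact lt_of_le_of_lt (mul_le_of_le_one_left (norm_nonneg _) ht.2) hw
  g0_smooth := g0_contDiff.contDiffOn
  g0_symm w _ u v := g0_symm w u v
  g0_pos w hw u hu := g0_pos (by rwa [mem_ball_zero_iff] at hw) hu
  J_zero := Jac_zero
  J_one := Jac'_zero
  J_deriv := Jac_deriv
  J'_deriv := Jac'_deriv
  J_g0 v _ u u' := Jac_g0 v u u'
  d_symm x y := dV_symm _ _
  d_self x := dV_self (nX x)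
  d_tri x y z := dV_tri (nX x) (nX y) (nX z)
  d_smul g x y := dV_map g _ _
  d_e w hw := by
    rw [mem_ball_zero_iff] at hw
    have hC := C_pos hw
    unfold d dV
    rw [coe_e, coe_e, ex_zero, inner_p, ex_zero_coord, Complex.norm_real, Real.norm_of_nonneg hC.le,
      C_sq]
    exact Real.arccos_cos (norm_nonneg _) (by linarith [Real.pi_pos])
  e_cont w _ ε hε := e_cont w hε
  e_mem w hw := by
    rw [mem_ball_zero_iff] at hw
    have hC := C_pos hw
    rw [mem_Reg, coe_e, ex_zero_coord]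
    exact Complex.ofReal_ne_zero.2 hC.ne'
  lg_mem x _ := by
    rw [mem_ball_zero_iff]
    exact norm_lgV_lt _
  lg_e w hw := lgV_ex (by rwa [mem_ball_zero_iff] at hw)
  e_lg := e_lg
  lg_congr := lg_congr
  lg_cont x hx ε hε := lg_cont x hx hε
  trans := trans
  kappa := kappa
  star_dense g hg w hw ε hε := star_dense g hg w hw hε
  dense x ε hε := dense x hε
  cov := cov

end Crest.Agent.R249.MCP_48
end
end

-- ▼ part R249/B2Fin_474

set_option autoImplicit false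
set_option maxSynthPendingDepth 3
set_option linter.unusedSectionVars false

open Bundle Set Filter Topology
open scoped ContDiff Manifold
open Crest.Agent.R244.CF (curv)
open Crest.Agent.R226 Crest.Agent.R226.ChartMet842
open Crest.GeometryTopology.ChartCurvature
open Crest.Agent.R249.B2Defs_474 Crest.Agent.R249.B2Glue_474 Crest.Agent.R249.MdlScale_654

noncomputable section

namespace Crest.Agent.R249.B2Fin_474

section gen

variable {n : ℕ} {M : Type*} [MetricSpace M] [ChartedSpace (EuclideanSpace ℝ (Fin n)) M]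
  [IsManifold (𝓡 n) ∞ M]
  [RiemannianBundle (fun p : M => TangentSpace (𝓡 n) p)]
  [IsContMDiffRiemannianBundle (𝓡 n) ∞ (EuclideanSpace ℝ (Fin n)) (fun p : M => TangentSpace (𝓡 n) p)]
  [IsRiemannianManifold (𝓡 n) M] [CompactSpace M] [ConnectedSpace M]

local notation "𝔼" => EuclideanSpace ℝ (Fin n)

theorem cover_of (m : Mdl n)
    (hR : ∀ (c : ℝ) (u v w : 𝔼), m.R0 (c • u) (c • v) (c • w) = c ^ 3 • m.R0 u v w)
    {a : ℝ} (ha : 0 < a) (hP : ParCurv n M) {p : M}
    (P : Frame n (fun u v w => a • m.R0 u v w) p) :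
    ∃ Φ : m.X → M, Function.Surjective Φ ∧ ∃ ρ > 0, ∀ x y, m.d x y < ρ →
      dist (Φ x) (Φ y) = m.d x y / Real.sqrt a := by
  obtain ⟨N⟩ := NearDiagFinal996.nonempty_nearDiag (n := n) (M := M)
  obtain ⟨G⟩ := GeoThm542.nonempty_geoData N
  let P' : Frame n (scaleSqrt m a ha).R0 p :=
    ⟨P.I, P.iso, fun u v w => by
      rw [scaleSqrt_R0 m a ha hR]
      exact P.curv_eq u v w⟩
  obtain ⟨Φ, hΦ, ρ, hρ, h⟩ := exists_cover (scaleSqrt m a ha) hP G P'
  have hs : 0 < Real.sqrt a := Real.sqrt_pos.2 ha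
  refine ⟨Φ, hΦ, ρ * Real.sqrt a, mul_pos hρ hs, fun x y hxy => ?_⟩
  have h1 := h x y (by
    rw [scaleSqrt_d]
    rw [div_lt_iff₀ hs]
    exact hxy)
  exact h1

end gen

section fin

theorem arccos_small {V : Type*} [NormedAddCommGroup V] [InnerProductSpace ℝ V]
    (p : Metric.sphere (0 : V) 1) {ρ : ℝ} (hρ : 0 < ρ) :
    ∃ ε > 0, ∀ q q' : Metric.sphere (0 : V) 1, dist p q < ε → dist p q' < ε →
      Real.arccos (inner ℝ (q : V) q') < ρ := by
  have hc : Continuous fun z : Metric.sphere (0 : V) 1 × Metric.sphere (0 : V) 1 =>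
      Real.arccos (inner ℝ (z.1 : V) (z.2 : V)) :=
    Real.continuous_arccos.comp ((continuous_subtype_val.comp continuous_fst).inner
      (continuous_subtype_val.comp continuous_snd))
  have h0 : Real.arccos (inner ℝ (p : V) (p : V)) = 0 := by
    rw [real_inner_self_eq_norm_sq, norm_eq_of_mem_sphere, one_pow, Real.arccos_one]
  obtain ⟨ε, hε, h⟩ := Metric.continuousAt_iff.1 (hc.continuousAt (x := (p, p))) ρ hρ
  refine ⟨ε, hε, fun q q' hq hq' => ?_⟩
  have h1 := h (x := (q, q')) (by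
    rw [Prod.dist_eq]
    exact max_lt (by rw [dist_comm]; exact hq) (by rw [dist_comm]; exact hq'))
  simp only [h0, Real.dist_eq, sub_zero] at h1
  exact (le_abs_self _).trans_lt h1

theorem arccos_small_c {V : Type*} [NormedAddCommGroup V] [InnerProductSpace ℂ V]
    (p : Metric.sphere (0 : V) 1) {ρ : ℝ} (hρ : 0 < ρ) :
    ∃ ε > 0, ∀ q q' : Metric.sphere (0 : V) 1, dist p q < ε → dist p q' < ε →
      Real.arccos ‖(inner ℂ (q : V) q' : ℂ)‖ < ρ := by
  have hc : Continuous fun z : Metric.sphere (0 : V) 1 × Metric.sphere (0 : V) 1 =>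
      Real.arccos ‖(inner ℂ (z.1 : V) (z.2 : V) : ℂ)‖ :=
    Real.continuous_arccos.comp ((continuous_subtype_val.comp continuous_fst).inner
      (continuous_subtype_val.comp continuous_snd)).norm
  have h0 : Real.arccos ‖(inner ℂ (p : V) (p : V) : ℂ)‖ = 0 := by
    rw [inner_self_eq_norm_sq_to_K, norm_eq_of_mem_sphere]
    simp
  obtain ⟨ε, hε, h⟩ := Metric.continuousAt_iff.1 (hc.continuousAt (x := (p, p))) ρ hρ
  refine ⟨ε, hε, fun q q' hq hq' => ?_⟩
  have h1 := h (x := (q, q')) (by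
    rw [Prod.dist_eq]
    exact max_lt (by rw [dist_comm]; exact hq) (by rw [dist_comm]; exact hq'))
  simp only [h0, Real.dist_eq, sub_zero] at h1
  exact (le_abs_self _).trans_lt h1

section sphere

variable {n : ℕ} {M : Type*} [MetricSpace M] [ChartedSpace (EuclideanSpace ℝ (Fin n)) M]
  [IsManifold (𝓡 n) ∞ M]
  [RiemannianBundle (fun p : M => TangentSpace (𝓡 n) p)]
  [IsContMDiffRiemannianBundle (𝓡 n) ∞ (EuclideanSpace ℝ (Fin n)) (fun p : M => TangentSpace (𝓡 n) p)]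
  [IsRiemannianManifold (𝓡 n) M] [CompactSpace M] [ConnectedSpace M]

/-- constant curvature `a > 0` -/
theorem cover_roundSphere (hn : 2 ≤ n) {a : ℝ} (ha : 0 < a) (hP : ParCurv n M) {p : M}
    (P : Frame n (fun u v w => a • TrigS_662.R0 u v w) p) :
    IsLocallyCoveredByRoundSphere M n a := by
  obtain ⟨Φ, hΦ, ρ, hρ, h⟩ := cover_of (MS_662.mS n hn) (fun c u v w => by
    show TrigS_662.R0 _ _ _ = _ • TrigS_662.R0 _ _ _
    simp only [TrigS_662.R0, inner_smul_left, inner_smul_right, conj_trivial, smul_sub, smul_smul]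
    congr 1 <;> congr 1 <;> ring) ha hP P
  refine ⟨ha, Φ, hΦ, fun q => ?_⟩
  obtain ⟨ε, hε, hs⟩ := arccos_small q hρ
  exact ⟨ε, hε, fun x y hx hy => h x y (hs x y hx hy)⟩

end sphere

section four

variable {M : Type*} [MetricSpace M] [ChartedSpace (EuclideanSpace ℝ (Fin 4)) M]
  [IsManifold (𝓡 4) ∞ M]
  [RiemannianBundle (fun p : M => TangentSpace (𝓡 4) p)]
  [IsContMDiffRiemannianBundle (𝓡 4) ∞ (EuclideanSpace ℝ (Fin 4)) (fun p : M => TangentSpace (𝓡 4) p)]
  [IsRiemannianManifold (𝓡 4) M] [CompactSpace M] [ConnectedSpace M]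

theorem cover_complexProjective {a : ℝ} (ha : 0 < a) (hP : ParCurv 4 M) {p : M}
    (P : Frame 4 (fun u v w => a • MCPc_48.R0 u v w) p) :
    IsLocallyCoveredByComplexProjective M 2 a := by
  obtain ⟨Φ, hΦ, ρ, hρ, h⟩ := cover_of MCP_48.mCP (fun c u v w => by
    show MCPc_48.R0 _ _ _ = _ • MCPc_48.R0 _ _ _
    simp only [MCPc_48.R0, map_smul, inner_smul_left, inner_smul_right, conj_trivial, smul_sub,
      smul_add, smul_smul]
    congr 1
    · congr 1
      · congr 1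
        · congr 1 <;> congr 1 <;> ring
        · congr 1; ring
      · congr 1; ring
    · congr 1; ring) ha hP P
  refine ⟨ha, Φ, hΦ, fun q => ?_⟩
  obtain ⟨ε, hε, hs⟩ := arccos_small_c q hρ
  exact ⟨ε, hε, fun x y hx hy => h x y (hs x y hx hy)⟩

theorem cover_sphereProduct {a : ℝ} (ha : 0 < a) (hP : ParCurv 4 M) {p : M}
    (P : Frame 4 (fun u v w => a • MP_662.mSS.R0 u v w) p) :
    IsLocallyCoveredBySphereProduct M a := by
  obtain ⟨Φ, hΦ, ρ, hρ, h⟩ := cover_of MP_662.mSS (fun c u v w => by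
    rw [MP_662.mSS_R0, MP_662.mSS_R0]
    ext i
    fin_cases i <;> simp <;> ring) ha hP P
  refine ⟨ha, Φ, hΦ, fun q => ?_⟩
  obtain ⟨ε₁, hε₁, hs₁⟩ := arccos_small q.1 (show 0 < ρ / 2 by positivity)
  obtain ⟨ε₂, hε₂, hs₂⟩ := arccos_small q.2 (show 0 < ρ / 2 by positivity)
  refine ⟨min ε₁ ε₂, lt_min hε₁ hε₂, fun x y hx hy => ?_⟩
  have hx1 := (le_max_left _ _).trans_lt (hx.trans_le (min_le_left _ _))
  have hx2 := (le_max_right _ _).trans_lt (hx.trans_le (min_le_right _ _))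
  have hy1 := (le_max_left _ _).trans_lt (hy.trans_le (min_le_left _ _))
  have hy2 := (le_max_right _ _).trans_lt (hy.trans_le (min_le_right _ _))
  have h1 := hs₁ x.1 y.1 hx1 hy1
  have h2 := hs₂ x.2 y.2 hx2 hy2
  refine h x y ?_
  rw [MP_662.mSS_d]
  rw [Real.sqrt_lt' hρ]
  have e1 := Real.arccos_nonneg (inner ℝ (x.1 : EuclideanSpace ℝ (Fin 3)) y.1)
  have e2 := Real.arccos_nonneg (inner ℝ (x.2 : EuclideanSpace ℝ (Fin 3)) y.2)
  nlinarith

end four

/-! ### the interface of `Asm1_49` -/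

local notation "E4" => EuclideanSpace ℝ (Fin 4)

def RS (c : ℝ) (u v w : E4) : E4 := (c / 3) • Ptw_850.T1 u v w
def RC (c : ℝ) (u v w : E4) : E4 := (c / 6) • Ptw_850.TC Ptw_850.J0 u v w
def RP (c : ℝ) (u v w : E4) : E4 := c • Ptw_850.TS u v w

theorem covS : Asm49.CovS RS := by
  intro N _ _ _ _ _ _ _ _ c hc h
  obtain ⟨hP, hF⟩ := h
  obtain ⟨p⟩ : Nonempty N := inferInstance
  obtain ⟨P⟩ := hF p
  exact ⟨c / 3, by positivity, cover_roundSphere (by norm_num) (by positivity) hP (p := p) P⟩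

theorem covC : Asm49.CovC RC := by
  intro N _ _ _ _ _ _ _ _ c hc h
  obtain ⟨hP, hF⟩ := h
  obtain ⟨p⟩ : Nonempty N := inferInstance
  obtain ⟨P⟩ := hF p
  have hJ : ∀ u : E4, Ptw_850.J0 u = MCPb_48.J u := by
    intro u
    rw [Ptw_850.J0_apply]
    rfl
  have hR : ∀ u v w : E4, RC c u v w = (c / 6) • MCPc_48.R0 u v w := by
    intro u v w
    simp only [RC, Ptw_850.TC, MCPc_48.R0, hJ]
  exact ⟨c / 6, by positivity, cover_complexProjective (by positivity) hP (p := p)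
    ⟨P.I, P.iso, fun u v w => by rw [P.curv_eq, hR]⟩⟩

theorem covP : Asm49.CovP RP := by
  intro N _ _ _ _ _ _ _ _ c hc h
  obtain ⟨hP, hF⟩ := h
  obtain ⟨p⟩ : Nonempty N := inferInstance
  obtain ⟨P⟩ := hF p
  have hR : ∀ u v w : E4, RP c u v w = c • MP_662.mSS.R0 u v w := by
    intro u v w
    rw [RP, Ptw_850.TS_eq, MP_662.mSS_R0]
    rfl
  exact ⟨c, hc, cover_sphereProduct hc hP (p := p)
    ⟨P.I, P.iso, fun u v w => by rw [P.curv_eq, hR]⟩⟩

end fin

end Crest.Agent.R249.B2Fin_474
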