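import Mathlib
import Crest.Agent.R249.FrH_129

-- ▼ part R249/FrK_129
section

/-!
Linear algebra at a point: refined Kato inequality for symmetric tracefree `N` with the second Bianchi
constraint; eigenvalue estimates for 3×3 tracefree symmetric matrices. (row 249, helper129)
-/

set_option autoImplicit false
set_option linter.unusedSimpArgs false

namespace Crest.Agent.R249.FrK129

open Finset

/-- The linear constraints of the second Bianchi identity. -/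
structure BianchiN (N : Fin 4 → Fin 3 → Fin 3 → ℝ) : Prop where
  symm : ∀ i c d, N i c d = N i d c
  tr : ∀ i, N i 0 0 + N i 1 1 + N i 2 2 = 0
  z0 : ∀ c, N 1 c 0 + N 2 c 1 + N 3 c 2 = 0
  z1 : ∀ c, N 0 c 0 + N 3 c 1 - N 2 c 2 = 0
  z2 : ∀ c, N 0 c 1 + N 1 c 2 - N 3 c 0 = 0
  z3 : ∀ c, N 0 c 2 + N 2 c 0 - N 1 c 1 = 0

/-- Symmetric tracefree matrices. -/
structure Sym0 (W : Fin 3 → Fin 3 → ℝ) : Prop where
  symm : ∀ c d, W c d = W d c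
  tr : W 0 0 + W 1 1 + W 2 2 = 0

/-- `Y_{cl} = ∑ I_d(i,l) v_i W_{cd}` -/
def Y (v : Fin 4 → ℝ) (W : Fin 3 → Fin 3 → ℝ) (c : Fin 3) : Fin 4 → ℝ :=
  ![-(v 1 * W c 0 + v 2 * W c 1 + v 3 * W c 2), v 0 * W c 0 + v 3 * W c 1 - v 2 * W c 2,
    v 0 * W c 1 + v 1 * W c 2 - v 3 * W c 0, v 0 * W c 2 + v 2 * W c 0 - v 1 * W c 1]

/-- `(Z* Y)_{i,cd}` -/
def ZY (v : Fin 4 → ℝ) (W : Fin 3 → Fin 3 → ℝ) (i : Fin 4) (c : Fin 3) : Fin 3 → ℝ :=
  (![![Y v W c 1, Y v W c 2, Y v W c 3], ![-Y v W c 0, -Y v W c 3, Y v W c 2],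
    ![Y v W c 3, -Y v W c 0, -Y v W c 1], ![-Y v W c 2, Y v W c 1, -Y v W c 0]] :
      Fin 4 → Fin 3 → ℝ) i

/-- The projection of `v ⊗ W` onto the constraint space (times 5, up to pure trace). -/
noncomputable def MM (v : Fin 4 → ℝ) (W : Fin 3 → Fin 3 → ℝ) (i : Fin 4) (c d : Fin 3) : ℝ :=
  v i * W c d - (1 / 5) * (ZY v W i c d + ZY v W i d c)
    + (if c = d then (2 / 15) * (ZY v W i 0 0 + ZY v W i 1 1 + ZY v W i 2 2) else 0)

lemma MM_norm (v : Fin 4 → ℝ) {W : Fin 3 → Fin 3 → ℝ} (hW : Sym0 W) :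
    5 * ∑ i, ∑ c, ∑ d, MM v W i c d ^ 2 = 3 * (∑ i, v i ^ 2) * ∑ c, ∑ d, W c d ^ 2 := by
  have s10 : W 1 0 = W 0 1 := hW.symm 1 0
  have s20 : W 2 0 = W 0 2 := hW.symm 2 0
  have s21 : W 2 1 = W 1 2 := hW.symm 2 1
  have s22 : W 2 2 = - W 0 0 - W 1 1 := by linarith [hW.tr]
  simp only [MM, ZY, Y, Fin.sum_univ_four, Fin.sum_univ_three]
  simp [s10, s20, s21, s22]
  ring

lemma MM_dot (v : Fin 4 → ℝ) {W : Fin 3 → Fin 3 → ℝ} (_hW : Sym0 W)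
    {N : Fin 4 → Fin 3 → Fin 3 → ℝ} (hN : BianchiN N) :
    ∑ i, ∑ c, ∑ d, MM v W i c d * N i c d = ∑ i, v i * ∑ c, ∑ d, N i c d * W c d := by
  have s10 : ∀ i, N i 1 0 = N i 0 1 := fun i => hN.symm i 1 0
  have s20 : ∀ i, N i 2 0 = N i 0 2 := fun i => hN.symm i 2 0
  have s21 : ∀ i, N i 2 1 = N i 1 2 := fun i => hN.symm i 2 1
  have s22 : ∀ i, N i 2 2 = - N i 0 0 - N i 1 1 := fun i => by linarith [hN.tr i]
  have a := hN.z0
  have b := hN.z1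
  have c := hN.z2
  have d := hN.z3
  have a0 := a 0
  have a1 := a 1
  have a2 := a 2
  have b0 := b 0
  have b1 := b 1
  have b2 := b 2
  have c0 := c 0
  have c1 := c 1
  have c2 := c 2
  have d0 := d 0
  have d1 := d 1
  have d2 := d 2
  simp only [MM, ZY, Fin.sum_univ_four, Fin.sum_univ_three]
  simp [s10, s20, s21, s22] at a0 a1 a2 b0 b1 b2 c0 c1 c2 d0 d1 d2 ⊢
  linear_combination (2 / 5) * (Y v W 0 0 * a0 + Y v W 1 0 * a1 + Y v W 2 0 * a2)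
    - (2 / 5) * (Y v W 0 1 * b0 + Y v W 1 1 * b1 + Y v W 2 1 * b2)
    - (2 / 5) * (Y v W 0 2 * c0 + Y v W 1 2 * c1 + Y v W 2 2 * c2)
    - (2 / 5) * (Y v W 0 3 * d0 + Y v W 1 3 * d1 + Y v W 2 3 * d2)

lemma sum_expand (q : ℝ) (X Y : Fin 4 → Fin 3 → Fin 3 → ℝ) :
    ∑ i, ∑ c, ∑ d, (3 * q * X i c d - 5 * Y i c d) ^ 2
      = 9 * q ^ 2 * (∑ i, ∑ c, ∑ d, X i c d ^ 2) - 30 * q * ∑ i, ∑ c, ∑ d, Y i c d * X i c d
        + 25 * ∑ i, ∑ c, ∑ d, Y i c d ^ 2 := by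
  have : ∀ i c d, (3 * q * X i c d - 5 * Y i c d) ^ 2 = 9 * q ^ 2 * X i c d ^ 2
      - 30 * q * (Y i c d * X i c d) + 25 * Y i c d ^ 2 := by intros; ring
  simp_rw [this, sum_add_distrib, sum_sub_distrib, ← mul_sum]

/-- **Refined Kato inequality.** -/
theorem kato {W : Fin 3 → Fin 3 → ℝ} (hW : Sym0 W) {N : Fin 4 → Fin 3 → Fin 3 → ℝ}
    (hN : BianchiN N) :
    5 * ∑ i, (∑ c, ∑ d, N i c d * W c d) ^ 2
      ≤ 3 * (∑ i, ∑ c, ∑ d, N i c d ^ 2) * ∑ c, ∑ d, W c d ^ 2 := by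
  set v : Fin 4 → ℝ := fun i => ∑ c, ∑ d, N i c d * W c d with hv
  set Q := ∑ c, ∑ d, W c d ^ 2 with hQ
  set NN := ∑ i, ∑ c, ∑ d, N i c d ^ 2 with hNN
  have h1 := MM_norm v hW
  have h2 := MM_dot v hW hN
  have h3 : ∑ i, v i * ∑ c, ∑ d, N i c d * W c d = ∑ i, v i ^ 2 :=
    sum_congr rfl fun i _ => by rw [pow_two]
  rw [h3] at h2
  rw [← hQ] at h1
  have h4 : 0 ≤ ∑ i, ∑ c, ∑ d, (3 * Q * N i c d - 5 * MM v W i c d) ^ 2 :=
    sum_nonneg fun _ _ => sum_nonneg fun _ _ => sum_nonneg fun _ _ => sq_nonneg _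
  have h5 : ∑ i, ∑ c, ∑ d, (3 * Q * N i c d - 5 * MM v W i c d) ^ 2
      = 9 * Q ^ 2 * NN - 30 * Q * ∑ i, ∑ c, ∑ d, MM v W i c d * N i c d
        + 25 * ∑ i, ∑ c, ∑ d, MM v W i c d ^ 2 := by
    exact sum_expand Q N (MM v W)
  rw [h5, h2] at h4
  have hv' : ∑ i, (∑ c, ∑ d, N i c d * W c d) ^ 2 = ∑ i, v i ^ 2 := rfl
  rw [hv']
  have hQ0 : 0 ≤ Q := sum_nonneg fun _ _ => sum_nonneg fun _ _ => sq_nonneg _
  rcases hQ0.eq_or_lt with h0 | h0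
  · have hW0 : ∀ c d, W c d = 0 := by
      intro c d
      have := (sum_eq_zero_iff_of_nonneg (fun c _ => sum_nonneg fun d _ => sq_nonneg (W c d))).1
        h0.symm c (mem_univ c)
      have := (sum_eq_zero_iff_of_nonneg (fun d _ => sq_nonneg (W c d))).1 this d (mem_univ d)
      exact pow_eq_zero_iff (two_ne_zero) |>.1 this
    have : ∑ i, v i ^ 2 = 0 := by
      refine sum_eq_zero fun i _ => ?_
      simp [hv, hW0]
    rw [this, ← h0]; simp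
  · have : 0 ≤ Q * (3 * NN * Q - 5 * ∑ i, v i ^ 2) := by nlinarith [h4, h1]
    have := nonneg_of_mul_nonneg_right this h0
    linarith

end Crest.Agent.R249.FrK129
end

-- ▼ part R249/FrL_129
section

/-!
Linear algebra in `Λ²ℝ⁴ = Λ⁺ ⊕ Λ⁻` and eigenvalues of tracefree symmetric `3×3` matrices.
(row 249, helper129)
-/

set_option autoImplicit false
set_option linter.unusedSimpArgs false

namespace Crest.Agent.R249.FrL129

open Finset

/-- self-dual part of `x ∧ y` -/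
def sp (x y : Fin 4 → ℝ) : Fin 3 → ℝ :=
  ![(x 0 * y 1 - x 1 * y 0) + (x 2 * y 3 - x 3 * y 2),
    (x 0 * y 2 - x 2 * y 0) - (x 1 * y 3 - x 3 * y 1),
    (x 0 * y 3 - x 3 * y 0) + (x 1 * y 2 - x 2 * y 1)]

/-- anti-self-dual part of `x ∧ y` (orientation reversed basis `e01 - e23, e02 + e13, -e03 + e12`) -/
def sm (x y : Fin 4 → ℝ) : Fin 3 → ℝ :=
  ![(x 0 * y 1 - x 1 * y 0) - (x 2 * y 3 - x 3 * y 2),
    (x 0 * y 2 - x 2 * y 0) + (x 1 * y 3 - x 3 * y 1),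
    -(x 0 * y 3 - x 3 * y 0) + (x 1 * y 2 - x 2 * y 1)]

/-- `x I_u` -/
def mI (u : Fin 3 → ℝ) (x : Fin 4 → ℝ) : Fin 4 → ℝ :=
  ![-(x 1 * u 0 + x 2 * u 1 + x 3 * u 2), x 0 * u 0 - x 2 * u 2 + x 3 * u 1,
    x 0 * u 1 + x 1 * u 2 - x 3 * u 0, x 0 * u 2 - x 1 * u 1 + x 2 * u 0]

/-- `x J_v` -/
def mJ (v : Fin 3 → ℝ) (x : Fin 4 → ℝ) : Fin 4 → ℝ :=
  ![-(x 1 * v 0 + x 2 * v 1 - x 3 * v 2), x 0 * v 0 - x 2 * v 2 - x 3 * v 1,
    x 0 * v 1 + x 1 * v 2 + x 3 * v 0, -(x 0 * v 2) + x 1 * v 1 - x 2 * v 0]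

lemma sp_mI (u : Fin 3 → ℝ) (x : Fin 4 → ℝ) (a : Fin 3) :
    sp x (mI u x) a = (x 0 ^ 2 + x 1 ^ 2 + x 2 ^ 2 + x 3 ^ 2) * u a := by
  fin_cases a <;> simp [sp, mI] <;> ring

lemma sm_mJ (v : Fin 3 → ℝ) (x : Fin 4 → ℝ) (a : Fin 3) :
    sm x (mJ v x) a = (x 0 ^ 2 + x 1 ^ 2 + x 2 ^ 2 + x 3 ^ 2) * v a := by
  fin_cases a <;> simp [sm, mJ] <;> ring

lemma mI_eq_mJ {u v : Fin 3 → ℝ} (h : u 0 ^ 2 + u 1 ^ 2 + u 2 ^ 2 = v 0 ^ 2 + v 1 ^ 2 + v 2 ^ 2)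
    (z : Fin 4 → ℝ) : mI u (mI u z + mJ v z) = mJ v (mI u z + mJ v z) := by
  funext i
  fin_cases i <;> simp [mI, mJ]
  · linear_combination (-z 0) * h
  · linear_combination (-z 1) * h
  · linear_combination (-z 2) * h
  · linear_combination (-z 3) * h

/-- Every pair of unit vectors `u ∈ Λ⁺, v ∈ Λ⁻` comes from a decomposable 2-form. -/
theorem exists_xy (u v : Fin 3 → ℝ) (hu : u 0 ^ 2 + u 1 ^ 2 + u 2 ^ 2 = 1)
    (hv : v 0 ^ 2 + v 1 ^ 2 + v 2 ^ 2 = 1) :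
    ∃ x y : Fin 4 → ℝ, ∃ r : ℝ, 0 < r ∧ (∀ a, sp x y a = r * u a) ∧ (∀ a, sm x y a = r * v a) := by
  have key : ∀ z : Fin 4 → ℝ,
      (0 < (mI u z + mJ v z) 0 ^ 2 + (mI u z + mJ v z) 1 ^ 2 + (mI u z + mJ v z) 2 ^ 2
        + (mI u z + mJ v z) 3 ^ 2) →
      ∃ x y : Fin 4 → ℝ, ∃ r : ℝ, 0 < r ∧ (∀ a, sp x y a = r * u a) ∧
        (∀ a, sm x y a = r * v a) := by
    intro z hz
    refine ⟨mI u z + mJ v z, mI u (mI u z + mJ v z), _, hz, fun a => sp_mI _ _ a, fun a => ?_⟩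
    rw [mI_eq_mJ (by rw [hu, hv])]
    exact sm_mJ _ _ a
  by_contra hcon
  have h0 := not_lt.1 (mt (key ![1, 0, 0, 0]) hcon)
  have h1 := not_lt.1 (mt (key ![0, 1, 0, 0]) hcon)
  have h2 := not_lt.1 (mt (key ![0, 0, 1, 0]) hcon)
  have h3 := not_lt.1 (mt (key ![0, 0, 0, 1]) hcon)
  simp [mI, mJ] at h0 h1 h2 h3
  nlinarith [h0, h1, h2, h3, hu, hv]

/-- Eigenvalues of a symmetric `3×3` matrix with the elementary symmetric functions. -/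
theorem eig3 (W : Fin 3 → Fin 3 → ℝ) (hs : ∀ c d, W c d = W d c) :
    ∃ m : Fin 3 → ℝ, m 0 + m 1 + m 2 = W 0 0 + W 1 1 + W 2 2 ∧
      m 0 * m 1 + m 0 * m 2 + m 1 * m 2 = W 0 0 * W 1 1 + W 0 0 * W 2 2 + W 1 1 * W 2 2
        - W 0 1 ^ 2 - W 0 2 ^ 2 - W 1 2 ^ 2 ∧
      m 0 * m 1 * m 2 = W 0 0 * W 1 1 * W 2 2 + 2 * W 0 1 * W 0 2 * W 1 2 - W 0 0 * W 1 2 ^ 2
        - W 1 1 * W 0 2 ^ 2 - W 2 2 * W 0 1 ^ 2 ∧
      ∀ i, ∃ u : Fin 3 → ℝ, u 0 ^ 2 + u 1 ^ 2 + u 2 ^ 2 = 1 ∧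
        ∀ c, W c 0 * u 0 + W c 1 * u 1 + W c 2 * u 2 = m i * u c := by
  set A : Matrix (Fin 3) (Fin 3) ℝ := Matrix.of W with hAdef
  have hA : A.IsHermitian := by
    ext i j
    simp [hAdef, Matrix.conjTranspose_apply, hs j i]
  refine ⟨hA.eigenvalues, ?_, ?_, ?_, ?_⟩
  · have := hA.trace_eq_sum_eigenvalues
    simp [Matrix.trace, Fin.sum_univ_three, hAdef] at this
    linarith
  · have h := congrArg (Polynomial.eval (1 : ℝ)) hA.charpoly_eq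
    have hd := hA.det_eq_prod_eigenvalues
    have ht := hA.trace_eq_sum_eigenvalues
    rw [Matrix.eval_charpoly] at h
    simp [Matrix.det_fin_three, Fin.prod_univ_three, Matrix.trace, Fin.sum_univ_three,
      Polynomial.eval_prod, hAdef, Matrix.sub_apply, Matrix.diagonal_apply] at h hd ht
    rw [hs 1 0, hs 2 0, hs 2 1] at h hd
    nlinarith [h, hd, ht]
  · have hd := hA.det_eq_prod_eigenvalues
    simp [Matrix.det_fin_three, Fin.prod_univ_three, hAdef] at hd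
    rw [hs 1 0, hs 2 0, hs 2 1] at hd
    linarith
  · intro i
    refine ⟨fun c => hA.eigenvectorBasis i c, ?_, fun c => ?_⟩
    · have := hA.eigenvectorBasis.orthonormal.1 i
      rw [EuclideanSpace.norm_eq] at this
      have h2 := congrArg (fun x => x ^ 2) this
      simp only [Real.sq_sqrt (Finset.sum_nonneg fun _ _ => sq_nonneg _), one_pow] at h2
      simpa [Fin.sum_univ_three] using h2
    · have := congrFun (hA.mulVec_eigenvectorBasis i) c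
      simpa [Matrix.mulVec, dotProduct, Fin.sum_univ_three, hAdef] using this

end Crest.Agent.R249.FrL129
end

-- ▼ part R249/FrM_129
section

/-!
Estimates for tracefree symmetric `3×3` matrices; sectional curvature `≥ 0` gives
`|W⁺| + |W⁻| ≤ √6 · 2λ/3`. (row 249, helper129)
-/

set_option autoImplicit false
set_option linter.unusedSimpArgs false

namespace Crest.Agent.R249.FrM129

open Finset FrK129 FrL129

/-- `|W|²` -/
def nsq (W : Fin 3 → Fin 3 → ℝ) : ℝ := ∑ c, ∑ d, W c d ^ 2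

lemma nsq_nonneg (W : Fin 3 → Fin 3 → ℝ) : 0 ≤ nsq W :=
  sum_nonneg fun _ _ => sum_nonneg fun _ _ => sq_nonneg _

/-- determinant of a symmetric `3×3` matrix -/
def sdet (W : Fin 3 → Fin 3 → ℝ) : ℝ := W 0 0 * W 1 1 * W 2 2 + 2 * W 0 1 * W 0 2 * W 1 2
  - W 0 0 * W 1 2 ^ 2 - W 1 1 * W 0 2 ^ 2 - W 2 2 * W 0 1 ^ 2

/-- quadratic form -/
def qf (W : Fin 3 → Fin 3 → ℝ) (u : Fin 3 → ℝ) : ℝ := ∑ c, ∑ d, W c d * u c * u d

lemma nsq_eq {W : Fin 3 → Fin 3 → ℝ} (hW : Sym0 W) {m : Fin 3 → ℝ}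
    (h1 : m 0 + m 1 + m 2 = W 0 0 + W 1 1 + W 2 2)
    (h2 : m 0 * m 1 + m 0 * m 2 + m 1 * m 2 = W 0 0 * W 1 1 + W 0 0 * W 2 2 + W 1 1 * W 2 2
        - W 0 1 ^ 2 - W 0 2 ^ 2 - W 1 2 ^ 2) :
    nsq W = m 0 ^ 2 + m 1 ^ 2 + m 2 ^ 2 := by
  have s10 : W 1 0 = W 0 1 := hW.symm 1 0
  have s20 : W 2 0 = W 0 2 := hW.symm 2 0
  have s21 : W 2 1 = W 1 2 := hW.symm 2 1
  simp only [nsq, Fin.sum_univ_three, s10, s20, s21]
  linear_combination 2 * h2 - (m 0 + m 1 + m 2 + W 0 0 + W 1 1 + W 2 2) * h1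

/-- `54 (det W)² ≤ |W|⁶`. -/
theorem sdet_sq_le {W : Fin 3 → Fin 3 → ℝ} (hW : Sym0 W) : 54 * sdet W ^ 2 ≤ nsq W ^ 3 := by
  obtain ⟨m, h1, h2, h3, -⟩ := eig3 W hW.symm
  have hn := nsq_eq hW h1 h2
  have hd : sdet W = m 0 * m 1 * m 2 := h3.symm
  have h0 : m 2 = - m 0 - m 1 := by linarith [hW.tr]
  rw [hn, hd, h0]
  nlinarith [sq_nonneg ((m 0 - m 1) * (2 * m 0 + m 1) * (m 0 + 2 * m 1))]

/-- `18 det W ≤ √6 |W|³`. -/
theorem sdet_le {W : Fin 3 → Fin 3 → ℝ} (hW : Sym0 W) :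
    18 * sdet W ≤ Real.sqrt 6 * Real.sqrt (nsq W) ^ 3 := by
  have h := sdet_sq_le hW
  have hq := Real.sqrt_nonneg (nsq W)
  have h6 := Real.sqrt_nonneg (6 : ℝ)
  refine le_of_sq_le_sq ?_ (by positivity)
  have e : (Real.sqrt 6 * Real.sqrt (nsq W) ^ 3) ^ 2 = 6 * nsq W ^ 3 := by
    have : (Real.sqrt 6 * Real.sqrt (nsq W) ^ 3) ^ 2
        = (Real.sqrt 6 ^ 2) * (Real.sqrt (nsq W) ^ 2) ^ 3 := by ring
    rw [this, Real.sq_sqrt (by norm_num), Real.sq_sqrt (nsq_nonneg W)]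
  rw [e]; nlinarith

/-- Some unit vector has `⟨Wu,u⟩ ≤ -|W|/√6`. -/
theorem exists_neg {W : Fin 3 → Fin 3 → ℝ} (hW : Sym0 W) :
    ∃ u : Fin 3 → ℝ, u 0 ^ 2 + u 1 ^ 2 + u 2 ^ 2 = 1 ∧
      Real.sqrt (nsq W) ≤ - Real.sqrt 6 * qf W u := by
  obtain ⟨m, h1, h2, -, h4⟩ := eig3 W hW.symm
  have hn := nsq_eq hW h1 h2
  have h0 : m 0 + m 1 + m 2 = 0 := by linarith [hW.tr]
  -- the smallest eigenvalue
  obtain ⟨i, hi⟩ : ∃ i, ∀ j, m i ≤ m j := Finite.exists_min m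
  obtain ⟨u, hu, he⟩ := h4 i
  refine ⟨u, hu, ?_⟩
  have hq : qf W u = m i := by
    have : qf W u = ∑ c, (W c 0 * u 0 + W c 1 * u 1 + W c 2 * u 2) * u c := by
      simp only [qf, Fin.sum_univ_three]; ring
    rw [this]; simp_rw [he, Fin.sum_univ_three]
    linear_combination m i * hu
  rw [hq]
  have hneg : m i ≤ 0 := by
    have a := hi 0
    have b := hi 1
    have c := hi 2
    linarith
  have hle : nsq W ≤ 6 * m i ^ 2 := by
    rw [hn]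
    have a := hi 0
    have b := hi 1
    have c := hi 2
    have e : m 2 = - m 0 - m 1 := by linarith
    have p1 := mul_nonneg (sub_nonneg.2 a) (sub_nonneg.2 b)
    have p2 := mul_nonneg (sub_nonneg.2 b) (sub_nonneg.2 c)
    have p3 := mul_nonneg (sub_nonneg.2 a) (sub_nonneg.2 c)
    generalize m i = x at *
    rw [e] at p2 p3 ⊢
    nlinarith [p1, p2, p3]
  have : Real.sqrt (nsq W) ≤ Real.sqrt (6 * m i ^ 2) := Real.sqrt_le_sqrt hle
  rw [Real.sqrt_mul (by norm_num), Real.sqrt_sq_eq_abs, abs_of_nonpos hneg] at this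
  linarith

/-- **Pinching.** If `⟨Au,u⟩ + ⟨Cv,v⟩ ≥ 0` for unit vectors, `A = W⁺ + λ/3`, `C = W⁻ + λ/3`, then
`|W⁺| + |W⁻| ≤ √6 · (2λ/3)`. -/
theorem pinch {Wp Wm : Fin 3 → Fin 3 → ℝ} (hp : Sym0 Wp) (hm : Sym0 Wm) {lam : ℝ}
    (h : ∀ u v : Fin 3 → ℝ, u 0 ^ 2 + u 1 ^ 2 + u 2 ^ 2 = 1 → v 0 ^ 2 + v 1 ^ 2 + v 2 ^ 2 = 1 →
      0 ≤ qf Wp u + qf Wm v + 2 * lam / 3) :
    Real.sqrt (nsq Wp) + Real.sqrt (nsq Wm) ≤ Real.sqrt 6 * (2 * lam / 3) := by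
  obtain ⟨u, hu, h1⟩ := exists_neg hp
  obtain ⟨v, hv, h2⟩ := exists_neg hm
  have h3 := h u v hu hv
  have := mul_nonneg (Real.sqrt_nonneg (6 : ℝ)) h3
  linarith

/-- Pointwise form of the subsolution inequality for `(|W|² + δ²)^{1/6}`: with `q = |W|²`,
`Δq = 2|N|² + 4λq - 36 det W`, `∂_i q = 2⟨N_i,W⟩`. -/
theorem bochner_ineq {W : Fin 3 → Fin 3 → ℝ} (hW : Sym0 W) {N : Fin 4 → Fin 3 → Fin 3 → ℝ}
    (hN : BianchiN N) {lam d lapq : ℝ} {dq : Fin 4 → ℝ}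
    (hlap : lapq = 2 * ∑ i, ∑ c, ∑ d, N i c d ^ 2 + 4 * lam * nsq W - 36 * sdet W)
    (hdq : ∀ i, dq i = 2 * ∑ c, ∑ d, N i c d * W c d) :
    4 * lam * nsq W - 2 * Real.sqrt 6 * Real.sqrt (nsq W) ^ 3
      ≤ lapq - (5 / 6) * (∑ i, dq i ^ 2) / (nsq W + d ^ 2) := by
  have hk := kato hW hN
  have hd := sdet_le hW
  set NN := ∑ i, ∑ c, ∑ d, N i c d ^ 2 with hNN
  have hNN0 : 0 ≤ NN := sum_nonneg fun _ _ => sum_nonneg fun _ _ => sum_nonneg fun _ _ =>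
    sq_nonneg _
  have hq : 0 ≤ nsq W := nsq_nonneg W
  have e : ∑ i, dq i ^ 2 = 4 * ∑ i, (∑ c, ∑ d, N i c d * W c d) ^ 2 := by
    rw [mul_sum]; exact sum_congr rfl fun i _ => by rw [hdq]; ring
  have h1 : (5 / 6) * (∑ i, dq i ^ 2) / (nsq W + d ^ 2) ≤ 2 * NN := by
    rcases (add_nonneg hq (sq_nonneg d)).eq_or_lt with h0 | h0
    · rw [← h0, div_zero]; linarith
    · rw [div_le_iff₀ h0, e]
      have : 5 * ∑ i, (∑ c, ∑ d, N i c d * W c d) ^ 2 ≤ 3 * NN * nsq W := hk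
      nlinarith [mul_nonneg hNN0 (sq_nonneg d)]
  rw [hlap]; linarith

end Crest.Agent.R249.FrM129
end

-- ▼ part R249/FrP_129

/-!
Evaluation at a point: the pointwise statements of part B1 of row 249 (Einstein 4-manifolds):
Bochner inequality for `|W^±|²` and the pinching `|W⁺| + |W⁻| ≤ √6 (2λ/3)` from `sec ≥ 0`.
(row 249, helper129)
-/

set_option autoImplicit false
set_option linter.unusedSimpArgs false
set_option linter.unusedSectionVars false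

namespace Crest.Agent.R249.Fr129

open Finset FrK129 FrL129 FrM129

namespace Frame

variable {S : Type*} [CommRing S] [Algebra ℝ S] (F : Frame 4 S) (ev : S →ₐ[ℝ] ℝ) (lam : ℝ)

/-- `W⁺` at the point. -/
noncomputable def Wr (c d : Fin 3) : ℝ := ev (F.WW (algebraMap ℝ S lam) c d)

/-- `∇W⁺` at the point. -/
noncomputable def Nr (i : Fin 4) (c d : Fin 3) : ℝ := ev (F.NN i c d)

/-- the curvature tensor at the point. -/
noncomputable def Rr (i j k l : Fin 4) : ℝ := ev (F.Rm i j k l)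

variable {lam}
variable (hE : F.Einstein (algebraMap ℝ S lam))
include hE

lemma Wr_sym0 : Sym0 (F.Wr ev lam) where
  symm c d := by rw [Wr, Wr, F.WW_symm]
  tr := by
    have := congrArg ev (F.WW_trace hE)
    simpa only [Wr, Nr, map_add, map_zero] using this

lemma Nr_bianchi : BianchiN (F.Nr ev) where
  symm i c d := by rw [Nr, Nr, F.NN_symm]
  tr i := by
    have := congrArg ev (F.NN_trace0 hE i)
    simpa only [Wr, Nr, map_add, map_zero] using this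
  z0 c := by
    have := congrArg ev (F.z0 hE c)
    simpa only [Wr, Nr, map_add, map_sub, map_zero] using this
  z1 c := by
    have := congrArg ev (F.z1 hE c)
    simpa only [Wr, Nr, map_add, map_sub, map_zero] using this
  z2 c := by
    have := congrArg ev (F.z2 hE c)
    simpa only [Wr, Nr, map_add, map_sub, map_zero] using this
  z3 c := by
    have := congrArg ev (F.z3 hE c)
    simpa only [Wr, Nr, map_add, map_sub, map_zero] using this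

omit hE in
lemma ev_qq : ev (F.qq (algebraMap ℝ S lam)) = nsq (F.Wr ev lam) := by
  simp only [qq, nsq, Wr, map_sum, map_mul, pow_two]

lemma ev_lap_qq : ev (F.lap0 (F.qq (algebraMap ℝ S lam)))
    = 2 * ∑ i, ∑ c, ∑ d, F.Nr ev i c d ^ 2 + 4 * lam * nsq (F.Wr ev lam)
      - 36 * sdet (F.Wr ev lam) := by
  rw [F.lap_qq hE]
  simp only [map_sub, map_add, map_mul, map_sum, map_pow, F.ev_qq ev, map_ofNat, AlgHom.commutes,
    Algebra.algebraMap_self, RingHom.id_apply, sdet, Wr, Nr]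

lemma ev_D_qq (i : Fin 4) : ev (F.D i (F.qq (algebraMap ℝ S lam)))
    = 2 * ∑ c, ∑ d, F.Nr ev i c d * F.Wr ev lam c d := by
  rw [F.D_qq hE]
  simp only [map_mul, map_sum, map_ofNat, Wr, Nr]

/-- Bochner inequality for `q = |W⁺|²`:
`4λq - 2√6 q^{3/2} ≤ Δq - (5/6) |∇q|²/(q + d²)`. -/
theorem bochner_pt (d : ℝ) :
    4 * lam * ev (F.qq (algebraMap ℝ S lam))
        - 2 * Real.sqrt 6 * Real.sqrt (ev (F.qq (algebraMap ℝ S lam))) ^ 3
      ≤ ev (F.lap0 (F.qq (algebraMap ℝ S lam)))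
        - (5 / 6) * ev (F.gam (F.qq (algebraMap ℝ S lam)) (F.qq (algebraMap ℝ S lam)))
          / (ev (F.qq (algebraMap ℝ S lam)) + d ^ 2) := by
  have h := bochner_ineq (F.Wr_sym0 ev hE) (F.Nr_bianchi ev hE) (d := d) (F.ev_lap_qq ev hE)
    (F.ev_D_qq ev hE)
  have g : ev (F.gam (F.qq (algebraMap ℝ S lam)) (F.qq (algebraMap ℝ S lam)))
      = ∑ i, ev (F.D i (F.qq (algebraMap ℝ S lam))) ^ 2 := by
    simp only [gam, map_sum, map_mul, pow_two]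
  rw [g, F.ev_qq ev]; exact h

lemma AA_eq_W (c d : Fin 3) : ev (F.AA c d) = F.Wr ev lam c d + if c = d then lam / 3 else 0 := by
  simp only [Wr, WW, map_sub]
  split_ifs
  · simp only [map_mul, third, AlgHom.commutes, Algebra.algebraMap_self, RingHom.id_apply]; ring
  · simp

/-- Sectional curvature `≥ 0` gives `|W⁺| + |W⁻| ≤ √6 (2λ/3)`. -/
theorem pinch_pt (hK : ∀ x y : Fin 4 → ℝ,
      0 ≤ ∑ i, ∑ j, ∑ k, ∑ l, ev (F.Rm i j k l) * x i * y j * y k * x l) :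
    Real.sqrt (ev (F.qq (algebraMap ℝ S lam))) + Real.sqrt (ev (F.flip.qq (algebraMap ℝ S lam)))
      ≤ Real.sqrt 6 * (2 * lam / 3) := by
  have hE' := F.Einstein_flip hE
  rw [F.ev_qq ev, F.flip.ev_qq ev]
  refine pinch (F.Wr_sym0 ev hE) (F.flip.Wr_sym0 ev hE') ?_
  intro u v hu hv
  obtain ⟨x, y, r, hr, h1, h2⟩ := FrL129.exists_xy u v hu hv
  have h3 := hK x y
  have h4 := congrArg ev (F.sec_eq hE (fun i => algebraMap ℝ S (x i)) (fun i => algebraMap ℝ S (y i)))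
  have e1 : ∀ a, ev (Frame.sp (fun i => algebraMap ℝ S (x i)) (fun i => algebraMap ℝ S (y i)) a)
      = FrL129.sp x y a := by
    intro a
    fin_cases a <;> simp [Frame.sp, FrL129.sp]
  have e2 : ∀ a, ev (Frame.sm (fun i => algebraMap ℝ S (x i)) (fun i => algebraMap ℝ S (y i)) a)
      = FrL129.sm x y a := by
    intro a
    fin_cases a <;> simp [Frame.sm, FrL129.sm]
  simp only [map_mul, map_add, map_sum, map_ofNat, AlgHom.commutes, Algebra.algebraMap_self,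
    RingHom.id_apply, e1, e2, h1, h2, F.AA_eq_W ev hE, F.flip.AA_eq_W ev hE'] at h4
  have h5 : 0 ≤ r ^ 2 * (qf (F.Wr ev lam) u + qf (F.flip.Wr ev lam) v + 2 * lam / 3) := by
    have e : r ^ 2 * (qf (F.Wr ev lam) u + qf (F.flip.Wr ev lam) v + 2 * lam / 3)
        = 2 * ∑ i, ∑ j, ∑ k, ∑ l, ev (F.Rm i j k l) * x i * y j * y k * x l := by
      rw [h4]
      simp only [qf, Fin.sum_univ_three, Fin.isValue, reduceIte, Fin.reduceEq, add_zero,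
        zero_ne_one, one_ne_zero]
      linear_combination (-(r ^ 2) * lam / 3) * hu + (-(r ^ 2) * lam / 3) * hv
    rw [e]; linarith
  exact nonneg_of_mul_nonneg_right h5 (by positivity)

end Frame

end Crest.Agent.R249.Fr129
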