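import Crest.Agent.R249.B2Iso_474
import Crest.Agent.R249.FrP_129
import Mathlib
import Crest.Agent.R249.SgD_129
import Crest.Agent.R249.Ptw_850
import Crest.Agent.R247.Ms2_322
import Crest.Agent.R247.Bo5_84

-- ▼ part R249/Par3_493
section

/-!
Row 249, B1-PAR (helper493), bridge "frame components of `∇R`" ⇒ 474's `nab`.

For a metric `(U, g, Γ)` (`IsLC`) and a smooth frame `e` near `x ∈ U`, orthonormal at `x`:
* `wf k i j y = g(∇_{e_k} e_i, e_j)`, `rf i j k l y = g(R(e_i,e_j)e_k, e_l)`;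
* `nf p i j k l y = e_p (rf i j k l) - ∑ (wf p i m rf m j k l + ...)`;
* `nf_eq : nf p i j k l x = g x (nab Γ x e_p e_i e_j e_k) e_l`;
* `nab_eq_zero : (∀ p i j k l, nf p i j k l x = 0) → ∀ W X Y Z, nab Γ x W X Y Z = 0`.
-/

set_option autoImplicit false
set_option maxSynthPendingDepth 3
set_option linter.unusedSectionVars false

open Set Filter Topology
open scoped ContDiff
open Crest.Agent.R244.CF (IsLC curv cov hasDerivAt_apply2 hasFDerivAt_apply2 fderiv_apply2_const)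
open Crest.Agent.R249.B2Defs_474 Crest.Agent.R249.B2Jac_474 Crest.Agent.R249.B2Iso_474

noncomputable section

namespace Crest.Agent.R249.Par3_493

variable {E : Type*} [NormedAddCommGroup E] [NormedSpace ℝ E] [FiniteDimensional ℝ E]
variable {U : Set E} {g : E → E →L[ℝ] E →L[ℝ] ℝ} {Γ : E → E →L[ℝ] E →L[ℝ] E}

theorem curv_smul1 (Γ : E → E →L[ℝ] E →L[ℝ] E) (x : E) (r : ℝ) (a b c : E) :
    curv Γ x (r • a) b c = r • curv Γ x a b c := by
  simp only [curv, map_smul, smul_apply, smul_sub, smul_add]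

theorem curv_smul2 (Γ : E → E →L[ℝ] E →L[ℝ] E) (x : E) (r : ℝ) (a b c : E) :
    curv Γ x a (r • b) c = r • curv Γ x a b c := by
  simp only [curv, map_smul, smul_apply, smul_sub, smul_add]

theorem curv_smul3 (Γ : E → E →L[ℝ] E →L[ℝ] E) (x : E) (r : ℝ) (a b c : E) :
    curv Γ x a b (r • c) = r • curv Γ x a b c := by
  simp only [curv, map_smul, smul_sub, smul_add]

/-- linearity of `curv` in finite sums -/
theorem curv_sum1 (Γ : E → E →L[ℝ] E →L[ℝ] E) (x : E) {ι : Type*} (s : Finset ι) (r : ι → ℝ)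
    (a : ι → E) (b c : E) :
    curv Γ x (∑ m ∈ s, r m • a m) b c = ∑ m ∈ s, r m • curv Γ x (a m) b c := by
  classical
  induction s using Finset.induction_on with
  | empty => simp [curv]
  | insert m s hm ih => rw [Finset.sum_insert hm, Finset.sum_insert hm, curv_add1, curv_smul1, ih]

theorem curv_sum2 (Γ : E → E →L[ℝ] E →L[ℝ] E) (x : E) {ι : Type*} (s : Finset ι) (r : ι → ℝ)
    (a : E) (b : ι → E) (c : E) :
    curv Γ x a (∑ m ∈ s, r m • b m) c = ∑ m ∈ s, r m • curv Γ x a (b m) c := by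
  classical
  induction s using Finset.induction_on with
  | empty => simp [curv]
  | insert m s hm ih => rw [Finset.sum_insert hm, Finset.sum_insert hm, curv_add2, curv_smul2, ih]

theorem curv_sum3 (Γ : E → E →L[ℝ] E →L[ℝ] E) (x : E) {ι : Type*} (s : Finset ι) (r : ι → ℝ)
    (a b : E) (c : ι → E) :
    curv Γ x a b (∑ m ∈ s, r m • c m) = ∑ m ∈ s, r m • curv Γ x a b (c m) := by
  classical
  induction s using Finset.induction_on with
  | empty => simp [curv]
  | insert m s hm ih => rw [Finset.sum_insert hm, Finset.sum_insert hm, curv_add3, curv_smul3, ih]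

theorem contDiffAt_curv (h : IsLC U g Γ) {x : E} (hx : x ∈ U) {A B C : E → E}
    (hA : ContDiffAt ℝ ∞ A x) (hB : ContDiffAt ℝ ∞ B x) (hC : ContDiffAt ℝ ∞ C x) :
    ContDiffAt ℝ ∞ (fun y => curv Γ y (A y) (B y) (C y)) x := by
  have hG := h.Γ_contDiffAt hx
  have hDG : ContDiffAt ℝ ∞ (fderiv ℝ Γ) x := hG.fderiv_right (m := ∞) (by simp)
  unfold curv
  exact (((((hDG.clm_apply hA).clm_apply hB).clm_apply hC).sub
    (((hDG.clm_apply hB).clm_apply hA).clm_apply hC)).add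
    ((hG.clm_apply hA).clm_apply ((hG.clm_apply hB).clm_apply hC))).sub
    ((hG.clm_apply hB).clm_apply ((hG.clm_apply hA).clm_apply hC))

section frame

variable {ι : Type*} [Fintype ι]

/-- connection coefficients of the frame: `⟨∇_{e_k} e_i, e_j⟩` -/
def wf (g : E → E →L[ℝ] E →L[ℝ] ℝ) (Γ : E → E →L[ℝ] E →L[ℝ] E) (e : ι → E → E) (k i j : ι)
    (y : E) : ℝ :=
  g y (fderiv ℝ (e i) y (e k y) + Γ y (e k y) (e i y)) (e j y)

/-- components of the curvature tensor `⟨R(e_i,e_j) e_k, e_l⟩` -/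
def rf (g : E → E →L[ℝ] E →L[ℝ] ℝ) (Γ : E → E →L[ℝ] E →L[ℝ] E) (e : ι → E → E) (i j k l : ι)
    (y : E) : ℝ :=
  g y (curv Γ y (e i y) (e j y) (e k y)) (e l y)

/-- frame components of `∇R` -/
def nf (g : E → E →L[ℝ] E →L[ℝ] ℝ) (Γ : E → E →L[ℝ] E →L[ℝ] E) (e : ι → E → E) (p i j k l : ι)
    (y : E) : ℝ :=
  fderiv ℝ (rf g Γ e i j k l) y (e p y) - ∑ m, wf g Γ e p i m y * rf g Γ e m j k l y
    - ∑ m, wf g Γ e p j m y * rf g Γ e i m k l y - ∑ m, wf g Γ e p k m y * rf g Γ e i j m l y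
    - ∑ m, wf g Γ e p l m y * rf g Γ e i j k m y

theorem contDiffAt_rf (h : IsLC U g Γ) {x : E} (hx : x ∈ U) {e : ι → E → E}
    (he : ∀ i, ContDiffAt ℝ ∞ (e i) x) (i j k l : ι) : ContDiffAt ℝ ∞ (rf g Γ e i j k l) x :=
  ((h.g_contDiffAt hx).clm_apply (contDiffAt_curv h hx (he i) (he j) (he k))).clm_apply (he l)

theorem nf_eq (h : IsLC U g Γ) {x : E} (hx : x ∈ U) {e : ι → E → E}
    (he : ∀ i, ContDiffAt ℝ ∞ (e i) x) (hexp : ∀ v, ∑ m, g x v (e m x) • e m x = v)
    (p i j k l : ι) :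
    nf g Γ e p i j k l x = g x (nab Γ x (e p x) (e i x) (e j x) (e k x)) (e l x) := by
  -- derivative of the component along the line `x + s e_p`
  have hl : HasDerivAt (fun s : ℝ => x + s • e p x) (e p x) 0 := by
    simpa using ((hasDerivAt_id (0 : ℝ)).smul_const (e p x)).const_add x
  have h0 : x + (0 : ℝ) • e p x = x := by simp
  have hce : ∀ i, HasDerivAt (fun s : ℝ => e i (x + s • e p x)) (fderiv ℝ (e i) x (e p x)) 0 := by
    intro i
    have hd : DifferentiableAt ℝ (e i) (x + (0 : ℝ) • e p x) := by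
      rw [h0]; exact (he i).differentiableAt (by simp)
    have := hd.hasFDerivAt.comp_hasDerivAt (0 : ℝ) hl
    rwa [h0] at this
  have hR := hasDerivAt_curv (c := fun s : ℝ => x + s • e p x) (t := 0) h (by rw [h0]; exact hx)
    hl (hce i) (hce j) (hce k)
  have hg : HasDerivAt (fun s : ℝ => g (x + s • e p x)) (fderiv ℝ g x (e p x)) 0 := by
    have hd : DifferentiableAt ℝ g (x + (0 : ℝ) • e p x) := by
      rw [h0]; exact h.g_differentiableAt hx
    have := hd.hasFDerivAt.comp_hasDerivAt (0 : ℝ) hl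
    rwa [h0] at this
  have hT := hasDerivAt_apply2 hg hR (hce l)
  have hT' : HasDerivAt (fun s : ℝ => rf g Γ e i j k l (x + s • e p x))
      (fderiv ℝ (rf g Γ e i j k l) x (e p x)) 0 := by
    have hd : DifferentiableAt ℝ (rf g Γ e i j k l) (x + (0 : ℝ) • e p x) := by
      rw [h0]; exact (contDiffAt_rf h hx he i j k l).differentiableAt (by simp)
    have := hd.hasFDerivAt.comp_hasDerivAt (0 : ℝ) hl
    rwa [h0] at this
  have hD := hT'.unique hT
  simp only [h0] at hD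
  rw [h.compat x hx] at hD
  -- expansion of `∇_{e_p} e_a` in the frame
  have hex : ∀ a, ∑ m, wf g Γ e p a m x • e m x = fderiv ℝ (e a) x (e p x) + Γ x (e p x) (e a x) :=
    fun a => hexp _
  have s1 : ∑ m, wf g Γ e p i m x * rf g Γ e m j k l x
      = g x (curv Γ x (fderiv ℝ (e i) x (e p x) + Γ x (e p x) (e i x)) (e j x) (e k x)) (e l x) := by
    rw [← hex i, curv_sum1]
    simp only [rf, map_sum, map_smul, sum_apply, smul_apply, smul_eq_mul]
  have s2 : ∑ m, wf g Γ e p j m x * rf g Γ e i m k l x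
      = g x (curv Γ x (e i x) (fderiv ℝ (e j) x (e p x) + Γ x (e p x) (e j x)) (e k x)) (e l x) := by
    rw [← hex j, curv_sum2]
    simp only [rf, map_sum, map_smul, sum_apply, smul_apply, smul_eq_mul]
  have s3 : ∑ m, wf g Γ e p k m x * rf g Γ e i j m l x
      = g x (curv Γ x (e i x) (e j x) (fderiv ℝ (e k) x (e p x) + Γ x (e p x) (e k x))) (e l x) := by
    rw [← hex k, curv_sum3]
    simp only [rf, map_sum, map_smul, sum_apply, smul_apply, smul_eq_mul]
  have s4 : ∑ m, wf g Γ e p l m x * rf g Γ e i j k m x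
      = g x (curv Γ x (e i x) (e j x) (e k x)) (fderiv ℝ (e l) x (e p x) + Γ x (e p x) (e l x)) := by
    rw [← hex l]
    simp only [rf, map_sum, map_smul, smul_eq_mul]
  rw [nf, hD, s1, s2, s3, s4]
  simp only [nab, map_add, map_sub, curv_add1, curv_add2, curv_add3, add_apply, sub_apply]
  ring

end frame

/-! ### multilinearity of `nab` -/

theorem fderiv_curv_add (h : IsLC U g Γ) {x : E} (hx : x ∈ U) {a b c a' b' c' a'' b'' c'' : E}
    (hc : ∀ y, curv Γ y a b c = curv Γ y a' b' c' + curv Γ y a'' b'' c'') (W : E) :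
    fderiv ℝ (fun y => curv Γ y a b c) x W =
      fderiv ℝ (fun y => curv Γ y a' b' c') x W + fderiv ℝ (fun y => curv Γ y a'' b'' c'') x W := by
  have : (fun y => curv Γ y a b c) = (fun y => curv Γ y a' b' c' + curv Γ y a'' b'' c'') :=
    funext hc
  rw [this]
  have := ((differentiableAt_curv h hx a' b' c').hasFDerivAt.add
    (differentiableAt_curv h hx a'' b'' c'').hasFDerivAt).fderiv
  exact DFunLike.congr_fun this W

theorem fderiv_curv_smul (h : IsLC U g Γ) {x : E} (hx : x ∈ U) {a b c a' b' c' : E} {r : ℝ}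
    (hc : ∀ y, curv Γ y a b c = r • curv Γ y a' b' c') (W : E) :
    fderiv ℝ (fun y => curv Γ y a b c) x W =
      r • fderiv ℝ (fun y => curv Γ y a' b' c') x W := by
  have : (fun y => curv Γ y a b c) = (fun y => r • curv Γ y a' b' c') := funext hc
  rw [this]
  have := ((differentiableAt_curv h hx a' b' c').hasFDerivAt.const_smul r).fderiv
  exact DFunLike.congr_fun this W

theorem nab_add0 (Γ : E → E →L[ℝ] E →L[ℝ] E) (x W W' X Y Z : E) :
    nab Γ x (W + W') X Y Z = nab Γ x W X Y Z + nab Γ x W' X Y Z := by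
  simp only [nab, map_add, add_apply, curv_add1, curv_add2, curv_add3]; abel

theorem nab_smul0 (Γ : E → E →L[ℝ] E →L[ℝ] E) (x : E) (r : ℝ) (W X Y Z : E) :
    nab Γ x (r • W) X Y Z = r • nab Γ x W X Y Z := by
  simp only [nab, map_smul, smul_apply, curv_smul1, curv_smul2, curv_smul3, smul_sub, smul_add]

theorem nab_add1 (h : IsLC U g Γ) {x : E} (hx : x ∈ U) (W X X' Y Z : E) :
    nab Γ x W (X + X') Y Z = nab Γ x W X Y Z + nab Γ x W X' Y Z := by
  simp only [nab]
  rw [fderiv_curv_add h hx (fun y => curv_add1 Γ y X X' Y Z)]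
  simp only [map_add, curv_add1]; abel

theorem nab_smul1 (h : IsLC U g Γ) {x : E} (hx : x ∈ U) (r : ℝ) (W X Y Z : E) :
    nab Γ x W (r • X) Y Z = r • nab Γ x W X Y Z := by
  simp only [nab]
  rw [fderiv_curv_smul h hx (fun y => curv_smul1 Γ y r X Y Z)]
  simp only [map_smul, curv_smul1, smul_sub, smul_add]

theorem nab_add2 (h : IsLC U g Γ) {x : E} (hx : x ∈ U) (W X Y Y' Z : E) :
    nab Γ x W X (Y + Y') Z = nab Γ x W X Y Z + nab Γ x W X Y' Z := by
  simp only [nab]
  rw [fderiv_curv_add h hx (fun y => curv_add2 Γ y X Y Y' Z)]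
  simp only [map_add, curv_add2]; abel

theorem nab_smul2 (h : IsLC U g Γ) {x : E} (hx : x ∈ U) (r : ℝ) (W X Y Z : E) :
    nab Γ x W X (r • Y) Z = r • nab Γ x W X Y Z := by
  simp only [nab]
  rw [fderiv_curv_smul h hx (fun y => curv_smul2 Γ y r X Y Z)]
  simp only [map_smul, curv_smul2, smul_sub, smul_add]

theorem nab_add3 (h : IsLC U g Γ) {x : E} (hx : x ∈ U) (W X Y Z Z' : E) :
    nab Γ x W X Y (Z + Z') = nab Γ x W X Y Z + nab Γ x W X Y Z' := by
  simp only [nab]
  rw [fderiv_curv_add h hx (fun y => curv_add3 Γ y X Y Z Z')]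
  simp only [map_add, curv_add3]; abel

theorem nab_smul3 (h : IsLC U g Γ) {x : E} (hx : x ∈ U) (r : ℝ) (W X Y Z : E) :
    nab Γ x W X Y (r • Z) = r • nab Γ x W X Y Z := by
  simp only [nab]
  rw [fderiv_curv_smul h hx (fun y => curv_smul3 Γ y r X Y Z)]
  simp only [map_smul, curv_smul3, smul_sub, smul_add]

/-- a predicate closed under `+` and scalars that holds on a spanning family holds everywhere -/
theorem all_of_span {ι : Type*} {b : ι → E} (hb : ⊤ ≤ Submodule.span ℝ (Set.range b))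
    {P : E → E} (hadd : ∀ u v, P (u + v) = P u + P v) (hsmul : ∀ (r : ℝ) u, P (r • u) = r • P u)
    (h0 : ∀ i, P (b i) = 0) (v : E) : P v = 0 := by
  have hv : v ∈ Submodule.span ℝ (Set.range b) := hb trivial
  induction hv using Submodule.span_induction with
  | mem x hx => obtain ⟨i, rfl⟩ := hx; exact h0 i
  | zero => simpa using hsmul 0 0
  | add x y _ _ hx hy => rw [hadd, hx, hy, add_zero]
  | smul r x _ hx => rw [hsmul, hx, smul_zero]

section main

variable {ι : Type*} [Fintype ι]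

theorem span_of_exp {x : E} {e : ι → E → E} (hexp : ∀ v, ∑ m, g x v (e m x) • e m x = v) :
    ⊤ ≤ Submodule.span ℝ (Set.range fun m => e m x) := by
  intro v _
  rw [← hexp v]
  exact Submodule.sum_mem _ fun m _ => Submodule.smul_mem _ _ (Submodule.subset_span ⟨m, rfl⟩)

/-- **all frame components of `∇R` vanish at `x` ⇒ `nab = 0` at `x`.** -/
theorem nab_eq_zero (h : IsLC U g Γ) {x : E} (hx : x ∈ U) {e : ι → E → E}
    (he : ∀ i, ContDiffAt ℝ ∞ (e i) x) (hexp : ∀ v, ∑ m, g x v (e m x) • e m x = v)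
    (hn : ∀ p i j k l, nf g Γ e p i j k l x = 0) (W X Y Z : E) : nab Γ x W X Y Z = 0 := by
  have hb := span_of_exp (g := g) hexp
  have h0 : ∀ p i j k, nab Γ x (e p x) (e i x) (e j x) (e k x) = 0 := by
    intro p i j k
    rw [← hexp (nab Γ x (e p x) (e i x) (e j x) (e k x))]
    refine Finset.sum_eq_zero fun l _ => ?_
    rw [← nf_eq h hx he hexp, hn, zero_smul]
  have h1 : ∀ p i j Z, nab Γ x (e p x) (e i x) (e j x) Z = 0 := fun p i j =>
    all_of_span hb (fun u v => nab_add3 h hx _ _ _ u v) (fun r u => nab_smul3 h hx r _ _ _ u)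
      (h0 p i j)
  have h2 : ∀ p i Y Z, nab Γ x (e p x) (e i x) Y Z = 0 := fun p i Y Z =>
    all_of_span hb (P := fun Y => nab Γ x (e p x) (e i x) Y Z)
      (fun u v => nab_add2 h hx _ _ u v _) (fun r u => nab_smul2 h hx r _ _ u _)
      (fun j => h1 p i j Z) Y
  have h3 : ∀ p X Y Z, nab Γ x (e p x) X Y Z = 0 := fun p X Y Z =>
    all_of_span hb (P := fun X => nab Γ x (e p x) X Y Z)
      (fun u v => nab_add1 h hx _ u v _ _) (fun r u => nab_smul1 h hx r _ u _ _)
      (fun i => h2 p i Y Z) X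
  exact all_of_span hb (P := fun W => nab Γ x W X Y Z)
      (fun u v => nab_add0 Γ x u v _ _ _) (fun r u => nab_smul0 Γ x r u _ _ _)
      (fun p => h3 p X Y Z) W

/-- orthonormality at `x` + the right number of vectors ⇒ expansion. -/
theorem exp_of_orthonormal [DecidableEq ι] {x : E} {b : ι → E}
    (hcard : Fintype.card ι = Module.finrank ℝ E)
    (ho : ∀ i j, g x (b i) (b j) = if i = j then 1 else 0) (v : E) :
    ∑ m, g x v (b m) • b m = v := by
  have hli : LinearIndependent ℝ b := by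
    rw [Fintype.linearIndependent_iff]
    intro c hc i
    have h1 : g x (∑ m, c m • b m) (b i) = c i := by
      simp only [map_sum, map_smul, sum_apply, smul_apply, smul_eq_mul, ho, mul_ite, mul_one,
        mul_zero, Finset.sum_ite_eq', Finset.mem_univ, if_true]
    rw [← h1, hc]
    simp
  have hsp := hli.span_eq_top_of_card_eq_finrank' hcard
  have key : ∀ w, ∑ m, g x w (b m) • b m - w = 0 := by
    refine all_of_span (P := fun w => ∑ m, g x w (b m) • b m - w) hsp.ge ?_ ?_ ?_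
    · intro u w
      simp only [map_add, add_apply, add_smul, Finset.sum_add_distrib]
      abel
    · intro r u
      simp only [map_smul, smul_apply, smul_eq_mul, smul_sub, Finset.smul_sum, smul_smul]
    · intro i
      simp only [ho, ite_smul, one_smul, zero_smul, Finset.sum_ite_eq, Finset.mem_univ, if_true,
        sub_self]
  exact sub_eq_zero.1 (key v)

end main

end Crest.Agent.R249.Par3_493

end
end

-- ▼ part R249/Par4_493
section

/-!
Row 249, B1-PAR (helper493): 474's `Frame n R0 p` from an orthonormal basis `e` of `T_p M` in which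
the curvature has components `Rm i j k l`, and a linear isometry `O` carrying `R0` to the tensor
with components `Rm` (850's `Ptw`).
-/

set_option autoImplicit false
set_option maxSynthPendingDepth 3
set_option linter.unusedSectionVars false

open Set Filter Topology Bundle
open scoped ContDiff Manifold
open Crest.Agent.R244.CF (IsLC curv)
open Crest.Agent.R226.ChartMet842 (gm Gm isLC_gm)
open Crest.Agent.R249.B2Defs_474 Crest.Agent.R249.B2Iso_474 Crest.Agent.R249.Par3_493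

noncomputable section

namespace Crest.Agent.R249.Par4_493

variable {n : ℕ}

local notation "𝔼" => EuclideanSpace ℝ (Fin n)

/-- the linear map with `ε_i ↦ b i` -/
def frm (b : Fin n → 𝔼) : 𝔼 →L[ℝ] 𝔼 :=
  LinearMap.toContinuousLinearMap
    { toFun := fun x => ∑ i, x i • b i
      map_add' := fun x y => by
        simp only [PiLp.add_apply, add_smul, Finset.sum_add_distrib]
      map_smul' := fun c x => by
        simp only [PiLp.smul_apply, smul_eq_mul, mul_smul, Finset.smul_sum, RingHom.id_apply] }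

theorem frm_apply (b : Fin n → 𝔼) (x : 𝔼) : frm b x = ∑ i, x i • b i := rfl

theorem curv_frm (Γ : 𝔼 → 𝔼 →L[ℝ] 𝔼 →L[ℝ] 𝔼) (x : 𝔼) (b : Fin n → 𝔼) (u v w : 𝔼) :
    curv Γ x (frm b u) (frm b v) (frm b w) =
      ∑ i, ∑ j, ∑ k, (u i * v j * w k) • curv Γ x (b i) (b j) (b k) := by
  rw [frm_apply, frm_apply, frm_apply, curv_sum1]
  refine Finset.sum_congr rfl fun i _ => ?_
  rw [curv_sum2, Finset.smul_sum]
  refine Finset.sum_congr rfl fun j _ => ?_
  rw [curv_sum3, Finset.smul_sum, Finset.smul_sum]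
  refine Finset.sum_congr rfl fun k _ => ?_
  rw [smul_smul, smul_smul]

section M

variable {M : Type*} [MetricSpace M] [ChartedSpace (EuclideanSpace ℝ (Fin n)) M]
  [IsManifold (𝓡 n) ∞ M]
  [RiemannianBundle (fun p : M => TangentSpace (𝓡 n) p)]
  [IsContMDiffRiemannianBundle (𝓡 n) ∞ (EuclideanSpace ℝ (Fin n)) (fun p : M => TangentSpace (𝓡 n) p)]

theorem mkFrame {p : M} {e : Fin n → 𝔼}
    (ho : ∀ i j, gm p (chartAt 𝔼 p p) (e i) (e j) = if i = j then 1 else 0)
    {Rm : Fin n → Fin n → Fin n → Fin n → ℝ}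
    (hR : ∀ i j k l, gm p (chartAt 𝔼 p p) (curv (Gm p) (chartAt 𝔼 p p) (e i) (e j) (e k)) (e l)
      = Rm i j k l)
    {O : 𝔼 →L[ℝ] 𝔼} (hO : ∀ u v, inner ℝ (O u) (O v) = inner ℝ u v) {R0 : 𝔼 → 𝔼 → 𝔼 → 𝔼}
    (hR0 : ∀ u v w l, (O (R0 u v w)) l
      = ∑ i, ∑ j, ∑ k, Rm i j k l * ((O u) i * (O v) j * (O w) k)) :
    Nonempty (Frame n R0 p) := by
  have hexp := exp_of_orthonormal (g := gm p) (x := chartAt 𝔼 p p) (b := e) (by simp) ho
  have hc : ∀ i j k, curv (Gm p) (chartAt 𝔼 p p) (e i) (e j) (e k) = ∑ l, Rm i j k l • e l := by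
    intro i j k
    rw [← hexp (curv (Gm p) (chartAt 𝔼 p p) (e i) (e j) (e k))]
    exact Finset.sum_congr rfl fun l _ => by rw [hR]
  refine ⟨⟨(frm e).comp O, fun u v => ?_, fun u v w => ?_⟩⟩
  · rw [← hO u v]
    change gm p (chartAt 𝔼 p p) (frm e (O u)) (frm e (O v)) = _
    rw [frm_apply, frm_apply]
    simp only [map_sum, map_smul, sum_apply, smul_apply, smul_eq_mul, ho, mul_ite, mul_one,
      mul_zero, Finset.sum_ite_eq, Finset.sum_ite_eq', Finset.mem_univ, if_true, PiLp.inner_apply,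
      RCLike.inner_apply, conj_trivial]
  · change curv (Gm p) (chartAt 𝔼 p p) (frm e (O u)) (frm e (O v)) (frm e (O w))
      = frm e (O (R0 u v w))
    rw [curv_frm, frm_apply]
    simp only [hc, hR0, Finset.smul_sum, Finset.sum_smul, smul_smul]
    -- exchange of sums
    have : ∀ i, ∑ j, ∑ k, ∑ l, ((O u) i * (O v) j * (O w) k * Rm i j k l) • e l
        = ∑ l, ∑ j, ∑ k, ((O u) i * (O v) j * (O w) k * Rm i j k l) • e l := by
      intro i
      have h1 : ∀ j, ∑ k, ∑ l, ((O u) i * (O v) j * (O w) k * Rm i j k l) • e l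
          = ∑ l, ∑ k, ((O u) i * (O v) j * (O w) k * Rm i j k l) • e l :=
        fun j => Finset.sum_comm
      rw [Finset.sum_congr rfl fun j _ => h1 j]
      exact Finset.sum_comm
    rw [Finset.sum_congr rfl fun i _ => this i, Finset.sum_comm]
    refine Finset.sum_congr rfl fun l _ => Finset.sum_congr rfl fun i _ =>
      Finset.sum_congr rfl fun j _ => Finset.sum_congr rfl fun k _ => ?_
    congr 1
    ring

/-- ParCurv from smooth frames, orthonormal at the point, in which all components of `∇R` vanish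
at the point. -/
theorem parCurv_of (h : ∀ p : M, ∃ e : Fin n → 𝔼 → 𝔼,
    (∀ i, ContDiffAt ℝ ∞ (e i) (chartAt 𝔼 p p)) ∧
    (∀ i j, gm p (chartAt 𝔼 p p) (e i (chartAt 𝔼 p p)) (e j (chartAt 𝔼 p p)) =
      if i = j then 1 else 0) ∧
    ∀ q i j k l, nf (gm p) (Gm p) e q i j k l (chartAt 𝔼 p p) = 0) : ParCurv n M := by
  intro p W X Y Z
  obtain ⟨e, he, ho, hn⟩ := h p
  exact nab_eq_zero (isLC_gm p) (mem_chart_target 𝔼 p) he
    (exp_of_orthonormal (g := gm p) (x := chartAt 𝔼 p p) (b := fun i => e i (chartAt 𝔼 p p))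
      (by simp) ho) hn W X Y Z

end M

end Crest.Agent.R249.Par4_493

end
end

-- ▼ part R249/Par1_493
section

/-!
Row 249, B1-PAR (helper493), ring level: covariant derivative of the Riemann tensor in a frame;
for an Einstein frame of dimension four it vanishes as soon as `∇W⁺ = 0` (`NN = 0`) and `∇W⁻ = 0`
(`flip.NN = 0`).
-/

set_option autoImplicit false
set_option linter.unusedSimpArgs false
set_option linter.unusedSectionVars false

namespace Crest.Agent.R249.Fr129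

open Finset Matrix

namespace Frame

section gen

variable {n : ℕ} {S : Type*} [CommRing S] [Algebra ℝ S] (F : Frame n S)

/-- components of the covariant derivative of the curvature tensor:
`⟨(∇_{e_p} R)(e_i, e_j) e_k, e_l⟩`. -/
def nabRm (p i j k l : Fin n) : S :=
  F.D p (F.Rm i j k l) - ∑ m, F.w p i m * F.Rm m j k l - ∑ m, F.w p j m * F.Rm i m k l
    - ∑ m, F.w p k m * F.Rm i j m l - ∑ m, F.w p l m * F.Rm i j k m

lemma nabRm_anti12 (p i j k l : Fin n) : F.nabRm p i j k l = - F.nabRm p j i k l := by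
  have h1 : ∀ a b c d, F.Rm a b c d = - F.Rm b a c d := F.Rm_anti12
  simp only [nabRm]
  rw [h1 i j k l, map_neg]
  have e1 : ∑ m, F.w p i m * F.Rm m j k l = - ∑ m, F.w p i m * F.Rm j m k l := by
    rw [← sum_neg_distrib]; exact sum_congr rfl fun m _ => by rw [h1 m j]; ring
  have e2 : ∑ m, F.w p j m * F.Rm i m k l = - ∑ m, F.w p j m * F.Rm m i k l := by
    rw [← sum_neg_distrib]; exact sum_congr rfl fun m _ => by rw [h1 i m]; ring
  have e3 : ∑ m, F.w p k m * F.Rm i j m l = - ∑ m, F.w p k m * F.Rm j i m l := by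
    rw [← sum_neg_distrib]; exact sum_congr rfl fun m _ => by rw [h1 i j]; ring
  have e4 : ∑ m, F.w p l m * F.Rm i j k m = - ∑ m, F.w p l m * F.Rm j i k m := by
    rw [← sum_neg_distrib]; exact sum_congr rfl fun m _ => by rw [h1 i j]; ring
  rw [e1, e2, e3, e4]; ring

lemma nabRm_anti34 (p i j k l : Fin n) : F.nabRm p i j k l = - F.nabRm p i j l k := by
  have h1 : ∀ a b c d, F.Rm a b c d = - F.Rm a b d c := F.Rm_anti34
  simp only [nabRm]
  rw [h1 i j k l, map_neg]
  have e1 : ∑ m, F.w p i m * F.Rm m j k l = - ∑ m, F.w p i m * F.Rm m j l k := by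
    rw [← sum_neg_distrib]; exact sum_congr rfl fun m _ => by rw [h1 m j]; ring
  have e2 : ∑ m, F.w p j m * F.Rm i m k l = - ∑ m, F.w p j m * F.Rm i m l k := by
    rw [← sum_neg_distrib]; exact sum_congr rfl fun m _ => by rw [h1 i m]; ring
  have e3 : ∑ m, F.w p k m * F.Rm i j m l = - ∑ m, F.w p k m * F.Rm i j l m := by
    rw [← sum_neg_distrib]; exact sum_congr rfl fun m _ => by rw [h1 i j]; ring
  have e4 : ∑ m, F.w p l m * F.Rm i j k m = - ∑ m, F.w p l m * F.Rm i j m k := by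
    rw [← sum_neg_distrib]; exact sum_congr rfl fun m _ => by rw [h1 i j]; ring
  rw [e1, e2, e3, e4]; ring


lemma nabRm_self34 (p i j k : Fin n) : F.nabRm p i j k k = 0 :=
  eq_zero_of_two (by have := F.nabRm_anti34 p i j k k; linear_combination this)

end gen

variable {S : Type*} [CommRing S] [Algebra ℝ S] (F : Frame 4 S)

/-- the covariant derivative of the curvature of `Λ⁺`. -/
def dPP (p k l : Fin 4) : Fin 3 → S :=
  F.cov F.sdc p (F.PP k l) - ∑ m, F.w p k m • F.PP m l - ∑ m, F.w p l m • F.PP k m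

lemma dPP_apply (p k l : Fin 4) (c : Fin 3) : F.dPP p k l c = F.D p (F.PP k l c)
    + (F.sdc p c 0 * F.PP k l 0 + F.sdc p c 1 * F.PP k l 1 + F.sdc p c 2 * F.PP k l 2)
    - (F.w p k 0 * F.PP 0 l c + F.w p k 1 * F.PP 1 l c + F.w p k 2 * F.PP 2 l c
        + F.w p k 3 * F.PP 3 l c)
    - (F.w p l 0 * F.PP k 0 c + F.w p l 1 * F.PP k 1 c + F.w p l 2 * F.PP k 2 c
        + F.w p l 3 * F.PP k 3 c) := by
  simp only [dPP, Pi.sub_apply, Pi.add_apply, Finset.sum_apply, Pi.smul_apply, smul_eq_mul, cov,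
    Fin.sum_univ_four, Fin.sum_univ_three]

/-- `(∇_p R)_{kl01} + (∇_p R)_{kl23} = (∇_p P)_{kl,0}` etc. -/
lemma dPP_zero (p k l : Fin 4) : F.dPP p k l 0 = F.nabRm p k l 0 1 + F.nabRm p k l 2 3 := by
  rw [dPP_apply]
  simp only [nabRm, Fin.sum_univ_four, PP, sdc, cr, pp, map_add, map_sub, map_neg]
  simp [w_self, w10, w20, w30, w21, w31, w32, Rm_self34, R10, R20, R30, R21, R31, R32]
  ring

lemma dPP_one (p k l : Fin 4) : F.dPP p k l 1 = F.nabRm p k l 0 2 - F.nabRm p k l 1 3 := by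
  rw [dPP_apply]
  simp only [nabRm, Fin.sum_univ_four, PP, sdc, cr, pp, map_add, map_sub, map_neg]
  simp [w_self, w10, w20, w30, w21, w31, w32, Rm_self34, R10, R20, R30, R21, R31, R32]
  ring

lemma dPP_two (p k l : Fin 4) : F.dPP p k l 2 = F.nabRm p k l 0 3 + F.nabRm p k l 1 2 := by
  rw [dPP_apply]
  simp only [nabRm, Fin.sum_univ_four, PP, sdc, cr, pp, map_add, map_sub, map_neg]
  simp [w_self, w10, w20, w30, w21, w31, w32, Rm_self34, R10, R20, R30, R21, R31, R32]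
  ring

lemma dPP_anti (p k l : Fin 4) (c : Fin 3) : F.dPP p k l c = - F.dPP p l k c := by
  fin_cases c
  · simp only [Fin.zero_eta, dPP_zero]; rw [F.nabRm_anti12 p k l, F.nabRm_anti12 p k l]; ring
  · simp only [Fin.mk_one, dPP_one]; rw [F.nabRm_anti12 p k l, F.nabRm_anti12 p k l]; ring
  · simp only [Fin.reduceFinMk, dPP_two]; rw [F.nabRm_anti12 p k l, F.nabRm_anti12 p k l]; ring

lemma dPP_self (p k : Fin 4) (c : Fin 3) : F.dPP p k k c = 0 :=
  eq_zero_of_two (by have := F.dPP_anti p k k c; linear_combination this)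

section ein

variable {lam : S} (hE : F.Einstein lam)
include hE

lemma dPP_01 (p : Fin 4) (c : Fin 3) : F.dPP p 0 1 c = - F.NN p c 0 := by
  rw [dPP_apply, NN_eq]
  simp only [F.P01 hE, F.P23 hE, F.P02 hE, F.P13 hE, F.P03 hE, F.P12 hE, F.P10 hE, F.P32 hE,
    F.P20 hE, F.P31 hE, F.P30 hE, F.P21 hE, F.PP_self, Fin.sum_univ_three, w_self, w10, w20, w30,
    w21, w31, w32, map_neg]
  simp [sdc, cr, pp]
  ring

lemma dPP_23 (p : Fin 4) (c : Fin 3) : F.dPP p 2 3 c = - F.NN p c 0 := by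
  rw [dPP_apply, NN_eq]
  simp only [F.P01 hE, F.P23 hE, F.P02 hE, F.P13 hE, F.P03 hE, F.P12 hE, F.P10 hE, F.P32 hE,
    F.P20 hE, F.P31 hE, F.P30 hE, F.P21 hE, F.PP_self, Fin.sum_univ_three, w_self, w10, w20, w30,
    w21, w31, w32, map_neg]
  simp [sdc, cr, pp]
  ring

lemma dPP_02 (p : Fin 4) (c : Fin 3) : F.dPP p 0 2 c = - F.NN p c 1 := by
  rw [dPP_apply, NN_eq]
  simp only [F.P01 hE, F.P23 hE, F.P02 hE, F.P13 hE, F.P03 hE, F.P12 hE, F.P10 hE, F.P32 hE,
    F.P20 hE, F.P31 hE, F.P30 hE, F.P21 hE, F.PP_self, Fin.sum_univ_three, w_self, w10, w20, w30,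
    w21, w31, w32, map_neg]
  simp [sdc, cr, pp]
  ring

lemma dPP_13 (p : Fin 4) (c : Fin 3) : F.dPP p 1 3 c = F.NN p c 1 := by
  rw [dPP_apply, NN_eq]
  simp only [F.P01 hE, F.P23 hE, F.P02 hE, F.P13 hE, F.P03 hE, F.P12 hE, F.P10 hE, F.P32 hE,
    F.P20 hE, F.P31 hE, F.P30 hE, F.P21 hE, F.PP_self, Fin.sum_univ_three, w_self, w10, w20, w30,
    w21, w31, w32, map_neg]
  simp [sdc, cr, pp]
  ring

lemma dPP_03 (p : Fin 4) (c : Fin 3) : F.dPP p 0 3 c = - F.NN p c 2 := by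
  rw [dPP_apply, NN_eq]
  simp only [F.P01 hE, F.P23 hE, F.P02 hE, F.P13 hE, F.P03 hE, F.P12 hE, F.P10 hE, F.P32 hE,
    F.P20 hE, F.P31 hE, F.P30 hE, F.P21 hE, F.PP_self, Fin.sum_univ_three, w_self, w10, w20, w30,
    w21, w31, w32, map_neg]
  simp [sdc, cr, pp]
  ring

lemma dPP_12 (p : Fin 4) (c : Fin 3) : F.dPP p 1 2 c = - F.NN p c 2 := by
  rw [dPP_apply, NN_eq]
  simp only [F.P01 hE, F.P23 hE, F.P02 hE, F.P13 hE, F.P03 hE, F.P12 hE, F.P10 hE, F.P32 hE,
    F.P20 hE, F.P31 hE, F.P30 hE, F.P21 hE, F.PP_self, Fin.sum_univ_three, w_self, w10, w20, w30,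
    w21, w31, w32, map_neg]
  simp [sdc, cr, pp]
  ring

/-- `∇W⁺ ∈ I` ⇒ the covariant derivative of the curvature of `Λ⁺` is in `I` (direction `p`). -/
lemma dPP_mem (I : Ideal S) {p : Fin 4} (hN : ∀ c d, F.NN p c d ∈ I) (k l : Fin 4) (c : Fin 3) :
    F.dPP p k l c ∈ I := by
  have a := F.dPP_anti p
  fin_cases k <;> fin_cases l <;> simp only [Fin.zero_eta, Fin.mk_one, Fin.reduceFinMk]
  · rw [F.dPP_self p 0 c]; exact I.zero_mem
  · rw [F.dPP_01 hE]; exact I.neg_mem (hN _ _)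
  · rw [F.dPP_02 hE]; exact I.neg_mem (hN _ _)
  · rw [F.dPP_03 hE]; exact I.neg_mem (hN _ _)
  · rw [a, F.dPP_01 hE, neg_neg]; exact hN _ _
  · rw [F.dPP_self p 1 c]; exact I.zero_mem
  · rw [F.dPP_12 hE]; exact I.neg_mem (hN _ _)
  · rw [F.dPP_13 hE]; exact hN _ _
  · rw [a, F.dPP_02 hE, neg_neg]; exact hN _ _
  · rw [a, F.dPP_12 hE, neg_neg]; exact hN _ _
  · rw [F.dPP_self p 2 c]; exact I.zero_mem
  · rw [F.dPP_23 hE]; exact I.neg_mem (hN _ _)
  · rw [a, F.dPP_03 hE, neg_neg]; exact hN _ _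
  · rw [a, F.dPP_13 hE]; exact I.neg_mem (hN _ _)
  · rw [a, F.dPP_23 hE, neg_neg]; exact hN _ _
  · rw [F.dPP_self p 3 c]; exact I.zero_mem

end ein

/-! ### orientation reversal -/

lemma nabRm_flip (p i j k l : Fin 4) :
    F.flip.nabRm p i j k l = e3 p * e3 i * e3 j * e3 k * e3 l * F.nabRm p i j k l := by
  have z : ∀ k l, F.D k ((e3 l : ℤ) : S) = 0 := fun k l => by
    have : ((e3 l : ℤ) : S) = algebraMap ℝ S (e3 l : ℝ) := by simp
    rw [this, Derivation.map_algebraMap]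
  have hw : ∀ a b c, F.flip.w a b c = e3 a * e3 b * e3 c * F.w a b c := fun a b c => rfl
  simp only [nabRm, flip_D, Rm_flip, D_mul, z, hw]
  have hs := fun m => cast_sq (S := S) e3_sq m
  have s1 : ∑ m, (e3 p : S) * e3 i * e3 m * F.w p i m * (e3 m * e3 j * e3 k * e3 l * F.Rm m j k l)
      = e3 p * e3 i * e3 j * e3 k * e3 l * ∑ m, F.w p i m * F.Rm m j k l := by
    rw [mul_sum]
    exact sum_congr rfl fun m _ => by
      linear_combination ((e3 p : S) * e3 i * e3 j * e3 k * e3 l * (F.w p i m * F.Rm m j k l))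
        * hs m
  have s2 : ∑ m, (e3 p : S) * e3 j * e3 m * F.w p j m * (e3 i * e3 m * e3 k * e3 l * F.Rm i m k l)
      = e3 p * e3 i * e3 j * e3 k * e3 l * ∑ m, F.w p j m * F.Rm i m k l := by
    rw [mul_sum]
    exact sum_congr rfl fun m _ => by
      linear_combination ((e3 p : S) * e3 i * e3 j * e3 k * e3 l * (F.w p j m * F.Rm i m k l))
        * hs m
  have s3 : ∑ m, (e3 p : S) * e3 k * e3 m * F.w p k m * (e3 i * e3 j * e3 m * e3 l * F.Rm i j m l)
      = e3 p * e3 i * e3 j * e3 k * e3 l * ∑ m, F.w p k m * F.Rm i j m l := by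
    rw [mul_sum]
    exact sum_congr rfl fun m _ => by
      linear_combination ((e3 p : S) * e3 i * e3 j * e3 k * e3 l * (F.w p k m * F.Rm i j m l))
        * hs m
  have s4 : ∑ m, (e3 p : S) * e3 l * e3 m * F.w p l m * (e3 i * e3 j * e3 k * e3 m * F.Rm i j k m)
      = e3 p * e3 i * e3 j * e3 k * e3 l * ∑ m, F.w p l m * F.Rm i j k m := by
    rw [mul_sum]
    exact sum_congr rfl fun m _ => by
      linear_combination ((e3 p : S) * e3 i * e3 j * e3 k * e3 l * (F.w p l m * F.Rm i j k m))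
        * hs m
  rw [s1, s2, s3, s4]
  ring

section ein2

variable {lam : S} (hE : F.Einstein lam)

lemma mem_of_two (I : Ideal S) {x : S} (h : 2 * x ∈ I) : x ∈ I := by
  have e : x = (algebraMap ℝ S (1/2)) * (2 * x) := by
    have h2 : (algebraMap ℝ S (1/2)) * 2 = 1 := by
      have : (2 : S) = algebraMap ℝ S 2 := (map_ofNat (algebraMap ℝ S) 2).symm
      rw [this, ← map_mul]; norm_num
    rw [← mul_assoc, h2, one_mul]
  rw [e]; exact I.mul_mem_left _ h

include hE

/-- **Main algebraic statement**: `∇_p W⁺ ∈ I` and `∇_p W⁻ ∈ I` imply `∇_p R ∈ I`. -/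
theorem nabRm_mem (I : Ideal S) {p : Fin 4} (hN : ∀ c d, F.NN p c d ∈ I)
    (hN' : ∀ c d, F.flip.NN p c d ∈ I) (i j k l : Fin 4) : F.nabRm p i j k l ∈ I := by
  have hE' := F.Einstein_flip hE
  have a0 := fun k l => F.dPP_mem hE I hN k l 0
  have a1 := fun k l => F.dPP_mem hE I hN k l 1
  have a2 := fun k l => F.dPP_mem hE I hN k l 2
  have b0 := fun k l => F.flip.dPP_mem hE' I hN' k l 0
  have b1 := fun k l => F.flip.dPP_mem hE' I hN' k l 1
  have b2 := fun k l => F.flip.dPP_mem hE' I hN' k l 2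
  simp only [dPP_zero, dPP_one, dPP_two] at a0 a1 a2 b0 b1 b2
  simp only [nabRm_flip] at b0 b1 b2
  have hs := fun m => cast_sq (S := S) e3_sq m
  have h0 : (e3 0 : S) = 1 := by simp [e3]
  have h1 : (e3 1 : S) = 1 := by simp [e3]
  have h2 : (e3 2 : S) = 1 := by simp [e3]
  have h3 : (e3 3 : S) = -1 := by simp [e3]
  have c0 : ∀ k l, F.nabRm p k l 0 1 - F.nabRm p k l 2 3 ∈ I := by
    intro k l
    have h := I.mul_mem_left ((e3 p : S) * e3 k * e3 l) (b0 k l)
    have e : ((e3 p : S) * e3 k * e3 l) * ((e3 p : S) * e3 k * e3 l * e3 0 * e3 1 * F.nabRm p k l 0 1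
        + e3 p * e3 k * e3 l * e3 2 * e3 3 * F.nabRm p k l 2 3)
        = F.nabRm p k l 0 1 - F.nabRm p k l 2 3 := by
      rw [h0, h1, h2, h3]
      linear_combination (F.nabRm p k l 0 1 - F.nabRm p k l 2 3) * ((e3 k : S) * e3 k * (e3 l * e3 l))
        * hs p + (F.nabRm p k l 0 1 - F.nabRm p k l 2 3) * (e3 l * e3 l) * hs k
        + (F.nabRm p k l 0 1 - F.nabRm p k l 2 3) * hs l
    rwa [e] at h
  have c1 : ∀ k l, F.nabRm p k l 0 2 + F.nabRm p k l 1 3 ∈ I := by
    intro k l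
    have h := I.mul_mem_left ((e3 p : S) * e3 k * e3 l) (b1 k l)
    have e : ((e3 p : S) * e3 k * e3 l) * ((e3 p : S) * e3 k * e3 l * e3 0 * e3 2 * F.nabRm p k l 0 2
        - e3 p * e3 k * e3 l * e3 1 * e3 3 * F.nabRm p k l 1 3)
        = F.nabRm p k l 0 2 + F.nabRm p k l 1 3 := by
      rw [h0, h1, h2, h3]
      linear_combination (F.nabRm p k l 0 2 + F.nabRm p k l 1 3) * ((e3 k : S) * e3 k * (e3 l * e3 l))
        * hs p + (F.nabRm p k l 0 2 + F.nabRm p k l 1 3) * (e3 l * e3 l) * hs k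
        + (F.nabRm p k l 0 2 + F.nabRm p k l 1 3) * hs l
    rwa [e] at h
  have c2 : ∀ k l, - F.nabRm p k l 0 3 + F.nabRm p k l 1 2 ∈ I := by
    intro k l
    have h := I.mul_mem_left ((e3 p : S) * e3 k * e3 l) (b2 k l)
    have e : ((e3 p : S) * e3 k * e3 l) * ((e3 p : S) * e3 k * e3 l * e3 0 * e3 3 * F.nabRm p k l 0 3
        + e3 p * e3 k * e3 l * e3 1 * e3 2 * F.nabRm p k l 1 2)
        = - F.nabRm p k l 0 3 + F.nabRm p k l 1 2 := by
      rw [h0, h1, h2, h3]
      linear_combination (- F.nabRm p k l 0 3 + F.nabRm p k l 1 2)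
        * ((e3 k : S) * e3 k * (e3 l * e3 l))
        * hs p + (- F.nabRm p k l 0 3 + F.nabRm p k l 1 2) * (e3 l * e3 l) * hs k
        + (- F.nabRm p k l 0 3 + F.nabRm p k l 1 2) * hs l
    rwa [e] at h
  have z01 : F.nabRm p i j 0 1 ∈ I := mem_of_two I (by
    convert I.add_mem (a0 i j) (c0 i j) using 1; ring)
  have z23 : F.nabRm p i j 2 3 ∈ I := mem_of_two I (by
    convert I.sub_mem (a0 i j) (c0 i j) using 1; ring)
  have z02 : F.nabRm p i j 0 2 ∈ I := mem_of_two I (by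
    convert I.add_mem (a1 i j) (c1 i j) using 1; ring)
  have z13 : F.nabRm p i j 1 3 ∈ I := mem_of_two I (by
    convert I.sub_mem (c1 i j) (a1 i j) using 1; ring)
  have z03 : F.nabRm p i j 0 3 ∈ I := mem_of_two I (by
    convert I.sub_mem (a2 i j) (c2 i j) using 1; ring)
  have z12 : F.nabRm p i j 1 2 ∈ I := mem_of_two I (by
    convert I.add_mem (a2 i j) (c2 i j) using 1; ring)
  have a := F.nabRm_anti34 p i j
  fin_cases k <;> fin_cases l <;> simp only [Fin.zero_eta, Fin.mk_one, Fin.reduceFinMk]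
  · rw [F.nabRm_self34 p i j 0]; exact I.zero_mem
  · exact z01
  · exact z02
  · exact z03
  · rw [a]; exact I.neg_mem z01
  · rw [F.nabRm_self34 p i j 1]; exact I.zero_mem
  · exact z12
  · exact z13
  · rw [a]; exact I.neg_mem z02
  · rw [a]; exact I.neg_mem z12
  · rw [F.nabRm_self34 p i j 2]; exact I.zero_mem
  · exact z23
  · rw [a]; exact I.neg_mem z03
  · rw [a]; exact I.neg_mem z13
  · rw [a]; exact I.neg_mem z23
  · rw [F.nabRm_self34 p i j 3]; exact I.zero_mem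


/-- pointwise: `∇W⁺ = 0`, `∇W⁻ = 0` at the point ⇒ `∇R = 0` at the point. -/
theorem ev_nabRm_eq_zero (ev : S →ₐ[ℝ] ℝ) {p : Fin 4} (hN : ∀ c d, F.Nr ev p c d = 0)
    (hN' : ∀ c d, F.flip.Nr ev p c d = 0) (i j k l : Fin 4) : ev (F.nabRm p i j k l) = 0 := by
  have := F.nabRm_mem hE (RingHom.ker ev) (fun c d => (RingHom.mem_ker).2 (hN c d))
    (fun c d => (RingHom.mem_ker).2 (hN' c d)) i j k l
  exact (RingHom.mem_ker).1 this

end ein2

/-! ### the equation of a parallel `W⁺` -/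

/-- `∇A = 0` (as germs) implies `∇²A = 0`. -/
lemma HH_eq_zero (hN : ∀ p c d, F.NN p c d = 0) (m i : Fin 4) (c d : Fin 3) :
    F.HH m i c d = 0 := by
  rw [HH_eq]
  simp [hN]

lemma LL_eq_zero (hN : ∀ p c d, F.NN p c d = 0) (c d : Fin 3) : F.LL c d = 0 := by
  rw [LL_eq]
  simp [F.HH_eq_zero hN]

/-- `∇A = 0` ⇒ `6 λ A - 6 A² - 2 (λ² - |A|²) I = 0`. -/
lemma par_eq {lam : S} (hE : F.Einstein lam) (hN : ∀ p c d, F.NN p c d = 0) (c e : Fin 3) :
    6 * lam * F.AA c e
    - 6 * (F.AA c 0 * F.AA 0 e + F.AA c 1 * F.AA 1 e + F.AA c 2 * F.AA 2 e)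
    - (if c = e then 2 * (lam ^ 2 - (F.AA 0 0 ^ 2 + F.AA 1 1 ^ 2
        + F.AA 2 2 ^ 2 + 2 * F.AA 0 1 ^ 2 + 2 * F.AA 0 2 ^ 2 + 2 * F.AA 1 2 ^ 2)) else 0) = 0 := by
  have h := F.LL_formula hE c e
  rw [F.LL_eq_zero hN, F.AA_trace hE] at h
  exact h.symm

end Frame

end Crest.Agent.R249.Fr129
end

-- ▼ part R249/LA1_49
section

/-!
Row 249 (helper49), linear algebra of symmetric 3 × 3 matrices (Blueprint_49, B6, B7, B10, B11).

* `exists_diag` : orthogonal diagonalisation.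
* `det_sq_le` : `54 det W² ≤ |W|⁶` for trace-free symmetric `W`; `det_le`.
* `quad_of_det_eq` : equality case, `W² = w W + 2 w²`.
* `sqrt_add_sqrt_le` : the constraint `|A - lam/3| + |C - lam/3| ≤ 2 lam √(2/3)` from `sec ≥ 0`.
* `parallel_alg` : `2 lam W - 6 W² + 2 |W|² = 0`, `tr W = 0` forces `W = 0` or `A² = lam A`.
-/

set_option autoImplicit false

open Matrix Finset

namespace Crest.Agent.R249.LA49

/-- squared Frobenius norm. -/
def nsq (W : Matrix (Fin 3) (Fin 3) ℝ) : ℝ := ∑ i, ∑ j, W i j ^ 2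

lemma nsq_nonneg (W : Matrix (Fin 3) (Fin 3) ℝ) : 0 ≤ nsq W :=
  sum_nonneg fun _ _ => sum_nonneg fun _ _ => sq_nonneg _

lemma nsq_eq_trace (W : Matrix (Fin 3) (Fin 3) ℝ) : nsq W = (W * Wᵀ).trace := by
  simp only [nsq, trace, diag_apply, mul_apply, transpose_apply, sq]

lemma nsq_eq_zero {W : Matrix (Fin 3) (Fin 3) ℝ} (h : nsq W = 0) : W = 0 := by
  ext i j
  have h1 := (sum_eq_zero_iff_of_nonneg
    (fun _ _ => sum_nonneg fun _ _ => sq_nonneg _)).1 h i (mem_univ _)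
  have h2 := (sum_eq_zero_iff_of_nonneg (fun _ _ => sq_nonneg _)).1 h1 j (mem_univ _)
  simpa using h2

/-- orthogonal diagonalisation of a real symmetric matrix. -/
theorem exists_diag {W : Matrix (Fin 3) (Fin 3) ℝ} (hW : Wᵀ = W) :
    ∃ (U : Matrix (Fin 3) (Fin 3) ℝ) (d : Fin 3 → ℝ), Uᵀ * U = 1 ∧ U * Uᵀ = 1 ∧
      W = U * diagonal d * Uᵀ := by
  have hH : W.IsHermitian := by
    rw [Matrix.IsHermitian, conjTranspose_eq_transpose_of_trivial, hW]
  refine ⟨(hH.eigenvectorUnitary : Matrix (Fin 3) (Fin 3) ℝ), hH.eigenvalues, ?_, ?_, ?_⟩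
  · have := Unitary.coe_star_mul_self hH.eigenvectorUnitary
    rwa [star_eq_conjTranspose, conjTranspose_eq_transpose_of_trivial] at this
  · have := Unitary.coe_mul_star_self hH.eigenvectorUnitary
    rwa [Unitary.coe_star, star_eq_conjTranspose, conjTranspose_eq_transpose_of_trivial] at this
  · have := hH.spectral_theorem
    rw [Unitary.conjStarAlgAut_apply] at this
    rw [← conjTranspose_eq_transpose_of_trivial, ← star_eq_conjTranspose]
    simpa using this

section diag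

variable {U : Matrix (Fin 3) (Fin 3) ℝ} {d : Fin 3 → ℝ}

lemma trace_conj (h1 : Uᵀ * U = 1) (D : Matrix (Fin 3) (Fin 3) ℝ) :
    (U * D * Uᵀ).trace = D.trace := by
  rw [mul_assoc, trace_mul_comm, mul_assoc, h1, mul_one]

lemma det_conj (h1 : Uᵀ * U = 1) (D : Matrix (Fin 3) (Fin 3) ℝ) :
    (U * D * Uᵀ).det = D.det := by
  have h := congrArg det h1
  rw [det_mul, det_one, det_transpose] at h
  rw [det_mul, det_mul, det_transpose]
  linear_combination D.det * h

lemma conj_mul (h1 : Uᵀ * U = 1) (D E : Matrix (Fin 3) (Fin 3) ℝ) :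
    (U * D * Uᵀ) * (U * E * Uᵀ) = U * (D * E) * Uᵀ := by
  calc (U * D * Uᵀ) * (U * E * Uᵀ) = U * D * (Uᵀ * U) * E * Uᵀ := by simp only [mul_assoc]
    _ = U * (D * E) * Uᵀ := by rw [h1, mul_one]; simp only [mul_assoc]

lemma trace_diag (d : Fin 3 → ℝ) : (diagonal d).trace = d 0 + d 1 + d 2 := by
  rw [trace_diagonal, Fin.sum_univ_three]

lemma det_diag (d : Fin 3 → ℝ) : (diagonal d).det = d 0 * d 1 * d 2 := by
  rw [det_diagonal, Fin.prod_univ_three]

lemma nsq_conj (h1 : Uᵀ * U = 1) :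
    nsq (U * diagonal d * Uᵀ) = d 0 ^ 2 + d 1 ^ 2 + d 2 ^ 2 := by
  have hT : (U * diagonal d * Uᵀ)ᵀ = U * diagonal d * Uᵀ := by
    simp only [transpose_mul, transpose_transpose, diagonal_transpose, mul_assoc]
  rw [nsq_eq_trace, hT, conj_mul h1, trace_conj h1, diagonal_mul_diagonal, trace_diag]
  ring

lemma one_conj (h2 : U * Uᵀ = 1) (c : ℝ) :
    c • (1 : Matrix (Fin 3) (Fin 3) ℝ) = U * diagonal (fun _ => c) * Uᵀ := by
  have : diagonal (fun _ : Fin 3 => c) = c • (1 : Matrix (Fin 3) (Fin 3) ℝ) := by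
    rw [smul_one_eq_diagonal]
  rw [this, Matrix.mul_smul, mul_one, Matrix.smul_mul, h2]

lemma add_conj (d e : Fin 3 → ℝ) :
    U * diagonal d * Uᵀ + U * diagonal e * Uᵀ = U * diagonal (d + e) * Uᵀ := by
  rw [← add_mul, ← mul_add, diagonal_add]; rfl

lemma smul_conj (c : ℝ) (d : Fin 3 → ℝ) :
    c • (U * diagonal d * Uᵀ) = U * diagonal (c • d) * Uᵀ := by
  rw [← Matrix.smul_mul, ← Matrix.mul_smul, ← diagonal_smul]

end diag



/-- equality case of `det_le`. -/
theorem quad_of_det_eq {W : Matrix (Fin 3) (Fin 3) ℝ} (hW : Wᵀ = W) (h0 : W.trace = 0)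
    {w : ℝ} (hn : nsq W = 6 * w ^ 2) (hd : W.det = 2 * w ^ 3) :
    W * W = w • W + (2 * w ^ 2) • (1 : Matrix (Fin 3) (Fin 3) ℝ) := by
  obtain ⟨U, d, h1, h2, rfl⟩ := exists_diag hW
  rw [trace_conj h1, trace_diag] at h0
  rw [det_conj h1, det_diag] at hd
  rw [nsq_conj h1] at hn
  rw [conj_mul h1, diagonal_mul_diagonal, one_conj h2, smul_conj, add_conj]
  congr 2
  have key : ∀ a b c : ℝ, a + b + c = 0 → a ^ 2 + b ^ 2 + c ^ 2 = 6 * w ^ 2 → a * b * c = 2 * w ^ 3 →
      a * a = w * a + 2 * w ^ 2 := by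
    intro a b c e1 e2 e3
    -- a is a root of x³ - 3w²x - 2w³ = (x + w)²(x - 2w)
    have hc : c = -(a + b) := by linarith
    subst hc
    have e4 : a ^ 2 + a * b + b ^ 2 = 3 * w ^ 2 := by nlinarith
    have e5 : (a + w) ^ 2 * (a - 2 * w) = 0 := by
      have : a ^ 3 - 3 * w ^ 2 * a - 2 * w ^ 3 = 0 := by
        linear_combination e3 + a * e4
      nlinarith
    rcases mul_eq_zero.1 e5 with h | h
    · have : a = -w := by nlinarith [pow_eq_zero_iff (two_ne_zero) |>.1 h]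
      rw [this]; ring
    · have : a = 2 * w := by linarith
      rw [this]; ring
  congr 1
  funext i
  fin_cases i
  · simpa using key (d 0) (d 1) (d 2) h0 hn hd
  · simpa using key (d 1) (d 0) (d 2) (by linarith) (by linarith) (by linarith)
  · simpa using key (d 2) (d 0) (d 1) (by linarith) (by linarith) (by linarith)

lemma dot_conj {U : Matrix (Fin 3) (Fin 3) ℝ} (h1 : Uᵀ * U = 1) (x y : Fin 3 → ℝ) :
    (U *ᵥ x) ⬝ᵥ (U *ᵥ y) = x ⬝ᵥ y := by
  rw [dotProduct_mulVec, ← mulVec_transpose, mulVec_mulVec, h1, one_mulVec]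



/-- the algebraic equation of a parallel `W`. -/
theorem parallel_alg {W : Matrix (Fin 3) (Fin 3) ℝ} {lam : ℝ} (hW : Wᵀ = W) (h0 : W.trace = 0)
    (hE : (2 * lam) • W - (6 : ℝ) • (W * W) + (2 * nsq W) • (1 : Matrix (Fin 3) (Fin 3) ℝ) = 0) :
    W = 0 ∨ (nsq W = 2 / 3 * lam ^ 2 ∧
      W * W = (lam / 3) • W + (2 * (lam / 3) ^ 2) • (1 : Matrix (Fin 3) (Fin 3) ℝ)) := by
  have hsq : W * W = (lam / 3) • W + (nsq W / 3) • (1 : Matrix (Fin 3) (Fin 3) ℝ) := by
    have : (6 : ℝ) • (W * W) = (2 * lam) • W + (2 * nsq W) • (1 : Matrix (Fin 3) (Fin 3) ℝ) := by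
      have := sub_eq_zero.1 (show (2 * lam) • W + (2 * nsq W) • (1 : Matrix (Fin 3) (Fin 3) ℝ)
        - (6 : ℝ) • (W * W) = 0 by rw [← hE]; abel)
      exact this.symm
    calc W * W = (1 / 6 : ℝ) • ((6 : ℝ) • (W * W)) := by rw [smul_smul]; norm_num
      _ = _ := by
        rw [this, smul_add, smul_smul, smul_smul]
        congr 2 <;> ring
  obtain ⟨U, d, h1, h2, rfl⟩ := exists_diag hW
  rw [trace_conj h1, trace_diag] at h0
  rw [conj_mul h1, diagonal_mul_diagonal, one_conj h2, smul_conj, add_conj] at hsq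
  have hd : ∀ i, d i * d i = lam / 3 * d i + nsq (U * diagonal d * Uᵀ) / 3 := by
    have e1 : Uᵀ * (U * diagonal (fun i => d i * d i) * Uᵀ) * U =
        diagonal (fun i => d i * d i) := by
      calc Uᵀ * (U * diagonal (fun i => d i * d i) * Uᵀ) * U
          = (Uᵀ * U) * diagonal (fun i => d i * d i) * (Uᵀ * U) := by simp only [mul_assoc]
        _ = _ := by rw [h1, one_mul, mul_one]
    have e2 : ∀ e : Fin 3 → ℝ, Uᵀ * (U * diagonal e * Uᵀ) * U = diagonal e := by
      intro e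
      calc Uᵀ * (U * diagonal e * Uᵀ) * U
          = (Uᵀ * U) * diagonal e * (Uᵀ * U) := by simp only [mul_assoc]
        _ = _ := by rw [h1, one_mul, mul_one]
    rw [hsq, e2] at e1
    intro i
    have := congrFun (diagonal_injective e1) i
    simp only [Pi.add_apply, Pi.smul_apply, smul_eq_mul] at this
    linarith
  rw [nsq_conj h1] at hd ⊢
  set N := d 0 ^ 2 + d 1 ^ 2 + d 2 ^ 2 with hN
  have e0 := hd 0
  have e1 := hd 1
  have e2 := hd 2
  by_cases hz : N = 0
  · left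
    have : d = 0 := by
      funext i
      have h00 : d 0 = 0 := by nlinarith [sq_nonneg (d 0), sq_nonneg (d 1), sq_nonneg (d 2)]
      have h01 : d 1 = 0 := by nlinarith [sq_nonneg (d 0), sq_nonneg (d 1), sq_nonneg (d 2)]
      have h02 : d 2 = 0 := by nlinarith [sq_nonneg (d 0), sq_nonneg (d 1), sq_nonneg (d 2)]
      fin_cases i <;> assumption
    rw [this]; simp
  · right
    have hNN : N = 2 / 3 * lam ^ 2 := by
      -- two of the three numbers coincide
      have f01 : (d 0 - d 1) * (d 0 + d 1 - lam / 3) = 0 := by linear_combination e0 - e1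
      have f02 : (d 0 - d 2) * (d 0 + d 2 - lam / 3) = 0 := by linear_combination e0 - e2
      have f12 : (d 1 - d 2) * (d 1 + d 2 - lam / 3) = 0 := by linear_combination e1 - e2
      have hc : d 2 = -(d 0 + d 1) := by linarith
      rcases mul_eq_zero.1 f01 with g01 | g01
      · -- d0 = d1 = a, d2 = -2a
        have ha : d 1 = d 0 := by linarith
        have hc' : d 2 = -2 * d 0 := by linarith
        rw [ha, hc'] at hN
        have : d 0 ≠ 0 := by
          intro h; apply hz; rw [hN, h]; ring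
        rw [hN] at e0
        have h3 : d 0 = - lam / 3 := by
          have : d 0 * (d 0 + lam / 3) = 0 := by nlinarith
          rcases mul_eq_zero.1 this with h | h
          · exact absurd h ‹_›
          · linarith
        rw [hN, h3]; ring
      · have hc' : d 2 = - lam / 3 := by linarith
        rcases mul_eq_zero.1 f02 with g02 | g02
        · have : d 0 = - lam / 3 := by linarith
          have h1' : d 1 = 2 * lam / 3 := by linarith
          rw [hN, this, h1', hc']; ring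
        · have : d 0 = 2 * lam / 3 := by linarith
          have h1' : d 1 = - lam / 3 := by linarith
          rw [hN, this, h1', hc']; ring
    refine ⟨hNN, ?_⟩
    rw [conj_mul h1, diagonal_mul_diagonal, one_conj h2, smul_conj, add_conj]
    congr 3
    funext i
    simp only [Pi.add_apply, Pi.smul_apply, smul_eq_mul]
    rw [hd i, hNN]; ring

/-- `A² = lam A` from the quadratic equation of `W = A - lam/3`. -/
theorem sq_eq_of_quad {A : Matrix (Fin 3) (Fin 3) ℝ} {lam : ℝ}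
    (h : (A - (lam / 3) • (1 : Matrix (Fin 3) (Fin 3) ℝ)) * (A - (lam / 3) • 1) =
      (lam / 3) • (A - (lam / 3) • (1 : Matrix (Fin 3) (Fin 3) ℝ)) +
        (2 * (lam / 3) ^ 2) • (1 : Matrix (Fin 3) (Fin 3) ℝ)) :
    A * A = lam • A := by
  have e : (A - (lam / 3) • (1 : Matrix (Fin 3) (Fin 3) ℝ)) * (A - (lam / 3) • 1) =
      A * A - (2 * lam / 3) • A + (lam / 3) ^ 2 • (1 : Matrix (Fin 3) (Fin 3) ℝ) := by
    rw [sub_mul, mul_sub, mul_sub, Matrix.mul_smul, Matrix.smul_mul, Matrix.smul_mul, mul_one,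
      one_mul, Matrix.mul_smul, mul_one, smul_smul]
    rw [show (2 * lam / 3) • A = (lam / 3) • A + (lam / 3) • A by rw [← add_smul]; congr 1; ring,
      show (lam / 3) ^ 2 = lam / 3 * (lam / 3) by ring]
    abel
  rw [e] at h
  have h2 : A * A = (lam / 3) • (A - (lam / 3) • (1 : Matrix (Fin 3) (Fin 3) ℝ)) +
      (2 * (lam / 3) ^ 2) • (1 : Matrix (Fin 3) (Fin 3) ℝ) + (2 * lam / 3) • A -
        (lam / 3) ^ 2 • (1 : Matrix (Fin 3) (Fin 3) ℝ) := by
    rw [← h]; abel
  rw [h2, smul_sub, smul_smul]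
  have h3 : (lam : ℝ) • A = (lam / 3) • A + (2 * lam / 3) • A := by
    rw [← add_smul]; congr 1; ring
  rw [h3]
  have h4 : (2 * (lam / 3) ^ 2) • (1 : Matrix (Fin 3) (Fin 3) ℝ) =
      (lam / 3 * (lam / 3)) • 1 + (lam / 3) ^ 2 • 1 := by
    rw [← add_smul]; congr 1; ring
  rw [h4]
  abel

/-- a symmetric `A` with `A² = lam A`, `tr A = lam ≠ 0` is `lam` times a rank one projection. -/
theorem exists_unit_of_sq {A : Matrix (Fin 3) (Fin 3) ℝ} {lam : ℝ} (hA : Aᵀ = A)
    (hl : lam ≠ 0) (ht : A.trace = lam) (h : A * A = lam • A) :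
    ∃ v : Fin 3 → ℝ, v ⬝ᵥ v = 1 ∧ A = lam • vecMulVec v v := by
  obtain ⟨U, d, h1, h2, rfl⟩ := exists_diag hA
  rw [trace_conj h1, trace_diag] at ht
  rw [conj_mul h1, diagonal_mul_diagonal, smul_conj] at h
  have e2 : ∀ e : Fin 3 → ℝ, Uᵀ * (U * diagonal e * Uᵀ) * U = diagonal e := by
    intro e
    calc Uᵀ * (U * diagonal e * Uᵀ) * U
        = (Uᵀ * U) * diagonal e * (Uᵀ * U) := by simp only [mul_assoc]
      _ = _ := by rw [h1, one_mul, mul_one]
  have h3 := congrArg (fun X => Uᵀ * X * U) h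
  simp only [e2] at h3
  have hd : ∀ i, d i = 0 ∨ d i = lam := by
    intro i
    have := congrFun (diagonal_injective h3) i
    simp only [Pi.smul_apply, smul_eq_mul] at this
    have : d i * (d i - lam) = 0 := by linear_combination this
    rcases mul_eq_zero.1 this with h | h
    · exact Or.inl h
    · exact Or.inr (by linarith)
  have hex : ∃ i, d = fun j => if j = i then lam else 0 := by
    rcases hd 0 with a | a <;> rcases hd 1 with b | b <;> rcases hd 2 with c | c <;>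
      rw [a, b, c] at ht
    · exact absurd (by linarith) hl
    · refine ⟨2, funext fun j => ?_⟩
      fin_cases j <;> simp [a, b, c]
    · refine ⟨1, funext fun j => ?_⟩
      fin_cases j <;> simp [a, b, c]
    · exact absurd (by linarith) hl
    · refine ⟨0, funext fun j => ?_⟩
      fin_cases j <;> simp [a, b, c]
    · exact absurd (by linarith) hl
    · exact absurd (by linarith) hl
    · exact absurd (by linarith) hl
  obtain ⟨i, hi⟩ := hex
  refine ⟨U *ᵥ Pi.single i 1, ?_, ?_⟩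
  · rw [dot_conj h1]; simp
  · subst hi
    ext a b
    have hv : U *ᵥ Pi.single i 1 = fun k => U k i := by
      funext k; rw [mulVec_single_one]; rfl
    rw [hv, Matrix.smul_apply, vecMulVec_apply, smul_eq_mul, mul_apply]
    simp only [mul_apply, diagonal_apply, transpose_apply, mul_ite, mul_zero, sum_ite_eq',
      mem_univ, if_true, ite_mul, zero_mul]
    fin_cases i <;> simp <;> ring

end Crest.Agent.R249.LA49
end

-- ▼ part R249/Par2_493
section

/-!
Row 249, B1-PAR (helper493), pointwise statements.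

`F : Frame 4 S` Einstein with constant `lam`, `ev : S →ₐ[ℝ] ℝ` evaluation at a point.
* `Nr_eq_zero_of_zero`   : `|W⁺|² = 0`, `Δ|W⁺|² = 0` at the point ⇒ `∇W⁺ = 0` there;
* `Nr_eq_zero_of_max`    : `|W⁺|² = 2 lam²/3`, `Δ|W⁺|² = 0` ⇒ `∇W⁺ = 0`;
* `Am ev`                : the `Λ⁺`-block at the point; `Am_cases_*` : `Am = lam/3` or
  `Am = lam v vᵀ`, `|v| = 1`.
-/

set_option autoImplicit false
set_option linter.unusedSimpArgs false
set_option linter.unusedSectionVars false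

namespace Crest.Agent.R249.Fr129

open Finset FrK129 FrL129 FrM129 Matrix

namespace Frame

variable {S : Type*} [CommRing S] [Algebra ℝ S] (F : Frame 4 S) (ev : S →ₐ[ℝ] ℝ) {lam : ℝ}

/-- the `Λ⁺`-block of the curvature operator at the point. -/
noncomputable def Am : Matrix (Fin 3) (Fin 3) ℝ := Matrix.of fun c d => ev (F.AA c d)

lemma Am_apply (c d : Fin 3) : F.Am ev c d = ev (F.AA c d) := rfl

lemma Am_symm : (F.Am ev)ᵀ = F.Am ev := by
  ext c d
  rw [transpose_apply, Am_apply, Am_apply, F.AA_symm]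


lemma LA_det_eq {W : Matrix (Fin 3) (Fin 3) ℝ} (hW : Wᵀ = W) :
    W.det = sdet (fun c d => W c d) := by
  have h : ∀ c d, W c d = W d c := fun c d => by
    conv_lhs => rw [← hW, transpose_apply]
  rw [Matrix.det_fin_three, sdet]
  simp only [h 1 0, h 2 0, h 2 1]
  ring

section
variable (hE : F.Einstein (algebraMap ℝ S lam))
include hE

lemma Am_trace : (F.Am ev).trace = lam := by
  have h := congrArg ev (F.AA_trace hE)
  simp only [map_add, AlgHom.commutes, Algebra.algebraMap_self, RingHom.id_apply] at h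
  simpa [Matrix.trace, Fin.sum_univ_three, Am_apply] using h

/-- `W⁺ = A - lam/3` as a matrix. -/
lemma Wm_eq : (Matrix.of (F.Wr ev lam) : Matrix (Fin 3) (Fin 3) ℝ) =
    F.Am ev - (lam / 3) • (1 : Matrix (Fin 3) (Fin 3) ℝ) := by
  ext c d
  rw [Matrix.sub_apply, Matrix.smul_apply, Matrix.one_apply, Am_apply, F.AA_eq_W ev hE]
  split_ifs <;> simp

lemma Wm_symm : (F.Am ev - (lam / 3) • (1 : Matrix (Fin 3) (Fin 3) ℝ))ᵀ =
    F.Am ev - (lam / 3) • (1 : Matrix (Fin 3) (Fin 3) ℝ) := by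
  rw [transpose_sub, F.Am_symm, transpose_smul, transpose_one]

lemma Wm_trace : (F.Am ev - (lam / 3) • (1 : Matrix (Fin 3) (Fin 3) ℝ)).trace = 0 := by
  rw [trace_sub, F.Am_trace ev hE, trace_smul, trace_one]
  simp

lemma Wm_nsq : LA49.nsq (F.Am ev - (lam / 3) • (1 : Matrix (Fin 3) (Fin 3) ℝ)) =
    ev (F.qq (algebraMap ℝ S lam)) := by
  rw [← F.Wm_eq ev hE, F.ev_qq ev]; rfl

lemma Wm_det : (F.Am ev - (lam / 3) • (1 : Matrix (Fin 3) (Fin 3) ℝ)).det =
    sdet (F.Wr ev lam) := by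
  rw [LA_det_eq (F.Wm_symm ev hE), ← F.Wm_eq ev hE]; rfl

/-- the Bochner formula at the point. -/
lemma lap_eq : ev (F.lap0 (F.qq (algebraMap ℝ S lam)))
    = 2 * ∑ i, ∑ c, ∑ d, F.Nr ev i c d ^ 2 + 4 * lam * ev (F.qq (algebraMap ℝ S lam))
      - 36 * sdet (F.Wr ev lam) := by
  rw [F.ev_lap_qq ev hE, F.ev_qq ev]

omit hE in
lemma Nr_zero_of_sum (h : ∑ i, ∑ c, ∑ d, F.Nr ev i c d ^ 2 ≤ 0) (i : Fin 4) (c d : Fin 3) :
    F.Nr ev i c d = 0 := by
  have h0 : ∑ i, ∑ c, ∑ d, F.Nr ev i c d ^ 2 = 0 :=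
    le_antisymm h (sum_nonneg fun _ _ => sum_nonneg fun _ _ => sum_nonneg fun _ _ => sq_nonneg _)
  have h1 := (sum_eq_zero_iff_of_nonneg (fun _ _ => sum_nonneg fun _ _ => sum_nonneg
    fun _ _ => sq_nonneg _)).1 h0 i (mem_univ _)
  have h2 := (sum_eq_zero_iff_of_nonneg (fun _ _ => sum_nonneg
    fun _ _ => sq_nonneg _)).1 h1 c (mem_univ _)
  have h3 := (sum_eq_zero_iff_of_nonneg (fun _ _ => sq_nonneg _)).1 h2 d (mem_univ _)
  simpa using h3

/-- `W⁺ = 0` at the point when `|W⁺|² = 0` there. -/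
theorem Am_of_zero (hq : ev (F.qq (algebraMap ℝ S lam)) = 0) :
    F.Am ev = (lam / 3) • (1 : Matrix (Fin 3) (Fin 3) ℝ) := by
  have h := LA49.nsq_eq_zero (W := F.Am ev - (lam / 3) • (1 : Matrix (Fin 3) (Fin 3) ℝ))
    (by rw [F.Wm_nsq ev hE, hq])
  exact sub_eq_zero.1 h

/-- `|W⁺|² = 0`, `Δ|W⁺|² = 0` at the point: `∇W⁺ = 0` there. -/
theorem Nr_eq_zero_of_zero (hq : ev (F.qq (algebraMap ℝ S lam)) = 0)
    (hl : ev (F.lap0 (F.qq (algebraMap ℝ S lam))) = 0) (i : Fin 4) (c d : Fin 3) :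
    F.Nr ev i c d = 0 := by
  apply F.Nr_zero_of_sum ev
  have h := F.lap_eq ev hE
  have h2 := sdet_sq_le (F.Wr_sym0 ev hE)
  rw [← F.ev_qq ev, hq] at h2
  have h3 : sdet (F.Wr ev lam) = 0 := by
    have : sdet (F.Wr ev lam) ^ 2 ≤ 0 := by nlinarith
    exact pow_eq_zero_iff (two_ne_zero) |>.1 (le_antisymm this (sq_nonneg _))
  rw [hl, hq, h3] at h
  linarith

/-- `|W⁺|² = 2 lam²/3`, `Δ|W⁺|² = 0` at the point: `∇W⁺ = 0` and `det W⁺ = 2 (lam/3)³` there. -/
theorem max_aux (hlam : 0 ≤ lam) (hq : ev (F.qq (algebraMap ℝ S lam)) = 2 / 3 * lam ^ 2)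
    (hl : ev (F.lap0 (F.qq (algebraMap ℝ S lam))) = 0) :
    (∑ i, ∑ c, ∑ d, F.Nr ev i c d ^ 2 ≤ 0) ∧ sdet (F.Wr ev lam) = 2 * (lam / 3) ^ 3 := by
  have h := F.lap_eq ev hE
  rw [hl, hq] at h
  have h2 := sdet_sq_le (F.Wr_sym0 ev hE)
  rw [← F.ev_qq ev, hq] at h2
  have hN : 0 ≤ ∑ i, ∑ c, ∑ d, F.Nr ev i c d ^ 2 :=
    sum_nonneg fun _ _ => sum_nonneg fun _ _ => sum_nonneg fun _ _ => sq_nonneg _
  have hup : sdet (F.Wr ev lam) ≤ 2 * (lam / 3) ^ 3 := by
    refine abs_le_of_sq_le_sq' ?_ (by positivity) |>.2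
    nlinarith
  have hlow : 2 * (lam / 3) ^ 3 ≤ sdet (F.Wr ev lam) := by nlinarith
  have he := le_antisymm hup hlow
  refine ⟨?_, he⟩
  rw [he] at h
  nlinarith

theorem Nr_eq_zero_of_max (hlam : 0 ≤ lam)
    (hq : ev (F.qq (algebraMap ℝ S lam)) = 2 / 3 * lam ^ 2)
    (hl : ev (F.lap0 (F.qq (algebraMap ℝ S lam))) = 0) (i : Fin 4) (c d : Fin 3) :
    F.Nr ev i c d = 0 :=
  F.Nr_zero_of_sum ev (F.max_aux ev hE hlam hq hl).1 i c d

/-- the block at a point with `|W⁺|² = 2 lam²/3`, `Δ|W⁺|² = 0`. -/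
theorem Am_of_max (hlam : 0 < lam) (hq : ev (F.qq (algebraMap ℝ S lam)) = 2 / 3 * lam ^ 2)
    (hl : ev (F.lap0 (F.qq (algebraMap ℝ S lam))) = 0) :
    ∃ v : Fin 3 → ℝ, v ⬝ᵥ v = 1 ∧ F.Am ev = lam • vecMulVec v v := by
  have hd := (F.max_aux ev hE hlam.le hq hl).2
  rw [← F.Wm_det ev hE] at hd
  have hn : LA49.nsq (F.Am ev - (lam / 3) • (1 : Matrix (Fin 3) (Fin 3) ℝ)) =
      6 * (lam / 3) ^ 2 := by
    rw [F.Wm_nsq ev hE, hq]; ring
  exact LA49.exists_unit_of_sq (F.Am_symm ev) hlam.ne' (F.Am_trace ev hE)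
    (LA49.sq_eq_of_quad (LA49.quad_of_det_eq (F.Wm_symm ev hE) (F.Wm_trace ev hE) hn hd))

/-- the equation of a parallel `W⁺` at the point. -/
lemma par_mat (hN : ∀ p c d, F.NN p c d = 0) :
    (2 * lam) • (F.Am ev - (lam / 3) • (1 : Matrix (Fin 3) (Fin 3) ℝ))
      - (6 : ℝ) • ((F.Am ev - (lam / 3) • (1 : Matrix (Fin 3) (Fin 3) ℝ))
        * (F.Am ev - (lam / 3) • (1 : Matrix (Fin 3) (Fin 3) ℝ)))
      + (2 * LA49.nsq (F.Am ev - (lam / 3) • (1 : Matrix (Fin 3) (Fin 3) ℝ))) •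
        (1 : Matrix (Fin 3) (Fin 3) ℝ) = 0 := by
  have ht := congrArg ev (F.AA_trace hE)
  simp only [map_add, AlgHom.commutes, Algebra.algebraMap_self, RingHom.id_apply] at ht
  have s10 : F.AA 1 0 = F.AA 0 1 := F.AA_symm 1 0
  have s20 : F.AA 2 0 = F.AA 0 2 := F.AA_symm 2 0
  have s21 : F.AA 2 1 = F.AA 1 2 := F.AA_symm 2 1
  ext c e
  have h := congrArg ev (F.par_eq hE hN c e)
  have hl : (lam : ℝ) = ev (F.AA 0 0) + ev (F.AA 1 1) + ev (F.AA 2 2) := ht.symm
  fin_cases c <;> fin_cases e <;>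
  · simp [map_sub, map_mul, map_add, map_pow, map_ofNat, AlgHom.commutes, s10, s20, s21] at h
    simp [Matrix.sub_apply, Matrix.add_apply, Matrix.smul_apply, Matrix.mul_apply,
      Fin.sum_univ_three, Am_apply, Matrix.one_apply, LA49.nsq, s10, s20, s21]
    have e6 : ev 6 = 6 := map_ofNat ev 6
    have e2 : ev 2 = 2 := map_ofNat ev 2
    rw [hl] at h ⊢
    try rw [e6] at h
    try rw [e2] at h
    linear_combination h

/-- **parallel `W⁺`**: the block is `lam/3` or `lam v vᵀ`. -/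
theorem Am_of_parallel (hlam : 0 < lam) (hN : ∀ p c d, F.NN p c d = 0) :
    F.Am ev = (lam / 3) • (1 : Matrix (Fin 3) (Fin 3) ℝ) ∨
    ∃ v : Fin 3 → ℝ, v ⬝ᵥ v = 1 ∧ F.Am ev = lam • vecMulVec v v := by
  rcases LA49.parallel_alg (F.Wm_symm ev hE) (F.Wm_trace ev hE) (F.par_mat ev hE hN) with h | ⟨-, h⟩
  · exact Or.inl (sub_eq_zero.1 h)
  · exact Or.inr (LA49.exists_unit_of_sq (F.Am_symm ev) hlam.ne' (F.Am_trace ev hE)
      (LA49.sq_eq_of_quad h))

end

end Frame

end Crest.Agent.R249.Fr129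
end

-- ▼ part R249/Par5_493
section

/-!
Row 249, B1-PAR (helper493): the dictionary between 129's germ frames `ONF.frameOf` and the
analytic objects of B2 (`gm`, `Gm`, `ParCurv`, `Frame`), and the resulting statements.

* `einstein_chart` : the Einstein condition at every point of every chart;
* `ev_nabRm` : `ev (F.nabRm p i j k l) = nf ...` ;
* `parCurv_of_onf` ; `frame_of_onf` ;
* `caseIII`, `caseI` : the outputs for the assembly.
-/

set_option autoImplicit false
set_option maxSynthPendingDepth 3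
set_option linter.unusedSectionVars false

open Set Filter Topology Bundle
open scoped ContDiff Manifold
open Crest.GeometryTopology.CoordMetric Crest.GeometryTopology.ChartCurvature
open Crest.Agent.R247.Bo84 (trans tdom pull_trans)
open Crest.Agent.R226.ChartMet842 (gm Gm isLC_gm)
open Crest.Agent.R249.Sg129 hiding gm
open Crest.Agent.R249.Fr129
open Crest.Agent.R249.B2Defs_474 Crest.Agent.R249.B2Iso_474 Crest.Agent.R249.Par3_493
  Crest.Agent.R249.Par4_493

noncomputable section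

namespace Crest.Agent.R249.Par5_493

variable {n : ℕ}

local notation "𝔼" => EuclideanSpace ℝ (Fin n)

/-! ### comparison of the coordinate formulas -/

theorem Gam_eq (g : MetricField n) : Crest.Agent.R202.Tens.Gam g = Crest.Agent.R244.CF.Gam g := by
  funext x
  ext u v k
  rw [Crest.Agent.R202.Tens.Gam_apply, Crest.Agent.R244.CF.Gam_apply]

theorem bil_eq (g : MetricField n) (x : 𝔼) :
    Crest.Agent.R202.Tens.bil (g x) = Crest.Agent.R244.CF.gB g x := by
  ext u v
  rw [Crest.Agent.R202.Tens.bil_apply, Crest.Agent.R244.CF.gB_apply]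

section onf

variable {g : MetricField n} {U : Set (EuclideanSpace ℝ (Fin n))} {x : EuclideanSpace ℝ (Fin n)}
  {e : Fin n → EuclideanSpace ℝ (Fin n) → EuclideanSpace ℝ (Fin n)}

/-- the frame components of `∇R`, as a value at the point. -/
theorem ev_nabRm (h : ONF g U x e) (p i j k l : Fin n) :
    ev (h.frameOf.nabRm p i j k l) =
      nf (fun y => Crest.Agent.R202.Tens.bil (g y)) (Crest.Agent.R202.Tens.Gam g) e p i j k l x := by
  simp only [Frame.nabRm, h.Rm_germ, h.D_germ, h.w_germ, map_sub, map_sum, map_mul, ev_germ]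
  rfl

end onf

section M

variable {M : Type*} [MetricSpace M] [ChartedSpace (EuclideanSpace ℝ (Fin n)) M]
  [IsManifold (𝓡 n) ∞ M]
  [RiemannianBundle (fun p : M => TangentSpace (𝓡 n) p)]
  [IsContMDiffRiemannianBundle (𝓡 n) ∞ (EuclideanSpace ℝ (Fin n)) (fun p : M => TangentSpace (𝓡 n) p)]

theorem gm_eq (p : M) : gm p = fun y => Crest.Agent.R202.Tens.bil (chartMetric n M p y) := by
  funext y
  rw [bil_eq, Crest.Agent.R247.Ms322.chartMetric_eq]
  exact (Crest.Agent.R244.gB_eq_gC _ _ _).symm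

theorem Gm_eq (p : M) : Gm p = Crest.Agent.R202.Tens.Gam (chartMetric n M p) := by
  rw [Gam_eq, Crest.Agent.R247.Ms322.chartMetric_eq]
  rfl

/-- **the Einstein condition at every point of every chart.** -/
theorem einstein_chart {c : ℝ} (hE : IsEinsteinWith n M c) (x₀ : M) {y : 𝔼}
    (hy : y ∈ (chartAt 𝔼 x₀).target) (i j : Fin n) :
    ricci (chartMetric n M x₀) y i j = c * chartMetric n M x₀ y i j := by
  set p := (chartAt 𝔼 x₀).symm y with hp
  have hyd : y ∈ tdom x₀ p := ⟨hy, mem_chart_source 𝔼 p⟩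
  have hP := pull_trans (n := n) x₀ p
  have h2 : trans x₀ p y = chartCentre n M p := rfl
  have key : ∀ X Y : 𝔼, ∑ i, ∑ j, ricci (chartMetric n M x₀) y i j * X i * Y j
      = c * Crest.Agent.R202.Tens.bil (chartMetric n M x₀ y) X Y := by
    intro X Y
    rw [hP.ricci_pull hyd, hP.bil_eq hyd, h2, Crest.Agent.R202.Tens.bil_apply, Finset.mul_sum]
    refine Finset.sum_congr rfl fun a _ => ?_
    rw [Finset.mul_sum]
    refine Finset.sum_congr rfl fun b _ => ?_
    rw [hE p a b]; ring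
  have h := key (EuclideanSpace.single i 1) (EuclideanSpace.single j 1)
  rw [Crest.Agent.R202.Tens.bil_apply] at h
  simpa using h

/-- **`ParCurv` from germ frames** in which `∇R = 0` at the point. -/
theorem parCurv_of_onf (h : ∀ p : M, ∃ e : Fin n → 𝔼 → 𝔼,
    ∃ h : ONF (chartMetric n M p) (chartAt 𝔼 p).target (chartAt 𝔼 p p) e,
      ∀ q i j k l, ev (h.frameOf.nabRm q i j k l) = 0) : ParCurv n M := by
  refine parCurv_of fun p => ?_
  obtain ⟨e, he, hn⟩ := h p
  refine ⟨e, he.smooth, fun i j => ?_, fun q i j k l => ?_⟩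
  · rw [gm_eq p]
    exact he.orth.self_of_nhds i j
  · rw [gm_eq p, Gm_eq p, ← ev_nabRm he, hn]

/-- 474's frame from a germ frame and an isometry `O`. -/
theorem frame_of_onf {p : M} {e : Fin n → 𝔼 → 𝔼}
    (h : ONF (chartMetric n M p) (chartAt 𝔼 p).target (chartAt 𝔼 p p) e)
    {O : 𝔼 →L[ℝ] 𝔼} (hO : ∀ u v, inner ℝ (O u) (O v) = inner ℝ u v) {R0 : 𝔼 → 𝔼 → 𝔼 → 𝔼}
    (hR0 : ∀ u v w l, (O (R0 u v w)) l
      = ∑ i, ∑ j, ∑ k, ev (h.frameOf.Rm i j k l) * ((O u) i * (O v) j * (O w) k)) :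
    Nonempty (B2Defs_474.Frame n R0 p) := by
  refine mkFrame (e := fun i => e i (chartAt 𝔼 p p)) (fun i j => ?_)
    (Rm := fun i j k l => ev (h.frameOf.Rm i j k l)) (fun i j k l => ?_) hO hR0
  · rw [gm_eq p]
    exact h.orth.self_of_nhds i j
  · rw [gm_eq p, Gm_eq p, h.ev_Rm]
    rfl

end M

end Crest.Agent.R249.Par5_493

end
end

-- ▼ part R249/Par6_493

/-!
Row 249, B1-PAR (helper493): the three model cases, from germ frames.

`RS c = (c/3) T1`, `RC c = (c/6) TC J0`, `RP c = c TS` (850's tensors).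
* `caseIII`  : `|W⁺|² = |W⁻|² = 2c²/3`, both Laplacians `0` at every point;
* `caseI`    : `∇W⁺ = 0` (germs), `|W⁻|² = 0`, `Δ|W⁻|² = 0`;
* `caseI'`   : the same with the orientation reversed.
-/

set_option autoImplicit false
set_option maxSynthPendingDepth 3
set_option linter.unusedSectionVars false

open Set Filter Topology Bundle
open scoped ContDiff Manifold
open Crest.GeometryTopology.CoordMetric Crest.GeometryTopology.ChartCurvature
open Crest.Agent.R249.Sg129 hiding gm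
open Crest.Agent.R249.Fr129
open Crest.Agent.R249.Fr129.Frame (e3 e3_sq)
open Crest.Agent.R249.B2Defs_474 Crest.Agent.R249.Par5_493
open Crest.Agent.R249.Ptw_850 (om omf RV RJK RV_eq Rm_of_blocks T1 TC TS J0 RJK_M1 frame_M2 frame_M2'
  frame_M3)

noncomputable section

namespace Crest.Agent.R249.Par6_493

local notation "E4" => EuclideanSpace ℝ (Fin 4)

section blocks

variable {S : Type*} [CommRing S] [Algebra ℝ S] (F : Fr129.Frame 4 S) (ev : S →ₐ[ℝ] ℝ)

/-- the curvature of `Λ⁺` through its block. -/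
theorem ev_PP {lam : S} (hE : F.Einstein lam) (c : Fin 3) (i j : Fin 4) :
    ev (F.PP i j c) = - ∑ d, F.Am ev c d * om d i j := by
  simp only [Fin.sum_univ_three, Frame.Am_apply]
  fin_cases i <;> fin_cases j <;>
    simp [om, F.PP_self, F.P01 hE, F.P23 hE, F.P02 hE, F.P13 hE, F.P03 hE, F.P12 hE, F.P10 hE,
      F.P32 hE, F.P20 hE, F.P31 hE, F.P30 hE, F.P21 hE]

theorem omf_eq (d : Fin 3) (i j : Fin 4) :
    omf d i j = ((e3 i : ℤ) : ℝ) * ((e3 j : ℤ) : ℝ) * om d i j := by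
  fin_cases d <;> fin_cases i <;> fin_cases j <;> simp [om, omf, e3]

theorem e3_sq' (i : Fin 4) : ((e3 i : ℤ) : ℝ) * ((e3 i : ℤ) : ℝ) = 1 := by
  exact_mod_cast e3_sq i

theorem ev_Rm_flip (i j k l : Fin 4) : ev (F.flip.Rm i j k l)
    = ((e3 i : ℤ) : ℝ) * ((e3 j : ℤ) : ℝ) * ((e3 k : ℤ) : ℝ) * ((e3 l : ℤ) : ℝ) * ev (F.Rm i j k l) := by
  rw [F.Rm_flip]
  simp only [map_mul, map_intCast]

/-- **the curvature tensor in vector form through the two blocks.** -/
theorem RV_blocks {lam : S} (hE : F.Einstein lam) (u v w : E4) :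
    RV (fun i j k l => ev (F.Rm i j k l)) u v w = RJK (F.Am ev) (F.flip.Am ev) u v w := by
  have hE' := F.Einstein_flip hE
  have hp : ∀ c i j, ev (F.PP i j c) = - ∑ d, F.Am ev c d * om d i j := ev_PP F ev hE
  have hm : ∀ c i j, ((e3 i : ℤ) : ℝ) * ((e3 j : ℤ) : ℝ) * ev (F.flip.PP i j c)
      = - ∑ d, F.flip.Am ev c d * omf d i j := by
    intro c i j
    rw [ev_PP F.flip ev hE']
    simp only [omf_eq, mul_neg, Finset.mul_sum]
    congr 1
    exact Finset.sum_congr rfl fun d _ => by ring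
  have v0 : ((e3 0 : ℤ) : ℝ) = 1 := by simp [e3]
  have v1 : ((e3 1 : ℤ) : ℝ) = 1 := by simp [e3]
  have v2 : ((e3 2 : ℤ) : ℝ) = 1 := by simp [e3]
  have v3 : ((e3 3 : ℤ) : ℝ) = -1 := by simp [e3]
  refine RV_eq (fun i j k l => Rm_of_blocks (Rm := fun i j k l => ev (F.Rm i j k l)) ?_ ?_ ?_ ?_ ?_
    ?_ ?_ i j k l) u v w
  · intro i j k l
    show ev (F.Rm i j k l) = - ev (F.Rm i j l k)
    rw [F.Rm_anti34 i j k l, map_neg]
  · intro i j
    rw [← hp 0 i j]
    simp [Frame.PP]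
  · intro i j
    rw [← hp 1 i j]
    simp [Frame.PP]
  · intro i j
    rw [← hp 2 i j]
    simp [Frame.PP]
  · intro i j
    rw [← hm 0 i j]
    simp only [Frame.PP, Matrix.cons_val_zero, map_add, ev_Rm_flip]
    have a := e3_sq' i
    have b := e3_sq' j
    rw [v0, v1, v2, v3]
    linear_combination (- (ev (F.Rm i j 0 1) - ev (F.Rm i j 2 3)) * ((e3 j : ℤ) : ℝ) ^ 2) * a
      - (ev (F.Rm i j 0 1) - ev (F.Rm i j 2 3)) * b
  · intro i j
    rw [← hm 1 i j]
    simp only [Frame.PP, Matrix.cons_val_one, Matrix.cons_val_zero, map_sub, ev_Rm_flip]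
    have a := e3_sq' i
    have b := e3_sq' j
    rw [v0, v1, v2, v3]
    linear_combination (- (ev (F.Rm i j 0 2) + ev (F.Rm i j 1 3)) * ((e3 j : ℤ) : ℝ) ^ 2) * a
      - (ev (F.Rm i j 0 2) + ev (F.Rm i j 1 3)) * b
  · intro i j
    rw [← hm 2 i j]
    simp only [Frame.PP, Matrix.cons_val, map_add, ev_Rm_flip]
    have a := e3_sq' i
    have b := e3_sq' j
    rw [v0, v1, v2, v3]
    linear_combination (- (- ev (F.Rm i j 0 3) + ev (F.Rm i j 1 2)) * ((e3 j : ℤ) : ℝ) ^ 2) * a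
      - (- ev (F.Rm i j 0 3) + ev (F.Rm i j 1 2)) * b

end blocks

/-- curvature tensor of the round sphere with Einstein constant `c` -/
def RS (c : ℝ) (u v w : E4) : E4 := (c / 3) • T1 u v w

/-- curvature tensor of the complex projective plane with Einstein constant `c` -/
def RC (c : ℝ) (u v w : E4) : E4 := (c / 6) • TC J0 u v w

/-- curvature tensor of the product of two spheres with Einstein constant `c` -/
def RP (c : ℝ) (u v w : E4) : E4 := c • TS u v w

section M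

variable {M : Type*} [MetricSpace M] [ChartedSpace (EuclideanSpace ℝ (Fin 4)) M]
  [IsManifold (𝓡 4) ∞ M]
  [RiemannianBundle (fun p : M => TangentSpace (𝓡 4) p)]
  [IsContMDiffRiemannianBundle (𝓡 4) ∞ (EuclideanSpace ℝ (Fin 4)) (fun p : M => TangentSpace (𝓡 4) p)]

theorem nsq_rank1 {c : ℝ} {v : Fin 3 → ℝ} (hv : dotProduct v v = 1) :
    LA49.nsq (c • Matrix.vecMulVec v v - (c / 3) • (1 : Matrix (Fin 3) (Fin 3) ℝ))
      = 2 / 3 * c ^ 2 := by
  have hv1 : v 0 * v 0 + v 1 * v 1 + v 2 * v 2 = 1 := by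
    simpa [dotProduct, Fin.sum_univ_three] using hv
  simp [LA49.nsq, Matrix.sub_apply, Matrix.smul_apply, Matrix.vecMulVec_apply, Fin.sum_univ_three]
  linear_combination (c ^ 2 * (v 0 * v 0 + v 1 * v 1 + v 2 * v 2 + 1) - 2 / 3 * c ^ 2) * hv1

/-- frame from the two blocks at the point -/
theorem frame_of_blocks {p : M} {e : Fin 4 → E4 → E4}
    (h : ONF (chartMetric 4 M p) (chartAt E4 p).target (chartAt E4 p p) e)
    {lam : SG (chartAt E4 p p)} (hE : h.frameOf.Einstein lam)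
    {O : E4 →L[ℝ] E4} (hO : ∀ u v, inner ℝ (O u) (O v) = inner ℝ u v) {R0 : E4 → E4 → E4 → E4}
    (hR : ∀ u v w, RJK (h.frameOf.Am ev) (h.frameOf.flip.Am ev) (O u) (O v) (O w) = O (R0 u v w)) :
    Nonempty (B2Defs_474.Frame 4 R0 p) :=
  frame_of_onf h hO (fun u v w l => by
    rw [← hR, ← RV_blocks h.frameOf ev hE]; rfl)

/-- the Einstein condition for germ frames -/
theorem einstein_onf {c : ℝ} (hE : IsEinsteinWith 4 M c) {p : M} {e : Fin 4 → E4 → E4}
    (h : ONF (chartMetric 4 M p) (chartAt E4 p).target (chartAt E4 p p) e) :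
    h.frameOf.Einstein (algebraMap ℝ (SG (chartAt E4 p p)) c) :=
  h.einstein (by
    filter_upwards [(chartAt E4 p).open_target.mem_nhds (mem_chart_target E4 p)] with y hy i j
    exact einstein_chart hE p hy i j)

section pt

variable {c : ℝ} {p : M} {e : Fin 4 → EuclideanSpace ℝ (Fin 4) → EuclideanSpace ℝ (Fin 4)}
  (h : ONF (chartMetric 4 M p) (chartAt (EuclideanSpace ℝ (Fin 4)) p).target
    (chartAt (EuclideanSpace ℝ (Fin 4)) p p) e)

/-- case III at a point -/
theorem caseIII_pt (hc : 0 < c)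
    (hE : h.frameOf.Einstein (algebraMap ℝ (SG (chartAt E4 p p)) c))
    (hq : ev (h.frameOf.qq (algebraMap ℝ _ c)) = 2 / 3 * c ^ 2)
    (hl : ev (h.frameOf.lap0 (h.frameOf.qq (algebraMap ℝ _ c))) = 0)
    (hq' : ev (h.frameOf.flip.qq (algebraMap ℝ _ c)) = 2 / 3 * c ^ 2)
    (hl' : ev (h.frameOf.lap0 (h.frameOf.flip.qq (algebraMap ℝ _ c))) = 0) :
    (∀ q i j k l, ev (h.frameOf.nabRm q i j k l) = 0) ∧
      Nonempty (B2Defs_474.Frame 4 (RP c) p) := by
  have hE' := h.frameOf.Einstein_flip hE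
  rw [← h.frameOf.flip_lap0] at hl'
  refine ⟨fun q i j k l => h.frameOf.ev_nabRm_eq_zero hE ev
    (h.frameOf.Nr_eq_zero_of_max ev hE hc.le hq hl q)
    (h.frameOf.flip.Nr_eq_zero_of_max ev hE' hc.le hq' hl' q) i j k l, ?_⟩
  obtain ⟨v, hv, hA⟩ := h.frameOf.Am_of_max ev hE hc hq hl
  obtain ⟨v', hv', hA'⟩ := h.frameOf.flip.Am_of_max ev hE' hc hq' hl'
  obtain ⟨O, hO, hR⟩ := frame_M3 (a := c) (α := v) (γ := v')
    (by simpa [dotProduct, sq] using hv) (by simpa [dotProduct, sq] using hv')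
  refine frame_of_blocks h hE hO (R0 := RP c) fun u w z => ?_
  rw [hA, hA', hR]; rfl

/-- case I at a point: the anti-self-dual Weyl tensor vanishes, the self-dual one is parallel. -/
theorem caseI_pt (hc : 0 < c)
    (hE : h.frameOf.Einstein (algebraMap ℝ (SG (chartAt E4 p p)) c))
    (hN : ∀ q a b, h.frameOf.NN q a b = 0)
    (hq' : ev (h.frameOf.flip.qq (algebraMap ℝ _ c)) = 0)
    (hl' : ev (h.frameOf.lap0 (h.frameOf.flip.qq (algebraMap ℝ _ c))) = 0) :
    (∀ q i j k l, ev (h.frameOf.nabRm q i j k l) = 0) ∧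
      ((ev (h.frameOf.qq (algebraMap ℝ _ c)) = 0 ∧ Nonempty (B2Defs_474.Frame 4 (RS c) p)) ∨
       (ev (h.frameOf.qq (algebraMap ℝ _ c)) = 2 / 3 * c ^ 2 ∧
        Nonempty (B2Defs_474.Frame 4 (RC c) p))) := by
  have hE' := h.frameOf.Einstein_flip hE
  rw [← h.frameOf.flip_lap0] at hl'
  have hN0 : ∀ q a b, h.frameOf.Nr ev q a b = 0 := fun q a b => by
    show ev (h.frameOf.NN q a b) = 0
    rw [hN, map_zero]
  refine ⟨fun q i j k l => h.frameOf.ev_nabRm_eq_zero hE ev (hN0 q)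
    (h.frameOf.flip.Nr_eq_zero_of_zero ev hE' hq' hl' q) i j k l, ?_⟩
  have hA' := h.frameOf.flip.Am_of_zero ev hE' hq'
  rcases h.frameOf.Am_of_parallel ev hE hc hN with hA | ⟨v, hv, hA⟩
  · left
    refine ⟨?_, ?_⟩
    · rw [← h.frameOf.Wm_nsq ev hE, hA, sub_self]
      simp [LA49.nsq]
    · refine frame_of_blocks h hE (O := ContinuousLinearMap.id ℝ E4) (fun u v => rfl) (R0 := RS c)
        fun u v w => ?_
      rw [hA, hA']
      exact RJK_M1 (c / 3) u v w
  · right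
    refine ⟨?_, ?_⟩
    · rw [← h.frameOf.Wm_nsq ev hE, hA, nsq_rank1 hv]
    · obtain ⟨O, hO, hR⟩ := frame_M2 (a := c) (α := v) (by simpa [dotProduct, sq] using hv)
      refine frame_of_blocks h hE hO (R0 := RC c) fun u w z => ?_
      rw [hA, hA', hR]; rfl


end pt

/-! ### global statements -/

/-- **Case III.** -/
theorem caseIII {c : ℝ} (hc : 0 < c) (hE : IsEinsteinWith 4 M c)
    (H : ∀ p : M, ∃ e : Fin 4 → E4 → E4,
      ∃ h : ONF (chartMetric 4 M p) (chartAt E4 p).target (chartAt E4 p p) e,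
        ev (h.frameOf.qq (algebraMap ℝ _ c)) = 2 / 3 * c ^ 2 ∧
        ev (h.frameOf.lap0 (h.frameOf.qq (algebraMap ℝ _ c))) = 0 ∧
        ev (h.frameOf.flip.qq (algebraMap ℝ _ c)) = 2 / 3 * c ^ 2 ∧
        ev (h.frameOf.lap0 (h.frameOf.flip.qq (algebraMap ℝ _ c))) = 0) :
    ParCurv 4 M ∧ ∀ p : M, Nonempty (B2Defs_474.Frame 4 (RP c) p) := by
  have key : ∀ p : M, ∃ e : Fin 4 → E4 → E4,
      ∃ h : ONF (chartMetric 4 M p) (chartAt E4 p).target (chartAt E4 p p) e,
      (∀ q i j k l, ev (h.frameOf.nabRm q i j k l) = 0) ∧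
        Nonempty (B2Defs_474.Frame 4 (RP c) p) := by
    intro p
    obtain ⟨e, h, h1, h2, h3, h4⟩ := H p
    exact ⟨e, h, caseIII_pt h hc (einstein_onf hE h) h1 h2 h3 h4⟩
  refine ⟨parCurv_of_onf fun p => ?_, fun p => ?_⟩
  · obtain ⟨e, h, h1, -⟩ := key p
    exact ⟨e, h, h1⟩
  · obtain ⟨e, h, -, h1⟩ := key p
    exact h1

/-- a continuous function with two values on a connected space is constant -/
theorem const_of_two {X : Type*} [TopologicalSpace X] [PreconnectedSpace X] {f : X → ℝ}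
    (hf : Continuous f) {a b : ℝ} (hab : a ≠ b) (h : ∀ x, f x = a ∨ f x = b) :
    (∀ x, f x = a) ∨ ∀ x, f x = b := by
  by_contra hcon
  push Not at hcon
  obtain ⟨⟨x, hx⟩, ⟨y, hy⟩⟩ := hcon
  have hx' : f x = b := (h x).resolve_left hx
  have hy' : f y = a := (h y).resolve_right hy
  have hr := isPreconnected_range hf
  have hI := hr.ordConnected
  have hmem : (a + b) / 2 ∈ Set.range f := by
    rcases lt_or_gt_of_ne hab with hlt | hlt
    · exact hI.out ⟨y, hy'⟩ ⟨x, hx'⟩ ⟨by linarith, by linarith⟩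
    · exact hI.out ⟨x, hx'⟩ ⟨y, hy'⟩ ⟨by linarith, by linarith⟩
  obtain ⟨z, hz⟩ := hmem
  rcases h z with h1 | h1
  · apply hab; linarith
  · apply hab; linarith

/-- **Case I.** `q` is the function `|W⁺|²`. -/
theorem caseI [ConnectedSpace M] {c : ℝ} (hc : 0 < c) (hE : IsEinsteinWith 4 M c) {f : M → ℝ}
    (hf : Continuous f)
    (H : ∀ p : M, ∃ e : Fin 4 → E4 → E4,
      ∃ h : ONF (chartMetric 4 M p) (chartAt E4 p).target (chartAt E4 p p) e,
        ev (h.frameOf.qq (algebraMap ℝ _ c)) = f p ∧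
        (∀ q a b, h.frameOf.NN q a b = 0) ∧
        ev (h.frameOf.flip.qq (algebraMap ℝ _ c)) = 0 ∧
        ev (h.frameOf.lap0 (h.frameOf.flip.qq (algebraMap ℝ _ c))) = 0) :
    (ParCurv 4 M ∧ ∀ p : M, Nonempty (B2Defs_474.Frame 4 (RS c) p)) ∨
      (ParCurv 4 M ∧ ∀ p : M, Nonempty (B2Defs_474.Frame 4 (RC c) p)) := by
  have key : ∀ p : M, (∃ e : Fin 4 → E4 → E4,
      ∃ h : ONF (chartMetric 4 M p) (chartAt E4 p).target (chartAt E4 p p) e,
      (∀ q i j k l, ev (h.frameOf.nabRm q i j k l) = 0)) ∧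
        ((f p = 0 ∧ Nonempty (B2Defs_474.Frame 4 (RS c) p)) ∨
         (f p = 2 / 3 * c ^ 2 ∧ Nonempty (B2Defs_474.Frame 4 (RC c) p))) := by
    intro p
    obtain ⟨e, h, h1, h2, h3, h4⟩ := H p
    obtain ⟨ha, hb⟩ := caseI_pt h hc (einstein_onf hE h) h2 h3 h4
    rw [h1] at hb
    exact ⟨⟨e, h, ha⟩, hb⟩
  have hP : ParCurv 4 M := parCurv_of_onf fun p => (key p).1
  have hne : (0 : ℝ) ≠ 2 / 3 * c ^ 2 := by positivity
  rcases const_of_two hf hne (fun x => (key x).2.imp And.left And.left) with h0 | h0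
  · left
    refine ⟨hP, fun p => ?_⟩
    rcases (key p).2 with h1 | h1
    · exact h1.2
    · exact absurd ((h0 p).symm.trans h1.1) hne
  · right
    refine ⟨hP, fun p => ?_⟩
    rcases (key p).2 with h1 | h1
    · exact absurd (h1.1.symm.trans (h0 p)) hne
    · exact h1.2


end M

end Crest.Agent.R249.Par6_493

end
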