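import Crest.Agent.R226.NearDiagFinal_996
import Crest.Agent.R202.GeoTens
import Crest.Agent.R247.Ms2_322
import Crest.Agent.R226.ChartCost_77
import Crest.Agent.R226.GeoThm_542
import Crest.Agent.R247.Bo5_84
import Crest.Agent.R249.TrigS_662
import Crest.Agent.R249.MdlP_850
import Crest.Agent.R249.Qr_285
import Crest.Agent.R249.Par6_493
import Crest.Agent.R249.B2Fin_474

-- ▼ part R249/MyS_40
section

/-!
# R249, B3.2 (helper40): the local Myers-Steenrod lemma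

`ModDist n r D`: `D` is a model distance function on the ball of radius `r` of `ℝⁿ`, written in
normal coordinates (rays through `0` are minimal, first variation of `D²/2` at the centre).
`exists_linear`: a map `F` from the ball into a closed Riemannian manifold with
`dist (F v) (F w) = D v w` is `e x ∘ A` for a linear isometry `A`, where `e` is the local exponential
map of `R226` (`NearDiag`).
-/

set_option autoImplicit false
set_option maxSynthPendingDepth 3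
set_option linter.unusedSectionVars false

open MeasureTheory Bundle Set Filter
open scoped Manifold ContDiff Bundle ENNReal Topology
open Crest.GeometryTopology.MTW Crest.Agent.R226

noncomputable section

namespace Crest.Agent.R249.MyS40

/-- a model distance function in normal coordinates on the ball of radius `r`. -/
structure ModDist (n : ℕ) (r : ℝ)
    (D : EuclideanSpace ℝ (Fin n) → EuclideanSpace ℝ (Fin n) → ℝ) : Prop where
  ray : ∀ v : EuclideanSpace ℝ (Fin n), ‖v‖ < r → ∀ s t : ℝ, 0 ≤ s → s ≤ 1 → 0 ≤ t → t ≤ 1 →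
    D (s • v) (t • v) = |s - t| * ‖v‖
  var : ∀ v ξ : EuclideanSpace ℝ (Fin n), ‖v‖ < r → ‖ξ‖ < r →
    HasDerivWithinAt (fun t : ℝ => D (t • ξ) v ^ 2 / 2) (-inner ℝ v ξ) (Ici 0) 0

/-- comparison of one sided derivatives -/
theorem deriv_le_of_le {h q : ℝ → ℝ} {h' q' : ℝ} (hh : HasDerivWithinAt h h' (Ici 0) 0)
    (hq : HasDerivWithinAt q q' (Ici 0) 0) (h0 : h 0 = q 0)
    (hle : ∀ s : ℝ, 0 ≤ s → s ≤ 1 → q s ≤ h s) : q' ≤ h' := by
  have hd : HasDerivWithinAt (fun s => h s - q s) (h' - q') (Ioi 0) 0 :=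
    (hh.sub hq).Ioi_of_Ici
  rw [hasDerivWithinAt_iff_tendsto_slope' (by simp)] at hd
  have h1 : 0 ≤ h' - q' := by
    refine ge_of_tendsto hd ?_
    have h2 : Ioo (0:ℝ) 1 ∈ 𝓝[Ioi 0] (0:ℝ) := Ioo_mem_nhdsGT (by norm_num)
    filter_upwards [h2] with s hs
    rw [slope_def_field]
    have := hle s hs.1.le hs.2.le
    have h3 : (h s - q s) - (h 0 - q 0) = h s - q s := by rw [h0]; ring
    rw [h3, sub_zero]
    exact div_nonneg (by linarith) hs.1.le
  linarith

section Main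

variable {n : ℕ} {M : Type*} [MetricSpace M] [ChartedSpace (EuclideanSpace ℝ (Fin n)) M]
  [IsManifold (𝓡 n) ∞ M]
  [RiemannianBundle (fun p : M => TangentSpace (𝓡 n) p)]

local notation "𝔼" => EuclideanSpace ℝ (Fin n)

theorem hom_of_dist (G : NearDiag n M) (x : M) {u w : TangentSpace (𝓡 n) x} (hu : ‖u‖ < G.r₀)
    {t : ℝ} (ht0 : 0 ≤ t) (ht1 : t ≤ 1) (hw : ‖w‖ = t * ‖u‖)
    (hd : dist (G.e x u) (G.e x w) = (1 - t) * ‖u‖) : w = t • u := by
  have hw' : ‖w‖ < G.r₀ := by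
    rw [hw]
    nlinarith [norm_nonneg u]
  have hnu : ‖-u‖ < G.r₀ := by rwa [norm_neg]
  -- the function `h`
  have hder := (G.hasDerivAt_cost x w (-u) hw' hnu).hasDerivWithinAt (s := Ici (0:ℝ))
  have hq : HasDerivWithinAt (fun s : ℝ => ((s + t) * ‖u‖) ^ 2 / 2) (t * ‖u‖ ^ 2) (Ici 0) 0 := by
    have h1 : HasDerivAt (fun s : ℝ => ((s + t) * ‖u‖) ^ 2 / 2) (t * ‖u‖ ^ 2) 0 := by
      have h2 : HasDerivAt (fun s : ℝ => (s + t) * ‖u‖) (1 * ‖u‖) 0 :=
        ((hasDerivAt_id (0:ℝ)).add_const t).mul_const ‖u‖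
      have h3 := (h2.pow 2).div_const 2
      refine h3.congr_deriv ?_
      simp only [zero_add, one_mul]
      norm_num
      ring
    exact h1.hasDerivWithinAt
  have hdist0 : ∀ s : ℝ, 0 ≤ s → s ≤ 1 → dist (G.e x (s • (-u))) (G.e x u) = (s + 1) * ‖u‖ := by
    intro s hs0 hs1
    have := G.dist_eq x u hu (-s) 1 (by rw [abs_neg, abs_of_nonneg hs0]; exact hs1) (by simp)
    rw [one_smul] at this
    rw [smul_neg, ← neg_smul, this]
    congr 1
    rw [abs_of_nonpos (by linarith)]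
    ring
  have hle : ∀ s : ℝ, 0 ≤ s → s ≤ 1 →
      ((s + t) * ‖u‖) ^ 2 / 2 ≤ halfDistSq (G.e x (s • (-u))) (G.e x w) := by
    intro s hs0 hs1
    have h1 := dist_triangle (G.e x (s • (-u))) (G.e x w) (G.e x u)
    rw [hdist0 s hs0 hs1, dist_comm (G.e x w) (G.e x u), hd] at h1
    have h2 : (s + t) * ‖u‖ ≤ dist (G.e x (s • (-u))) (G.e x w) := by linarith
    have h3 : 0 ≤ (s + t) * ‖u‖ := mul_nonneg (by linarith) (norm_nonneg _)
    unfold halfDistSq
    have := pow_le_pow_left₀ h3 h2 2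
    linarith
  have h0 : halfDistSq (G.e x ((0:ℝ) • (-u))) (G.e x w) = ((0 + t) * ‖u‖) ^ 2 / 2 := by
    have := G.dist_eq x w hw' 0 1 (by simp) (by simp)
    rw [one_smul, zero_smul] at this
    rw [zero_smul]
    unfold halfDistSq
    rw [this, hw]
    simp
  have h5 := deriv_le_of_le hder hq h0 hle
  rw [inner_neg_right, neg_neg] at h5
  have h6 : ‖w - t • u‖ ^ 2 ≤ 0 := by
    have e1 : ‖w - t • u‖ ^ 2 = ‖w‖ ^ 2 - 2 * inner ℝ w (t • u) + ‖t • u‖ ^ 2 :=
      norm_sub_sq_real w (t • u)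
    rw [e1, inner_smul_right, norm_smul, hw, Real.norm_eq_abs, abs_of_nonneg ht0]
    nlinarith
  have h7 : ‖w - t • u‖ = 0 := by
    have : ‖w - t • u‖ ^ 2 = 0 := le_antisymm h6 (by positivity)
    exact pow_eq_zero_iff (two_ne_zero) |>.1 this
  exact sub_eq_zero.1 (norm_eq_zero.1 h7)

/-- **Local Myers–Steenrod lemma.** -/
theorem exists_linear (G : NearDiag n M) {x : M} {r : ℝ} (hr0 : 0 < r) (hr : r ≤ G.r₀)
    {D : 𝔼 → 𝔼 → ℝ} (hD : ModDist n r D) {F : 𝔼 → M} (hF0 : F 0 = x)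
    (hF : ∀ v w : 𝔼, ‖v‖ < r → ‖w‖ < r → dist (F v) (F w) = D v w) :
    ∃ A : 𝔼 →ₗ[ℝ] TangentSpace (𝓡 n) x, (∀ v w : 𝔼, inner ℝ (A v) (A w) = inner ℝ v w) ∧
      ∀ v : 𝔼, ‖v‖ < r → F v = G.e x (A v) := by
  classical
  have hz : ‖(0:𝔼)‖ < r := by simpa using hr0
  have hd0 : ∀ v : 𝔼, ‖v‖ < r → dist x (F v) = ‖v‖ := by
    intro v hv
    rw [← hF0, hF 0 v hz hv]
    have := hD.ray v hv 0 1 le_rfl zero_le_one zero_le_one le_rfl
    rw [zero_smul, one_smul] at this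
    rw [this]; simp
  have hex : ∀ v : 𝔼, ∃ u : TangentSpace (𝓡 n) x, ‖v‖ < r → ‖u‖ = ‖v‖ ∧ G.e x u = F v := by
    intro v
    by_cases hv : ‖v‖ < r
    · obtain ⟨u, hu1, hu2⟩ := G.surj x (F v) (by rw [hd0 v hv]; exact hv.trans_le hr)
      exact ⟨u, fun _ => ⟨by rw [hu1, hd0 v hv], hu2⟩⟩
    · exact ⟨0, fun h => absurd h hv⟩
  choose T hT using hex
  have hTn : ∀ v : 𝔼, ‖v‖ < r → ‖T v‖ = ‖v‖ := fun v hv => (hT v hv).1
  have hTe : ∀ v : 𝔼, ‖v‖ < r → G.e x (T v) = F v := fun v hv => (hT v hv).2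
  have hsm : ∀ v : 𝔼, ‖v‖ < r → ∀ t : ℝ, 0 ≤ t → t ≤ 1 → ‖t • v‖ < r := by
    intro v hv t ht0 ht1
    rw [norm_smul, Real.norm_eq_abs, abs_of_nonneg ht0]
    nlinarith [norm_nonneg v]
  have hhom : ∀ v : 𝔼, ‖v‖ < r → ∀ t : ℝ, 0 ≤ t → t ≤ 1 → T (t • v) = t • T v := by
    intro v hv t ht0 ht1
    refine hom_of_dist G x (u := T v) ((hTn v hv).trans_lt (hv.trans_le hr)) ht0 ht1 ?_ ?_
    · rw [hTn _ (hsm v hv t ht0 ht1), hTn v hv, norm_smul, Real.norm_eq_abs, abs_of_nonneg ht0]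
    · rw [hTe v hv, hTe _ (hsm v hv t ht0 ht1), hF v _ hv (hsm v hv t ht0 ht1), hTn v hv]
      have := hD.ray v hv 1 t zero_le_one le_rfl ht0 ht1
      rw [one_smul] at this
      rw [this, abs_of_nonneg (by linarith)]
  have hinn : ∀ v ξ : 𝔼, ‖v‖ < r → ‖ξ‖ < r → inner ℝ (T v) (T ξ) = inner ℝ v ξ := by
    intro v ξ hv hξ
    have h1 := (G.hasDerivAt_cost x (T v) (T ξ) ((hTn v hv).trans_lt (hv.trans_le hr))
      ((hTn ξ hξ).trans_lt (hξ.trans_le hr))).hasDerivWithinAt (s := Icc (0:ℝ) 1)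
    have h2 := (hD.var v ξ hv hξ).mono (Icc_subset_Ici_self : Icc (0:ℝ) 1 ⊆ Ici 0)
    have h3 : HasDerivWithinAt (fun t : ℝ => D (t • ξ) v ^ 2 / 2) (-inner ℝ (T v) (T ξ))
        (Icc (0:ℝ) 1) 0 := by
      refine h1.congr ?_ ?_
      · intro t ht
        have e1 : G.e x (t • T ξ) = F (t • ξ) := by
          rw [← hhom ξ hξ t ht.1 ht.2, hTe _ (hsm ξ hξ t ht.1 ht.2)]
        show D (t • ξ) v ^ 2 / 2 = halfDistSq (G.e x (t • T ξ)) (G.e x (T v))
        rw [e1, hTe v hv]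
        unfold halfDistSq
        rw [hF _ _ (hsm ξ hξ t ht.1 ht.2) hv]
      · have e1 : G.e x ((0:ℝ) • T ξ) = F ((0:ℝ) • ξ) := by
          rw [← hhom ξ hξ 0 le_rfl zero_le_one, hTe _ (hsm ξ hξ 0 le_rfl zero_le_one)]
        show D ((0:ℝ) • ξ) v ^ 2 / 2 = halfDistSq (G.e x ((0:ℝ) • T ξ)) (G.e x (T v))
        rw [e1, hTe v hv]
        unfold halfDistSq
        rw [hF _ _ (hsm ξ hξ 0 le_rfl zero_le_one) hv]
    have hu : UniqueDiffWithinAt ℝ (Icc (0:ℝ) 1) 0 :=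
      uniqueDiffOn_Icc (by norm_num) 0 (by simp)
    have h4 := hu.eq_deriv (Icc (0:ℝ) 1) h3 h2
    linarith
  -- the linear map
  set c : ℝ := r / 2 with hc
  have hcpos : 0 < c := by positivity
  set b : Fin n → 𝔼 := fun i => c • EuclideanSpace.single i (1:ℝ) with hb
  have hbn : ∀ i, ‖b i‖ < r := by
    intro i
    rw [hb]
    simp only [norm_smul, PiLp.norm_single, norm_one, mul_one, Real.norm_eq_abs,
      abs_of_pos hcpos]
    rw [hc]; linarith
  have hvb : ∀ (v : 𝔼) (i : Fin n), inner ℝ v (b i) = c * v i := by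
    intro v i
    rw [hb]
    simp [inner_smul_right, EuclideanSpace.inner_single_right]
  have hbb : ∀ i j : Fin n, inner ℝ (b i) (b j) = if i = j then c ^ 2 else 0 := by
    intro i j
    rw [hvb, hb]
    by_cases hij : i = j
    · subst hij; simp; ring
    · simp [hij]
  let A : 𝔼 →ₗ[ℝ] TangentSpace (𝓡 n) x :=
    { toFun := fun v => ∑ i, (v i / c) • T (b i)
      map_add' := by
        intro v w
        rw [← Finset.sum_add_distrib]
        refine Finset.sum_congr rfl fun i _ => ?_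
        rw [← add_smul]
        congr 1
        simp [add_div]
      map_smul' := by
        intro a v
        rw [Finset.smul_sum]
        refine Finset.sum_congr rfl fun i _ => ?_
        rw [smul_smul]
        congr 1
        simp [mul_div_assoc] }
  have hAapp : ∀ v : 𝔼, A v = ∑ i, (v i / c) • T (b i) := fun v => rfl
  have hAA : ∀ v w : 𝔼, inner ℝ (A v) (A w) = inner ℝ v w := by
    intro v w
    rw [hAapp, hAapp, sum_inner]
    have : ∀ i ∈ Finset.univ, inner ℝ ((v i / c) • T (b i)) (∑ j, (w j / c) • T (b j)) =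
        v i * w i := by
      intro i _
      rw [inner_sum]
      have : ∀ j ∈ Finset.univ, inner ℝ ((v i / c) • T (b i)) ((w j / c) • T (b j)) =
          if i = j then v i * w j else 0 := by
        intro j _
        rw [real_inner_smul_left, real_inner_smul_right, hinn _ _ (hbn i) (hbn j), hbb]
        by_cases hij : i = j
        · simp only [hij, if_true]
          field_simp
        · simp [hij]
      rw [Finset.sum_congr rfl this]
      simp
    rw [Finset.sum_congr rfl this]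
    simp only [PiLp.inner_apply]
    refine Finset.sum_congr rfl fun i _ => ?_
    simp [mul_comm]
  refine ⟨A, hAA, fun v hv => ?_⟩
  have hTA : T v = A v := by
    have e1 : inner ℝ (T v) (A v) = inner ℝ v v := by
      rw [hAapp, inner_sum]
      have : ∀ i ∈ Finset.univ, inner ℝ (T v) ((v i / c) • T (b i)) = v i * v i := by
        intro i _
        rw [real_inner_smul_right, hinn v _ hv (hbn i), hvb]
        field_simp
      rw [Finset.sum_congr rfl this]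
      simp only [PiLp.inner_apply]
      refine Finset.sum_congr rfl fun i _ => ?_
      simp [sq]
    have e2 : ‖T v - A v‖ ^ 2 = 0 := by
      have e3 : ‖T v - A v‖ ^ 2 = ‖T v‖ ^ 2 - 2 * inner ℝ (T v) (A v) + ‖A v‖ ^ 2 :=
        norm_sub_sq_real (T v) (A v)
      have e4 : ‖A v‖ ^ 2 = inner ℝ v v := by
        rw [← real_inner_self_eq_norm_sq, hAA]
      rw [e3, e1, e4, hTn v hv, real_inner_self_eq_norm_sq]
      ring
    exact sub_eq_zero.1 (norm_eq_zero.1 (pow_eq_zero_iff (two_ne_zero) |>.1 e2))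
  rw [← hTA, hTe v hv]

end Main

end Crest.Agent.R249.MyS40
end
end

-- ▼ part R249/PbA_40
section

/-!
# R249, B3.3 part A (helper40): the curvature at the origin from the second order expansion

`g` Riemannian near `0` with `g(0) = id` and `g(tv)(ξ,ξ) = |ξ|² - t² S(v,ξ)/3 + o(t²)` (one sided), `S`
of curvature type. Then `secNumer g 0 u v = S u v`, `gramDet g 0 u v = |u|²|v|² - ⟪u,v⟫²` and the Ricci
form is the trace of `S`.
-/

set_option autoImplicit false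
set_option maxSynthPendingDepth 3
set_option linter.unusedSectionVars false

open Set Filter
open scoped ContDiff Topology
open Crest.GeometryTopology.CoordMetric Crest.GeometryTopology.ChartCurvature
open Crest.Agent.R202.Tens

noncomputable section

namespace Crest.Agent.R249.Pb40

theorem two_le_infty : (2 : WithTop ℕ∞) ≤ ∞ := WithTop.coe_le_coe.2 le_top

theorem one_add_one_le : (1 : WithTop ℕ∞) + 1 ≤ ∞ := by
  rw [one_add_one_eq_two]; exact two_le_infty

/-- one sided second order expansion of a `C²` function -/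
theorem second_deriv_of_tendsto {f f' : ℝ → ℝ} {f'' L : ℝ}
    (hf : ∀ᶠ t in 𝓝 (0:ℝ), HasDerivAt f (f' t) t) (hf' : HasDerivAt f' f'' 0)
    (hL : Tendsto (fun t => (f t - f 0) / t ^ 2) (𝓝[>] 0) (𝓝 L)) : f' 0 = 0 ∧ f'' = 2 * L := by
  have hd0 : HasDerivAt f (f' 0) 0 := hf.self_of_nhds
  have hid : Tendsto (fun t : ℝ => t) (𝓝[>] 0) (𝓝 0) := tendsto_nhdsWithin_of_tendsto_nhds tendsto_id
  have h1 : f' 0 = 0 := by
    have e1 : Tendsto (fun t => (f t - f 0) / t ^ 2 * t) (𝓝[>] 0) (𝓝 (L * 0)) := hL.mul hid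
    have e2 := (hasDerivAt_iff_tendsto_slope.1 hd0).mono_left
      (nhdsWithin_mono (0:ℝ) (fun t (ht : t ∈ Ioi (0:ℝ)) => (ne_of_gt ht : t ≠ 0)))
    have e3 : Tendsto (fun t => (f t - f 0) / t ^ 2 * t) (𝓝[>] 0) (𝓝 (f' 0)) := by
      refine e2.congr' ?_
      filter_upwards [self_mem_nhdsWithin] with t ht
      have ht' : (t:ℝ) ≠ 0 := ne_of_gt ht
      rw [slope_def_field, sub_zero]
      field_simp
    have := tendsto_nhds_unique e3 e1
    simpa using this
  refine ⟨h1, ?_⟩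
  have h2 : Tendsto (fun t => f' t / (2 * t)) (𝓝[>] 0) (𝓝 (f'' / 2)) := by
    have e2 := (hasDerivAt_iff_tendsto_slope.1 hf').mono_left
      (nhdsWithin_mono (0:ℝ) (fun t (ht : t ∈ Ioi (0:ℝ)) => (ne_of_gt ht : t ≠ 0)))
    refine (e2.div_const 2).congr' ?_
    filter_upwards [self_mem_nhdsWithin] with t ht
    have ht' : (t:ℝ) ≠ 0 := ne_of_gt ht
    rw [slope_def_field, sub_zero, h1, sub_zero]
    field_simp
  have h3 : Tendsto (fun t => (f t - f 0) / t ^ 2) (𝓝[>] 0) (𝓝 (f'' / 2)) := by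
    refine HasDerivAt.lhopital_zero_nhdsGT (f' := f') (g' := fun t => 2 * t) ?_ ?_ ?_ ?_ ?_ h2
    · filter_upwards [hf.filter_mono nhdsWithin_le_nhds] with t ht
      exact ht.sub_const (f 0)
    · filter_upwards with t
      have := hasDerivAt_pow 2 t
      simpa using this
    · filter_upwards [self_mem_nhdsWithin] with t ht
      have ht' : (t:ℝ) ≠ 0 := ne_of_gt ht
      positivity
    · have := (hd0.continuousAt.tendsto.sub_const (f 0)).mono_left
        (nhdsWithin_le_nhds (a := (0:ℝ)) (s := Ioi 0))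
      simpa using this
    · have : Tendsto (fun t : ℝ => t ^ 2) (𝓝[>] 0) (𝓝 (0 ^ 2)) := hid.pow 2
      simpa using this
  have := tendsto_nhds_unique hL h3
  linarith

variable {n : ℕ}

local notation "𝔼" => EuclideanSpace ℝ (Fin n)

theorem contDiffAt_Gf {g : MetricField n} {U : Set 𝔼} (hg : IsRiemannianOn g U) {x : 𝔼}
    (hx : x ∈ U) : ContDiffAt ℝ ∞ (Gf g) x := by
  have h : ContDiffOn ℝ ∞ (Gf g) U := by
    unfold Gf
    have : ContDiffOn ℝ ∞ (fun y => ∑ i, ∑ j, g y i j • eij i j) U :=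
      ContDiffOn.sum fun i _ => ContDiffOn.sum fun j _ =>
        (hg.contDiffOn i j).smul contDiffOn_const
    exact this
  exact h.contDiffAt (hg.isOpen.mem_nhds hx)

/-- Taylor data of the metric at the origin. -/
structure Tay (g : MetricField n) (S : 𝔼 → 𝔼 → ℝ) : Prop where
  zero : ∀ u v : 𝔼, bil (g 0) u v = inner ℝ u v
  tay : ∀ v ξ : 𝔼, Tendsto (fun t : ℝ => (bil (g (t • v)) ξ ξ - ‖ξ‖ ^ 2) / t ^ 2) (𝓝[>] 0)
    (𝓝 (-S v ξ / 3))

/-- `S` is the quadratic form of a curvature like tensor -/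
structure CurvLike (S : 𝔼 → 𝔼 → ℝ) : Prop where
  self : ∀ w : 𝔼, S w w = 0
  comm : ∀ u v : 𝔼, S u v = S v u
  pol : ∀ u v : 𝔼, S (u + v) (u - v) = 4 * S u v

section

variable {g : MetricField n} {U : Set (EuclideanSpace ℝ (Fin n))}
  {S : EuclideanSpace ℝ (Fin n) → EuclideanSpace ℝ (Fin n) → ℝ}

theorem deriv_data (hg : IsRiemannianOn g U) (h0 : (0:𝔼) ∈ U) (hT : Tay g S) (v ξ : 𝔼) :
    fderiv ℝ (Gf g) 0 v ξ ξ = 0 ∧
      fderiv ℝ (fderiv ℝ (Gf g)) 0 v v ξ ξ = -(2 / 3) * S v ξ := by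
  have hG : ContDiffAt ℝ ∞ (Gf g) 0 := contDiffAt_Gf hg h0
  have hcont : Continuous fun t : ℝ => t • v := by fun_prop
  have hmem : ∀ᶠ t in 𝓝 (0:ℝ), t • v ∈ U := by
    have : Tendsto (fun t : ℝ => t • v) (𝓝 0) (𝓝 ((0:ℝ) • v)) := hcont.tendsto 0
    rw [zero_smul] at this
    exact this.eventually (hg.isOpen.mem_nhds h0)
  have hline : ∀ t : ℝ, HasDerivAt (fun t : ℝ => t • v) v t := by
    intro t
    have := (hasDerivAt_id t).smul_const v
    simpa using this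
  have hf : ∀ᶠ t in 𝓝 (0:ℝ), HasDerivAt (fun t : ℝ => Gf g (t • v) ξ ξ)
      (fderiv ℝ (Gf g) (t • v) v ξ ξ) t := by
    filter_upwards [hmem] with t ht
    have h1 : HasFDerivAt (Gf g) (fderiv ℝ (Gf g) (t • v)) (t • v) :=
      ((contDiffAt_Gf hg ht).differentiableAt (by norm_num)).hasFDerivAt
    have h2 := h1.comp_hasDerivAt t (hline t)
    have h3 := h2.clm_apply (hasDerivAt_const t ξ)
    have h4 := h3.clm_apply (hasDerivAt_const t ξ)
    simpa using h4
  have hf' : HasDerivAt (fun t : ℝ => fderiv ℝ (Gf g) (t • v) v ξ ξ)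
      (fderiv ℝ (fderiv ℝ (Gf g)) 0 v v ξ ξ) 0 := by
    have h1 : HasFDerivAt (fderiv ℝ (Gf g)) (fderiv ℝ (fderiv ℝ (Gf g)) 0) ((0:ℝ) • v) := by
      rw [zero_smul]
      exact ((hG.fderiv_right (m := 1) one_add_one_le).differentiableAt (by norm_num)).hasFDerivAt
    have h2 := h1.comp_hasDerivAt (0:ℝ) (hline 0)
    have h3 := h2.clm_apply (hasDerivAt_const (0:ℝ) v)
    have h4 := h3.clm_apply (hasDerivAt_const (0:ℝ) ξ)
    have h5 := h4.clm_apply (hasDerivAt_const (0:ℝ) ξ)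
    simpa using h5
  have hL : Tendsto (fun t : ℝ => (Gf g (t • v) ξ ξ - Gf g ((0:ℝ) • v) ξ ξ) / t ^ 2) (𝓝[>] 0)
      (𝓝 (-S v ξ / 3)) := by
    have e : Gf g ((0:ℝ) • v) ξ ξ = ‖ξ‖ ^ 2 := by
      rw [zero_smul]
      show bil (g 0) ξ ξ = _
      rw [hT.zero, real_inner_self_eq_norm_sq]
    rw [e]
    exact hT.tay v ξ
  obtain ⟨h1, h2⟩ := second_deriv_of_tendsto hf hf' hL
  constructor
  · simpa using h1
  · rw [h2]; ring

theorem Gf_symm (hg : IsRiemannianOn g U) {x : 𝔼} (hx : x ∈ U) (u v : 𝔼) :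
    Gf g x u v = Gf g x v u := bil_symm hg hx u v

theorem fderiv_Gf_symm (hg : IsRiemannianOn g U) {x : 𝔼} (hx : x ∈ U) (w u v : 𝔼) :
    fderiv ℝ (Gf g) x w u v = fderiv ℝ (Gf g) x w v u := by
  have hd : DifferentiableAt ℝ (Gf g) x := (contDiffAt_Gf hg hx).differentiableAt (by norm_num)
  have e : ∀ a b : 𝔼, fderiv ℝ (fun y => Gf g y a b) x w = fderiv ℝ (Gf g) x w a b := by
    intro a b
    have h1 := (hd.hasFDerivAt.clm_apply (hasFDerivAt_const a x)).clm_apply (hasFDerivAt_const b x)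
    rw [h1.fderiv]
    simp
  rw [← e, ← e]
  have : (fun y => Gf g y u v) =ᶠ[𝓝 x] fun y => Gf g y v u := by
    filter_upwards [hg.isOpen.mem_nhds hx] with y hy using Gf_symm hg hy u v
  rw [this.fderiv_eq]

theorem fderiv_Gf_zero (hg : IsRiemannianOn g U) (h0 : (0:𝔼) ∈ U) (hT : Tay g S) :
    fderiv ℝ (Gf g) 0 = 0 := by
  ext w u v
  have e1 := (deriv_data hg h0 hT w (u + v)).1
  have e2 := (deriv_data hg h0 hT w u).1
  have e3 := (deriv_data hg h0 hT w v).1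
  have e4 := fderiv_Gf_symm hg h0 w u v
  simp only [map_add, add_apply] at e1
  simp only [zero_apply]
  linarith

theorem snd_symm1 (hg : IsRiemannianOn g U) (h0 : (0:𝔼) ∈ U) (a b u v : 𝔼) :
    fderiv ℝ (fderiv ℝ (Gf g)) 0 a b u v = fderiv ℝ (fderiv ℝ (Gf g)) 0 b a u v := by
  have h := (contDiffAt_Gf hg h0).isSymmSndFDerivAt (by simpa using two_le_infty)
  rw [h.eq a b]

theorem snd_symm2 (hg : IsRiemannianOn g U) (h0 : (0:𝔼) ∈ U) (a b u v : 𝔼) :
    fderiv ℝ (fderiv ℝ (Gf g)) 0 a b u v = fderiv ℝ (fderiv ℝ (Gf g)) 0 a b v u := by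
  have hd : DifferentiableAt ℝ (fderiv ℝ (Gf g)) 0 :=
    ((contDiffAt_Gf hg h0).fderiv_right (m := 1) one_add_one_le).differentiableAt (by norm_num)
  have e : ∀ c d : 𝔼, fderiv ℝ (fun y => fderiv ℝ (Gf g) y b c d) 0 a =
      fderiv ℝ (fderiv ℝ (Gf g)) 0 a b c d := by
    intro c d
    have h1 := ((hd.hasFDerivAt.clm_apply (hasFDerivAt_const b (0:𝔼))).clm_apply
      (hasFDerivAt_const c (0:𝔼))).clm_apply (hasFDerivAt_const d (0:𝔼))
    rw [h1.fderiv]
    simp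
  rw [← e, ← e]
  have : (fun y => fderiv ℝ (Gf g) y b u v) =ᶠ[𝓝 0] fun y => fderiv ℝ (Gf g) y b v u := by
    filter_upwards [hg.isOpen.mem_nhds h0] with y hy using fderiv_Gf_symm hg hy b u v
  rw [this.fderiv_eq]

/-- the mixed second derivative by polarisation -/
theorem snd_mixed (hg : IsRiemannianOn g U) (h0 : (0:𝔼) ∈ U) (hT : Tay g S) (hS : CurvLike S)
    (u v : 𝔼) : fderiv ℝ (fderiv ℝ (Gf g)) 0 u v u v = (1 / 3) * S u v := by
  set B := fderiv ℝ (fderiv ℝ (Gf g)) 0 with hB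
  have q : ∀ a ξ : 𝔼, B a a ξ ξ = -(2 / 3) * S a ξ := fun a ξ => (deriv_data hg h0 hT a ξ).2
  have s1 : ∀ a b c d : 𝔼, B a b c d = B b a c d := snd_symm1 hg h0
  have s2 : ∀ a b c d : 𝔼, B a b c d = B a b d c := snd_symm2 hg h0
  have p1 := q (u + v) (u + v)
  have p2 := q (u + v) (u - v)
  have p3 := q (u - v) (u + v)
  have p4 := q (u - v) (u - v)
  rw [hS.self] at p1 p4
  rw [hS.pol] at p2
  rw [hS.comm, hS.pol] at p3
  simp only [map_add, map_sub, add_apply, sub_apply] at p1 p2 p3 p4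
  have t1 := s1 v u u v
  have t2 := s1 v u u u
  have t3 := s1 v u v v
  have t4 := s1 v u v u
  have t5 := s2 u v v u
  have t6 := s2 v u v u
  have t7 := s2 u u v u
  have t8 := s2 v v v u
  linarith

theorem gam_zero (hg : IsRiemannianOn g U) (h0 : (0:𝔼) ∈ U) (hT : Tay g S) (X Y : 𝔼) :
    Gam g 0 X Y = 0 := by
  have hlc := isLC_Gam (fun i j => differentiableAt_entry hg h0 i j)
    (hg.posDef 0 h0).det_pos.ne'.isUnit (fun i j => metric_symm hg h0 i j)
  by_contra hne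
  have h1 := hlc X Y (Gam g 0 X Y)
  rw [fderiv_Gf_zero hg h0 hT] at h1
  simp only [zero_apply, add_zero, sub_zero, mul_zero] at h1
  exact (bil_pos hg h0 hne).ne' h1

/-- the lowered derivative of the Christoffel map at the origin -/
theorem low_fderiv_gam (hg : IsRiemannianOn g U) (h0 : (0:𝔼) ∈ U) (hT : Tay g S) (W X Y Z : 𝔼) :
    Gf g 0 (fderiv ℝ (Gam g) 0 W X Y) Z =
      (1 / 2) * (fderiv ℝ (fderiv ℝ (Gf g)) 0 W X Y Z + fderiv ℝ (fderiv ℝ (Gf g)) 0 W Y X Z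
        - fderiv ℝ (fderiv ℝ (Gf g)) 0 W Z X Y) := by
  have hd : DifferentiableAt ℝ (fderiv ℝ (Gf g)) 0 :=
    ((contDiffAt_Gf hg h0).fderiv_right (m := 1) one_add_one_le).differentiableAt (by norm_num)
  have hG : DifferentiableAt ℝ (Gf g) 0 := (contDiffAt_Gf hg h0).differentiableAt (by norm_num)
  have hΓ : DifferentiableAt ℝ (Gam g) 0 :=
    (hasFDerivAt_Gam fun k i j => differentiableAt_christoffel hg h0 k i j).differentiableAt
  have hev : (fun y => Gf g y (Gam g y X Y) Z) =ᶠ[𝓝 0] fun y =>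
      (1 / 2) * (fderiv ℝ (Gf g) y X Y Z + fderiv ℝ (Gf g) y Y X Z - fderiv ℝ (Gf g) y Z X Y) := by
    filter_upwards [hg.isOpen.mem_nhds h0] with y hy
    exact isLC_Gam (fun i j => differentiableAt_entry hg hy i j)
      (hg.posDef y hy).det_pos.ne'.isUnit (fun i j => metric_symm hg hy i j) X Y Z
  have e : ∀ b c d : 𝔼, HasFDerivAt (fun y => fderiv ℝ (Gf g) y b c d)
      (((fderiv ℝ (fderiv ℝ (Gf g)) 0).flip b).flip c |>.flip d) 0 := by
    intro b c d
    have h1 := ((hd.hasFDerivAt.clm_apply (hasFDerivAt_const b (0:𝔼))).clm_apply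
      (hasFDerivAt_const c (0:𝔼))).clm_apply (hasFDerivAt_const d (0:𝔼))
    refine h1.congr_fderiv ?_
    ext a
    simp
  have hR := (((e X Y Z).add (e Y X Z)).sub (e Z X Y)).const_mul (1 / 2 : ℝ)
  have hLd := (hG.hasFDerivAt.clm_apply
    ((hΓ.hasFDerivAt.clm_apply (hasFDerivAt_const X (0:𝔼))).clm_apply
      (hasFDerivAt_const Y (0:𝔼)))).clm_apply (hasFDerivAt_const Z (0:𝔼))
  have h1 := hev.fderiv_eq (𝕜 := ℝ)
  rw [hLd.fderiv] at h1
  have h2 := congrArg (fun L : 𝔼 →L[ℝ] ℝ => L W) h1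
  have h3 : fderiv ℝ (fun y => (1 / 2 : ℝ) * (fderiv ℝ (Gf g) y X Y Z + fderiv ℝ (Gf g) y Y X Z -
      fderiv ℝ (Gf g) y Z X Y)) 0 = _ := hR.fderiv
  rw [h3] at h2
  simp [gam_zero hg h0 hT] at h2
  linarith

/-- **the curvature at the origin** -/
theorem secNumer_eq_of_tay (hg : IsRiemannianOn g U) (h0 : (0:𝔼) ∈ U) (hT : Tay g S)
    (hS : CurvLike S) (u v : 𝔼) : secNumer g 0 u v = S u v := by
  rw [secNumer_eq hg h0]
  have e1 : curv (Gam g) 0 u v v = fderiv ℝ (Gam g) 0 u v v - fderiv ℝ (Gam g) 0 v u v := by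
    unfold curv
    rw [gam_zero hg h0 hT v v, gam_zero hg h0 hT u v]
    simp
  have e2 := low_fderiv_gam hg h0 hT u v v u
  have e3 := low_fderiv_gam hg h0 hT v u v u
  have e4 : bil (g 0) (curv (Gam g) 0 u v v) u =
      Gf g 0 (fderiv ℝ (Gam g) 0 u v v) u - Gf g 0 (fderiv ℝ (Gam g) 0 v u v) u := by
    rw [e1]
    show Gf g 0 _ u = _
    rw [map_sub]
    simp
  rw [e4, e2, e3]
  have m1 := snd_mixed hg h0 hT hS u v
  have d1 := (deriv_data hg h0 hT u v).2
  have d2 := (deriv_data hg h0 hT v u).2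
  rw [hS.comm v u] at d2
  have t1 := snd_symm1 hg h0 v u u v
  have t2 := snd_symm2 hg h0 u v v u
  have t3 := snd_symm1 hg h0 v u v u
  linarith

/-- the Ricci form at a point where the metric is the identity: trace of the curvature numerators -/
theorem ricci_eq_sum_secNumer (hg : IsRiemannianOn g U) {x : 𝔼} (hx : x ∈ U)
    (h1 : ∀ u v : 𝔼, bil (g x) u v = inner ℝ u v) (v : 𝔼) :
    ∑ i, ∑ j, ricci g x i j * v i * v j =
      ∑ k, secNumer g x (EuclideanSpace.single k 1) v := by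
  rw [ricci_form hg hx v v]
  refine Finset.sum_congr rfl fun k _ => ?_
  rw [secNumer_eq hg hx, h1]
  simp [EuclideanSpace.inner_single_right]


theorem gramDet_eq_of_one {x : 𝔼} (h1 : ∀ u v : 𝔼, bil (g x) u v = inner ℝ u v) (u v : 𝔼) :
    gramDet g x u v = ‖u‖ ^ 2 * ‖v‖ ^ 2 - inner ℝ u v ^ 2 := by
  rw [gramDet_eq, h1, h1, h1, real_inner_self_eq_norm_sq, real_inner_self_eq_norm_sq]

end

end Crest.Agent.R249.Pb40
end
end

-- ▼ part R249/PbB_40
section

/-!
# R249, B3.3 part B (helper40): the metric is the derivative of the distance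
-/

set_option autoImplicit false
set_option maxSynthPendingDepth 3
set_option linter.unusedSectionVars false

open Bundle Set Filter Metric
open scoped ContDiff Manifold Topology NNReal
open Crest.GeometryTopology.CoordMetric Crest.GeometryTopology.ChartCurvature
open Crest.Agent.R226.ChartMet842 Crest.Agent.R247.Ms322

noncomputable section

namespace Crest.Agent.R249.Pb40

variable {n : ℕ} {M : Type*} [MetricSpace M] [ChartedSpace (EuclideanSpace ℝ (Fin n)) M]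
  [IsManifold (𝓡 n) ∞ M]
  [RiemannianBundle (fun p : M => TangentSpace (𝓡 n) p)]
  [IsContMDiffRiemannianBundle (𝓡 n) ∞ (EuclideanSpace ℝ (Fin n)) (fun p : M => TangentSpace (𝓡 n) p)]
  [IsRiemannianManifold (𝓡 n) M]

local notation "𝔼" => EuclideanSpace ℝ (Fin n)

/-- the metric derivative of a chart curve -/
theorem tendsto_dist_div (x : M) {c : ℝ → 𝔼} {c' : 𝔼} (hc : HasDerivAt c c' 0)
    (h0 : c 0 ∈ (chartAt 𝔼 x).target) :
    Tendsto (fun t => dist ((chartAt 𝔼 x).symm (c 0)) ((chartAt 𝔼 x).symm (c t)) / t)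
      (𝓝[>] 0) (𝓝 (√(gm x (c 0) c' c'))) := by
  obtain ⟨A, hA, -⟩ := exists_isometry x h0
  have hnorm : ‖A c'‖ = √(gm x (c 0) c' c') := by
    rw [← hA, real_inner_self_eq_norm_sq, Real.sqrt_sq (norm_nonneg _)]
  rw [← hnorm]
  -- the Euclidean quotient
  have hslope : Tendsto (fun t => ‖A (c t) - A (c 0)‖ / t) (𝓝[>] 0) (𝓝 ‖A c'‖) := by
    have h1 : HasDerivAt (fun t => A (c t)) (A c') 0 :=
      (A : 𝔼 →L[ℝ] 𝔼).hasFDerivAt.comp_hasDerivAt (0:ℝ) hc
    have h2 := ((hasDerivAt_iff_tendsto_slope.1 h1).mono_left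
      (nhdsWithin_mono (0:ℝ) (fun t (ht : t ∈ Ioi (0:ℝ)) => (ne_of_gt ht : t ≠ 0)))).norm
    refine h2.congr' ?_
    filter_upwards [self_mem_nhdsWithin] with t ht
    rw [slope_def_module, norm_smul, sub_zero, norm_inv, Real.norm_eq_abs,
      abs_of_pos (show (0:ℝ) < t from ht)]
    field_simp
  have hctn : ContinuousAt c 0 := hc.continuousAt
  -- squeeze
  have hkey : ∀ η : ℝ, 0 < η → ∀ᶠ t in 𝓝[>] (0:ℝ),
      ‖A (c t) - A (c 0)‖ / t ≤ (1 + η) *
        (dist ((chartAt 𝔼 x).symm (c 0)) ((chartAt 𝔼 x).symm (c t)) / t) ∧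
      dist ((chartAt 𝔼 x).symm (c 0)) ((chartAt 𝔼 x).symm (c t)) / t ≤ (1 + η) *
        (‖A (c t) - A (c 0)‖ / t) := by
    intro η hη
    obtain ⟨r, hr0, hrt, hL1, hL2⟩ := exists_bilip x h0 hA (η := ⟨η, hη.le⟩) hη
    have hball : ∀ᶠ t in 𝓝[>] (0:ℝ), c t ∈ ball (c 0) r :=
      (hctn.eventually (ball_mem_nhds _ hr0)).filter_mono nhdsWithin_le_nhds
    filter_upwards [hball, self_mem_nhdsWithin] with t ht ht0
    have ht0' : (0:ℝ) < t := ht0
    have hm0 : c 0 ∈ ball (c 0) r := mem_ball_self hr0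
    constructor
    · have h1 := hL2.dist_le_mul _ ⟨c t, ht, rfl⟩ _ ⟨c 0, hm0, rfl⟩
      rw [(chartAt 𝔼 x).right_inv (hrt ht), (chartAt 𝔼 x).right_inv (hrt hm0),
        dist_eq_norm, dist_comm] at h1
      have h2 : (((1 + ⟨η, hη.le⟩ : ℝ≥0)) : ℝ) = 1 + η := rfl
      rw [h2] at h1
      rw [← mul_div_assoc]
      exact div_le_div_of_nonneg_right h1 ht0'.le
    · have h1 := hL1.dist_le_mul _ ⟨c 0, hm0, rfl⟩ _ ⟨c t, ht, rfl⟩
      simp only [ContinuousLinearEquiv.symm_apply_apply] at h1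
      rw [dist_comm (A (c 0)), dist_eq_norm (A (c t))] at h1
      have h2 : (((1 + ⟨η, hη.le⟩ : ℝ≥0)) : ℝ) = 1 + η := rfl
      rw [h2] at h1
      rw [← mul_div_assoc]
      exact div_le_div_of_nonneg_right h1 ht0'.le
  -- conclusion
  rw [Metric.tendsto_nhds]
  intro ε hε
  set N := ‖A c'‖ with hN
  have hN0 : 0 ≤ N := norm_nonneg _
  obtain ⟨η, hη0, hη1, hη2⟩ : ∃ η : ℝ, 0 < η ∧ η ≤ 1 ∧ η * (N + 2) ≤ ε / 4 := by
    refine ⟨min 1 (ε / (4 * (N + 2))), by positivity, min_le_left _ _, ?_⟩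
    calc min 1 (ε / (4 * (N + 2))) * (N + 2) ≤ ε / (4 * (N + 2)) * (N + 2) := by
          gcongr; exact min_le_right _ _
      _ = ε / 4 := by field_simp
  have hclose : ∀ᶠ t in 𝓝[>] (0:ℝ), |‖A (c t) - A (c 0)‖ / t - N| < min 1 (ε / 4) := by
    have := (Metric.tendsto_nhds.1 hslope) (min 1 (ε / 4)) (by positivity)
    simpa [Real.dist_eq] using this
  filter_upwards [hkey η hη0, hclose, self_mem_nhdsWithin] with t h1 h2 h3
  obtain ⟨h4, h5⟩ := h1
  have h6 : |‖A (c t) - A (c 0)‖ / t - N| < 1 := h2.trans_le (min_le_left _ _)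
  have h7 : |‖A (c t) - A (c 0)‖ / t - N| < ε / 4 := h2.trans_le (min_le_right _ _)
  rw [abs_lt] at h6 h7
  set q := ‖A (c t) - A (c 0)‖ / t with hq
  set d := dist ((chartAt 𝔼 x).symm (c 0)) ((chartAt 𝔼 x).symm (c t)) / t with hd
  rw [Real.dist_eq, abs_lt]
  have h8 : d ≤ q + ε / 4 := by
    have : η * q ≤ η * (N + 2) := by gcongr; linarith
    nlinarith
  have h9 : q - ε / 2 ≤ d := by
    have h10 : d ≤ N + 2 + ε := by
      nlinarith
    have h11 : 0 ≤ d := by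
      have : (0:ℝ) < t := h3
      positivity
    -- `q ≤ d + η d`, `η d ≤ ε / 2`
    have h12 : η * d ≤ ε / 2 := by
      have h13 : d ≤ (1 + η) * (N + 1) := h5.trans (by gcongr; linarith)
      have h14 : d ≤ 2 * (N + 2) := by nlinarith
      nlinarith
    nlinarith
  constructor <;> linarith

end Crest.Agent.R249.Pb40
end
end

-- ▼ part R249/PbC_40
section

/-!
# R249, B3.3 part C (helper40): a distance preserving map from a model ball gives the curvature

`ModMet n r D S`: the model distance `D` (in normal coordinates at `0`) has metric derivative `√q` with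
`q (tv) ξ = |ξ|² - t² S v ξ / 3 + o(t²)`.
`exists_pull`: if `F` maps the model ball distance-preservingly into `M` with `F 0 = x` then the chart
metric at `x` pulls back to a metric with Taylor data `S` at the origin; so `secNumer = S`.
-/

set_option autoImplicit false
set_option maxSynthPendingDepth 3
set_option linter.unusedSectionVars false

open Bundle Set Filter Metric
open scoped ContDiff Manifold Topology NNReal
open Crest.GeometryTopology.CoordMetric Crest.GeometryTopology.ChartCurvature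
open Crest.Agent.R226 Crest.Agent.R226.ChartMet842 Crest.Agent.R247.Ms322 Crest.Agent.R247.Bo84
open Crest.Agent.R202.Tens

noncomputable section

namespace Crest.Agent.R249.Pb40

/-- the near-diagonal package of a global one -/
def toNear {n : ℕ} {M : Type*} [MetricSpace M] [ChartedSpace (EuclideanSpace ℝ (Fin n)) M]
    [IsManifold (𝓡 n) ∞ M]
    [RiemannianBundle (fun p : M => TangentSpace (𝓡 n) p)] (G : GeoData n M) : NearDiag n M where
  r₀ := G.r₀ / 2
  r₀_pos := half_pos G.r₀_pos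
  e := G.ex
  smooth := G.smooth.contMDiffOn
  smooth_cost := G.smooth_cost.mono fun q (hq : dist q.1 q.2 < G.r₀ / 2) =>
    (show dist q.1 q.2 < G.r₀ by linarith [G.r₀_pos])
  e_zero := G.ex_zero
  vel_zero x v _ := G.vel_zero x v
  norm_vel x v _ t _ := G.norm_vel x v t
  dist_eq x v hv s t hs ht := by
    refine G.dist_eq x v s t ?_
    have h1 : |s - t| ≤ 2 := by
      rw [abs_le] at hs ht ⊢
      constructor <;> linarith [hs.1, hs.2, ht.1, ht.2]
    nlinarith [norm_nonneg v]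
  surj x y _ := by
    obtain ⟨v, h1, h2⟩ := G.surj x y
    exact ⟨v, h2, h1⟩
  inj x v w hv hw h := G.inj x v w (by linarith [G.r₀_pos]) (by linarith [G.r₀_pos]) h
  hasDerivAt_cost x v ξ hv _ := G.hasDerivAt_cost x v ξ (by linarith [G.r₀_pos])

/-- model distance with its metric and curvature -/
structure ModMet (n : ℕ) (r : ℝ)
    (D : EuclideanSpace ℝ (Fin n) → EuclideanSpace ℝ (Fin n) → ℝ)
    (S : EuclideanSpace ℝ (Fin n) → EuclideanSpace ℝ (Fin n) → ℝ) : Prop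
    extends MyS40.ModDist n r D where
  like : CurvLike S
  met : ∃ q : EuclideanSpace ℝ (Fin n) → EuclideanSpace ℝ (Fin n) → ℝ,
    (∀ v ξ : EuclideanSpace ℝ (Fin n), ‖v‖ < r → 0 ≤ q v ξ ∧
      Tendsto (fun t : ℝ => D v (v + t • ξ) / t) (𝓝[>] 0) (𝓝 (√(q v ξ)))) ∧
    ∀ v ξ : EuclideanSpace ℝ (Fin n),
      Tendsto (fun t : ℝ => (q (t • v) ξ - ‖ξ‖ ^ 2) / t ^ 2) (𝓝[>] 0) (𝓝 (-S v ξ / 3))

theorem ModMet.mono {n : ℕ} {r r' : ℝ}
    {D : EuclideanSpace ℝ (Fin n) → EuclideanSpace ℝ (Fin n) → ℝ}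
    {S : EuclideanSpace ℝ (Fin n) → EuclideanSpace ℝ (Fin n) → ℝ} (h : ModMet n r D S)
    (hr : r' ≤ r) : ModMet n r' D S where
  ray v hv := h.ray v (hv.trans_le hr)
  var v ξ hv hξ := h.var v ξ (hv.trans_le hr) (hξ.trans_le hr)
  like := h.like
  met := by
    obtain ⟨q, h1, h2⟩ := h.met
    exact ⟨q, fun v ξ hv => h1 v ξ (hv.trans_le hr), h2⟩

section Main

variable {n : ℕ} {M : Type*} [MetricSpace M] [ChartedSpace (EuclideanSpace ℝ (Fin n)) M]
  [IsManifold (𝓡 n) ∞ M]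
  [RiemannianBundle (fun p : M => TangentSpace (𝓡 n) p)]
  [IsContMDiffRiemannianBundle (𝓡 n) ∞ (EuclideanSpace ℝ (Fin n)) (fun p : M => TangentSpace (𝓡 n) p)]
  [IsRiemannianManifold (𝓡 n) M] [CompactSpace M]

local notation "𝔼" => EuclideanSpace ℝ (Fin n)

/-- **pull-back of the metric by the model exponential** -/
theorem exists_pull (x : M) {r : ℝ} (hr : 0 < r) {D S : 𝔼 → 𝔼 → ℝ} (hD : ModMet n r D S)
    {F : 𝔼 → M} (hF0 : F 0 = x)
    (hF : ∀ v w : 𝔼, ‖v‖ < r → ‖w‖ < r → dist (F v) (F w) = D v w) :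
    ∃ (g' : MetricField n) (Φ : 𝔼 → 𝔼) (V : Set 𝔼), (0:𝔼) ∈ V ∧ Φ 0 = chartCentre n M x ∧
      Pull g' (chartMetric n M x) Φ V (chartAt 𝔼 x).target ∧ Tay g' S := by
  classical
  obtain ⟨G⟩ := GeoThm542.nonempty_geoData (n := n) (M := M)
    (NearDiagFinal996.nonempty_nearDiag (n := n) (M := M)).some
  set N := toNear G with hN
  set r' : ℝ := min r N.r₀ with hr'
  have hr'0 : 0 < r' := lt_min hr N.r₀_pos
  have hr'r : r' ≤ r := min_le_left _ _
  have hD' : ModMet n r' D S := hD.mono hr'r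
  have hF' : ∀ v w : 𝔼, ‖v‖ < r' → ‖w‖ < r' → dist (F v) (F w) = D v w :=
    fun v w hv hw => hF v w (hv.trans_le hr'r) (hw.trans_le hr'r)
  obtain ⟨A, hA, hFA⟩ := MyS40.exists_linear N hr'0 (min_le_right _ _) hD'.toModDist hF0 hF'
  have hFA' : ∀ v : 𝔼, ‖v‖ < r' → F v = G.ex x (A v) := hFA
  obtain ⟨q, hq1, hq2⟩ := hD'.met
  let Ai : 𝔼 →ₗᵢ[ℝ] TangentSpace (𝓡 n) x :=
    { A with
      norm_map' := fun v => by
        have h1 : ‖A v‖ ^ 2 = ‖v‖ ^ 2 := by
          rw [← real_inner_self_eq_norm_sq, ← real_inner_self_eq_norm_sq, hA]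
        exact (sq_eq_sq₀ (norm_nonneg _) (norm_nonneg _)).1 h1 }
  have hAi : ∀ v, Ai v = A v := fun v => rfl
  -- the map into `M`
  set ψ : 𝔼 → M := fun v => G.ex x (Ai v) with hψ
  have hψs : ContMDiff 𝓘(ℝ, 𝔼) (𝓡 n) ∞ ψ :=
    (MTWConc117.contMDiff_ex G x).comp (Ai.contDiff (n := ∞)).contMDiff
  have hψF : ∀ v : 𝔼, ‖v‖ < r' → ψ v = F v := fun v hv => (hFA' v hv).symm
  have hψ0 : ψ 0 = x := by
    rw [hψF 0 (by simpa using hr'0), hF0]
  set Φ : 𝔼 → 𝔼 := fun v => chartAt 𝔼 x (ψ v) with hΦ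
  set V0 : Set 𝔼 := ψ ⁻¹' (chartAt 𝔼 x).source with hV0
  have hV0o : IsOpen V0 := (chartAt 𝔼 x).open_source.preimage hψs.continuous
  have h0V0 : (0:𝔼) ∈ V0 := by
    show ψ 0 ∈ (chartAt 𝔼 x).source
    rw [hψ0]; exact mem_chart_source 𝔼 x
  have hΦs : ContDiffOn ℝ ∞ Φ V0 := by
    rw [← contMDiffOn_iff_contDiffOn]
    have h2 : ContMDiffOn (𝓡 n) 𝓘(ℝ, 𝔼) ∞ (chartAt 𝔼 x) (chartAt 𝔼 x).source := contMDiffOn_chart
    exact h2.comp hψs.contMDiffOn fun y hy => hy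
  have hΦd : ∀ v ∈ V0, HasFDerivAt Φ (fderiv ℝ Φ v) v := fun v hv =>
    ((hΦs.contDiffAt (hV0o.mem_nhds hv)).differentiableAt (by norm_num)).hasFDerivAt
  -- the derivative at the origin
  have hd0 : ∀ ξ : 𝔼, (fderiv ℝ Φ 0 ξ : 𝔼) = A ξ := by
    intro ξ
    have h1 := ChartCost77.hasDerivAt_chart_radial G x (A ξ)
    have h2 : HasDerivAt (fun t : ℝ => t • ξ) ξ 0 := by
      have := (hasDerivAt_id (0:ℝ)).smul_const ξ
      simpa using this
    have h3 : HasFDerivAt Φ (fderiv ℝ Φ 0) ((0:ℝ) • ξ) := by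
      rw [zero_smul]; exact hΦd 0 h0V0
    have h4 := h3.comp_hasDerivAt (0:ℝ) h2
    have h5 : HasDerivAt (fun t : ℝ => Φ (t • ξ)) (A ξ : 𝔼) 0 := by
      refine h1.congr_of_eventuallyEq (Eventually.of_forall fun t => ?_)
      show chartAt 𝔼 x (G.ex x (Ai (t • ξ))) = extChartAt (𝓡 n) x (G.ex x (t • A ξ))
      rw [map_smul, hAi]
      rfl
    exact h4.unique h5
  set V : Set 𝔼 := V0 ∩ (fun v => (fderiv ℝ Φ v).det) ⁻¹' {0}ᶜ with hV
  have hVo : IsOpen V := by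
    refine ContinuousOn.isOpen_inter_preimage ?_ hV0o isOpen_compl_singleton
    exact ContinuousLinearMap.continuous_det.comp_continuousOn
      (hΦs.continuousOn_fderiv_of_isOpen hV0o (by norm_num))
  have h0V : (0:𝔼) ∈ V := by
    refine ⟨h0V0, ?_⟩
    show (fderiv ℝ Φ 0).det ≠ 0
    have hinj : Function.Injective (fderiv ℝ Φ 0) := by
      intro u v huv
      rw [hd0, hd0] at huv
      exact Ai.injective huv
    have hk : LinearMap.ker ((fderiv ℝ Φ 0 : 𝔼 →L[ℝ] 𝔼) : 𝔼 →ₗ[ℝ] 𝔼) = ⊥ :=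
      LinearMap.ker_eq_bot.2 hinj
    intro hdet
    exact (LinearMap.bot_lt_ker_of_det_eq_zero
      (f := ((fderiv ℝ Φ 0 : 𝔼 →L[ℝ] 𝔼) : 𝔼 →ₗ[ℝ] 𝔼)) hdet).ne' hk
  set g' : MetricField n := fun y => Matrix.of fun i j => ∑ a, ∑ b,
    chartMetric n M x (Φ y) a b * (fderiv ℝ Φ y (EuclideanSpace.single i 1)) a *
      (fderiv ℝ Φ y (EuclideanSpace.single j 1)) b with hg'
  have hP : Pull g' (chartMetric n M x) Φ V (chartAt 𝔼 x).target :=
    { isOpen := hVo
      riem := Crest.Agent.R247.Bo84.isRiemannianOn_chartMetric x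
      maps := fun y hy => (chartAt 𝔼 x).map_source hy.1
      smooth := hΦs.mono inter_subset_left
      pull := fun y hy i j => rfl
      inj := fun y hy =>
        ((fderiv ℝ Φ y).toContinuousLinearEquivOfDetNeZero hy.2).injective }
  -- the metric is `q`
  have hbq : ∀ v ∈ V, ‖v‖ < r' → ∀ ξ : 𝔼, bil (g' v) ξ ξ = q v ξ := by
    intro v hv hvr ξ
    obtain ⟨hq0, hql⟩ := hq1 v ξ hvr
    have hline : HasDerivAt (fun t : ℝ => v + t • ξ) ξ 0 := by
      have := ((hasDerivAt_id (0:ℝ)).smul_const ξ).const_add v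
      simpa using this
    have hc : HasDerivAt (fun t : ℝ => Φ (v + t • ξ)) (fderiv ℝ Φ v ξ) 0 := by
      have h3 : HasFDerivAt Φ (fderiv ℝ Φ v) (v + (0:ℝ) • ξ) := by
        rw [zero_smul, add_zero]; exact hΦd v hv.1
      exact h3.comp_hasDerivAt (0:ℝ) hline
    have h1 := tendsto_dist_div x hc (by
      show Φ (v + (0:ℝ) • ξ) ∈ (chartAt 𝔼 x).target
      rw [zero_smul, add_zero]; exact hP.maps v hv)
    rw [zero_smul, add_zero] at h1
    have hlim : Tendsto (fun t : ℝ => v + t • ξ) (𝓝[>] 0) (𝓝 v) := by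
      have h2 : Tendsto (fun t : ℝ => v + t • ξ) (𝓝 0) (𝓝 (v + (0:ℝ) • ξ)) :=
        hline.continuousAt.tendsto
      rw [zero_smul, add_zero] at h2
      exact h2.mono_left nhdsWithin_le_nhds
    have e1 : ∀ᶠ t : ℝ in 𝓝[>] 0, v + t • ξ ∈ V0 ∧ ‖v + t • ξ‖ < r' :=
      (hlim.eventually (hV0o.mem_nhds hv.1)).and
        (hlim.norm.eventually (gt_mem_nhds hvr))
    have h2 : Tendsto (fun t : ℝ => D v (v + t • ξ) / t) (𝓝[>] 0)
        (𝓝 (√(gm x (Φ v) (fderiv ℝ Φ v ξ) (fderiv ℝ Φ v ξ)))) := by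
      refine h1.congr' ?_
      filter_upwards [e1] with t ht
      have e2 : (chartAt 𝔼 x).symm (Φ v) = ψ v := (chartAt 𝔼 x).left_inv hv.1
      have e3 : (chartAt 𝔼 x).symm (Φ (v + t • ξ)) = ψ (v + t • ξ) :=
        (chartAt 𝔼 x).left_inv ht.1
      rw [e2, e3, hψF v hvr, hψF _ ht.2, hF' v _ hvr ht.2]
    have h3 := tendsto_nhds_unique h2 hql
    have h4 : gm x (Φ v) (fderiv ℝ Φ v ξ) (fderiv ℝ Φ v ξ) = q v ξ := by
      rw [← Real.sq_sqrt (gm_self_nonneg x (Φ v) (fderiv ℝ Φ v ξ)), h3, Real.sq_sqrt hq0]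
    rw [hP.bil_eq hv, bil_chartMetric, ← h4, gm_apply]
    rfl
  have hmem : ∀ v : 𝔼, ∀ᶠ t : ℝ in 𝓝[>] 0, t • v ∈ V ∧ ‖t • v‖ < r' := by
    intro v
    have hlim : Tendsto (fun t : ℝ => t • v) (𝓝[>] 0) (𝓝 (0:𝔼)) := by
      have h2 : Tendsto (fun t : ℝ => t • v) (𝓝 0) (𝓝 ((0:ℝ) • v)) :=
        (by fun_prop : Continuous fun t : ℝ => t • v).tendsto 0
      rw [zero_smul] at h2
      exact h2.mono_left nhdsWithin_le_nhds
    refine (hlim.eventually (hVo.mem_nhds h0V)).and (hlim.norm.eventually (gt_mem_nhds ?_))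
    simpa using hr'0
  have h0r : ‖(0:𝔼)‖ < r' := by simpa using hr'0
  -- the metric at the origin
  have hz1 : ∀ ξ : 𝔼, bil (g' 0) ξ ξ = ‖ξ‖ ^ 2 := by
    intro ξ
    rw [hbq 0 h0V h0r ξ]
    obtain ⟨hq0, hql⟩ := hq1 0 ξ h0r
    have h1 : Tendsto (fun t : ℝ => D 0 (0 + t • ξ) / t) (𝓝[>] 0) (𝓝 ‖ξ‖) := by
      refine tendsto_const_nhds.congr' ?_
      -- `D 0 (tξ) = t ‖ξ‖`
      by_cases hξ : ξ = 0
      · filter_upwards with t
        have := hD'.ray 0 h0r 0 0 le_rfl zero_le_one le_rfl zero_le_one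
        simp only [smul_zero, sub_zero, norm_zero, mul_zero] at this
        subst hξ
        simp [this]
      · have hξ' : 0 < ‖ξ‖ := norm_pos_iff.2 hξ
        have hIoo : Ioo (0:ℝ) (r' / ‖ξ‖) ∈ 𝓝[>] (0:ℝ) := Ioo_mem_nhdsGT (by positivity)
        filter_upwards [hIoo] with t ht
        have htr : ‖t • ξ‖ < r' := by
          rw [norm_smul, Real.norm_eq_abs, abs_of_pos ht.1]
          exact (lt_div_iff₀ hξ').1 ht.2
        have := hD'.ray (t • ξ) htr 0 1 le_rfl zero_le_one zero_le_one le_rfl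
        rw [zero_smul, one_smul, norm_smul, Real.norm_eq_abs, abs_of_pos ht.1] at this
        rw [zero_add, this]
        have ht0 : t ≠ 0 := ht.1.ne'
        simp
        field_simp
    have h2 := tendsto_nhds_unique hql h1
    rw [← h2, Real.sq_sqrt hq0]
  refine ⟨g', Φ, V, h0V, ?_, hP, ?_⟩
  · show chartAt 𝔼 x (ψ 0) = _
    rw [hψ0]; rfl
  · refine ⟨?_, ?_⟩
    · intro u v
      have e1 := hz1 (u + v)
      have e2 := hz1 u
      have e3 := hz1 v
      have e4 := bil_symm hP.riem' h0V u v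
      simp only [map_add, add_apply] at e1
      have e5 := norm_add_sq_real u v
      linarith
    · intro v ξ
      refine (hq2 v ξ).congr' ?_
      filter_upwards [hmem v] with t ht
      rw [hbq _ ht.1 ht.2]

/-- consequences at the centre of the preferred chart -/
theorem curvature_of_model (x : M) {r : ℝ} (hr : 0 < r) {D S : 𝔼 → 𝔼 → ℝ} (hD : ModMet n r D S)
    {F : 𝔼 → M} (hF0 : F 0 = x)
    (hF : ∀ v w : 𝔼, ‖v‖ < r → ‖w‖ < r → dist (F v) (F w) = D v w) :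
    ∃ L : 𝔼 ≃ₗ[ℝ] 𝔼,
      (∀ u v, bil (chartMetric n M x (chartCentre n M x)) (L u) (L v) = inner ℝ u v) ∧
      (∀ u v, secNumer (chartMetric n M x) (chartCentre n M x) (L u) (L v) = S u v) ∧
      (∀ u v, gramDet (chartMetric n M x) (chartCentre n M x) (L u) (L v) =
        ‖u‖ ^ 2 * ‖v‖ ^ 2 - inner ℝ u v ^ 2) ∧
      (∀ v, ∑ i, ∑ j, ricci (chartMetric n M x) (chartCentre n M x) i j * (L v) i * (L v) j =
        ∑ k, S (EuclideanSpace.single k 1) v) := by
  obtain ⟨g', Φ, V, h0, hc, hP, hT⟩ := exists_pull x hr hD hF0 hF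
  have hb := fun u v => hP.bil_eq h0 u v
  refine ⟨LinearEquiv.ofBijective (fderiv ℝ Φ 0 : 𝔼 →ₗ[ℝ] 𝔼) ⟨hP.inj 0 h0, hP.surj h0⟩,
    ?_, ?_, ?_, ?_⟩
  · intro u v
    have := hb u v
    rw [hc, hT.zero] at this
    exact this.symm
  · intro u v
    have := hP.secNumer_pull h0 u v
    rw [hc, secNumer_eq_of_tay hP.riem' h0 hT hD.like] at this
    exact this.symm
  · intro u v
    have := hP.gramDet_pull h0 u v
    rw [hc, gramDet_eq_of_one hT.zero] at this
    exact this.symm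
  · intro v
    have := hP.ricci_pull h0 v v
    rw [hc, ricci_eq_sum_secNumer hP.riem' h0 hT.zero] at this
    refine Eq.trans this.symm ?_
    refine Finset.sum_congr rfl fun k _ => ?_
    rw [secNumer_eq_of_tay hP.riem' h0 hT hD.like]

end Main

end Crest.Agent.R249.Pb40
end
end

-- ▼ part R249/ModA_40
section

/-!
# R249, B3 models (helper40): round sphere and complex projective space

`modMet_sphere`, `modMet_proj`: the model distances `arccos ⟪ee v, ee w⟫` and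
`arccos ‖⟪ee v, ee w⟫_ℂ‖` in normal coordinates satisfy `ModMet`.
-/

set_option autoImplicit false
set_option maxSynthPendingDepth 3
set_option linter.unusedSectionVars false

open Real Set Filter Topology
open scoped ContDiff InnerProductSpace
open Crest.Agent.R249.Pb40 Crest.Agent.R249.MyS40 Crest.Agent.R249.TrigS_662

noncomputable section

namespace Crest.Agent.R249.Mod40

/-! ### trigonometric limits -/

theorem sinc_bound {x : ℝ} (hx : |x| ≤ 1) : |sinc x - (1 - x ^ 2 / 6)| ≤ x ^ 4 / 100 := by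
  by_cases h : x = 0
  · subst h; simp
  · rw [Real.sinc_of_ne_zero h]
    have h1 := Real.sin_bound hx
    have h2 : sin x / x - (1 - x ^ 2 / 6) = (sin x - (x - x ^ 3 / 6)) / x := by field_simp
    rw [h2, abs_div, div_le_iff₀ (abs_pos.2 h)]
    have h3 : |x| ^ 4 = x ^ 4 := by
      rw [← abs_pow]; exact abs_of_nonneg (by positivity)
    calc |sin x - (x - x ^ 3 / 6)| ≤ |x| ^ 5 / 100 := h1
      _ = |x| ^ 4 / 100 * |x| := by ring
      _ = x ^ 4 / 100 * |x| := by rw [h3]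

theorem tendsto_one_sub_sinc_sq (ρ : ℝ) :
    Tendsto (fun t : ℝ => (1 - sinc (t * ρ) ^ 2) / t ^ 2) (𝓝[>] 0) (𝓝 (ρ ^ 2 / 3)) := by
  have hid : Tendsto (fun t : ℝ => t) (𝓝[>] 0) (𝓝 0) := tendsto_nhdsWithin_of_tendsto_nhds tendsto_id
  have hx : Tendsto (fun t : ℝ => t * ρ) (𝓝[>] 0) (𝓝 0) := by simpa using hid.mul_const ρ
  have h2 : Tendsto (fun t : ℝ => 1 + sinc (t * ρ)) (𝓝[>] 0) (𝓝 2) := by
    have := (Real.continuous_sinc.tendsto 0).comp hx
    rw [Real.sinc_zero] at this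
    have h3 := this.const_add 1
    norm_num at h3
    exact h3
  have h1 : Tendsto (fun t : ℝ => (1 - sinc (t * ρ)) / t ^ 2) (𝓝[>] 0) (𝓝 (ρ ^ 2 / 6)) := by
    have e0 : Tendsto (fun t : ℝ => t ^ 2 * ρ ^ 4 / 100) (𝓝[>] 0) (𝓝 0) := by
      have := ((hid.pow 2).mul_const (ρ ^ 4)).div_const 100
      simpa using this
    rw [tendsto_iff_dist_tendsto_zero]
    refine squeeze_zero' (Eventually.of_forall fun _ => dist_nonneg) ?_ e0
    have e1 : ∀ᶠ t : ℝ in 𝓝[>] 0, |t * ρ| < 1 := by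
      have := hx.abs
      rw [abs_zero] at this
      exact this.eventually (gt_mem_nhds one_pos)
    filter_upwards [e1, self_mem_nhdsWithin] with t ht ht0
    have ht0' : (0:ℝ) < t := ht0
    have h3 := sinc_bound ht.le
    rw [Real.dist_eq]
    have h4 : (1 - sinc (t * ρ)) / t ^ 2 - ρ ^ 2 / 6 =
        -(sinc (t * ρ) - (1 - (t * ρ) ^ 2 / 6)) / t ^ 2 := by field_simp; ring
    rw [h4, abs_div, abs_neg, abs_of_pos (by positivity : (0:ℝ) < t ^ 2), div_le_iff₀ (by positivity)]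
    calc _ ≤ (t * ρ) ^ 4 / 100 := h3
      _ = _ := by ring
  have h3 := h1.mul h2
  have h4 : ρ ^ 2 / 6 * 2 = ρ ^ 2 / 3 := by ring
  rw [h4] at h3
  refine h3.congr fun t => ?_
  ring

theorem tendsto_sinc_pow (ρ : ℝ) (k : ℕ) :
    Tendsto (fun t : ℝ => sinc (t * ρ) ^ k) (𝓝[>] 0) (𝓝 1) := by
  have hid : Tendsto (fun t : ℝ => t) (𝓝[>] 0) (𝓝 0) := tendsto_nhdsWithin_of_tendsto_nhds tendsto_id
  have hx : Tendsto (fun t : ℝ => t * ρ) (𝓝[>] 0) (𝓝 0) := by simpa using hid.mul_const ρ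
  have := ((Real.continuous_sinc.tendsto 0).comp hx).pow k
  rw [Real.sinc_zero, one_pow] at this
  exact this

/-! ### metric derivative of `arccos ‖⟪·,·⟫‖` -/

section Curve

variable {𝕜 V : Type*} [RCLike 𝕜] [NormedAddCommGroup V] [InnerProductSpace 𝕜 V]

theorem one_sub_norm_inner_sq {p q : V} (hp : ‖p‖ = 1) (hq : ‖q‖ = 1) :
    1 - ‖(inner 𝕜 p q : 𝕜)‖ ^ 2 = ‖q - p‖ ^ 2 - ‖(inner 𝕜 p (q - p) : 𝕜)‖ ^ 2 := by
  have h1 : (inner 𝕜 p (q - p) : 𝕜) = inner 𝕜 p q - 1 := by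
    rw [inner_sub_right, inner_self_eq_norm_sq_to_K, hp]; simp
  have h2 : ‖q - p‖ ^ 2 = 2 - 2 * RCLike.re (inner 𝕜 p q : 𝕜) := by
    rw [norm_sub_rev, @norm_sub_sq 𝕜, hp, hq]; ring
  have h3 : ‖(inner 𝕜 p q : 𝕜) - 1‖ ^ 2 = ‖(inner 𝕜 p q : 𝕜)‖ ^ 2 -
      2 * RCLike.re (inner 𝕜 p q : 𝕜) + 1 := by
    rw [← RCLike.normSq_eq_def', ← RCLike.normSq_eq_def', RCLike.normSq_sub]
    simp
    ring
  rw [h1, h2, h3]; ring

theorem tendsto_arccos_norm_inner {y : ℝ → V} {y' : V} (h1 : ∀ t, ‖y t‖ = 1)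
    (hy : Tendsto (fun t : ℝ => ((t⁻¹ : ℝ) : 𝕜) • (y t - y 0)) (𝓝[>] 0) (𝓝 y')) :
    Tendsto (fun t : ℝ => arccos ‖(inner 𝕜 (y 0) (y t) : 𝕜)‖ / t) (𝓝[>] 0)
      (𝓝 (√(‖y'‖ ^ 2 - ‖(inner 𝕜 (y 0) y' : 𝕜)‖ ^ 2))) := by
  set σ : ℝ → ℝ := fun t => √(‖y t - y 0‖ ^ 2 - ‖(inner 𝕜 (y 0) (y t - y 0) : 𝕜)‖ ^ 2) with hσ
  have hσ0 : σ 0 = 0 := by simp [hσ]
  have hlim : Tendsto (fun t : ℝ => σ t / t) (𝓝[>] 0)
      (𝓝 (√(‖y'‖ ^ 2 - ‖(inner 𝕜 (y 0) y' : 𝕜)‖ ^ 2))) := by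
    have e1 : Continuous fun w : V => √(‖w‖ ^ 2 - ‖(inner 𝕜 (y 0) w : 𝕜)‖ ^ 2) := by
      refine Real.continuous_sqrt.comp ?_
      refine (continuous_norm.pow 2).sub ((Continuous.norm ?_).pow 2)
      exact continuous_const.inner continuous_id
    have e2 := (e1.tendsto y').comp hy
    refine e2.congr' ?_
    filter_upwards [self_mem_nhdsWithin] with t ht
    have ht' : (0:ℝ) < t := ht
    simp only [Function.comp, hσ]
    rw [norm_smul, inner_smul_right, norm_mul, RCLike.norm_ofReal, abs_inv, abs_of_pos ht',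
      mul_pow, mul_pow, ← mul_sub, Real.sqrt_mul (by positivity), Real.sqrt_sq (by positivity)]
    field_simp
  have hd : HasDerivWithinAt σ (√(‖y'‖ ^ 2 - ‖(inner 𝕜 (y 0) y' : 𝕜)‖ ^ 2)) (Ioi 0) 0 := by
    rw [hasDerivWithinAt_iff_tendsto_slope' (by simp)]
    refine hlim.congr fun t => ?_
    rw [slope_def_field, hσ0, sub_zero, sub_zero]
  have has : HasDerivAt arcsin 1 (σ 0) := by
    rw [hσ0]
    have := hasDerivAt_arcsin (x := 0) (by norm_num) (by norm_num)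
    simpa using this
  have hcomp := has.comp_hasDerivWithinAt (0:ℝ) hd
  rw [hasDerivWithinAt_iff_tendsto_slope' (by simp), one_mul] at hcomp
  refine hcomp.congr' ?_
  filter_upwards with t
  rw [slope_def_field]
  simp only [Function.comp]
  rw [hσ0, arcsin_zero, sub_zero, sub_zero, arccos_eq_arcsin (norm_nonneg _),
    one_sub_norm_inner_sq (h1 0) (h1 t)]

end Curve

section CurveReal

variable {V : Type*} [NormedAddCommGroup V] [InnerProductSpace ℝ V]

theorem inner_deriv_eq_zero {y : ℝ → V} {y' : V} (h1 : ∀ t, ‖y t‖ = 1) (hy : HasDerivAt y y' 0) :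
    inner ℝ (y 0) y' = 0 := by
  have h2 := hy.norm_sq
  have h3 : HasDerivAt (fun t => ‖y t‖ ^ 2) 0 0 := by
    simp only [h1]
    exact hasDerivAt_const (0:ℝ) _
  have := h2.unique h3
  linarith

theorem tendsto_arccos_inner {y : ℝ → V} {y' : V} (h1 : ∀ t, ‖y t‖ = 1) (hy : HasDerivAt y y' 0) :
    Tendsto (fun t : ℝ => arccos (inner ℝ (y 0) (y t)) / t) (𝓝[>] 0) (𝓝 ‖y'‖) := by
  have h2 : Tendsto (fun t : ℝ => ((t⁻¹ : ℝ) : ℝ) • (y t - y 0)) (𝓝[>] 0) (𝓝 y') := by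
    have e2 := (hasDerivAt_iff_tendsto_slope.1 hy).mono_left
      (nhdsWithin_mono (0:ℝ) (fun t (ht : t ∈ Ioi (0:ℝ)) => (ne_of_gt ht : t ≠ 0)))
    refine e2.congr fun t => ?_
    rw [slope_def_module, sub_zero]
  have h3 := tendsto_arccos_norm_inner (𝕜 := ℝ) h1 h2
  rw [inner_deriv_eq_zero h1 hy] at h3
  have e3 : √(‖y'‖ ^ 2 - ‖(0:ℝ)‖ ^ 2) = ‖y'‖ := by
    rw [norm_zero]
    simp
  rw [e3] at h3
  refine h3.congr' ?_
  have h4 : Tendsto (fun t : ℝ => inner ℝ (y 0) (y t)) (𝓝[>] 0) (𝓝 (inner ℝ (y 0) (y 0))) :=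
    ((continuousAt_const.inner hy.continuousAt).tendsto).mono_left nhdsWithin_le_nhds
  rw [real_inner_self_eq_norm_sq, h1 0] at h4
  have h5 : ∀ᶠ t : ℝ in 𝓝[>] 0, 0 < inner ℝ (y 0) (y t) :=
    h4.eventually (lt_mem_nhds (by norm_num))
  filter_upwards [h5] with t ht
  rw [Real.norm_eq_abs, abs_of_pos ht]

end CurveReal

/-! ### `ModDist` from the cosine -/

theorem modDist_of_cos {n : ℕ} {r : ℝ} (hr : r ≤ π / 2)
    {c : EuclideanSpace ℝ (Fin n) → EuclideanSpace ℝ (Fin n) → ℝ}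
    (h1 : ∀ v : EuclideanSpace ℝ (Fin n), ‖v‖ < r → ∀ s t : ℝ, 0 ≤ s → s ≤ 1 → 0 ≤ t → t ≤ 1 →
      c (s • v) (t • v) = cos ((s - t) * ‖v‖))
    (h2 : ∀ v ξ : EuclideanSpace ℝ (Fin n), ‖v‖ < r →
      HasDerivAt (fun t : ℝ => c (t • ξ) v) (sinc ‖v‖ * inner ℝ v ξ) 0) :
    ModDist n r (fun v w => arccos (c v w)) := by
  have hray : ∀ v : EuclideanSpace ℝ (Fin n), ‖v‖ < r → ∀ s t : ℝ, 0 ≤ s → s ≤ 1 → 0 ≤ t →
      t ≤ 1 → arccos (c (s • v) (t • v)) = |s - t| * ‖v‖ := by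
    intro v hv s t hs0 hs1 ht0 ht1
    rw [h1 v hv s t hs0 hs1 ht0 ht1]
    have h3 : |s - t| ≤ 1 := by rw [abs_le]; constructor <;> linarith
    have h4 : |s - t| * ‖v‖ ≤ π := by
      have : |s - t| * ‖v‖ ≤ 1 * (π / 2) :=
        mul_le_mul h3 (hv.le.trans hr) (norm_nonneg _) zero_le_one
      linarith [Real.pi_pos]
    have h5 : cos ((s - t) * ‖v‖) = cos (|s - t| * ‖v‖) := by
      rcases abs_cases (s - t) with h | h
      · rw [h.1]
      · rw [h.1, neg_mul, Real.cos_neg]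
    rw [h5, arccos_cos (by positivity) h4]
  refine ⟨hray, ?_⟩
  intro v ξ hv hξ
  by_cases hv0 : v = 0
  · subst hv0
    rw [inner_zero_left, neg_zero]
    have h3 : HasDerivWithinAt (fun t : ℝ => t ^ 2 * (‖ξ‖ ^ 2 / 2)) 0 (Ici 0) 0 := by
      have := ((hasDerivAt_pow 2 (0:ℝ)).mul_const (‖ξ‖ ^ 2 / 2)).hasDerivWithinAt (s := Ici 0)
      simpa using this
    refine h3.congr_of_eventuallyEq ?_ ?_
    · have h4 : Ico (0:ℝ) 1 ∈ 𝓝[Ici 0] (0:ℝ) := Ico_mem_nhdsGE one_pos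
      filter_upwards [h4] with t ht
      have := hray ξ hξ t 0 ht.1 ht.2.le le_rfl zero_le_one
      rw [zero_smul] at this
      rw [this, sub_zero, abs_of_nonneg ht.1]
      ring
    · have := hray ξ hξ 0 0 le_rfl zero_le_one le_rfl zero_le_one
      rw [zero_smul] at this
      simp [this]
  · have hρ : 0 < ‖v‖ := norm_pos_iff.2 hv0
    have hρ2 : ‖v‖ < π / 2 := hv.trans_le hr
    have e0 : c ((0:ℝ) • ξ) v = cos ‖v‖ := by
      have := h1 v hv 0 1 le_rfl zero_le_one zero_le_one le_rfl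
      rw [zero_smul, one_smul] at this
      rw [zero_smul, this]
      simp
    have hsin : 0 < sin ‖v‖ := Real.sin_pos_of_pos_of_lt_pi hρ (by linarith [Real.pi_pos])
    have hcos : 0 < cos ‖v‖ := Real.cos_pos_of_mem_Ioo ⟨by linarith [Real.pi_pos], hρ2⟩
    have hcos1 : cos ‖v‖ ≠ 1 := by
      intro h
      have := Real.sin_sq_add_cos_sq ‖v‖
      rw [h] at this
      nlinarith
    have hac : HasDerivAt arccos (-(1 / √(1 - cos ‖v‖ ^ 2))) (c ((0:ℝ) • ξ) v) := by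
      rw [e0]
      exact hasDerivAt_arccos (by linarith) hcos1
    have h3 := (hac.comp (0:ℝ) (h2 v ξ hv))
    have h4 := ((h3.pow 2).div_const 2).hasDerivWithinAt (s := Ici 0)
    refine h4.congr_deriv ?_
    have e1 : √(1 - cos ‖v‖ ^ 2) = sin ‖v‖ := by
      rw [← Real.sin_sq, Real.sqrt_sq hsin.le]
    simp only [Function.comp]
    rw [e0, arccos_cos hρ.le (by linarith [Real.pi_pos]), e1, Real.sinc_of_ne_zero hρ.ne']
    simp only [Nat.add_one_sub_one, pow_one, Nat.cast_ofNat]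
    field_simp

/-! ### the sphere -/

section Sphere

variable {n : ℕ} {V : Type*} [NormedAddCommGroup V] [InnerProductSpace ℝ V]
  {p : V} {ι : EuclideanSpace ℝ (Fin n) →ₗᵢ[ℝ] V}

local notation "𝔼" => EuclideanSpace ℝ (Fin n)

/-- `sinc` law: `cos s ρ cos t ρ + sinc sinc (sρ)(tρ) = cos ((s-t)ρ)` -/
theorem cos_sinc_aux (v : 𝔼) {s t : ℝ} (hs : 0 ≤ s) (ht : 0 ≤ t) :
    cos ‖s • v‖ * cos ‖t • v‖ + sinc ‖s • v‖ * sinc ‖t • v‖ * (s * t * ‖v‖ ^ 2) =
      cos ((s - t) * ‖v‖) := by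
  rw [norm_smul, norm_smul, Real.norm_eq_abs, Real.norm_eq_abs, abs_of_nonneg hs, abs_of_nonneg ht,
    sub_mul, Real.cos_sub]
  have h : ∀ x : ℝ, x * sinc x = sin x := by
    intro x
    by_cases hx : x = 0
    · subst hx; simp
    · rw [Real.sinc_of_ne_zero hx]; field_simp
  rw [← h (s * ‖v‖), ← h (t * ‖v‖)]
  ring

theorem hasDerivAt_ee (v ξ : 𝔼) : HasDerivAt (fun t : ℝ => ee p ι (v + t • ξ))
    (fderiv ℝ (ee p ι) v ξ) 0 := by
  have hline : HasDerivAt (fun t : ℝ => v + t • ξ) ξ 0 := by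
    have := ((hasDerivAt_id (0:ℝ)).smul_const ξ).const_add v
    simpa using this
  have h3 : HasFDerivAt (ee p ι) (fderiv ℝ (ee p ι) v) (v + (0:ℝ) • ξ) := by
    rw [zero_smul, add_zero]
    exact ((contDiff_ee p ι).differentiable (by simp) v).hasFDerivAt
  exact h3.comp_hasDerivAt (0:ℝ) hline

theorem fderiv_ee_zero (ξ : 𝔼) : fderiv ℝ (ee p ι) 0 ξ = ι ξ := by
  rw [fderiv_ee]
  simp [SS_zero]

theorem gg_self_nonneg (hp : ‖p‖ = 1) (hι : ∀ w, ⟪p, ι w⟫_ℝ = 0) (v ξ : 𝔼) : 0 ≤ gg v ξ ξ := by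
  rw [← inner_fderiv_ee hp hι, real_inner_self_eq_norm_sq]
  positivity

theorem tendsto_gg (v ξ : 𝔼) :
    Tendsto (fun t : ℝ => (gg (t • v) ξ ξ - ‖ξ‖ ^ 2) / t ^ 2) (𝓝[>] 0)
      (𝓝 (-(‖v‖ ^ 2 * ‖ξ‖ ^ 2 - ⟪v, ξ⟫_ℝ ^ 2) / 3)) := by
  by_cases hv : v = 0
  · subst hv
    have : ∀ t : ℝ, (gg (t • (0 : 𝔼)) ξ ξ - ‖ξ‖ ^ 2) / t ^ 2 = 0 := by
      intro t
      rw [smul_zero, gg]
      simp [SS_zero]
    simp only [this]
    simp
  · have hρ : 0 < ‖v‖ := norm_pos_iff.2 hv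
    have h1 := (tendsto_one_sub_sinc_sq ‖v‖).mul_const (-(‖ξ‖ ^ 2 - ⟪v, ξ⟫_ℝ ^ 2 / ‖v‖ ^ 2))
    have h2 : ‖v‖ ^ 2 / 3 * (-(‖ξ‖ ^ 2 - ⟪v, ξ⟫_ℝ ^ 2 / ‖v‖ ^ 2)) =
        -(‖v‖ ^ 2 * ‖ξ‖ ^ 2 - ⟪v, ξ⟫_ℝ ^ 2) / 3 := by field_simp
    rw [h2] at h1
    refine h1.congr' ?_
    filter_upwards [self_mem_nhdsWithin] with t ht
    have ht' : (0:ℝ) < t := ht
    rw [gg, SS_sq, norm_smul, Real.norm_eq_abs, abs_of_pos ht', real_inner_self_eq_norm_sq,
      real_inner_smul_left]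
    field_simp
    ring

theorem curvLike_sphere : CurvLike (n := n) (fun v ξ => ‖v‖ ^ 2 * ‖ξ‖ ^ 2 - ⟪v, ξ⟫_ℝ ^ 2) where
  self w := by rw [real_inner_self_eq_norm_sq]; ring
  comm u v := by rw [real_inner_comm]; ring
  pol u v := by
    rw [norm_add_sq_real, norm_sub_sq_real, inner_add_left, inner_sub_right, inner_sub_right,
      real_inner_self_eq_norm_sq, real_inner_self_eq_norm_sq, real_inner_comm v u]
    ring

/-- **the round sphere** in normal coordinates -/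
theorem modMet_sphere (hp : ‖p‖ = 1) (hι : ∀ w, ⟪p, ι w⟫_ℝ = 0) :
    ModMet n (π / 2) (fun v w => arccos ⟪ee p ι v, ee p ι w⟫_ℝ)
      (fun v ξ => ‖v‖ ^ 2 * ‖ξ‖ ^ 2 - ⟪v, ξ⟫_ℝ ^ 2) where
  toModDist := by
    refine modDist_of_cos (c := fun v w => ⟪ee p ι v, ee p ι w⟫_ℝ) le_rfl ?_ ?_
    · intro v _ s t hs0 _ ht0 _
      rw [inner_ee_ee hp hι, ← cos_sinc_aux v hs0 ht0, real_inner_smul_left, real_inner_smul_right,
        real_inner_self_eq_norm_sq]
      ring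
    · intro v ξ _
      have h1 := hasDerivAt_ee (p := p) (ι := ι) 0 ξ
      simp only [zero_add] at h1
      have h2 := h1.inner ℝ (hasDerivAt_const (0:ℝ) (ee p ι v))
      refine h2.congr_deriv ?_
      rw [fderiv_ee_zero, inner_zero_right, zero_add, ee_eq, inner_add_right, inner_smul_right,
        inner_smul_right, real_inner_comm p (ι ξ), hι, LinearIsometry.inner_map_map,
        real_inner_comm]
      ring
  like := curvLike_sphere
  met := by
    refine ⟨fun v ξ => gg v ξ ξ, ?_, tendsto_gg⟩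
    intro v ξ _
    refine ⟨gg_self_nonneg hp hι v ξ, ?_⟩
    have h1 := tendsto_arccos_inner (y := fun t : ℝ => ee p ι (v + t • ξ))
      (fun t => norm_ee hp hι _) (hasDerivAt_ee v ξ)
    have h2 : √(gg v ξ ξ) = ‖fderiv ℝ (ee p ι) v ξ‖ := by
      rw [← inner_fderiv_ee hp hι, real_inner_self_eq_norm_sq, Real.sqrt_sq (norm_nonneg _)]
    rw [h2]
    simpa using h1

end Sphere

/-! ### complex projective space -/

section Proj

variable {n : ℕ} {V : Type*} [NormedAddCommGroup V] [InnerProductSpace ℂ V]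

attribute [local instance] InnerProductSpace.complexToReal

variable {p : V} {ι : EuclideanSpace ℝ (Fin n) →ₗᵢ[ℝ] V}

local notation "𝔼" => EuclideanSpace ℝ (Fin n)

theorem re_inner_eq (x y : V) : (⟪x, y⟫_ℂ).re = ⟪x, y⟫_ℝ := rfl

theorem real_smul_eq (r : ℝ) (x : V) : r • x = (r : ℂ) • x := rfl

theorem inner_ee_ee_complex (hp : ‖p‖ = 1) (hι : ∀ w, ⟪p, ι w⟫_ℂ = 0) (v w : 𝔼) :
    ⟪ee p ι v, ee p ι w⟫_ℂ =
      (cos ‖v‖ * cos ‖w‖ : ℝ) + (sinc ‖v‖ * sinc ‖w‖ : ℝ) * ⟪ι v, ι w⟫_ℂ := by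
  have h2 : ∀ w, ⟪ι w, p⟫_ℂ = 0 := fun w => by
    rw [← inner_conj_symm, hι, map_zero]
  have h3 : ⟪p, p⟫_ℂ = 1 := by rw [inner_self_eq_norm_sq_to_K, hp]; simp
  rw [ee_eq, ee_eq]
  simp only [real_smul_eq, inner_add_right, inner_add_left, inner_smul_left, inner_smul_right, hι,
    h2, h3, Complex.conj_ofReal, mul_zero, add_zero, zero_add, mul_one]
  push_cast
  ring

theorem hιr (hι : ∀ w, ⟪p, ι w⟫_ℂ = 0) (w : 𝔼) : ⟪p, ι w⟫_ℝ = 0 := by
  rw [← re_inner_eq, hι, Complex.zero_re]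

/-- the Kähler form of the model -/
def kf (ι : EuclideanSpace ℝ (Fin n) →ₗᵢ[ℝ] V) (v ξ : EuclideanSpace ℝ (Fin n)) : ℝ :=
  (⟪ι v, ι ξ⟫_ℂ).im

theorem kf_self (v : 𝔼) : kf ι v v = 0 := by
  unfold kf
  rw [inner_self_eq_norm_sq_to_K]
  norm_cast

theorem kf_comm (v w : 𝔼) : kf ι v w = -kf ι w v := by
  unfold kf
  rw [← inner_conj_symm, Complex.conj_im]

theorem kf_smul_left (t : ℝ) (v w : 𝔼) : kf ι (t • v) w = t * kf ι v w := by
  unfold kf
  rw [map_smul, real_smul_eq, inner_smul_left, Complex.conj_ofReal, Complex.im_ofReal_mul]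


theorem kf_add_left (u v w : 𝔼) : kf ι (u + v) w = kf ι u w + kf ι v w := by
  unfold kf
  rw [map_add, inner_add_left, Complex.add_im]


theorem kf_sub_right (u v w : 𝔼) : kf ι u (v - w) = kf ι u v - kf ι u w := by
  unfold kf
  rw [map_sub, inner_sub_right, Complex.sub_im]

theorem curvLike_proj : CurvLike (n := n)
    (fun v ξ => ‖v‖ ^ 2 * ‖ξ‖ ^ 2 - ⟪v, ξ⟫_ℝ ^ 2 + 3 * kf ι v ξ ^ 2) where
  self w := by rw [real_inner_self_eq_norm_sq, kf_self]; ring
  comm u v := by rw [real_inner_comm, kf_comm]; ring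
  pol u v := by
    rw [norm_add_sq_real, norm_sub_sq_real, inner_add_left, inner_sub_right, inner_sub_right,
      real_inner_self_eq_norm_sq, real_inner_self_eq_norm_sq, real_inner_comm v u, kf_add_left,
      kf_sub_right, kf_sub_right, kf_self, kf_self, kf_comm v u]
    ring

theorem inner_ray (v : 𝔼) (s t : ℝ) : ⟪ι (s • v), ι (t • v)⟫_ℂ = ((s * t * ‖v‖ ^ 2 : ℝ) : ℂ) := by
  rw [map_smul, map_smul, real_smul_eq, real_smul_eq, inner_smul_left, inner_smul_right,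
    Complex.conj_ofReal, inner_self_eq_norm_sq_to_K, LinearIsometry.norm_map]
  push_cast
  ring_nf
  rfl

theorem hasDerivAt_norm_complex {z : ℝ → ℂ} {z' : ℂ} {c : ℝ} (hz : HasDerivAt z z' 0)
    (h0 : z 0 = (c : ℂ)) (hc : 0 < c) : HasDerivAt (fun t => ‖z t‖) z'.re 0 := by
  have h1 := hz.norm_sq
  have hne : (fun t => ‖z t‖ ^ 2) 0 ≠ 0 := by
    simp only [h0, Complex.norm_real]
    have : ‖c‖ ≠ 0 := by simpa using hc.ne'
    positivity
  have h2 := h1.sqrt hne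
  have e : (fun t => √((fun t => ‖z t‖ ^ 2) t)) = fun t => ‖z t‖ := by
    funext t
    exact Real.sqrt_sq (norm_nonneg _)
  have h3 : HasDerivAt (fun t => √((fun t => ‖z t‖ ^ 2) t))
      ((2 * ⟪z 0, z'⟫_ℝ) / (2 * √(‖z 0‖ ^ 2))) 0 := h2
  rw [e] at h3
  refine h3.congr_deriv ?_
  rw [h0, Real.sqrt_sq (norm_nonneg _), Complex.norm_real, Real.norm_eq_abs, abs_of_pos hc,
    Complex.inner, Complex.conj_ofReal]
  rw [mul_comm z' (c : ℂ), Complex.re_ofReal_mul]
  field_simp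

theorem norm_inner_deriv (hp : ‖p‖ = 1) (hι : ∀ w, ⟪p, ι w⟫_ℂ = 0) (v ξ : 𝔼) :
    ‖⟪ee p ι v, fderiv ℝ (ee p ι) v ξ⟫_ℂ‖ ^ 2 = (SS (‖v‖ ^ 2)) ^ 4 * kf ι v ξ ^ 2 := by
  have h2 : ∀ w, ⟪ι w, p⟫_ℂ = 0 := fun w => by
    rw [← inner_conj_symm, hι, map_zero]
  have h3 : ⟪p, p⟫_ℂ = 1 := by rw [inner_self_eq_norm_sq_to_K, hp]; simp
  have hre : (⟪ee p ι v, fderiv ℝ (ee p ι) v ξ⟫_ℂ).re = 0 := by
    rw [re_inner_eq]
    have := inner_deriv_eq_zero (y := fun t : ℝ => ee p ι (v + t • ξ))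
      (fun t => norm_ee hp (hιr hι) _) (hasDerivAt_ee v ξ)
    simpa using this
  have him : (⟪ee p ι v, fderiv ℝ (ee p ι) v ξ⟫_ℂ).im = (SS (‖v‖ ^ 2)) ^ 2 * kf ι v ξ := by
    rw [fderiv_ee, ee]
    simp only [real_smul_eq, inner_add_right, inner_add_left, inner_smul_left, inner_smul_right, hι,
      h2, h3, Complex.conj_ofReal, mul_zero, add_zero, zero_add, mul_one]
    have h4 : ⟪ι v, ι v⟫_ℂ = ((‖v‖ ^ 2 : ℝ) : ℂ) := by
      have := inner_ray (ι := ι) v 1 1
      simpa using this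
    rw [h4, Complex.add_im, Complex.add_im, ← Complex.ofReal_mul, Complex.ofReal_im,
      Complex.im_ofReal_mul, Complex.im_ofReal_mul]
    unfold kf
    simp only [← Complex.ofReal_mul, Complex.ofReal_im]
    simp [Complex.im_ofReal_mul]
    ring
  rw [← Complex.normSq_eq_norm_sq, Complex.normSq_apply, hre, him]
  ring

/-- **complex projective space** in normal coordinates -/
theorem modMet_proj (hp : ‖p‖ = 1) (hι : ∀ w, ⟪p, ι w⟫_ℂ = 0) :
    ModMet n (π / 2) (fun v w => arccos ‖⟪ee p ι v, ee p ι w⟫_ℂ‖)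
      (fun v ξ => ‖v‖ ^ 2 * ‖ξ‖ ^ 2 - ⟪v, ξ⟫_ℝ ^ 2 + 3 * kf ι v ξ ^ 2) where
  toModDist := by
    refine modDist_of_cos (c := fun v w => ‖⟪ee p ι v, ee p ι w⟫_ℂ‖) le_rfl ?_ ?_
    · intro v hv s t hs0 hs1 ht0 ht1
      have h1 : ⟪ee p ι (s • v), ee p ι (t • v)⟫_ℂ = ((cos ((s - t) * ‖v‖) : ℝ) : ℂ) := by
        rw [inner_ee_ee_complex hp hι, inner_ray, ← Complex.ofReal_mul, ← Complex.ofReal_add,
          cos_sinc_aux v hs0 ht0]
      rw [h1, Complex.norm_real, Real.norm_eq_abs, abs_of_nonneg]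
      have h3 : |s - t| ≤ 1 := by rw [abs_le]; constructor <;> linarith
      have h4 : |(s - t) * ‖v‖| ≤ π / 2 := by
        rw [abs_mul, abs_of_nonneg (norm_nonneg v)]
        calc |s - t| * ‖v‖ ≤ 1 * (π / 2) :=
              mul_le_mul h3 hv.le (norm_nonneg _) zero_le_one
          _ = π / 2 := one_mul _
      exact Real.cos_nonneg_of_mem_Icc (abs_le.1 h4)
    · intro v ξ hv
      have h1 := hasDerivAt_ee (p := p) (ι := ι) 0 ξ
      simp only [zero_add] at h1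
      have h2 := h1.inner ℂ (hasDerivAt_const (0:ℝ) (ee p ι v))
      have h0 : ⟪ee p ι ((0:ℝ) • ξ), ee p ι v⟫_ℂ = ((cos ‖v‖ : ℝ) : ℂ) := by
        rw [inner_ee_ee_complex hp hι]
        simp
      have hcos : 0 < cos ‖v‖ :=
        Real.cos_pos_of_mem_Ioo ⟨by linarith [Real.pi_pos, norm_nonneg v], hv⟩
      have h3 := hasDerivAt_norm_complex h2 h0 hcos
      refine h3.congr_deriv ?_
      rw [fderiv_ee_zero, inner_zero_right, zero_add, re_inner_eq, ee_eq, inner_add_right,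
        inner_smul_right, inner_smul_right, real_inner_comm p (ι ξ), hιr hι,
        LinearIsometry.inner_map_map, real_inner_comm]
      ring
  like := curvLike_proj
  met := by
    refine ⟨fun v ξ => gg v ξ ξ - (SS (‖v‖ ^ 2)) ^ 4 * kf ι v ξ ^ 2, ?_, ?_⟩
    · intro v ξ _
      have h2 : gg v ξ ξ - (SS (‖v‖ ^ 2)) ^ 4 * kf ι v ξ ^ 2 =
          ‖fderiv ℝ (ee p ι) v ξ‖ ^ 2 - ‖⟪ee p ι v, fderiv ℝ (ee p ι) v ξ⟫_ℂ‖ ^ 2 := by
        rw [← inner_fderiv_ee hp (hιr hι), real_inner_self_eq_norm_sq, norm_inner_deriv hp hι]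
      simp only [h2]
      constructor
      · have h3 : ‖⟪ee p ι v, fderiv ℝ (ee p ι) v ξ⟫_ℂ‖ ≤ ‖fderiv ℝ (ee p ι) v ξ‖ := by
          have := norm_inner_le_norm (𝕜 := ℂ) (ee p ι v) (fderiv ℝ (ee p ι) v ξ)
          rwa [norm_ee hp (hιr hι), one_mul] at this
        have := pow_le_pow_left₀ (norm_nonneg _) h3 2
        linarith
      · have hd := hasDerivAt_ee (p := p) (ι := ι) v ξ
        have h4 : Tendsto (fun t : ℝ => ((t⁻¹ : ℝ) : ℂ) •
            (ee p ι (v + t • ξ) - ee p ι (v + (0:ℝ) • ξ))) (𝓝[>] 0)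
            (𝓝 (fderiv ℝ (ee p ι) v ξ)) := by
          have e2 := (hasDerivAt_iff_tendsto_slope.1 hd).mono_left
            (nhdsWithin_mono (0:ℝ) (fun t (ht : t ∈ Ioi (0:ℝ)) => (ne_of_gt ht : t ≠ 0)))
          refine e2.congr fun t => ?_
          rw [slope_def_module, sub_zero, real_smul_eq]
        have h1 := tendsto_arccos_norm_inner (𝕜 := ℂ) (y := fun t : ℝ => ee p ι (v + t • ξ))
          (fun t => norm_ee hp (hιr hι) _) h4
        simpa using h1
    · intro v ξ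
      have h1 := (tendsto_gg v ξ).sub ((tendsto_sinc_pow ‖v‖ 4).mul_const (kf ι v ξ ^ 2))
      have h2 : -(‖v‖ ^ 2 * ‖ξ‖ ^ 2 - ⟪v, ξ⟫_ℝ ^ 2) / 3 - 1 * kf ι v ξ ^ 2 =
          -(‖v‖ ^ 2 * ‖ξ‖ ^ 2 - ⟪v, ξ⟫_ℝ ^ 2 + 3 * kf ι v ξ ^ 2) / 3 := by ring
      rw [h2] at h1
      refine h1.congr' ?_
      filter_upwards [self_mem_nhdsWithin] with t ht
      have ht' : (0:ℝ) < t := ht
      rw [SS_sq, norm_smul, Real.norm_eq_abs, abs_of_pos ht', kf_smul_left]
      field_simp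
      ring

end Proj

end Crest.Agent.R249.Mod40
end
end

-- ▼ part R249/ModB_40
section

/-!
# R249, B3 models (helper40): products and scalings of model distances
-/

set_option autoImplicit false
set_option maxSynthPendingDepth 3
set_option linter.unusedSectionVars false

open Real Set Filter Topology
open scoped ContDiff InnerProductSpace
open Crest.Agent.R249.Pb40 Crest.Agent.R249.MyS40 Crest.Agent.R249.MdlP_850

noncomputable section

namespace Crest.Agent.R249.Mod40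

local notation "𝔼" n => EuclideanSpace ℝ (Fin n)

/-- scaling of the model -/
theorem modMet_scale {n : ℕ} {r : ℝ} {D S : (𝔼 n) → (𝔼 n) → ℝ} (h : ModMet n r D S)
    {c : ℝ} (hc : 0 < c) (hS : ∀ v ξ, S (c • v) ξ = c ^ 2 * S v ξ) :
    ModMet n (r / c) (fun v w => D (c • v) (c • w) / c) (fun v ξ => c ^ 2 * S v ξ) where
  ray v hv s t hs0 hs1 ht0 ht1 := by
    have h1 : ‖c • v‖ < r := by
      rw [norm_smul, Real.norm_eq_abs, abs_of_pos hc, mul_comm]
      exact (lt_div_iff₀ hc).1 hv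
    have h2 := h.ray (c • v) h1 s t hs0 hs1 ht0 ht1
    rw [smul_comm s c v, smul_comm t c v] at h2
    rw [h2, norm_smul, Real.norm_eq_abs, abs_of_pos hc]
    field_simp
  var v ξ hv hξ := by
    have h1 : ‖c • v‖ < r := by
      rw [norm_smul, Real.norm_eq_abs, abs_of_pos hc, mul_comm]
      exact (lt_div_iff₀ hc).1 hv
    have h2 : ‖c • ξ‖ < r := by
      rw [norm_smul, Real.norm_eq_abs, abs_of_pos hc, mul_comm]
      exact (lt_div_iff₀ hc).1 hξ
    have h3 := (h.var (c • v) (c • ξ) h1 h2).div_const (c ^ 2)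
    refine (h3.congr_deriv ?_).congr ?_ ?_
    · rw [real_inner_smul_left, real_inner_smul_right]
      field_simp
    · intro t _
      rw [smul_comm c t ξ]
      field_simp
    · rw [smul_comm c (0:ℝ) ξ]
      field_simp
  like :=
    { self := fun w => by rw [h.like.self]; ring
      comm := fun u v => by rw [h.like.comm]
      pol := fun u v => by rw [h.like.pol]; ring }
  met := by
    obtain ⟨q, h1, h2⟩ := h.met
    refine ⟨fun v ξ => q (c • v) ξ, ?_, ?_⟩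
    · intro v ξ hv
      have hv' : ‖c • v‖ < r := by
        rw [norm_smul, Real.norm_eq_abs, abs_of_pos hc, mul_comm]
        exact (lt_div_iff₀ hc).1 hv
      obtain ⟨h3, h4⟩ := h1 (c • v) ξ hv'
      refine ⟨h3, ?_⟩
      have h5 : Tendsto (fun t : ℝ => c * t) (𝓝[>] 0) (𝓝[>] 0) := by
        refine tendsto_nhdsWithin_iff.2 ⟨?_, ?_⟩
        · have : Tendsto (fun t : ℝ => c * t) (𝓝 0) (𝓝 (c * 0)) :=
            (continuous_const.mul continuous_id).tendsto 0
          rw [mul_zero] at this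
          exact this.mono_left nhdsWithin_le_nhds
        · filter_upwards [self_mem_nhdsWithin] with t ht
          exact mul_pos hc ht
      refine (h4.comp h5).congr' ?_
      filter_upwards [self_mem_nhdsWithin] with t ht
      have ht' : (0:ℝ) < t := ht
      simp only [Function.comp]
      rw [smul_add, smul_smul, div_div]
    · intro v ξ
      have h3 := h2 (c • v) ξ
      rw [hS] at h3
      refine h3.congr fun t => ?_
      show _ = (q (c • t • v) ξ - ‖ξ‖ ^ 2) / t ^ 2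
      rw [smul_comm c t v]

/-- product of two models -/
theorem modMet_prod {a b : ℕ} {r : ℝ} {D S : (𝔼 a) → (𝔼 a) → ℝ} {D' S' : (𝔼 b) → (𝔼 b) → ℝ}
    (h : ModMet a r D S) (h' : ModMet b r D' S') :
    ModMet (a + b) r
      (fun v w => √(D (p1 a b v) (p1 a b w) ^ 2 + D' (p2 a b v) (p2 a b w) ^ 2))
      (fun v w => S (p1 a b v) (p1 a b w) + S' (p2 a b v) (p2 a b w)) where
  ray v hv s t hs0 hs1 ht0 ht1 := by
    have h1 := h.ray (p1 a b v) ((norm_p1_le v).trans_lt hv) s t hs0 hs1 ht0 ht1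
    have h2 := h'.ray (p2 a b v) ((norm_p2_le v).trans_lt hv) s t hs0 hs1 ht0 ht1
    simp only [map_smul]
    rw [h1, h2, mul_pow, mul_pow, ← mul_add, ← norm_sq_eq, ← mul_pow,
      Real.sqrt_sq (by positivity)]
  var v ξ hv hξ := by
    have h1 := h.var (p1 a b v) (p1 a b ξ) ((norm_p1_le v).trans_lt hv) ((norm_p1_le ξ).trans_lt hξ)
    have h2 := h'.var (p2 a b v) (p2 a b ξ) ((norm_p2_le v).trans_lt hv) ((norm_p2_le ξ).trans_lt hξ)
    refine ((h1.add h2).congr_deriv ?_).congr ?_ ?_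
    · rw [inner_eq]; ring
    · intro t _
      simp only [map_smul, Pi.add_apply]
      rw [Real.sq_sqrt (by positivity)]
      ring
    · simp only [map_smul, Pi.add_apply]
      rw [Real.sq_sqrt (by positivity)]
      ring
  like :=
    { self := fun w => by simp only [h.like.self, h'.like.self, add_zero]
      comm := fun u v => by simp only [h.like.comm (p1 a b u), h'.like.comm (p2 a b u)]
      pol := fun u v => by
        simp only [map_add, map_sub, h.like.pol, h'.like.pol]; ring }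
  met := by
    obtain ⟨q, h1, h2⟩ := h.met
    obtain ⟨q', h1', h2'⟩ := h'.met
    refine ⟨fun v ξ => q (p1 a b v) (p1 a b ξ) + q' (p2 a b v) (p2 a b ξ), ?_, ?_⟩
    · intro v ξ hv
      obtain ⟨h3, h4⟩ := h1 (p1 a b v) (p1 a b ξ) ((norm_p1_le v).trans_lt hv)
      obtain ⟨h3', h4'⟩ := h1' (p2 a b v) (p2 a b ξ) ((norm_p2_le v).trans_lt hv)
      refine ⟨add_nonneg h3 h3', ?_⟩
      have h5 := (Real.continuous_sqrt.tendsto _).comp ((h4.pow 2).add (h4'.pow 2))
      rw [Real.sq_sqrt h3, Real.sq_sqrt h3'] at h5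
      refine h5.congr' ?_
      filter_upwards [self_mem_nhdsWithin] with t ht
      have ht' : (0:ℝ) < t := ht
      simp only [Function.comp, map_add, map_smul]
      rw [div_pow, div_pow, ← add_div, Real.sqrt_div' _ (by positivity), Real.sqrt_sq ht'.le]
    · intro v ξ
      have h3 := (h2 (p1 a b v) (p1 a b ξ)).add (h2' (p2 a b v) (p2 a b ξ))
      have h4 : -S (p1 a b v) (p1 a b ξ) / 3 + -S' (p2 a b v) (p2 a b ξ) / 3 =
          -(S (p1 a b v) (p1 a b ξ) + S' (p2 a b v) (p2 a b ξ)) / 3 := by ring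
      rw [h4] at h3
      refine h3.congr fun t => ?_
      simp only [map_smul]
      rw [norm_sq_eq ξ]
      ring

/-! ### the isometric embedding `ι` -/

theorem exists_iota {n : ℕ} (p : EuclideanSpace ℝ (Fin (n + 1))) (hp : ‖p‖ = 1) :
    ∃ ι : (𝔼 n) →ₗᵢ[ℝ] EuclideanSpace ℝ (Fin (n + 1)), ∀ w, ⟪p, ι w⟫_ℝ = 0 := by
  have hp0 : p ≠ 0 := by
    intro h; rw [h, norm_zero] at hp; exact zero_ne_one hp
  have : Fact (Module.finrank ℝ (EuclideanSpace ℝ (Fin (n + 1))) = n + 1) :=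
    ⟨finrank_euclideanSpace_fin⟩
  let b := OrthonormalBasis.fromOrthogonalSpanSingleton (𝕜 := ℝ) n hp0
  refine ⟨(Submodule.subtypeₗᵢ _).comp b.repr.symm.toLinearIsometry, fun w => ?_⟩
  have : ((b.repr.symm w : (ℝ ∙ p)ᗮ) : EuclideanSpace ℝ (Fin (n + 1))) ∈ (ℝ ∙ p)ᗮ :=
    (b.repr.symm w).2
  exact (Submodule.mem_orthogonal_singleton_iff_inner_right).1 this

section Complex

attribute [local instance] InnerProductSpace.complexToReal

theorem exists_iota_complex {m : ℕ} {V : Type*} [NormedAddCommGroup V] [InnerProductSpace ℂ V]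
    [FiniteDimensional ℂ V] (hV : Module.finrank ℂ V = m + 1) (p : V) (hp : ‖p‖ = 1) :
    ∃ ι : (𝔼 (2 * m)) →ₗᵢ[ℝ] V, ∀ w, ⟪p, ι w⟫_ℂ = 0 := by
  have hp0 : p ≠ 0 := by
    intro h; rw [h, norm_zero] at hp; exact zero_ne_one hp
  have : Fact (Module.finrank ℂ V = m + 1) := ⟨hV⟩
  let K : Submodule ℂ V := (ℂ ∙ p)ᗮ
  have hK : Module.finrank ℂ K = m := Submodule.finrank_orthogonal_span_singleton hp0
  have hKr : Module.finrank ℝ K = 2 * m := by
    rw [← hK]
    exact finrank_real_of_complex K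
  have : FiniteDimensional ℝ K := FiniteDimensional.complexToReal K
  let b : OrthonormalBasis (Fin (2 * m)) ℝ K :=
    (stdOrthonormalBasis ℝ K).reindex (finCongr hKr)
  let ι0 : (𝔼 (2 * m)) →ₗᵢ[ℝ] K := b.repr.symm.toLinearIsometry
  refine ⟨⟨⟨⟨fun w => (ι0 w : V), ?_⟩, ?_⟩, ?_⟩, ?_⟩
  · intro x y
    rw [map_add]; rfl
  · intro r x
    simp only [map_smul]
    rfl
  · intro x
    exact ι0.norm_map x
  · intro w
    exact (Submodule.mem_orthogonal_singleton_iff_inner_right).1 (ι0 w).2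

end Complex

end Crest.Agent.R249.Mod40
end
end

-- ▼ part R249/B3a_40
section

/-!
# R249, B3 (helper40): curvature of manifolds locally covered by the three models

* `sphere_data`, `proj_data`, `prod_data`: the curvature at every point in an orthonormal frame;
* `secNumer_of_sphere`, `le_secNumer_of_proj`, `exists_zero_of_prod`, `einstein_of_prod`;
* `einstein_pos`: positive sectional curvature and Einstein with constant `c` give `0 < c`.
-/

set_option autoImplicit false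
set_option maxSynthPendingDepth 3
set_option linter.unusedSectionVars false

open Real Bundle Set Filter Metric Topology
open scoped ContDiff Manifold InnerProductSpace
open Crest.GeometryTopology.CoordMetric Crest.GeometryTopology.ChartCurvature
open Crest.Agent.R202.Tens
open Crest.Agent.R249.Pb40 Crest.Agent.R249.MyS40 Crest.Agent.R249.Mod40
open Crest.Agent.R249.TrigS_662 Crest.Agent.R249.MdlP_850

noncomputable section

namespace Crest.Agent.R249.B3a40

section Gen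

variable {n : ℕ} {M : Type*} [MetricSpace M] [ChartedSpace (EuclideanSpace ℝ (Fin n)) M]
  [IsManifold (𝓡 n) ∞ M]
  [RiemannianBundle (fun p : M => TangentSpace (𝓡 n) p)]
  [IsContMDiffRiemannianBundle (𝓡 n) ∞ (EuclideanSpace ℝ (Fin n)) (fun p : M => TangentSpace (𝓡 n) p)]
  [IsRiemannianManifold (𝓡 n) M] [CompactSpace M]

local notation "𝔼" => EuclideanSpace ℝ (Fin n)

/-- curvature data of `M` at `x` in an orthonormal frame -/
def CurvData (n : ℕ) (M : Type*) [MetricSpace M] [ChartedSpace (EuclideanSpace ℝ (Fin n)) M]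
    [RiemannianBundle (fun p : M => TangentSpace (𝓡 n) p)] (x : M)
    (S : EuclideanSpace ℝ (Fin n) → EuclideanSpace ℝ (Fin n) → ℝ) : Prop :=
  ∃ L : EuclideanSpace ℝ (Fin n) ≃ₗ[ℝ] EuclideanSpace ℝ (Fin n),
    (∀ u v, bil (chartMetric n M x (chartCentre n M x)) (L u) (L v) = inner ℝ u v) ∧
    (∀ u v, secNumer (chartMetric n M x) (chartCentre n M x) (L u) (L v) = S u v) ∧
    (∀ u v, gramDet (chartMetric n M x) (chartCentre n M x) (L u) (L v) =
      ‖u‖ ^ 2 * ‖v‖ ^ 2 - inner ℝ u v ^ 2) ∧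
    (∀ v, ∑ i, ∑ j, ricci (chartMetric n M x) (chartCentre n M x) i j * (L v) i * (L v) j =
      ∑ k, S (EuclideanSpace.single k 1) v)

theorem curvData_of_model (x : M) {r δ a : ℝ} (hr : 0 < r) (ha : 0 < a) (hδ : 0 < δ)
    {D S : 𝔼 → 𝔼 → ℝ} (hD : ModMet n r D S) (hS : ∀ (c : ℝ) (v ξ : 𝔼), S (c • v) ξ = c ^ 2 * S v ξ)
    {F : 𝔼 → M} (hF0 : F 0 = x)
    (hF : ∀ v w : 𝔼, ‖v‖ < δ → ‖w‖ < δ → dist (F v) (F w) = D v w / √a) :
    CurvData n M x (fun v ξ => a * S v ξ) := by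
  have hs : 0 < √a := Real.sqrt_pos.2 ha
  have h1 := modMet_scale hD hs (hS (√a))
  have h2 := h1.mono (min_le_left (r / √a) (δ / √a))
  have hpos : 0 < min (r / √a) (δ / √a) := lt_min (by positivity) (by positivity)
  have hlt : ∀ v : 𝔼, ‖v‖ < min (r / √a) (δ / √a) → ‖√a • v‖ < δ := by
    intro v hv
    rw [norm_smul, Real.norm_eq_abs, abs_of_pos hs, mul_comm]
    exact (lt_div_iff₀ hs).1 (hv.trans_le (min_le_right _ _))
  have h3 := curvature_of_model x hpos h2 (F := fun v => F (√a • v)) (by simp [hF0])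
    (fun v w hv hw => hF _ _ (hlt v hv) (hlt w hw))
  rw [Real.sq_sqrt ha.le] at h3
  exact h3

theorem CurvData.secNumer_eq {x : M} {S : 𝔼 → 𝔼 → ℝ} (h : CurvData n M x S) {P : ℝ → ℝ → Prop}
    (hP : ∀ u v : 𝔼, P (‖u‖ ^ 2 * ‖v‖ ^ 2 - inner ℝ u v ^ 2) (S u v)) (u v : 𝔼) :
    P (gramDet (chartMetric n M x) (chartCentre n M x) u v)
      (secNumer (chartMetric n M x) (chartCentre n M x) u v) := by
  obtain ⟨L, -, h2, h3, -⟩ := h
  have := hP (L.symm u) (L.symm v)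
  rw [← h2, ← h3, L.apply_symm_apply, L.apply_symm_apply] at this
  exact this

theorem CurvData.einstein {x : M} {S : 𝔼 → 𝔼 → ℝ} (h : CurvData n M x S) {c : ℝ}
    (hE : IsEinsteinWith n M c) (v : 𝔼) : c * ‖v‖ ^ 2 = ∑ k, S (EuclideanSpace.single k 1) v := by
  obtain ⟨L, h1, -, -, h4⟩ := h
  rw [← h4 v, ← real_inner_self_eq_norm_sq, ← h1, bil_apply, Finset.mul_sum]
  refine Finset.sum_congr rfl fun i _ => ?_
  rw [Finset.mul_sum]
  refine Finset.sum_congr rfl fun j _ => ?_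
  rw [hE x i j]
  ring

end Gen

section Sphere

variable {n : ℕ} {M : Type*} [MetricSpace M] [ChartedSpace (EuclideanSpace ℝ (Fin n)) M]
  [IsManifold (𝓡 n) ∞ M]
  [RiemannianBundle (fun p : M => TangentSpace (𝓡 n) p)]
  [IsContMDiffRiemannianBundle (𝓡 n) ∞ (EuclideanSpace ℝ (Fin n)) (fun p : M => TangentSpace (𝓡 n) p)]
  [IsRiemannianManifold (𝓡 n) M] [CompactSpace M]

theorem exists_delta {n : ℕ} {V : Type*} [NormedAddCommGroup V] [InnerProductSpace ℝ V] (p : V)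
    (ι : EuclideanSpace ℝ (Fin n) →ₗᵢ[ℝ] V) {ε : ℝ} (hε : 0 < ε) :
    ∃ δ : ℝ, 0 < δ ∧ ∀ v : EuclideanSpace ℝ (Fin n), ‖v‖ < δ → dist p (ee p ι v) < ε := by
  have h1 : ContinuousAt (ee p ι) 0 := (contDiff_ee p ι).continuous.continuousAt
  obtain ⟨δ, hδ, h2⟩ := Metric.continuousAt_iff.1 h1 ε hε
  refine ⟨δ, hδ, fun v hv => ?_⟩
  have := h2 (x := v) (by simpa using hv)
  rwa [ee_zero, dist_comm] at this

/-- the curvature of a manifold locally covered by the round sphere -/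
theorem sphere_data {a : ℝ} (h : IsLocallyCoveredByRoundSphere M n a) (x : M) :
    CurvData n M x (fun v ξ => a * (‖v‖ ^ 2 * ‖ξ‖ ^ 2 - ⟪v, ξ⟫_ℝ ^ 2)) := by
  obtain ⟨ha, Φ, hsurj, hloc⟩ := h
  obtain ⟨p, hp⟩ := hsurj x
  obtain ⟨ε, hε, hd⟩ := hloc p
  have hp1 : ‖(p : EuclideanSpace ℝ (Fin (n + 1)))‖ = 1 := mem_sphere_zero_iff_norm.1 p.2
  obtain ⟨ι, hι⟩ := exists_iota (p : EuclideanSpace ℝ (Fin (n + 1))) hp1
  obtain ⟨δ, hδ, hδ'⟩ := exists_delta (p : EuclideanSpace ℝ (Fin (n + 1))) ι hε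
  have hmem : ∀ v, ee (p : EuclideanSpace ℝ (Fin (n + 1))) ι v ∈
      Metric.sphere (0 : EuclideanSpace ℝ (Fin (n + 1))) 1 := by
    intro v
    rw [mem_sphere_zero_iff_norm]
    exact norm_ee hp1 hι v
  refine curvData_of_model x (by positivity) ha hδ (modMet_sphere hp1 hι) ?_
    (F := fun v => Φ ⟨ee (p : EuclideanSpace ℝ (Fin (n + 1))) ι v, hmem v⟩) ?_ ?_
  · intro c v ξ
    rw [norm_smul, real_inner_smul_left, mul_pow, Real.norm_eq_abs, sq_abs]
    ring
  · rw [← hp]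
    congr 1
    apply Subtype.ext
    exact ee_zero _ _
  · intro v w hv hw
    exact hd _ _ (hδ' v hv) (hδ' w hw)

theorem secNumer_of_sphere {a : ℝ} (h : IsLocallyCoveredByRoundSphere M n a) (x : M)
    (u v : EuclideanSpace ℝ (Fin n)) :
    secNumer (chartMetric n M x) (chartCentre n M x) u v =
      a * gramDet (chartMetric n M x) (chartCentre n M x) u v :=
  (sphere_data h x).secNumer_eq (P := fun s t => t = a * s) (fun _ _ => rfl) u v

end Sphere

section Proj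

variable {m : ℕ} {M : Type*} [MetricSpace M] [ChartedSpace (EuclideanSpace ℝ (Fin (2 * m))) M]
  [IsManifold (𝓡 (2 * m)) ∞ M]
  [RiemannianBundle (fun p : M => TangentSpace (𝓡 (2 * m)) p)]
  [IsContMDiffRiemannianBundle (𝓡 (2 * m)) ∞ (EuclideanSpace ℝ (Fin (2 * m)))
    (fun p : M => TangentSpace (𝓡 (2 * m)) p)]
  [IsRiemannianManifold (𝓡 (2 * m)) M] [CompactSpace M]

section Loc

attribute [local instance] InnerProductSpace.complexToReal

/-- the curvature of a manifold locally covered by complex projective space -/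
theorem proj_data {a : ℝ} (h : IsLocallyCoveredByComplexProjective M m a) (x : M) :
    ∃ κ : EuclideanSpace ℝ (Fin (2 * m)) → EuclideanSpace ℝ (Fin (2 * m)) → ℝ,
      CurvData (2 * m) M x
        (fun v ξ => a * (‖v‖ ^ 2 * ‖ξ‖ ^ 2 - ⟪v, ξ⟫_ℝ ^ 2 + 3 * κ v ξ ^ 2)) := by
  obtain ⟨ha, Φ, hsurj, hloc⟩ := h
  obtain ⟨p, hp⟩ := hsurj x
  obtain ⟨ε, hε, hd⟩ := hloc p
  have hp1 : ‖(p : EuclideanSpace ℂ (Fin (m + 1)))‖ = 1 := mem_sphere_zero_iff_norm.1 p.2
  obtain ⟨ι, hι⟩ := exists_iota_complex (m := m) finrank_euclideanSpace_fin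
    (p : EuclideanSpace ℂ (Fin (m + 1))) hp1
  obtain ⟨δ, hδ, hδ'⟩ := exists_delta (p : EuclideanSpace ℂ (Fin (m + 1))) ι hε
  have hmem : ∀ v, ee (p : EuclideanSpace ℂ (Fin (m + 1))) ι v ∈
      Metric.sphere (0 : EuclideanSpace ℂ (Fin (m + 1))) 1 := by
    intro v
    rw [mem_sphere_zero_iff_norm]
    exact norm_ee hp1 (hιr hι) v
  refine ⟨kf ι, curvData_of_model x (by positivity) ha hδ (modMet_proj hp1 hι) ?_
    (F := fun v => Φ ⟨ee (p : EuclideanSpace ℂ (Fin (m + 1))) ι v, hmem v⟩) ?_ ?_⟩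
  · intro c v ξ
    rw [norm_smul, real_inner_smul_left, mul_pow, Real.norm_eq_abs, sq_abs, kf_smul_left]
    ring
  · rw [← hp]
    congr 1
    apply Subtype.ext
    exact ee_zero _ _
  · intro v w hv hw
    exact hd _ _ (hδ' v hv) (hδ' w hw)

end Loc

theorem le_secNumer_of_proj' {a : ℝ} (h : IsLocallyCoveredByComplexProjective M m a) (x : M)
    (u v : EuclideanSpace ℝ (Fin (2 * m))) :
    a * gramDet (chartMetric (2 * m) M x) (chartCentre (2 * m) M x) u v ≤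
      secNumer (chartMetric (2 * m) M x) (chartCentre (2 * m) M x) u v := by
  obtain ⟨κ, hκ⟩ := proj_data h x
  have ha : 0 < a := h.1
  refine hκ.secNumer_eq (P := fun s t => a * s ≤ t) (fun u v => ?_) u v
  have : 0 ≤ a * (3 * κ u v ^ 2) := by positivity
  linarith

end Proj

section Prod

section Two

variable {M : Type*} [MetricSpace M] [ChartedSpace (EuclideanSpace ℝ (Fin (2 + 2))) M]
  [IsManifold (𝓡 (2 + 2)) ∞ M]
  [RiemannianBundle (fun p : M => TangentSpace (𝓡 (2 + 2)) p)]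
  [IsContMDiffRiemannianBundle (𝓡 (2 + 2)) ∞ (EuclideanSpace ℝ (Fin (2 + 2)))
    (fun p : M => TangentSpace (𝓡 (2 + 2)) p)]
  [IsRiemannianManifold (𝓡 (2 + 2)) M] [CompactSpace M]

theorem p1_zero : p1 2 2 0 = 0 := map_zero _

theorem p2_zero : p2 2 2 0 = 0 := map_zero _

/-- the curvature of a manifold locally covered by `S² × S²` -/
theorem prod_data {a : ℝ} (h : IsLocallyCoveredBySphereProduct M a) (x : M) :
    CurvData (2 + 2) M x (fun v ξ => a *
      ((‖p1 2 2 v‖ ^ 2 * ‖p1 2 2 ξ‖ ^ 2 - ⟪p1 2 2 v, p1 2 2 ξ⟫_ℝ ^ 2) +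
        (‖p2 2 2 v‖ ^ 2 * ‖p2 2 2 ξ‖ ^ 2 - ⟪p2 2 2 v, p2 2 2 ξ⟫_ℝ ^ 2))) := by
  obtain ⟨ha, Φ, hsurj, hloc⟩ := h
  obtain ⟨p, hp⟩ := hsurj x
  obtain ⟨ε, hε, hd⟩ := hloc p
  obtain ⟨P, Q⟩ := p
  have hp1 : ‖(P : EuclideanSpace ℝ (Fin 3))‖ = 1 := mem_sphere_zero_iff_norm.1 P.2
  have hp2 : ‖(Q : EuclideanSpace ℝ (Fin 3))‖ = 1 := mem_sphere_zero_iff_norm.1 Q.2
  obtain ⟨ι, hι⟩ : ∃ ι : EuclideanSpace ℝ (Fin 2) →ₗᵢ[ℝ] EuclideanSpace ℝ (Fin 3),
      ∀ w, ⟪(P : EuclideanSpace ℝ (Fin 3)), ι w⟫_ℝ = 0 := exists_iota (n := 2) _ hp1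
  obtain ⟨ι', hι'⟩ : ∃ ι : EuclideanSpace ℝ (Fin 2) →ₗᵢ[ℝ] EuclideanSpace ℝ (Fin 3),
      ∀ w, ⟪(Q : EuclideanSpace ℝ (Fin 3)), ι w⟫_ℝ = 0 := exists_iota (n := 2) _ hp2
  obtain ⟨δ, hδ, hδ'⟩ := exists_delta (P : EuclideanSpace ℝ (Fin 3)) ι hε
  obtain ⟨δ₂, hδ₂, hδ₂'⟩ := exists_delta (Q : EuclideanSpace ℝ (Fin 3)) ι' hε
  let F1 : EuclideanSpace ℝ (Fin 2) → Metric.sphere (0 : EuclideanSpace ℝ (Fin 3)) 1 := fun v =>
    ⟨ee (P : EuclideanSpace ℝ (Fin 3)) ι v, by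
      rw [mem_sphere_zero_iff_norm]; exact norm_ee hp1 hι v⟩
  let F2 : EuclideanSpace ℝ (Fin 2) → Metric.sphere (0 : EuclideanSpace ℝ (Fin 3)) 1 := fun v =>
    ⟨ee (Q : EuclideanSpace ℝ (Fin 3)) ι' v, by
      rw [mem_sphere_zero_iff_norm]; exact norm_ee hp2 hι' v⟩
  have hF1 : F1 0 = P := Subtype.ext (ee_zero _ _)
  have hF2 : F2 0 = Q := Subtype.ext (ee_zero _ _)
  refine curvData_of_model x (by positivity) ha (lt_min hδ hδ₂)
    (modMet_prod (modMet_sphere hp1 hι) (modMet_sphere hp2 hι')) ?_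
    (F := fun v => Φ (F1 (p1 2 2 v), F2 (p2 2 2 v))) ?_ ?_
  · intro c v ξ
    simp only [map_smul, norm_smul, real_inner_smul_left, mul_pow, Real.norm_eq_abs, sq_abs]
    ring
  · show Φ (F1 (p1 2 2 0), F2 (p2 2 2 0)) = x
    rw [p1_zero, p2_zero, hF1, hF2, hp]
  · intro v w hv hw
    refine hd _ _ ?_ ?_
    · rw [Prod.dist_eq]
      exact max_lt (hδ' _ ((norm_p1_le v).trans_lt (hv.trans_le (min_le_left _ _))))
        (hδ₂' _ ((norm_p2_le v).trans_lt (hv.trans_le (min_le_right _ _))))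
    · rw [Prod.dist_eq]
      exact max_lt (hδ' _ ((norm_p1_le w).trans_lt (hw.trans_le (min_le_left _ _))))
        (hδ₂' _ ((norm_p2_le w).trans_lt (hw.trans_le (min_le_right _ _))))

/-- the first basis vector of `ℝ²` -/
def e0 : EuclideanSpace ℝ (Fin 2) := EuclideanSpace.single 0 1

theorem norm_e0 : ‖e0‖ = 1 := by simp [e0]

theorem exists_zero_of_prod' {a : ℝ} (h : IsLocallyCoveredBySphereProduct M a) (x : M) :
    ∃ u v : EuclideanSpace ℝ (Fin (2 + 2)),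
      0 < gramDet (chartMetric (2 + 2) M x) (chartCentre (2 + 2) M x) u v ∧
        secNumer (chartMetric (2 + 2) M x) (chartCentre (2 + 2) M x) u v = 0 := by
  obtain ⟨L, -, h2, h3, -⟩ := prod_data h x
  refine ⟨L (i1 2 2 e0), L (i2 2 2 e0), ?_, ?_⟩
  · rw [h3, norm_sq_eq, norm_sq_eq (i2 2 2 e0), inner_eq, p1_i1, p2_i1, p1_i2, p2_i2, norm_e0,
      norm_zero, inner_zero_right, inner_zero_left]
    norm_num
  · rw [h2]
    beta_reduce
    rw [p1_i1, p2_i1, p1_i2, p2_i2, norm_e0, norm_zero, inner_zero_right, inner_zero_left]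
    norm_num

theorem sum_prod_aux (a : ℝ) : ∑ k : Fin (2 + 2), a *
      ((‖p1 2 2 (EuclideanSpace.single k (1:ℝ))‖ ^ 2 * ‖p1 2 2 (i1 2 2 e0)‖ ^ 2 -
          ⟪p1 2 2 (EuclideanSpace.single k (1:ℝ)), p1 2 2 (i1 2 2 e0)⟫_ℝ ^ 2) +
        (‖p2 2 2 (EuclideanSpace.single k (1:ℝ))‖ ^ 2 * ‖p2 2 2 (i1 2 2 e0)‖ ^ 2 -
          ⟪p2 2 2 (EuclideanSpace.single k (1:ℝ)), p2 2 2 (i1 2 2 e0)⟫_ℝ ^ 2)) = a := by
  rw [Fin.sum_univ_add]
  simp only [p1_i1, p2_i1, norm_e0, norm_zero, inner_zero_right]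
  have h1 : ∀ k : Fin 2, p1 2 2 (EuclideanSpace.single (Fin.castAdd 2 k) (1:ℝ)) =
      EuclideanSpace.single k 1 := by
    intro k
    ext i
    rw [p1_apply, PiLp.single_apply, PiLp.single_apply]
    by_cases hik : i = k
    · rw [hik, if_pos rfl, if_pos rfl]
    · rw [if_neg hik, if_neg]
      intro h
      exact hik (Fin.castAdd_injective 2 2 h)
  have h2 : ∀ k : Fin 2, p1 2 2 (EuclideanSpace.single (Fin.natAdd 2 k) (1:ℝ)) = 0 := by
    intro k
    ext i
    rw [p1_apply]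
    have : Fin.castAdd 2 i ≠ Fin.natAdd 2 k := by
      intro h
      have := congrArg Fin.val h
      simp at this
      omega
    rw [PiLp.single_apply, if_neg this]
    rfl
  have h3 : ⟪(EuclideanSpace.single 0 1 : EuclideanSpace ℝ (Fin 2)), e0⟫_ℝ = 1 := by
    rw [e0, EuclideanSpace.inner_single_right]; simp
  have h4 : ⟪(EuclideanSpace.single 1 1 : EuclideanSpace ℝ (Fin 2)), e0⟫_ℝ = 0 := by
    rw [e0, EuclideanSpace.inner_single_right]; simp
  simp only [h1, h2, Fin.sum_univ_two, h3, h4, norm_zero, inner_zero_left]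
  simp

theorem einstein_of_prod' [Nonempty M] {a c : ℝ} (h : IsLocallyCoveredBySphereProduct M a)
    (hE : IsEinsteinWith (2 + 2) M c) : c = a := by
  obtain ⟨x⟩ := ‹Nonempty M›
  have h1 := (prod_data h x).einstein hE (i1 2 2 e0)
  have h2 : ‖i1 2 2 e0‖ ^ 2 = 1 := by
    rw [norm_sq_eq, p1_i1, p2_i1, norm_e0, norm_zero]; norm_num
  rw [h2, mul_one] at h1
  rw [h1]
  exact sum_prod_aux a

end Two

variable {N : ℕ} {M : Type*} [MetricSpace M] [ChartedSpace (EuclideanSpace ℝ (Fin N)) M]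
  [IsManifold (𝓡 N) ∞ M]
  [RiemannianBundle (fun p : M => TangentSpace (𝓡 N) p)]
  [IsContMDiffRiemannianBundle (𝓡 N) ∞ (EuclideanSpace ℝ (Fin N)) (fun p : M => TangentSpace (𝓡 N) p)]
  [IsRiemannianManifold (𝓡 N) M] [CompactSpace M]

theorem exists_zero_of_prod (hN : N = 2 + 2) {a : ℝ} (h : IsLocallyCoveredBySphereProduct M a)
    (x : M) : ∃ u v : EuclideanSpace ℝ (Fin N),
      0 < gramDet (chartMetric N M x) (chartCentre N M x) u v ∧
        secNumer (chartMetric N M x) (chartCentre N M x) u v = 0 := by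
  subst hN
  exact exists_zero_of_prod' h x

theorem einstein_of_prod (hN : N = 2 + 2) [Nonempty M] {a c : ℝ}
    (h : IsLocallyCoveredBySphereProduct M a) (hE : IsEinsteinWith N M c) : c = a := by
  subst hN
  exact einstein_of_prod' h hE

theorem le_secNumer_of_proj {m : ℕ} (hN : N = 2 * m) {a : ℝ}
    (h : IsLocallyCoveredByComplexProjective M m a) (x : M) (u v : EuclideanSpace ℝ (Fin N)) :
    a * gramDet (chartMetric N M x) (chartCentre N M x) u v ≤
      secNumer (chartMetric N M x) (chartCentre N M x) u v := by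
  subst hN
  exact le_secNumer_of_proj' h x u v

end Prod

section Pos

variable {n : ℕ} {M : Type*} [MetricSpace M] [ChartedSpace (EuclideanSpace ℝ (Fin n)) M]
  [IsManifold (𝓡 n) ∞ M]
  [RiemannianBundle (fun p : M => TangentSpace (𝓡 n) p)]
  [IsContMDiffRiemannianBundle (𝓡 n) ∞ (EuclideanSpace ℝ (Fin n)) (fun p : M => TangentSpace (𝓡 n) p)]

local notation "𝔼" => EuclideanSpace ℝ (Fin n)

/-- every point has an orthonormal frame, in which the Ricci form is the trace of the curvature -/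
theorem exists_frame (x : M) : ∃ L : 𝔼 ≃L[ℝ] 𝔼,
    (∀ u v, bil (chartMetric n M x (chartCentre n M x)) (L u) (L v) = inner ℝ u v) ∧
    (∀ v, ∑ i, ∑ j, ricci (chartMetric n M x) (chartCentre n M x) i j * (L v) i * (L v) j =
      ∑ k, secNumer (chartMetric n M x) (chartCentre n M x) (L (EuclideanSpace.single k 1)) (L v)) := by
  have ha : chartCentre n M x ∈ (chartAt 𝔼 x).target := mem_chart_target 𝔼 x
  obtain ⟨A, hA, -⟩ := Crest.Agent.R247.Ms322.exists_isometry x ha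
  set a0 : 𝔼 := chartCentre n M x with ha0
  set Φ : 𝔼 → 𝔼 := fun y => A.symm y + a0 with hΦ
  have hΦd : ∀ y, HasFDerivAt Φ (A.symm : 𝔼 →L[ℝ] 𝔼) y := fun y =>
    ((A.symm : 𝔼 →L[ℝ] 𝔼).hasFDerivAt).add_const a0
  have hΦf : ∀ y, fderiv ℝ Φ y = (A.symm : 𝔼 →L[ℝ] 𝔼) := fun y => (hΦd y).fderiv
  have hΦ0 : Φ 0 = a0 := by simp [hΦ]
  set V : Set 𝔼 := Φ ⁻¹' (chartAt 𝔼 x).target with hV
  have hΦs : ContDiff ℝ ∞ Φ := (A.symm.contDiff).add contDiff_const
  have h0 : (0:𝔼) ∈ V := by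
    show Φ 0 ∈ (chartAt 𝔼 x).target
    rw [hΦ0]; exact ha
  set g' : MetricField n := fun y => Matrix.of fun i j => ∑ a, ∑ b,
    chartMetric n M x (Φ y) a b * (fderiv ℝ Φ y (EuclideanSpace.single i 1)) a *
      (fderiv ℝ Φ y (EuclideanSpace.single j 1)) b with hg'
  have hP : Pull g' (chartMetric n M x) Φ V (chartAt 𝔼 x).target :=
    { isOpen := (chartAt 𝔼 x).open_target.preimage hΦs.continuous
      riem := Crest.Agent.R247.Bo84.isRiemannianOn_chartMetric x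
      maps := fun y hy => hy
      smooth := hΦs.contDiffOn
      pull := fun y hy i j => rfl
      inj := fun y hy => by rw [hΦf]; exact A.symm.injective }
  have hb : ∀ u v : 𝔼, bil (chartMetric n M x a0) (A.symm u) (A.symm v) = inner ℝ u v := by
    intro u v
    have h1 := hA (A.symm u) (A.symm v)
    rw [A.apply_symm_apply, A.apply_symm_apply] at h1
    rw [h1, Crest.Agent.R247.Bo84.bil_chartMetric, Crest.Agent.R226.ChartMet842.gm_apply]
    rfl
  refine ⟨A.symm, hb, fun v => ?_⟩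
  have h1 : ∀ u v : 𝔼, bil (g' 0) u v = inner ℝ u v := by
    intro u v
    rw [hP.bil_eq h0, hΦf, hΦ0]
    exact hb u v
  have h2 := ricci_eq_sum_secNumer hP.riem' h0 h1 v
  have h3 := hP.ricci_pull h0 v v
  rw [hΦf, hΦ0] at h3
  refine Eq.trans h3.symm (h2.trans ?_)
  refine Finset.sum_congr rfl fun k _ => ?_
  have h4 := hP.secNumer_pull h0 (EuclideanSpace.single k 1) v
  rw [hΦf, hΦ0] at h4
  exact h4

theorem secNumer_self {g : MetricField n} {U : Set (EuclideanSpace ℝ (Fin n))}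
    (hg : IsRiemannianOn g U) {x : 𝔼} (hx : x ∈ U) (u : 𝔼) : secNumer g x u u = 0 := by
  rw [secNumer_eq hg hx]
  have : curv (Gam g) x u u u = 0 := by
    unfold curv; simp
  rw [this]; simp

theorem einstein_pos [Nonempty M] (hn : 2 ≤ n) {c : ℝ} (hE : IsEinsteinWith n M c)
    (hK : HasPosSectionalCurvature n M) : 0 < c := by
  obtain ⟨x⟩ := ‹Nonempty M›
  obtain ⟨L, h1, h2⟩ := exists_frame (n := n) x
  have hg := Crest.Agent.R247.Bo84.isRiemannianOn_chartMetric (n := n) x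
  have ha : chartCentre n M x ∈ (chartAt 𝔼 x).target := mem_chart_target 𝔼 x
  let i0 : Fin n := ⟨0, by omega⟩
  let i1 : Fin n := ⟨1, by omega⟩
  set e : 𝔼 := EuclideanSpace.single i0 1 with he
  have hc : c = ∑ k, secNumer (chartMetric n M x) (chartCentre n M x)
      (L (EuclideanSpace.single k 1)) (L e) := by
    rw [← h2 e]
    have h3 : c = c * bil (chartMetric n M x (chartCentre n M x)) (L e) (L e) := by
      rw [h1, he]
      simp
    conv_lhs => rw [h3]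
    rw [bil_apply, Finset.mul_sum]
    refine Finset.sum_congr rfl fun i _ => ?_
    rw [Finset.mul_sum]
    refine Finset.sum_congr rfl fun j _ => ?_
    rw [hE x i j]
    ring
  have hgram : ∀ k, k ≠ i0 → 0 < secNumer (chartMetric n M x) (chartCentre n M x)
      (L (EuclideanSpace.single k 1)) (L e) := by
    intro k hk
    apply hK
    have h3 : ⟪(EuclideanSpace.single k 1 : 𝔼), e⟫_ℝ = 0 := by
      rw [he, EuclideanSpace.inner_single_right]
      simp [hk.symm]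
    have h4 : ⟪(EuclideanSpace.single k 1 : 𝔼), (EuclideanSpace.single k 1 : 𝔼)⟫_ℝ = 1 := by
      rw [EuclideanSpace.inner_single_right]
      simp
    have h5 : ⟪e, e⟫_ℝ = 1 := by
      rw [he, EuclideanSpace.inner_single_right]
      simp
    rw [gramDet_eq, h1, h1, h1, h3, h4, h5]
    norm_num
  rw [hc]
  refine Finset.sum_pos' (fun k _ => ?_) ⟨i1, Finset.mem_univ _, hgram i1 ?_⟩
  · by_cases hk : k = i0
    · rw [hk, ← he, secNumer_self hg ha]
    · exact (hgram k hk).le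
  · intro h
    have := congrArg Fin.val h
    simp [i0, i1] at this

end Pos

end Crest.Agent.R249.B3a40
end
end

-- ▼ part R249/B3f_40
section

/-!
# R249, B3 (helper40): S0384 and S0385 from S0383

`s384_of`: S0384 from the conclusion of S0383.
`s385_of`: S0385 from S0383 and the two global theorems T1, T2 (helper802).
-/

set_option autoImplicit false
set_option maxSynthPendingDepth 3
set_option linter.unusedSectionVars false

open Real Bundle Set Filter Metric Topology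
open scoped ContDiff Manifold InnerProductSpace
open Crest.GeometryTopology.CoordMetric Crest.GeometryTopology.ChartCurvature
open Crest.Agent.R202.Tens
open Crest.Agent.R249.Pb40 Crest.Agent.R249.B3a40

noncomputable section

namespace Crest.Agent.R249.B3f40

section Nonneg

variable {n : ℕ} {M : Type*} [MetricSpace M] [ChartedSpace (EuclideanSpace ℝ (Fin n)) M]
  [IsManifold (𝓡 n) ∞ M]
  [RiemannianBundle (fun p : M => TangentSpace (𝓡 n) p)]
  [IsContMDiffRiemannianBundle (𝓡 n) ∞ (EuclideanSpace ℝ (Fin n)) (fun p : M => TangentSpace (𝓡 n) p)]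

local notation "𝔼" => EuclideanSpace ℝ (Fin n)

theorem secNumer_smul_right {g : MetricField n} {U : Set (EuclideanSpace ℝ (Fin n))}
    (hg : IsRiemannianOn g U) {x : 𝔼} (hx : x ∈ U) (u : 𝔼) (t : ℝ) : secNumer g x u (t • u) = 0 := by
  rw [secNumer_eq hg hx]
  have : curv (Gam g) x u (t • u) (t • u) = 0 := by
    unfold curv
    simp only [map_smul, smul_apply]
    simp
  rw [this]; simp

theorem secNumer_zero_left {g : MetricField n} {U : Set (EuclideanSpace ℝ (Fin n))}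
    (hg : IsRiemannianOn g U) {x : 𝔼} (hx : x ∈ U) (v : 𝔼) : secNumer g x 0 v = 0 := by
  rw [secNumer_eq hg hx]
  simp

/-- a dependent pair has zero curvature numerator -/
theorem secNumer_eq_zero_of_gramDet (x : M) {u v : 𝔼}
    (h : ¬ 0 < gramDet (chartMetric n M x) (chartCentre n M x) u v) :
    secNumer (chartMetric n M x) (chartCentre n M x) u v = 0 := by
  obtain ⟨L, h1, -⟩ := exists_frame (n := n) x
  have hg := Crest.Agent.R247.Bo84.isRiemannianOn_chartMetric (n := n) x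
  have ha : chartCentre n M x ∈ (chartAt 𝔼 x).target := mem_chart_target 𝔼 x
  obtain ⟨u', rfl⟩ := L.surjective u
  obtain ⟨v', rfl⟩ := L.surjective v
  rw [gramDet_eq, h1, h1, h1, real_inner_self_eq_norm_sq, real_inner_self_eq_norm_sq] at h
  by_cases hu : u' = 0
  · rw [hu, map_zero]
    exact secNumer_zero_left hg ha _
  · have hu0 : 0 < ‖u'‖ := norm_pos_iff.2 hu
    have h2 : v' = (⟪u', v'⟫_ℝ / ‖u'‖ ^ 2) • u' := by
      have h3 : ‖v' - (⟪u', v'⟫_ℝ / ‖u'‖ ^ 2) • u'‖ ^ 2 ≤ 0 := by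
        rw [norm_sub_sq_real, real_inner_smul_right, norm_smul, real_inner_comm u' v', mul_pow,
          Real.norm_eq_abs, sq_abs]
        have h4 : ‖v'‖ ^ 2 - 2 * (⟪u', v'⟫_ℝ / ‖u'‖ ^ 2 * ⟪u', v'⟫_ℝ) +
            (⟪u', v'⟫_ℝ / ‖u'‖ ^ 2) ^ 2 * ‖u'‖ ^ 2 =
            (‖u'‖ ^ 2 * ‖v'‖ ^ 2 - ⟪u', v'⟫_ℝ ^ 2) / ‖u'‖ ^ 2 := by
          field_simp
          ring
        rw [h4]
        exact div_nonpos_of_nonpos_of_nonneg (not_lt.1 h) (by positivity)
      have h5 : ‖v' - (⟪u', v'⟫_ℝ / ‖u'‖ ^ 2) • u'‖ = 0 := by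
        have := sq_nonneg ‖v' - (⟪u', v'⟫_ℝ / ‖u'‖ ^ 2) • u'‖
        nlinarith
      exact sub_eq_zero.1 (norm_eq_zero.1 h5)
    rw [h2, map_smul]
    exact secNumer_smul_right hg ha _ _

theorem nonneg_of_pos (hK : HasPosSectionalCurvature n M) : HasNonnegSectionalCurvature n M := by
  intro x u v
  by_cases h : 0 < gramDet (chartMetric n M x) (chartCentre n M x) u v
  · exact (hK x u v h).le
  · rw [secNumer_eq_zero_of_gramDet x h]

end Nonneg

section Four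

variable {M : Type*} [MetricSpace M] [ChartedSpace (EuclideanSpace ℝ (Fin 4)) M]
  [IsManifold 𝓘(ℝ, EuclideanSpace ℝ (Fin 4)) ∞ M] [CompactSpace M] [ConnectedSpace M]
  [RiemannianBundle (fun x : M => TangentSpace 𝓘(ℝ, EuclideanSpace ℝ (Fin 4)) x)]
  [IsContMDiffRiemannianBundle 𝓘(ℝ, EuclideanSpace ℝ (Fin 4)) ∞ (EuclideanSpace ℝ (Fin 4))
    (fun x : M => TangentSpace 𝓘(ℝ, EuclideanSpace ℝ (Fin 4)) x)]
  [IsRiemannianManifold 𝓘(ℝ, EuclideanSpace ℝ (Fin 4)) M]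

theorem pos_of_sphere {a : ℝ} (h : IsLocallyCoveredByRoundSphere M 4 a) :
    HasPosSectionalCurvature 4 M := by
  intro x u v huv
  rw [secNumer_of_sphere h x]
  exact mul_pos h.1 huv

theorem pos_of_proj {a : ℝ} (h : IsLocallyCoveredByComplexProjective M 2 a) :
    HasPosSectionalCurvature 4 M := by
  intro x u v huv
  exact (mul_pos h.1 huv).trans_le (le_secNumer_of_proj (N := 4) (m := 2) rfl h x u v)

theorem not_pos_of_prod {a : ℝ} (h : IsLocallyCoveredBySphereProduct M a) :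
    ¬ HasPosSectionalCurvature 4 M := by
  intro hK
  obtain ⟨x⟩ : Nonempty M := inferInstance
  obtain ⟨u, v, h1, h2⟩ := exists_zero_of_prod (N := 4) rfl h x
  exact (hK x u v h1).ne' h2

/-- S0384 from the conclusion of S0383 -/
theorem s384_of {c : ℝ} (hE : IsEinsteinWith 4 M c)
    (h383 : ∃ a : ℝ, 0 < a ∧ (IsLocallyCoveredByRoundSphere M 4 a ∨
      IsLocallyCoveredByComplexProjective M 2 a ∨ IsLocallyCoveredBySphereProduct M a))
    (h0 : ∃ x : M, ∃ u v : EuclideanSpace ℝ (Fin 4),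
      0 < gramDet (chartMetric 4 M x) (chartCentre 4 M x) u v ∧
        secNumer (chartMetric 4 M x) (chartCentre 4 M x) u v = 0) :
    IsLocallyCoveredBySphereProduct M c := by
  obtain ⟨a, -, h | h | h⟩ := h383
  · obtain ⟨x, u, v, h1, h2⟩ := h0
    exact absurd h2 (pos_of_sphere h x u v h1).ne'
  · obtain ⟨x, u, v, h1, h2⟩ := h0
    exact absurd h2 (pos_of_proj h x u v h1).ne'
  · rw [einstein_of_prod (N := 4) rfl h hE]
    exact h

/-- S0385 from S0383 and the global theorems for the round and the projective case -/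
theorem s385_of (hE : IsEinstein 4 M) (hK : HasPosSectionalCurvature 4 M)
    (h383 : ∀ c : ℝ, 0 < c → IsEinsteinWith 4 M c → HasNonnegSectionalCurvature 4 M →
      ∃ a : ℝ, 0 < a ∧ (IsLocallyCoveredByRoundSphere M 4 a ∨
        IsLocallyCoveredByComplexProjective M 2 a ∨ IsLocallyCoveredBySphereProduct M a))
    (T1 : ∀ a : ℝ, IsLocallyCoveredByRoundSphere M 4 a →
      IsHomotheticToRoundSphere M 4 a ∨ IsHomotheticToRealProjective M 4 a)
    (T2 : ∀ a : ℝ, IsLocallyCoveredByComplexProjective M 2 a → IsHomotheticToComplexProjective M 2 a) :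
    ∃ a : ℝ, 0 < a ∧ (IsHomotheticToRoundSphere M 4 a ∨
      IsHomotheticToComplexProjective M 2 a ∨ IsHomotheticToRealProjective M 4 a) := by
  obtain ⟨c, hc⟩ := hE
  have hpos : 0 < c := einstein_pos (n := 4) (by norm_num) hc hK
  obtain ⟨a, ha, h | h | h⟩ := h383 c hpos hc (nonneg_of_pos hK)
  · refine ⟨a, ha, ?_⟩
    rcases T1 a h with h1 | h1
    · exact Or.inl h1
    · exact Or.inr (Or.inr h1)
  · exact ⟨a, ha, Or.inr (Or.inl (T2 a h))⟩
  · exact absurd hK (not_pos_of_prod h)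

end Four

end Crest.Agent.R249.B3f40
end
end

-- ▼ part R249/Bc_285

/-!
# R249 (helper285): T-III and the assembly of S0383 from ST and T-I

`tIII : TIII Qp RP`; `germ_data` : the hypotheses of `Par6_493` from the functions on `M`;
`s0383Oriented_of_TI`.
-/

set_option autoImplicit false
set_option maxSynthPendingDepth 3

open Filter Topology Set Bundle
open scoped ContDiff Manifold
open Crest.GeometryTopology.CoordMetric Crest.GeometryTopology.ChartCurvature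
open Crest.Agent.R202.Tens Crest.Agent.R247.Bo84 Crest.Agent.R249.FrmB_285
open Crest.Agent.R249.FrmC_285 Crest.Agent.R249.FrmD_285 Crest.Agent.R249.OriD_285
open Crest.Agent.R249.Fr129 Crest.Agent.R249.Sg129
open Crest.Agent.R249.Trw_285 Crest.Agent.R249.Trx_285 Crest.Agent.R249.Qr_285

noncomputable section

namespace Crest.Agent.R249.Bc_285

local notation "E4" => EuclideanSpace ℝ (Fin 4)

section

variable {M : Type*} [TopologicalSpace M] [ChartedSpace (EuclideanSpace ℝ (Fin 4)) M]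
  [IsManifold 𝓘(ℝ, EuclideanSpace ℝ (Fin 4)) ∞ M]
  [RiemannianBundle (fun x : M => TangentSpace 𝓘(ℝ, EuclideanSpace ℝ (Fin 4)) x)]
  [IsContMDiffRiemannianBundle 𝓘(ℝ, EuclideanSpace ℝ (Fin 4)) ∞ (EuclideanSpace ℝ (Fin 4))
      (fun x : M => TangentSpace 𝓘(ℝ, EuclideanSpace ℝ (Fin 4)) x)]

theorem mLap_const {f : M → ℝ} {a : ℝ} (h : ∀ x, f x = a) (p : M) : mLap 4 f p = 0 := by
  have h1 : inCh 4 p f = fun _ => a := by
    funext y
    exact h _
  rw [mLap, h1, lap_const]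

/-- the ring data of one positive orthonormal frame germ at every point. -/
theorem germ_data (hO : Oriented 4 M) (c : ℝ) (p : M) :
    ∃ e : Fin 4 → E4 → E4,
      ∃ h : ONF (chartMetric 4 M p) (chartAt E4 p).target (chartAt E4 p p) e,
        ev (h.frameOf.qq (algebraMap ℝ _ c)) = mInv (Qp c) p ∧
        ev (h.frameOf.lap0 (h.frameOf.qq (algebraMap ℝ _ c))) = mLap 4 (mInv (Qp c)) p ∧
        ev (h.frameOf.flip.qq (algebraMap ℝ _ c)) = mInv (Qm Qp c) p ∧
        ev (h.frameOf.lap0 (h.frameOf.flip.qq (algebraMap ℝ _ c))) =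
          mLap 4 (mInv (Qm Qp c)) p := by
  obtain ⟨e, h, hpos⟩ := exists_onf (n := 4) p (centre_mem (n := 4) p)
  obtain ⟨h1, h2, -⟩ := dict hO (qfp c) p h hpos
  obtain ⟨h3, h4, -⟩ := dict hO (qfm c) p h hpos
  rw [cond_lap0] at h2 h4
  exact ⟨e, h, h1, h2, h3, h4⟩

end

/-- **T-III.** -/
theorem tIII : TIII Qp B2Fin_474.RP := by
  intro N _ _ _ _ _ _ _ _ hO c hc hE hK hq
  refine Par6_493.caseIII hc hE fun p => ?_
  obtain ⟨e, h, h1, h2, h3, h4⟩ := germ_data hO c p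
  refine ⟨e, h, ?_, ?_, ?_, ?_⟩
  · rw [h1]; exact (hq p).1
  · rw [h2]; exact mLap_const (fun x => (hq x).1) p
  · rw [h3]; exact (hq p).2
  · rw [h4]; exact mLap_const (fun x => (hq x).2) p

/-- **S0383 (oriented) from part A and T-I.** -/
theorem s0383Oriented_of_TI (hST : Top49.ST.{0}) (hTI : TI Qp B2Fin_474.RS B2Fin_474.RC) :
    OriE_285.S0383Oriented :=
  Asm49.s0383Oriented_of hST (bc_of' tIII hTI) B2Fin_474.covS B2Fin_474.covC B2Fin_474.covP

end Crest.Agent.R249.Bc_285
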