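import Crest.Agent.R249.Calc2_806

-- ▼ part R249/Pen_806
section

/-!
R249, part A2 (helper806), file 3: the penalised pair (sections 3, 4 of BP-A2 v2).

* `mono_iter` : finite monotone iteration for `L u = F(x, u)` between a sub- and a supersolution;
* `step` : one penalised problem;
* `Dat`, `PenSol`, `exists_pen` : the penalised pair.
-/

set_option autoImplicit false
set_option linter.unusedVariables false
set_option linter.unusedSectionVars false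

open MeasureTheory Set Filter Topology Matrix
open scoped ContDiff

noncomputable section

namespace Crest.Agent.R249.Pen_806

open Calc_806 Calc_806.Calc

variable {X : Type*} [TopologicalSpace X] [CompactSpace X] [MeasurableSpace X]
  [OpensMeasurableSpace X] {μ : Measure X} [IsFiniteMeasure μ]

/-! ### monotone iteration -/

/-- **finite monotone iteration**. -/
theorem mono_iter (C : Calc X μ) {F : X → ℝ → ℝ} {u₀ u₁ : X → ℝ} (h₀ : C.Sm u₀) (h₁ : C.Sm u₁)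
    (h01 : ∀ x, u₀ x ≤ u₁ x)
    (hF : ∀ u : X → ℝ, C.Sm u → (∀ x, u₀ x ≤ u x) → (∀ x, u x ≤ u₁ x) →
      C.Sm (fun x => F x (u x)))
    {c : ℝ} (hc : 0 < c)
    (hlip : ∀ x, ∀ s t, u₀ x ≤ s → s ≤ t → t ≤ u₁ x → |F x t - F x s| ≤ c * (t - s))
    (hsub : ∀ x, F x (u₀ x) ≤ C.L u₀ x) (hsup : ∀ x, C.L u₁ x ≤ F x (u₁ x))
    {ε : ℝ} (hε : 0 < ε) :
    ∃ u r : X → ℝ, C.Sm u ∧ C.Sm r ∧ (∀ x, u₀ x ≤ u x) ∧ (∀ x, u x ≤ u₁ x) ∧
      (∀ x, C.L u x = F x (u x) + r x) ∧ (∀ x, r x ≤ 0) ∧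
      (∀ x, - (2 * c * (u₁ x - u₀ x)) ≤ r x) ∧ ∫ x, r x ^ 4 ∂μ ≤ ε := by
  classical
  let P : (X → ℝ) → Prop := fun u => C.Sm u ∧ (∀ x, u₀ x ≤ u x) ∧ (∀ x, u x ≤ u₁ x) ∧
    ∀ x, C.L u x ≤ F x (u x)
  -- one step
  have hstep : ∀ u : {u // P u}, ∃ v : {u // P u}, (∀ x, v.1 x ≤ u.1 x) ∧
      ∀ x, C.L v.1 x - c * v.1 x = F x (u.1 x) - c * u.1 x := by
    rintro ⟨u, hu, hu0, hu1, hus⟩
    obtain ⟨v, hv, hvL⟩ := C.resolvent hc (sm_sub (hF u hu hu0 hu1) (sm_smul c hu))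
    have a1 : ∀ x, v x ≤ u x := by
      refine max_pr_sub hc hv hu fun x => ?_
      have e1 := hvL x
      have e2 := hus x
      linarith
    have a2 : ∀ x, u₀ x ≤ v x := by
      refine max_pr_sub hc h₀ hv fun x => ?_
      have e1 := hvL x
      have e2 := hsub x
      have e3 := (abs_le.1 (hlip x (u₀ x) (u x) le_rfl (hu0 x) (hu1 x))).2
      linarith
    refine ⟨⟨v, hv, a2, fun x => (a1 x).trans (hu1 x), fun x => ?_⟩, a1, hvL⟩
    have e1 := hvL x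
    have e3 := (abs_le.1 (hlip x (v x) (u x) (a2 x) (a1 x) (hu1 x))).2
    linarith
  choose nx hnx1 hnx2 using hstep
  let v : ℕ → {u // P u} := fun k => nx^[k] ⟨u₁, h₁, h01, fun _ => le_rfl, hsup⟩
  have hv : ∀ k, v (k + 1) = nx (v k) := fun k => Function.iterate_succ_apply' nx k _
  have hanti : ∀ x, Antitone fun k => (v k).1 x := fun x => by
    refine antitone_nat_of_succ_le fun k => ?_
    change (v (k + 1)).1 x ≤ (v k).1 x
    rw [hv k]
    exact hnx1 (v k) x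
  have hconv : ∀ x, Tendsto (fun k => (v k).1 x - (v (k + 1)).1 x) atTop (𝓝 0) := fun x => by
    have hb : BddBelow (range fun k => (v k).1 x) :=
      ⟨u₀ x, by rintro _ ⟨k, rfl⟩; exact (v k).2.2.1 x⟩
    have h1 := tendsto_atTop_ciInf (hanti x) hb
    have h2 := h1.sub (h1.comp (tendsto_add_atTop_nat 1))
    simpa using h2
  let r : ℕ → X → ℝ := fun k x =>
    (F x ((v k).1 x) - c * (v k).1 x) - (F x ((v (k + 1)).1 x) - c * (v (k + 1)).1 x)
  have hr_sm : ∀ k, C.Sm (r k) := fun k =>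
    sm_sub (sm_sub (hF _ (v k).2.1 (v k).2.2.1 (v k).2.2.2.1) (sm_smul c (v k).2.1))
      (sm_sub (hF _ (v (k+1)).2.1 (v (k+1)).2.2.1 (v (k+1)).2.2.2.1) (sm_smul c (v (k+1)).2.1))
  have hr0 : ∀ k x, r k x ≤ 0 := fun k x => by
    have e3 := (abs_le.1 (hlip x ((v (k+1)).1 x) ((v k).1 x) ((v (k+1)).2.2.1 x)
      (hanti x (Nat.le_succ k)) ((v k).2.2.2.1 x))).2
    simp only [r]
    linarith
  have hr1 : ∀ k x, -(2 * c * ((v k).1 x - (v (k + 1)).1 x)) ≤ r k x := fun k x => by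
    have e3 := (abs_le.1 (hlip x ((v (k+1)).1 x) ((v k).1 x) ((v (k+1)).2.2.1 x)
      (hanti x (Nat.le_succ k)) ((v k).2.2.2.1 x))).1
    simp only [r]
    linarith
  have hr2 : ∀ k x, -(2 * c * (u₁ x - u₀ x)) ≤ r k x := fun k x => by
    refine le_trans ?_ (hr1 k x)
    have e1 := (v k).2.2.2.1 x
    have e2 := (v (k+1)).2.2.1 x
    nlinarith
  obtain ⟨K, hK0, hK⟩ := exists_bound (C := C) (sm_sub h₁ h₀)
  have hlim : Tendsto (fun k => ∫ x, r k x ^ 4 ∂μ) atTop (𝓝 (∫ _, (0:ℝ) ∂μ)) := by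
    refine tendsto_integral_of_dominated_convergence (fun _ => (2 * c * K) ^ 4) ?_ ?_ ?_ ?_
    · exact fun k => (integrable_sm (sm_pow (hr_sm k) 4)).aestronglyMeasurable
    · exact integrable_const _
    · refine fun k => Eventually.of_forall fun x => ?_
      rw [Real.norm_eq_abs, abs_pow]
      refine pow_le_pow_left₀ (abs_nonneg _) ?_ 4
      rw [abs_of_nonpos (hr0 k x)]
      have e1 := hr2 k x
      have e2 : u₁ x - u₀ x ≤ K := (le_abs_self _).trans (hK x)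
      nlinarith
    · refine Eventually.of_forall fun x => ?_
      have h1 : Tendsto (fun k => r k x) atTop (𝓝 0) := by
        have h2 : Tendsto (fun k => -(2 * c * ((v k).1 x - (v (k + 1)).1 x))) atTop (𝓝 0) := by
          have := ((hconv x).const_mul (2 * c)).neg
          simpa using this
        exact tendsto_of_tendsto_of_tendsto_of_le_of_le h2 tendsto_const_nhds
          (fun k => hr1 k x) (fun k => hr0 k x)
      have h3 := h1.pow 4
      simpa using h3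
  rw [integral_zero] at hlim
  obtain ⟨k, hk⟩ := ((tendsto_order.1 hlim).2 ε hε).exists
  refine ⟨(v (k + 1)).1, r k, (v (k+1)).2.1, hr_sm k, (v (k+1)).2.2.1, (v (k+1)).2.2.2.1, ?_,
    hr0 k, hr2 k, hk.le⟩
  intro x
  have e1 := hnx2 (v k) x
  rw [← hv k] at e1
  simp only [r]
  linarith

/-! ### the nonlinearity -/

/-- the nonlinearity with the relative error of the regularisation. -/
def fd (d u : ℝ) : ℝ := u * ((2 / 3) * (1 - u ^ 3) - (6 * d + (2 / 3) * d ^ 2 / u ^ 6))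






/-! ### cut-offs -/

lemma exists_st_lip : ∃ K : ℝ, 0 < K ∧ ∀ s t : ℝ,
    |Real.smoothTransition s - Real.smoothTransition t| ≤ K * |s - t| := by
  have hc : ContDiff ℝ 1 Real.smoothTransition := Real.smoothTransition.contDiff
  have hd : Continuous (deriv Real.smoothTransition) := hc.continuous_deriv le_rfl
  have hz : ∀ x ∉ Icc (0:ℝ) 1, deriv Real.smoothTransition x = 0 := by
    intro x hx
    rw [mem_Icc, not_and_or, not_le, not_le] at hx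
    rcases hx with hx | hx
    · have : Real.smoothTransition =ᶠ[𝓝 x] fun _ => 0 := by
        filter_upwards [Iio_mem_nhds hx] with y hy
        exact Real.smoothTransition.zero_of_nonpos (le_of_lt hy)
      rw [this.deriv_eq]; simp
    · have : Real.smoothTransition =ᶠ[𝓝 x] fun _ => 1 := by
        filter_upwards [Ioi_mem_nhds hx] with y hy
        exact Real.smoothTransition.one_of_one_le (le_of_lt hy)
      rw [this.deriv_eq]; simp
  obtain ⟨K, hK⟩ := (isCompact_Icc (a := (0:ℝ)) (b := 1)).exists_bound_of_continuousOn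
    hd.continuousOn
  refine ⟨max K 1, lt_of_lt_of_le one_pos (le_max_right _ _), fun s t => ?_⟩
  have h1 : ∀ x ∈ (univ : Set ℝ), ‖deriv Real.smoothTransition x‖ ≤ max K 1 := by
    intro x _
    by_cases hx : x ∈ Icc (0:ℝ) 1
    · exact (hK x hx).trans (le_max_left _ _)
    · rw [hz x hx, norm_zero]; exact le_trans zero_le_one (le_max_right _ _)
  have h2 := Convex.norm_image_sub_le_of_norm_deriv_le (𝕜 := ℝ) (f := Real.smoothTransition)
    (fun x _ => (hc.differentiable one_ne_zero).differentiableAt) h1 convex_univ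
    (mem_univ t) (mem_univ s)
  simpa [Real.norm_eq_abs] using h2

/-- smoothed positive part -/
def ps (e a : ℝ) : ℝ := (a + Real.sqrt (a ^ 2 + e ^ 2)) / 2

lemma ps_ge (e a : ℝ) : max 0 a ≤ ps e a := by
  have h1 : |a| ≤ Real.sqrt (a ^ 2 + e ^ 2) := Real.abs_le_sqrt (by nlinarith [sq_nonneg e])
  unfold ps
  rcases abs_cases a with h | h
  · refine max_le ?_ ?_ <;> linarith [h.1, h.2]
  · refine max_le ?_ ?_ <;> linarith [h.1, h.2]

lemma ps_nonneg (e a : ℝ) : 0 ≤ ps e a := (le_max_left _ _).trans (ps_ge e a)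

lemma ps_le {e : ℝ} (he : 0 ≤ e) (a : ℝ) : ps e a ≤ max 0 a + e := by
  have h1 : Real.sqrt (a ^ 2 + e ^ 2) ≤ |a| + e := by
    rw [Real.sqrt_le_left (by positivity)]
    nlinarith [abs_nonneg a, sq_abs a, mul_nonneg (abs_nonneg a) he]
  unfold ps
  rcases abs_cases a with h | h
  · have : max 0 a = a := max_eq_right h.2
    rw [this]; linarith [h.1]
  · have : max 0 a = 0 := max_eq_left h.2.le
    rw [this]; linarith [h.1]

lemma sm_ps {C : Calc X μ} {e : ℝ} (he : 0 < e) {a : X → ℝ} (ha : C.Sm a) :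
    C.Sm (fun x => ps e (a x)) := by
  have h1 : C.Sm (fun x => Real.sqrt (a x ^ 2 + e ^ 2)) :=
    sm_sqrt (sm_add (sm_pow ha 2) (sm_const _)) (fun x => by positivity)
  have h2 := sm_smul (C := C) (1 / 2) (sm_add ha h1)
  have h3 : (fun x => ps e (a x)) = fun x => (1 / 2) * (a x + Real.sqrt (a x ^ 2 + e ^ 2)) := by
    funext x; unfold ps; ring
  rw [h3]; exact h2

/-! ### one penalised problem -/


/-! ### the penalised pair -/

/-- the data: a pair of regularised subsolutions. -/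
structure Dat (C : Calc X μ) (d : ℝ) (φ₀ ψ₀ : X → ℝ) : Prop where
  sφ : C.Sm φ₀
  sψ : C.Sm ψ₀
  φpos : ∀ x, 0 < φ₀ x
  ψpos : ∀ x, 0 < ψ₀ x
  φlow : ∀ x, d / 2 ≤ φ₀ x ^ 3
  ψlow : ∀ x, d / 2 ≤ ψ₀ x ^ 3
  sum_le : ∀ x, φ₀ x ^ 3 + ψ₀ x ^ 3 ≤ 2 - 4 * d
  subφ : ∀ x, fd d (φ₀ x) ≤ C.L φ₀ x
  subψ : ∀ x, fd d (ψ₀ x) ≤ C.L ψ₀ x

/-- the penalised pair. -/
structure PenSol (C : Calc X μ) (φ₀ ψ₀ : X → ℝ) (d K e ε : ℝ) where
  φ : X → ℝ
  ψ : X → ℝ
  h₁ : X → ℝ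
  h₂ : X → ℝ
  m₁ : X → ℝ
  m₂ : X → ℝ
  g₁ : X → ℝ
  g₂ : X → ℝ
  r₁ : X → ℝ
  r₂ : X → ℝ
  sφ : C.Sm φ
  sψ : C.Sm ψ
  sh₁ : C.Sm h₁
  sh₂ : C.Sm h₂
  sm₁ : C.Sm m₁
  sm₂ : C.Sm m₂
  sg₁ : C.Sm g₁
  sg₂ : C.Sm g₂
  sr₁ : C.Sm r₁
  sr₂ : C.Sm r₂
  h₁pos : ∀ x, 0 < h₁ x
  h₂pos : ∀ x, 0 < h₂ x
  h₁cube : ∀ x, h₁ x ^ 3 = 2 - 40 * e - ψ₀ x ^ 3
  h₂cube : ∀ x, h₂ x ^ 3 = 2 - φ x ^ 3
  φge : ∀ x, φ₀ x ≤ φ x
  φle : ∀ x, φ x ≤ h₁ x + 2 * e
  ψge : ∀ x, ψ₀ x ≤ ψ x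
  ψle : ∀ x, ψ x ≤ h₂ x + 2 * e
  eqφ : ∀ x, C.L φ x = fd d (φ x) + m₁ x + g₁ x
  eqψ : ∀ x, C.L ψ x = fd d (ψ x) + m₂ x + g₂ x
  m₁nn : ∀ x, 0 ≤ m₁ x
  m₂nn : ∀ x, 0 ≤ m₂ x
  m₁le : ∀ x, m₁ x ≤ max 0 (C.L h₁ x - fd d (h₁ x)) + e
  m₂le : ∀ x, m₂ x ≤ max 0 (C.L h₂ x - fd d (h₂ x)) + e
  m₁sup : ∀ x, m₁ x ≠ 0 → h₁ x - φ x ≤ e
  m₂sup : ∀ x, m₂ x ≠ 0 → h₂ x - ψ x ≤ e
  g₁le : ∀ x, |g₁ x| ≤ K * e + |r₁ x|
  g₂le : ∀ x, |g₂ x| ≤ K * e + |r₂ x|
  r₁int : ∫ x, r₁ x ^ 4 ∂μ ≤ ε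
  r₂int : ∫ x, r₂ x ^ 4 ∂μ ≤ ε

lemma cube_rpow {a : ℝ} (ha : 0 ≤ a) : (a ^ (1 / 3 : ℝ)) ^ 3 = a := by
  rw [← Real.rpow_natCast, ← Real.rpow_mul ha]
  norm_num

lemma le_of_cube_le {a b : ℝ} (hb : 0 ≤ b) (h : a ^ 3 ≤ b ^ 3) : a ≤ b :=
  le_of_pow_le_pow_left₀ (by norm_num) hb h


end Crest.Agent.R249.Pen_806
end
end

-- ▼ part R249/Pen2_806

/-!
R249, part A2 (helper806), file 4: section 1 of BP-A2 v2 (the regularised subsolutions `reg d F`)
and the elementary properties (P1), (P2) of the penalised pair.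
-/

set_option autoImplicit false
set_option linter.unusedVariables false
set_option linter.unusedSectionVars false

open MeasureTheory Set Filter Topology Matrix
open scoped ContDiff

noncomputable section

namespace Crest.Agent.R249.Pen_806

open Calc_806 Calc_806.Calc

variable {X : Type*} [TopologicalSpace X] [CompactSpace X] [MeasurableSpace X]
  [OpensMeasurableSpace X] {μ : Measure X} [IsFiniteMeasure μ]

/-! ### the regularisation -/

/-- the hypothesis of (ST) in normalised form, `F = 3 |W|² / (2 lam²)`. -/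
structure STC (C : Calc X μ) (F : X → ℝ) : Prop where
  smooth : C.Sm F
  nonneg : ∀ x, 0 ≤ F x
  ineq : ∀ x, 0 < F x →
    (5 / 6) * (C.G F F x / F x) + 4 * F x * (1 - Real.sqrt (F x)) ≤ C.L F x
  zero : ∀ x, F x = 0 → C.G F F x = 0 ∧ 0 ≤ C.L F x

/-- the factor `θ³` -/
def th3 (d : ℝ) : ℝ := (2 - 4 * d) / (2 + 2 * d)

/-- the regularised function `θ (F + d²)^(1/6)` -/
def reg (d : ℝ) (F : X → ℝ) (x : X) : ℝ := (th3 d) ^ (1 / 3 : ℝ) * (F x + d ^ 2) ^ (1 / 6 : ℝ)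

lemma th3_ge {d : ℝ} (hd : 0 < d) (hd8 : d ≤ 1 / 8) : 1 / 2 ≤ th3 d := by
  unfold th3
  rw [le_div_iff₀ (by positivity)]
  linarith

lemma th3_le {d : ℝ} (hd : 0 < d) : th3 d ≤ 1 := by
  unfold th3
  rw [div_le_one (by positivity)]
  linarith

lemma one_sub_th3 {d : ℝ} (hd : 0 < d) : 1 - th3 d ≤ 3 * d := by
  unfold th3
  rw [sub_le_iff_le_add, ← sub_le_iff_le_add', le_div_iff₀ (by positivity)]
  nlinarith

lemma six_rpow {a : ℝ} (ha : 0 ≤ a) : (a ^ (1 / 6 : ℝ)) ^ 3 = Real.sqrt a := by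
  rw [← Real.rpow_natCast, ← Real.rpow_mul ha, Real.sqrt_eq_rpow]
  norm_num

lemma reg_pos {d : ℝ} (hd : 0 < d) (hd8 : d ≤ 1 / 8) {F : X → ℝ} (hF : ∀ x, 0 ≤ F x) (x : X) :
    0 < reg d F x := by
  have h1 := th3_ge hd hd8
  have h2 := hF x
  unfold reg
  positivity

lemma reg_cube {d : ℝ} (hd : 0 < d) (hd8 : d ≤ 1 / 8) {F : X → ℝ} (hF : ∀ x, 0 ≤ F x) (x : X) :
    reg d F x ^ 3 = th3 d * Real.sqrt (F x + d ^ 2) := by
  have h1 := th3_ge hd hd8
  have h2 := hF x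
  unfold reg
  rw [mul_pow, cube_rpow (by linarith), six_rpow (by positivity)]

lemma reg_six {d : ℝ} (hd : 0 < d) (hd8 : d ≤ 1 / 8) {F : X → ℝ} (hF : ∀ x, 0 ≤ F x) (x : X) :
    reg d F x ^ 6 = th3 d ^ 2 * (F x + d ^ 2) := by
  have h2 := hF x
  have e : reg d F x ^ 6 = (reg d F x ^ 3) ^ 2 := by ring
  rw [e, reg_cube hd hd8 hF, mul_pow, Real.sq_sqrt (by positivity)]

lemma sm_reg {C : Calc X μ} {d : ℝ} (hd : 0 < d) {F : X → ℝ} (hF : ∀ x, 0 ≤ F x)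
    (sF : C.Sm F) : C.Sm (reg d F) := by
  refine sm_smul _ (sm_rpow (sm_add sF (sm_const _)) (fun x => ?_) _)
  have := hF x
  positivity

/-- the sixth power -/
lemma L_six {C : Calc X μ} {f : X → ℝ} (hf : C.Sm f) (x : X) :
    C.L (fun y => f y ^ 6) x = 6 * f x ^ 5 * C.L f x + 30 * f x ^ 4 * C.G f f x := by
  have h1 := L_comp' (C := C) (φ := fun p => p ^ 6) (contDiff_id.pow 6) hf x
  have e1 : deriv (fun p : ℝ => p ^ 6) = fun p => 6 * p ^ 5 := by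
    funext p; simp
  have e2 : deriv (deriv (fun p : ℝ => p ^ 6)) = fun p => 30 * p ^ 4 := by
    rw [e1]; funext p
    rw [deriv_const_mul _ (by fun_prop)]; simp; ring
  rw [h1, e2, e1]

lemma G_six {C : Calc X μ} {f : X → ℝ} (hf : C.Sm f) (x : X) :
    C.G (fun y => f y ^ 6) (fun y => f y ^ 6) x = 36 * f x ^ 10 * C.G f f x := by
  have e1 : deriv (fun p : ℝ => p ^ 6) = fun p => 6 * p ^ 5 := by
    funext p; simp
  rw [G_comp'_left (C := C) (φ := fun p => p ^ 6) (contDiff_id.pow 6) hf,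
    G_symm, G_comp'_left (C := C) (φ := fun p => p ^ 6) (contDiff_id.pow 6) hf, e1]
  ring

/-- **the differential inequality of the regularised function** -/
theorem reg_sub {C : Calc X μ} {d : ℝ} (hd : 0 < d) (hd8 : d ≤ 1 / 8) {F : X → ℝ} (H : STC C F)
    (h2 : ∀ x, Real.sqrt (F x) ≤ 2) (x : X) : fd d (reg d F x) ≤ C.L (reg d F) x := by
  have hF := H.nonneg x
  have hp := reg_pos hd hd8 H.nonneg x
  have t1 := th3_ge hd hd8
  have t2 := th3_le hd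
  have t3 := one_sub_th3 hd
  set φ : ℝ := reg d F x with hφ
  set w : ℝ := F x + d ^ 2 with hw
  have hw0 : 0 < w := by positivity
  have sR := sm_reg (C := C) hd H.nonneg H.smooth
  -- the two identities
  have e0 : (fun y => reg d F y ^ 6) = fun y => th3 d ^ 2 * (F y + d ^ 2) := by
    funext y; exact reg_six hd hd8 H.nonneg y
  have hL := L_six (C := C) sR x
  have hG := G_six (C := C) sR x
  rw [e0] at hL hG
  have sFd : C.Sm (fun y => F y + d ^ 2) := sm_add H.smooth (sm_const _)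
  rw [L_smul _ sFd, C.L_add H.smooth (sm_const _), C.L_const, add_zero] at hL
  rw [G_smul_left _ sFd, G_symm, G_smul_left _ sFd, G_add_left H.smooth (sm_const _), G_const_left,
    add_zero, G_symm F, G_add_left H.smooth (sm_const _), G_const_left, add_zero] at hG
  rw [← hφ] at hL hG
  have h6 : φ ^ 6 = th3 d ^ 2 * w := reg_six hd hd8 H.nonneg x
  have h3 : φ ^ 3 = th3 d * Real.sqrt w := reg_cube hd hd8 H.nonneg x
  -- `30 φ⁴ G = (5/6) θ⁶ G(F,F) / w`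
  have hG2 : 30 * φ ^ 4 * C.G (reg d F) (reg d F) x = (5 / 6) * th3 d ^ 2 * (C.G F F x / w) := by
    have e1 : 36 * φ ^ 10 * C.G (reg d F) (reg d F) x =
        φ ^ 6 * (36 * φ ^ 4 * C.G (reg d F) (reg d F) x) := by ring
    have ht : (th3 d) ^ 2 ≠ 0 := by positivity
    rw [e1, h6] at hG
    have hG3 : th3 d ^ 2 * C.G F F x = w * (36 * φ ^ 4 * C.G (reg d F) (reg d F) x) := by
      refine mul_left_cancel₀ ht ?_
      linarith
    field_simp
    linarith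
  have hkey : 6 * φ ^ 5 * C.L (reg d F) x = th3 d ^ 2 * (C.L F x - (5 / 6) * (C.G F F x / w)) := by
    linarith
  -- the target
  have hfd : 6 * φ ^ 5 * fd d φ = th3 d ^ 2 * (4 * w * (1 - φ ^ 3) - 36 * d * w) - 4 * d ^ 2 := by
    have e1 : 6 * φ ^ 5 * fd d φ = φ ^ 6 * (4 * (1 - φ ^ 3) - 36 * d) - 4 * d ^ 2 := by
      unfold fd
      field_simp
      ring
    rw [e1, h6]; ring
  have hG0 : 0 ≤ C.G F F x := G_self_nonneg F x
  have hsw : Real.sqrt w ≤ 17 / 8 := by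
    have a1 : Real.sqrt w ≤ Real.sqrt (F x) + d := by
      rw [Real.sqrt_le_left (by positivity)]
      have := Real.sq_sqrt hF
      have h5 : 0 ≤ Real.sqrt (F x) * d := by positivity
      nlinarith
    have := h2 x
    linarith
  have hsw0 : 0 < Real.sqrt w := Real.sqrt_pos.2 hw0
  have key : 6 * φ ^ 5 * fd d φ ≤ 6 * φ ^ 5 * C.L (reg d F) x := by
    rw [hkey, hfd]
    have ht2 : th3 d ^ 2 ≤ 1 := by nlinarith
    have ht20 : 0 < th3 d ^ 2 := by positivity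
    rcases eq_or_lt_of_le hF with h0 | h0
    · -- `F = 0`
      obtain ⟨z1, z2⟩ := H.zero x h0.symm
      rw [z1]
      have hwd : w = d ^ 2 := by rw [hw, ← h0, zero_add]
      have h5 : 0 ≤ φ ^ 3 := by positivity
      have h7 : 4 * w * (1 - φ ^ 3) - 36 * d * w ≤ 4 * d ^ 2 := by
        rw [hwd]; nlinarith [sq_nonneg d, mul_nonneg (sq_nonneg d) h5, mul_nonneg hd.le (sq_nonneg d)]
      have h8 : th3 d ^ 2 * (4 * w * (1 - φ ^ 3) - 36 * d * w) ≤ th3 d ^ 2 * (4 * d ^ 2) :=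
        mul_le_mul_of_nonneg_left h7 ht20.le
      have h9 : th3 d ^ 2 * (4 * d ^ 2) ≤ 1 * (4 * d ^ 2) :=
        mul_le_mul_of_nonneg_right ht2 (by positivity)
      have h10 : 0 ≤ th3 d ^ 2 * (C.L F x - 5 / 6 * (0 / w)) := by
        rw [zero_div, mul_zero, sub_zero]; positivity
      linarith
    · have hin := H.ineq x h0
      have hdiv : C.G F F x / w ≤ C.G F F x / F x := by
        refine div_le_div_of_nonneg_left hG0 h0 ?_
        rw [hw]; nlinarith [sq_nonneg d]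
      have h7 : 4 * F x * (1 - Real.sqrt (F x)) ≤ C.L F x - (5 / 6) * (C.G F F x / w) := by linarith
      have h8 : Real.sqrt (F x) ≤ Real.sqrt w := Real.sqrt_le_sqrt (by rw [hw]; nlinarith [sq_nonneg d])
      have h9 : F x * Real.sqrt (F x) ≤ w * Real.sqrt w :=
        mul_le_mul (by rw [hw]; nlinarith [sq_nonneg d]) h8 (Real.sqrt_nonneg _) hw0.le
      have h10 : (1 - th3 d) * Real.sqrt w ≤ 9 * d := by
        have : (1 - th3 d) * Real.sqrt w ≤ 3 * d * (17 / 8) :=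
          mul_le_mul t3 hsw hsw0.le (by positivity)
        linarith
      have h11 : 4 * w * (1 - φ ^ 3) - 36 * d * w - 4 * d ^ 2 ≤ 4 * F x * (1 - Real.sqrt (F x)) := by
        rw [h3]
        have e2 : 4 * F x * (1 - Real.sqrt (F x)) -
            (4 * w * (1 - th3 d * Real.sqrt w) - 36 * d * w - 4 * d ^ 2) =
            4 * (w * Real.sqrt w - F x * Real.sqrt (F x)) +
              4 * w * (9 * d - (1 - th3 d) * Real.sqrt w) := by
          rw [hw]; ring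
        have h12 : 0 ≤ 4 * w * (9 * d - (1 - th3 d) * Real.sqrt w) :=
          mul_nonneg (by positivity) (by linarith)
        linarith
      have h13 : th3 d ^ 2 * (4 * w * (1 - φ ^ 3) - 36 * d * w - 4 * d ^ 2) ≤
          th3 d ^ 2 * (C.L F x - (5 / 6) * (C.G F F x / w)) :=
        mul_le_mul_of_nonneg_left (h11.trans h7) ht20.le
      have h14 : th3 d ^ 2 * (4 * d ^ 2) ≤ 1 * (4 * d ^ 2) :=
        mul_le_mul_of_nonneg_right ht2 (by positivity)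
      have e3 : th3 d ^ 2 * (4 * w * (1 - φ ^ 3) - 36 * d * w - 4 * d ^ 2) =
          th3 d ^ 2 * (4 * w * (1 - φ ^ 3) - 36 * d * w) - th3 d ^ 2 * (4 * d ^ 2) := by ring
      linarith
  have hpos : 0 < 6 * φ ^ 5 := by positivity
  exact le_of_mul_le_mul_left key hpos

/-- **the data of the penalisation**, from the hypothesis of (ST). -/
theorem dat_of_STC {C : Calc X μ} {d : ℝ} (hd : 0 < d) (hd8 : d ≤ 1 / 8) {F₁ F₂ : X → ℝ}
    (H₁ : STC C F₁) (H₂ : STC C F₂) (hs : ∀ x, Real.sqrt (F₁ x) + Real.sqrt (F₂ x) ≤ 2) :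
    Dat C d (reg d F₁) (reg d F₂) := by
  have t1 := th3_ge hd hd8
  have low : ∀ F : X → ℝ, (∀ x, 0 ≤ F x) → ∀ x, d / 2 ≤ reg d F x ^ 3 := fun F hF x => by
    rw [reg_cube hd hd8 hF]
    have h1 : d ≤ Real.sqrt (F x + d ^ 2) := by
      refine Real.le_sqrt_of_sq_le ?_
      have := hF x; linarith
    nlinarith
  have b1 : ∀ x, Real.sqrt (F₁ x) ≤ 2 := fun x => by
    have := hs x; have := Real.sqrt_nonneg (F₂ x); linarith
  have b2 : ∀ x, Real.sqrt (F₂ x) ≤ 2 := fun x => by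
    have := hs x; have := Real.sqrt_nonneg (F₁ x); linarith
  have up : ∀ F : X → ℝ, (∀ x, 0 ≤ F x) → ∀ x,
      Real.sqrt (F x + d ^ 2) ≤ Real.sqrt (F x) + d := fun F hF x => by
    rw [Real.sqrt_le_left (by have := Real.sqrt_nonneg (F x); linarith)]
    have h1 := Real.sq_sqrt (hF x)
    have h5 : 0 ≤ Real.sqrt (F x) * d := by positivity
    nlinarith
  refine ⟨sm_reg hd H₁.nonneg H₁.smooth, sm_reg hd H₂.nonneg H₂.smooth,
    reg_pos hd hd8 H₁.nonneg, reg_pos hd hd8 H₂.nonneg, low F₁ H₁.nonneg, low F₂ H₂.nonneg,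
    fun x => ?_, reg_sub hd hd8 H₁ b1, reg_sub hd hd8 H₂ b2⟩
  rw [reg_cube hd hd8 H₁.nonneg, reg_cube hd hd8 H₂.nonneg, ← mul_add]
  have h1 := up F₁ H₁.nonneg x
  have h2 := up F₂ H₂.nonneg x
  have h3 := hs x
  have h4 : Real.sqrt (F₁ x + d ^ 2) + Real.sqrt (F₂ x + d ^ 2) ≤ 2 + 2 * d := by linarith
  calc th3 d * (Real.sqrt (F₁ x + d ^ 2) + Real.sqrt (F₂ x + d ^ 2)) ≤ th3 d * (2 + 2 * d) :=
        mul_le_mul_of_nonneg_left h4 (by linarith)
    _ = 2 - 4 * d := by unfold th3; field_simp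


/-! ### (P1), (P2) -/

section Props

variable {C : Calc X μ} {d K e ε : ℝ} {φ₀ ψ₀ : X → ℝ}

lemma cube_le_63 {u : ℝ} (hu : 0 ≤ u) (h : u ^ 3 ≤ 2) : u ≤ 63 / 50 :=
  le_of_cube_le (by norm_num) (h.trans (by norm_num))

lemma cub2 {e u : ℝ} (he : 0 ≤ e) (he1 : e ≤ 1 / 320) (hu : 0 ≤ u) (hu1 : u ≤ 63 / 50) :
    (u + 2 * e) ^ 3 ≤ u ^ 3 + 11 * e := by
  have a1 : u ^ 2 ≤ 1.5876 := by nlinarith
  have a2 : u * e ≤ 0.00394 := by nlinarith
  have a3 : e ^ 2 ≤ 0.00001 := by nlinarith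
  nlinarith [mul_le_mul_of_nonneg_left a1 he, mul_le_mul_of_nonneg_left a2 he,
    mul_le_mul_of_nonneg_left a3 he]

lemma cub1 {e u v : ℝ} (he : 0 ≤ e) (he1 : e ≤ 1 / 320) (hv : 0 ≤ v) (hu : 0 ≤ u)
    (hu1 : u ≤ 63 / 50) (h : u - v ≤ e) : u ^ 3 - v ^ 3 ≤ 5 * e := by
  rcases le_total u v with huv | huv
  · have := pow_le_pow_left₀ hu huv 3
    linarith
  · have e1 : u ^ 3 - v ^ 3 = (u - v) * (u ^ 2 + u * v + v ^ 2) := by ring
    have h1 : u ^ 2 + u * v + v ^ 2 ≤ 5 := by nlinarith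
    rw [e1]
    nlinarith [mul_nonneg hu hv, sq_nonneg u, sq_nonneg v]

variable (S : PenSol C φ₀ ψ₀ d K e ε) (D : Dat C d φ₀ ψ₀) (hd : 0 < d) (he : 0 < e)
  (he1 : e ≤ 1 / 320)
include D

lemma PenSol.φpos (x : X) : 0 < S.φ x := (D.φpos x).trans_le (S.φge x)

lemma PenSol.ψpos (x : X) : 0 < S.ψ x := (D.ψpos x).trans_le (S.ψge x)

lemma PenSol.φlow (x : X) : d / 2 ≤ S.φ x ^ 3 :=
  (D.φlow x).trans (pow_le_pow_left₀ (D.φpos x).le (S.φge x) 3)

lemma PenSol.ψlow (x : X) : d / 2 ≤ S.ψ x ^ 3 :=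
  (D.ψlow x).trans (pow_le_pow_left₀ (D.ψpos x).le (S.ψge x) 3)

include he

lemma PenSol.h₁u (x : X) : S.h₁ x ≤ 63 / 50 := cube_le_63 (S.h₁pos x).le (by
  rw [S.h₁cube x]; have := pow_pos (D.ψpos x) 3; linarith)

omit he in
lemma PenSol.h₂u (x : X) : S.h₂ x ≤ 63 / 50 := cube_le_63 (S.h₂pos x).le (by
  rw [S.h₂cube x]; have := pow_pos (S.φpos D x) 3; linarith)

include he1


/-- `ψ³ ≤ h₂³ + 11 e` -/
lemma PenSol.ψcub (x : X) : S.ψ x ^ 3 ≤ S.h₂ x ^ 3 + 11 * e :=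
  (pow_le_pow_left₀ (S.ψpos D x).le (S.ψle x) 3).trans
    (cub2 he.le he1 (S.h₂pos x).le (S.h₂u D x))

/-- (P1) `κ ≥ -11 e` -/
lemma PenSol.kap_ge (x : X) : -(11 * e) ≤ 2 - S.φ x ^ 3 - S.ψ x ^ 3 := by
  have h1 := S.ψcub D he he1 x
  rw [S.h₂cube x] at h1
  linarith

lemma PenSol.φu (x : X) : S.φ x ≤ 13 / 10 := by
  have := S.φle x; have := S.h₁u D he x; linarith

lemma PenSol.ψu (x : X) : S.ψ x ≤ 13 / 10 := by
  have := S.ψle x; have := S.h₂u D x; linarith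

/-- (P2) on the support of `m₂` -/
lemma PenSol.kap_le₂ (x : X) (h : S.m₂ x ≠ 0) : 2 - S.φ x ^ 3 - S.ψ x ^ 3 ≤ 5 * e := by
  have h1 := cub1 he.le he1 (S.ψpos D x).le (S.h₂pos x).le (S.h₂u D x) (S.m₂sup x h)
  rw [S.h₂cube x] at h1
  linarith

/-- on the support of `m₁`, `h₁³ - φ³ ≤ 5e` -/
lemma PenSol.v₁_le (x : X) (h : S.m₁ x ≠ 0) : S.h₁ x ^ 3 - S.φ x ^ 3 ≤ 5 * e :=
  cub1 he.le he1 (S.φpos D x).le (S.h₁pos x).le (S.h₁u D he x) (S.m₁sup x h)

/-- (P2) on the support of `m₁` -/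
lemma PenSol.kap_le₁ (x : X) (h : S.m₁ x ≠ 0) : 2 - S.φ x ^ 3 - S.ψ x ^ 3 ≤ 45 * e := by
  have h1 := S.v₁_le D he he1 x h
  rw [S.h₁cube x] at h1
  have h2 := pow_le_pow_left₀ (D.ψpos x).le (S.ψge x) 3
  linarith


end Props

end Crest.Agent.R249.Pen_806
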