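import Crest.Agent.R249.Lim3_621
import Crest.Agent.R249.Pen2_806

/-!
# Row 249, part A2 (BP-A2 section 9): the limit passage over `C : Calc X μ`

* `jt C φ ψ θ x` : the jet of the pair at `x`, `H = ℝ × Matrix` (`L φ` and the Hessian of the one
  species `θ`);
* `BdData` : what the penalised pair must satisfy (bounds with constant `A`, errors `≤ δ`);
* `limit_passage` : `∫ Om ≤ ∫ R + δ'`.
-/

set_option autoImplicit false
set_option linter.unusedVariables false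
set_option linter.unusedSectionVars false

open MeasureTheory Set Filter Topology Matrix
open scoped ContDiff

noncomputable section

namespace Crest.Agent.R249.Lim621

open Calc_806 Calc_806.Calc

attribute [local instance] Matrix.frobeniusNormedAddCommGroup Matrix.frobeniusNormedSpace

/-- the model tangent space -/
abbrev E4 : Type := EuclideanSpace ℝ (Fin 4)

/-- `L φ` and the Hessian of `θ` -/
abbrev H4 : Type := ℝ × Matrix (Fin 4) (Fin 4) ℝ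

/-- the "trace" -/
def trH : H4 →L[ℝ] ℝ := ContinuousLinearMap.fst ℝ ℝ (Matrix (Fin 4) (Fin 4) ℝ)

@[simp] theorem trH_apply (P : H4) : trH P = P.1 := rfl

/-- the element of trace one -/
def oneH : H4 := (1, 0)

theorem trH_one : trH oneH = 1 := rfl

/-- the symmetric ones -/
def SyH : Submodule ℝ H4 where
  carrier := {P | P.2.IsSymm}
  add_mem' := by
    intro P Q hP hQ
    exact hP.add hQ
  zero_mem' := by
    show (0 : Matrix (Fin 4) (Fin 4) ℝ).IsSymm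
    exact Matrix.isSymm_zero
  smul_mem' := by
    intro c P hP
    exact hP.smul c

theorem mem_SyH {P : H4} : P ∈ SyH ↔ P.2.IsSymm := Iff.rfl

theorem oneH_mem : oneH ∈ SyH := Matrix.isSymm_zero

section Int

variable {X : Type*} [MeasurableSpace X] {μ : Measure X}

theorem int_add3 {a b c : X → ℝ} (ha : Integrable a μ) (hb : Integrable b μ)
    (hc : Integrable c μ) : Integrable (fun x => a x + b x + c x) μ ∧
    ∫ x, (a x + b x + c x) ∂μ = ∫ x, a x ∂μ + ∫ x, b x ∂μ + ∫ x, c x ∂μ := by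
  have h1 : Integrable (fun x => a x + b x) μ := ha.add hb
  have h2 : Integrable (fun x => a x + b x + c x) μ := h1.add hc
  refine ⟨h2, ?_⟩
  rw [integral_add h1 hc, integral_add ha hb]

theorem int_add4 {a b c d : X → ℝ} (ha : Integrable a μ) (hb : Integrable b μ)
    (hc : Integrable c μ) (hd : Integrable d μ) :
    Integrable (fun x => a x + b x + c x + d x) μ ∧
    ∫ x, (a x + b x + c x + d x) ∂μ =
      ∫ x, a x ∂μ + ∫ x, b x ∂μ + ∫ x, c x ∂μ + ∫ x, d x ∂μ := by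
  obtain ⟨h1, h2⟩ := int_add3 ha hb hc
  have h3 : Integrable (fun x => a x + b x + c x + d x) μ := h1.add hd
  refine ⟨h3, ?_⟩
  rw [integral_add h1 hd, h2]

theorem int_add5 {a b c d e : X → ℝ} (ha : Integrable a μ) (hb : Integrable b μ)
    (hc : Integrable c μ) (hd : Integrable d μ) (he : Integrable e μ) :
    Integrable (fun x => a x + b x + c x + d x + e x) μ ∧
    ∫ x, (a x + b x + c x + d x + e x) ∂μ =
      ∫ x, a x ∂μ + ∫ x, b x ∂μ + ∫ x, c x ∂μ + ∫ x, d x ∂μ + ∫ x, e x ∂μ := by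
  obtain ⟨h1, h2⟩ := int_add4 ha hb hc hd
  have h3 : Integrable (fun x => a x + b x + c x + d x + e x) μ := h1.add he
  refine ⟨h3, ?_⟩
  rw [integral_add h1 he, h2]

/-- integration of the pointwise inequality -/
theorem int_er {Om V R w l e r r' : X → ℝ} {K θ : ℝ}
    (iOm : Integrable Om μ) (iV : Integrable V μ) (hV : ∫ x, V x ∂μ ≤ 0) (iR : Integrable R μ)
    (iZ : Integrable (fun x => (w x + e x + |r x| + |r' x|) ^ 2) μ)
    (il : Integrable (fun x => l x ^ 4) μ) (ie : Integrable (fun x => e x ^ 2) μ)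
    (ir : Integrable (fun x => r x ^ 2) μ) (ir' : Integrable (fun x => r' x ^ 2) μ)
    (h : ∀ x, Om x ≤ V x + R x + K * Er θ (w x + e x + |r x| + |r' x|) (l x) (e x) (r x) (r' x)) :
    ∫ x, Om x ∂μ ≤ ∫ x, R x ∂μ + K * (θ * ∫ x, (w x + e x + |r x| + |r' x|) ^ 2 ∂μ +
      (θ ^ 3)⁻¹ * (∫ x, l x ^ 4 ∂μ + ∫ x, e x ^ 2 ∂μ + ∫ x, r x ^ 2 ∂μ + ∫ x, r' x ^ 2 ∂μ)) := by
  obtain ⟨i4, e4⟩ := int_add4 il ie ir ir'
  have i5 := i4.const_mul ((θ ^ 3)⁻¹)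
  have iE : Integrable (fun x => Er θ (w x + e x + |r x| + |r' x|) (l x) (e x) (r x) (r' x)) μ := by
    unfold Er
    exact (iZ.const_mul θ).add i5
  have h2 : ∫ x, Er θ (w x + e x + |r x| + |r' x|) (l x) (e x) (r x) (r' x) ∂μ =
      θ * ∫ x, (w x + e x + |r x| + |r' x|) ^ 2 ∂μ +
      (θ ^ 3)⁻¹ * (∫ x, l x ^ 4 ∂μ + ∫ x, e x ^ 2 ∂μ + ∫ x, r x ^ 2 ∂μ + ∫ x, r' x ^ 2 ∂μ) := by
    unfold Er
    rw [integral_add (iZ.const_mul θ) i5, integral_const_mul, integral_const_mul, e4]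
  obtain ⟨i6, e6⟩ := int_add3 iV iR (iE.const_mul K)
  have h1 := integral_mono iOm i6 h
  rw [e6, integral_const_mul, h2] at h1
  linarith

end Int

variable {X : Type*} [TopologicalSpace X] [CompactSpace X] [MeasurableSpace X]
  [OpensMeasurableSpace X] {μ : Measure X} [IsFiniteMeasure μ]

/-- the jet of the pair `(φ, ψ)` at `x`, with the Hessian of `θ` -/
def jt (C : Calc X μ) (φ ψ θ : X → ℝ) (x : X) : Jet E4 H4 where
  f := φ x
  g := ψ x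
  p := WithLp.toLp 2 (C.D φ x)
  q := WithLp.toLp 2 (C.D ψ x)
  P := (C.L φ x, C.Hs θ x)
  Q := (C.L ψ x, 0)

theorem norm_sq_toLp (v : Fin 4 → ℝ) : ‖(WithLp.toLp 2 v : E4)‖ ^ 2 = v ⬝ᵥ v := by
  rw [EuclideanSpace.norm_sq_eq]
  simp only [dotProduct, Real.norm_eq_abs, sq_abs]
  refine Finset.sum_congr rfl fun i _ => ?_
  ring

theorem norm_p_sq (C : Calc X μ) (φ ψ θ : X → ℝ) (x : X) :
    ‖(jt C φ ψ θ x).p‖ ^ 2 = C.G φ φ x := norm_sq_toLp _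

theorem norm_q_sq (C : Calc X μ) (φ ψ θ : X → ℝ) (x : X) :
    ‖(jt C φ ψ θ x).q‖ ^ 2 = C.G ψ ψ x := norm_sq_toLp _

theorem norm_Hs (C : Calc X μ) (θ : X → ℝ) (x : X) :
    ‖C.Hs θ x‖ = Real.sqrt (C.Q θ x) := by
  rw [Matrix.frobenius_norm_def, Calc0.Q, Real.sqrt_eq_rpow]
  congr 1
  refine Finset.sum_congr rfl fun i _ => Finset.sum_congr rfl fun j _ => ?_
  rw [Real.rpow_two, Real.norm_eq_abs, sq_abs]

theorem W_jt_le {C : Calc X μ} {φ ψ θ : X → ℝ} (hθ : C.Sm θ) (x : X) :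
    (jt C φ ψ θ x).W ≤ 1 + C.G φ φ x + C.G ψ ψ x + |C.L φ x| + |C.L ψ x| +
      Real.sqrt (C.Rb θ x) := by
  have h1 : ‖(jt C φ ψ θ x).P‖ ≤ |C.L φ x| + Real.sqrt (C.Rb θ x) := by
    show ‖((C.L φ x, C.Hs θ x) : H4)‖ ≤ _
    rw [Prod.norm_def]
    apply max_le
    · show |C.L φ x| ≤ _
      have := Real.sqrt_nonneg (C.Rb θ x)
      linarith
    · show ‖C.Hs θ x‖ ≤ _
      rw [norm_Hs]
      have h2 := Real.sqrt_le_sqrt (Q_le_Rb hθ x)
      have h3 := abs_nonneg (C.L φ x)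
      linarith
  have h2 : ‖(jt C φ ψ θ x).Q‖ ≤ |C.L ψ x| := by
    show ‖((C.L ψ x, 0) : H4)‖ ≤ _
    rw [Prod.norm_def]
    apply max_le
    · exact le_rfl
    · show ‖(0 : Matrix (Fin 4) (Fin 4) ℝ)‖ ≤ _
      rw [norm_zero]
      exact abs_nonneg _
  unfold Jet.W
  rw [norm_p_sq, norm_q_sq]
  linarith

/-- `κ` -/
def kapf (φ ψ : X → ℝ) (x : X) : ℝ := 2 - (φ x ^ 3 + ψ x ^ 3)





/-- **what the penalised pair has to satisfy** -/
structure BdData (C : Calc X μ) (b c0 A δ : ℝ) (F : ℝ → ℝ) (φ ψ m m' r r' er : X → ℝ)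
    (ε : ℝ) : Prop where
  sφ : C.Sm φ
  sψ : C.Sm ψ
  φge : ∀ x, b ≤ φ x
  ψge : ∀ x, b ≤ ψ x
  ε0 : 0 ≤ ε
  ε12 : ε ≤ 1 / 2
  εδ : ε ≤ δ
  kap : ∀ x, -ε ≤ kapf φ ψ x
  eqφ : ∀ x, C.L φ x = F (φ x) + m x + r x
  eqψ : ∀ x, C.L ψ x = F (ψ x) + m' x + r' x
  m0 : ∀ x, 0 ≤ m x
  m0' : ∀ x, 0 ≤ m' x
  off : ∀ x, ε < kapf φ ψ x → m x = 0 ∧ m' x = 0
  er0 : ∀ x, 0 ≤ er x
  simplex : ∀ x, kapf φ ψ x ≤ ε → 3 * φ x ^ 2 * m x + 3 * ψ x ^ 2 * m' x ≤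
    max ((φ x ^ 3 - ψ x ^ 3) ^ 2 - 6 * (φ x * C.G φ φ x + ψ x * C.G ψ ψ x)) 0 + c0 + er x
  mr : AEStronglyMeasurable r μ
  mr' : AEStronglyMeasurable r' μ
  mer : AEStronglyMeasurable er μ
  ir : Integrable (fun x => r x ^ 2) μ
  ir' : Integrable (fun x => r' x ^ 2) μ
  ier : Integrable (fun x => er x ^ 2) μ
  br : ∫ x, r x ^ 2 ∂μ ≤ δ
  br' : ∫ x, r' x ^ 2 ∂μ ≤ δ
  ber : ∫ x, er x ^ 2 ∂μ ≤ δ
  bκ : ∫ x in {x | kapf φ ψ x ≤ ε}, (C.G (kapf φ ψ) (kapf φ ψ) x) ^ 2 ∂μ ≤ δ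
  bA : ∫ x, (1 + C.G φ φ x + C.G ψ ψ x + |C.L φ x| + |C.L ψ x|) ^ 2 ∂μ ≤ A

/-- the certificate over `C`: `I` dominates the divergence of a smooth field, `θ` is the species. -/
structure DivCert (C : Calc X μ) (b Cθ : ℝ) (I : Jet E4 H4 → ℝ) (φ ψ θ V : X → ℝ) : Prop where
  sθ : C.Sm θ
  iV : Integrable V μ
  hV : ∫ x, V x ∂μ ≤ 0
  le : ∀ x, I (jt C φ ψ θ x) ≤ V x
  Lθ : ∀ x, |C.L θ x| ≤ Cθ * (1 + C.G φ φ x + C.G ψ ψ x + |C.L φ x| + |C.L ψ x|)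

theorem sq_sum5 (a b c d e : ℝ) : (a + b + c + d + e) ^ 2 ≤
    5 * (a ^ 2 + b ^ 2 + c ^ 2 + d ^ 2 + e ^ 2) := by
  nlinarith [sq_nonneg (a - b), sq_nonneg (a - c), sq_nonneg (a - d), sq_nonneg (a - e),
    sq_nonneg (b - c), sq_nonneg (b - d), sq_nonneg (b - e), sq_nonneg (c - d),
    sq_nonneg (c - e), sq_nonneg (d - e)]


end Crest.Agent.R249.Lim621
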