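import Crest.Agent.R249.Calc2_806
import Crest.Agent.R249.Lim4_621
import Crest.Agent.R249.PenH_806

-- ▼ part R249/DivC1_467
section

/-!
# R249 (helper467), A2-DIV over the abstract calculus `C : Calc X μ`, part 1

* `dvC C a b c θ κ` : the divergence of `a dθ + b dκ + c (Lθ dθ - ½ d|dθ|²)`
  (`Rb θ = |Hess θ|² + (Ric - 1)(dθ, dθ)`), `int_dvC : ∫ dvC = 0`, `sm_dvC`;
* `NN` : `- div V` as a function of the jets, `neg_dvC`;
* `Adp u v S e q h k s w` : adapted decomposition of jets, `exists_Adp`;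
* `Q3`, `Q2`, `NN_ge` : reduction to a `3 × 3` form in `(1, h, k)` and a `2 × 2` form in `(s, w)`;
* `pd1 pd2 pd3`, `sm_comp3`, `D_comp3` : functions of three functions.
-/

set_option autoImplicit false
set_option linter.unusedVariables false
set_option linter.unusedSectionVars false

open MeasureTheory Set Filter Topology Matrix
open scoped ContDiff

noncomputable section

namespace Crest.Agent.R249.DivC467

open Crest.Agent.R249.Calc_806 Crest.Agent.R249.Calc_806.Calc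

section Calculus

variable {X : Type*} [TopologicalSpace X] [MeasurableSpace X] {μ : Measure X}

/-- the divergence of `a dθ + b dκ + c (Lθ dθ - ½ d|dθ|²)`. -/
def dvC (C : Calc X μ) (a b c θ κ : X → ℝ) (x : X) : ℝ :=
  a x * C.L θ x + C.G a θ x + b x * C.L κ x + C.G b κ x +
    c x * (C.L θ x ^ 2 - C.Rb θ x - C.G θ θ x) + C.L θ x * C.G c θ x -
    (1 / 2) * C.G c (C.G θ θ) x

variable {C : Calc X μ} {a b c θ κ : X → ℝ}

section Integral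

variable [CompactSpace X] [OpensMeasurableSpace X] [IsFiniteMeasure μ]

lemma sm_dvC (ha : C.Sm a) (hb : C.Sm b) (hc : C.Sm c) (hθ : C.Sm θ) (hκ : C.Sm κ) :
    C.Sm (dvC C a b c θ κ) := by
  have hL := C.sm_L hθ
  have hT := C.sm_G hθ hθ
  exact sm_sub (sm_add (sm_add (sm_add (sm_add (sm_add (sm_mul ha hL) (C.sm_G ha hθ))
    (sm_mul hb (C.sm_L hκ))) (C.sm_G hb hκ))
    (sm_mul hc (sm_sub (sm_sub (sm_pow hL 2) (sm_Rb hθ)) hT))) (sm_mul hL (C.sm_G hc hθ)))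
    (sm_smul _ (C.sm_G hc hT))

/-- **the integrated identity of section 8.** -/
theorem int_dvC (ha : C.Sm a) (hb : C.Sm b) (hc : C.Sm c) (hθ : C.Sm θ) (hκ : C.Sm κ) :
    ∫ x, dvC C a b c θ κ x ∂μ = 0 := by
  have hL := C.sm_L hθ
  have hT := C.sm_G hθ hθ
  have h1 := int_div (C := C) ha hθ
  have h2 := int_div (C := C) hb hκ
  have h3 := weighted_bochner (C := C) hc hθ
  have i1 : Integrable (fun x => a x * C.L θ x + C.G a θ x) μ :=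
    integrable_sm (sm_add (sm_mul ha hL) (C.sm_G ha hθ))
  have i2 : Integrable (fun x => b x * C.L κ x + C.G b κ x) μ :=
    integrable_sm (sm_add (sm_mul hb (C.sm_L hκ)) (C.sm_G hb hκ))
  have i3 : Integrable (fun x => C.L θ x * C.G c θ x + c x * (C.L θ x ^ 2 - C.Rb θ x - C.G θ θ x)
      - (1 / 2) * C.G c (C.G θ θ) x) μ :=
    integrable_sm (sm_sub (sm_add (sm_mul hL (C.sm_G hc hθ))
      (sm_mul hc (sm_sub (sm_sub (sm_pow hL 2) (sm_Rb hθ)) hT))) (sm_smul _ (C.sm_G hc hT)))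
  have h4 : ∫ x, ((a x * C.L θ x + C.G a θ x) + (b x * C.L κ x + C.G b κ x) +
      (C.L θ x * C.G c θ x + c x * (C.L θ x ^ 2 - C.Rb θ x - C.G θ θ x)
      - (1 / 2) * C.G c (C.G θ θ) x)) ∂μ = 0 := by
    have i12 : Integrable (fun x => (a x * C.L θ x + C.G a θ x) + (b x * C.L κ x + C.G b κ x)) μ :=
      i1.add i2
    rw [integral_add i12 i3, integral_add i1 i2, h1, h2, h3]
    ring
  rw [← h4]
  refine integral_congr_ae (Eventually.of_forall fun x => ?_)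
  simp only [dvC]
  ring

end Integral

/-! ### functions of three functions -/

/-- first partial derivative. -/
def pd1 (F : ℝ × ℝ × ℝ → ℝ) (x : ℝ × ℝ × ℝ) : ℝ := fderiv ℝ F x (1, 0, 0)
/-- second partial derivative. -/
def pd2 (F : ℝ × ℝ × ℝ → ℝ) (x : ℝ × ℝ × ℝ) : ℝ := fderiv ℝ F x (0, 1, 0)
/-- third partial derivative. -/
def pd3 (F : ℝ × ℝ × ℝ → ℝ) (x : ℝ × ℝ × ℝ) : ℝ := fderiv ℝ F x (0, 0, 1)

lemma sm_comp3 {F : ℝ × ℝ × ℝ → ℝ} {U : Set (ℝ × ℝ × ℝ)} (hU : IsOpen U) (hF : ContDiffOn ℝ ∞ F U)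
    {f g h : X → ℝ} (hf : C.Sm f) (hg : C.Sm g) (hh : C.Sm h) (hx : ∀ x, (f x, g x, h x) ∈ U) :
    C.Sm (fun x => F (f x, g x, h x)) := by
  have hc : ContDiff ℝ ∞ (fun v : Fin 3 → ℝ => (v 0, v 1, v 2)) :=
    (contDiff_apply ℝ ℝ 0).prodMk ((contDiff_apply ℝ ℝ 1).prodMk (contDiff_apply ℝ ℝ 2))
  have := C.sm_comp (k := 3) (F := fun v => F (v 0, v 1, v 2))
    (U := (fun v : Fin 3 → ℝ => (v 0, v 1, v 2)) ⁻¹' U)
    (hU.preimage hc.continuous) (hF.comp hc.contDiffOn fun v hv => hv)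
    (f := ![f, g, h]) (fun i => by fin_cases i <;> assumption) (fun x => hx x)
  exact this

lemma D_comp3 {F : ℝ × ℝ × ℝ → ℝ} {U : Set (ℝ × ℝ × ℝ)} (hU : IsOpen U) (hF : ContDiffOn ℝ ∞ F U)
    {f g h : X → ℝ} (hf : C.Sm f) (hg : C.Sm g) (hh : C.Sm h) (hx : ∀ x, (f x, g x, h x) ∈ U)
    (x : X) :
    C.D (fun x => F (f x, g x, h x)) x = pd1 F (f x, g x, h x) • C.D f x +
      pd2 F (f x, g x, h x) • C.D g x + pd3 F (f x, g x, h x) • C.D h x := by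
  have hc : ContDiff ℝ ∞ (fun v : Fin 3 → ℝ => (v 0, v 1, v 2)) :=
    (contDiff_apply ℝ ℝ 0).prodMk ((contDiff_apply ℝ ℝ 1).prodMk (contDiff_apply ℝ ℝ 2))
  have h1 := C.D_comp (k := 3) (F := fun v => F (v 0, v 1, v 2))
    (U := (fun v : Fin 3 → ℝ => (v 0, v 1, v 2)) ⁻¹' U)
    (hU.preimage hc.continuous) (hF.comp hc.contDiffOn fun v hv => hv)
    (f := ![f, g, h]) (fun i => by fin_cases i <;> assumption) (fun x => hx x) x
  have hd : HasFDerivAt F (fderiv ℝ F (f x, g x, h x)) (f x, g x, h x) :=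
    ((hF.contDiffAt (hU.mem_nhds (hx x))).differentiableAt (by simp)).hasFDerivAt
  have h2 : HasFDerivAt (fun v : Fin 3 → ℝ => F (v 0, v 1, v 2))
      ((fderiv ℝ F (f x, g x, h x)).comp
        ((ContinuousLinearMap.proj (R := ℝ) (φ := fun _ : Fin 3 => ℝ) 0).prod
          ((ContinuousLinearMap.proj (R := ℝ) (φ := fun _ : Fin 3 => ℝ) 1).prod
            (ContinuousLinearMap.proj (R := ℝ) (φ := fun _ : Fin 3 => ℝ) 2))))
      (fun j => (![f, g, h] : Fin 3 → X → ℝ) j x) := by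
    refine HasFDerivAt.comp (g := F) (f := fun v : Fin 3 → ℝ => (v 0, v 1, v 2))
      (fun j => (![f, g, h] : Fin 3 → X → ℝ) j x) hd ?_
    exact ((ContinuousLinearMap.proj (R := ℝ) (φ := fun _ : Fin 3 => ℝ) 0).prod
          ((ContinuousLinearMap.proj (R := ℝ) (φ := fun _ : Fin 3 => ℝ) 1).prod
            (ContinuousLinearMap.proj (R := ℝ) (φ := fun _ : Fin 3 => ℝ) 2))).hasFDerivAt
  have h3 : C.D (fun x => F (f x, g x, h x)) x =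
      C.D (fun x => (fun v : Fin 3 → ℝ => F (v 0, v 1, v 2))
        (fun i => (![f, g, h] : Fin 3 → X → ℝ) i x)) x := rfl
  rw [h3, h1, h2.fderiv, Fin.sum_univ_three]
  simp [pd1, pd2, pd3]

/-- `d|dθ|² = 2 Hess θ (dθ)`. -/
lemma D_T (hθ : C.Sm θ) (x : X) : C.D (C.G θ θ) x = (2 : ℝ) • (C.Hs θ x *ᵥ C.D θ x) := by
  rw [C.D_G hθ hθ, two_smul]

end Calculus

/-! ### the integrand as a function of jets -/

/-- `- div V` as a function of: coefficients `a b c`, their differentials `da db dc`, `u = dθ`,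
`v = dκ`, `S = Hess θ`, `K = Lap κ`, `ρ = |Hess θ|²` (or `Rb θ`). -/
def NN (a b c : ℝ) (da db dc u v : Fin 4 → ℝ) (S : Matrix (Fin 4) (Fin 4) ℝ) (K ρ : ℝ) : ℝ :=
  -(a * S.trace + da ⬝ᵥ u + b * K + db ⬝ᵥ v + c * (S.trace ^ 2 - ρ - u ⬝ᵥ u) +
    S.trace * (dc ⬝ᵥ u) - dc ⬝ᵥ (S *ᵥ u))

lemma neg_dvC {X : Type*} [TopologicalSpace X] [MeasurableSpace X] {μ : Measure X} {C : Calc X μ}
    {a b c θ κ : X → ℝ} (hθ : C.Sm θ) (x : X) :
    - dvC C a b c θ κ x = NN (a x) (b x) (c x) (C.D a x) (C.D b x) (C.D c x) (C.D θ x) (C.D κ x)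
      (C.Hs θ x) (C.L κ x) (C.Rb θ x) := by
  have e : C.G c (C.G θ θ) x = 2 * (C.D c x ⬝ᵥ (C.Hs θ x *ᵥ C.D θ x)) := by
    rw [Calc0.G, D_T hθ, dotProduct_smul, smul_eq_mul]
  rw [dvC, NN, e]
  simp only [Calc0.G, Calc0.L]
  ring

/-! ### adapted decomposition -/

/-- adapted decomposition of the jets `u = dθ`, `v = dκ`, `S = Hess θ`. -/
structure Adp (u v : Fin 4 → ℝ) (S : Matrix (Fin 4) (Fin 4) ℝ) (e : Fin 4 → ℝ) (q h k : ℝ)
    (s w : Fin 4 → ℝ) : Prop where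
  q0 : 0 ≤ q
  ee : e ⬝ᵥ e = 1
  es : e ⬝ᵥ s = 0
  ew : e ⬝ᵥ w = 0
  hu : u = q • e
  hv : v = k • e + w
  hS : S *ᵥ e = h • e + s
  hess : h ^ 2 + 2 * (s ⬝ᵥ s) + (S.trace - h) ^ 2 / 3 ≤ ∑ i, ∑ j, S i j ^ 2

namespace Adp

variable {u v e s w : Fin 4 → ℝ} {S : Matrix (Fin 4) (Fin 4) ℝ} {q h k : ℝ}

lemma uu (J : Adp u v S e q h k s w) : u ⬝ᵥ u = q ^ 2 := by
  rw [J.hu]; simp only [smul_dotProduct, dotProduct_smul, smul_eq_mul, J.ee]; ring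

lemma vu (J : Adp u v S e q h k s w) : v ⬝ᵥ u = q * k := by
  have h1 : w ⬝ᵥ e = 0 := by rw [dotProduct_comm]; exact J.ew
  rw [J.hu, J.hv]
  simp only [smul_dotProduct, dotProduct_smul, add_dotProduct, smul_eq_mul, J.ee, h1]; ring

lemma uv (J : Adp u v S e q h k s w) : u ⬝ᵥ v = q * k := by rw [dotProduct_comm]; exact J.vu

lemma vv (J : Adp u v S e q h k s w) : v ⬝ᵥ v = k ^ 2 + w ⬝ᵥ w := by
  have h1 : w ⬝ᵥ e = 0 := by rw [dotProduct_comm]; exact J.ew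
  rw [J.hv]
  simp only [smul_dotProduct, dotProduct_smul, add_dotProduct, dotProduct_add, smul_eq_mul, J.ee,
    J.ew, h1]; ring

lemma Su (J : Adp u v S e q h k s w) : S *ᵥ u = (q * h) • e + q • s := by
  rw [J.hu, Matrix.mulVec_smul, J.hS, smul_add, smul_smul]

lemma Suu (J : Adp u v S e q h k s w) : u ⬝ᵥ (S *ᵥ u) = q ^ 2 * h := by
  rw [J.Su, J.hu]
  simp only [smul_dotProduct, dotProduct_smul, dotProduct_add, smul_eq_mul, J.ee, J.es]; ring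

lemma Suv (J : Adp u v S e q h k s w) : v ⬝ᵥ (S *ᵥ u) = q * (k * h + s ⬝ᵥ w) := by
  have h1 : w ⬝ᵥ e = 0 := by rw [dotProduct_comm]; exact J.ew
  have h2 : w ⬝ᵥ s = s ⬝ᵥ w := dotProduct_comm _ _
  rw [J.Su, J.hv]
  simp only [smul_dotProduct, dotProduct_smul, add_dotProduct, dotProduct_add, smul_eq_mul, J.ee,
    J.es, h1, h2]; ring

lemma SuSu (J : Adp u v S e q h k s w) : (S *ᵥ u) ⬝ᵥ (S *ᵥ u) = q ^ 2 * (h ^ 2 + s ⬝ᵥ s) := by
  have h1 : s ⬝ᵥ e = 0 := by rw [dotProduct_comm]; exact J.es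
  rw [J.Su]
  simp only [smul_dotProduct, dotProduct_smul, add_dotProduct, dotProduct_add, smul_eq_mul, J.ee,
    J.es, h1]; ring

lemma symm_vu (J : Adp u v S e q h k s w) : (S *ᵥ u) ⬝ᵥ u = q ^ 2 * h := by
  rw [dotProduct_comm]; exact J.Suu

lemma symm_vv (J : Adp u v S e q h k s w) : (S *ᵥ u) ⬝ᵥ v = q * (k * h + s ⬝ᵥ w) := by
  rw [dotProduct_comm]; exact J.Suv

end Adp

/-- the Hessian inequality. -/
lemma hess_ineq {S : Matrix (Fin 4) (Fin 4) ℝ} (hS : ∀ i j, S i j = S j i) {e : Fin 4 → ℝ}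
    (he : e ⬝ᵥ e = 1) {h : ℝ} {s : Fin 4 → ℝ} (hs : S *ᵥ e = h • e + s) (es : e ⬝ᵥ s = 0) :
    h ^ 2 + 2 * (s ⬝ᵥ s) + (S.trace - h) ^ 2 / 3 ≤ ∑ i, ∑ j, S i j ^ 2 := by
  -- `R = S - h e e - s e - e s`
  set R : Matrix (Fin 4) (Fin 4) ℝ := fun i j => S i j - h * (e i * e j) - s i * e j - e i * s j
    with hR
  set P : Matrix (Fin 4) (Fin 4) ℝ := fun i j => (if i = j then 1 else 0) - e i * e j with hP
  have hSe : ∀ i, ∑ j, S i j * e j = h * e i + s i := by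
    intro i
    have := congrFun hs i
    simpa [Matrix.mulVec, dotProduct] using this
  have hee : ∑ i, e i * e i = 1 := he
  have hes : ∑ i, e i * s i = 0 := es
  have hRe : ∀ i, ∑ j, R i j * e j = 0 := by
    intro i
    have : ∑ j, R i j * e j = ∑ j, S i j * e j - (h * e i + s i) * ∑ j, e j * e j -
        e i * ∑ j, e j * s j := by
      rw [Finset.mul_sum, Finset.mul_sum, ← Finset.sum_sub_distrib, ← Finset.sum_sub_distrib]
      exact Finset.sum_congr rfl fun j _ => by simp only [hR]; ring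
    rw [this, hSe, hee, hes]; ring
  have hRs : ∀ i j, R i j = R j i := by
    intro i j; simp only [hR]; rw [hS i j]; ring
  -- norm of `S`
  have hn : ∑ i, ∑ j, S i j ^ 2 = h ^ 2 + 2 * (s ⬝ᵥ s) + ∑ i, ∑ j, R i j ^ 2 := by
    have e1 : ∀ i j, S i j ^ 2 = R i j ^ 2 + 2 * h * e i * (R i j * e j) +
        2 * s i * (R i j * e j) + 2 * (s j * (R j i * e i)) +
        (h ^ 2 * (e i * e i) * (e j * e j) + (s i * s i) * (e j * e j) + (e i * e i) * (s j * s j)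
        + 2 * h * (e i * s i) * (e j * e j) + 2 * h * (e i * e i) * (e j * s j) +
          2 * (e i * s i) * (e j * s j)) := by
      intro i j
      rw [hRs j i]
      simp only [hR]
      ring
    have e2 : ∀ i, ∑ j, (R i j ^ 2 + 2 * h * e i * (R i j * e j) +
        2 * s i * (R i j * e j) + 2 * (s j * (R j i * e i)) +
        (h ^ 2 * (e i * e i) * (e j * e j) + (s i * s i) * (e j * e j) + (e i * e i) * (s j * s j)
        + 2 * h * (e i * s i) * (e j * e j) + 2 * h * (e i * e i) * (e j * s j) +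
          2 * (e i * s i) * (e j * s j))) = ∑ j, R i j ^ 2 + 2 * ∑ j, s j * (R j i * e i) +
        (h ^ 2 * (e i * e i) + s i * s i + (e i * e i) * (s ⬝ᵥ s) + 2 * h * (e i * s i)) := by
      intro i
      simp only [Finset.sum_add_distrib, ← Finset.mul_sum, hRe, hee, hes]
      simp only [dotProduct]
      ring
    have e3 : ∑ i, ∑ j, s j * (R j i * e i) = 0 := by
      rw [Finset.sum_comm]
      refine Finset.sum_eq_zero fun j _ => ?_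
      rw [← Finset.mul_sum, hRe, mul_zero]
    simp only [e1, e2, Finset.sum_add_distrib, ← Finset.mul_sum, ← Finset.sum_mul, e3, hee, hes]
    simp only [dotProduct]
    ring
  have hP2 : ∑ i, ∑ j, P i j ^ 2 = 3 := by
    have e1 : ∀ i, ∑ j, P i j ^ 2 = 1 - 2 * (e i * e i) + (e i * e i) * 1 := by
      intro i
      rw [← hee, Finset.mul_sum, hee]
      have : ∀ j, P i j ^ 2 = (if i = j then (1 - 2 * (e i * e j)) else 0) +
          e i * e i * (e j * e j) := by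
        intro j
        simp only [hP]
        split_ifs <;> ring
      simp only [this, Finset.sum_add_distrib, Finset.sum_ite_eq, Finset.mem_univ, if_true]
    simp only [e1, Finset.sum_add_distrib, Finset.sum_sub_distrib, ← Finset.mul_sum, mul_one, hee]
    simp
    norm_num
  have hRP : ∑ i, ∑ j, R i j * P i j = S.trace - h := by
    have e1 : ∀ i, ∑ j, R i j * P i j = R i i := by
      intro i
      have : ∀ j, R i j * P i j = (if i = j then R i j else 0) - e i * (R i j * e j) := by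
        intro j
        simp only [hP]
        split_ifs <;> ring
      simp only [this, Finset.sum_sub_distrib, ← Finset.mul_sum, hRe, Finset.sum_ite_eq,
        Finset.mem_univ, if_true]
      ring
    simp only [e1]
    have : ∀ i, R i i = S i i - h * (e i * e i) - 2 * (e i * s i) := by
      intro i; simp only [hR]; ring
    simp only [this, Finset.sum_sub_distrib, ← Finset.mul_sum, hee, hes, Matrix.trace,
      Matrix.diag_apply]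
    ring
  have hcs : (S.trace - h) ^ 2 ≤ (∑ i, ∑ j, R i j ^ 2) * 3 := by
    rw [← hRP, ← hP2]
    have := Finset.sum_mul_sq_le_sq_mul_sq (Finset.univ : Finset (Fin 4 × Fin 4))
      (fun ij => R ij.1 ij.2) (fun ij => P ij.1 ij.2)
    simpa only [← Finset.univ_product_univ, Finset.sum_product] using this
  rw [hn]
  linarith

lemma exists_unit (u : Fin 4 → ℝ) : ∃ (e : Fin 4 → ℝ) (q : ℝ), 0 ≤ q ∧ e ⬝ᵥ e = 1 ∧ u = q • e := by
  by_cases h0 : u = 0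
  · refine ⟨Pi.single 0 1, 0, le_rfl, ?_, by rw [h0, zero_smul]⟩
    simp
  · have hp : 0 < u ⬝ᵥ u := by
      rcases lt_or_eq_of_le (show 0 ≤ u ⬝ᵥ u from Finset.sum_nonneg fun i _ => mul_self_nonneg _)
        with h | h
      · exact h
      · exact absurd (dotProduct_self_eq_zero.1 h.symm) h0
    have hq : 0 < √(u ⬝ᵥ u) := Real.sqrt_pos.2 hp
    refine ⟨(√(u ⬝ᵥ u))⁻¹ • u, √(u ⬝ᵥ u), hq.le, ?_, ?_⟩
    · simp only [smul_dotProduct, dotProduct_smul, smul_eq_mul]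
      have := Real.sq_sqrt hp.le
      field_simp
      linarith
    · rw [smul_smul, mul_inv_cancel₀ hq.ne', one_smul]

theorem exists_Adp (u v : Fin 4 → ℝ) {S : Matrix (Fin 4) (Fin 4) ℝ} (hS : ∀ i j, S i j = S j i) :
    ∃ (e : Fin 4 → ℝ) (q h k : ℝ) (s w : Fin 4 → ℝ), Adp u v S e q h k s w := by
  obtain ⟨e, q, hq, he, hu⟩ := exists_unit u
  have es : e ⬝ᵥ (S *ᵥ e - (e ⬝ᵥ (S *ᵥ e)) • e) = 0 := by
    rw [dotProduct_sub, dotProduct_smul, he, smul_eq_mul, mul_one, sub_self]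
  have hS1 : S *ᵥ e = (e ⬝ᵥ (S *ᵥ e)) • e + (S *ᵥ e - (e ⬝ᵥ (S *ᵥ e)) • e) := by abel
  refine ⟨e, q, e ⬝ᵥ (S *ᵥ e), e ⬝ᵥ v, S *ᵥ e - (e ⬝ᵥ (S *ᵥ e)) • e, v - (e ⬝ᵥ v) • e,
    hq, he, es, ?_, hu, ?_, hS1, hess_ineq hS he hS1 es⟩
  · rw [dotProduct_sub, dotProduct_smul, he, smul_eq_mul, mul_one, sub_self]
  · abel

/-! ### pointwise reduction -/

/-- the `3 × 3` form. Partial derivatives `1 2 3` = `∂θ, ∂κ, ∂T`. -/
def Q3 (η A A1 A2 A3 B B1 B2 B3 C C1 C2 C3 X K q h k : ℝ) : ℝ :=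
  -(A * X + A1 * q ^ 2 + (A2 + B1) * (q * k) + 2 * A3 * q ^ 2 * h + B * K + B2 * k ^ 2 +
    2 * B3 * (q * k * h) + C * X ^ 2 + X * (C1 * q ^ 2 + C2 * (q * k) + 2 * C3 * q ^ 2 * h) -
    C1 * q ^ 2 * h - C2 * (q * k * h) - 2 * C3 * q ^ 2 * h ^ 2) + C * q ^ 2 +
    (1 - η) * C * (h ^ 2 + (X - h) ^ 2 / 3)

/-- the `2 × 2` form in `s s`, `s w`, `w w`. -/
def Q2 (η B2 B3 C C2 C3 q ss sw ww : ℝ) : ℝ :=
  (2 * (1 - η) * C + 2 * C3 * q ^ 2) * ss + (C2 - 2 * B3) * q * sw - B2 * ww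

/-- **pointwise reduction.** -/
theorem NN_ge {η A A1 A2 A3 B B1 B2 B3 C C1 C2 C3 K ρ q h k : ℝ} {u v e s w : Fin 4 → ℝ}
    {S : Matrix (Fin 4) (Fin 4) ℝ} (hη : η ≤ 1) (hC : 0 ≤ C) (J : Adp u v S e q h k s w)
    (hρ : ∑ i, ∑ j, S i j ^ 2 ≤ ρ) :
    Q3 η A A1 A2 A3 B B1 B2 B3 C C1 C2 C3 S.trace K q h k +
      Q2 η B2 B3 C C2 C3 q (s ⬝ᵥ s) (s ⬝ᵥ w) (w ⬝ᵥ w) + η * C * ρ ≤
    NN A B C (A1 • u + A2 • v + A3 • ((2 : ℝ) • (S *ᵥ u))) (B1 • u + B2 • v + B3 • ((2 : ℝ) • (S *ᵥ u)))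
      (C1 • u + C2 • v + C3 • ((2 : ℝ) • (S *ᵥ u))) u v S K ρ := by
  have hfin : 0 ≤ C * ((1 - η) * (ρ - (h ^ 2 + 2 * (s ⬝ᵥ s) + (S.trace - h) ^ 2 / 3))) :=
    mul_nonneg hC (mul_nonneg (by linarith) (by linarith [J.hess]))
  have e1 : u ⬝ᵥ (S *ᵥ u) = q ^ 2 * h := J.Suu
  have e2 : v ⬝ᵥ (S *ᵥ u) = q * (k * h + s ⬝ᵥ w) := J.Suv
  simp only [NN, Q3, Q2, add_dotProduct, smul_dotProduct, smul_eq_mul, J.uu, J.vu, J.uv, J.vv,
    J.symm_vu, J.symm_vv, J.SuSu, e1, e2]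
  generalize S.trace = X at *
  generalize s ⬝ᵥ s = ss at *
  generalize s ⬝ᵥ w = sw at *
  generalize w ⬝ᵥ w = ww at *
  refine le_of_sub_nonneg (hfin.trans_eq ?_)
  ring

end Crest.Agent.R249.DivC467
end
end

-- ▼ part R249/DivC2_467
section

/-!
# R249 (helper467), A2-DIV over the abstract calculus `C : Calc X μ`, part 2

* `int_dvC3`, `dvC3_ge` : coefficient functions `A B W` of `(θ, κ, |dθ|²)`;
* `tau`, `kap`, `tt`, `ff`, `D_tau`, `D_kap`, `L_tau_eq` (E3), `L_kap_eq` (E2);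
* `D_fun` : the differential of `F(φ, ψ, N)`, `N = μ² T`, in the frame `dτ, dκ, dT`;
* `D_eta`, `L_eta` …: the linear variables `η = φ - ψ`, `m = (φ + ψ)/2`.
-/

set_option autoImplicit false
set_option linter.unusedVariables false
set_option linter.unusedSectionVars false

open MeasureTheory Set Filter Topology Matrix
open scoped ContDiff

noncomputable section

namespace Crest.Agent.R249.DivC467

open Crest.Agent.R249.Calc_806 Crest.Agent.R249.Calc_806.Calc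

variable {X : Type*} [TopologicalSpace X] [MeasurableSpace X] {μ : Measure X} {C : Calc X μ}

/-! ### coefficients = functions of `(θ, κ, T)` -/

section Three

variable {θ κ : X → ℝ} {A B W : ℝ × ℝ × ℝ → ℝ} {U : Set (ℝ × ℝ × ℝ)}

/-- `F (θ, κ, |dθ|²)`. -/
def co (C : Calc X μ) (F : ℝ × ℝ × ℝ → ℝ) (θ κ : X → ℝ) (x : X) : ℝ := F (θ x, κ x, C.G θ θ x)

lemma sm_co (hU : IsOpen U) (hA : ContDiffOn ℝ ∞ A U) (hθ : C.Sm θ) (hκ : C.Sm κ)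
    (hx : ∀ x, (θ x, κ x, C.G θ θ x) ∈ U) : C.Sm (co C A θ κ) :=
  sm_comp3 hU hA hθ hκ (C.sm_G hθ hθ) hx

lemma D_co (hU : IsOpen U) (hA : ContDiffOn ℝ ∞ A U) (hθ : C.Sm θ) (hκ : C.Sm κ)
    (hx : ∀ x, (θ x, κ x, C.G θ θ x) ∈ U) (x : X) :
    C.D (co C A θ κ) x = pd1 A (θ x, κ x, C.G θ θ x) • C.D θ x +
      pd2 A (θ x, κ x, C.G θ θ x) • C.D κ x +
      pd3 A (θ x, κ x, C.G θ θ x) • ((2 : ℝ) • (C.Hs θ x *ᵥ C.D θ x)) := by
  have := D_comp3 (C := C) hU hA hθ hκ (C.sm_G hθ hθ) hx x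
  rw [D_T hθ] at this
  exact this

theorem int_dvC3 [CompactSpace X] [OpensMeasurableSpace X] [IsFiniteMeasure μ]
    (hU : IsOpen U) (hA : ContDiffOn ℝ ∞ A U) (hB : ContDiffOn ℝ ∞ B U)
    (hW : ContDiffOn ℝ ∞ W U) (hθ : C.Sm θ) (hκ : C.Sm κ)
    (hx : ∀ x, (θ x, κ x, C.G θ θ x) ∈ U) :
    ∫ x, dvC C (co C A θ κ) (co C B θ κ) (co C W θ κ) θ κ x ∂μ = 0 :=
  int_dvC (sm_co hU hA hθ hκ hx) (sm_co hU hB hθ hκ hx) (sm_co hU hW hθ hκ hx) hθ hκ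


end Three

/-! ### the variables `τ`, `κ` -/



/-- `t = (x - y)/(x + y)`, `x = φ³`, `y = ψ³`. -/
def tt (φ ψ : X → ℝ) (z : X) : ℝ := (φ z ^ 3 - ψ z ^ 3) / (φ z ^ 3 + ψ z ^ 3)

/-- `f(u) = (2/3)(u - u⁴)`. -/
def ff (u : ℝ) : ℝ := 2 / 3 * (u - u ^ 4)

variable {φ ψ : X → ℝ}










/-- `X₀ = -(2/3) s t + t T + (2/3) ⟨dκ, dτ⟩ / s`. -/
def X0 (s t T g : ℝ) : ℝ := -(2 / 3) * s * t + t * T + 2 / 3 * g / s

/-- `K₀ = - s κ + s² t² - (3/2) s (1 - t²) T - (2/3) |dκ|² / s`, `κ = 2 - s`. -/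
def K0 (s t T g : ℝ) : ℝ :=
  - s * (2 - s) + s ^ 2 * t ^ 2 - 3 / 2 * s * (1 - t ^ 2) * T - 2 / 3 * g / s



/-! ### functions of `(φ, ψ, N)`, `N = (φ ψ)² |dτ|²` -/







/-! ### linear variables `η = φ - ψ`, `m = (φ + ψ)/2` -/

/-- `η = φ - ψ`. -/
def eta (φ ψ : X → ℝ) (z : X) : ℝ := φ z - ψ z

/-- `m = (φ + ψ)/2`. -/
def mm (φ ψ : X → ℝ) (z : X) : ℝ := (1 / 2) * (φ z + ψ z)

lemma sm_eta (hφ : C.Sm φ) (hψ : C.Sm ψ) : C.Sm (eta φ ψ) := sm_sub hφ hψ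

lemma sm_mm (hφ : C.Sm φ) (hψ : C.Sm ψ) : C.Sm (mm φ ψ) := sm_smul _ (sm_add hφ hψ)

lemma D_eta (hφ : C.Sm φ) (hψ : C.Sm ψ) (z : X) : C.D (eta φ ψ) z = C.D φ z - C.D ψ z :=
  D_sub hφ hψ z

lemma D_mm (hφ : C.Sm φ) (hψ : C.Sm ψ) (z : X) :
    C.D (mm φ ψ) z = (1 / 2 : ℝ) • (C.D φ z + C.D ψ z) := by
  have h1 := D_smul (C := C) (1 / 2) (sm_add hφ hψ) z
  rw [D_add hφ hψ] at h1
  exact h1



end Crest.Agent.R249.DivC467
end
end

-- ▼ part R249/Eta1_467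
section

/-!
# R249 (helper467), A2-ETA part 1

The integrand of `V = A dη + B dm + W J_η` (`η = φ - ψ`, `m = (φ + ψ)/2`, `A B W` functions of
`(η, m, |dη|²)`) as a function `IE A B W : Jet E4 H4 → ℝ` on helper621's jets, and
`divCert_eta : DivCert`.
-/

set_option autoImplicit false
set_option linter.unusedVariables false
set_option linter.unusedSectionVars false

open MeasureTheory Set Filter Topology Matrix
open scoped ContDiff

noncomputable section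

namespace Crest.Agent.R249.Eta467

open Calc_806 Calc_806.Calc DivC467 Lim621

attribute [local instance] Matrix.frobeniusNormedAddCommGroup Matrix.frobeniusNormedSpace

/-! ### the jet quantities -/

/-- `dη`. -/
def uJ (j : Jet E4 H4) : Fin 4 → ℝ := WithLp.ofLp (j.p - j.q)

/-- `dm`. -/
def vJ (j : Jet E4 H4) : Fin 4 → ℝ := (1 / 2 : ℝ) • WithLp.ofLp (j.p + j.q)

/-- `Lη`. -/
def xJ (j : Jet E4 H4) : ℝ := j.P.1 - j.Q.1

/-- `Lm`. -/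
def kJ (j : Jet E4 H4) : ℝ := 1 / 2 * (j.P.1 + j.Q.1)

/-- the Hessian of `η` with the right trace. -/
def sJ (j : Jet E4 H4) : Matrix (Fin 4) (Fin 4) ℝ :=
  j.P.2 + ((xJ j - j.P.2.trace) / 4) • (1 : Matrix (Fin 4) (Fin 4) ℝ)

/-- the base point `(η, m, |dη|²)`. -/
def bJ (j : Jet E4 H4) : ℝ × ℝ × ℝ := (j.f - j.g, 1 / 2 * (j.f + j.g), uJ j ⬝ᵥ uJ j)

lemma trace_sJ (j : Jet E4 H4) : (sJ j).trace = xJ j := by
  rw [sJ, Matrix.trace_add, Matrix.trace_smul, Matrix.trace_one]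
  simp only [Fintype.card_fin, smul_eq_mul]
  push_cast
  ring

lemma symm_sJ {j : Jet E4 H4} (hj : j.P ∈ SyH) (a b : Fin 4) : sJ j a b = sJ j b a := by
  have h1 : j.P.2.IsSymm := hj
  have h2 : j.P.2 a b = j.P.2 b a := by
    conv_lhs => rw [← h1]
    rfl
  rw [sJ, Matrix.add_apply, Matrix.add_apply, Matrix.smul_apply, Matrix.smul_apply, h2]
  by_cases h : a = b
  · rw [h]
  · rw [Matrix.one_apply_ne h, Matrix.one_apply_ne (Ne.symm h)]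

/-- the integrand. -/
def IE (A B W : ℝ × ℝ × ℝ → ℝ) (j : Jet E4 H4) : ℝ :=
  NN (A (bJ j)) (B (bJ j)) (W (bJ j))
    (pd1 A (bJ j) • uJ j + pd2 A (bJ j) • vJ j + pd3 A (bJ j) • ((2 : ℝ) • (sJ j *ᵥ uJ j)))
    (pd1 B (bJ j) • uJ j + pd2 B (bJ j) • vJ j + pd3 B (bJ j) • ((2 : ℝ) • (sJ j *ᵥ uJ j)))
    (pd1 W (bJ j) • uJ j + pd2 W (bJ j) • vJ j + pd3 W (bJ j) • ((2 : ℝ) • (sJ j *ᵥ uJ j)))
    (uJ j) (vJ j) (sJ j) (kJ j) (∑ a, ∑ b, sJ j a b ^ 2)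

lemma NN_mono {a b c : ℝ} {da db dc u v : Fin 4 → ℝ} {S : Matrix (Fin 4) (Fin 4) ℝ} {K ρ ρ' : ℝ}
    (hc : 0 ≤ c) (h : ρ ≤ ρ') : NN a b c da db dc u v S K ρ ≤ NN a b c da db dc u v S K ρ' := by
  simp only [NN]
  nlinarith

section Calculus

variable {X : Type*} [TopologicalSpace X] [CompactSpace X] [MeasurableSpace X]
  [OpensMeasurableSpace X] {μ : Measure X} [IsFiniteMeasure μ] {C : Calc X μ} {φ ψ : X → ℝ}

lemma uJ_jt (hφ : C.Sm φ) (hψ : C.Sm ψ) (x : X) :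
    uJ (jt C φ ψ (eta φ ψ) x) = C.D (eta φ ψ) x := by
  rw [D_eta hφ hψ]; rfl

lemma vJ_jt (hφ : C.Sm φ) (hψ : C.Sm ψ) (x : X) :
    vJ (jt C φ ψ (eta φ ψ) x) = C.D (mm φ ψ) x := by
  rw [D_mm hφ hψ]; rfl

lemma xJ_jt (hφ : C.Sm φ) (hψ : C.Sm ψ) (x : X) :
    xJ (jt C φ ψ (eta φ ψ) x) = C.L (eta φ ψ) x := (L_sub hφ hψ x).symm

lemma kJ_jt (hφ : C.Sm φ) (hψ : C.Sm ψ) (x : X) :
    kJ (jt C φ ψ (eta φ ψ) x) = C.L (mm φ ψ) x := by
  have h2 := L_smul (C := C) (1 / 2) (sm_add hφ hψ) x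
  rw [C.L_add hφ hψ] at h2
  exact h2.symm

lemma sJ_jt (hφ : C.Sm φ) (hψ : C.Sm ψ) (x : X) :
    sJ (jt C φ ψ (eta φ ψ) x) = C.Hs (eta φ ψ) x := by
  rw [sJ, xJ_jt hφ hψ]
  have h1 : (jt C φ ψ (eta φ ψ) x).P.2 = C.Hs (eta φ ψ) x := rfl
  rw [h1]
  have h2 : C.L (eta φ ψ) x = (C.Hs (eta φ ψ) x).trace := rfl
  rw [h2, sub_self, zero_div, zero_smul, add_zero]

lemma bJ_jt (hφ : C.Sm φ) (hψ : C.Sm ψ) (x : X) :
    bJ (jt C φ ψ (eta φ ψ) x) = (eta φ ψ x, mm φ ψ x, C.G (eta φ ψ) (eta φ ψ) x) := by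
  rw [bJ, uJ_jt hφ hψ]; rfl

variable {A B W : ℝ × ℝ × ℝ → ℝ} {U : Set (ℝ × ℝ × ℝ)}

/-- the field. -/
def VE (C : Calc X μ) (A B W : ℝ × ℝ × ℝ → ℝ) (φ ψ : X → ℝ) (x : X) : ℝ :=
  - dvC C (co C A (eta φ ψ) (mm φ ψ)) (co C B (eta φ ψ) (mm φ ψ)) (co C W (eta φ ψ) (mm φ ψ))
    (eta φ ψ) (mm φ ψ) x

lemma sm_VE (hU : IsOpen U) (hA : ContDiffOn ℝ ∞ A U) (hB : ContDiffOn ℝ ∞ B U)
    (hW : ContDiffOn ℝ ∞ W U) (hφ : C.Sm φ) (hψ : C.Sm ψ)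
    (hx : ∀ x, (eta φ ψ x, mm φ ψ x, C.G (eta φ ψ) (eta φ ψ) x) ∈ U) : C.Sm (VE C A B W φ ψ) := by
  have h1 := sm_eta (C := C) hφ hψ
  have h2 := sm_mm (C := C) hφ hψ
  exact sm_neg (sm_dvC (sm_co hU hA h1 h2 hx) (sm_co hU hB h1 h2 hx) (sm_co hU hW h1 h2 hx) h1 h2)

theorem int_VE (hU : IsOpen U) (hA : ContDiffOn ℝ ∞ A U) (hB : ContDiffOn ℝ ∞ B U)
    (hW : ContDiffOn ℝ ∞ W U) (hφ : C.Sm φ) (hψ : C.Sm ψ)
    (hx : ∀ x, (eta φ ψ x, mm φ ψ x, C.G (eta φ ψ) (eta φ ψ) x) ∈ U) :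
    ∫ x, VE C A B W φ ψ x ∂μ = 0 := by
  have h1 := sm_eta (C := C) hφ hψ
  have h2 := sm_mm (C := C) hφ hψ
  simp only [VE]
  rw [integral_neg, int_dvC3 hU hA hB hW h1 h2 hx, neg_zero]

theorem IE_le_VE (hU : IsOpen U) (hA : ContDiffOn ℝ ∞ A U) (hB : ContDiffOn ℝ ∞ B U)
    (hW : ContDiffOn ℝ ∞ W U) (hφ : C.Sm φ) (hψ : C.Sm ψ)
    (hx : ∀ x, (eta φ ψ x, mm φ ψ x, C.G (eta φ ψ) (eta φ ψ) x) ∈ U) (x : X)
    (hW0 : 0 ≤ W (eta φ ψ x, mm φ ψ x, C.G (eta φ ψ) (eta φ ψ) x)) :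
    IE A B W (jt C φ ψ (eta φ ψ) x) ≤ VE C A B W φ ψ x := by
  have h1 := sm_eta (C := C) hφ hψ
  have h2 := sm_mm (C := C) hφ hψ
  rw [VE, neg_dvC h1, D_co hU hA h1 h2 hx, D_co hU hB h1 h2 hx, D_co hU hW h1 h2 hx, IE,
    uJ_jt hφ hψ, vJ_jt hφ hψ, sJ_jt hφ hψ, kJ_jt hφ hψ, bJ_jt hφ hψ]
  exact NN_mono hW0 (Q_le_Rb h1 x)

/-- **the divergence certificate.** -/
theorem divCert_eta {b : ℝ} (hU : IsOpen U) (hA : ContDiffOn ℝ ∞ A U) (hB : ContDiffOn ℝ ∞ B U)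
    (hW : ContDiffOn ℝ ∞ W U) (hφ : C.Sm φ) (hψ : C.Sm ψ)
    (hx : ∀ x, (eta φ ψ x, mm φ ψ x, C.G (eta φ ψ) (eta φ ψ) x) ∈ U)
    (hW0 : ∀ x, 0 ≤ W (eta φ ψ x, mm φ ψ x, C.G (eta φ ψ) (eta φ ψ) x)) :
    DivCert C b 1 (IE A B W) φ ψ (eta φ ψ) (VE C A B W φ ψ) where
  sθ := sm_eta hφ hψ
  iV := integrable_sm (sm_VE hU hA hB hW hφ hψ hx)
  hV := (int_VE hU hA hB hW hφ hψ hx).le
  le := fun x => IE_le_VE hU hA hB hW hφ hψ hx x (hW0 x)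
  Lθ := fun x => by
    have h1 : C.L (eta φ ψ) x = C.L φ x - C.L ψ x := L_sub hφ hψ x
    have h2 : |C.L φ x - C.L ψ x| ≤ |C.L φ x| + |C.L ψ x| := abs_sub _ _
    have h3 := G_self_nonneg (C := C) φ x
    have h4 := G_self_nonneg (C := C) ψ x
    rw [h1]
    linarith

end Calculus

end Crest.Agent.R249.Eta467
end
end

-- ▼ part R249/Eta2_467
section

/-!
# R249 (helper467), A2-ETA part 2: symbol calculus for a pair of jets

`Est Z M k C a a'` : `|a|, |a'| ≤ C Z^k`, `|a - a'| Z² ≤ C M Z^k`; closed under `+`, `*`.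
`lip_IE` : weight four Lipschitz condition for `IE A B W` on pairs of jets with the same `u = p - q`
(`RelE`), from bounds on the coefficient functions (`Cf`).
-/

set_option autoImplicit false
set_option linter.unusedVariables false
set_option linter.unusedSectionVars false

open MeasureTheory Set Filter Topology Matrix
open scoped ContDiff

noncomputable section

namespace Crest.Agent.R249.Eta467

open Calc_806 Calc_806.Calc DivC467 Lim621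

attribute [local instance] Matrix.frobeniusNormedAddCommGroup Matrix.frobeniusNormedSpace

/-! ### estimates for a pair of numbers -/

/-- `a`, `a'` have weight `k` (constant `C`). -/
structure Est (Z M : ℝ) (k : ℕ) (C a a' : ℝ) : Prop where
  C0 : 0 ≤ C
  b1 : |a| ≤ C * Z ^ k
  b2 : |a'| ≤ C * Z ^ k
  d : |a - a'| * Z ^ 2 ≤ C * M * Z ^ k

namespace Est

variable {Z M : ℝ} {k l : ℕ} {C D a a' b b' : ℝ}

lemma add (h : Est Z M k C a a') (g : Est Z M k D b b') : Est Z M k (C + D) (a + b) (a' + b') where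
  C0 := add_nonneg h.C0 g.C0
  b1 := (abs_add_le _ _).trans (by rw [add_mul]; exact add_le_add h.b1 g.b1)
  b2 := (abs_add_le _ _).trans (by rw [add_mul]; exact add_le_add h.b2 g.b2)
  d := by
    have h1 : |a + b - (a' + b')| ≤ |a - a'| + |b - b'| := by
      have : a + b - (a' + b') = (a - a') + (b - b') := by ring
      rw [this]; exact abs_add_le _ _
    have h2 := mul_le_mul_of_nonneg_right h1 (sq_nonneg Z)
    have := h.d
    have := g.d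
    nlinarith

lemma neg (h : Est Z M k C a a') : Est Z M k C (-a) (-a') where
  C0 := h.C0
  b1 := by rw [abs_neg]; exact h.b1
  b2 := by rw [abs_neg]; exact h.b2
  d := by
    have : -a - -a' = -(a - a') := by ring
    rw [this, abs_neg]; exact h.d

lemma sub (h : Est Z M k C a a') (g : Est Z M k D b b') : Est Z M k (C + D) (a - b) (a' - b') := by
  rw [sub_eq_add_neg, sub_eq_add_neg]; exact h.add g.neg

lemma mul (hZ : 0 ≤ Z) (h : Est Z M k C a a') (g : Est Z M l D b b') :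
    Est Z M (k + l) (2 * (C * D)) (a * b) (a' * b') := by
  have hC := h.C0
  have hD := g.C0
  have hZk : 0 ≤ Z ^ k := pow_nonneg hZ k
  have hZl : 0 ≤ Z ^ l := pow_nonneg hZ l
  have hCk : 0 ≤ C * Z ^ k := mul_nonneg hC hZk
  have hDl : 0 ≤ D * Z ^ l := mul_nonneg hD hZl
  refine ⟨by positivity, ?_, ?_, ?_⟩
  · rw [abs_mul, pow_add]
    have := mul_le_mul h.b1 g.b1 (abs_nonneg _) hCk
    nlinarith [mul_nonneg hCk hDl]
  · rw [abs_mul, pow_add]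
    have := mul_le_mul h.b2 g.b2 (abs_nonneg _) hCk
    nlinarith [mul_nonneg hCk hDl]
  · have h1 : |a * b - a' * b'| ≤ |a| * |b - b'| + |a - a'| * |b'| := by
      have : a * b - a' * b' = a * (b - b') + (a - a') * b' := by ring
      rw [this]
      exact (abs_add_le _ _).trans (by rw [abs_mul, abs_mul])
    have h2 := mul_le_mul_of_nonneg_right h1 (sq_nonneg Z)
    have h3 : |a| * (|b - b'| * Z ^ 2) ≤ (C * Z ^ k) * (D * M * Z ^ l) :=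
      mul_le_mul h.b1 g.d (by positivity) hCk
    have h4 : (|a - a'| * Z ^ 2) * |b'| ≤ (C * M * Z ^ k) * (D * Z ^ l) :=
      mul_le_mul h.d g.b2 (abs_nonneg _) (le_trans (by positivity) h.d)
    rw [pow_add]
    calc |a * b - a' * b'| * Z ^ 2 ≤ (|a| * |b - b'| + |a - a'| * |b'|) * Z ^ 2 := h2
      _ = |a| * (|b - b'| * Z ^ 2) + (|a - a'| * Z ^ 2) * |b'| := by ring
      _ ≤ (C * Z ^ k) * (D * M * Z ^ l) + (C * M * Z ^ k) * (D * Z ^ l) := add_le_add h3 h4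
      _ = 2 * (C * D) * M * (Z ^ k * Z ^ l) := by ring

lemma smul (c : ℝ) (h : Est Z M k C a a') : Est Z M k (|c| * C) (c * a) (c * a') where
  C0 := mul_nonneg (abs_nonneg _) h.C0
  b1 := by rw [abs_mul, mul_assoc]; exact mul_le_mul_of_nonneg_left h.b1 (abs_nonneg _)
  b2 := by rw [abs_mul, mul_assoc]; exact mul_le_mul_of_nonneg_left h.b2 (abs_nonneg _)
  d := by
    have : c * a - c * a' = c * (a - a') := by ring
    rw [this, abs_mul, mul_assoc, mul_assoc, mul_assoc, ← mul_assoc C]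
    exact mul_le_mul_of_nonneg_left h.d (abs_nonneg _)

lemma mono_C (hZ : 0 ≤ Z) (hM : 0 ≤ M) (h : Est Z M k C a a') (hD : C ≤ D) :
    Est Z M k D a a' where
  C0 := h.C0.trans hD
  b1 := h.b1.trans (mul_le_mul_of_nonneg_right hD (pow_nonneg hZ k))
  b2 := h.b2.trans (mul_le_mul_of_nonneg_right hD (pow_nonneg hZ k))
  d := h.d.trans (by
    have := pow_nonneg hZ k
    exact mul_le_mul_of_nonneg_right (mul_le_mul_of_nonneg_right hD hM) this)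

lemma mono_k (hZ : 1 ≤ Z) (hM : 0 ≤ M) (h : Est Z M k C a a') (hkl : k ≤ l) :
    Est Z M l C a a' where
  C0 := h.C0
  b1 := h.b1.trans (mul_le_mul_of_nonneg_left (pow_le_pow_right₀ hZ hkl) h.C0)
  b2 := h.b2.trans (mul_le_mul_of_nonneg_left (pow_le_pow_right₀ hZ hkl) h.C0)
  d := h.d.trans (mul_le_mul_of_nonneg_left (pow_le_pow_right₀ hZ hkl) (mul_nonneg h.C0 hM))

lemma sum {n : ℕ} {F F' : Fin n → ℝ} (h : ∀ i, Est Z M k C (F i) (F' i)) (hC : 0 ≤ C)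
    (hM : 0 ≤ M) (hZ : 0 ≤ Z) :
    Est Z M k (n * C) (∑ i, F i) (∑ i, F' i) := by
  have hn : (0:ℝ) ≤ n := Nat.cast_nonneg n
  refine ⟨by positivity, ?_, ?_, ?_⟩
  · refine (Finset.abs_sum_le_sum_abs _ _).trans ?_
    refine (Finset.sum_le_sum fun i _ => (h i).b1).trans ?_
    simp [mul_assoc]
  · refine (Finset.abs_sum_le_sum_abs _ _).trans ?_
    refine (Finset.sum_le_sum fun i _ => (h i).b2).trans ?_
    simp [mul_assoc]
  · rw [← Finset.sum_sub_distrib]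
    have h1 : |∑ i, (F i - F' i)| ≤ ∑ i, |F i - F' i| := Finset.abs_sum_le_sum_abs _ _
    refine (mul_le_mul_of_nonneg_right h1 (sq_nonneg Z)).trans ?_
    rw [Finset.sum_mul]
    refine (Finset.sum_le_sum fun i _ => (h i).d).trans ?_
    simp [mul_assoc]

end Est

/-! ### jets -/

/-- pairs of jets with the same `u = p - q`. -/
structure RelE (ε : ℝ) (j j' : Jet E4 H4) : Prop where
  u : j'.p - j'.q = j.p - j.q
  f : |j.f - j'.f| ≤ ε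
  g : |j.g - j'.g| ≤ ε

/-- bounds of a coefficient function on `(η, m) ∈ D`, `G ≥ 0`: `|c| (1+G)^i ≤ C (1+G)^k`. -/
structure Cf (D : Set (ℝ × ℝ)) (C : ℝ) (i k : ℕ) (c : ℝ × ℝ × ℝ → ℝ) : Prop where
  C0 : 0 ≤ C
  b : ∀ η m G, (η, m) ∈ D → 0 ≤ G → |c (η, m, G)| * (1 + G) ^ i ≤ C * (1 + G) ^ k
  d : ∀ η m η' m' G, (η, m) ∈ D → (η', m') ∈ D → 0 ≤ G →
    |c (η, m, G) - c (η', m', G)| * (1 + G) ^ i ≤ C * (|η - η'| + |m - m'|) * (1 + G) ^ k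

/-- the domain condition. -/
def inD (D : Set (ℝ × ℝ)) (j : Jet E4 H4) : Prop := (j.f - j.g, 1 / 2 * (j.f + j.g)) ∈ D

section Pair

/-- `Z`. -/
def Zj (j j' : Jet E4 H4) : ℝ := Real.sqrt (j.W + j'.W)

/-- `M`. -/
def Mj (ε : ℝ) (j j' : Jet E4 H4) : ℝ :=
  ε * Zj j j' ^ 2 + (‖j.p - j'.p‖ + ‖j.q - j'.q‖) * Zj j j' + (‖j.P - j'.P‖ + ‖j.Q - j'.Q‖)

variable {ε : ℝ} {j j' : Jet E4 H4}

lemma Zj_sq (j j' : Jet E4 H4) : Zj j j' ^ 2 = j.W + j'.W :=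
  Real.sq_sqrt (add_nonneg j.W_nonneg j'.W_nonneg)

lemma one_le_Zj (j j' : Jet E4 H4) : 1 ≤ Zj j j' := by
  rw [Zj, Real.one_le_sqrt]
  have := j.one_le_W
  have := j'.W_nonneg
  linarith

lemma Zj_nonneg (j j' : Jet E4 H4) : 0 ≤ Zj j j' := zero_le_one.trans (one_le_Zj j j')

lemma Mj_nonneg (hε : 0 ≤ ε) (j j' : Jet E4 H4) : 0 ≤ Mj ε j j' := by
  have := Zj_nonneg j j'
  unfold Mj
  positivity

lemma norm_p_le (j j' : Jet E4 H4) : ‖j.p‖ ≤ Zj j j' ∧ ‖j.q‖ ≤ Zj j j' ∧ ‖j'.p‖ ≤ Zj j j' ∧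
    ‖j'.q‖ ≤ Zj j j' := by
  have h1 : j.W = 1 + ‖j.p‖ ^ 2 + ‖j.q‖ ^ 2 + ‖j.P‖ + ‖j.Q‖ := rfl
  have h2 : j'.W = 1 + ‖j'.p‖ ^ 2 + ‖j'.q‖ ^ 2 + ‖j'.P‖ + ‖j'.Q‖ := rfl
  have a1 := norm_nonneg j.P
  have a2 := norm_nonneg j.Q
  have a3 := norm_nonneg j'.P
  have a4 := norm_nonneg j'.Q
  have a5 := sq_nonneg ‖j.p‖
  have a6 := sq_nonneg ‖j.q‖
  have a7 := sq_nonneg ‖j'.p‖
  have a8 := sq_nonneg ‖j'.q‖
  refine ⟨?_, ?_, ?_, ?_⟩ <;> · rw [Zj]; apply Real.le_sqrt_of_sq_le; linarith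

lemma norm_P_le (j j' : Jet E4 H4) : ‖j.P‖ ≤ Zj j j' ^ 2 ∧ ‖j.Q‖ ≤ Zj j j' ^ 2 ∧
    ‖j'.P‖ ≤ Zj j j' ^ 2 ∧ ‖j'.Q‖ ≤ Zj j j' ^ 2 ∧ ‖j.P‖ + ‖j.Q‖ ≤ Zj j j' ^ 2 ∧
    ‖j'.P‖ + ‖j'.Q‖ ≤ Zj j j' ^ 2 := by
  have h1 : j.W = 1 + ‖j.p‖ ^ 2 + ‖j.q‖ ^ 2 + ‖j.P‖ + ‖j.Q‖ := rfl
  have h2 : j'.W = 1 + ‖j'.p‖ ^ 2 + ‖j'.q‖ ^ 2 + ‖j'.P‖ + ‖j'.Q‖ := rfl
  have a1 := norm_nonneg j.P
  have a2 := norm_nonneg j.Q
  have a3 := norm_nonneg j'.P
  have a4 := norm_nonneg j'.Q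
  have a5 := sq_nonneg ‖j.p‖
  have a6 := sq_nonneg ‖j.q‖
  have a7 := sq_nonneg ‖j'.p‖
  have a8 := sq_nonneg ‖j'.q‖
  rw [Zj_sq]
  refine ⟨?_, ?_, ?_, ?_, ?_, ?_⟩ <;> linarith

lemma abs_coord_le (x : E4) (i : Fin 4) : |WithLp.ofLp x i| ≤ ‖x‖ := by
  have := PiLp.norm_apply_le x i
  simpa [Real.norm_eq_abs] using this

lemma abs_entry_le (A : Matrix (Fin 4) (Fin 4) ℝ) (a b : Fin 4) : |A a b| ≤ ‖A‖ := by
  have h0 : ‖A‖ ^ 2 = ∑ i, ∑ k, A i k ^ 2 := by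
    rw [Matrix.frobenius_norm_def, ← Real.sqrt_eq_rpow, Real.sq_sqrt]
    · refine Finset.sum_congr rfl fun i _ => Finset.sum_congr rfl fun k _ => ?_
      rw [Real.rpow_two, Real.norm_eq_abs, sq_abs]
    · exact Finset.sum_nonneg fun i _ => Finset.sum_nonneg fun k _ => by positivity
  apply abs_le_of_sq_le_sq _ (norm_nonneg _)
  rw [h0]
  calc A a b ^ 2 ≤ ∑ k, A a k ^ 2 :=
        Finset.single_le_sum (f := fun k => A a k ^ 2) (fun k _ => sq_nonneg _) (Finset.mem_univ b)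
    _ ≤ ∑ i, ∑ k, A i k ^ 2 :=
        Finset.single_le_sum (f := fun i => ∑ k, A i k ^ 2)
          (fun i _ => Finset.sum_nonneg fun k _ => sq_nonneg _) (Finset.mem_univ a)

variable (hε : 0 ≤ ε) (hr : RelE ε j j')

include hr in
lemma uJ_eq : uJ j' = uJ j := by
  unfold uJ; rw [hr.u]

include hε hr in
lemma est_u (i : Fin 4) : Est (Zj j j') (Mj ε j j') 1 2 (uJ j i) (uJ j' i) := by
  have hu := uJ_eq hr
  have h1 : |uJ j i| ≤ 2 * Zj j j' := by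
    have := abs_coord_le (j.p - j.q) i
    have h2 := norm_sub_le j.p j.q
    obtain ⟨h3, h4, -, -⟩ := norm_p_le j j'
    exact this.trans (by linarith)
  refine ⟨by norm_num, by simpa using h1, by rw [hu]; simpa using h1, ?_⟩
  rw [hu, sub_self, abs_zero, zero_mul]
  have := Mj_nonneg hε j j'
  have := Zj_nonneg j j'
  positivity

include hε in
lemma est_v (i : Fin 4) : Est (Zj j j') (Mj ε j j') 1 1 (vJ j i) (vJ j' i) := by
  obtain ⟨h3, h4, h5, h6⟩ := norm_p_le j j'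
  have hZ := Zj_nonneg j j'
  have e : ∀ j : Jet E4 H4, vJ j i = 1 / 2 * WithLp.ofLp (j.p + j.q) i := fun j => rfl
  have h1 : ∀ j : Jet E4 H4, |vJ j i| ≤ 1 / 2 * (‖j.p‖ + ‖j.q‖) := by
    intro j
    rw [e, abs_mul, abs_of_pos (by norm_num : (0:ℝ) < 1 / 2)]
    exact mul_le_mul_of_nonneg_left ((abs_coord_le _ i).trans (norm_add_le _ _)) (by norm_num)
  refine ⟨by norm_num, ?_, ?_, ?_⟩
  · have := h1 j; rw [one_mul, pow_one]; linarith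
  · have := h1 j'; rw [one_mul, pow_one]; linarith
  · have h2 : |vJ j i - vJ j' i| ≤ 1 / 2 * (‖j.p - j'.p‖ + ‖j.q - j'.q‖) := by
      have e2 : vJ j i - vJ j' i = 1 / 2 * WithLp.ofLp ((j.p - j'.p) + (j.q - j'.q)) i := by
        rw [e, e]
        simp only [WithLp.ofLp_add, WithLp.ofLp_sub, Pi.add_apply, Pi.sub_apply]
        ring
      rw [e2, abs_mul, abs_of_pos (by norm_num : (0:ℝ) < 1 / 2)]
      exact mul_le_mul_of_nonneg_left ((abs_coord_le _ i).trans (norm_add_le _ _)) (by norm_num)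
    have h7 : (0:ℝ) ≤ ‖j.p - j'.p‖ + ‖j.q - j'.q‖ := by positivity
    have h8 : (0:ℝ) ≤ ‖j.P - j'.P‖ + ‖j.Q - j'.Q‖ := by positivity
    have h9 : (‖j.p - j'.p‖ + ‖j.q - j'.q‖) * Zj j j' ≤ Mj ε j j' := by
      unfold Mj
      have : 0 ≤ ε * Zj j j' ^ 2 := by positivity
      linarith
    rw [one_mul, pow_one]
    calc |vJ j i - vJ j' i| * Zj j j' ^ 2 ≤
          (1 / 2 * (‖j.p - j'.p‖ + ‖j.q - j'.q‖)) * Zj j j' ^ 2 :=
          mul_le_mul_of_nonneg_right h2 (by positivity)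
      _ ≤ ((‖j.p - j'.p‖ + ‖j.q - j'.q‖) * Zj j j') * Zj j j' := by
          have : 0 ≤ (‖j.p - j'.p‖ + ‖j.q - j'.q‖) * Zj j j' ^ 2 := by positivity
          nlinarith
      _ ≤ Mj ε j j' * Zj j j' := mul_le_mul_of_nonneg_right h9 hZ

include hε in
lemma est_lin {L : Jet E4 H4 → ℝ} {c : ℝ} (hc : 0 ≤ c) (h1 : ∀ j, |L j| ≤ c * (‖j.P‖ + ‖j.Q‖))
    (h2 : ∀ j j', |L j - L j'| ≤ c * (‖j.P - j'.P‖ + ‖j.Q - j'.Q‖)) :
    Est (Zj j j') (Mj ε j j') 2 c (L j) (L j') := by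
  obtain ⟨-, -, -, -, h5, h6⟩ := norm_P_le j j'
  refine ⟨hc, (h1 j).trans (mul_le_mul_of_nonneg_left h5 hc),
    (h1 j').trans (mul_le_mul_of_nonneg_left h6 hc), ?_⟩
  have h9 : ‖j.P - j'.P‖ + ‖j.Q - j'.Q‖ ≤ Mj ε j j' := by
    unfold Mj
    have := Zj_nonneg j j'
    have : 0 ≤ ε * Zj j j' ^ 2 := by positivity
    have : 0 ≤ (‖j.p - j'.p‖ + ‖j.q - j'.q‖) * Zj j j' := by positivity
    linarith
  exact mul_le_mul_of_nonneg_right ((h2 j j').trans (mul_le_mul_of_nonneg_left h9 hc)) (by positivity)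

lemma fst_le (P : H4) : |P.1| ≤ ‖P‖ := norm_fst_le P

lemma snd_le (P : H4) (a b : Fin 4) : |P.2 a b| ≤ ‖P‖ := (abs_entry_le _ a b).trans (norm_snd_le P)

include hε in
lemma est_x : Est (Zj j j') (Mj ε j j') 2 1 (xJ j) (xJ j') := by
  refine est_lin hε zero_le_one (fun j => ?_) (fun j j' => ?_)
  · rw [one_mul, xJ]
    exact (abs_sub _ _).trans (add_le_add (fst_le _) (fst_le _))
  · rw [one_mul]
    have : xJ j - xJ j' = (j.P - j'.P).1 - (j.Q - j'.Q).1 := by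
      simp only [xJ, Prod.fst_sub]; ring
    rw [this]
    exact (abs_sub _ _).trans (add_le_add (fst_le _) (fst_le _))

include hε in
lemma est_kJ : Est (Zj j j') (Mj ε j j') 2 1 (kJ j) (kJ j') := by
  have key : ∀ P Q : H4, |1 / 2 * (P.1 + Q.1)| ≤ 1 * (‖P‖ + ‖Q‖) := by
    intro P Q
    rw [abs_mul, abs_of_pos (by norm_num : (0:ℝ) < 1 / 2)]
    have h1 := abs_add_le P.1 Q.1
    have h2 := fst_le P
    have h3 := fst_le Q
    have h4 := norm_nonneg P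
    have h5 := norm_nonneg Q
    linarith
  refine est_lin hε zero_le_one (fun j => key _ _) (fun j j' => ?_)
  have : kJ j - kJ j' = 1 / 2 * ((j.P - j'.P).1 + (j.Q - j'.Q).1) := by
    simp only [kJ, Prod.fst_sub]; ring
  rw [this]
  exact key _ _

lemma sJ_bound (P Q : H4) (a b : Fin 4) :
    |P.2 a b + ((P.1 - Q.1 - P.2.trace) / 4) * (1 : Matrix (Fin 4) (Fin 4) ℝ) a b| ≤
      3 * (‖P‖ + ‖Q‖) := by
  have h1 := snd_le P a b
  have h2 : |P.2.trace| ≤ 4 * ‖P‖ := by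
    rw [Matrix.trace, Fin.sum_univ_four]
    simp only [Matrix.diag_apply]
    have e0 := abs_le.1 (snd_le P 0 0)
    have e1 := abs_le.1 (snd_le P 1 1)
    have e2 := abs_le.1 (snd_le P 2 2)
    have e3 := abs_le.1 (snd_le P 3 3)
    rw [abs_le]; constructor <;> linarith
  have h3 := fst_le P
  have h4 := fst_le Q
  have h5 : |(1 : Matrix (Fin 4) (Fin 4) ℝ) a b| ≤ 1 := by
    by_cases h : a = b
    · rw [h, Matrix.one_apply_eq]; norm_num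
    · rw [Matrix.one_apply_ne h]; norm_num
  have h6 : |(P.1 - Q.1 - P.2.trace) / 4| ≤ (5 * ‖P‖ + ‖Q‖) / 4 := by
    rw [abs_div, abs_of_pos (by norm_num : (0:ℝ) < 4)]
    have a1 := abs_le.1 h2
    have a2 := abs_le.1 h3
    have a3 := abs_le.1 h4
    have : |P.1 - Q.1 - P.2.trace| ≤ 5 * ‖P‖ + ‖Q‖ := by
      rw [abs_le]; constructor <;> linarith
    linarith
  have h7 := norm_nonneg P
  have h8 := norm_nonneg Q
  refine (abs_add_le _ _).trans ?_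
  rw [abs_mul]
  have h9 : |(P.1 - Q.1 - P.2.trace) / 4| * |(1 : Matrix (Fin 4) (Fin 4) ℝ) a b| ≤
      (5 * ‖P‖ + ‖Q‖) / 4 * 1 := mul_le_mul h6 h5 (abs_nonneg _) (by positivity)
  linarith

include hε in
lemma est_s (a b : Fin 4) : Est (Zj j j') (Mj ε j j') 2 3 (sJ j a b) (sJ j' a b) := by
  have e : ∀ j : Jet E4 H4, sJ j a b =
      j.P.2 a b + ((j.P.1 - j.Q.1 - j.P.2.trace) / 4) * (1 : Matrix (Fin 4) (Fin 4) ℝ) a b := by
    intro j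
    rw [sJ, Matrix.add_apply, Matrix.smul_apply, smul_eq_mul]; rfl
  have h : Est (Zj j j') (Mj ε j j') 2 3 (sJ j a b) (sJ j' a b) := by
    refine est_lin (L := fun j => sJ j a b) hε (by norm_num) (fun j => ?_) (fun j j' => ?_)
    · show |sJ j a b| ≤ _
      rw [e]
      exact sJ_bound _ _ a b
    · show |sJ j a b - sJ j' a b| ≤ _
      have := sJ_bound (j.P - j'.P) (j.Q - j'.Q) a b
      refine (le_of_eq ?_).trans this
      congr 1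
      rw [e, e]
      simp only [Prod.fst_sub, Prod.snd_sub, Matrix.sub_apply, Matrix.trace_sub]
      ring
  exact h

end Pair

end Crest.Agent.R249.Eta467
end
end

-- ▼ part R249/Eta3_467
section

/-!
# R249 (helper467), A2-ETA part 3: `lip_IE`
-/

set_option autoImplicit false
set_option linter.unusedVariables false
set_option linter.unusedSectionVars false

open MeasureTheory Set Filter Topology Matrix
open scoped ContDiff

noncomputable section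

namespace Crest.Agent.R249.Eta467

open Calc_806 Calc_806.Calc DivC467 Lim621

attribute [local instance] Matrix.frobeniusNormedAddCommGroup Matrix.frobeniusNormedSpace

variable {ε : ℝ} {j j' : Jet E4 H4} (hε : 0 ≤ ε) (hr : RelE ε j j')

/-! ### scalars -/

include hε hr in
lemma est_uu : Est (Zj j j') (Mj ε j j') 2 32 (uJ j ⬝ᵥ uJ j) (uJ j' ⬝ᵥ uJ j') := by
  have hM := Mj_nonneg hε j j'
  have hZ := Zj_nonneg j j'
  have h : ∀ i, Est (Zj j j') (Mj ε j j') 2 8 (uJ j i * uJ j i) (uJ j' i * uJ j' i) := fun i => by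
    have := (est_u hε hr i).mul hZ (est_u hε hr i)
    exact this.mono_C hZ hM (by norm_num)
  have := Est.sum h (by norm_num) hM hZ
  exact this.mono_C hZ hM (by norm_num)

include hε hr in
lemma est_vu : Est (Zj j j') (Mj ε j j') 2 16 (vJ j ⬝ᵥ uJ j) (vJ j' ⬝ᵥ uJ j') := by
  have hM := Mj_nonneg hε j j'
  have hZ := Zj_nonneg j j'
  have h : ∀ i, Est (Zj j j') (Mj ε j j') 2 4 (vJ j i * uJ j i) (vJ j' i * uJ j' i) := fun i => by
    have := (est_v hε i).mul hZ (est_u hε hr i)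
    exact this.mono_C hZ hM (by norm_num)
  have := Est.sum h (by norm_num) hM hZ
  exact this.mono_C hZ hM (by norm_num)

include hε in
lemma est_vv : Est (Zj j j') (Mj ε j j') 2 8 (vJ j ⬝ᵥ vJ j) (vJ j' ⬝ᵥ vJ j') := by
  have hM := Mj_nonneg hε j j'
  have hZ := Zj_nonneg j j'
  have h : ∀ i, Est (Zj j j') (Mj ε j j') 2 2 (vJ j i * vJ j i) (vJ j' i * vJ j' i) := fun i => by
    have := (est_v hε i).mul hZ (est_v hε i)
    exact this.mono_C hZ hM (by norm_num)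
  have := Est.sum h (by norm_num) hM hZ
  exact this.mono_C hZ hM (by norm_num)

include hε hr in
/-- `(S u)_i`. -/
lemma est_Su (i : Fin 4) : Est (Zj j j') (Mj ε j j') 3 48 ((sJ j *ᵥ uJ j) i) ((sJ j' *ᵥ uJ j') i) := by
  have hM := Mj_nonneg hε j j'
  have hZ := Zj_nonneg j j'
  have h : ∀ k, Est (Zj j j') (Mj ε j j') 3 12 (sJ j i k * uJ j k) (sJ j' i k * uJ j' k) :=
    fun k => by
      have := (est_s hε i k).mul hZ (est_u hε hr k)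
      exact this.mono_C hZ hM (by norm_num)
  have := Est.sum h (by norm_num) hM hZ
  exact this.mono_C hZ hM (by norm_num)

include hε hr in
lemma est_uSu : Est (Zj j j') (Mj ε j j') 4 768 (uJ j ⬝ᵥ (sJ j *ᵥ uJ j))
    (uJ j' ⬝ᵥ (sJ j' *ᵥ uJ j')) := by
  have hM := Mj_nonneg hε j j'
  have hZ := Zj_nonneg j j'
  have h : ∀ k, Est (Zj j j') (Mj ε j j') 4 192 (uJ j k * (sJ j *ᵥ uJ j) k)
      (uJ j' k * (sJ j' *ᵥ uJ j') k) :=
    fun k => by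
      have := (est_u hε hr k).mul hZ (est_Su hε hr k)
      exact this.mono_C hZ hM (by norm_num)
  have := Est.sum h (by norm_num) hM hZ
  exact this.mono_C hZ hM (by norm_num)

include hε hr in
lemma est_vSu : Est (Zj j j') (Mj ε j j') 4 384 (vJ j ⬝ᵥ (sJ j *ᵥ uJ j))
    (vJ j' ⬝ᵥ (sJ j' *ᵥ uJ j')) := by
  have hM := Mj_nonneg hε j j'
  have hZ := Zj_nonneg j j'
  have h : ∀ k, Est (Zj j j') (Mj ε j j') 4 96 (vJ j k * (sJ j *ᵥ uJ j) k)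
      (vJ j' k * (sJ j' *ᵥ uJ j') k) :=
    fun k => by
      have := (est_v hε k).mul hZ (est_Su hε hr k)
      exact this.mono_C hZ hM (by norm_num)
  have := Est.sum h (by norm_num) hM hZ
  exact this.mono_C hZ hM (by norm_num)

include hε in
lemma est_rho : Est (Zj j j') (Mj ε j j') 4 288 (∑ a, ∑ b, sJ j a b ^ 2)
    (∑ a, ∑ b, sJ j' a b ^ 2) := by
  have hM := Mj_nonneg hε j j'
  have hZ := Zj_nonneg j j'
  have h : ∀ a, Est (Zj j j') (Mj ε j j') 4 72 (∑ b, sJ j a b ^ 2) (∑ b, sJ j' a b ^ 2) := by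
    intro a
    have h1 : ∀ b, Est (Zj j j') (Mj ε j j') 4 18 (sJ j a b ^ 2) (sJ j' a b ^ 2) := by
      intro b
      rw [sq, sq]
      exact ((est_s hε a b).mul hZ (est_s hε a b)).mono_C hZ hM (by norm_num)
    exact (Est.sum h1 (by norm_num) hM hZ).mono_C hZ hM (by norm_num)
  exact (Est.sum h (by norm_num) hM hZ).mono_C hZ hM (by norm_num)

/-! ### coefficients -/

/-- bounds of a coefficient function at a pair of points with the same `G`. -/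
structure CfP (C : ℝ) (i k : ℕ) (c : ℝ × ℝ × ℝ → ℝ) (z z' : ℝ × ℝ × ℝ) : Prop where
  C0 : 0 ≤ C
  b : |c z| * (1 + z.2.2) ^ i ≤ C * (1 + z.2.2) ^ k
  b' : |c z'| * (1 + z.2.2) ^ i ≤ C * (1 + z.2.2) ^ k
  d : |c z - c z'| * (1 + z.2.2) ^ i ≤ C * (|z.1 - z'.1| + |z.2.1 - z'.2.1|) * (1 + z.2.2) ^ k

variable {D : Set (ℝ × ℝ)} {C₀ : ℝ} {c : ℝ × ℝ × ℝ → ℝ}

lemma uu_nonneg (j : Jet E4 H4) : 0 ≤ uJ j ⬝ᵥ uJ j :=
  Finset.sum_nonneg fun i _ => mul_self_nonneg _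

lemma uu_le (j j' : Jet E4 H4) : 1 + uJ j ⬝ᵥ uJ j ≤ 5 * Zj j j' ^ 2 := by
  obtain ⟨h3, h4, -, -⟩ := norm_p_le j j'
  have hZ := one_le_Zj j j'
  have e : uJ j ⬝ᵥ uJ j = ‖j.p - j.q‖ ^ 2 := by
    rw [EuclideanSpace.norm_sq_eq, uJ]
    simp only [dotProduct, Real.norm_eq_abs, sq_abs]
    exact Finset.sum_congr rfl fun i _ => by ring
  have h1 := norm_sub_le j.p j.q
  have h2 : ‖j.p - j.q‖ ^ 2 ≤ (2 * Zj j j') ^ 2 :=
    pow_le_pow_left₀ (norm_nonneg _) (by linarith) 2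
  rw [e]
  nlinarith

include hr hε in
lemma dEta_le : |(j.f - j.g) - (j'.f - j'.g)| + |1 / 2 * (j.f + j.g) - 1 / 2 * (j'.f + j'.g)| ≤
    3 * ε := by
  have h1 := abs_le.1 hr.f
  have h2 := abs_le.1 hr.g
  have h3 : |(j.f - j.g) - (j'.f - j'.g)| ≤ 2 * ε := by
    rw [abs_le]; constructor <;> linarith
  have h4 : |1 / 2 * (j.f + j.g) - 1 / 2 * (j'.f + j'.g)| ≤ ε := by
    rw [abs_le]; constructor <;> linarith
  linarith

lemma le_Mj (hε : 0 ≤ ε) (j j' : Jet E4 H4) : ε * Zj j j' ^ 2 ≤ Mj ε j j' := by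
  unfold Mj
  have := Zj_nonneg j j'
  have : 0 ≤ (‖j.p - j'.p‖ + ‖j.q - j'.q‖) * Zj j j' := by positivity
  have : 0 ≤ ‖j.P - j'.P‖ + ‖j.Q - j'.Q‖ := by positivity
  linarith


include hr in
lemma Cf.pair {i k : ℕ} (hc : Cf D C₀ i k c) (hD : inD D j) (hD' : inD D j') :
    CfP C₀ i k c (bJ j) (bJ j') := by
  have hG := uu_nonneg j
  have hu : uJ j' ⬝ᵥ uJ j' = uJ j ⬝ᵥ uJ j := by rw [uJ_eq hr]
  have e3 : bJ j' = (j'.f - j'.g, 1 / 2 * (j'.f + j'.g), uJ j ⬝ᵥ uJ j) := by rw [bJ, hu]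
  refine ⟨hc.C0, hc.b _ _ _ hD hG, ?_, ?_⟩
  · rw [e3]; exact hc.b _ _ _ hD' hG
  · rw [e3]; exact hc.d _ _ _ _ _ hD hD' hG

include hε hr in
/-- a coefficient of weight `2 k` -/
lemma est_coef (k : ℕ) (hc : CfP C₀ 0 k c (bJ j) (bJ j')) :
    Est (Zj j j') (Mj ε j j') (2 * k) (3 * 5 ^ k * C₀) (c (bJ j)) (c (bJ j')) := by
  have hZ := Zj_nonneg j j'
  have hM := Mj_nonneg hε j j'
  have hC := hc.C0
  have hG := uu_nonneg j
  have hG' := uu_nonneg j'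
  have hu : uJ j' ⬝ᵥ uJ j' = uJ j ⬝ᵥ uJ j := by rw [uJ_eq hr]
  have hle : (1 + uJ j ⬝ᵥ uJ j) ^ k ≤ 5 ^ k * Zj j j' ^ (2 * k) := by
    refine (pow_le_pow_left₀ (by linarith) (uu_le j j') k).trans (le_of_eq ?_)
    rw [mul_pow, ← pow_mul]
  have hpos : 0 ≤ 5 ^ k * Zj j j' ^ (2 * k) := by positivity
  have h1 : |c (bJ j)| * (1 + uJ j ⬝ᵥ uJ j) ^ 0 ≤ C₀ * (1 + uJ j ⬝ᵥ uJ j) ^ k := hc.b
  have h2 : |c (bJ j')| * (1 + uJ j ⬝ᵥ uJ j) ^ 0 ≤ C₀ * (1 + uJ j ⬝ᵥ uJ j) ^ k := hc.b'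
  rw [pow_zero, mul_one] at h1 h2
  refine ⟨by positivity, ?_, ?_, ?_⟩
  · refine h1.trans ((mul_le_mul_of_nonneg_left hle hC).trans ?_)
    nlinarith [mul_nonneg hC hpos]
  · refine h2.trans ((mul_le_mul_of_nonneg_left hle hC).trans ?_)
    nlinarith [mul_nonneg hC hpos]
  · have h3 : |c (bJ j) - c (bJ j')| * (1 + uJ j ⬝ᵥ uJ j) ^ 0 ≤
        C₀ * (|(j.f - j.g) - (j'.f - j'.g)| + |1 / 2 * (j.f + j.g) - 1 / 2 * (j'.f + j'.g)|) *
          (1 + uJ j ⬝ᵥ uJ j) ^ k := hc.d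
    rw [pow_zero, mul_one] at h3
    have h4 := dEta_le hε hr
    have h5 : |c (bJ j) - c (bJ j')| ≤
        C₀ * (3 * ε) * (5 ^ k * Zj j j' ^ (2 * k)) := by
      refine h3.trans ?_
      refine mul_le_mul (mul_le_mul_of_nonneg_left h4 hC) hle (by positivity) (by positivity)
    refine (mul_le_mul_of_nonneg_right h5 (sq_nonneg _)).trans ?_
    have h6 := le_Mj hε j j'
    have h7 : 0 ≤ C₀ * 3 * (5 ^ k * Zj j j' ^ (2 * k)) := by positivity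
    calc C₀ * (3 * ε) * (5 ^ k * Zj j j' ^ (2 * k)) * Zj j j' ^ 2 =
        (C₀ * 3 * (5 ^ k * Zj j j' ^ (2 * k))) * (ε * Zj j j' ^ 2) := by ring
      _ ≤ (C₀ * 3 * (5 ^ k * Zj j j' ^ (2 * k))) * Mj ε j j' := mul_le_mul_of_nonneg_left h6 h7
      _ = _ := by ring

lemma abs_u_mul_le (j : Jet E4 H4) (a b : Fin 4) : |uJ j a * uJ j b| ≤ 1 + uJ j ⬝ᵥ uJ j := by
  have h1 : ∀ a, uJ j a * uJ j a ≤ uJ j ⬝ᵥ uJ j := fun a =>
    Finset.single_le_sum (f := fun i => uJ j i * uJ j i) (fun i _ => mul_self_nonneg _)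
      (Finset.mem_univ a)
  have ha := h1 a
  have hb := h1 b
  rw [abs_le]
  constructor <;> nlinarith [sq_nonneg (uJ j a + uJ j b), sq_nonneg (uJ j a - uJ j b)]

include hε hr in
/-- `W₃ u_a u_b`. -/
lemma est_cuu (hc : CfP C₀ 1 0 c (bJ j) (bJ j')) (a b : Fin 4) :
    Est (Zj j j') (Mj ε j j') 0 (3 * C₀) (c (bJ j) * (uJ j a * uJ j b))
      (c (bJ j') * (uJ j' a * uJ j' b)) := by
  have hZ := Zj_nonneg j j'
  have hM := Mj_nonneg hε j j'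
  have hC := hc.C0
  have hG := uu_nonneg j
  have hG' := uu_nonneg j'
  have hu : uJ j' ⬝ᵥ uJ j' = uJ j ⬝ᵥ uJ j := by rw [uJ_eq hr]
  have h1 : |c (bJ j)| * (1 + uJ j ⬝ᵥ uJ j) ^ 1 ≤ C₀ * (1 + uJ j ⬝ᵥ uJ j) ^ 0 := hc.b
  have h2 : |c (bJ j')| * (1 + uJ j ⬝ᵥ uJ j) ^ 1 ≤ C₀ * (1 + uJ j ⬝ᵥ uJ j) ^ 0 := hc.b'
  rw [pow_zero, mul_one, pow_one] at h1 h2
  have ha := abs_u_mul_le j a b
  have ha' : |uJ j' a * uJ j' b| ≤ 1 + uJ j ⬝ᵥ uJ j := by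
    have := abs_u_mul_le j' a b
    rwa [hu] at this
  refine ⟨by positivity, ?_, ?_, ?_⟩
  · rw [abs_mul, pow_zero, mul_one]
    refine (mul_le_mul_of_nonneg_left ha (abs_nonneg _)).trans (h1.trans (by linarith))
  · rw [abs_mul, pow_zero, mul_one]
    refine (mul_le_mul_of_nonneg_left ha' (abs_nonneg _)).trans (h2.trans (by linarith))
  · have h3 : |c (bJ j) - c (bJ j')| * (1 + uJ j ⬝ᵥ uJ j) ^ 1 ≤
        C₀ * (|(j.f - j.g) - (j'.f - j'.g)| + |1 / 2 * (j.f + j.g) - 1 / 2 * (j'.f + j'.g)|) *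
          (1 + uJ j ⬝ᵥ uJ j) ^ 0 := hc.d
    rw [pow_zero, mul_one, pow_one] at h3
    have h4 := dEta_le hε hr
    have e4 : c (bJ j) * (uJ j a * uJ j b) - c (bJ j') * (uJ j' a * uJ j' b) =
        (c (bJ j) - c (bJ j')) * (uJ j a * uJ j b) := by
      rw [uJ_eq hr]; ring
    rw [e4, abs_mul]
    have h5 : |c (bJ j) - c (bJ j')| * |uJ j a * uJ j b| ≤ C₀ * (3 * ε) := by
      refine (mul_le_mul_of_nonneg_left ha (abs_nonneg _)).trans (h3.trans ?_)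
      exact mul_le_mul_of_nonneg_left h4 hC
    refine (mul_le_mul_of_nonneg_right h5 (sq_nonneg _)).trans ?_
    have h6 := le_Mj hε j j'
    calc C₀ * (3 * ε) * Zj j j' ^ 2 = (3 * C₀) * (ε * Zj j j' ^ 2) := by ring
      _ ≤ (3 * C₀) * Mj ε j j' := mul_le_mul_of_nonneg_left h6 (by positivity)
      _ = 3 * C₀ * Mj ε j j' * Zj j j' ^ 0 := by rw [pow_zero, mul_one]

include hε hr in
/-- `W₃ ⟨S u, u⟩`. -/
lemma est_cSuu (hc : CfP C₀ 1 0 c (bJ j) (bJ j')) :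
    Est (Zj j j') (Mj ε j j') 2 (288 * C₀) (c (bJ j) * (uJ j ⬝ᵥ (sJ j *ᵥ uJ j)))
      (c (bJ j') * (uJ j' ⬝ᵥ (sJ j' *ᵥ uJ j'))) := by
  have hZ := Zj_nonneg j j'
  have hM := Mj_nonneg hε j j'
  have hC := hc.C0
  have e : ∀ j : Jet E4 H4, c (bJ j) * (uJ j ⬝ᵥ (sJ j *ᵥ uJ j)) =
      ∑ a, ∑ b, (c (bJ j) * (uJ j a * uJ j b)) * sJ j a b := by
    intro j
    simp only [dotProduct, Matrix.mulVec, Finset.mul_sum]
    refine Finset.sum_congr rfl fun a _ => Finset.sum_congr rfl fun b _ => ?_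
    ring
  rw [e, e]
  have h1 : ∀ a b, Est (Zj j j') (Mj ε j j') 2 (18 * C₀) ((c (bJ j) * (uJ j a * uJ j b)) * sJ j a b)
      ((c (bJ j') * (uJ j' a * uJ j' b)) * sJ j' a b) := by
    intro a b
    have := (est_cuu hε hr hc a b).mul hZ (est_s hε a b)
    exact this.mono_C hZ hM (by linarith)
  have h2 : ∀ a, Est (Zj j j') (Mj ε j j') 2 (72 * C₀)
      (∑ b, (c (bJ j) * (uJ j a * uJ j b)) * sJ j a b)
      (∑ b, (c (bJ j') * (uJ j' a * uJ j' b)) * sJ j' a b) := by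
    intro a
    exact (Est.sum (h1 a) (by positivity) hM hZ).mono_C hZ hM (by push_cast; linarith)
  exact (Est.sum h2 (by positivity) hM hZ).mono_C hZ hM (by push_cast; linarith)

include hε hr in
/-- `W₃ |S u|²`. -/
lemma est_cSuSu (hc : CfP C₀ 1 0 c (bJ j) (bJ j')) :
    Est (Zj j j') (Mj ε j j') 4 (6912 * C₀) (c (bJ j) * ((sJ j *ᵥ uJ j) ⬝ᵥ (sJ j *ᵥ uJ j)))
      (c (bJ j') * ((sJ j' *ᵥ uJ j') ⬝ᵥ (sJ j' *ᵥ uJ j'))) := by
  have hZ := Zj_nonneg j j'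
  have hM := Mj_nonneg hε j j'
  have hC := hc.C0
  have e : ∀ j : Jet E4 H4, c (bJ j) * ((sJ j *ᵥ uJ j) ⬝ᵥ (sJ j *ᵥ uJ j)) =
      ∑ a, ∑ b, ∑ d, (c (bJ j) * (uJ j b * uJ j d)) * (sJ j a b * sJ j a d) := by
    intro j
    simp only [dotProduct, Matrix.mulVec, Finset.mul_sum, Finset.sum_mul]
    refine Finset.sum_congr rfl fun a _ => ?_
    rw [Finset.sum_comm]
    refine Finset.sum_congr rfl fun b _ => Finset.sum_congr rfl fun d _ => ?_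
    ring
  rw [e, e]
  have h1 : ∀ a b d, Est (Zj j j') (Mj ε j j') 4 (108 * C₀)
      ((c (bJ j) * (uJ j b * uJ j d)) * (sJ j a b * sJ j a d))
      ((c (bJ j') * (uJ j' b * uJ j' d)) * (sJ j' a b * sJ j' a d)) := by
    intro a b d
    have h2 := (est_s (j := j) (j' := j') hε a b).mul hZ (est_s hε a d)
    have := (est_cuu hε hr hc b d).mul hZ h2
    exact this.mono_C hZ hM (by linarith)
  have h2 : ∀ a b, Est (Zj j j') (Mj ε j j') 4 (432 * C₀)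
      (∑ d, (c (bJ j) * (uJ j b * uJ j d)) * (sJ j a b * sJ j a d))
      (∑ d, (c (bJ j') * (uJ j' b * uJ j' d)) * (sJ j' a b * sJ j' a d)) := by
    intro a b
    exact (Est.sum (h1 a b) (by positivity) hM hZ).mono_C hZ hM (by push_cast; linarith)
  have h3 : ∀ a, Est (Zj j j') (Mj ε j j') 4 (1728 * C₀)
      (∑ b, ∑ d, (c (bJ j) * (uJ j b * uJ j d)) * (sJ j a b * sJ j a d))
      (∑ b, ∑ d, (c (bJ j') * (uJ j' b * uJ j' d)) * (sJ j' a b * sJ j' a d)) := by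
    intro a
    exact (Est.sum (h2 a) (by positivity) hM hZ).mono_C hZ hM (by push_cast; linarith)
  exact (Est.sum h3 (by positivity) hM hZ).mono_C hZ hM (by push_cast; linarith)

/-! ### the integrand -/

/-- expanded form of `IE`. -/
lemma IE_eq (A B W : ℝ × ℝ × ℝ → ℝ) (j : Jet E4 H4) : IE A B W j =
    -(A (bJ j) * xJ j + (pd1 A (bJ j) * (uJ j ⬝ᵥ uJ j) + pd2 A (bJ j) * (vJ j ⬝ᵥ uJ j) +
        pd3 A (bJ j) * (2 * (uJ j ⬝ᵥ (sJ j *ᵥ uJ j)))) +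
      B (bJ j) * kJ j + (pd1 B (bJ j) * (vJ j ⬝ᵥ uJ j) + pd2 B (bJ j) * (vJ j ⬝ᵥ vJ j) +
        pd3 B (bJ j) * (2 * (vJ j ⬝ᵥ (sJ j *ᵥ uJ j)))) +
      W (bJ j) * (xJ j * xJ j - (∑ a, ∑ b, sJ j a b ^ 2) - uJ j ⬝ᵥ uJ j) +
      xJ j * (pd1 W (bJ j) * (uJ j ⬝ᵥ uJ j) + pd2 W (bJ j) * (vJ j ⬝ᵥ uJ j) +
        2 * (pd3 W (bJ j) * (uJ j ⬝ᵥ (sJ j *ᵥ uJ j)))) -
      (pd1 W (bJ j) * (uJ j ⬝ᵥ (sJ j *ᵥ uJ j)) + pd2 W (bJ j) * (vJ j ⬝ᵥ (sJ j *ᵥ uJ j)) +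
        2 * (pd3 W (bJ j) * ((sJ j *ᵥ uJ j) ⬝ᵥ (sJ j *ᵥ uJ j))))) := by
  have c1 : (sJ j *ᵥ uJ j) ⬝ᵥ uJ j = uJ j ⬝ᵥ (sJ j *ᵥ uJ j) := dotProduct_comm _ _
  have c2 : (sJ j *ᵥ uJ j) ⬝ᵥ vJ j = vJ j ⬝ᵥ (sJ j *ᵥ uJ j) := dotProduct_comm _ _
  have c3 : uJ j ⬝ᵥ vJ j = vJ j ⬝ᵥ uJ j := dotProduct_comm _ _
  simp only [IE, NN, add_dotProduct, smul_dotProduct, smul_eq_mul, trace_sJ, c1, c2, c3]
  ring

/-- bounds of all coefficients. -/
structure CfAll (D : Set (ℝ × ℝ)) (C₀ : ℝ) (A B W : ℝ × ℝ × ℝ → ℝ) : Prop where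
  A0 : Cf D C₀ 0 1 A
  A1 : Cf D C₀ 0 1 (pd1 A)
  A2 : Cf D C₀ 0 1 (pd2 A)
  A3 : Cf D C₀ 0 0 (pd3 A)
  B0 : Cf D C₀ 0 1 B
  B1 : Cf D C₀ 0 1 (pd1 B)
  B2 : Cf D C₀ 0 1 (pd2 B)
  B3 : Cf D C₀ 0 0 (pd3 B)
  W0 : Cf D C₀ 0 0 W
  W1 : Cf D C₀ 0 0 (pd1 W)
  W2 : Cf D C₀ 0 0 (pd2 W)
  W3 : Cf D C₀ 1 0 (pd3 W)

/-- bounds of all coefficients at a pair of points. -/
structure CfAllP (C₀ : ℝ) (A B W : ℝ × ℝ × ℝ → ℝ) (z z' : ℝ × ℝ × ℝ) : Prop where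
  A0 : CfP C₀ 0 1 A z z'
  A1 : CfP C₀ 0 1 (pd1 A) z z'
  A2 : CfP C₀ 0 1 (pd2 A) z z'
  A3 : CfP C₀ 0 0 (pd3 A) z z'
  B0 : CfP C₀ 0 1 B z z'
  B1 : CfP C₀ 0 1 (pd1 B) z z'
  B2 : CfP C₀ 0 1 (pd2 B) z z'
  B3 : CfP C₀ 0 0 (pd3 B) z z'
  W0 : CfP C₀ 0 0 W z z'
  W1 : CfP C₀ 0 0 (pd1 W) z z'
  W2 : CfP C₀ 0 0 (pd2 W) z z'
  W3 : CfP C₀ 1 0 (pd3 W) z z'

include hε hr in
/-- **weight four estimate for `IE`**, pair version. -/
theorem est_IE_P {A B W : ℝ × ℝ × ℝ → ℝ} (h : CfAllP C₀ A B W (bJ j) (bJ j')) :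
    Est (Zj j j') (Mj ε j j') 4 (10 ^ 5 * C₀) (IE A B W j) (IE A B W j') := by
  have hC := h.A0.C0
  have hZ := Zj_nonneg j j'
  have hM := Mj_nonneg hε j j'
  have cA := est_coef hε hr 1 h.A0
  have cA1 := est_coef hε hr 1 h.A1
  have cA2 := est_coef hε hr 1 h.A2
  have cA3 := est_coef hε hr 0 h.A3
  have cB := est_coef hε hr 1 h.B0
  have cB1 := est_coef hε hr 1 h.B1
  have cB2 := est_coef hε hr 1 h.B2
  have cB3 := est_coef hε hr 0 h.B3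
  have cW := est_coef hε hr 0 h.W0
  have cW1 := est_coef hε hr 0 h.W1
  have cW2 := est_coef hε hr 0 h.W2
  have eX := est_x (j := j) (j' := j') hε
  have eK := est_kJ (j := j) (j' := j') hε
  have euu := est_uu hε hr
  have evu := est_vu hε hr
  have evv := est_vv (j := j) (j' := j') hε
  have euSu := est_uSu hε hr
  have evSu := est_vSu hε hr
  have erho := est_rho (j := j) (j' := j') hε
  have cSuu := est_cSuu hε hr h.W3
  have cSS := est_cSuSu hε hr h.W3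
  rw [IE_eq, IE_eq]
  have t1 := cA.mul hZ eX
  have t2 := cA1.mul hZ euu
  have t3 := cA2.mul hZ evu
  have t4 := cA3.mul hZ (euSu.smul 2)
  have t5 := cB.mul hZ eK
  have t6 := cB1.mul hZ evu
  have t7 := cB2.mul hZ evv
  have t8 := cB3.mul hZ (evSu.smul 2)
  have t9 := cW.mul hZ (((eX.mul hZ eX).sub erho).sub (euu.mono_k (one_le_Zj j j') hM
    (by norm_num : 2 ≤ 4)))
  have t10 := eX.mul hZ (((cW1.mul hZ euu).add (cW2.mul hZ evu)).add (cSuu.smul 2))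
  have t11 := ((cW1.mul hZ euSu).add (cW2.mul hZ evSu)).add (cSS.smul 2)
  have t := ((((((t1.add ((t2.add t3).add t4)).add t5).add ((t6.add t7).add t8)).add t9).add
    t10).sub t11).neg
  refine t.mono_C hZ hM ?_
  simp only [abs_of_pos (by norm_num : (0:ℝ) < 2)]
  nlinarith



lemma Est.lip {K a a' : ℝ} {ε : ℝ} {j j' : Jet E4 H4} (h : Est (Zj j j') (Mj ε j j') 4 K a a') :
    |a - a'| ≤ K * Lim621.Mod ε j j' := by
  have hZ := one_le_Zj j j'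
  have hZ2 : 0 < Zj j j' ^ 2 := by positivity
  have h1 : |a - a'| * Zj j j' ^ 2 ≤ (K * (Mj ε j j' * Zj j j' ^ 2)) * Zj j j' ^ 2 := by
    refine h.d.trans (le_of_eq ?_)
    ring
  have h2 := le_of_mul_le_mul_right h1 hZ2
  refine h2.trans (le_of_eq ?_)
  congr 1
  have e1 : Real.sqrt (j.W + j'.W) = Zj j j' := rfl
  rw [Lim621.Mod, Mj, e1, ← Zj_sq]
  ring


end Crest.Agent.R249.Eta467
end
end

-- ▼ part R249/Eta3b_467
section

/-!
# R249 (helper467), A2-ETA part 3b: change of the traces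

`shT α β j` : the traces `P.1`, `Q.1` are changed by `α`, `β`; `IE_shT` exact formula; `tr_IE` bound.
-/

set_option autoImplicit false
set_option linter.unusedVariables false
set_option linter.unusedSectionVars false

open MeasureTheory Set Filter Topology Matrix
open scoped ContDiff

noncomputable section

namespace Crest.Agent.R249.Eta467

open Calc_806 Calc_806.Calc DivC467 Lim621

attribute [local instance] Matrix.frobeniusNormedAddCommGroup Matrix.frobeniusNormedSpace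

/-- change of the traces. -/
def shT (α β : ℝ) (j : Jet E4 H4) : Jet E4 H4 where
  f := j.f
  g := j.g
  p := j.p
  q := j.q
  P := (j.P.1 + α, j.P.2)
  Q := (j.Q.1 + β, j.Q.2)

lemma xJ_shT (α β : ℝ) (j : Jet E4 H4) : xJ (shT α β j) = xJ j + (α - β) := by
  simp only [xJ, shT]; ring

lemma kJ_shT (α β : ℝ) (j : Jet E4 H4) : kJ (shT α β j) = kJ j + (α + β) / 2 := by
  simp only [kJ, shT]; ring

lemma sJ_shT (α β : ℝ) (j : Jet E4 H4) :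
    sJ (shT α β j) = sJ j + ((α - β) / 4) • (1 : Matrix (Fin 4) (Fin 4) ℝ) := by
  rw [sJ, sJ, xJ_shT]
  have h : (shT α β j).P.2 = j.P.2 := rfl
  rw [h, add_assoc, ← add_smul]
  congr 2
  ring

/-- **exact change of the integrand** under a change of the traces. -/
theorem IE_shT (A B W : ℝ × ℝ × ℝ → ℝ) (α β : ℝ) (j : Jet E4 H4) :
    IE A B W (shT α β j) = IE A B W j - (B (bJ j) * ((α + β) / 2) + (α - β) / 4 *
      (4 * A (bJ j) + 2 * (pd3 A (bJ j) * (uJ j ⬝ᵥ uJ j)) + 2 * (pd3 B (bJ j) * (vJ j ⬝ᵥ uJ j)) +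
        6 * (W (bJ j) * xJ j) + 12 * (W (bJ j) * ((α - β) / 4)) +
        3 * (pd1 W (bJ j) * (uJ j ⬝ᵥ uJ j) + pd2 W (bJ j) * (vJ j ⬝ᵥ uJ j)) +
        2 * (pd3 W (bJ j) * (uJ j ⬝ᵥ uJ j) * (xJ j + 3 * ((α - β) / 4))) +
        4 * (pd3 W (bJ j) * (uJ j ⬝ᵥ (sJ j *ᵥ uJ j))))) := by
  have hb : bJ (shT α β j) = bJ j := rfl
  have hu : uJ (shT α β j) = uJ j := rfl
  have hv : vJ (shT α β j) = vJ j := rfl
  set t : ℝ := (α - β) / 4 with ht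
  have hSu : sJ (shT α β j) *ᵥ uJ j = sJ j *ᵥ uJ j + t • uJ j := by
    rw [sJ_shT, Matrix.add_mulVec, Matrix.smul_mulVec, Matrix.one_mulVec]
  have hρ : ∑ a, ∑ b, sJ (shT α β j) a b ^ 2 =
      ∑ a, ∑ b, sJ j a b ^ 2 + 2 * t * xJ j + 4 * t ^ 2 := by
    have e1 : ∀ a b, sJ (shT α β j) a b ^ 2 = sJ j a b ^ 2 +
        (if a = b then (2 * t * sJ j a b + t ^ 2) else 0) := by
      intro a b
      rw [sJ_shT, ← ht, Matrix.add_apply, Matrix.smul_apply, smul_eq_mul]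
      by_cases h : a = b
      · rw [if_pos h, h, Matrix.one_apply_eq]; ring
      · rw [if_neg h, Matrix.one_apply_ne h]; ring
    have e2 : ∀ a, ∑ b, sJ (shT α β j) a b ^ 2 = ∑ b, sJ j a b ^ 2 +
        (2 * t * sJ j a a + t ^ 2) := by
      intro a
      simp only [e1, Finset.sum_add_distrib, Finset.sum_ite_eq, Finset.mem_univ, if_true]
    have e3 : ∑ a, sJ j a a = xJ j := trace_sJ j
    simp only [e2, Finset.sum_add_distrib, ← Finset.mul_sum, e3]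
    simp only [Finset.sum_const, Finset.card_univ, Fintype.card_fin, nsmul_eq_mul]
    push_cast
    ring
  have hα : α - β = 4 * t := by rw [ht]; ring
  rw [IE_eq, IE_eq, hb, hu, hv, xJ_shT, kJ_shT, hSu, hρ, hα]
  simp only [dotProduct_add, add_dotProduct, dotProduct_smul, smul_dotProduct, smul_eq_mul]
  have c1 : (sJ j *ᵥ uJ j) ⬝ᵥ uJ j = uJ j ⬝ᵥ (sJ j *ᵥ uJ j) := dotProduct_comm _ _
  rw [c1]
  ring

/-- weight of a jet without the Hessian. -/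
def Nj (j : Jet E4 H4) : ℝ := 1 + ‖j.p‖ ^ 2 + ‖j.q‖ ^ 2 + |j.P.1| + |j.Q.1|

lemma uu_norm (j : Jet E4 H4) : uJ j ⬝ᵥ uJ j = ‖j.p - j.q‖ ^ 2 := by
  rw [EuclideanSpace.norm_sq_eq, uJ]
  simp only [dotProduct, Real.norm_eq_abs, sq_abs]
  exact Finset.sum_congr rfl fun i _ => by ring

lemma uu_le_Nj (j : Jet E4 H4) : 1 + uJ j ⬝ᵥ uJ j ≤ 2 * Nj j := by
  rw [uu_norm, Nj]
  have h1 := norm_sub_le j.p j.q
  have h2 : ‖j.p - j.q‖ ^ 2 ≤ (‖j.p‖ + ‖j.q‖) ^ 2 := pow_le_pow_left₀ (norm_nonneg _) h1 2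
  nlinarith [sq_nonneg (‖j.p‖ - ‖j.q‖), abs_nonneg j.P.1, abs_nonneg j.Q.1]


lemma abs_xJ_le_Nj (j : Jet E4 H4) : |xJ j| ≤ Nj j := by
  have h1 : |xJ j| ≤ |j.P.1| + |j.Q.1| := abs_sub _ _
  rw [Nj]
  nlinarith [sq_nonneg ‖j.p‖, sq_nonneg ‖j.q‖]



end Crest.Agent.R249.Eta467
end
end

-- ▼ part R249/Eta4_467

/-!
# R249 (helper467), A2-ETA part 4: from the `3 × 3`, `2 × 2` forms to the integrand

* `IntAt`, `VtxAt` : the inequalities delivered by the exact checks (plain real inequalities);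
* `IE_ge_int`, `IE_ge_con` : the integrand on exact jets, in the interior and at contact;
* `cert_eta` : the certificate.
-/

set_option autoImplicit false
set_option linter.unusedVariables false
set_option linter.unusedSectionVars false

open MeasureTheory Set Filter Topology Matrix
open scoped ContDiff

noncomputable section

namespace Crest.Agent.R249.Eta467

open Calc_806 Calc_806.Calc DivC467 Lim621 PenH_806

attribute [local instance] Matrix.frobeniusNormedAddCommGroup Matrix.frobeniusNormedSpace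

/-! ### the forms at a point -/

/-- the `3 × 3` form of the field `(A, B, W)` at the point `z = (η, m, G)`. -/
def F3 (θ : ℝ) (A B W : ℝ × ℝ × ℝ → ℝ) (z : ℝ × ℝ × ℝ) (X K q h k : ℝ) : ℝ :=
  Q3 θ (A z) (pd1 A z) (pd2 A z) (pd3 A z) (B z) (pd1 B z) (pd2 B z) (pd3 B z)
    (W z) (pd1 W z) (pd2 W z) (pd3 W z) X K q h k

/-- the `2 × 2` form. -/
def F2 (θ : ℝ) (B W : ℝ × ℝ × ℝ → ℝ) (z : ℝ × ℝ × ℝ) (q ss sw ww : ℝ) : ℝ :=
  Q2 θ (pd2 B z) (pd3 B z) (W z) (pd2 W z) (pd3 W z) q ss sw ww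

/-- `f φ - f ψ`. -/
def X0 (f : ℝ → ℝ) (z : ℝ × ℝ × ℝ) : ℝ := f (z.2.1 + z.1 / 2) - f (z.2.1 - z.1 / 2)

/-- `(f φ + f ψ)/2`. -/
def K0 (f : ℝ → ℝ) (z : ℝ × ℝ × ℝ) : ℝ := (f (z.2.1 + z.1 / 2) + f (z.2.1 - z.1 / 2)) / 2

/-- the interior inequalities at `z`, `q² = G`. -/
structure IntAt (f : ℝ → ℝ) (θ : ℝ) (A B W o0 o2 : ℝ × ℝ × ℝ → ℝ) (z : ℝ × ℝ × ℝ) (q : ℝ) :
    Prop where
  f3 : ∀ h k, o0 z + o2 z * k ^ 2 ≤ F3 θ A B W z (X0 f z) (K0 f z) q h k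
  f2 : ∀ ss sw ww, 0 ≤ ss → 0 ≤ ww → sw ^ 2 ≤ ss * ww → o2 z * ww ≤ F2 θ B W z q ss sw ww

/-- the contact inequality at `z` for `dm = σ dη`, with `Lη = X0 + x`, `Lm = K0 + y`. -/
def VtxAt (f : ℝ → ℝ) (θ : ℝ) (A B W o0 o2 : ℝ × ℝ × ℝ → ℝ) (z : ℝ × ℝ × ℝ) (q σ x y : ℝ) : Prop :=
  ∀ h, o0 z + o2 z * (σ * q) ^ 2 ≤ F3 θ A B W z (X0 f z + x) (K0 f z + y) q h (σ * q)

lemma IntAt.vtx {f : ℝ → ℝ} {θ : ℝ} {A B W o0 o2 : ℝ × ℝ × ℝ → ℝ} {z : ℝ × ℝ × ℝ} {q : ℝ}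
    (H : IntAt f θ A B W o0 o2 z q) (σ : ℝ) : VtxAt f θ A B W o0 o2 z q σ 0 0 := by
  intro h
  rw [add_zero, add_zero]
  exact H.f3 h _

/-- concavity of the `3 × 3` form in `(X, K)`. -/
lemma F3_concave {θ : ℝ} {A B W : ℝ × ℝ × ℝ → ℝ} {z : ℝ × ℝ × ℝ} (hθ : 0 ≤ θ) (hW : 0 ≤ W z)
    {q h k X0 K0 X1 K1 X2 K2 l0 l1 l2 o : ℝ} (h0 : 0 ≤ l0) (h1 : 0 ≤ l1) (h2 : 0 ≤ l2)
    (hl : l0 + l1 + l2 = 1) (g0 : o ≤ F3 θ A B W z X0 K0 q h k) (g1 : o ≤ F3 θ A B W z X1 K1 q h k)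
    (g2 : o ≤ F3 θ A B W z X2 K2 q h k) :
    o ≤ F3 θ A B W z (l0 * X0 + l1 * X1 + l2 * X2) (l0 * K0 + l1 * K1 + l2 * K2) q h k := by
  have e : F3 θ A B W z (l0 * X0 + l1 * X1 + l2 * X2) (l0 * K0 + l1 * K1 + l2 * K2) q h k =
      l0 * F3 θ A B W z X0 K0 q h k + l1 * F3 θ A B W z X1 K1 q h k +
        l2 * F3 θ A B W z X2 K2 q h k + (2 + θ) / 3 * W z *
        (l0 * l1 * (X0 - X1) ^ 2 + l0 * l2 * (X0 - X2) ^ 2 + l1 * l2 * (X1 - X2) ^ 2) := by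
    have hl0 : l0 = 1 - l1 - l2 := by linarith
    subst hl0
    simp only [F3, Q3]
    ring
  have hp : 0 ≤ (2 + θ) / 3 * W z *
      (l0 * l1 * (X0 - X1) ^ 2 + l0 * l2 * (X0 - X2) ^ 2 + l1 * l2 * (X1 - X2) ^ 2) := by
    positivity
  have m0 := mul_le_mul_of_nonneg_left g0 h0
  have m1 := mul_le_mul_of_nonneg_left g1 h1
  have m2 := mul_le_mul_of_nonneg_left g2 h2
  have e2 : l0 * o + l1 * o + l2 * o = o := by rw [← add_mul, ← add_mul, hl, one_mul]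
  rw [e]
  linarith

/-! ### jets -/

lemma bJ_phi (j : Jet E4 H4) : (bJ j).2.1 + (bJ j).1 / 2 = j.f := by
  simp only [bJ]; ring

lemma bJ_psi (j : Jet E4 H4) : (bJ j).2.1 - (bJ j).1 / 2 = j.g := by
  simp only [bJ]; ring

/-- general reduction: any jet, `X = tr`, `K = Lm`. -/
theorem IE_ge {θ : ℝ} {A B W : ℝ × ℝ × ℝ → ℝ} {j : Jet E4 H4} (hθ : θ ≤ 1) (hW : 0 ≤ W (bJ j))
    {e : Fin 4 → ℝ} {q h k : ℝ} {s w : Fin 4 → ℝ} (J : Adp (uJ j) (vJ j) (sJ j) e q h k s w) :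
    F3 θ A B W (bJ j) (xJ j) (kJ j) q h k + F2 θ B W (bJ j) q (s ⬝ᵥ s) (s ⬝ᵥ w) (w ⬝ᵥ w) +
      θ * W (bJ j) * (∑ a, ∑ b, sJ j a b ^ 2) ≤ IE A B W j := by
  have := NN_ge (A := A (bJ j)) (A1 := pd1 A (bJ j)) (A2 := pd2 A (bJ j)) (A3 := pd3 A (bJ j))
    (B := B (bJ j)) (B1 := pd1 B (bJ j)) (B2 := pd2 B (bJ j)) (B3 := pd3 B (bJ j))
    (C := W (bJ j)) (C1 := pd1 W (bJ j)) (C2 := pd2 W (bJ j)) (C3 := pd3 W (bJ j))
    (K := kJ j) (ρ := ∑ a, ∑ b, sJ j a b ^ 2) hθ hW J le_rfl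
  rw [trace_sJ] at this
  exact this

lemma cs_dot (s w : Fin 4 → ℝ) : (s ⬝ᵥ w) ^ 2 ≤ (s ⬝ᵥ s) * (w ⬝ᵥ w) := by
  have := Finset.sum_mul_sq_le_sq_mul_sq Finset.univ s w
  simp only [dotProduct]
  refine this.trans (le_of_eq ?_)
  congr 1 <;> exact Finset.sum_congr rfl fun i _ => by ring

lemma dot_nonneg (s : Fin 4 → ℝ) : 0 ≤ s ⬝ᵥ s := Finset.sum_nonneg fun i _ => mul_self_nonneg _

/-- **interior.** -/
theorem IE_ge_int {f : ℝ → ℝ} {θ : ℝ} {A B W o0 o2 : ℝ × ℝ × ℝ → ℝ} {j : Jet E4 H4} (hθ : θ ≤ 1)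
    (hW : 0 ≤ W (bJ j)) (hP : j.P ∈ SyH) (h1 : j.P.1 = f j.f) (h2 : j.Q.1 = f j.g)
    (H : ∀ q, 0 ≤ q → q ^ 2 = uJ j ⬝ᵥ uJ j → IntAt f θ A B W o0 o2 (bJ j) q) :
    o0 (bJ j) + o2 (bJ j) * (vJ j ⬝ᵥ vJ j) + θ * W (bJ j) * (∑ a, ∑ b, sJ j a b ^ 2) ≤
      IE A B W j := by
  obtain ⟨e, q, h, k, s, w, J⟩ := exists_Adp (uJ j) (vJ j) (symm_sJ hP)
  have hI := H q J.q0 J.uu.symm
  have hx : xJ j = X0 f (bJ j) := by rw [X0, bJ_phi, bJ_psi, xJ, h1, h2]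
  have hk : kJ j = K0 f (bJ j) := by rw [K0, bJ_phi, bJ_psi, kJ, h1, h2]; ring
  have h3 := hI.f3 h k
  have h4 := hI.f2 _ _ _ (dot_nonneg s) (dot_nonneg w) (cs_dot s w)
  have h5 := IE_ge (A := A) (B := B) hθ hW J
  rw [hx, hk] at h5
  rw [J.vv]
  linarith

/-- **contact.** -/
theorem IE_ge_con {f : ℝ → ℝ} {θ : ℝ} {A B W o0 o2 : ℝ × ℝ × ℝ → ℝ} {j : Jet E4 H4} (hθ0 : 0 ≤ θ)
    (hθ : θ ≤ 1) (hW : 0 ≤ W (bJ j)) (hP : j.P ∈ SyH) {m₁ m₂ : ℝ} (h1 : j.P.1 = f j.f + m₁)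
    (h2 : j.Q.1 = f j.g + m₂) {σ κ₁ κ₂ E : ℝ} (hv : vJ j = σ • uJ j) (hm₁ : 0 ≤ m₁)
    (hm₂ : 0 ≤ m₂) (hκ₁ : 0 < κ₁) (hκ₂ : 0 < κ₂) (hE : κ₁ * m₁ + κ₂ * m₂ ≤ max E 0)
    (H0 : ∀ q, 0 ≤ q → q ^ 2 = uJ j ⬝ᵥ uJ j → VtxAt f θ A B W o0 o2 (bJ j) q σ 0 0)
    (H1 : 0 < E → ∀ q, 0 ≤ q → q ^ 2 = uJ j ⬝ᵥ uJ j →
      VtxAt f θ A B W o0 o2 (bJ j) q σ (E / κ₁) (E / κ₁ / 2))
    (H2 : 0 < E → ∀ q, 0 ≤ q → q ^ 2 = uJ j ⬝ᵥ uJ j →
      VtxAt f θ A B W o0 o2 (bJ j) q σ (-(E / κ₂)) (E / κ₂ / 2))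
    (Hs : ∀ q, 0 ≤ q → q ^ 2 = uJ j ⬝ᵥ uJ j → ∀ ss, 0 ≤ ss → 0 ≤ F2 θ B W (bJ j) q ss 0 0) :
    o0 (bJ j) + o2 (bJ j) * (vJ j ⬝ᵥ vJ j) + θ * W (bJ j) * (∑ a, ∑ b, sJ j a b ^ 2) ≤
      IE A B W j := by
  obtain ⟨e, q, h, k, s, w, J⟩ := exists_Adp (uJ j) (vJ j) (symm_sJ hP)
  have hx : xJ j = X0 f (bJ j) + (m₁ - m₂) := by rw [X0, bJ_phi, bJ_psi, xJ, h1, h2]; ring
  have hkk : kJ j = K0 f (bJ j) + (m₁ + m₂) / 2 := by rw [K0, bJ_phi, bJ_psi, kJ, h1, h2]; ring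
  have h5 := IE_ge (A := A) (B := B) hθ hW J
  -- `k = σ q`, `w = 0`
  have hk : k = σ * q := by
    have e1 : e ⬝ᵥ vJ j = k := by
      rw [J.hv, dotProduct_add, dotProduct_smul, J.ee, J.ew, smul_eq_mul]; ring
    have e2 : e ⬝ᵥ vJ j = σ * q := by
      rw [hv, dotProduct_smul, smul_eq_mul]
      have : e ⬝ᵥ uJ j = q := by rw [J.hu, dotProduct_smul, J.ee, smul_eq_mul, mul_one]
      rw [this]
    rw [← e1, e2]
  have hw : w = 0 := by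
    have e1 : k • e + w = (σ * q) • e := by
      rw [← J.hv, hv]
      conv_lhs => rw [J.hu]
      rw [smul_smul]
    rw [hk] at e1
    exact add_eq_left.1 e1
  have hvv : vJ j ⬝ᵥ vJ j = (σ * q) ^ 2 := by
    rw [J.vv, hk, hw]; simp
  have hs0 : s ⬝ᵥ w = 0 := by rw [hw]; simp
  have hw0 : w ⬝ᵥ w = 0 := by rw [hw]; simp
  rw [hx, hkk, hk, hs0, hw0] at h5
  have h6 := Hs q J.q0 J.uu.symm _ (dot_nonneg s)
  rw [hvv]
  have key : o0 (bJ j) + o2 (bJ j) * (σ * q) ^ 2 ≤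
      F3 θ A B W (bJ j) (X0 f (bJ j) + (m₁ - m₂)) (K0 f (bJ j) + (m₁ + m₂) / 2) q h (σ * q) := by
    have v0 := H0 q J.q0 J.uu.symm h
    rcases le_or_gt E 0 with hE0 | hE0
    · rw [max_eq_right hE0] at hE
      have a1 : 0 ≤ κ₁ * m₁ := by positivity
      have a2 : 0 ≤ κ₂ * m₂ := by positivity
      have b1 : m₁ = 0 := by
        have : κ₁ * m₁ = 0 := by linarith
        rcases mul_eq_zero.1 this with h | h
        · exact absurd h hκ₁.ne'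
        · exact h
      have b2 : m₂ = 0 := by
        have : κ₂ * m₂ = 0 := by linarith
        rcases mul_eq_zero.1 this with h | h
        · exact absurd h hκ₂.ne'
        · exact h
      rw [b1, b2]
      simpa using v0
    · rw [max_eq_left hE0.le] at hE
      have v1 := H1 hE0 q J.q0 J.uu.symm h
      have v2 := H2 hE0 q J.q0 J.uu.symm h
      have hl1 : 0 ≤ κ₁ * m₁ / E := by positivity
      have hl2 : 0 ≤ κ₂ * m₂ / E := by positivity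
      have hl0 : 0 ≤ 1 - κ₁ * m₁ / E - κ₂ * m₂ / E := by
        have : κ₁ * m₁ / E + κ₂ * m₂ / E ≤ 1 := by
          rw [← add_div, div_le_one hE0]; exact hE
        linarith
      have := F3_concave hθ0 hW hl0 hl1 hl2 (by ring) v0 v1 v2
      refine this.trans (le_of_eq ?_)
      congr 1 <;> · field_simp; ring
  linarith

end Crest.Agent.R249.Eta467
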