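import Crest.Agent.R249.C2a_198

-- ▼ part R249/C2b_198
section

/-!
Twisting a Dirac type operator by a bundle `G` (row 249, part C2 of the blueprint, helper198).
-/

set_option autoImplicit false
set_option linter.unusedSectionVars false

namespace Crest.Agent.R249.C2_198

open Finset Matrix
open scoped Kronecker
open Crest.Agent.R249.Fr129

variable {n : ℕ} {S : Type*} [CommRing S] [Algebra ℝ S] (F : Frame n S)
variable {κ0 κ1 ι : Type*} [Fintype κ0] [Fintype κ1] [DecidableEq κ0] [DecidableEq κ1]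
  [Fintype ι] [DecidableEq ι]

lemma tens_eq (a : Fin n → Matrix κ0 κ0 S) (g : Fin n → Matrix ι ι S) (k : Fin n) :
    Frame.tens a g k = a k ⊗ₖ (1 : Matrix ι ι S) + (1 : Matrix κ0 κ0 S) ⊗ₖ g k := by
  ext ⟨x1, x2⟩ ⟨y1, y2⟩
  simp only [Frame.tens, Matrix.add_apply, Matrix.kroneckerMap_apply, Matrix.one_apply, mul_ite,
    mul_one, mul_zero, ite_mul, one_mul, zero_mul]

lemma curv_tens_eq (a : Fin n → Matrix κ0 κ0 S) (g : Fin n → Matrix ι ι S) (k l : Fin n) :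
    F.curv (Frame.tens a g) k l
      = F.curv a k l ⊗ₖ (1 : Matrix ι ι S) + (1 : Matrix κ0 κ0 S) ⊗ₖ F.curv g k l := by
  ext ⟨x1, x2⟩ ⟨y1, y2⟩
  rw [F.curv_tens]
  simp only [Matrix.add_apply, Matrix.kroneckerMap_apply, Matrix.one_apply, mul_ite,
    mul_one, mul_zero, ite_mul, one_mul, zero_mul]

/-- twisted symbol -/
def tw (c : Fin n → Matrix κ1 κ0 S) (i : Fin n) : Matrix (κ1 × ι) (κ0 × ι) S :=
  c i ⊗ₖ (1 : Matrix ι ι S)

lemma tw_transpose (c : Fin n → Matrix κ1 κ0 S) :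
    (fun i => (tw (ι := ι) c i)ᵀ) = tw (ι := ι) (fun i => (c i)ᵀ) := by
  funext i
  ext ⟨x1, x2⟩ ⟨y1, y2⟩
  simp only [tw, Matrix.transpose_apply, Matrix.kroneckerMap_apply, Matrix.one_apply,
    eq_comm (a := x2)]

lemma tw_mul {κ2 : Type*} [Fintype κ2] [DecidableEq κ2] (A : Matrix κ1 κ0 S) (B : Matrix κ0 κ2 S) :
    (A ⊗ₖ (1 : Matrix ι ι S)) * (B ⊗ₖ (1 : Matrix ι ι S)) = (A * B) ⊗ₖ (1 : Matrix ι ι S) := by
  rw [← Matrix.mul_kronecker_mul, one_mul]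

variable {F} {a0 : Fin n → Matrix κ0 κ0 S} {a1 : Fin n → Matrix κ1 κ1 S}
  {c : Fin n → Matrix κ1 κ0 S}

lemma sum_kron {τ : Type*} (s : Finset τ) (A : τ → Matrix κ1 κ0 S) (B : Matrix ι ι S) :
    (∑ x ∈ s, A x) ⊗ₖ B = ∑ x ∈ s, A x ⊗ₖ B := by
  classical
  induction s using Finset.induction_on with
  | empty => simp
  | insert x s hx ih => rw [sum_insert hx, sum_insert hx, Matrix.add_kronecker, ih]

/-- The twisted symbol is parallel. -/
theorem Par.tw (h : Par F a0 a1 c) (g : Fin n → Matrix ι ι S) :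
    Par F (Frame.tens a0 g) (Frame.tens a1 g) (tw c) where
  const := by
    rintro m i ⟨x1, x2⟩ ⟨y1, y2⟩
    simp only [C2_198.tw, Matrix.kroneckerMap_apply, Matrix.one_apply]
    split_ifs
    · rw [mul_one]; exact h.const m i x1 y1
    · rw [mul_zero, map_zero]
  par := by
    intro m i
    simp only [C2_198.tw]
    rw [tens_eq, tens_eq, Matrix.add_mul, Matrix.mul_add, tw_mul, tw_mul, h.par,
      ← Matrix.mul_kronecker_mul, ← Matrix.mul_kronecker_mul, one_mul, mul_one, Matrix.one_mul,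
      Matrix.mul_one, Matrix.add_kronecker, sum_kron]
    simp only [Matrix.smul_kronecker]
    abel

lemma clif_tw (hcl : ∀ i j, (c i)ᵀ * c j + (c j)ᵀ * c i = if i = j then 2 else 0)
    (i j : Fin n) :
    (tw (ι := ι) c i)ᵀ * tw (ι := ι) c j + (tw (ι := ι) c j)ᵀ * tw (ι := ι) c i
      = if i = j then 2 else 0 := by
  have ht : ∀ i, (tw (ι := ι) c i)ᵀ = (c i)ᵀ ⊗ₖ (1 : Matrix ι ι S) := fun i =>
    congrFun (tw_transpose (ι := ι) c) i
  rw [ht, ht]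
  simp only [tw]
  rw [tw_mul, tw_mul, ← Matrix.add_kronecker, hcl]
  split_ifs
  · have : (2 : Matrix κ0 κ0 S) = (1 : Matrix κ0 κ0 S) + 1 := one_add_one_eq_two.symm
    rw [this, Matrix.add_kronecker, Matrix.one_kronecker_one, one_add_one_eq_two]
  · rw [Matrix.zero_kronecker]

/-- The zero order term of the twisted operator. -/
theorem Q_tw (g : Fin n → Matrix ι ι S) :
    Q F (Frame.tens a0 g) (tw (ι := ι) c)
      = Q F a0 c ⊗ₖ (1 : Matrix ι ι S)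
        + (- Frame.half (S := S)) • ∑ i, ∑ j, ((c i)ᵀ * c j) ⊗ₖ F.curv g i j := by
  have ht : ∀ i, (tw (ι := ι) c i)ᵀ = (c i)ᵀ ⊗ₖ (1 : Matrix ι ι S) := fun i =>
    congrFun (tw_transpose (ι := ι) c) i
  have e : ∀ i j, ((tw (ι := ι) c i)ᵀ * tw (ι := ι) c j) * F.curv (Frame.tens a0 g) i j
      = (((c i)ᵀ * c j) * F.curv a0 i j) ⊗ₖ (1 : Matrix ι ι S)
        + ((c i)ᵀ * c j) ⊗ₖ F.curv g i j := by
    intro i j
    rw [ht, curv_tens_eq]
    simp only [tw]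
    rw [tw_mul, Matrix.mul_add, tw_mul, ← Matrix.mul_kronecker_mul, one_mul, Matrix.mul_one]
  rw [Q, Q]
  simp_rw [e, sum_add_distrib]
  rw [smul_add, Matrix.smul_kronecker, sum_kron]
  simp_rw [sum_kron]

end Crest.Agent.R249.C2_198
end

-- ▼ part R249/C2c_198

/-!
Dimension four: the matrices `K a` (= minus right multiplication by `i,j,k` on quaternions,
anti-self-dual), the bundle `Λ⁻`, the bundle `ℝ ⊕ Λ⁻`, Clifford multiplication
`T ⊗ (ℝ ⊕ Λ⁻) → T` and its properties.  (row 249, part C2 of the blueprint, helper198)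
-/

set_option autoImplicit false
set_option linter.unusedSectionVars false
set_option linter.unusedSimpArgs false

namespace Crest.Agent.R249.C2_198

open Finset Matrix
open scoped Kronecker
open Crest.Agent.R249.Fr129

section const

variable (S : Type*) [CommRing S]

/-- `K_a` = minus right multiplication by the `a`-th imaginary unit. -/
def K : Fin 3 → Matrix (Fin 4) (Fin 4) S :=
  ![!![0, 1, 0, 0; -1, 0, 0, 0; 0, 0, 0, -1; 0, 0, 1, 0],
    !![0, 0, 1, 0; 0, 0, 0, 1; -1, 0, 0, 0; 0, -1, 0, 0],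
    !![0, 0, 0, 1; 0, 0, -1, 0; 0, 1, 0, 0; -1, 0, 0, 0]]

/-- `J_a` = left multiplication by the `a`-th imaginary unit. -/
def J : Fin 3 → Matrix (Fin 4) (Fin 4) S :=
  ![!![0, -1, 0, 0; 1, 0, 0, 0; 0, 0, 0, -1; 0, 0, 1, 0],
    !![0, 0, -1, 0; 0, 0, 0, 1; 1, 0, 0, 0; 0, -1, 0, 0],
    !![0, 0, 0, -1; 0, 0, -1, 0; 0, 1, 0, 0; 1, 0, 0, 0]]

/-- `KK 0 = 1`, `KK (a+1) = K a`. -/
def KK : Fin 4 → Matrix (Fin 4) (Fin 4) S := ![1, K S 0, K S 1, K S 2]

/-- the Clifford symbol: `(c_i (f,s))_k = f δ_ik + ∑ (K_a)_ki s_a` -/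
def cK (i : Fin 4) : Matrix (Fin 4) (Fin 4) S := fun k a => KK S a k i

/-- `cK` as explicit matrices -/
lemma cK_eq : cK S = ![!![1, 0, 0, 0; 0, -1, 0, 0; 0, 0, -1, 0; 0, 0, 0, -1],
    !![0, 1, 0, 0; 1, 0, 0, 0; 0, 0, 0, 1; 0, 0, -1, 0],
    !![0, 0, 1, 0; 0, 0, 0, -1; 1, 0, 0, 0; 0, 1, 0, 0],
    !![0, 0, 0, 1; 0, 0, 1, 0; 0, -1, 0, 0; 1, 0, 0, 0]] := by
  funext i
  ext k a
  fin_cases i <;> fin_cases k <;> fin_cases a <;> simp [cK, KK, K, Matrix.one_apply]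

lemma cK_zero : cK S 0 = !![1, 0, 0, 0; 0, -1, 0, 0; 0, 0, -1, 0; 0, 0, 0, -1] := by
  rw [cK_eq]; rfl
lemma cK_one : cK S 1 = !![0, 1, 0, 0; 1, 0, 0, 0; 0, 0, 0, 1; 0, 0, -1, 0] := by
  rw [cK_eq]; rfl
lemma cK_two : cK S 2 = !![0, 0, 1, 0; 0, 0, 0, -1; 1, 0, 0, 0; 0, 1, 0, 0] := by
  rw [cK_eq]; rfl
lemma cK_three : cK S 3 = !![0, 0, 0, 1; 0, 0, 1, 0; 0, -1, 0, 0; 1, 0, 0, 0] := by
  rw [cK_eq]; rfl

lemma two_mat : (2 : Matrix (Fin 4) (Fin 4) S)
    = !![2, 0, 0, 0; 0, 2, 0, 0; 0, 0, 2, 0; 0, 0, 0, 2] := by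
  ext i j
  fin_cases i <;> fin_cases j <;> simp [Matrix.ofNat_apply]

/-- integer version of the symbol -/
def cZ : Fin 4 → Matrix (Fin 4) (Fin 4) ℤ :=
  ![!![1, 0, 0, 0; 0, -1, 0, 0; 0, 0, -1, 0; 0, 0, 0, -1],
    !![0, 1, 0, 0; 1, 0, 0, 0; 0, 0, 0, 1; 0, 0, -1, 0],
    !![0, 0, 1, 0; 0, 0, 0, -1; 1, 0, 0, 0; 0, 1, 0, 0],
    !![0, 0, 0, 1; 0, 0, 1, 0; 0, -1, 0, 0; 1, 0, 0, 0]]

lemma cK_cast (i : Fin 4) : cK S i = (cZ i).map (Int.castRingHom S) := by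
  rw [cK_eq]
  ext k a
  fin_cases i <;> fin_cases k <;> fin_cases a <;> simp [cZ]

lemma clifZ0 (i j : Fin 4) :
    (cZ i)ᵀ * cZ j + (cZ j)ᵀ * cZ i = if i = j then 2 else 0 := by
  revert i j; decide +kernel

lemma clifZ1 (i j : Fin 4) :
    cZ i * (cZ j)ᵀ + cZ j * (cZ i)ᵀ = if i = j then 2 else 0 := by
  revert i j; decide +kernel

lemma cK_mapMatrix (i : Fin 4) : cK S i = (Int.castRingHom S).mapMatrix (cZ i) := cK_cast S i

lemma cK_mapMatrix_t (i : Fin 4) : (cK S i)ᵀ = (Int.castRingHom S).mapMatrix (cZ i)ᵀ := by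
  rw [cK_mapMatrix]; rfl

/-- Clifford relations on `ℝ ⊕ Λ⁻`. -/
lemma clif0 (i j : Fin 4) :
    (cK S i)ᵀ * cK S j + (cK S j)ᵀ * cK S i = if i = j then 2 else 0 := by
  rw [cK_mapMatrix_t, cK_mapMatrix_t, cK_mapMatrix, cK_mapMatrix, ← map_mul, ← map_mul, ← map_add,
    clifZ0]
  split_ifs
  · exact map_ofNat _ 2
  · exact map_zero _

/-- Clifford relations on `T`. -/
lemma clif1 (i j : Fin 4) :
    cK S i * (cK S j)ᵀ + cK S j * (cK S i)ᵀ = if i = j then 2 else 0 := by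
  rw [cK_mapMatrix_t, cK_mapMatrix_t, cK_mapMatrix, cK_mapMatrix, ← map_mul, ← map_mul, ← map_add,
    clifZ1]
  split_ifs
  · exact map_ofNat _ 2
  · exact map_zero _

end const

variable {S : Type*} [CommRing S] [Algebra ℝ S] (F : Frame 4 S)

/-- components of the connection of `Λ⁻` -/
def eta (k : Fin 4) : Fin 3 → S :=
  ![-F.w k 0 1 + F.w k 2 3, -F.w k 0 2 - F.w k 1 3, -F.w k 0 3 + F.w k 1 2]

/-- the connection of `Λ⁻` (in the basis `K 0, K 1, K 2`) -/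
def asc (k : Fin 4) : Matrix (Fin 3) (Fin 3) S := cr (eta F k)

/-- the connection of `ℝ ⊕ Λ⁻` -/
def e0 (k : Fin 4) : Matrix (Fin 4) (Fin 4) S :=
  !![0, 0, 0, 0; 0, 0, -eta F k 2, eta F k 1; 0, eta F k 2, 0, -eta F k 0;
    0, -eta F k 1, eta F k 0, 0]

lemma asc_skew : Frame.Skew (asc F) := fun _ i j => cr_skew _ i j

lemma e0_skew : Frame.Skew (e0 F) := by
  intro k i j
  fin_cases i <;> fin_cases j <;> simp [e0]

lemma tan_skew {n : ℕ} (F : Frame n S) : Frame.Skew F.tan := fun k i j => F.anti k j i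

set_option maxHeartbeats 2000000 in
/-- The Clifford symbol is constant and parallel. -/
theorem par_cK : Par F (e0 F) F.tan (cK S) where
  const := by
    intro m i x y
    fin_cases i <;> fin_cases x <;> fin_cases y <;>
      simp [cK_zero, cK_one, cK_two, cK_three]
  par := by
    intro m i
    fin_cases i <;>
      simp only [cK_zero, cK_one, cK_two, cK_three, Fin.zero_eta, Fin.mk_one, Fin.reduceFinMk,
        Fin.sum_univ_four] <;>
      ext x y <;> fin_cases x <;> fin_cases y <;>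
      simp [Matrix.mul_apply, Fin.sum_univ_four, Frame.tan, e0, eta, Frame.w_self, Frame.w10,
        Frame.w20, Frame.w30, Frame.w21, Frame.w31, Frame.w32] <;> ring

/-- components of the curvature of `Λ⁻` -/
def EE (k l : Fin 4) : Fin 3 → S :=
  ![-F.Rm k l 0 1 + F.Rm k l 2 3, -F.Rm k l 0 2 - F.Rm k l 1 3, -F.Rm k l 0 3 + F.Rm k l 1 2]

lemma curv_asc (k l : Fin 4) : F.curv (asc F) k l = cr (EE F k l) := by
  ext i j
  fin_cases i <;> fin_cases j <;>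
    simp [Frame.curv, asc, cr, eta, EE, Frame.Rm, Fin.sum_univ_four, Fin.sum_univ_three,
      Frame.w_self, Frame.w10, Frame.w20, Frame.w21, Frame.w31, Frame.w32, map_add, map_sub,
      map_neg] <;> ring

/-- block diagonal matrix `0 ⊕ cr p` -/
def cr4 (p : Fin 3 → S) : Matrix (Fin 4) (Fin 4) S :=
  !![0, 0, 0, 0; 0, 0, -p 2, p 1; 0, p 2, 0, -p 0; 0, -p 1, p 0, 0]

lemma e0_eq (k : Fin 4) : e0 F k = cr4 (eta F k) := rfl

set_option maxHeartbeats 2000000 in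
lemma curv_e0 (k l : Fin 4) : F.curv (e0 F) k l = cr4 (EE F k l) := by
  ext i j
  fin_cases i <;> fin_cases j <;>
    simp [Frame.curv, e0, cr4, eta, EE, Frame.Rm, Fin.sum_univ_four, Fin.sum_univ_three,
      Frame.w_self, Frame.w10, Frame.w20, Frame.w21, Frame.w31, Frame.w32, map_add, map_sub,
      map_neg] <;> ring

lemma EE_anti (k l : Fin 4) (c : Fin 3) : EE F k l c = - EE F l k c := by
  fin_cases c <;> simp [EE, F.Rm_anti12 k l] <;> ring

end Crest.Agent.R249.C2_198
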