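import Crest.Agent.R247.Bo2_84
import Crest.Agent.R247.Bo3_84
import Crest.Agent.R247.Bo4_84
import Crest.Agent.R249.Vf1_281

-- ▼ part R249/Cod1_992
section

/-!
# R249, leaf D3-COD (helper992), file 1: covariant calculus of endomorphism fields

Coordinate level (`IsRiemannianOn g U`).  `covA g A` is the covariant derivative of an endomorphism
field, `covB g B` the covariant derivative of a field of bilinear maps `𝔼 →L 𝔼 →L 𝔼`, `ctr g x β`
the metric trace of a vector valued bilinear map (`= Σ β ξ_a ξ_a` in a frame), parallel: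
`cov g (ctr β) X = ctr (∇_X β)`.  Ricci identity for endomorphism fields.
-/

set_option autoImplicit false

open scoped ContDiff Topology
open Filter Set
open Crest.GeometryTopology.CoordMetric Crest.GeometryTopology.ChartCurvature
open Crest.Agent.R202.Tens Crest.Agent.R247.Bo84

noncomputable section

namespace Crest.Agent.R249.Cod992

variable {n : ℕ}

local notation "𝔼" => EuclideanSpace ℝ (Fin n)

/-- the covariant derivative of a field of endomorphisms. -/
def covA (g : MetricField n)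
    (A : EuclideanSpace ℝ (Fin n) → EuclideanSpace ℝ (Fin n) →L[ℝ] EuclideanSpace ℝ (Fin n))
    (x : EuclideanSpace ℝ (Fin n)) : EuclideanSpace ℝ (Fin n) →L[ℝ]
      EuclideanSpace ℝ (Fin n) →L[ℝ] EuclideanSpace ℝ (Fin n) :=
  fderiv ℝ A x +
    ((ContinuousLinearMap.compL ℝ (EuclideanSpace ℝ (Fin n)) (EuclideanSpace ℝ (Fin n))
      (EuclideanSpace ℝ (Fin n))).flip (A x)).comp (Gam g x) -
    (ContinuousLinearMap.compL ℝ (EuclideanSpace ℝ (Fin n)) (EuclideanSpace ℝ (Fin n))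
      (EuclideanSpace ℝ (Fin n)) (A x)).comp (Gam g x)

/-- the covariant derivative, in the direction `X`, of a field of vector valued bilinear maps. -/
def covB (g : MetricField n)
    (B : EuclideanSpace ℝ (Fin n) → EuclideanSpace ℝ (Fin n) →L[ℝ]
      EuclideanSpace ℝ (Fin n) →L[ℝ] EuclideanSpace ℝ (Fin n))
    (x X : EuclideanSpace ℝ (Fin n)) : EuclideanSpace ℝ (Fin n) →L[ℝ]
      EuclideanSpace ℝ (Fin n) →L[ℝ] EuclideanSpace ℝ (Fin n) :=
  fderiv ℝ B x X +
    (ContinuousLinearMap.compL ℝ (EuclideanSpace ℝ (Fin n)) (EuclideanSpace ℝ (Fin n))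
      (EuclideanSpace ℝ (Fin n)) (Gam g x X)).comp (B x) -
    ((ContinuousLinearMap.compL ℝ (EuclideanSpace ℝ (Fin n)) (EuclideanSpace ℝ (Fin n))
      (EuclideanSpace ℝ (Fin n))).flip (Gam g x X)).comp (B x) -
    (B x).comp (Gam g x X)

/-- the vector `Σ_i g^{ik} ∂_i`. -/
def nv (g : MetricField n) (k : Fin n) (x : EuclideanSpace ℝ (Fin n)) :
    EuclideanSpace ℝ (Fin n) :=
  WithLp.toLp 2 fun i => inverseField g x i k

/-- metric trace of a vector valued bilinear map. -/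
def ctr (g : MetricField n) (x : EuclideanSpace ℝ (Fin n))
    (β : EuclideanSpace ℝ (Fin n) →L[ℝ]
      EuclideanSpace ℝ (Fin n) →L[ℝ] EuclideanSpace ℝ (Fin n)) : EuclideanSpace ℝ (Fin n) :=
  ∑ k, β (nv g k x) (EuclideanSpace.single k 1)

lemma covA_apply (g : MetricField n) (A : 𝔼 → 𝔼 →L[ℝ] 𝔼) (x X Y : 𝔼) :
    covA g A x X Y = fderiv ℝ A x X Y + Gam g x X (A x Y) - A x (Gam g x X Y) := rfl

lemma covB_apply (g : MetricField n) (B : 𝔼 → 𝔼 →L[ℝ] 𝔼 →L[ℝ] 𝔼) (x X Y Z : 𝔼) :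
    covB g B x X Y Z = fderiv ℝ B x X Y Z + Gam g x X (B x Y Z) - B x Y (Gam g x X Z) -
      B x (Gam g x X Y) Z := rfl

section Symm

variable {g : MetricField n} {U : Set (EuclideanSpace ℝ (Fin n))} {x : EuclideanSpace ℝ (Fin n)}

lemma contDiffAt_covA (hg : IsRiemannianOn g U) (hx : x ∈ U) {k m : WithTop ℕ∞}
    {A : 𝔼 → 𝔼 →L[ℝ] 𝔼} (hA : ContDiffAt ℝ k A x) (hmk : m + 1 ≤ k) (hm : m ≤ ∞) :
    ContDiffAt ℝ m (covA g A) x := by
  have h1 : ContDiffAt ℝ m (fderiv ℝ A) x := hA.fderiv_right hmk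
  have h2 : ContDiffAt ℝ m (Gam g) x := (contDiffAt_Gam hg hx).of_le hm
  have h3 : ContDiffAt ℝ m A x := hA.of_le (le_trans (by simp) hmk)
  have h4 : ContDiffAt ℝ m (fun y => (ContinuousLinearMap.compL ℝ 𝔼 𝔼 𝔼).flip (A y)) x :=
    contDiffAt_const.clm_apply h3
  have h5 : ContDiffAt ℝ m (fun y => ContinuousLinearMap.compL ℝ 𝔼 𝔼 𝔼 (A y)) x :=
    contDiffAt_const.clm_apply h3
  exact (h1.add (h4.clm_comp h2)).sub (h5.clm_comp h2)

/-- Leibniz rule for an endomorphism field applied to a vector field. -/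
lemma cov_clm_apply (g : MetricField n) {A : 𝔼 → 𝔼 →L[ℝ] 𝔼} {V : 𝔼 → 𝔼}
    (hA : DifferentiableAt ℝ A x) (hV : DifferentiableAt ℝ V x) (X : 𝔼) :
    cov g (fun y => A y (V y)) x X = covA g A x X (V x) + A x (cov g V x X) := by
  rw [cov_apply, cov_apply, covA_apply, fderiv_clm_apply hA hV]
  simp only [add_apply, ContinuousLinearMap.comp_apply, ContinuousLinearMap.flip_apply, map_add]
  abel

/-- derivative of `⟨A Y, Z⟩`. -/
lemma fderiv_bil_clm (hg : IsRiemannianOn g U) (hx : x ∈ U) {A : 𝔼 → 𝔼 →L[ℝ] 𝔼}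
    (hA : DifferentiableAt ℝ A x) (X Y Z : 𝔼) :
    fderiv ℝ (fun y => bil (g y) (A y Y) Z) x X =
      bil (g x) (covA g A x X Y) Z + bil (g x) (A x (Gam g x X Y)) Z +
        bil (g x) (A x Y) (Gam g x X Z) := by
  have h1 : DifferentiableAt ℝ (fun y => A y Y) x := hA.clm_apply (differentiableAt_const _)
  rw [fderiv_bil hg hx h1 (differentiableAt_const Z), cov_clm_apply g hA (differentiableAt_const _)]
  simp [cov_apply]

/-- `∇_X A` is self-adjoint when `A` is. -/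
lemma covA_symm (hg : IsRiemannianOn g U) (hx : x ∈ U) {A : 𝔼 → 𝔼 →L[ℝ] 𝔼}
    (hA : DifferentiableAt ℝ A x)
    (hs : ∀ᶠ y in 𝓝 x, ∀ Y Z, bil (g y) (A y Y) Z = bil (g y) Y (A y Z)) (X Y Z : 𝔼) :
    bil (g x) (covA g A x X Y) Z = bil (g x) Y (covA g A x X Z) := by
  have h1 := fderiv_bil_clm hg hx hA X Y Z
  have h2 := fderiv_bil_clm hg hx hA X Z Y
  have h3 : (fun y => bil (g y) (A y Y) Z) =ᶠ[𝓝 x] fun y => bil (g y) (A y Z) Y := by
    filter_upwards [hs, hg.isOpen.mem_nhds hx] with y hy hyU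
    rw [hy Y Z, bil_symm hg hyU]
  rw [h3.fderiv_eq, h2] at h1
  have h4 := hs.self_of_nhds
  rw [bil_symm hg hx Y, h4 (Gam g x X Y) Z, bil_symm hg hx (Gam g x X Y)] at *
  rw [h4 (Gam g x X Z) Y, bil_symm hg hx (Gam g x X Z)] at h1
  linarith

/-- Leibniz rule for a field of bilinear maps. -/
lemma cov_bil_apply (g : MetricField n) {B : 𝔼 → 𝔼 →L[ℝ] 𝔼 →L[ℝ] 𝔼} {V W : 𝔼 → 𝔼}
    (hB : DifferentiableAt ℝ B x) (hV : DifferentiableAt ℝ V x) (hW : DifferentiableAt ℝ W x)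
    (X : 𝔼) :
    cov g (fun y => B y (V y) (W y)) x X = covB g B x X (V x) (W x) +
      B x (cov g V x X) (W x) + B x (V x) (cov g W x X) := by
  rw [cov_apply, cov_apply, cov_apply, covB_apply, fderiv_clm_apply (hB.clm_apply hV) hW,
    fderiv_clm_apply hB hV]
  simp only [add_apply, ContinuousLinearMap.comp_apply, ContinuousLinearMap.flip_apply, map_add]
  abel

/-- the value of `covA` on constant vectors as a field. -/
lemma fderiv_covA (hg : IsRiemannianOn g U) (hx : x ∈ U) {A : 𝔼 → 𝔼 →L[ℝ] 𝔼}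
    (hA : ContDiffAt ℝ 2 A x) (X Y Z : 𝔼) :
    fderiv ℝ (covA g A) x X Y Z = fderiv ℝ (fderiv ℝ A) x X Y Z +
      (fderiv ℝ (Gam g) x X Y (A x Z) + Gam g x Y (fderiv ℝ A x X Z)) -
      (fderiv ℝ A x X (Gam g x Y Z) + A x (fderiv ℝ (Gam g) x X Y Z)) := by
  have hdA : DifferentiableAt ℝ A x := hA.differentiableAt (by norm_num)
  have hddA : DifferentiableAt ℝ (fderiv ℝ A) x :=
    (hA.fderiv_right (m := 1) (by norm_num)).differentiableAt (by norm_num)
  have hG : DifferentiableAt ℝ (Gam g) x := (contDiffAt_Gam hg hx).differentiableAt (by simp)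
  have hcov : DifferentiableAt ℝ (covA g A) x :=
    (contDiffAt_covA hg hx (m := 1) hA (by norm_num) (by simp)).differentiableAt (by norm_num)
  have e1 : fderiv ℝ (fun y => covA g A y Y Z) x X = fderiv ℝ (covA g A) x X Y Z := by
    rw [fderiv_clm_apply (hcov.clm_apply (differentiableAt_const _)) (differentiableAt_const _),
      fderiv_clm_apply hcov (differentiableAt_const _)]
    simp
  have e2 : (fun y => covA g A y Y Z) = fun y => fderiv ℝ A y Y Z + Gam g y Y (A y Z) -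
      A y (Gam g y Y Z) := rfl
  have hAZ : DifferentiableAt ℝ (fun y => A y Z) x := hdA.clm_apply (differentiableAt_const _)
  have hGY : DifferentiableAt ℝ (fun y => Gam g y Y) x := hG.clm_apply (differentiableAt_const _)
  have hGYZ : DifferentiableAt ℝ (fun y => Gam g y Y Z) x :=
    hGY.clm_apply (differentiableAt_const _)
  have h3 : DifferentiableAt ℝ (fun y => fderiv ℝ A y Y Z) x :=
    (hddA.clm_apply (differentiableAt_const _)).clm_apply (differentiableAt_const _)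
  have h4 : DifferentiableAt ℝ (fun y => Gam g y Y (A y Z)) x := hGY.clm_apply hAZ
  have h5 : DifferentiableAt ℝ (fun y => A y (Gam g y Y Z)) x := hdA.clm_apply hGYZ
  rw [← e1, e2, fderiv_fun_sub (h3.fun_add h4) h5, fderiv_fun_add h3 h4]
  rw [fderiv_clm_apply (hddA.clm_apply (differentiableAt_const _)) (differentiableAt_const _),
    fderiv_clm_apply hddA (differentiableAt_const _), fderiv_clm_apply hGY hAZ,
    fderiv_clm_apply hG (differentiableAt_const _), fderiv_clm_apply hdA (differentiableAt_const _),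
    fderiv_clm_apply hdA hGYZ, fderiv_clm_apply hGY (differentiableAt_const _),
    fderiv_clm_apply hG (differentiableAt_const _)]
  simp only [fderiv_fun_const, Pi.zero_apply, ContinuousLinearMap.comp_zero, zero_add, add_apply,
    sub_apply, ContinuousLinearMap.flip_apply, ContinuousLinearMap.comp_apply]
  abel

/-- **Ricci identity** for endomorphism fields. -/
lemma ricci_identity_A (hg : IsRiemannianOn g U) (hx : x ∈ U) {A : 𝔼 → 𝔼 →L[ℝ] 𝔼}
    (hA : ContDiffAt ℝ 2 A x) (X Y Z : 𝔼) :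
    covB g (covA g A) x X Y Z - covB g (covA g A) x Y X Z =
      curv (Gam g) x X Y (A x Z) - A x (curv (Gam g) x X Y Z) := by
  have hsymm : fderiv ℝ (fderiv ℝ A) x X Y = fderiv ℝ (fderiv ℝ A) x Y X :=
    (hA.isSymmSndFDerivAt (by simp)).eq X Y
  rw [covB_apply, covB_apply, fderiv_covA hg hx hA, fderiv_covA hg hx hA, hsymm,
    Gam_symm hg hx Y X]
  simp only [covA_apply, curv, map_add, map_sub]
  abel

/-! ### the metric trace -/

lemma bil_nv (hg : IsRiemannianOn g U) (hx : x ∈ U) (k : Fin n) (Z : 𝔼) :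
    bil (g x) (nv g k x) Z = Z k := by
  rw [bil_symm hg hx, bil_apply]
  have h1 : ∀ i, ∑ j, g x i j * Z i * nv g k x j = if i = k then Z i else 0 := by
    intro i
    have h2 : ∀ j, g x i j * Z i * nv g k x j = Z i * (g x i j * inverseField g x j k) := by
      intro j
      simp only [nv]
      ring
    simp only [h2]
    rw [← Finset.mul_sum, mul_inv_apply hg hx]
    split_ifs <;> simp
  simp only [h1]
  simp

lemma contDiffAt_nv (hg : IsRiemannianOn g U) (hx : x ∈ U) (k : Fin n) :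
    ContDiffAt ℝ ∞ (nv g k) x :=
  contDiffAt_toLp fun i => contDiffAt_inv hg hx i k

lemma cov_nv (hg : IsRiemannianOn g U) (hx : x ∈ U) (k : Fin n) (X : 𝔼) :
    cov g (nv g k) x X = -∑ j, (Gam g x X (EuclideanSpace.single j 1)) k • nv g j x := by
  refine bil_injective hg hx fun Z => ?_
  have h0 : DifferentiableAt ℝ (nv g k) x := (contDiffAt_nv hg hx k).differentiableAt (by simp)
  have h1 := fderiv_bil hg hx h0 (differentiableAt_const Z) X
  have h2 : (fun y => bil (g y) (nv g k y) Z) =ᶠ[𝓝 x] fun _ => Z k := by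
    filter_upwards [hg.isOpen.mem_nhds hx] with y hy using bil_nv hg hy k Z
  rw [h2.fderiv_eq] at h1
  simp only [fderiv_fun_const, Pi.zero_apply, zero_apply, cov_apply, zero_add] at h1
  rw [bil_nv hg hx] at h1
  rw [map_neg, neg_apply, map_sum, sum_apply]
  simp only [map_smul, smul_apply, smul_eq_mul, bil_nv hg hx]
  have h3 : Gam g x X Z k = ∑ j, (Gam g x X (EuclideanSpace.single j 1)) k * Z j := by
    conv_lhs => rw [eq_sum_single Z]
    rw [map_sum, WithLp.ofLp_sum, Finset.sum_apply]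
    refine Finset.sum_congr rfl fun j _ => ?_
    rw [map_smul, PiLp.smul_apply, smul_eq_mul, mul_comm]
  rw [← h3]
  rw [cov_apply]
  linarith

lemma ctr_frame (hg : IsRiemannianOn g U) (hx : x ∈ U) {ξ : Fin n → 𝔼} (h : IsFrame (g x) ξ)
    (β : 𝔼 →L[ℝ] 𝔼 →L[ℝ] 𝔼) : ctr g x β = ∑ a, β (ξ a) (ξ a) := by
  have h1 : ∀ k, nv g k x = ∑ a, (ξ a k) • ξ a := by
    intro k
    rw [h.expand hg hx (nv g k x)]
    refine Finset.sum_congr rfl fun a _ => ?_
    rw [bil_nv hg hx]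
  rw [ctr]
  simp only [h1, map_sum, sum_apply, map_smul, smul_apply]
  rw [Finset.sum_comm]
  refine Finset.sum_congr rfl fun a _ => ?_
  conv_rhs => rw [eq_sum_single (ξ a)]
  rw [← eq_sum_single (ξ a)]
  conv_rhs => arg 2; rw [eq_sum_single (ξ a)]
  rw [map_sum]
  refine Finset.sum_congr rfl fun k _ => ?_
  rw [map_smul]

/-- the metric trace is parallel. -/
lemma cov_ctr (hg : IsRiemannianOn g U) (hx : x ∈ U) {B : 𝔼 → 𝔼 →L[ℝ] 𝔼 →L[ℝ] 𝔼}
    (hB : DifferentiableAt ℝ B x) (X : 𝔼) :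
    cov g (fun y => ctr g y (B y)) x X = ctr g x (covB g B x X) := by
  have hn : ∀ k, DifferentiableAt ℝ (nv g k) x := fun k =>
    (contDiffAt_nv hg hx k).differentiableAt (by simp)
  have hk : ∀ k, DifferentiableAt ℝ (fun y => B y (nv g k y) (EuclideanSpace.single k 1)) x :=
    fun k => (hB.clm_apply (hn k)).clm_apply (differentiableAt_const _)
  have h1 : cov g (fun y => ctr g y (B y)) x X =
      ∑ k, cov g (fun y => B y (nv g k y) (EuclideanSpace.single k 1)) x X := by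
    simp only [cov_apply]
    unfold ctr
    rw [fderiv_fun_sum fun k _ => hk k, sum_apply, map_sum, Finset.sum_add_distrib]
  rw [h1]
  simp only [cov_bil_apply g hB (hn _) (differentiableAt_const _), cov_nv hg hx]
  rw [Finset.sum_add_distrib, Finset.sum_add_distrib]
  have h2 : ∑ k, B x (-∑ j, (Gam g x X (EuclideanSpace.single j 1)) k • nv g j x)
      (EuclideanSpace.single k 1) = -∑ j, B x (nv g j x) (Gam g x X (EuclideanSpace.single j 1)) := by
    simp only [map_neg, neg_apply, map_sum, sum_apply, map_smul, smul_apply]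
    rw [Finset.sum_neg_distrib, Finset.sum_comm]
    congr 1
    refine Finset.sum_congr rfl fun j _ => ?_
    conv_rhs => rw [eq_sum_single (Gam g x X (EuclideanSpace.single j 1))]
    rw [map_sum]
    refine Finset.sum_congr rfl fun k _ => ?_
    rw [map_smul]
  have h3 : ∀ k : Fin n, cov g (fun _ : 𝔼 => (EuclideanSpace.single k (1:ℝ) : 𝔼)) x X =
      Gam g x X (EuclideanSpace.single k 1) := by
    intro k
    rw [cov_apply]
    simp
  simp only [h3]
  rw [h2, ctr]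
  abel

end Symm

end Crest.Agent.R249.Cod992
end
end

-- ▼ part R249/Cod2_992
section

/-!
# R249, leaf D3-COD (helper992), file 2: the third covariant derivative of a function

`h3 g f x X = ∇_X (Hess f)` (endomorphism), Codazzi, `|∇ Hess f|²`, the vector field
`Vv = T_jk ∇_j T_ik - T_ik ∇_j T_jk` and the exact divergence identity (no derivative of the
curvature):
`div Vv = |∇T|² - ½ Σ |R(ξ_a,ξ_b)∇f|² - |div T|² + Rm*T*T`.
-/

set_option autoImplicit false

open scoped ContDiff Topology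
open Filter Set
open Crest.GeometryTopology.CoordMetric Crest.GeometryTopology.ChartCurvature
open Crest.Agent.R202.Tens Crest.Agent.R247.Bo84

noncomputable section

namespace Crest.Agent.R249.Cod992

variable {n : ℕ}

local notation "𝔼" => EuclideanSpace ℝ (Fin n)

/-- the covariant derivative of the Hessian endomorphism. -/
def h3 (g : MetricField n) (f : EuclideanSpace ℝ (Fin n) → ℝ) (x : EuclideanSpace ℝ (Fin n)) :
    EuclideanSpace ℝ (Fin n) →L[ℝ] EuclideanSpace ℝ (Fin n) →L[ℝ] EuclideanSpace ℝ (Fin n) :=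
  covA g (hessE g f) x

/-- `|∇ Hess f|²`. -/
def hess3Sq (g : MetricField n) (f : EuclideanSpace ℝ (Fin n) → ℝ)
    (x : EuclideanSpace ℝ (Fin n)) : ℝ :=
  ∑ k, trL ((h3 g f x (nv g k x)).comp (h3 g f x (EuclideanSpace.single k 1)))

/-- the field of bilinear maps `(Y, Z) ↦ (∇_Y T)(T Z)`. -/
def bet (g : MetricField n) (f : EuclideanSpace ℝ (Fin n) → ℝ) (x : EuclideanSpace ℝ (Fin n)) :
    EuclideanSpace ℝ (Fin n) →L[ℝ] EuclideanSpace ℝ (Fin n) →L[ℝ] EuclideanSpace ℝ (Fin n) :=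
  ((ContinuousLinearMap.compL ℝ (EuclideanSpace ℝ (Fin n)) (EuclideanSpace ℝ (Fin n))
    (EuclideanSpace ℝ (Fin n))).flip (hessE g f x)).comp (h3 g f x)

/-- `T_jk ∇_j T_ik`. -/
def Wv (g : MetricField n) (f : EuclideanSpace ℝ (Fin n) → ℝ) (x : EuclideanSpace ℝ (Fin n)) :
    EuclideanSpace ℝ (Fin n) := ctr g x (bet g f x)

/-- the divergence of the Hessian. -/
def dv (g : MetricField n) (f : EuclideanSpace ℝ (Fin n) → ℝ) (x : EuclideanSpace ℝ (Fin n)) :
    EuclideanSpace ℝ (Fin n) := ctr g x (h3 g f x)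

/-- the vector field of the divergence identity. -/
def Vv (g : MetricField n) (f : EuclideanSpace ℝ (Fin n) → ℝ) (x : EuclideanSpace ℝ (Fin n)) :
    EuclideanSpace ℝ (Fin n) := Wv g f x - hessE g f x (dv g f x)

lemma bet_apply (g : MetricField n) (f : 𝔼 → ℝ) (x Y Z : 𝔼) :
    bet g f x Y Z = h3 g f x Y (hessE g f x Z) := rfl

section Symm

variable {g : MetricField n} {U : Set (EuclideanSpace ℝ (Fin n))} {x : EuclideanSpace ℝ (Fin n)}
  {f : EuclideanSpace ℝ (Fin n) → ℝ}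

lemma contDiffAt_hessE (hg : IsRiemannianOn g U) (hx : x ∈ U) {a m : WithTop ℕ∞}
    (hf : ContDiffAt ℝ a f x) (hma : m + 1 + 1 ≤ a) (hm : m + 1 ≤ ∞) :
    ContDiffAt ℝ m (hessE g f) x :=
  contDiffAt_cov hg hx (contDiffAt_grad hg hx (m := m + 1) hf hma hm) le_rfl
    ((by simp : m ≤ m + 1).trans hm)

lemma contDiffAt_h3 (hg : IsRiemannianOn g U) (hx : x ∈ U) {a m : WithTop ℕ∞}
    (hf : ContDiffAt ℝ a f x) (hma : m + 1 + 1 + 1 ≤ a) (hm : m + 1 + 1 ≤ ∞) :
    ContDiffAt ℝ m (h3 g f) x :=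
  contDiffAt_covA hg hx (contDiffAt_hessE hg hx (m := m + 1) hf hma hm) le_rfl
    (((by simp : m ≤ m + 1).trans (by simp : m + 1 ≤ m + 1 + 1)).trans hm)

/-- Codazzi. -/
lemma codazzi (hg : IsRiemannianOn g U) (hx : x ∈ U) (hf : ContDiffAt ℝ 3 f x) (X Y : 𝔼) :
    h3 g f x X Y - h3 g f x Y X = curv (Gam g) x X Y (grad g f x) := by
  have h1 : ContDiffAt ℝ 2 (grad g f) x :=
    contDiffAt_grad hg hx (m := 2) hf (by norm_num) (WithTop.coe_le_coe.2 le_top)
  exact ricci_identity hg hx h1 X Y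

lemma h3_symm (hg : IsRiemannianOn g U) (hx : x ∈ U) (hf : ContDiffAt ℝ 3 f x) (X Y Z : 𝔼) :
    bil (g x) (h3 g f x X Y) Z = bil (g x) Y (h3 g f x X Z) := by
  have h1 : DifferentiableAt ℝ (hessE g f) x :=
    (contDiffAt_hessE hg hx (m := 1) hf (by norm_num) (WithTop.coe_le_coe.2 le_top)
      ).differentiableAt (by norm_num)
  refine covA_symm hg hx h1 ?_ X Y Z
  filter_upwards [hf.eventually (by norm_num), hg.isOpen.mem_nhds hx] with y hy hyU Y Z
  exact bil_hessE_symm hg hyU (hy.of_le (by norm_num)) Y Z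

/-- `∇_X B` has self-adjoint values when `B` has. -/
lemma covB_symm (hg : IsRiemannianOn g U) (hx : x ∈ U) {B : 𝔼 → 𝔼 →L[ℝ] 𝔼 →L[ℝ] 𝔼}
    (hB : DifferentiableAt ℝ B x)
    (hs : ∀ᶠ y in 𝓝 x, ∀ Y Z W, bil (g y) (B y Y Z) W = bil (g y) Z (B y Y W)) (X Y Z W : 𝔼) :
    bil (g x) (covB g B x X Y Z) W = bil (g x) Z (covB g B x X Y W) := by
  have h0 : DifferentiableAt ℝ (fun y => B y Y) x := hB.clm_apply (differentiableAt_const _)
  have h1 : ∀ Z, covA g (fun y => B y Y) x X Z = covB g B x X Y Z + B x (Gam g x X Y) Z := by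
    intro Z
    rw [covA_apply, covB_apply, fderiv_clm_apply hB (differentiableAt_const _)]
    simp
  have h2 := covA_symm hg hx h0 (hs.mono fun y hy Z W => hy Y Z W) X Z W
  have h3 := hs.self_of_nhds (Gam g x X Y) Z W
  rw [h1, h1, map_add, add_apply, map_add, h3] at h2
  linarith

lemma h4_symm (hg : IsRiemannianOn g U) (hx : x ∈ U) (hf : ContDiffAt ℝ 4 f x) (X Y Z W : 𝔼) :
    bil (g x) (covB g (h3 g f) x X Y Z) W = bil (g x) Z (covB g (h3 g f) x X Y W) := by
  have h1 : DifferentiableAt ℝ (h3 g f) x :=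
    (contDiffAt_h3 hg hx (m := 1) hf (by norm_num) (WithTop.coe_le_coe.2 le_top)
      ).differentiableAt (by norm_num)
  refine covB_symm hg hx h1 ?_ X Y Z W
  filter_upwards [hf.eventually (by norm_num), hg.isOpen.mem_nhds hx] with y hy hyU Y Z W
  exact h3_symm hg hyU (hy.of_le (by norm_num)) Y Z W

lemma h4_comm (hg : IsRiemannianOn g U) (hx : x ∈ U) (hf : ContDiffAt ℝ 4 f x) (X Y Z : 𝔼) :
    covB g (h3 g f) x X Y Z - covB g (h3 g f) x Y X Z =
      curv (Gam g) x X Y (hessE g f x Z) - hessE g f x (curv (Gam g) x X Y Z) :=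
  ricci_identity_A hg hx
    (contDiffAt_hessE hg hx (m := 2) hf (by norm_num) (WithTop.coe_le_coe.2 le_top)) X Y Z

/-- `∇_X` of the field `bet`. -/
lemma covB_bet (hg : IsRiemannianOn g U) (hx : x ∈ U) (hf : ContDiffAt ℝ 4 f x) (X Y Z : 𝔼) :
    covB g (bet g f) x X Y Z = covB g (h3 g f) x X Y (hessE g f x Z) +
      h3 g f x Y (h3 g f x X Z) := by
  have hA : DifferentiableAt ℝ (hessE g f) x :=
    (contDiffAt_hessE hg hx (m := 2) hf (by norm_num) (WithTop.coe_le_coe.2 le_top)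
      ).differentiableAt (by norm_num)
  have hB : DifferentiableAt ℝ (h3 g f) x :=
    (contDiffAt_h3 hg hx (m := 1) hf (by norm_num) (WithTop.coe_le_coe.2 le_top)
      ).differentiableAt (by norm_num)
  have hβ : DifferentiableAt ℝ (bet g f) x :=
    ((differentiableAt_const _).clm_apply hA).clm_comp hB
  have hAZ : DifferentiableAt ℝ (fun y => hessE g f y Z) x :=
    hA.clm_apply (differentiableAt_const _)
  have h1 := cov_bil_apply g hβ (differentiableAt_const Y) (differentiableAt_const Z) X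
  have h2 := cov_bil_apply g hB (differentiableAt_const Y) hAZ X
  have h3' := cov_clm_apply g hA (differentiableAt_const Z) X
  have hc : ∀ Y : 𝔼, cov g (fun _ : 𝔼 => Y) x X = Gam g x X Y := by
    intro Y
    rw [cov_apply]
    simp
  simp only [hc] at h1 h2 h3'
  have e : (fun y => bet g f y Y Z) = fun y => h3 g f y Y (hessE g f y Z) := rfl
  rw [e, h2, h3', bet_apply, bet_apply] at h1
  have h4 : covA g (hessE g f) x X Z = h3 g f x X Z := rfl
  rw [h4, map_add] at h1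
  rw [← sub_eq_zero]
  have h5 := sub_eq_zero.2 h1.symm
  rw [← h5]
  abel

/-- sums over a frame of a bilinear expression. -/
lemma sum_nv_frame {F : Type*} [AddCommGroup F] [Module ℝ F] (hg : IsRiemannianOn g U)
    (hx : x ∈ U) {ξ : Fin n → 𝔼} (h : IsFrame (g x) ξ) (b : 𝔼 →ₗ[ℝ] 𝔼 →ₗ[ℝ] F) :
    ∑ k, b (nv g k x) (EuclideanSpace.single k 1) = ∑ a, b (ξ a) (ξ a) := by
  have h1 : ∀ k, nv g k x = ∑ a, (ξ a k) • ξ a := by
    intro k
    rw [h.expand hg hx (nv g k x)]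
    refine Finset.sum_congr rfl fun a _ => ?_
    rw [bil_nv hg hx]
  simp only [h1, map_sum, LinearMap.sum_apply, map_smul, LinearMap.smul_apply]
  rw [Finset.sum_comm]
  refine Finset.sum_congr rfl fun a _ => ?_
  conv_rhs => arg 2; rw [eq_sum_single (ξ a)]
  rw [map_sum]
  refine Finset.sum_congr rfl fun k _ => ?_
  rw [map_smul]

lemma hess3Sq_frame (hg : IsRiemannianOn g U) (hx : x ∈ U) (hf : ContDiffAt ℝ 3 f x)
    {ξ : Fin n → 𝔼} (h : IsFrame (g x) ξ) :
    hess3Sq g f x = ∑ a, ∑ b, bil (g x) (h3 g f x (ξ a) (ξ b)) (h3 g f x (ξ a) (ξ b)) := by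
  have h1 := sum_nv_frame hg hx h (LinearMap.mk₂ ℝ
    (fun X Y => trL ((h3 g f x X).comp (h3 g f x Y)))
    (fun X X' Y => by rw [map_add, ContinuousLinearMap.add_comp, map_add])
    (fun c X Y => by rw [map_smul, ContinuousLinearMap.smul_comp, map_smul])
    (fun X Y Y' => by rw [map_add, ContinuousLinearMap.comp_add, map_add])
    (fun c X Y => by rw [map_smul, ContinuousLinearMap.comp_smul, map_smul]))
  simp only [LinearMap.mk₂_apply] at h1
  rw [hess3Sq, h1]
  refine Finset.sum_congr rfl fun a _ => ?_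
  rw [h.trL_eq hg hx]
  refine Finset.sum_congr rfl fun b _ => ?_
  rw [ContinuousLinearMap.comp_apply, h3_symm hg hx hf]

lemma hess3Sq_nonneg (hg : IsRiemannianOn g U) (hx : x ∈ U) (hf : ContDiffAt ℝ 3 f x) :
    0 ≤ hess3Sq g f x := by
  obtain ⟨ξ, hξ⟩ := exists_frame hg hx
  rw [hess3Sq_frame hg hx hf hξ]
  exact Finset.sum_nonneg fun a _ => Finset.sum_nonneg fun b _ => bil_self_nonneg hg hx _

lemma contDiffAt_ctr (hg : IsRiemannianOn g U) (hx : x ∈ U) {m : WithTop ℕ∞} (hm : m ≤ ∞)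
    {B : 𝔼 → 𝔼 →L[ℝ] 𝔼 →L[ℝ] 𝔼} (hB : ContDiffAt ℝ m B x) :
    ContDiffAt ℝ m (fun y => ctr g y (B y)) x := by
  unfold ctr
  refine ContDiffAt.sum fun k _ => ?_
  exact (hB.clm_apply ((contDiffAt_nv hg hx k).of_le hm)).clm_apply contDiffAt_const

lemma contDiffAt_bet (hg : IsRiemannianOn g U) (hx : x ∈ U) {a m : WithTop ℕ∞}
    (hf : ContDiffAt ℝ a f x) (hma : m + 1 + 1 + 1 ≤ a) (hm : m + 1 + 1 ≤ ∞) :
    ContDiffAt ℝ m (bet g f) x := by
  have h1 : m + 1 ≤ m + 1 + 1 := by simp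
  have h2 : m + 1 + 1 ≤ m + 1 + 1 + 1 := by simp
  exact (contDiffAt_const.clm_apply (contDiffAt_hessE hg hx hf (h2.trans hma) (h1.trans hm))
    ).clm_comp (contDiffAt_h3 hg hx hf hma hm)

lemma contDiffAt_Wv (hg : IsRiemannianOn g U) (hx : x ∈ U) {a m : WithTop ℕ∞}
    (hf : ContDiffAt ℝ a f x) (hma : m + 1 + 1 + 1 ≤ a) (hm : m + 1 + 1 ≤ ∞) :
    ContDiffAt ℝ m (Wv g f) x :=
  contDiffAt_ctr hg hx (((by simp : m ≤ m + 1).trans (by simp : m + 1 ≤ m + 1 + 1)).trans hm)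
    (contDiffAt_bet hg hx hf hma hm)

lemma contDiffAt_dv (hg : IsRiemannianOn g U) (hx : x ∈ U) {a m : WithTop ℕ∞}
    (hf : ContDiffAt ℝ a f x) (hma : m + 1 + 1 + 1 ≤ a) (hm : m + 1 + 1 ≤ ∞) :
    ContDiffAt ℝ m (dv g f) x :=
  contDiffAt_ctr hg hx (((by simp : m ≤ m + 1).trans (by simp : m + 1 ≤ m + 1 + 1)).trans hm)
    (contDiffAt_h3 hg hx hf hma hm)

lemma contDiffAt_Vv (hg : IsRiemannianOn g U) (hx : x ∈ U) {a m : WithTop ℕ∞}
    (hf : ContDiffAt ℝ a f x) (hma : m + 1 + 1 + 1 ≤ a) (hm : m + 1 + 1 ≤ ∞) :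
    ContDiffAt ℝ m (Vv g f) x := by
  have h1 : m + 1 ≤ m + 1 + 1 := by simp
  have h2 : m + 1 + 1 ≤ m + 1 + 1 + 1 := by simp
  exact (contDiffAt_Wv hg hx hf hma hm).sub
    ((contDiffAt_hessE hg hx hf (h2.trans hma) (h1.trans hm)).clm_apply
      (contDiffAt_dv hg hx hf hma hm))

/-- **The divergence identity**, frame form. -/
theorem divg_Vv (hg : IsRiemannianOn g U) (hx : x ∈ U) (hf : ContDiffAt ℝ 4 f x)
    {ξ : Fin n → 𝔼} (h : IsFrame (g x) ξ) :
    divg g (Vv g f) x = hess3Sq g f x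
      - (1 / 2) * ∑ a, ∑ b, bil (g x) (curv (Gam g) x (ξ a) (ξ b) (grad g f x))
          (curv (Gam g) x (ξ a) (ξ b) (grad g f x))
      - bil (g x) (dv g f x) (dv g f x)
      + ∑ a, ∑ b, (bil (g x) (hessE g f x (ξ a))
            (curv (Gam g) x (ξ b) (ξ a) (hessE g f x (ξ b)))
          - bil (g x) (hessE g f x (hessE g f x (ξ a))) (curv (Gam g) x (ξ b) (ξ a) (ξ b))) := by
  have hf3 : ContDiffAt ℝ 3 f x := hf.of_le (by norm_num)
  have hf2 : ContDiffAt ℝ 2 f x := hf.of_le (by norm_num)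
  have h2i : (1:WithTop ℕ∞) + 1 + 1 ≤ ∞ := WithTop.coe_le_coe.2 le_top
  have hA : DifferentiableAt ℝ (hessE g f) x :=
    (contDiffAt_hessE hg hx (m := 2) hf (by norm_num) (WithTop.coe_le_coe.2 le_top)
      ).differentiableAt (by norm_num)
  have hB : DifferentiableAt ℝ (h3 g f) x :=
    (contDiffAt_h3 hg hx (m := 1) hf (by norm_num) h2i).differentiableAt (by norm_num)
  have hbet : DifferentiableAt ℝ (bet g f) x :=
    (contDiffAt_bet hg hx (m := 1) hf (by norm_num) h2i).differentiableAt (by norm_num)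
  have hW : DifferentiableAt ℝ (Wv g f) x :=
    (contDiffAt_Wv hg hx (m := 1) hf (by norm_num) h2i).differentiableAt (by norm_num)
  have hd : DifferentiableAt ℝ (dv g f) x :=
    (contDiffAt_dv hg hx (m := 1) hf (by norm_num) h2i).differentiableAt (by norm_num)
  have hAd : DifferentiableAt ℝ (fun y => hessE g f y (dv g f y)) x := hA.clm_apply hd
  have hV : DifferentiableAt ℝ (Vv g f) x := hW.sub hAd
  -- covariant derivative of `Vv`
  have hcV : ∀ X, cov g (Vv g f) x X =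
      ctr g x (covB g (bet g f) x X) - (h3 g f x X (dv g f x) +
        hessE g f x (ctr g x (covB g (h3 g f) x X))) := by
    intro X
    have e1 : cov g (Vv g f) x X = cov g (Wv g f) x X -
        cov g (fun y => hessE g f y (dv g f y)) x X := by
      rw [cov_apply, cov_apply, cov_apply]
      have e2 : Vv g f = fun y => Wv g f y - hessE g f y (dv g f y) := rfl
      rw [e2, fderiv_fun_sub hW hAd]
      simp only [sub_apply, map_sub]
      abel
    rw [e1, cov_clm_apply g hA hd]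
    have e3 : cov g (Wv g f) x X = ctr g x (covB g (bet g f) x X) := cov_ctr hg hx hbet X
    have e4 : cov g (dv g f) x X = ctr g x (covB g (h3 g f) x X) := cov_ctr hg hx hB X
    rw [e3, e4]
    rfl
  rw [divg_eq_trL hg hx hV, h.trL_eq hg hx]
  simp only [hcV]
  have hδ : dv g f x = ∑ a, h3 g f x (ξ a) (ξ a) := ctr_frame hg hx h _
  -- the three pieces
  set A := hessE g f x with hAdef
  set B := h3 g f x with hBdef
  set v := grad g f x with hvdef
  have key1 : ∀ b, bil (g x) (ctr g x (covB g (bet g f) x (ξ b)) - (B (ξ b) (dv g f x) +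
        A (ctr g x (covB g (h3 g f) x (ξ b))))) (ξ b) =
      ∑ a, bil (g x) (covB g (h3 g f) x (ξ b) (ξ a) (A (ξ a))) (ξ b) +
      ∑ a, bil (g x) (B (ξ a) (B (ξ b) (ξ a))) (ξ b) -
      bil (g x) (dv g f x) (B (ξ b) (ξ b)) -
      ∑ a, bil (g x) (covB g (h3 g f) x (ξ b) (ξ a) (ξ a)) (A (ξ b)) := by
    intro b
    rw [ctr_frame hg hx h, ctr_frame hg hx h]
    simp only [covB_bet hg hx hf]
    rw [map_sub, map_add, sub_apply, add_apply, h3_symm hg hx hf3,
      bil_hessE_symm hg hx hf2, map_sum, sum_apply, map_sum, sum_apply]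
    simp only [map_add, add_apply]
    rw [Finset.sum_add_distrib]
    ring
  simp only [key1]
  rw [Finset.sum_sub_distrib, Finset.sum_sub_distrib, Finset.sum_add_distrib]
  -- S1 - S4
  have hS14 : ∑ b, ∑ a, bil (g x) (covB g (h3 g f) x (ξ b) (ξ a) (A (ξ a))) (ξ b) =
      ∑ b, ∑ a, bil (g x) (covB g (h3 g f) x (ξ b) (ξ a) (ξ a)) (A (ξ b)) +
      ∑ a, ∑ b, (bil (g x) (A (ξ a)) (curv (Gam g) x (ξ b) (ξ a) (A (ξ b)))
          - bil (g x) (A (A (ξ a))) (curv (Gam g) x (ξ b) (ξ a) (ξ b))) := by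
    rw [Finset.sum_comm, ← Finset.sum_add_distrib]
    refine Finset.sum_congr rfl fun a _ => ?_
    rw [← Finset.sum_add_distrib]
    refine Finset.sum_congr rfl fun b _ => ?_
    rw [h4_symm hg hx hf, bil_symm hg hx (covB g (h3 g f) x (ξ a) (ξ b) (ξ b))]
    have h5 := h4_comm hg hx hf (ξ b) (ξ a) (ξ b)
    have h6 : covB g (h3 g f) x (ξ b) (ξ a) (ξ b) = covB g (h3 g f) x (ξ a) (ξ b) (ξ b) +
        (curv (Gam g) x (ξ b) (ξ a) (A (ξ b)) - A (curv (Gam g) x (ξ b) (ξ a) (ξ b))) := by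
      rw [← h5]; abel
    rw [h6, map_add, map_sub, ← bil_hessE_symm hg hx hf2 (A (ξ a)) (curv (Gam g) x (ξ b) (ξ a) (ξ b))]
  -- S2
  have hS2 : ∑ b, ∑ a, bil (g x) (B (ξ a) (B (ξ b) (ξ a))) (ξ b) =
      hess3Sq g f x - (1 / 2) * ∑ a, ∑ b, bil (g x) (curv (Gam g) x (ξ a) (ξ b) v)
          (curv (Gam g) x (ξ a) (ξ b) v) := by
    have e1 : ∀ a b, bil (g x) (B (ξ a) (B (ξ b) (ξ a))) (ξ b) =
        (1 / 2) * bil (g x) (B (ξ a) (ξ b)) (B (ξ a) (ξ b)) +
        (1 / 2) * bil (g x) (B (ξ b) (ξ a)) (B (ξ b) (ξ a)) -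
        (1 / 2) * bil (g x) (curv (Gam g) x (ξ a) (ξ b) v) (curv (Gam g) x (ξ a) (ξ b) v) := by
      intro a b
      rw [h3_symm hg hx hf3, ← codazzi hg hx hf3]
      simp only [map_sub, sub_apply]
      rw [bil_symm hg hx (h3 g f x (ξ a) (ξ b)) (h3 g f x (ξ b) (ξ a))]
      ring
    rw [Finset.sum_comm]
    simp only [e1]
    simp only [Finset.sum_sub_distrib, Finset.sum_add_distrib, ← Finset.mul_sum]
    have e2 : ∑ a, ∑ b, bil (g x) (B (ξ b) (ξ a)) (B (ξ b) (ξ a)) =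
        ∑ a, ∑ b, bil (g x) (B (ξ a) (ξ b)) (B (ξ a) (ξ b)) := Finset.sum_comm
    rw [e2, ← hess3Sq_frame hg hx hf3 h]
    ring
  -- S3
  have hS3 : ∑ b, bil (g x) (dv g f x) (B (ξ b) (ξ b)) = bil (g x) (dv g f x) (dv g f x) := by
    conv_rhs => arg 2; rw [hδ]
    rw [map_sum]
  rw [hS14, hS2, hS3]
  ring

end Symm

end Crest.Agent.R249.Cod992
end
end

-- ▼ part R249/Cod3_992
section

/-!
# R249, leaf D3-COD (helper992), file 3: pointwise estimates for the third covariant derivative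

`CurvLe g x b`: `⟨R(u,v)w,z⟩² ≤ b² |u|²|v|²|w|²|z|²` at `x`.  For `f` harmonic near `x`:
`|∇Hess f|² ≤ div Vv + 2 n² b² |∇f|² + 2 n² b |Hess f|²`, bounds for `Vv`, Kato.
-/

set_option autoImplicit false

open scoped ContDiff Topology
open Filter Set
open Crest.GeometryTopology.CoordMetric Crest.GeometryTopology.ChartCurvature
open Crest.Agent.R202.Tens Crest.Agent.R247.Bo84

noncomputable section

namespace Crest.Agent.R249.Cod992

variable {n : ℕ}

local notation "𝔼" => EuclideanSpace ℝ (Fin n)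

/-- the curvature at `x` is bounded by `b`. -/
def CurvLe (g : MetricField n) (x : EuclideanSpace ℝ (Fin n)) (b : ℝ) : Prop :=
  ∀ u v w z : EuclideanSpace ℝ (Fin n), bil (g x) (curv (Gam g) x u v w) z ^ 2 ≤
    b ^ 2 * (bil (g x) u u * bil (g x) v v * bil (g x) w w * bil (g x) z z)

section Symm

variable {g : MetricField n} {U : Set (EuclideanSpace ℝ (Fin n))} {x : EuclideanSpace ℝ (Fin n)}
  {f : EuclideanSpace ℝ (Fin n) → ℝ} {ξ : Fin n → EuclideanSpace ℝ (Fin n)} {b : ℝ}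

/-- Cauchy–Schwarz for sums of inner products. -/
lemma sum_bil_sq_le (hg : IsRiemannianOn g U) (hx : x ∈ U) {ι : Type*} [Fintype ι]
    (p q : ι → 𝔼) :
    (∑ a, bil (g x) (p a) (q a)) ^ 2 ≤
      (∑ a, bil (g x) (p a) (p a)) * ∑ a, bil (g x) (q a) (q a) := by
  obtain ⟨ξ, hξ⟩ := exists_frame hg hx
  have e : ∀ r s : ι → 𝔼, ∑ a, bil (g x) (r a) (s a) =
      ∑ ac : ι × Fin n, bil (g x) (r ac.1) (ξ ac.2) * bil (g x) (s ac.1) (ξ ac.2) := by
    intro r s
    rw [Fintype.sum_prod_type]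
    exact Finset.sum_congr rfl fun a _ => hξ.bil_eq hg hx _ _
  rw [e p q, e p p, e q q]
  refine (Finset.sum_mul_sq_le_sq_mul_sq _ _ _).trans (le_of_eq ?_)
  simp only [sq]

/-- the operator norm is bounded by the Frobenius norm. -/
lemma clm_sq_le (hg : IsRiemannianOn g U) (hx : x ∈ U) (hξ : IsFrame (g x) ξ) (L : 𝔼 →L[ℝ] 𝔼)
    (z : 𝔼) : bil (g x) (L z) (L z) ≤
      (∑ c, bil (g x) (L (ξ c)) (L (ξ c))) * bil (g x) z z := by
  set s := bil (g x) (L z) (L z) with hs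
  have h0 : 0 ≤ s := bil_self_nonneg hg hx _
  have h1 : s = ∑ c, bil (g x) (L (ξ c)) (bil (g x) z (ξ c) • L z) := by
    rw [hs]
    conv_lhs => arg 1; rw [hξ.expand hg hx z]
    rw [map_sum, map_sum, sum_apply]
    refine Finset.sum_congr rfl fun c _ => ?_
    rw [map_smul, map_smul, smul_apply, map_smul]
  have h2 := sum_bil_sq_le hg hx (fun c => L (ξ c)) (fun c => bil (g x) z (ξ c) • L z)
  rw [← h1] at h2
  have h3 : ∑ c, bil (g x) (bil (g x) z (ξ c) • L z) (bil (g x) z (ξ c) • L z) =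
      bil (g x) z z * s := by
    rw [hξ.bil_eq hg hx z z, Finset.sum_mul]
    refine Finset.sum_congr rfl fun c _ => ?_
    rw [map_smul, map_smul (bil (g x)), smul_apply, smul_eq_mul, smul_eq_mul, ← hs]
    ring
  rw [h3] at h2
  rcases h0.eq_or_lt with h | h
  · rw [← h]
    exact mul_nonneg (Finset.sum_nonneg fun c _ => bil_self_nonneg hg hx _)
      (bil_self_nonneg hg hx z)
  · have h4 : s * s ≤ ((∑ c, bil (g x) (L (ξ c)) (L (ξ c))) * bil (g x) z z) * s := by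
      nlinarith [h2]
    exact le_of_mul_le_mul_right h4 h

lemma hessSq_eq_sum (hg : IsRiemannianOn g U) (hx : x ∈ U) (hf : ContDiffAt ℝ 2 f x)
    (hξ : IsFrame (g x) ξ) :
    hessSq g f x = ∑ a, bil (g x) (hessE g f x (ξ a)) (hessE g f x (ξ a)) := by
  rw [hessSq, hξ.trL_eq hg hx]
  refine Finset.sum_congr rfl fun a _ => ?_
  rw [ContinuousLinearMap.comp_apply, bil_hessE_symm hg hx hf]

/-- `|R(u,v)w|² ≤ b² |u|²|v|²|w|²`. -/
lemma CurvLe.sq_le (hg : IsRiemannianOn g U) (hx : x ∈ U) (hb : CurvLe g x b) (u v w : 𝔼) :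
    bil (g x) (curv (Gam g) x u v w) (curv (Gam g) x u v w) ≤
      b ^ 2 * (bil (g x) u u * bil (g x) v v * bil (g x) w w) := by
  have h1 := hb u v w (curv (Gam g) x u v w)
  set s := bil (g x) (curv (Gam g) x u v w) (curv (Gam g) x u v w) with hs
  have h0 : 0 ≤ s := bil_self_nonneg hg hx _
  have hu := bil_self_nonneg hg hx u
  have hv := bil_self_nonneg hg hx v
  have hw := bil_self_nonneg hg hx w
  rcases h0.eq_or_lt with h | h
  · rw [← h]; positivity
  · have h4 : s * s ≤ (b ^ 2 * (bil (g x) u u * bil (g x) v v * bil (g x) w w)) * s := by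
      nlinarith [h1]
    exact le_of_mul_le_mul_right h4 h

/-- trace of `∇_z Hess f` is the derivative of the Laplacian. -/
lemma trL_h3 (hg : IsRiemannianOn g U) (hx : x ∈ U) (hf : ContDiffAt ℝ 3 f x) (z : 𝔼) :
    trL (h3 g f x z) = fderiv ℝ (laplaceBeltrami g f) x z := by
  have hA : DifferentiableAt ℝ (hessE g f) x :=
    (contDiffAt_hessE hg hx (m := 1) hf (by norm_num) (WithTop.coe_le_coe.2 le_top)
      ).differentiableAt (by norm_num)
  have hlap : (laplaceBeltrami g f) =ᶠ[𝓝 x] fun y => trL (hessE g f y) := by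
    filter_upwards [hf.eventually (by norm_num), hg.isOpen.mem_nhds hx] with y hy hyU
    exact lap_eq_trL hg hyU (hy.of_le (by norm_num))
  rw [hlap.fderiv_eq]
  have h4 := (trL (n := n)).hasFDerivAt.comp x hA.hasFDerivAt
  have h5 : fderiv ℝ (fun y => trL (hessE g f y)) x =
      (trL (n := n)).comp (fderiv ℝ (hessE g f) x) := h4.fderiv
  rw [h5, ContinuousLinearMap.comp_apply]
  have h6 : h3 g f x z = fderiv ℝ (hessE g f) x z + (Gam g x z).comp (hessE g f x) -
      (hessE g f x).comp (Gam g x z) := rfl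
  rw [h6, map_sub, map_add, trL_comp_comm (Gam g x z)]
  ring

lemma bil_dv (hg : IsRiemannianOn g U) (hx : x ∈ U) (hf : ContDiffAt ℝ 3 f x)
    (hξ : IsFrame (g x) ξ) (z : 𝔼) :
    bil (g x) (dv g f x) z = fderiv ℝ (laplaceBeltrami g f) x z +
      ∑ a, bil (g x) (curv (Gam g) x (ξ a) z (grad g f x)) (ξ a) := by
  have hδ : dv g f x = ∑ a, h3 g f x (ξ a) (ξ a) := ctr_frame hg hx hξ _
  rw [hδ, map_sum, sum_apply, ← trL_h3 hg hx hf, hξ.trL_eq hg hx, ← Finset.sum_add_distrib]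
  refine Finset.sum_congr rfl fun a _ => ?_
  rw [h3_symm hg hx hf, ← codazzi hg hx hf, bil_symm hg hx (ξ a), map_sub, sub_apply]
  ring

lemma dv_sq_le (hg : IsRiemannianOn g U) (hx : x ∈ U) (hf : ContDiffAt ℝ 3 f x)
    (hh : ∀ᶠ y in 𝓝 x, laplaceBeltrami g f y = 0) (hb : CurvLe g x b) :
    bil (g x) (dv g f x) (dv g f x) ≤ n ^ 2 * b ^ 2 * gam g f f x := by
  obtain ⟨ξ, hξ⟩ := exists_frame hg hx
  set s := bil (g x) (dv g f x) (dv g f x) with hs
  have h0 : 0 ≤ s := bil_self_nonneg hg hx _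
  have hG : 0 ≤ gam g f f x := gam_self_nonneg hg hx f
  have e0 : fderiv ℝ (laplaceBeltrami g f) x = 0 := by
    have : (laplaceBeltrami g f) =ᶠ[𝓝 x] fun _ => (0:ℝ) := hh
    rw [this.fderiv_eq]; simp
  have h1 := bil_dv hg hx hf hξ (dv g f x)
  rw [e0, zero_apply, zero_add, ← hs] at h1
  have h2 : s ^ 2 ≤ n * ∑ a : Fin n,
      bil (g x) (curv (Gam g) x (ξ a) (dv g f x) (grad g f x)) (ξ a) ^ 2 := by
    rw [h1]
    have := sq_sum_le_card_mul_sum_sq (s := (Finset.univ : Finset (Fin n)))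
      (f := fun a => bil (g x) (curv (Gam g) x (ξ a) (dv g f x) (grad g f x)) (ξ a))
    rwa [Finset.card_univ, Fintype.card_fin] at this
  have h3 : ∑ a : Fin n, bil (g x) (curv (Gam g) x (ξ a) (dv g f x) (grad g f x)) (ξ a) ^ 2 ≤
      n * (b ^ 2 * (s * gam g f f x)) := by
    have e1 : ∀ a ∈ (Finset.univ : Finset (Fin n)),
        bil (g x) (curv (Gam g) x (ξ a) (dv g f x) (grad g f x)) (ξ a) ^ 2 ≤
        b ^ 2 * (s * gam g f f x) := by
      intro a _
      have := hb (ξ a) (dv g f x) (grad g f x) (ξ a)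
      rw [hξ.orth, if_pos rfl, ← gam_eq_bil hg hx, ← hs] at this
      linarith
    have := Finset.sum_le_card_nsmul _ _ _ e1
    rwa [Finset.card_univ, Fintype.card_fin, nsmul_eq_mul] at this
  have h4 : s * s ≤ (n ^ 2 * b ^ 2 * gam g f f x) * s := by
    have : (n:ℝ) * ∑ a : Fin n,
        bil (g x) (curv (Gam g) x (ξ a) (dv g f x) (grad g f x)) (ξ a) ^ 2 ≤
        n * (n * (b ^ 2 * (s * gam g f f x))) := by gcongr
    nlinarith [h2, this]
  rcases h0.eq_or_lt with h | h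
  · rw [← h]; positivity
  · exact le_of_mul_le_mul_right h4 h

/-- `|T_jk ∇_j T_ik|² ≤ |T|² |∇T|²`. -/
lemma Wv_sq_le (hg : IsRiemannianOn g U) (hx : x ∈ U) (hf : ContDiffAt ℝ 3 f x) (z : 𝔼) :
    bil (g x) (Wv g f x) z ^ 2 ≤ hessSq g f x * hess3Sq g f x * bil (g x) z z := by
  obtain ⟨ξ, hξ⟩ := exists_frame hg hx
  have hf2 : ContDiffAt ℝ 2 f x := hf.of_le (by norm_num)
  have h1 : bil (g x) (Wv g f x) z = ∑ a, bil (g x) (hessE g f x (ξ a)) (h3 g f x (ξ a) z) := by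
    have : Wv g f x = ∑ a, h3 g f x (ξ a) (hessE g f x (ξ a)) := ctr_frame hg hx hξ _
    rw [this, map_sum, sum_apply]
    exact Finset.sum_congr rfl fun a _ => h3_symm hg hx hf _ _ _
  rw [h1]
  refine (sum_bil_sq_le hg hx _ _).trans ?_
  rw [← hessSq_eq_sum hg hx hf2 hξ, mul_assoc]
  refine mul_le_mul_of_nonneg_left ?_ (hessSq_nonneg hg hx hf2)
  rw [hess3Sq_frame hg hx hf hξ, Finset.sum_mul]
  exact Finset.sum_le_sum fun a _ => clm_sq_le hg hx hξ _ _

/-- **Kato** for the Hessian: `|∇|T|²|² ≤ 4 |T|² |∇T|²`. -/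
lemma kato3 (hg : IsRiemannianOn g U) (hx : x ∈ U) (hf : ContDiffAt ℝ 3 f x) :
    gam g (hessSq g f) (hessSq g f) x ≤ 4 * hessSq g f x * hess3Sq g f x := by
  obtain ⟨ξ, hξ⟩ := exists_frame hg hx
  have hf2 : ContDiffAt ℝ 2 f x := hf.of_le (by norm_num)
  have hA : DifferentiableAt ℝ (hessE g f) x :=
    (contDiffAt_hessE hg hx (m := 1) hf (by norm_num) (WithTop.coe_le_coe.2 le_top)
      ).differentiableAt (by norm_num)
  have h1 : ∀ z, fderiv ℝ (hessSq g f) x z =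
      2 * ∑ a, bil (g x) (hessE g f x (ξ a)) (h3 g f x z (ξ a)) := by
    intro z
    have e1 : hessSq g f = fun y => trL ((hessE g f y).comp (hessE g f y)) := rfl
    have e2 : HasFDerivAt (fun y => (hessE g f y).comp (hessE g f y)) _ x :=
      hA.hasFDerivAt.clm_comp hA.hasFDerivAt
    have e3 := ((trL (n := n)).hasFDerivAt.comp x e2).fderiv
    have e4 : fderiv ℝ (hessSq g f) x z = trL ((hessE g f x).comp (fderiv ℝ (hessE g f) x z)) +
        trL ((fderiv ℝ (hessE g f) x z).comp (hessE g f x)) := by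
      rw [e1]
      have : fderiv ℝ (fun y => trL ((hessE g f y).comp (hessE g f y))) x z = _ :=
        congrArg (fun L => L z) e3
      rw [this]
      simp only [ContinuousLinearMap.comp_apply, add_apply, map_add,
        ContinuousLinearMap.compL_apply, ContinuousLinearMap.flip_apply]
    rw [e4, trL_comp_comm (fderiv ℝ (hessE g f) x z), ← two_mul]
    congr 1
    have e5 : fderiv ℝ (hessE g f) x z = h3 g f x z - (Gam g x z).comp (hessE g f x) +
        (hessE g f x).comp (Gam g x z) := by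
      have : h3 g f x z = fderiv ℝ (hessE g f) x z + (Gam g x z).comp (hessE g f x) -
        (hessE g f x).comp (Gam g x z) := rfl
      rw [this]; abel
    rw [e5]
    have e6 : trL ((hessE g f x).comp (h3 g f x z - (Gam g x z).comp (hessE g f x) +
        (hessE g f x).comp (Gam g x z))) = trL ((hessE g f x).comp (h3 g f x z)) := by
      rw [ContinuousLinearMap.comp_add, ContinuousLinearMap.comp_sub, map_add, map_sub]
      have : trL ((hessE g f x).comp ((Gam g x z).comp (hessE g f x))) =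
          trL ((hessE g f x).comp ((hessE g f x).comp (Gam g x z))) := by
        rw [← ContinuousLinearMap.comp_assoc, ← ContinuousLinearMap.comp_assoc, trL_comp_comm,
          ContinuousLinearMap.comp_assoc]
      rw [this]; ring
    rw [e6, trL_comp_comm, hξ.trL_eq hg hx]
    refine Finset.sum_congr rfl fun a _ => ?_
    rw [ContinuousLinearMap.comp_apply, h3_symm hg hx hf]
  have h2 : gam g (hessSq g f) (hessSq g f) x = ∑ c, fderiv ℝ (hessSq g f) x (ξ c) ^ 2 := by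
    rw [gam_eq_bil hg hx, hξ.bil_eq hg hx]
    refine Finset.sum_congr rfl fun c _ => ?_
    rw [bil_grad hg hx, sq]
  rw [h2, hess3Sq_frame hg hx hf hξ, Finset.mul_sum]
  refine Finset.sum_le_sum fun c _ => ?_
  rw [h1, mul_pow]
  have h3' := sum_bil_sq_le hg hx (fun a => hessE g f x (ξ a)) (fun a => h3 g f x (ξ c) (ξ a))
  rw [← hessSq_eq_sum hg hx hf2 hξ] at h3'
  nlinarith [h3']

/-- the curvature terms of the divergence identity. -/
lemma err_le (hg : IsRiemannianOn g U) (hx : x ∈ U) (hf : ContDiffAt ℝ 2 f x)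
    (hξ : IsFrame (g x) ξ) (hb0 : 0 ≤ b) (hb : CurvLe g x b) :
    |∑ a, ∑ c, (bil (g x) (hessE g f x (ξ a))
            (curv (Gam g) x (ξ c) (ξ a) (hessE g f x (ξ c)))
          - bil (g x) (hessE g f x (hessE g f x (ξ a))) (curv (Gam g) x (ξ c) (ξ a) (ξ c)))| ≤
      2 * n ^ 2 * b * hessSq g f x := by
  have hH := hessSq_nonneg hg hx hf
  set p : Fin n → ℝ := fun a => bil (g x) (hessE g f x (ξ a)) (hessE g f x (ξ a)) with hp
  have hp0 : ∀ a, 0 ≤ p a := fun a => bil_self_nonneg hg hx _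
  have hsum : ∑ a, p a = hessSq g f x := (hessSq_eq_sum hg hx hf hξ).symm
  have t1 : ∀ a c, |bil (g x) (hessE g f x (ξ a))
      (curv (Gam g) x (ξ c) (ξ a) (hessE g f x (ξ c)))| ≤ b * ((p a + p c) / 2) := by
    intro a c
    have h1 := hb (ξ c) (ξ a) (hessE g f x (ξ c)) (hessE g f x (ξ a))
    rw [hξ.orth, hξ.orth, if_pos rfl, if_pos rfl, bil_symm hg hx _ (hessE g f x (ξ a))] at h1
    have h2 : (p a + p c) ^ 2 / 4 ≥ p c * p a := by nlinarith [sq_nonneg (p a - p c)]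
    refine abs_le_of_sq_le_sq ?_ (by have := hp0 a; have := hp0 c; positivity)
    have h3 : b ^ 2 * (1 * 1 * p c * p a) ≤ b ^ 2 * ((p a + p c) ^ 2 / 4) := by
      gcongr
      linarith
    calc _ ≤ b ^ 2 * (1 * 1 * p c * p a) := h1
      _ ≤ _ := h3
      _ = _ := by ring
  have t2 : ∀ a c, |bil (g x) (hessE g f x (hessE g f x (ξ a)))
      (curv (Gam g) x (ξ c) (ξ a) (ξ c))| ≤ b * hessSq g f x := by
    intro a c
    have h1 := hb (ξ c) (ξ a) (ξ c) (hessE g f x (hessE g f x (ξ a)))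
    rw [hξ.orth, hξ.orth, if_pos rfl, if_pos rfl,
      bil_symm hg hx _ (hessE g f x (hessE g f x (ξ a)))] at h1
    have h2 := hessE_sq_le hg hx hf (hessE g f x (ξ a))
    have h3 := hessE_sq_le hg hx hf (ξ a)
    rw [hξ.orth, if_pos rfl, mul_one] at h3
    have h4 : bil (g x) (hessE g f x (hessE g f x (ξ a))) (hessE g f x (hessE g f x (ξ a))) ≤
        hessSq g f x * hessSq g f x := h2.trans (by gcongr)
    refine abs_le_of_sq_le_sq ?_ (by positivity)
    calc _ ≤ b ^ 2 * (1 * 1 * 1 * bil (g x) (hessE g f x (hessE g f x (ξ a)))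
              (hessE g f x (hessE g f x (ξ a)))) := h1
      _ ≤ b ^ 2 * (1 * 1 * 1 * (hessSq g f x * hessSq g f x)) := by gcongr
      _ = _ := by ring
  have hn : (n:ℝ) ≤ (n:ℝ) ^ 2 := by
    rcases Nat.eq_zero_or_pos n with h | h
    · subst h; simp
    · have : (1:ℝ) ≤ n := by exact_mod_cast h
      nlinarith
  calc _ ≤ ∑ a, ∑ c, (b * ((p a + p c) / 2) + b * hessSq g f x) := by
        refine (Finset.abs_sum_le_sum_abs _ _).trans (Finset.sum_le_sum fun a _ => ?_)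
        refine (Finset.abs_sum_le_sum_abs _ _).trans (Finset.sum_le_sum fun c _ => ?_)
        exact (abs_sub _ _).trans (add_le_add (t1 a c) (t2 a c))
    _ = n * b * hessSq g f x + n ^ 2 * b * hessSq g f x := by
        simp only [Finset.sum_add_distrib, ← Finset.mul_sum, ← Finset.sum_div, hsum,
          Finset.sum_const, Finset.card_univ, Fintype.card_fin, nsmul_eq_mul]
        ring
    _ ≤ _ := by nlinarith [mul_nonneg hb0 hH]

/-- **the pointwise inequality**. -/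
theorem hess3Sq_le (hg : IsRiemannianOn g U) (hx : x ∈ U) (hf : ContDiffAt ℝ 4 f x)
    (hh : ∀ᶠ y in 𝓝 x, laplaceBeltrami g f y = 0) (hb0 : 0 ≤ b) (hb : CurvLe g x b) :
    hess3Sq g f x ≤ divg g (Vv g f) x + 2 * n ^ 2 * b ^ 2 * gam g f f x +
      2 * n ^ 2 * b * hessSq g f x := by
  obtain ⟨ξ, hξ⟩ := exists_frame hg hx
  have hf3 : ContDiffAt ℝ 3 f x := hf.of_le (by norm_num)
  have hf2 : ContDiffAt ℝ 2 f x := hf.of_le (by norm_num)
  have h1 := divg_Vv hg hx hf hξ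
  have h2 := dv_sq_le hg hx hf3 hh hb
  have h3' := err_le hg hx hf2 hξ hb0 hb
  have hG : 0 ≤ gam g f f x := gam_self_nonneg hg hx f
  have h4 : ∑ a, ∑ c, bil (g x) (curv (Gam g) x (ξ a) (ξ c) (grad g f x))
      (curv (Gam g) x (ξ a) (ξ c) (grad g f x)) ≤ n ^ 2 * (b ^ 2 * gam g f f x) := by
    have e1 : ∀ a c, bil (g x) (curv (Gam g) x (ξ a) (ξ c) (grad g f x))
        (curv (Gam g) x (ξ a) (ξ c) (grad g f x)) ≤ b ^ 2 * gam g f f x := by
      intro a c
      have := hb.sq_le hg hx (ξ a) (ξ c) (grad g f x)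
      rw [hξ.orth, hξ.orth, if_pos rfl, if_pos rfl, ← gam_eq_bil hg hx] at this
      linarith
    calc _ ≤ ∑ _a : Fin n, ∑ _c : Fin n, b ^ 2 * gam g f f x :=
          Finset.sum_le_sum fun a _ => Finset.sum_le_sum fun c _ => e1 a c
      _ = _ := by
          simp only [Finset.sum_const, Finset.card_univ, Fintype.card_fin, nsmul_eq_mul]
          ring
  rw [h1]
  have h5 := (abs_le.1 h3').1
  have h6 : 0 ≤ (n:ℝ) ^ 2 * (b ^ 2 * gam g f f x) := by positivity
  nlinarith [h4, h2, h5, h6]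

/-- absorption of the cut-off terms. -/
theorem cutoff_le (hg : IsRiemannianOn g U) (hx : x ∈ U) (hf : ContDiffAt ℝ 3 f x)
    (hh : ∀ᶠ y in 𝓝 x, laplaceBeltrami g f y = 0) (hb : CurvLe g x b) (η : ℝ)
    (z : 𝔼) :
    |2 * η * bil (g x) (Vv g f x) z| ≤ (1 / 2) * (η ^ 2 * hess3Sq g f x) +
      3 * (bil (g x) z z * hessSq g f x) + η ^ 2 * (n ^ 2 * b ^ 2 * gam g f f x) := by
  have hf2 : ContDiffAt ℝ 2 f x := hf.of_le (by norm_num)
  have hG : 0 ≤ gam g f f x := gam_self_nonneg hg hx f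
  have hH := hessSq_nonneg hg hx hf2
  have h3n := hess3Sq_nonneg hg hx hf
  have hz := bil_self_nonneg hg hx z
  have h1 := Wv_sq_le hg hx hf z
  have h2 : bil (g x) (hessE g f x (dv g f x)) z ^ 2 ≤
      hessSq g f x * (n ^ 2 * b ^ 2 * gam g f f x) * bil (g x) z z := by
    refine (bil_sq_le hg hx _ _).trans ?_
    refine mul_le_mul_of_nonneg_right ?_ hz
    exact (hessE_sq_le hg hx hf2 _).trans
      (mul_le_mul_of_nonneg_left (dv_sq_le hg hx hf hh hb) hH)
  have e : 2 * η * bil (g x) (Vv g f x) z = 2 * η * bil (g x) (Wv g f x) z -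
      2 * η * bil (g x) (hessE g f x (dv g f x)) z := by
    rw [Vv, map_sub, sub_apply]; ring
  rw [e]
  have k1 : |2 * η * bil (g x) (Wv g f x) z| ≤ (1 / 2) * (η ^ 2 * hess3Sq g f x) +
      2 * (bil (g x) z z * hessSq g f x) := by
    refine abs_le_of_sq_le_sq ?_ (by positivity)
    have h4 : (2 * η * bil (g x) (Wv g f x) z) ^ 2 ≤
        4 * ((η ^ 2 * hess3Sq g f x) * (bil (g x) z z * hessSq g f x)) := by
      have : 4 * η ^ 2 * bil (g x) (Wv g f x) z ^ 2 ≤
        4 * η ^ 2 * (hessSq g f x * hess3Sq g f x * bil (g x) z z) := by gcongr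
      nlinarith [this]
    nlinarith [h4, sq_nonneg ((1 / 2) * (η ^ 2 * hess3Sq g f x) -
      2 * (bil (g x) z z * hessSq g f x))]
  have k2 : |2 * η * bil (g x) (hessE g f x (dv g f x)) z| ≤ bil (g x) z z * hessSq g f x +
      η ^ 2 * (n ^ 2 * b ^ 2 * gam g f f x) := by
    refine abs_le_of_sq_le_sq ?_ (by positivity)
    have h4 : (2 * η * bil (g x) (hessE g f x (dv g f x)) z) ^ 2 ≤
        4 * ((bil (g x) z z * hessSq g f x) * (η ^ 2 * (n ^ 2 * b ^ 2 * gam g f f x))) := by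
      have : 4 * η ^ 2 * bil (g x) (hessE g f x (dv g f x)) z ^ 2 ≤
        4 * η ^ 2 * (hessSq g f x * (n ^ 2 * b ^ 2 * gam g f f x) * bil (g x) z z) := by gcongr
      nlinarith [this]
    nlinarith [h4, sq_nonneg ((bil (g x) z z * hessSq g f x) -
      (η ^ 2 * (n ^ 2 * b ^ 2 * gam g f f x)))]
  refine (abs_sub _ _).trans ?_
  linarith

end Symm

end Crest.Agent.R249.Cod992
end
end

-- ▼ part R249/Cod4_992
section

/-!
# R249, leaf D3-COD (helper992), file 4: invariance under local isometries (`Pull`)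
-/

set_option autoImplicit false

open scoped ContDiff Topology
open Filter Set
open Crest.GeometryTopology.CoordMetric Crest.GeometryTopology.ChartCurvature
open Crest.Agent.R202.Tens Crest.Agent.R247.Bo84

noncomputable section

namespace Crest.Agent.R249.Cod992

variable {n : ℕ}

local notation "𝔼" => EuclideanSpace ℝ (Fin n)

section Congr

variable {g : MetricField n} {x : EuclideanSpace ℝ (Fin n)}
  {f f' : EuclideanSpace ℝ (Fin n) → ℝ}

lemma hessE_congr_ev (h1 : f =ᶠ[𝓝 x] f') : hessE g f =ᶠ[𝓝 x] hessE g f' := by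
  filter_upwards [h1.eventuallyEq_nhds] with y hy using hessE_congr hy

lemma h3_congr (h1 : f =ᶠ[𝓝 x] f') : h3 g f x = h3 g f' x := by
  rw [h3, h3, covA, covA, (hessE_congr_ev h1).fderiv_eq, hessE_congr h1]

lemma hess3Sq_congr (h1 : f =ᶠ[𝓝 x] f') : hess3Sq g f x = hess3Sq g f' x := by
  rw [hess3Sq, hess3Sq, h3_congr h1]

lemma Vv_congr (h1 : f =ᶠ[𝓝 x] f') : Vv g f x = Vv g f' x := by
  rw [Vv, Vv, Wv, Wv, dv, dv, bet, bet, h3_congr h1, hessE_congr h1]


end Congr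

variable {g' g : MetricField n} {Φ : EuclideanSpace ℝ (Fin n) → EuclideanSpace ℝ (Fin n)}
  {V W : Set (EuclideanSpace ℝ (Fin n))} {y : EuclideanSpace ℝ (Fin n)}
  {f h : EuclideanSpace ℝ (Fin n) → ℝ}

/-- transformation of the covariant derivative of an endomorphism field. -/
theorem covA_pull (p : Pull g' g Φ V W) (hy : y ∈ V) {A' A : 𝔼 → 𝔼 →L[ℝ] 𝔼}
    (hA' : DifferentiableAt ℝ A' y) (hA : DifferentiableAt ℝ A (Φ y))
    (hAA : ∀ᶠ z in 𝓝 y, ∀ Y, fderiv ℝ Φ z (A' z Y) = A (Φ z) (fderiv ℝ Φ z Y)) (X Y : 𝔼) :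
    fderiv ℝ Φ y (covA g' A' y X Y) = covA g A (Φ y) (fderiv ℝ Φ y X) (fderiv ℝ Φ y Y) := by
  have hddΦ : DifferentiableAt ℝ (fderiv ℝ Φ) y :=
    ((p.contDiffAt hy).fderiv_right (m := ∞) (by simp)).differentiableAt (by simp)
  have hΦ := pull_differentiableAt p hy
  have hA'Y : DifferentiableAt ℝ (fun z => A' z Y) y := hA'.clm_apply (differentiableAt_const _)
  have hΦY : DifferentiableAt ℝ (fun z => fderiv ℝ Φ z Y) y :=
    hddΦ.clm_apply (differentiableAt_const _)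
  have hAΦ : DifferentiableAt ℝ (fun z => A (Φ z)) y := hA.comp y hΦ
  have h1 : fderiv ℝ (fun z => fderiv ℝ Φ z (A' z Y)) y X =
      fderiv ℝ (fun z => A (Φ z) (fderiv ℝ Φ z Y)) y X := by
    rw [EventuallyEq.fderiv_eq (hAA.mono fun z hz => hz Y)]
  have h3 : fderiv ℝ (fun z => A (Φ z)) y X = fderiv ℝ A (Φ y) (fderiv ℝ Φ y X) := by
    have : fderiv ℝ (A ∘ Φ) y = (fderiv ℝ A (Φ y)).comp (fderiv ℝ Φ y) := fderiv_comp y hA hΦ
    exact congrArg (fun L => L X) this
  rw [fderiv_clm_apply hddΦ hA'Y, fderiv_clm_apply hAΦ hΦY,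
    fderiv_clm_apply hA' (differentiableAt_const _),
    fderiv_clm_apply hddΦ (differentiableAt_const _)] at h1
  simp only [fderiv_fun_const, Pi.zero_apply, ContinuousLinearMap.comp_zero, zero_add, add_apply,
    ContinuousLinearMap.comp_apply, ContinuousLinearMap.flip_apply, h3] at h1
  have h0 := hAA.self_of_nhds
  rw [covA_apply, covA_apply, map_sub, map_add, p.gam_eq hy, h0, h0, p.gam_eq hy, map_add]
  rw [← sub_eq_zero] at h1 ⊢
  rw [← h1]
  abel

/-- transformation of the third covariant derivative. -/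
theorem h3_pull (p : Pull g' g Φ V W) (hy : y ∈ V) (hf : ContDiffAt ℝ 3 f (Φ y)) (X Y : 𝔼) :
    fderiv ℝ Φ y (h3 g' (fun z => f (Φ z)) y X Y) =
      h3 g f (Φ y) (fderiv ℝ Φ y X) (fderiv ℝ Φ y Y) := by
  have hf' : ContDiffAt ℝ 3 (fun z => f (Φ z)) y := contDiffAt_comp_pull p hy three_le_infty hf
  have hc : ContinuousAt Φ y := (p.contDiffAt hy).continuousAt
  refine covA_pull p hy ?_ ?_ ?_ X Y
  · exact (contDiffAt_hessE p.riem' hy (m := 1) hf' (by norm_num)
      (WithTop.coe_le_coe.2 le_top)).differentiableAt (by norm_num)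
  · exact (contDiffAt_hessE p.riem (p.maps y hy) (m := 1) hf (by norm_num)
      (WithTop.coe_le_coe.2 le_top)).differentiableAt (by norm_num)
  · filter_upwards [p.isOpen.mem_nhds hy, hc.eventually (hf.eventually (by norm_num))] with z hz hfz
    exact fun Y => hessE_pull p hz (hfz.of_le (by norm_num)) Y

lemma isFrame_pull (p : Pull g' g Φ V W) (hy : y ∈ V) {ξ : Fin n → 𝔼} (hξ : IsFrame (g' y) ξ) :
    IsFrame (g (Φ y)) fun a => fderiv ℝ Φ y (ξ a) :=
  isFrame_of_orth (frame_pull p hy hξ)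

/-- the metric trace is natural. -/
theorem ctr_pull (p : Pull g' g Φ V W) (hy : y ∈ V) {β' β : 𝔼 →L[ℝ] 𝔼 →L[ℝ] 𝔼}
    (h : ∀ X Y, fderiv ℝ Φ y (β' X Y) = β (fderiv ℝ Φ y X) (fderiv ℝ Φ y Y)) :
    fderiv ℝ Φ y (ctr g' y β') = ctr g (Φ y) β := by
  obtain ⟨ξ, hξ⟩ := exists_frame p.riem' hy
  rw [ctr_frame p.riem' hy hξ, ctr_frame p.riem (p.maps y hy) (isFrame_pull p hy hξ), map_sum]
  exact Finset.sum_congr rfl fun a _ => h _ _

theorem dv_pull (p : Pull g' g Φ V W) (hy : y ∈ V) (hf : ContDiffAt ℝ 3 f (Φ y)) :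
    fderiv ℝ Φ y (dv g' (fun z => f (Φ z)) y) = dv g f (Φ y) :=
  ctr_pull p hy fun X Y => h3_pull p hy hf X Y

theorem Wv_pull (p : Pull g' g Φ V W) (hy : y ∈ V) (hf : ContDiffAt ℝ 3 f (Φ y)) :
    fderiv ℝ Φ y (Wv g' (fun z => f (Φ z)) y) = Wv g f (Φ y) := by
  refine ctr_pull p hy fun X Y => ?_
  rw [bet_apply, bet_apply, h3_pull p hy hf, hessE_pull p hy (hf.of_le (by norm_num))]

theorem Vv_pull (p : Pull g' g Φ V W) (hy : y ∈ V) (hf : ContDiffAt ℝ 3 f (Φ y)) :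
    fderiv ℝ Φ y (Vv g' (fun z => f (Φ z)) y) = Vv g f (Φ y) := by
  rw [Vv, Vv, map_sub, Wv_pull p hy hf, hessE_pull p hy (hf.of_le (by norm_num)),
    dv_pull p hy hf]

theorem hess3Sq_pull (p : Pull g' g Φ V W) (hy : y ∈ V) (hf : ContDiffAt ℝ 3 f (Φ y)) :
    hess3Sq g' (fun z => f (Φ z)) y = hess3Sq g f (Φ y) := by
  obtain ⟨ξ, hξ⟩ := exists_frame p.riem' hy
  have hf' : ContDiffAt ℝ 3 (fun z => f (Φ z)) y := contDiffAt_comp_pull p hy three_le_infty hf
  rw [hess3Sq_frame p.riem' hy hf' hξ,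
    hess3Sq_frame p.riem (p.maps y hy) hf (isFrame_pull p hy hξ)]
  refine Finset.sum_congr rfl fun a _ => Finset.sum_congr rfl fun b _ => ?_
  rw [p.bil_eq hy, h3_pull p hy hf]


theorem CurvLe.push (p : Pull g' g Φ V W) (hy : y ∈ V) {b : ℝ} (h : CurvLe g' y b) :
    CurvLe g (Φ y) b := by
  intro u v w z
  obtain ⟨u, rfl⟩ := p.surj hy u
  obtain ⟨v, rfl⟩ := p.surj hy v
  obtain ⟨w, rfl⟩ := p.surj hy w
  obtain ⟨z, rfl⟩ := p.surj hy z
  rw [← p.curv_eq hy, ← p.bil_eq hy, ← p.bil_eq hy, ← p.bil_eq hy, ← p.bil_eq hy, ← p.bil_eq hy]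
  exact h _ _ _ _

lemma continuousAt_hess3Sq {U : Set (EuclideanSpace ℝ (Fin n))} {x : EuclideanSpace ℝ (Fin n)}
    (hg : IsRiemannianOn g U) (hx : x ∈ U) {a m : WithTop ℕ∞}
    (hf : ContDiffAt ℝ a f x) (hma : m + 1 + 1 + 1 ≤ a) (hm : m + 1 + 1 ≤ ∞) :
    ContDiffAt ℝ m (hess3Sq g f) x := by
  have hm' : m ≤ ∞ := ((by simp : m ≤ m + 1).trans (by simp : m + 1 ≤ m + 1 + 1)).trans hm
  refine ContDiffAt.sum fun k _ => ?_
  have h1 := contDiffAt_h3 hg hx hf hma hm
  exact contDiffAt_const.clm_apply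
    ((h1.clm_apply ((contDiffAt_nv hg hx k).of_le hm')).clm_comp (h1.clm_apply contDiffAt_const))

end Crest.Agent.R249.Cod992
end
end

-- ▼ part R249/Cod5_992

/-!
# R249, leaf D3-COD (helper992), file 5: the third covariant derivative on the manifold

`mHess3Sq n f p = |∇Hess f|²(p)`, `mH3 n f p v w = (∇_v Hess f)(w)`, `mVv n f` the vector field of
the divergence identity, `MCurvLe n p b` curvature bound at `p`; chart expressions, frame formulas,
Codazzi, Kato, the pointwise inequality.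
-/

set_option autoImplicit false
set_option maxSynthPendingDepth 3
set_option linter.unusedSectionVars false

open scoped ContDiff Topology Manifold
open Filter Set Bundle
open Crest.GeometryTopology.CoordMetric Crest.GeometryTopology.ChartCurvature
open Crest.Agent.R202.Tens
open Crest.Agent.R247.Bo84 Crest.Agent.R249.Vf281

noncomputable section

namespace Crest.Agent.R249.Cod992

variable (n : ℕ) {M : Type*} [TopologicalSpace M] [ChartedSpace (EuclideanSpace ℝ (Fin n)) M]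
  [IsManifold 𝓘(ℝ, EuclideanSpace ℝ (Fin n)) ∞ M]
  [RiemannianBundle (fun x : M => TangentSpace 𝓘(ℝ, EuclideanSpace ℝ (Fin n)) x)]
  [IsContMDiffRiemannianBundle 𝓘(ℝ, EuclideanSpace ℝ (Fin n)) ∞ (EuclideanSpace ℝ (Fin n))
      (fun x : M => TangentSpace 𝓘(ℝ, EuclideanSpace ℝ (Fin n)) x)]

local notation "𝔼" => EuclideanSpace ℝ (Fin n)
local notation "𝓘E" => 𝓘(ℝ, EuclideanSpace ℝ (Fin n))

/-- `|∇ Hess f|²` on the manifold. -/
def mHess3Sq (f : M → ℝ) (p : M) : ℝ :=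
  hess3Sq (chartMetric n M p) (inCh n p f) (chartCentre n M p)


/-- the vector field of the divergence identity. -/
def mVv (f : M → ℝ) (p : M) : TangentSpace 𝓘(ℝ, EuclideanSpace ℝ (Fin n)) p :=
  dSy p (chartCentre n M p) (Vv (chartMetric n M p) (inCh n p f) (chartCentre n M p))

/-- the curvature at `p` is bounded by `b`. -/
def MCurvLe (p : M) (b : ℝ) : Prop := CurvLe (chartMetric n M p) (chartCentre n M p) b

variable {n}

variable {x₀ p : M} {f h : M → ℝ} {y : EuclideanSpace ℝ (Fin n)} {b : ℝ}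

lemma symm_centre (p : M) : (chartAt 𝔼 p).symm (chartCentre n M p) = p :=
  (chartAt 𝔼 p).left_inv (mem_chart_source 𝔼 p)

/-! ### charts -/

theorem mHess3Sq_chart (hy : y ∈ (chartAt 𝔼 x₀).target)
    (hf : ContMDiffAt 𝓘E 𝓘(ℝ, ℝ) 3 f ((chartAt 𝔼 x₀).symm y)) :
    mHess3Sq n f ((chartAt 𝔼 x₀).symm y) = hess3Sq (chartMetric n M x₀) (inCh n x₀ f) y := by
  have hyd := mem_tdom_self hy
  have hP := pull_trans (n := n) x₀ ((chartAt 𝔼 x₀).symm y)
  have hc := trans_mem hyd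
  have hf' : ContDiffAt ℝ 3 (inCh n ((chartAt 𝔼 x₀).symm y) f)
      (trans x₀ ((chartAt 𝔼 x₀).symm y) y) := by
    refine contDiffAt_inCh three_le_infty hc ?_
    rw [symm_trans hyd]
    exact hf
  rw [hess3Sq_congr (inCh_trans hyd), hess3Sq_pull hP hyd hf']
  rfl

theorem mHess3Sq_chart' (hp : p ∈ (chartAt 𝔼 x₀).source)
    (hf : ContMDiffAt 𝓘E 𝓘(ℝ, ℝ) 3 f p) :
    mHess3Sq n f p = hess3Sq (chartMetric n M x₀) (inCh n x₀ f) (chartAt 𝔼 x₀ p) := by
  have h1 := (chartAt 𝔼 x₀).left_inv hp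
  rw [← mHess3Sq_chart ((chartAt 𝔼 x₀).map_source hp) (by rw [h1]; exact hf), h1]

theorem vCh_mVv (hy : y ∈ (chartAt 𝔼 x₀).target)
    (hf : ContMDiffAt 𝓘E 𝓘(ℝ, ℝ) 3 f ((chartAt 𝔼 x₀).symm y)) :
    vCh n x₀ (mVv n f) y = Vv (chartMetric n M x₀) (inCh n x₀ f) y := by
  have hyd := mem_tdom_self hy
  have hP := pull_trans (n := n) x₀ ((chartAt 𝔼 x₀).symm y)
  have hc := trans_mem hyd
  have hf' : ContDiffAt ℝ 3 (inCh n ((chartAt 𝔼 x₀).symm y) f)
      (trans x₀ ((chartAt 𝔼 x₀).symm y) y) := by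
    refine contDiffAt_inCh three_le_infty hc ?_
    rw [symm_trans hyd]
    exact hf
  have h1 : fderiv ℝ (trans x₀ ((chartAt 𝔼 x₀).symm y)) y
      (Vv (chartMetric n M x₀) (inCh n x₀ f) y) =
      Vv (chartMetric n M ((chartAt 𝔼 x₀).symm y)) (inCh n ((chartAt 𝔼 x₀).symm y) f)
        (trans x₀ ((chartAt 𝔼 x₀).symm y) y) := by
    rw [Vv_congr (inCh_trans hyd), Vv_pull hP hyd hf']
  have h2 : mVv n f ((chartAt 𝔼 x₀).symm y) =
      dSy x₀ y (Vv (chartMetric n M x₀) (inCh n x₀ f) y) := by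
    rw [← dSy_trans hyd, h1]
    rfl
  rw [vCh, h2, dCh_dSy x₀ hy]


lemma eventually_contMDiffAt {k : WithTop ℕ∞} (hk : k ≤ ∞) (hk' : k ≠ ∞)
    (hy : y ∈ (chartAt 𝔼 x₀).target)
    (hf : ContMDiffAt 𝓘E 𝓘(ℝ, ℝ) k f ((chartAt 𝔼 x₀).symm y)) :
    ∀ᶠ z in 𝓝 y, ContMDiffAt 𝓘E 𝓘(ℝ, ℝ) k f ((chartAt 𝔼 x₀).symm z) := by
  have : IsManifold 𝓘E k M := IsManifold.of_le (n := ∞) hk
  have h2 : ∀ᶠ q in 𝓝 ((chartAt 𝔼 x₀).symm y), ContMDiffAt 𝓘E 𝓘(ℝ, ℝ) k f q :=
    (contMDiffAt_iff_contMDiffAt_nhds hk').1 hf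
  exact ((chartAt 𝔼 x₀).continuousAt_symm hy).eventually h2

lemma eventually_vCh_mVv (hy : y ∈ (chartAt 𝔼 x₀).target)
    (hf : ContMDiffAt 𝓘E 𝓘(ℝ, ℝ) 3 f ((chartAt 𝔼 x₀).symm y)) :
    vCh n x₀ (mVv n f) =ᶠ[𝓝 y] Vv (chartMetric n M x₀) (inCh n x₀ f) := by
  filter_upwards [(chartAt 𝔼 x₀).open_target.mem_nhds hy,
    eventually_contMDiffAt three_le_infty (by simp) hy hf] with z hz hfz using vCh_mVv hz hfz

lemma four_le_infty : (4 : WithTop ℕ∞) ≤ ∞ := WithTop.coe_le_coe.2 le_top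

/-- `mVv n f` is `C¹` where `f` is `C⁴`. -/
theorem VSm_mVv (hf : ContMDiffAt 𝓘E 𝓘(ℝ, ℝ) 4 f p) : VSm n 1 (mVv n f) p := by
  have hf3 : ContMDiffAt 𝓘E 𝓘(ℝ, ℝ) 3 f ((chartAt 𝔼 p).symm (chartCentre n M p)) := by
    rw [symm_centre]; exact hf.of_le (by norm_num)
  refine ContDiffAt.congr_of_eventuallyEq ?_ (eventually_vCh_mVv (centre_mem p) hf3)
  exact contDiffAt_Vv (isRiemannianOn_chartMetric p) (centre_mem p) (m := 1)
    (contDiffAt_centre four_le_infty hf) (by norm_num) (WithTop.coe_le_coe.2 le_top)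

theorem mDiv_mVv (hf : ContMDiffAt 𝓘E 𝓘(ℝ, ℝ) 3 f p) :
    mDiv n (mVv n f) p =
      divg (chartMetric n M p) (Vv (chartMetric n M p) (inCh n p f)) (chartCentre n M p) := by
  have hf3 : ContMDiffAt 𝓘E 𝓘(ℝ, ℝ) 3 f ((chartAt 𝔼 p).symm (chartCentre n M p)) := by
    rw [symm_centre]; exact hf
  exact divg_congr (eventually_vCh_mVv (centre_mem p) hf3)

/-- `mHess3Sq n f` is continuous where `f` is `C³`. -/
theorem continuousAt_mHess3Sq (hf : ContMDiffAt 𝓘E 𝓘(ℝ, ℝ) 3 f p) :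
    ContinuousAt (mHess3Sq n f) p := by
  have h1 : ContDiffAt ℝ 0 (hess3Sq (chartMetric n M p) (inCh n p f)) (chartCentre n M p) :=
    continuousAt_hess3Sq (isRiemannianOn_chartMetric p) (centre_mem p) (m := 0)
      (contDiffAt_centre three_le_infty hf) (by norm_num) (WithTop.coe_le_coe.2 le_top)
  have h2 : ContinuousAt (fun q => hess3Sq (chartMetric n M p) (inCh n p f) (chartAt 𝔼 p q)) p :=
    ContinuousAt.comp (f := chartAt 𝔼 p) (x := p) h1.continuousAt
      ((chartAt 𝔼 p).continuousAt (mem_chart_source 𝔼 p))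
  refine h2.congr ?_
  have h3 : ∀ᶠ q in 𝓝 p, ContMDiffAt 𝓘E 𝓘(ℝ, ℝ) 3 f q :=
    (contMDiffAt_iff_contMDiffAt_nhds (by simp)).1 hf
  filter_upwards [(chartAt 𝔼 p).open_source.mem_nhds (mem_chart_source 𝔼 p), h3] with q hq hfq
  exact (mHess3Sq_chart' hq hfq).symm

/-! ### pointwise facts -/

lemma mHess3Sq_nonneg (hf : ContMDiffAt 𝓘E 𝓘(ℝ, ℝ) 3 f p) : 0 ≤ mHess3Sq n f p :=
  hess3Sq_nonneg (isRiemannianOn_chartMetric p) (centre_mem p)
    (contDiffAt_centre three_le_infty hf)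





/-- **Kato** for the Hessian. -/
theorem mkato3 (hf : ContMDiffAt 𝓘E 𝓘(ℝ, ℝ) 3 f p) :
    mGam n (mHessSq n f) (mHessSq n f) p ≤ 4 * mHessSq n f p * mHess3Sq n f p := by
  have hf2 : ∀ᶠ z in 𝓝 (chartCentre n M p), ContMDiffAt 𝓘E 𝓘(ℝ, ℝ) 2 f
      ((chartAt 𝔼 p).symm z) := by
    refine eventually_contMDiffAt two_le_infty (by simp) (centre_mem p) ?_
    rw [symm_centre]; exact hf.of_le (by norm_num)
  have h1 : inCh n p (mHessSq n f) =ᶠ[𝓝 (chartCentre n M p)]
      hessSq (chartMetric n M p) (inCh n p f) := by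
    filter_upwards [(chartAt 𝔼 p).open_target.mem_nhds (centre_mem p), hf2] with z hz hfz
    exact mHessSq_chart hz hfz
  rw [mGam, gam_congr h1 h1]
  exact kato3 (isRiemannianOn_chartMetric p) (centre_mem p) (contDiffAt_centre three_le_infty hf)

lemma eventually_lap_zero (hf : ContMDiffAt 𝓘E 𝓘(ℝ, ℝ) 2 f p)
    (hh : ∀ᶠ q in 𝓝 p, mLap n f q = 0) :
    ∀ᶠ z in 𝓝 (chartCentre n M p), laplaceBeltrami (chartMetric n M p) (inCh n p f) z = 0 := by
  have hc : ContinuousAt (chartAt 𝔼 p).symm (chartCentre n M p) :=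
    (chartAt 𝔼 p).continuousAt_symm (centre_mem p)
  rw [ContinuousAt, symm_centre] at hc
  have hf2 : ∀ᶠ z in 𝓝 (chartCentre n M p), ContMDiffAt 𝓘E 𝓘(ℝ, ℝ) 2 f
      ((chartAt 𝔼 p).symm z) := by
    refine eventually_contMDiffAt two_le_infty (by simp) (centre_mem p) ?_
    rw [symm_centre]; exact hf
  filter_upwards [(chartAt 𝔼 p).open_target.mem_nhds (centre_mem p), hf2, hc.eventually hh]
    with z hz hfz hhz
  rw [← mLap_chart hz hfz]
  exact hhz

/-- **the pointwise inequality** on the manifold. -/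
theorem mHess3Sq_le (hf : ContMDiffAt 𝓘E 𝓘(ℝ, ℝ) 4 f p)
    (hh : ∀ᶠ q in 𝓝 p, mLap n f q = 0) (hb0 : 0 ≤ b) (hb : MCurvLe n p b) :
    mHess3Sq n f p ≤ mDiv n (mVv n f) p + 2 * n ^ 2 * b ^ 2 * mGam n f f p +
      2 * n ^ 2 * b * mHessSq n f p := by
  rw [mDiv_mVv (hf.of_le (by norm_num))]
  exact hess3Sq_le (isRiemannianOn_chartMetric p) (centre_mem p)
    (contDiffAt_centre four_le_infty hf) (eventually_lap_zero (hf.of_le (by norm_num)) hh) hb0 hb

/-- absorption of the cut-off terms on the manifold. -/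
theorem mcutoff_le (hf : ContMDiffAt 𝓘E 𝓘(ℝ, ℝ) 3 f p)
    (hh : ∀ᶠ q in 𝓝 p, mLap n f q = 0) (hb : MCurvLe n p b) (η : M → ℝ) (t : ℝ) :
    |2 * t * dM n η p (mVv n f p)| ≤ (1 / 2) * (t ^ 2 * mHess3Sq n f p) +
      3 * (mGam n η η p * mHessSq n f p) + t ^ 2 * (n ^ 2 * b ^ 2 * mGam n f f p) := by
  have hg := isRiemannianOn_chartMetric (n := n) p
  have hx := centre_mem (n := n) p
  have h1 : dM n η p (mVv n f p) = bil (chartMetric n M p (chartCentre n M p))
      (Vv (chartMetric n M p) (inCh n p f) (chartCentre n M p))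
      (grad (chartMetric n M p) (inCh n p η) (chartCentre n M p)) := by
    rw [dM_eq, mfderiv_centre, ← vCh_centre, vCh_mVv hx (by rw [symm_centre]; exact hf),
      bil_symm hg hx, bil_grad hg hx]
  rw [h1]
  have h2 := cutoff_le hg hx (contDiffAt_centre three_le_infty hf)
    (eventually_lap_zero (hf.of_le (by norm_num)) hh) hb t
    (grad (chartMetric n M p) (inCh n p η) (chartCentre n M p))
  rw [← gam_eq_bil hg hx] at h2
  exact h2

end Crest.Agent.R249.Cod992
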