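import Crest.Agent.R249.Sym2_467

/-!
# Row 249, part A (helper621): covering of the region of the contract AC* by the charts

`ACpm` : the parameters `g₁ = 7/40`, `g₂ = 1/125`; `cover` : every point of the region lies in box I
(`w = 1 - m ≤ 3/10`, `η² = (25/4) w Θ`) or in box II (`m ≤ 7/10`, `η² = 4 m² Θ`), `0 ≤ Θ ≤ 1`,
`G = c (1 - m) m² T`, `T ≥ 0`.
`contact_le` : the end of the contact curve.
-/

set_option autoImplicit false

namespace Crest.Agent.R249.CovA621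

open Sym467

/-- the parameters of the contract AC* -/
noncomputable def ACpm : Pm where
  g1 := 7 / 40
  g2 := 1 / 125
  h1 := by norm_num
  h2 := by norm_num
  h3 := by norm_num
  h4 := by norm_num

theorem kf_AC (z : E3) : kf ACpm z = 1 - 7 / 40 * z.1 ^ 2 + 1 / 125 * z.1 ^ 4 - z.2.1 := rfl


/-- **box I**: for `1 - m ≤ 3/10` the region satisfies `η² ≤ (25/4) (1 - m)`. -/
theorem boxI_le {y m : ℝ} (hy : 0 ≤ y) (hy4 : y ≤ 4) (hm : 7 / 10 ≤ m)
    (hk : 0 ≤ 1 - 7 / 40 * y + 1 / 125 * y ^ 2 - m) : 4 * y ≤ 25 * (1 - m) := by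
  by_contra hcon
  push Not at hcon
  -- `(3/200) y < y²/125`
  have h1 : 3 / 200 * y < 1 / 125 * y ^ 2 := by nlinarith
  have h2 : 15 / 8 < y := by
    by_contra h
    push Not at h
    nlinarith
  nlinarith






/-- `η ≠ 0` gives `m < 1` -/
theorem m_lt_one' {z : E3} (hz : z ∈ Reg ACpm) (hη : z.1 ≠ 0) : z.2.1 < 1 := by
  have h2 := eta_sq_le hz
  have hk := hz.k0
  rw [kf_AC] at hk
  have e : z.1 ^ 4 = (z.1 ^ 2) ^ 2 := by ring
  rw [e] at hk
  have h3 : 0 < z.1 ^ 2 := by positivity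
  nlinarith

/-- **the end of the contact curve**: `m = Γ(η)`, `0 ≤ η ≤ 2 m` gives `η ≤ 1.3865`. -/
theorem contact_le {η m : ℝ} (h4 : η ^ 2 ≤ 4) (hη : η ≤ 2 * m)
    (hm : m = 1 - 7 / 40 * η ^ 2 + 1 / 125 * η ^ 4) : η ≤ 2773 / 2000 := by
  by_contra hcon
  push Not at hcon
  have h2 : η ≤ 2 := by nlinarith
  rw [hm] at hη
  have h5 : η ^ 4 ≤ 4 * η ^ 2 := by
    have : η ^ 4 = η ^ 2 * η ^ 2 := by ring
    rw [this]
    exact mul_le_mul_of_nonneg_right h4 (sq_nonneg _)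
  nlinarith [mul_pos (sub_pos.2 hcon) (sub_pos.2 hcon)]



end Crest.Agent.R249.CovA621
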