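import Crest.Agent.R249.Brg2_133
import Crest.Agent.R249.Ker12_254
import Crest.Agent.R249.StKb_912

-- ▼ part R249/Con1_378
section

/-!
# Row 249, part A (helper378): the contact family, part 1: expressions and forms

On the contact curve: `η = 20 ξ`, `G = 400 ξ² p`, `m = 1 - 70 ξ² + 1280 ξ⁴`, `σ = Γ' = 256 ξ³ - 7 ξ`,
`u = m + 10 ξ`, `v = m - 10 ξ`, `k₂ = 1 + s (14 ξ - 512 ξ³)` (`s = ±1`: the two vertices),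
`X = D + 2 s E / k₂`, `K = K₀ + E / k₂`.
-/

set_option autoImplicit false

noncomputable section

namespace Crest.Agent.R249.Con378

open Ker254 Brg133 Eta467

/-! ## two-variable positivity -/

theorem psd2 {w n1 n2 off w' n1' n2' off' : ℕ} {L1 L2 : Lim} {T : TreeX} {a b d g : P3}
    (hT : okT 1 T = true)
    (h : runX w n1 n2 0 off L1 L2 ⟨none, none⟩ 0 T [a, b, [], d, [], []] = true)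
    (h1 : runX w' n1' n2' 0 off' L1 L2 ⟨none, none⟩ 1 T [g, [], [], [], [], []] = true)
    {x y : ℝ} (hx : L1.In x) (hy : L2.In y) (hg : ev3 x y 0 g < 0) (u v : ℝ) :
    0 ≤ ev3 x y 0 a * u ^ 2 + 2 * ev3 x y 0 b * u * v + ev3 x y 0 d * v ^ 2 := by
  have hz : Lim.In ⟨none, none⟩ 0 := Lim.in_none le_rfl
  have hN : (pt0 L1 L2 ⟨none, none⟩ x y 0).Nonneg := ⟨hx.1, hx.2, hy.1, hy.2, hz.1, hz.2⟩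
  obtain ⟨k, hk, hr⟩ := reach_total T hT _ hN
  have : k = 0 ∨ k = 1 := by omega
  rcases this with rfl | rfl
  · have := runX_sound h hx hy hz hr u v 0
    simp only [qf] at this
    linarith
  · have := runX_sound h1 hx hy hz hr 1 0 0
    simp [qf, ev3] at this
    linarith

/-! ## expressions -/

local infixl:65 " +ᵉ " => Ex.add
local infixl:65 " -ᵉ " => Ex.sub
local infixl:70 " *ᵉ " => Ex.mul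

/-- constants -/
def kc (n : ℤ) : Ex := .cst n

def eY : Ex := kc 400 *ᵉ (.pw .vx 2)
def eM : Ex := kc 1 -ᵉ kc 70 *ᵉ (.pw .vx 2) +ᵉ kc 1280 *ᵉ (.pw .vx 4)
def eG : Ex := kc 400 *ᵉ (.pw .vx 2) *ᵉ .vy
def eEta : Ex := kc 20 *ᵉ .vx
def eSig : Ex := kc 256 *ᵉ (.pw .vx 3) -ᵉ kc 7 *ᵉ .vx
def eU : Ex := eM +ᵉ kc 10 *ᵉ .vx
def eV : Ex := eM -ᵉ kc 10 *ᵉ .vx
def eD : Ex := kc 20 *ᵉ .vx *ᵉ (kc 1 -ᵉ kc 3 *ᵉ (.pw eM 2) -ᵉ kc 100 *ᵉ (.pw .vx 2))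
def eK : Ex := eM *ᵉ (kc 1 -ᵉ .pw eM 2 -ᵉ kc 300 *ᵉ (.pw .vx 2))
def eE : Ex := eSig *ᵉ eD -ᵉ eK +ᵉ (kc 15360 *ᵉ (.pw .vx 4) *ᵉ .vy -ᵉ kc 140 *ᵉ (.pw .vx 2) *ᵉ .vy)
/-- `k₂` -/
def eT (s : ℤ) : Ex := kc 1 +ᵉ kc s *ᵉ (kc 14 *ᵉ .vx -ᵉ kc 512 *ᵉ (.pw .vx 3))
/-- `k₂ X` -/
def eXN (s : ℤ) : Ex := eD *ᵉ eT s +ᵉ kc 2 *ᵉ kc s *ᵉ eE
/-- `k₂ K` -/
def eKN (s : ℤ) : Ex := eK *ᵉ eT s +ᵉ eE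

/-- `R` -/
def eR (c : ℕ) : Ex := eG +ᵉ kc (Int.ofNat c) *ᵉ (kc 1 -ᵉ eM) *ᵉ (.pw eM 2)
/-- `∂R/∂m` -/
def eRM (c : ℕ) : Ex := kc (Int.ofNat c) *ᵉ (kc 2 *ᵉ eM -ᵉ kc 3 *ᵉ (.pw eM 2))

/-- `N(y, m, G)` -/
def eN (N : P3) : Ex := .pc N eY eM eG

/-- `m R N` -/
def eW (c : ℕ) (N : P3) : Ex := eM *ᵉ eR c *ᵉ eN N

def eN2 (p c : ℕ) (N : P3) : Ex :=
  eM *ᵉ eR c *ᵉ eN (dY N) -ᵉ kc (Int.ofNat p) *ᵉ eR c *ᵉ eN N -ᵉ kc 2 *ᵉ eM *ᵉ eRM c *ᵉ eN N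

def eN3 (c : ℕ) (N : P3) : Ex := eM *ᵉ (eR c *ᵉ eN (dZ N) -ᵉ kc 2 *ᵉ eN N)

variable (C : Crt)

/-- a coefficient list in `(ξ, p)` -/
def eL (a : P3) : Ex := .pc a .vx .vy .vz

/-- `3 k₂² c₀ S` -/
def c0E (s : ℤ) : Ex :=
  kc 0 -ᵉ kc 3 *ᵉ eT s *ᵉ (eEta *ᵉ eW C.c C.nA) *ᵉ eXN s
  -ᵉ kc 3 *ᵉ (.pw (eT s) 2) *ᵉ (eW C.c C.nA +ᵉ kc 2 *ᵉ eY *ᵉ eW C.c (dX C.nA)) *ᵉ eG
  -ᵉ kc 3 *ᵉ eT s *ᵉ eW C.c C.nB *ᵉ eKN s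
  +ᵉ eW C.c C.nW *ᵉ (kc 3 *ᵉ (.pw (eT s) 2) *ᵉ eG -ᵉ kc 2 *ᵉ (.pw (eXN s) 2))
  -ᵉ kc 6 *ᵉ eT s *ᵉ eEta *ᵉ eW C.c (dX C.nW) *ᵉ eG *ᵉ eXN s
  -ᵉ eSig *ᵉ eG *ᵉ (kc 3 *ᵉ (.pw (eT s) 2) *ᵉ (eEta *ᵉ eN2 C.p C.c C.nA +ᵉ
      kc 2 *ᵉ eEta *ᵉ eW C.c (dX C.nB)) +ᵉ kc 3 *ᵉ eT s *ᵉ eXN s *ᵉ eN2 C.p C.c C.nW)
  -ᵉ kc 3 *ᵉ (.pw (eT s) 2) *ᵉ (.pw eSig 2) *ᵉ eG *ᵉ eN2 C.p C.c C.nB

/-- `6 k₂ c₁ S` -/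
def c1E (s : ℤ) : Ex :=
  kc 0 -ᵉ kc 6 *ᵉ eT s *ᵉ eEta *ᵉ eN3 C.c C.nA *ᵉ eG
  -ᵉ kc 6 *ᵉ eXN s *ᵉ eN3 C.c C.nW *ᵉ eG
  +ᵉ kc 6 *ᵉ eT s *ᵉ eEta *ᵉ eW C.c (dX C.nW) *ᵉ eG
  -ᵉ kc 2 *ᵉ eW C.c C.nW *ᵉ eXN s
  +ᵉ kc 3 *ᵉ eT s *ᵉ eSig *ᵉ eG *ᵉ (eN2 C.p C.c C.nW -ᵉ kc 2 *ᵉ eN3 C.c C.nB)

/-- `3 c₂ S` -/
def c2E : Ex := kc 4 *ᵉ eW C.c C.nW +ᵉ kc 6 *ᵉ eN3 C.c C.nW *ᵉ eG

/-! ## values -/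

variable (ξ p : ℝ)

def rM : ℝ := 1 - 70 * ξ ^ 2 + 1280 * ξ ^ 4
def rG : ℝ := 400 * ξ ^ 2 * p
def rSig : ℝ := 256 * ξ ^ 3 - 7 * ξ
def rD : ℝ := 20 * ξ * (1 - 3 * rM ξ ^ 2 - 100 * ξ ^ 2)
def rK : ℝ := rM ξ * (1 - rM ξ ^ 2 - 300 * ξ ^ 2)
def rE : ℝ := rSig ξ * rD ξ - rK ξ + (15360 * ξ ^ 4 * p - 140 * ξ ^ 2 * p)
def rT (s : ℤ) : ℝ := 1 + s * (14 * ξ - 512 * ξ ^ 3)

lemma eY_ev : eY.ev ξ p 0 = 400 * ξ ^ 2 := by simp [eY, kc, Ex.ev]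
lemma eM_ev : eM.ev ξ p 0 = rM ξ := by simp [eM, kc, Ex.ev, rM]
lemma eG_ev : eG.ev ξ p 0 = rG ξ p := by simp [eG, kc, Ex.ev, rG]
lemma eEta_ev : eEta.ev ξ p 0 = 20 * ξ := by simp [eEta, kc, Ex.ev]
lemma eSig_ev : eSig.ev ξ p 0 = rSig ξ := by simp [eSig, kc, Ex.ev, rSig]
lemma eU_ev : eU.ev ξ p 0 = rM ξ + 10 * ξ := by simp [eU, kc, Ex.ev, eM_ev]
lemma eV_ev : eV.ev ξ p 0 = rM ξ - 10 * ξ := by simp [eV, kc, Ex.ev, eM_ev]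
lemma eD_ev : eD.ev ξ p 0 = rD ξ := by simp [eD, kc, Ex.ev, eM_ev, rD]
lemma eK_ev : eK.ev ξ p 0 = rK ξ := by simp [eK, kc, Ex.ev, eM_ev, rK]
lemma eE_ev : eE.ev ξ p 0 = rE ξ p := by simp [eE, kc, Ex.ev, eSig_ev, eD_ev, eK_ev, rE]
lemma eT_ev (s : ℤ) : (eT s).ev ξ p 0 = rT ξ s := by simp [eT, kc, Ex.ev, rT]
lemma eXN_ev (s : ℤ) : (eXN s).ev ξ p 0 = rD ξ * rT ξ s + 2 * s * rE ξ p := by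
  simp [eXN, kc, Ex.ev, eD_ev, eT_ev, eE_ev]
lemma eKN_ev (s : ℤ) : (eKN s).ev ξ p 0 = rK ξ * rT ξ s + rE ξ p := by
  simp [eKN, Ex.ev, eK_ev, eT_ev, eE_ev]
lemma eR_ev (c : ℕ) : (eR c).ev ξ p 0 = RR c (rM ξ) (rG ξ p) := by
  simp [eR, kc, Ex.ev, eM_ev, eG_ev, RR]
lemma eRM_ev (c : ℕ) : (eRM c).ev ξ p 0 = RM c (rM ξ) := by
  simp [eRM, kc, Ex.ev, eM_ev, RM]
lemma eN_ev (N : P3) : (eN N).ev ξ p 0 = ev3 (400 * ξ ^ 2) (rM ξ) (rG ξ p) N := by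
  simp [eN, Ex.ev, eM_ev, eG_ev, eY_ev, h3_eq]
lemma eW_ev (c : ℕ) (N : P3) : (eW c N).ev ξ p 0 =
    rM ξ * RR c (rM ξ) (rG ξ p) * ev3 (400 * ξ ^ 2) (rM ξ) (rG ξ p) N := by
  simp [eW, Ex.ev, eM_ev, eR_ev, eN_ev]
lemma eN2_ev (p' c : ℕ) (N : P3) : (eN2 p' c N).ev ξ p 0 =
    N2 N p' c (400 * ξ ^ 2) (rM ξ) (rG ξ p) := by
  simp [eN2, kc, Ex.ev, eM_ev, eR_ev, eRM_ev, eN_ev, N2]
lemma eN3_ev (c : ℕ) (N : P3) : (eN3 c N).ev ξ p 0 =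
    N3 N c (400 * ξ ^ 2) (rM ξ) (rG ξ p) := by
  simp [eN3, kc, Ex.ev, eM_ev, eR_ev, eN_ev, N3]

lemma eL_ev (a : P3) : (eL a).ev ξ p 0 = ev3 ξ p 0 a := by
  simp [eL, Ex.ev, h3_eq]

variable {C ξ p}

/-- the form at the vertex: `c₀ + 2 c₁ h + c₂ h²`. -/
def vf (C : Crt) (ξ p X K h : ℝ) : ℝ :=
  C.e11 (20 * ξ) (400 * ξ ^ 2) (rM ξ) (rG ξ p) X K
    + C.eh (20 * ξ) (400 * ξ ^ 2) (rM ξ) (rG ξ p) X * h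
    + C.ehh (400 * ξ ^ 2) (rM ξ) (rG ξ p) * h ^ 2
    + C.ek (20 * ξ) (400 * ξ ^ 2) (rM ξ) (rG ξ p) X * (rSig ξ * rG ξ p)
    + C.ehk (400 * ξ ^ 2) (rM ξ) (rG ξ p) * (rSig ξ * rG ξ p * h)
    + C.ekk (400 * ξ ^ 2) (rM ξ) (rG ξ p) * (rSig ξ ^ 2 * rG ξ p)

theorem vf_eq {s : ℤ} {X K : ℝ}
    (hX : rT ξ s * X = rD ξ * rT ξ s + 2 * s * rE ξ p)
    (hK : rT ξ s * K = rK ξ * rT ξ s + rE ξ p) (h : ℝ) :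
    3 * rT ξ s ^ 2 * vf C ξ p X K h = (c0E C s).ev ξ p 0 +
      (c1E C s).ev ξ p 0 * (rT ξ s * h) + (c2E C).ev ξ p 0 * (rT ξ s * h) ^ 2 := by
  simp only [c0E, c1E, c2E, Ex.ev, kc, eT_ev, eXN_ev, eKN_ev, eW_ev, eN2_ev, eN3_ev, eG_ev,
    eSig_ev, eEta_ev, eY_ev, ← hX, ← hK, vf, Crt.e11, Crt.eh, Crt.ehh, Crt.ek, Crt.ehk, Crt.ekk]
  push_cast
  ring

end Crest.Agent.R249.Con378
end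
end

-- ▼ part R249/Con2_378

/-!
# Row 249, part A (helper378): the contact family, part 2: the four boxes

* `plain` : `2 c0 = ξ⁸ (a₁₁ + 2 N u v)`, `c1 = ξ⁷ a₁₂`, `2 c2 = ξ⁶ a₂₂`;
* `edgeU`, `edgeV` : near the end `v = 0` of the contact curve.
-/

set_option autoImplicit false

noncomputable section

namespace Crest.Agent.R249.Con378

open Ker254 Brg133 Eta467

local infixl:65 " +ᵉ " => Ex.add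
local infixl:65 " -ᵉ " => Ex.sub
local infixl:70 " *ᵉ " => Ex.mul

/-- identity check with automatic parameters -/
def idcB (E F : Ex) : Bool :=
  frc (Nat.succ (Nat.log2 (Nat.succ (Nat.add E.nb F.nb)))) fun w =>
  frc (Nat.max (E.dg 1 0 0) (F.dg 1 0 0)) fun n1 =>
  frc (Nat.max (E.dg 0 1 0) (F.dg 0 1 0)) fun n2 =>
  frc (Nat.max (E.dg 0 0 1) (F.dg 0 0 1)) fun n3 => idc w n1 n2 n3 E F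

theorem idcB_sound {E F : Ex} (h : idcB E F = true) (x y z : ℝ) : E.ev x y z = F.ev x y z := by
  unfold idcB at h
  simp only [frc_eq] at h
  exact idc_sound h x y z

/-- the conclusion for one vertex: `3 k₂² vf ≥ N ξ⁸ u v` -/
def Low (C : Crt) (s : ℤ) (N : ℕ) (ξ p : ℝ) : Prop :=
  ∀ x : ℝ, N * ξ ^ 8 * ((rM ξ + 10 * ξ) * (rM ξ - 10 * ξ)) ≤
    (c0E C s).ev ξ p 0 + (c1E C s).ev ξ p 0 * x + (c2E C).ev ξ p 0 * x ^ 2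

variable {C : Crt} {s : ℤ} {N : ℕ} {a b d g z : P3}

/-- away from the end -/
structure Plain (C : Crt) (s : ℤ) (N : ℕ) (a b d : P3) : Prop where
  i0 : idcB (kc 2 *ᵉ c0E C s) ((.pw .vx 8) *ᵉ (eL a +ᵉ kc 2 *ᵉ kc (Int.ofNat N) *ᵉ eU *ᵉ eV)) = true
  i1 : idcB (c1E C s) ((.pw .vx 7) *ᵉ eL b) = true
  i2 : idcB (kc 2 *ᵉ c2E C) ((.pw .vx 6) *ᵉ eL d) = true

theorem Plain.low (H : Plain C s N a b d) {ξ p : ℝ}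
    (hP : ∀ u v : ℝ, 0 ≤ ev3 ξ p 0 a * u ^ 2 + 2 * ev3 ξ p 0 b * u * v + ev3 ξ p 0 d * v ^ 2) :
    Low C s N ξ p := by
  intro x
  have h0 := idcB_sound H.i0 ξ p 0
  have h1 := idcB_sound H.i1 ξ p 0
  have h2 := idcB_sound H.i2 ξ p 0
  simp only [Ex.ev, kc, eL_ev, eU_ev, eV_ev, Int.ofNat_eq_natCast] at h0 h1 h2
  push_cast at h0 h1 h2
  have h3 := hP ξ x
  have h4 : 0 ≤ ξ ^ 6 * (ev3 ξ p 0 a * ξ ^ 2 + 2 * ev3 ξ p 0 b * ξ * x + ev3 ξ p 0 d * x ^ 2) :=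
    mul_nonneg (by positivity) h3
  have e : (c0E C s).ev ξ p 0 + (c1E C s).ev ξ p 0 * x + (c2E C).ev ξ p 0 * x ^ 2 -
      N * ξ ^ 8 * ((rM ξ + 10 * ξ) * (rM ξ - 10 * ξ)) =
      ξ ^ 6 * (ev3 ξ p 0 a * ξ ^ 2 + 2 * ev3 ξ p 0 b * ξ * x + ev3 ξ p 0 d * x ^ 2) / 2 := by
    linear_combination 1 / 2 * h0 + x * h1 + 1 / 2 * x ^ 2 * h2
  linarith

/-- near the end of the curve, second vertex: `4 c0 (2 k - k² v) = ξ⁸ (b₁₁ + 4 N u)`,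
`2 c1 = ξ⁷ v b₁₂`, `4 c2 = ξ⁶ v b₂₂`. -/
structure EdgeV (C : Crt) (s : ℤ) (N k : ℕ) (a b d : P3) : Prop where
  i0 : idcB (kc 4 *ᵉ c0E C s *ᵉ (kc (Int.ofNat (2 * k)) -ᵉ kc (Int.ofNat (k ^ 2)) *ᵉ eV))
    ((.pw .vx 8) *ᵉ (eL a +ᵉ kc 4 *ᵉ kc (Int.ofNat N) *ᵉ eU)) = true
  i1 : idcB (kc 2 *ᵉ c1E C s) ((.pw .vx 7) *ᵉ eV *ᵉ eL b) = true
  i2 : idcB (kc 4 *ᵉ c2E C) ((.pw .vx 6) *ᵉ eV *ᵉ eL d) = true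

theorem EdgeV.low {k : ℕ} (H : EdgeV C s N k a b d) {ξ p : ℝ} (hu : 0 < rM ξ + 10 * ξ)
    (hv : 0 < rM ξ - 10 * ξ) (hk : (k : ℝ) ^ 2 * (rM ξ - 10 * ξ) < 2 * k)
    (hP : ∀ u v : ℝ, 0 ≤ ev3 ξ p 0 a * u ^ 2 + 2 * ev3 ξ p 0 b * u * v + ev3 ξ p 0 d * v ^ 2) :
    Low C s N ξ p := by
  intro x
  have h0 := idcB_sound H.i0 ξ p 0
  have h1 := idcB_sound H.i1 ξ p 0
  have h2 := idcB_sound H.i2 ξ p 0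
  simp only [Ex.ev, kc, eL_ev, eU_ev, eV_ev, Int.ofNat_eq_natCast] at h0 h1 h2
  push_cast at h0 h1 h2
  set v := rM ξ - 10 * ξ with hvd
  set u := rM ξ + 10 * ξ with hud
  have ha : 0 ≤ ev3 ξ p 0 a := by simpa using hP 1 0
  have hc0 : 0 ≤ (c0E C s).ev ξ p 0 := by
    have h5 : 0 ≤ ξ ^ 8 * (ev3 ξ p 0 a + 4 * N * u) := by positivity
    rw [← h0] at h5
    have h6 : 0 < 2 * (k : ℝ) - k ^ 2 * v := by linarith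
    by_contra hcon
    push Not at hcon
    have : 4 * (c0E C s).ev ξ p 0 * (2 * k - k ^ 2 * v) < 0 :=
      mul_neg_of_neg_of_pos (by linarith) h6
    linarith
  have h3 := hP ξ x
  have h4 : 0 ≤ v * (ξ ^ 6 *
      (ev3 ξ p 0 a * ξ ^ 2 + 2 * ev3 ξ p 0 b * ξ * x + ev3 ξ p 0 d * x ^ 2)) :=
    mul_nonneg hv.le (mul_nonneg (by positivity) h3)
  have h7 : 0 ≤ 4 * (c0E C s).ev ξ p 0 * (1 - k * v) ^ 2 := by positivity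
  have e : 4 * ((c0E C s).ev ξ p 0 + (c1E C s).ev ξ p 0 * x + (c2E C).ev ξ p 0 * x ^ 2 -
      N * ξ ^ 8 * (u * v)) =
      v * (ξ ^ 6 * (ev3 ξ p 0 a * ξ ^ 2 + 2 * ev3 ξ p 0 b * ξ * x + ev3 ξ p 0 d * x ^ 2)) +
        4 * (c0E C s).ev ξ p 0 * (1 - k * v) ^ 2 := by
    linear_combination v * h0 + 2 * x * h1 + x ^ 2 * h2
  linarith

/-- `Z = 3 k₂² (1-v)² v (-B₂) + 12 E m R nW` -/
def eZ (C : Crt) (s : ℤ) : Ex :=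
  kc 3 *ᵉ (.pw (eT s) 2) *ᵉ (.pw (kc 1 -ᵉ eV) 2) *ᵉ eV *ᵉ (kc 0 -ᵉ eN2 C.p C.c C.nB) +ᵉ
    kc 12 *ᵉ eE *ᵉ eW C.c C.nW

/-- near the end of the curve, first vertex -/
structure EdgeU (C : Crt) (s : ℤ) (N k j : ℕ) (a b d z : P3) : Prop where
  i0 : idcB (kc 4 *ᵉ eV *ᵉ c0E C s)
    ((.pw eV 2) *ᵉ (.pw .vx 8) *ᵉ (eL a +ᵉ kc 4 *ᵉ kc (Int.ofNat N) *ᵉ eU) +ᵉ
      eG *ᵉ (.pw (eT s) 2) *ᵉ eZ C s *ᵉ (.pw (kc 1 -ᵉ kc (Int.ofNat k) *ᵉ eV) 2)) = true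
  i1 : idcB (kc 2 *ᵉ c1E C s) ((.pw .vx 7) *ᵉ eV *ᵉ eL b) = true
  i2 : idcB (kc 4 *ᵉ c2E C) ((.pw .vx 6) *ᵉ eV *ᵉ eL d) = true
  iz : idcB (eZ C s) ((.pw .vx j) *ᵉ eV *ᵉ eL z) = true

theorem EdgeU.low {k j : ℕ} (H : EdgeU C s N k j a b d z) {ξ p : ℝ} (hξ : 0 ≤ ξ) (hp : 0 ≤ p)
    (hv : 0 < rM ξ - 10 * ξ)
    (hP : ∀ u v : ℝ, 0 ≤ ev3 ξ p 0 a * u ^ 2 + 2 * ev3 ξ p 0 b * u * v + ev3 ξ p 0 d * v ^ 2)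
    (hz : 0 ≤ ev3 ξ p 0 z) : Low C s N ξ p := by
  intro x
  have h0 := idcB_sound H.i0 ξ p 0
  have h1 := idcB_sound H.i1 ξ p 0
  have h2 := idcB_sound H.i2 ξ p 0
  have h9 := idcB_sound H.iz ξ p 0
  have hZ : 0 ≤ (eZ C s).ev ξ p 0 := by
    rw [h9]
    simp only [Ex.ev, eL_ev, eV_ev]
    positivity
  simp only [Ex.ev, kc, eL_ev, eU_ev, eV_ev, eG_ev, eT_ev, Int.ofNat_eq_natCast] at h0 h1 h2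
  push_cast at h0 h1 h2
  set v := rM ξ - 10 * ξ with hvd
  set u := rM ξ + 10 * ξ with hud
  have hG : 0 ≤ rG ξ p := by unfold rG; positivity
  have h3 := hP ξ x
  have h4 : 0 ≤ v ^ 2 * (ξ ^ 6 *
      (ev3 ξ p 0 a * ξ ^ 2 + 2 * ev3 ξ p 0 b * ξ * x + ev3 ξ p 0 d * x ^ 2)) :=
    mul_nonneg (by positivity) (mul_nonneg (by positivity) h3)
  have h7 : 0 ≤ rG ξ p * rT ξ s ^ 2 * (eZ C s).ev ξ p 0 * (1 - k * v) ^ 2 := by positivity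
  have e : 4 * v * ((c0E C s).ev ξ p 0 + (c1E C s).ev ξ p 0 * x + (c2E C).ev ξ p 0 * x ^ 2 -
      N * ξ ^ 8 * (u * v)) =
      v ^ 2 * (ξ ^ 6 * (ev3 ξ p 0 a * ξ ^ 2 + 2 * ev3 ξ p 0 b * ξ * x + ev3 ξ p 0 d * x ^ 2)) +
        rG ξ p * rT ξ s ^ 2 * (eZ C s).ev ξ p 0 * (1 - k * v) ^ 2 := by
    linear_combination h0 + 2 * v * x * h1 + v * x ^ 2 * h2
  have h8 : 0 ≤ 4 * v * ((c0E C s).ev ξ p 0 + (c1E C s).ev ξ p 0 * x + (c2E C).ev ξ p 0 * x ^ 2 -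
      N * ξ ^ 8 * (u * v)) := by rw [e]; linarith
  have h10 := nonneg_of_mul_nonneg_right h8 (by positivity)
  linarith

end Crest.Agent.R249.Con378
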