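import Mathlib
import Crest.Agent.R247.Ms2_322
import Crest.Agent.R247.HR_216
import Mathlib.Geometry.Euclidean.Angle.Unoriented.TriangleInequality
import Crest.Prelude.Def_ChartCurvature

-- ▼ part R249/Cov1_802
section

/-!
# R249 (helper802), local covers => global models, part 1: metric geometry

`Φ : X → M` locally isometric, `X` compact with almost orthonormal frames at all small scales
(`UFr n X`), `M` with almost isometric (not nec. onto) charts into `ℝⁿ` (`BL n M`) and exact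
intermediate points (`ExM M`). Then `Φ` is open (no invariance of domain), maps small balls
isometrically onto small balls, and segments lift.
-/

set_option autoImplicit false
open Set Metric Filter Topology

namespace Crest.Agent.R249.Cov1_802

noncomputable section

/-- exact intermediate points -/
def ExM (M : Type*) [PseudoMetricSpace M] : Prop :=
  ∀ a b : M, ∀ t ∈ Icc (0 : ℝ) 1, ∃ c, dist a c = t * dist a b ∧ dist c b = (1 - t) * dist a b

/-- almost isometric charts (no surjectivity) -/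
def BL (n : ℕ) (M : Type*) [PseudoMetricSpace M] : Prop :=
  ∀ z : M, ∀ η : ℝ, 0 < η → ∃ G : M → EuclideanSpace ℝ (Fin n), ∃ δ : ℝ, 0 < δ ∧
    ∀ u ∈ ball z δ, ∀ v ∈ ball z δ, dist (G u) (G v) ≤ (1 + η) * dist u v ∧
      dist u v ≤ (1 + η) * dist (G u) (G v)

/-- almost orthonormal frames at all small scales, uniformly -/
def UFr (n : ℕ) (X : Type*) [PseudoMetricSpace X] : Prop :=
  ∀ η : ℝ, 0 < η → ∃ s₀ : ℝ, 0 < s₀ ∧ ∀ q : X, ∀ s : ℝ, 0 < s → s < s₀ →
    ∃ e : Fin n → Bool → X, (∀ i b, |dist q (e i b) - s| ≤ η * s) ∧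
      (∀ i, |dist (e i true) (e i false) - 2 * s| ≤ η * s) ∧
      (∀ i j b b', i ≠ j → |dist (e i b) (e j b') - √2 * s| ≤ η * s)

section euclid

variable {n : ℕ}

local notation "𝔼" => EuclideanSpace ℝ (Fin n)

/-- violations of: `w` unit, `a i b` = `± κ` times an orthonormal frame, all at distance `≥ 1`
from `w`. -/
def v1 (w : EuclideanSpace ℝ (Fin n)) : ℝ := |‖w‖ - 1|
/-- see `v1` -/
def v2 (κ : ℝ) (a : Fin n → Bool → EuclideanSpace ℝ (Fin n)) : ℝ :=
  ∑ p : Fin n × Bool, |‖a p.1 p.2‖ - κ|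
/-- see `v1` -/
def v3 (κ : ℝ) (a : Fin n → Bool → EuclideanSpace ℝ (Fin n)) : ℝ :=
  ∑ i : Fin n, |dist (a i true) (a i false) - 2 * κ|
/-- see `v1` -/
def v4 (κ : ℝ) (a : Fin n → Bool → EuclideanSpace ℝ (Fin n)) : ℝ :=
  ∑ p : (Fin n × Bool) × (Fin n × Bool),
    if p.1.1 = p.2.1 then 0 else |dist (a p.1.1 p.1.2) (a p.2.1 p.2.2) - √2 * κ|
/-- see `v1` -/
def v5 (w : EuclideanSpace ℝ (Fin n)) (a : Fin n → Bool → EuclideanSpace ℝ (Fin n)) : ℝ :=
  ∑ p : Fin n × Bool, max 0 (1 - dist w (a p.1 p.2))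

/-- total violation -/
def viol (κ : ℝ) (w : EuclideanSpace ℝ (Fin n)) (a : Fin n → Bool → EuclideanSpace ℝ (Fin n)) : ℝ :=
  v1 w + v2 κ a + v3 κ a + v4 κ a + v5 w a

lemma v1_nonneg (w : 𝔼) : 0 ≤ v1 w := abs_nonneg _
lemma v2_nonneg (κ : ℝ) (a : Fin n → Bool → 𝔼) : 0 ≤ v2 κ a :=
  Finset.sum_nonneg fun _ _ => abs_nonneg _
lemma v3_nonneg (κ : ℝ) (a : Fin n → Bool → 𝔼) : 0 ≤ v3 κ a :=
  Finset.sum_nonneg fun _ _ => abs_nonneg _
lemma v4_term (κ : ℝ) (a : Fin n → Bool → 𝔼) (p : (Fin n × Bool) × (Fin n × Bool)) :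
    0 ≤ (if p.1.1 = p.2.1 then (0:ℝ) else |dist (a p.1.1 p.1.2) (a p.2.1 p.2.2) - √2 * κ|) := by
  split_ifs
  · exact le_rfl
  · exact abs_nonneg _
lemma v4_nonneg (κ : ℝ) (a : Fin n → Bool → 𝔼) : 0 ≤ v4 κ a :=
  Finset.sum_nonneg fun p _ => v4_term κ a p
lemma v5_nonneg (w : 𝔼) (a : Fin n → Bool → 𝔼) : 0 ≤ v5 w a :=
  Finset.sum_nonneg fun _ _ => le_max_left _ _

lemma viol_nonneg (κ : ℝ) (w : 𝔼) (a : Fin n → Bool → 𝔼) : 0 ≤ viol κ w a :=
  add_nonneg (add_nonneg (add_nonneg (add_nonneg (v1_nonneg _) (v2_nonneg _ _)) (v3_nonneg _ _))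
    (v4_nonneg _ _)) (v5_nonneg _ _)

/-- exact configurations do not exist -/
lemma no_config {κ : ℝ} (hκ0 : 0 < κ) (hκ1 : κ * (n + 1) = 1) (w : 𝔼) (a : Fin n → Bool → 𝔼)
    (f1 : ‖w‖ = 1) (f2 : ∀ i b, ‖a i b‖ = κ) (f3 : ∀ i, ‖a i true - a i false‖ = 2 * κ)
    (f4 : ∀ i j, i ≠ j → ‖a i true - a j true‖ = √2 * κ) (f5 : ∀ i b, 1 ≤ ‖w - a i b‖) :
    False := by
  -- opposite
  have g1 : ∀ i, a i false = - a i true := by
    intro i
    have h := parallelogram_law_with_norm ℝ (a i true) (a i false)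
    rw [f3 i, f2, f2] at h
    have : ‖a i true + a i false‖ * ‖a i true + a i false‖ = 0 := by linarith
    have := mul_self_eq_zero.1 this
    rw [norm_eq_zero, add_comm] at this
    exact eq_neg_of_add_eq_zero_left this
  have g2 : ∀ i j, i ≠ j → inner ℝ (a i true) (a j true) = (0:ℝ) := by
    intro i j hij
    have h := norm_sub_sq_real (a i true) (a j true)
    rw [f4 i j hij, f2, f2, mul_pow, Real.sq_sqrt (by norm_num)] at h
    linarith
  have g3 : ∀ i b, inner ℝ w (a i b) ≤ κ ^ 2 / 2 := by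
    intro i b
    have h := norm_sub_sq_real w (a i b)
    rw [f1, f2] at h
    have := f5 i b
    have : 1 ≤ ‖w - a i b‖ ^ 2 := by
      calc (1:ℝ) = 1 ^ 2 := by norm_num
        _ ≤ ‖w - a i b‖ ^ 2 := by gcongr
    linarith
  set v : Fin n → 𝔼 := fun i => κ⁻¹ • a i true with hv
  have hon : Orthonormal ℝ v := by
    constructor
    · intro i
      simp only [hv, norm_smul, f2, norm_inv, Real.norm_eq_abs, abs_of_pos hκ0]
      exact inv_mul_cancel₀ hκ0.ne'
    · intro i j hij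
      simp only [hv, inner_smul_left, inner_smul_right, g2 i j hij, mul_zero]
  have hcard : Fintype.card (Fin n) = Module.finrank ℝ (EuclideanSpace ℝ (Fin n)) := by simp
  have hspan : ⊤ ≤ Submodule.span ℝ (Set.range v) := by
    have := hon.linearIndependent.span_eq_top_of_card_eq_finrank' hcard
    rw [this]
  set B : OrthonormalBasis (Fin n) ℝ 𝔼 := OrthonormalBasis.mk hon hspan with hB
  have hBv : ∀ i, B i = v i := by
    intro i; simp [hB]
  have hP := B.sum_sq_norm_inner_right w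
  have hs : ∀ i, ‖(inner ℝ (B i) w : ℝ)‖ ^ 2 ≤ κ ^ 2 / 4 := by
    intro i
    have h1 := g3 i true
    have h2 := g3 i false
    rw [g1, inner_neg_right] at h2
    have h3 : |inner ℝ w (a i true)| ≤ κ ^ 2 / 2 := abs_le.2 ⟨by linarith, h1⟩
    have h4 : (inner ℝ (B i) w : ℝ) = κ⁻¹ * inner ℝ w (a i true) := by
      rw [hBv]
      simp only [hv, inner_smul_left, conj_trivial]
      rw [real_inner_comm]
    have h5 : ‖(inner ℝ (B i) w : ℝ)‖ ≤ κ / 2 := by
      rw [h4, norm_mul, norm_inv, Real.norm_eq_abs, Real.norm_eq_abs, abs_of_pos hκ0,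
        inv_mul_le_iff₀ hκ0]
      linarith
    calc ‖(inner ℝ (B i) w : ℝ)‖ ^ 2 ≤ (κ / 2) ^ 2 := by gcongr
      _ = κ ^ 2 / 4 := by ring
  have hsum : ∑ i, ‖(inner ℝ (B i) w : ℝ)‖ ^ 2 ≤ n * (κ ^ 2 / 4) := by
    calc ∑ i, ‖(inner ℝ (B i) w : ℝ)‖ ^ 2 ≤ ∑ _i : Fin n, κ ^ 2 / 4 :=
          Finset.sum_le_sum fun i _ => hs i
      _ = n * (κ ^ 2 / 4) := by simp
  rw [hP, f1] at hsum
  have hn : (0:ℝ) ≤ n := Nat.cast_nonneg n
  have hk2 : κ ≤ 1 := by nlinarith
  nlinarith

lemma viol_pos (w : 𝔼) (a : Fin n → Bool → 𝔼) : 0 < viol (1 / (n + 1 : ℝ)) w a := by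
  refine lt_of_le_of_ne (viol_nonneg _ _ _) fun h0 => ?_
  obtain ⟨κ, hκ⟩ : ∃ κ : ℝ, κ = 1 / (n + 1 : ℝ) := ⟨_, rfl⟩
  rw [← hκ] at h0
  have hκ0 : 0 < κ := by rw [hκ]; positivity
  have hκ1 : κ * (n + 1) = 1 := by rw [hκ]; field_simp
  unfold viol at h0
  have n1 := v1_nonneg w
  have n2 := v2_nonneg κ a
  have n3 := v3_nonneg κ a
  have n4 := v4_nonneg κ a
  have n5 := v5_nonneg w a
  have e1 : v1 w = 0 := by linarith
  have e2 : v2 κ a = 0 := by linarith
  have e3 : v3 κ a = 0 := by linarith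
  have e4 : v4 κ a = 0 := by linarith
  have e5 : v5 w a = 0 := by linarith
  refine no_config hκ0 hκ1 w a ?_ ?_ ?_ ?_ ?_
  · have := abs_eq_zero.1 e1
    linarith
  · intro i b
    have h := (Finset.sum_eq_zero_iff_of_nonneg (fun _ _ => abs_nonneg _)).1 e2 (i, b)
      (Finset.mem_univ _)
    have := abs_eq_zero.1 h
    simp only at this
    linarith
  · intro i
    have h := (Finset.sum_eq_zero_iff_of_nonneg (fun _ _ => abs_nonneg _)).1 e3 i
      (Finset.mem_univ _)
    have := abs_eq_zero.1 h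
    rw [← dist_eq_norm]
    linarith
  · intro i j hij
    have h := (Finset.sum_eq_zero_iff_of_nonneg (fun p _ => v4_term κ a p)).1 e4
      ((i, true), (j, true)) (Finset.mem_univ _)
    simp only at h
    rw [if_neg hij] at h
    have := abs_eq_zero.1 h
    rw [← dist_eq_norm]
    linarith
  · intro i b
    have h := (Finset.sum_eq_zero_iff_of_nonneg (fun _ _ => le_max_left _ _)).1 e5 (i, b)
      (Finset.mem_univ _)
    have := max_eq_left_iff.1 h
    rw [← dist_eq_norm]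
    linarith

lemma continuous_viol (κ : ℝ) : Continuous fun p : EuclideanSpace ℝ (Fin n) ×
    (Fin n → Bool → EuclideanSpace ℝ (Fin n)) => viol κ p.1 p.2 := by
  have c1 : Continuous fun p : EuclideanSpace ℝ (Fin n) ×
    (Fin n → Bool → EuclideanSpace ℝ (Fin n)) => v1 p.1 := by unfold v1; fun_prop
  have c2 : Continuous fun p : EuclideanSpace ℝ (Fin n) ×
    (Fin n → Bool → EuclideanSpace ℝ (Fin n)) => v2 κ p.2 := by unfold v2; fun_prop
  have c3 : Continuous fun p : EuclideanSpace ℝ (Fin n) ×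
    (Fin n → Bool → EuclideanSpace ℝ (Fin n)) => v3 κ p.2 := by unfold v3; fun_prop
  have c4 : Continuous fun p : EuclideanSpace ℝ (Fin n) ×
    (Fin n → Bool → EuclideanSpace ℝ (Fin n)) => v4 κ p.2 := by
    unfold v4
    refine continuous_finsetSum _ fun i _ => ?_
    split_ifs
    · fun_prop
    · fun_prop
  have c5 : Continuous fun p : EuclideanSpace ℝ (Fin n) ×
    (Fin n → Bool → EuclideanSpace ℝ (Fin n)) => v5 p.1 p.2 := by unfold v5; fun_prop
  exact (((c1.add c2).add c3).add c4).add c5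

lemma cfg_compact (n : ℕ) : IsCompact ((closedBall (0 : EuclideanSpace ℝ (Fin n)) 2) ×ˢ
      (Set.univ.pi fun _ : Fin n => Set.univ.pi fun _ : Bool =>
        closedBall (0 : EuclideanSpace ℝ (Fin n)) 2)) :=
    (isCompact_closedBall _ _).prod (isCompact_univ_pi fun _ => isCompact_univ_pi fun _ =>
      isCompact_closedBall _ _)

lemma cfg_nonempty (n : ℕ) : ((closedBall (0 : EuclideanSpace ℝ (Fin n)) 2) ×ˢ
      (Set.univ.pi fun _ : Fin n => Set.univ.pi fun _ : Bool =>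
        closedBall (0 : EuclideanSpace ℝ (Fin n)) 2)).Nonempty :=
    ⟨(0, fun _ _ => 0), mem_closedBall_self (by norm_num), fun _ _ _ _ =>
      mem_closedBall_self (by norm_num)⟩

lemma exists_min_viol (n : ℕ) : ∃ p : EuclideanSpace ℝ (Fin n) ×
    (Fin n → Bool → EuclideanSpace ℝ (Fin n)),
    ∀ q ∈ ((closedBall (0 : EuclideanSpace ℝ (Fin n)) 2) ×ˢ
      (Set.univ.pi fun _ : Fin n => Set.univ.pi fun _ : Bool =>
        closedBall (0 : EuclideanSpace ℝ (Fin n)) 2)),
      viol (1 / (n + 1 : ℝ)) p.1 p.2 ≤ viol (1 / (n + 1 : ℝ)) q.1 q.2 := by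
  obtain ⟨p, hp, hmin⟩ := (cfg_compact n).exists_isMinOn (cfg_nonempty n)
    (continuous_viol (n := n) (1 / (n + 1 : ℝ))).continuousOn
  exact ⟨p, fun q hq => isMinOn_iff.1 hmin q hq⟩

lemma exists_viol (n : ℕ) : ∃ m : ℝ, 0 < m ∧ ∀ (w : EuclideanSpace ℝ (Fin n))
    (a : Fin n → Bool → EuclideanSpace ℝ (Fin n)), ‖w‖ ≤ 2 → (∀ i b, ‖a i b‖ ≤ 2) →
      m ≤ viol (1 / (n + 1 : ℝ)) w a := by
  obtain ⟨p, hp⟩ := exists_min_viol n
  exact ⟨viol (1 / (n + 1 : ℝ)) p.1 p.2, viol_pos p.1 p.2, fun w a hw ha =>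
    hp (w, a) ⟨mem_closedBall_zero_iff.2 hw, fun i _ b _ => mem_closedBall_zero_iff.2 (ha i b)⟩⟩

lemma viol_le {κ η : ℝ} {w : 𝔼} {a : Fin n → Bool → 𝔼} (h1 : |‖w‖ - 1| ≤ η)
    (h2 : ∀ i b, |‖a i b‖ - κ| ≤ η) (h3 : ∀ i, |dist (a i true) (a i false) - 2 * κ| ≤ η)
    (h4 : ∀ i j b b', i ≠ j → |dist (a i b) (a j b') - √2 * κ| ≤ η)
    (h5 : ∀ i b, 1 - dist w (a i b) ≤ η) (hη : 0 ≤ η) :
    viol κ w a ≤ (1 + 5 * n + 4 * n ^ 2) * η := by
  have e1 : v1 w ≤ η := h1
  have e2 : v2 κ a ≤ n * 2 * η := by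
    calc v2 κ a ≤ ∑ _p : Fin n × Bool, η := Finset.sum_le_sum fun p _ => h2 p.1 p.2
      _ = n * 2 * η := by simp
  have e3 : v3 κ a ≤ n * η := by
    calc v3 κ a ≤ ∑ _i : Fin n, η := Finset.sum_le_sum fun i _ => h3 i
      _ = n * η := by simp
  have e4 : v4 κ a ≤ n * 2 * (n * 2) * η := by
    calc v4 κ a ≤ ∑ _p : (Fin n × Bool) × (Fin n × Bool), η := by
          refine Finset.sum_le_sum fun p _ => ?_
          split_ifs with h
          · exact hη
          · exact h4 _ _ _ _ h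
      _ = n * 2 * (n * 2) * η := by simp
  have e5 : v5 w a ≤ n * 2 * η := by
    calc v5 w a ≤ ∑ _p : Fin n × Bool, η :=
          Finset.sum_le_sum fun p _ => max_le hη (h5 p.1 p.2)
      _ = n * 2 * η := by simp
  unfold viol
  calc v1 w + v2 κ a + v3 κ a + v4 κ a + v5 w a
      ≤ η + n * 2 * η + n * η + n * 2 * (n * 2) * η + n * 2 * η := by linarith
    _ = (1 + 5 * n + 4 * n ^ 2) * η := by ring

end euclid

section open_

variable {n : ℕ} {X M : Type*} [PseudoMetricSpace X] [MetricSpace M]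

/-- **openness of local isometries between spaces of the same dimension** -/
theorem open_of_frames (hX : UFr n X) (hM : BL n M) {Φ : X → M} {q : X} {ρ : ℝ} (hρ : 0 < ρ)
    (hcomp : IsCompact (closedBall q ρ))
    (hiso : ∀ u ∈ closedBall q ρ, ∀ v ∈ closedBall q ρ, dist (Φ u) (Φ v) = dist u v) :
    ∃ δ : ℝ, 0 < δ ∧ ball (Φ q) δ ⊆ Φ '' closedBall q ρ := by
  obtain ⟨m, hm, hviol⟩ := exists_viol n
  set κ : ℝ := 1 / (n + 1 : ℝ) with hκ
  have hn : (0:ℝ) ≤ n := Nat.cast_nonneg n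
  have hκ0 : 0 < κ := by positivity
  have hκ1 : κ ≤ 1 := by
    rw [hκ, div_le_one (by positivity)]; linarith
  set C : ℝ := (1 + 5 * n + 4 * n ^ 2) * 5 with hC
  have hC0 : 0 < C := by positivity
  set η : ℝ := min (1 / 10) (m / (2 * C)) with hη
  have hη0 : 0 < η := by positivity
  have hη1 : η ≤ 1 / 10 := min_le_left _ _
  have hηm : C * η < m := by
    have : η ≤ m / (2 * C) := min_le_right _ _
    calc C * η ≤ C * (m / (2 * C)) := by gcongr
      _ = m / 2 := by field_simp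
      _ < m := by linarith
  obtain ⟨s₀, hs₀, hfr⟩ := hX η hη0
  obtain ⟨G, δ₁, hδ₁, hG⟩ := hM (Φ q) η hη0
  have hG' : ∀ u ∈ ball (Φ q) δ₁, ∀ v ∈ ball (Φ q) δ₁,
      |dist (G u) (G v) - dist u v| ≤ η * dist u v := by
    intro u hu v hv
    obtain ⟨h1, h2⟩ := hG u hu v hv
    have hd : 0 ≤ dist u v := dist_nonneg
    have hd' : 0 ≤ dist (G u) (G v) := dist_nonneg
    rw [abs_le]
    constructor
    · nlinarith
    · linarith
  set K := Φ '' closedBall q ρ with hK
  have hcont : ContinuousOn Φ (closedBall q ρ) := by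
    have : LipschitzOnWith 1 Φ (closedBall q ρ) :=
      LipschitzOnWith.of_dist_le_mul fun u hu v hv => by simp [hiso u hu v hv]
    exact this.continuousOn
  have hKc : IsCompact K := hcomp.image_of_continuousOn hcont
  have hqm : q ∈ closedBall q ρ := by simp [hρ.le]
  refine ⟨min (δ₁ / 4) (min (ρ / 4) s₀), by positivity, fun y hy => ?_⟩
  by_contra hyK
  set δ := min (δ₁ / 4) (min (ρ / 4) s₀) with hδ
  have hδ1 : δ ≤ δ₁ / 4 := min_le_left _ _
  have hδ2 : δ ≤ ρ / 4 := (min_le_right _ _).trans (min_le_left _ _)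
  have hδ3 : δ ≤ s₀ := (min_le_right _ _).trans (min_le_right _ _)
  rw [mem_ball] at hy
  obtain ⟨z, hz, hzd⟩ := hKc.exists_infDist_eq_dist ⟨Φ q, q, hqm, rfl⟩ y
  have hmin : ∀ x ∈ K, dist y z ≤ dist y x := fun x hx => by
    rw [← hzd]; exact infDist_le_dist_of_mem hx
  obtain ⟨q', hq', rfl⟩ := hz
  set D := dist y (Φ q') with hD
  have hD0 : 0 < D := by
    rw [hD, dist_pos]
    rintro rfl
    exact hyK ⟨q', hq', rfl⟩
  have hDδ : D < δ := (hmin _ ⟨q, hqm, rfl⟩).trans_lt hy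
  have hqq' : dist q q' < 2 * δ := by
    rw [← hiso q hqm q' hq']
    calc dist (Φ q) (Φ q') ≤ dist (Φ q) y + dist y (Φ q') := dist_triangle _ _ _
      _ < 2 * δ := by rw [dist_comm (Φ q) y]; linarith
  set s := κ * D with hs
  have hs0 : 0 < s := by positivity
  have hsD : s ≤ D := by nlinarith
  obtain ⟨e, he1, he2, he3⟩ := hfr q' s hs0 (by linarith)
  have hqe : ∀ i b, dist q' (e i b) < 2 * δ := by
    intro i b
    have := (abs_le.1 (he1 i b)).2
    nlinarith
  have heb : ∀ i b, e i b ∈ closedBall q ρ := by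
    intro i b
    rw [mem_closedBall, dist_comm]
    have := dist_triangle q q' (e i b)
    have := hqe i b
    linarith
  have hEK : ∀ i b, D ≤ dist y (Φ (e i b)) := fun i b => hmin _ ⟨_, heb i b, rfl⟩
  -- membership in the chart ball
  have my : y ∈ ball (Φ q) δ₁ := by rw [mem_ball]; linarith
  have mz : Φ q' ∈ ball (Φ q) δ₁ := by
    rw [mem_ball, hiso q' hq' q hqm, dist_comm]; linarith
  have me : ∀ i b, Φ (e i b) ∈ ball (Φ q) δ₁ := by
    intro i b
    rw [mem_ball, hiso _ (heb i b) q hqm, dist_comm]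
    have := dist_triangle q q' (e i b)
    have := hqe i b
    linarith
  -- rescaled vectors
  set w : EuclideanSpace ℝ (Fin n) := D⁻¹ • (G y - G (Φ q')) with hw
  set a : Fin n → Bool → EuclideanSpace ℝ (Fin n) := fun i b => D⁻¹ • (G (Φ (e i b)) - G (Φ q'))
    with ha
  have hnw : ‖w‖ = dist (G y) (G (Φ q')) / D := by
    rw [hw, norm_smul, norm_inv, Real.norm_eq_abs, abs_of_pos hD0, ← dist_eq_norm, inv_mul_eq_div]
  have hna : ∀ i b, ‖a i b‖ = dist (G (Φ (e i b))) (G (Φ q')) / D := by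
    intro i b
    rw [ha]
    simp only
    rw [norm_smul, norm_inv, Real.norm_eq_abs, abs_of_pos hD0, ← dist_eq_norm, inv_mul_eq_div]
  have hda : ∀ i b j b', dist (a i b) (a j b') = dist (G (Φ (e i b))) (G (Φ (e j b'))) / D := by
    intro i b j b'
    rw [ha]
    simp only
    rw [dist_smul₀, dist_sub_right, norm_inv, Real.norm_eq_abs, abs_of_pos hD0, inv_mul_eq_div]
  have hdw : ∀ i b, dist w (a i b) = dist (G y) (G (Φ (e i b))) / D := by
    intro i b
    rw [ha, hw]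
    simp only
    rw [dist_smul₀, dist_sub_right, norm_inv, Real.norm_eq_abs, abs_of_pos hD0, inv_mul_eq_div]
  -- basic inequality
  have key : ∀ A T τ : ℝ, |A - T| ≤ η * T → |T - τ * D| ≤ η * s → T ≤ 4 * D →
      |A / D - τ| ≤ 5 * η := by
    intro A T τ h1 h2 h3
    have : A / D - τ = (A - τ * D) / D := by field_simp
    rw [this, abs_div, abs_of_pos hD0, div_le_iff₀ hD0]
    calc |A - τ * D| = |(A - T) + (T - τ * D)| := by ring_nf
      _ ≤ |A - T| + |T - τ * D| := abs_add_le _ _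
      _ ≤ η * (4 * D) + η * D := by
          have : η * s ≤ η * D := by gcongr
          have : η * T ≤ η * (4 * D) := by gcongr
          linarith
      _ = 5 * η * D := by ring
  have hw2 : |‖w‖ - 1| ≤ 5 * η := by
    rw [hnw]
    refine key _ D 1 (hG' y my _ mz) ?_ (by linarith)
    simp; positivity
  have h2s : √2 ≤ 3 / 2 := by
    rw [Real.sqrt_le_left (by norm_num)]; norm_num
  have hsT : ∀ i b, |dist (Φ (e i b)) (Φ q') - κ * D| ≤ η * s := by
    intro i b
    rw [hiso _ (heb i b) _ hq', dist_comm]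
    exact he1 i b
  have ha2 : ∀ i b, |‖a i b‖ - κ| ≤ 5 * η := by
    intro i b
    rw [hna]
    refine key _ _ κ (hG' _ (me i b) _ mz) (hsT i b) ?_
    have := (abs_le.1 (hsT i b)).2
    nlinarith
  have ha3 : ∀ i, |dist (a i true) (a i false) - 2 * κ| ≤ 5 * η := by
    intro i
    rw [hda]
    have h1 : |dist (Φ (e i true)) (Φ (e i false)) - 2 * κ * D| ≤ η * s := by
      rw [hiso _ (heb i _) _ (heb i _), mul_assoc]
      exact he2 i
    refine key _ _ (2 * κ) (hG' _ (me i _) _ (me i _)) h1 ?_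
    have := (abs_le.1 h1).2
    nlinarith
  have ha4 : ∀ i j b b', i ≠ j → |dist (a i b) (a j b') - √2 * κ| ≤ 5 * η := by
    intro i j b b' hij
    rw [hda]
    have h1 : |dist (Φ (e i b)) (Φ (e j b')) - √2 * κ * D| ≤ η * s := by
      rw [hiso _ (heb i _) _ (heb j _), mul_assoc]
      exact he3 i j b b' hij
    refine key _ _ (√2 * κ) (hG' _ (me i _) _ (me j _)) h1 ?_
    have := (abs_le.1 h1).2
    have : √2 * κ * D ≤ 3 / 2 * 1 * D := by gcongr
    nlinarith
  have ha5 : ∀ i b, 1 - dist w (a i b) ≤ 5 * η := by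
    intro i b
    rw [hdw]
    have h1 := (abs_le.1 (hG' y my _ (me i b))).1
    have h2 := hEK i b
    have : (1 - 5 * η) * D ≤ dist (G y) (G (Φ (e i b))) := by nlinarith
    rw [sub_le_comm, le_div_iff₀ hD0]
    exact this
  have hvl := viol_le hw2 ha2 ha3 ha4 ha5 (by positivity)
  have hb1 : ‖w‖ ≤ 2 := by
    have := (abs_le.1 hw2).2
    linarith
  have hb2 : ∀ i b, ‖a i b‖ ≤ 2 := by
    intro i b
    have := (abs_le.1 (ha2 i b)).2
    linarith
  have := hviol w a hb1 hb2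
  have h6 : (1 + 5 * (n:ℝ) + 4 * n ^ 2) * (5 * η) = C * η := by rw [hC]; ring
  linarith

/-- small balls are mapped isometrically onto small balls, uniformly -/
theorem exists_uniform [CompactSpace X] (hX : UFr n X) (hM : BL n M) (hE : ExM M) {Φ : X → M}
    (hloc : ∀ p : X, ∃ ε : ℝ, 0 < ε ∧ ∀ q q', dist p q < ε → dist p q' < ε →
      dist (Φ q) (Φ q') = dist q q') :
    ∃ ρ : ℝ, 0 < ρ ∧ ∀ p : X, (∀ q ∈ closedBall p ρ, ∀ q' ∈ closedBall p ρ,
        dist (Φ q) (Φ q') = dist q q') ∧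
      ∀ y, dist (Φ p) y < ρ → ∃ q, Φ q = y ∧ dist p q = dist (Φ p) y := by
  -- Lebesgue number
  choose ε hε hiso using hloc
  obtain ⟨ρ₁, hρ₁, hleb⟩ : ∃ ρ₁ : ℝ, 0 < ρ₁ ∧ ∀ p : X, ∃ c : X, ball p ρ₁ ⊆ ball c (ε c) := by
    have h := lebesgue_number_lemma_of_metric (s := (univ : Set X)) isCompact_univ
      (c := fun c => ball c (ε c)) (fun c => isOpen_ball)
      (fun x _ => mem_iUnion.2 ⟨x, mem_ball_self (hε x)⟩)
    obtain ⟨δ, hδ, h⟩ := h
    exact ⟨δ, hδ, fun p => h p (mem_univ _)⟩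
  set ρ := ρ₁ / 2 with hρ
  have hρ0 : 0 < ρ := by positivity
  have hI : ∀ p : X, ∀ q ∈ closedBall p ρ, ∀ q' ∈ closedBall p ρ,
      dist (Φ q) (Φ q') = dist q q' := by
    intro p q hq q' hq'
    obtain ⟨c, hc⟩ := hleb p
    have h1 : q ∈ ball p ρ₁ := by
      rw [mem_closedBall] at hq; rw [mem_ball]; linarith
    have h2 : q' ∈ ball p ρ₁ := by
      rw [mem_closedBall] at hq'; rw [mem_ball]; linarith
    have h3 := hc h1
    have h4 := hc h2
    rw [mem_ball, dist_comm] at h3 h4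
    exact hiso c q q' h3 h4
  refine ⟨ρ, hρ0, fun p => ⟨hI p, fun y hy => ?_⟩⟩
  -- segment from `Φ p` to `y`
  set K := Φ '' closedBall p ρ with hK
  have hcont : ContinuousOn Φ (closedBall p ρ) := by
    have : LipschitzOnWith 1 Φ (closedBall p ρ) :=
      LipschitzOnWith.of_dist_le_mul fun u hu v hv => by simp [hI p u hu v hv]
    exact this.continuousOn
  have hKc : IsCompact K := isClosed_closedBall.isCompact.image_of_continuousOn hcont
  have hpm : p ∈ closedBall p ρ := by simp [hρ0.le]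
  -- nearest point of `K ∩ closedBall` to `y`; use minimality and openness
  obtain ⟨z, hz, hzd⟩ := hKc.exists_infDist_eq_dist ⟨Φ p, p, hpm, rfl⟩ y
  by_cases hyK : y ∈ K
  · obtain ⟨q, hq, rfl⟩ := hyK
    exact ⟨q, rfl, (hI p p hpm q hq).symm⟩
  exfalso
  -- the set of `w ∈ K` with `d(Φ p, w) + d(w, y) = d(Φ p, y)`
  set L := dist (Φ p) y with hL
  set S : Set M := K ∩ {w | dist (Φ p) w + dist w y ≤ L} with hS
  have hSc : IsCompact S := hKc.inter_right (isClosed_le (by fun_prop) (by fun_prop))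
  have hSne : S.Nonempty := ⟨Φ p, ⟨p, hpm, rfl⟩, by simp [hL]⟩
  obtain ⟨w, hwS, hwmin⟩ := hSc.exists_isMinOn hSne (f := fun w => dist w y) (by fun_prop)
  obtain ⟨⟨q, hq, rfl⟩, hqL⟩ := hwS
  simp only [mem_ofPred_eq] at hqL
  have hqy : 0 < dist (Φ q) y := by
    rw [dist_pos]; rintro rfl; exact hyK ⟨q, hq, rfl⟩
  have hpq : dist p q < ρ := by
    rw [← hI p p hpm q hq]; linarith
  -- openness at `q`
  set r := ρ - dist p q with hr
  have hr0 : 0 < r := by linarith
  have hsub : closedBall q r ⊆ closedBall p ρ := by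
    intro x hx
    rw [mem_closedBall] at hx ⊢
    have := dist_triangle x q p
    rw [dist_comm q p] at this
    linarith
  obtain ⟨δ, hδ, hδK⟩ := open_of_frames hX hM (Φ := Φ) (q := q) hr0 isClosed_closedBall.isCompact
    (fun u hu v hv => hI p u (hsub hu) v (hsub hv))
  -- a point on a segment from `Φ q` to `y`
  set t := min 1 (δ / (2 * dist (Φ q) y)) with ht
  have ht0 : 0 < t := by positivity
  obtain ⟨c, hc1, hc2⟩ := hE (Φ q) y t ⟨ht0.le, min_le_left _ _⟩
  have hcδ : dist c (Φ q) < δ := by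
    rw [dist_comm, hc1]
    calc t * dist (Φ q) y ≤ δ / (2 * dist (Φ q) y) * dist (Φ q) y := by
          gcongr; exact min_le_right _ _
      _ = δ / 2 := by field_simp
      _ < δ := by linarith
  obtain ⟨x, hx, hxc⟩ := hδK hcδ
  have hcK : c ∈ K := ⟨x, hsub hx, hxc⟩
  have hcS : c ∈ S := by
    refine ⟨hcK, ?_⟩
    simp only [mem_ofPred_eq]
    have := dist_triangle (Φ p) (Φ q) c
    rw [hc1] at this
    rw [hc2]
    linarith
  have := hwmin hcS
  simp only [mem_ofPred_eq] at this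
  rw [hc2] at this
  nlinarith

end open_

section lift

variable {X M : Type*} [PseudoMetricSpace X] [MetricSpace M]

/-- the conclusion of `exists_uniform` -/
structure Loc (Φ : X → M) (ρ : ℝ) : Prop where
  pos : 0 < ρ
  iso : ∀ p : X, ∀ q ∈ closedBall p ρ, ∀ q' ∈ closedBall p ρ, dist (Φ q) (Φ q') = dist q q'
  onto : ∀ p : X, ∀ y, dist (Φ p) y < ρ → ∃ q, Φ q = y ∧ dist p q = dist (Φ p) y

variable {Φ : X → M} {ρ : ℝ}

/-- lifting of segments -/
theorem Loc.lift (h : Loc Φ ρ) (hE : ExM M) (p : X) (y : M) :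
    ∃ q, Φ q = y ∧ dist p q ≤ dist (Φ p) y := by
  obtain ⟨N, hN⟩ := exists_nat_gt (dist (Φ p) y / ρ)
  have key : ∀ k : ℕ, ∀ p : X, ∀ y : M, dist (Φ p) y < k * ρ →
      ∃ q, Φ q = y ∧ dist p q ≤ dist (Φ p) y := by
    intro k
    induction k with
    | zero =>
      intro p y hy
      have := dist_nonneg (x := Φ p) (y := y)
      simp at hy
      linarith
    | succ k ih =>
      intro p y hy
      by_cases hs : dist (Φ p) y < ρ
      · obtain ⟨q, hq, hd⟩ := h.onto p y hs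
        exact ⟨q, hq, hd.le⟩
      have hs := not_lt.1 hs
      have hρ := h.pos
      set d := dist (Φ p) y with hd
      have hd0 : 0 < d := by linarith
      -- step `τ` with `d - kρ < τ < ρ`
      set τ := ((d - k * ρ) + ρ) / 2 with hτ
      rw [Nat.cast_succ, add_mul, one_mul] at hy
      have hkd : (0:ℝ) < k := by
        by_contra h0
        have h0 := not_lt.1 h0
        nlinarith
      have hk1 : (1:ℝ) ≤ k := by
        have : 0 < k := by exact_mod_cast hkd
        exact_mod_cast this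
      by_cases hlt : d < k * ρ
      · exact ih p y hlt
      have hlt := not_lt.1 hlt
      have hτ1 : τ < ρ := by linarith
      have hτ0 : 0 < τ := by linarith
      have hτd : τ ≤ d := by nlinarith
      obtain ⟨c, hc1, hc2⟩ := hE (Φ p) y (τ / d) ⟨by positivity, (div_le_one hd0).2 hτd⟩
      rw [← hd] at hc1 hc2
      have hc1' : dist (Φ p) c = τ := by rw [hc1]; field_simp
      have hc2' : dist c y = d - τ := by rw [hc2]; field_simp
      obtain ⟨p', hp', hpp'⟩ := h.onto p c (by rw [hc1']; exact hτ1)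
      obtain ⟨q, hq, hqd⟩ := ih p' y (by rw [hp', hc2']; linarith)
      refine ⟨q, hq, ?_⟩
      have := dist_triangle p p' q
      rw [hp', hc2'] at hqd
      rw [hc1'] at hpp'
      linarith
  refine key N p y ?_
  rwa [div_lt_iff₀ h.pos] at hN

/-- a local isometry of a space with exact intermediate points is 1-Lipschitz -/
theorem Loc.lip (h : Loc Φ ρ) (hE : ExM X) (p q : X) : dist (Φ p) (Φ q) ≤ dist p q := by
  obtain ⟨N, hN⟩ := exists_nat_gt (dist p q / ρ)
  have key : ∀ k : ℕ, ∀ p q : X, dist p q < k * ρ → dist (Φ p) (Φ q) ≤ dist p q := by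
    intro k
    induction k with
    | zero =>
      intro p y hy
      have := dist_nonneg (x := p) (y := y)
      simp at hy
      linarith
    | succ k ih =>
      intro p y hy
      have hρ := h.pos
      by_cases hs : dist p y ≤ ρ
      · exact (h.iso p p (by simp [hρ.le]) y (by rw [mem_closedBall, dist_comm]; exact hs)).le
      have hs := not_le.1 hs
      set d := dist p y with hd
      have hd0 : 0 < d := by linarith
      rw [Nat.cast_succ, add_mul, one_mul] at hy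
      obtain ⟨c, hc1, hc2⟩ := hE p y (ρ / d) ⟨by positivity, (div_le_one hd0).2 hs.le⟩
      rw [← hd] at hc1 hc2
      have hc1' : dist p c = ρ := by rw [hc1]; field_simp
      have hc2' : dist c y = d - ρ := by rw [hc2]; field_simp
      have h1 := ih c y (by rw [hc2']; linarith)
      have h2 := h.iso p p (by simp [hρ.le]) c (by rw [mem_closedBall, dist_comm, hc1'])
      have := dist_triangle (Φ p) (Φ c) (Φ y)
      rw [hc2'] at h1
      rw [hc1'] at h2
      linarith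
  refine key N p q ?_
  rwa [div_lt_iff₀ h.pos] at hN

/-- if `Φ p = Φ q` implies that `p`, `q` are at distance zero, `Φ` preserves distances -/
theorem Loc.isometry (h : Loc Φ ρ) (hX : ExM X) (hM : ExM M)
    (hinj : ∀ p q, Φ p = Φ q → dist p q = 0) (p q : X) : dist (Φ p) (Φ q) = dist p q := by
  refine le_antisymm (h.lip hX p q) ?_
  obtain ⟨q', h1, h2⟩ := h.lift hM p (Φ q)
  have h3 := hinj q' q h1
  have := dist_triangle p q' q
  linarith

end lift

end

end Crest.Agent.R249.Cov1_802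
end

-- ▼ part R249/Cov2_802
section

/-!
# R249 (helper802), part 2: Riemannian manifolds satisfy `BL`, `ExM`
-/

set_option autoImplicit false
set_option maxSynthPendingDepth 3

open Bundle Set Metric Filter Topology Manifold
open scoped ContDiff NNReal
open Crest.Agent.R247.Ms322

namespace Crest.Agent.R249.Cov2_802

open Crest.Agent.R249.Cov1_802

noncomputable section

variable (n : ℕ) (M : Type*) [MetricSpace M] [ChartedSpace (EuclideanSpace ℝ (Fin n)) M]
  [RiemannianBundle (fun p : M => TangentSpace (𝓡 n) p)]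

local notation "𝔼" => EuclideanSpace ℝ (Fin n)

theorem exM [CompleteSpace M] [IsRiemannianManifold 𝓘(ℝ, EuclideanSpace ℝ (Fin n)) M] : ExM M := by
  intro a b t ht
  exact Crest.Agent.R247.HR216.exactMid_of_riemannian n M a b t ht.1 ht.2

theorem bl [IsManifold (𝓡 n) ∞ M]
    [IsContMDiffRiemannianBundle (𝓡 n) ∞ (EuclideanSpace ℝ (Fin n))
      (fun p : M => TangentSpace (𝓡 n) p)]
    [IsRiemannianManifold 𝓘(ℝ, EuclideanSpace ℝ (Fin n)) M] : BL n M := by
  intro z η hη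
  have ha : chartAt 𝔼 z z ∈ (chartAt 𝔼 z).target := mem_chart_target 𝔼 z
  obtain ⟨A, hA, -⟩ := exists_isometry (n := n) z ha
  obtain ⟨r, hr, hrt, hL1, hL2⟩ := exists_bilip z ha hA (η := ⟨η, hη.le⟩) (by exact_mod_cast hη)
  have hev : ∀ᶠ y in 𝓝 z, y ∈ (chartAt 𝔼 z).source ∧ chartAt 𝔼 z y ∈ ball (chartAt 𝔼 z z) r := by
    have e1 : ∀ᶠ y in 𝓝 z, y ∈ (chartAt 𝔼 z).source :=
      (chartAt 𝔼 z).open_source.mem_nhds (mem_chart_source 𝔼 z)
    have e2 : ∀ᶠ y in 𝓝 z, chartAt 𝔼 z y ∈ ball (chartAt 𝔼 z z) r :=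
      ((chartAt 𝔼 z).continuousAt (mem_chart_source 𝔼 z)).eventually (ball_mem_nhds _ hr)
    exact e1.and e2
  obtain ⟨δ, hδ, hδ'⟩ := Metric.eventually_nhds_iff.1 hev
  refine ⟨fun y => A (chartAt 𝔼 z y), δ, hδ, fun u hu v hv => ?_⟩
  obtain ⟨hu1, hu2⟩ := hδ' hu
  obtain ⟨hv1, hv2⟩ := hδ' hv
  have hus : (chartAt 𝔼 z).symm (chartAt 𝔼 z u) = u := (chartAt 𝔼 z).left_inv hu1
  have hvs : (chartAt 𝔼 z).symm (chartAt 𝔼 z v) = v := (chartAt 𝔼 z).left_inv hv1
  constructor
  · have := hL2.dist_le_mul u ⟨_, hu2, hus⟩ v ⟨_, hv2, hvs⟩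
    exact this
  · have := hL1.dist_le_mul (A (chartAt 𝔼 z u)) (mem_image_of_mem _ hu2) (A (chartAt 𝔼 z v))
      (mem_image_of_mem _ hv2)
    simp only [A.symm_apply_apply, hus, hvs] at this
    exact this

end

end Crest.Agent.R249.Cov2_802
end

-- ▼ part R249/Cov3_802
section

/-!
# R249 (helper802), part 3: scaled pseudo-distances, deck maps

`Mdl`: `X` embedded in a Euclidean space `V` by `P` such that distances and inner products
determine each other and small balls span. Two points with the same image under a local isometry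
`Φ : X → M` are related by a linear isometry `T` of `V` preserving `P(X)` and `Φ`.
-/

set_option autoImplicit false
set_option linter.unusedSectionVars false
open Set Metric Filter Topology

namespace Crest.Agent.R249.Cov3_802

open Crest.Agent.R249.Cov1_802

noncomputable section

/-! ### linear extension -/

section linear

variable {V : Type*} [NormedAddCommGroup V] [InnerProductSpace ℝ V] [FiniteDimensional ℝ V]

/-- A family of vectors spanning `V` and a family with the same Gram matrix differ by a linear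
isometry. -/
theorem exists_isometry_of_gram {ι : Type*} (a b : ι → V) (hs : Submodule.span ℝ (range a) = ⊤)
    (h : ∀ i j, (inner ℝ (a i) (a j) : ℝ) = inner ℝ (b i) (b j)) :
    ∃ T : V ≃ₗᵢ[ℝ] V, ∀ i, T (a i) = b i := by
  classical
  set A : (ι →₀ ℝ) →ₗ[ℝ] V := Finsupp.linearCombination ℝ a with hA
  set B : (ι →₀ ℝ) →ₗ[ℝ] V := Finsupp.linearCombination ℝ b with hB
  have hin : ∀ c d : ι →₀ ℝ, (inner ℝ (A c) (A d) : ℝ) = inner ℝ (B c) (B d) := by
    intro c d
    simp only [hA, hB, Finsupp.linearCombination_apply, Finsupp.sum, sum_inner, inner_sum,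
      inner_smul_left, inner_smul_right, h]
  have hnorm : ∀ c, ‖A c‖ = ‖B c‖ := by
    intro c
    have := hin c c
    rw [real_inner_self_eq_norm_sq, real_inner_self_eq_norm_sq] at this
    exact (sq_eq_sq₀ (norm_nonneg _) (norm_nonneg _)).1 this
  have hsurj : Function.Surjective A := by
    rw [← LinearMap.range_eq_top, hA, Finsupp.range_linearCombination]
    exact hs
  have hker : LinearMap.ker A ≤ LinearMap.ker B := by
    intro c hc
    rw [LinearMap.mem_ker] at hc ⊢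
    rw [← norm_eq_zero, ← hnorm, hc, norm_zero]
  choose g hg using hsurj
  have hgB : ∀ c, B (g (A c)) = B c := by
    intro c
    have h1 : A (g (A c) - c) = 0 := by rw [map_sub, hg, sub_self]
    have h2 := hker (LinearMap.mem_ker.2 h1)
    rw [LinearMap.mem_ker, map_sub, sub_eq_zero] at h2
    exact h2
  let T₀ : V →ₗ[ℝ] V :=
    { toFun := fun v => B (g v)
      map_add' := by
        intro v w
        have : A (g v + g w) = v + w := by rw [map_add, hg, hg]
        rw [← this, hgB, map_add]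
      map_smul' := by
        intro r v
        have : A (r • g v) = r • v := by rw [map_smul, hg]
        rw [← this, hgB, map_smul]
        simp }
  have hT₀ : ∀ v, ‖T₀ v‖ = ‖v‖ := by
    intro v
    change ‖B (g v)‖ = ‖v‖
    rw [← hnorm, hg]
  let T₁ : V →ₗᵢ[ℝ] V := ⟨T₀, hT₀⟩
  refine ⟨T₁.toLinearIsometryEquiv rfl, fun i => ?_⟩
  change B (g (a i)) = b i
  have h1 : a i = A (Finsupp.single i 1) := by simp [hA]
  rw [h1, hgB]
  simp [hB]

omit [FiniteDimensional ℝ V] in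
theorem eq_of_eqOn_span {s : Set V} (hs : Submodule.span ℝ s = ⊤) {T T' : V ≃ₗᵢ[ℝ] V}
    (h : ∀ v ∈ s, T v = T' v) : ∀ v, T v = T' v := by
  intro v
  have : (T.toLinearEquiv : V →ₗ[ℝ] V) = (T'.toLinearEquiv : V →ₗ[ℝ] V) := by
    apply LinearMap.ext_on hs
    intro v hv
    exact h v hv
  exact congrArg (fun f : V →ₗ[ℝ] V => f v) this

end linear

/-! ### deck maps -/

/-- `X` inside a Euclidean space -/
structure Mdl (X : Type*) [PseudoMetricSpace X] (V : Type*) [NormedAddCommGroup V]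
    [InnerProductSpace ℝ V] where
  P : X → V
  gram : ∀ x y x' y', dist x y = dist x' y' ↔ (inner ℝ (P x) (P y) : ℝ) = inner ℝ (P x') (P y')
  span : ∀ (x : X) (r : ℝ), 0 < r → Submodule.span ℝ (P '' ball x r) = ⊤

section deck

variable {X M : Type*} [PseudoMetricSpace X] [MetricSpace M] {V : Type*} [NormedAddCommGroup V]
  [InnerProductSpace ℝ V] {Φ : X → M} {ρ : ℝ}

theorem Mdl.eq_iff (A : Mdl X V) (x y : X) : A.P x = A.P y ↔ dist x y = 0 := by
  constructor
  · intro h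
    have := (A.gram x y x x).2 (by rw [h])
    rw [this, dist_self]
  · intro h
    have h1 := (A.gram x y x x).1 (by rw [h, dist_self])
    have h2 := (A.gram x y y y).1 (by rw [h, dist_self])
    have h3 := norm_sub_sq_real (A.P x) (A.P y)
    rw [← real_inner_self_eq_norm_sq, ← real_inner_self_eq_norm_sq, ← real_inner_self_eq_norm_sq,
      ← h1, ← h2] at h3
    have h4 : (inner ℝ (A.P x - A.P y) (A.P x - A.P y) : ℝ) = 0 := by linarith
    rw [inner_self_eq_zero, sub_eq_zero] at h4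
    exact h4

theorem Loc.congr (h : Loc Φ ρ) {x y : X} (hxy : dist x y = 0) : Φ x = Φ y := by
  have := h.iso x x (by simp [h.pos.le]) y (by rw [mem_closedBall, dist_comm, hxy]; exact h.pos.le)
  rw [hxy] at this
  exact dist_eq_zero.1 this

variable [FiniteDimensional ℝ V]

/-- the germ of a deck map -/
theorem germ (A : Mdl X V) (h : Loc Φ ρ) {p p' : X} (hp : Φ p = Φ p') :
    ∃ T : V ≃ₗᵢ[ℝ] V, ∀ u ∈ ball p ρ, ∃ u', A.P u' = T (A.P u) ∧ Φ u' = Φ u ∧
      dist p' u' = dist p u := by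
  have hpm : p ∈ closedBall p ρ := by simp [h.pos.le]
  have h1 : ∀ u : ball p ρ, ∃ u', Φ u' = Φ u ∧ dist p' u' = dist p u := by
    rintro ⟨u, hu⟩
    have hu' : dist p u < ρ := by rw [dist_comm]; exact hu
    have e1 : dist (Φ p') (Φ u) = dist p u := by
      rw [← hp]
      exact h.iso p p hpm u (ball_subset_closedBall hu)
    obtain ⟨u', h1, h2⟩ := h.onto p' (Φ u) (by rw [e1]; exact hu')
    exact ⟨u', h1, h2.trans e1⟩
  choose f hf1 hf2 using h1
  have hfm : ∀ u, f u ∈ closedBall p' ρ := by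
    intro u
    rw [mem_closedBall, dist_comm, hf2, dist_comm]
    exact ball_subset_closedBall u.2
  have hfd : ∀ u v, dist (f u) (f v) = dist (u : X) v := by
    intro u v
    rw [← h.iso p' _ (hfm u) _ (hfm v), hf1, hf1]
    exact h.iso p _ (ball_subset_closedBall u.2) _ (ball_subset_closedBall v.2)
  obtain ⟨T, hT⟩ := exists_isometry_of_gram (fun u : ball p ρ => A.P u) (fun u => A.P (f u))
    (by
      have := A.span p ρ h.pos
      rwa [← image_eq_range])
    (fun u v => ((A.gram _ _ _ _).1 (hfd u v)).symm)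
  exact ⟨T, fun u hu => ⟨f ⟨u, hu⟩, (hT ⟨u, hu⟩).symm, hf1 _, hf2 _⟩⟩

/-- a deck map -/
structure DeckMap (A : Mdl X V) (Φ : X → M) (T : V ≃ₗᵢ[ℝ] V) (γ : X → X) : Prop where
  P_γ : ∀ u, A.P (γ u) = T (A.P u)
  Φ_γ : ∀ u, Φ (γ u) = Φ u

omit [FiniteDimensional ℝ V] in
theorem DeckMap.dist_γ {A : Mdl X V} {T : V ≃ₗᵢ[ℝ] V} {γ : X → X} (h : DeckMap A Φ T γ) (u v : X) :
    dist (γ u) (γ v) = dist u v := by
  rw [A.gram, h.P_γ, h.P_γ, T.inner_map_map]

omit [FiniteDimensional ℝ V] in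
theorem DeckMap.comp {A : Mdl X V} {T : V ≃ₗᵢ[ℝ] V} {γ : X → X} (h : DeckMap A Φ T γ) :
    DeckMap A Φ (T.trans T) (γ ∘ γ) where
  P_γ := fun u => by simp [h.P_γ]
  Φ_γ := fun u => by simp [h.Φ_γ]

omit [FiniteDimensional ℝ V] in
/-- deck maps are free -/
theorem DeckMap.free {A : Mdl X V} {T : V ≃ₗᵢ[ℝ] V} {γ : X → X} (h : DeckMap A Φ T γ)
    (hL : Loc Φ ρ) {x : X} (hx : T (A.P x) = A.P x) : ∀ v, T v = v := by
  have h0 : dist (γ x) x = 0 := by rw [← A.eq_iff, h.P_γ, hx]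
  have key : ∀ v ∈ A.P '' ball x ρ, T v = (LinearIsometryEquiv.refl ℝ V) v := by
    rintro _ ⟨u, hu, rfl⟩
    rw [← h.P_γ]
    simp only [LinearIsometryEquiv.coe_refl, id_eq]
    rw [A.eq_iff]
    have hu' : dist u x < ρ := hu
    have h1 : γ u ∈ closedBall x ρ := by
      rw [mem_closedBall]
      have := dist_triangle (γ u) (γ x) x
      rw [h0, h.dist_γ] at this
      linarith
    rw [← hL.iso x _ h1 _ (ball_subset_closedBall hu), h.Φ_γ, dist_self]
  exact eq_of_eqOn_span (A.span x ρ hL.pos) key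

/-- **existence of deck maps** -/
theorem exists_deck (A : Mdl X V) (h : Loc Φ ρ) (hX : ExM X) {p p' : X} (hp : Φ p = Φ p') :
    ∃ (T : V ≃ₗᵢ[ℝ] V) (γ : X → X), DeckMap A Φ T γ ∧ dist (γ p) p' = 0 := by
  obtain ⟨T, hT⟩ := germ A h hp
  have hiso : ∀ u u' v v', A.P u' = T (A.P u) → A.P v' = T (A.P v) → dist u' v' = dist u v := by
    intro u u' v v' h1 h2
    rw [A.gram, h1, h2, T.inner_map_map]
  have hgood : ∀ u ∈ ball p ρ, ∃ u', A.P u' = T (A.P u) ∧ Φ u' = Φ u := by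
    intro u hu
    obtain ⟨u', h1, h2, -⟩ := hT u hu
    exact ⟨u', h1, h2⟩
  -- propagation
  have hprop : ∀ q q' : X, (∀ u ∈ ball q ρ, ∃ u', A.P u' = T (A.P u) ∧ Φ u' = Φ u) →
      dist q q' < ρ → ∀ u ∈ ball q' ρ, ∃ u', A.P u' = T (A.P u) ∧ Φ u' = Φ u := by
    intro q q' hq hqq'
    set s := ρ - dist q q' with hs
    have hs0 : 0 < s := by linarith
    have hsub : ball q' s ⊆ ball q ρ := by
      intro u hu
      rw [mem_ball] at hu ⊢
      have := dist_triangle u q' q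
      rw [dist_comm q' q] at this
      linarith
    have hsub' : ball q' s ⊆ ball q' ρ := ball_subset_ball (by
      have := dist_nonneg (x := q) (y := q'); linarith)
    have hq'm : q' ∈ ball q ρ := by rw [mem_ball, dist_comm]; exact hqq'
    obtain ⟨z, hz1, hz2⟩ := hq q' hq'm
    obtain ⟨T', hT'⟩ := germ A h (p := q') (p' := z) hz2.symm
    have hTT : ∀ v, T' v = T v := by
      refine eq_of_eqOn_span (A.span q' s hs0) ?_
      rintro _ ⟨u, hu, rfl⟩
      obtain ⟨u', h1, h2, h3⟩ := hT' u (hsub' hu)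
      obtain ⟨w, hw1, hw2⟩ := hq u (hsub hu)
      rw [← h1, ← hw1, A.eq_iff]
      have m1 : u' ∈ closedBall z ρ := by
        rw [mem_closedBall, dist_comm, h3, dist_comm]
        exact ball_subset_closedBall (hsub' hu)
      have m2 : w ∈ closedBall z ρ := by
        rw [mem_closedBall, hiso _ _ _ _ hw1 hz1]
        exact ball_subset_closedBall (hsub' hu)
      rw [← h.iso _ _ m1 _ m2, h2, hw2, dist_self]
    intro u hu
    obtain ⟨u', h1, h2, -⟩ := hT' u hu
    exact ⟨u', by rw [h1, hTT], h2⟩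
  have hall : ∀ k : ℕ, ∀ q : X, dist p q < k * (ρ / 2) → ∀ u ∈ ball q ρ,
      ∃ u', A.P u' = T (A.P u) ∧ Φ u' = Φ u := by
    intro k
    induction k with
    | zero =>
      intro q hq
      have := dist_nonneg (x := p) (y := q)
      simp at hq
      linarith
    | succ k ih =>
      intro q hq
      by_cases hk : dist p q < ρ
      · exact hprop p q hgood hk
      have hk := not_lt.1 hk
      have hρ := h.pos
      set d := dist p q with hd
      have hd0 : 0 < d := by linarith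
      rw [Nat.cast_succ, add_mul, one_mul] at hq
      have ht0 : 0 ≤ (d - ρ / 2) / d := div_nonneg (by linarith) hd0.le
      have ht1 : (d - ρ / 2) / d ≤ 1 := (div_le_one hd0).2 (by linarith)
      obtain ⟨c, hc1, hc2⟩ := hX p q ((d - ρ / 2) / d) ⟨ht0, ht1⟩
      rw [← hd] at hc1 hc2
      have hc1' : dist p c = d - ρ / 2 := by rw [hc1]; field_simp
      have hc2' : dist c q = ρ / 2 := by rw [hc2]; field_simp; ring
      exact hprop c q (ih c (by rw [hc1']; linarith)) (by rw [hc2']; linarith)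
  have hγ : ∀ u, ∃ u', A.P u' = T (A.P u) ∧ Φ u' = Φ u := by
    intro u
    obtain ⟨k, hk⟩ := exists_nat_gt (dist p u / (ρ / 2))
    rw [div_lt_iff₀ (by have := h.pos; positivity)] at hk
    exact hall k u hk u (mem_ball_self h.pos)
  choose γ hγ1 hγ2 using hγ
  refine ⟨T, γ, ⟨hγ1, hγ2⟩, ?_⟩
  obtain ⟨u', h1, -, h3⟩ := hT p (mem_ball_self h.pos)
  rw [dist_self] at h3
  have h4 : dist (γ p) u' = 0 := by rw [← A.eq_iff, hγ1, h1]
  have h5 := dist_triangle (γ p) u' p'
  have h6 := dist_nonneg (x := γ p) (y := p')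
  rw [dist_comm u' p'] at h5
  linarith

end deck

/-! ### pseudo-distances -/

/-- a pseudo-distance -/
structure PD (S : Type*) where
  D : S → S → ℝ
  self : ∀ x, D x x = 0
  comm : ∀ x y, D x y = D y x
  tri : ∀ x y z, D x z ≤ D x y + D y z

variable {S : Type*}

theorem PD.nonneg (P : PD S) (x y : S) : 0 ≤ P.D x y := by
  have := P.tri x y x
  rw [P.self, P.comm y x] at this
  linarith

/-- `S` with the pseudo-distance `c * D` -/
def Syn (_ : PD S) (_ : {c : ℝ // 0 < c}) : Type _ := S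

variable {P : PD S} {c : {c : ℝ // 0 < c}}

instance : PseudoMetricSpace (Syn P c) where
  dist x y := c.1 * P.D x y
  dist_self x := by simp [P.self]
  dist_comm x y := by rw [P.comm]
  dist_triangle x y z := by
    have := P.tri x y z
    have h := c.2
    nlinarith

/-- the identity `S → Syn P c` -/
def toSyn (P : PD S) (c : {c : ℝ // 0 < c}) (x : S) : Syn P c := x
/-- the identity `Syn P c → S` -/
def ofSyn (x : Syn P c) : S := x

theorem dist_syn (x y : Syn P c) : dist x y = c.1 * P.D (ofSyn x) (ofSyn y) := rfl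

theorem dist_toSyn (x y : S) : dist (toSyn P c x) (toSyn P c y) = c.1 * P.D x y := rfl

theorem exM_syn (h : ∀ a b : S, ∀ t ∈ Icc (0 : ℝ) 1, ∃ x, P.D a x = t * P.D a b ∧
    P.D x b = (1 - t) * P.D a b) : ExM (Syn P c) := by
  intro a b t ht
  obtain ⟨x, h1, h2⟩ := h (ofSyn a) (ofSyn b) t ht
  refine ⟨toSyn P c x, ?_, ?_⟩
  · rw [dist_syn, dist_syn]
    change c.1 * P.D (ofSyn a) x = _
    rw [h1]; ring
  · rw [dist_syn, dist_syn]
    change c.1 * P.D x (ofSyn b) = _
    rw [h2]; ring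

/-- frames for `D` give frames for `c * D` -/
theorem ufr_syn {n : ℕ} (h : ∀ η : ℝ, 0 < η → ∃ s₀ : ℝ, 0 < s₀ ∧ ∀ q : S, ∀ s : ℝ, 0 < s → s < s₀ →
    ∃ e : Fin n → Bool → S, (∀ i b, |P.D q (e i b) - s| ≤ η * s) ∧
      (∀ i, |P.D (e i true) (e i false) - 2 * s| ≤ η * s) ∧
      (∀ i j b b', i ≠ j → |P.D (e i b) (e j b') - √2 * s| ≤ η * s)) : UFr n (Syn P c) := by
  intro η hη
  obtain ⟨s₀, hs₀, hfr⟩ := h η hη
  have hc := c.2
  refine ⟨c.1 * s₀, by positivity, fun q s hs0 hs => ?_⟩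
  obtain ⟨e, h1, h2, h3⟩ := hfr (ofSyn q) (s / c.1) (by positivity)
    ((div_lt_iff₀ hc).2 (by linarith))
  have key : ∀ x y : S, ∀ τ : ℝ, |P.D x y - τ * (s / c.1)| ≤ η * (s / c.1) →
      |c.1 * P.D x y - τ * s| ≤ η * s := by
    intro x y τ h
    have e1 : c.1 * P.D x y - τ * s = c.1 * (P.D x y - τ * (s / c.1)) := by field_simp
    rw [e1, abs_mul, abs_of_pos hc]
    calc c.1 * |P.D x y - τ * (s / c.1)| ≤ c.1 * (η * (s / c.1)) := by gcongr
      _ = η * s := by field_simp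
  refine ⟨fun i b => toSyn P c (e i b), fun i b => ?_, fun i => ?_, fun i j b b' hij => ?_⟩
  · have := key (ofSyn q) (e i b) 1 (by rw [one_mul]; exact h1 i b)
    rw [one_mul] at this
    exact this
  · exact key _ _ 2 (h2 i)
  · exact key _ _ (√2) (h3 i j b b' hij)

theorem continuous_toSyn [TopologicalSpace S] (h : ∀ x, Tendsto (fun y => P.D x y) (𝓝 x) (𝓝 0)) :
    Continuous (toSyn P c) := by
  rw [continuous_iff_continuousAt]
  intro x
  rw [ContinuousAt, tendsto_iff_dist_tendsto_zero]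
  have : (fun y => dist (toSyn P c y) (toSyn P c x)) = fun y => c.1 * P.D x y := by
    ext y
    rw [dist_toSyn, P.comm]
  rw [this]
  simpa using (h x).const_mul c.1

theorem compact_syn [TopologicalSpace S] [CompactSpace S]
    (h : ∀ x, Tendsto (fun y => P.D x y) (𝓝 x) (𝓝 0)) : CompactSpace (Syn P c) := by
  have : Function.Surjective (toSyn P c) := fun x => ⟨ofSyn x, rfl⟩
  exact this.compactSpace (continuous_toSyn h)

theorem pathConnected_syn [TopologicalSpace S] [PathConnectedSpace S]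
    (h : ∀ x, Tendsto (fun y => P.D x y) (𝓝 x) (𝓝 0)) : PathConnectedSpace (Syn P c) := by
  have : Function.Surjective (toSyn P c) := fun x => ⟨ofSyn x, rfl⟩
  exact this.pathConnectedSpace (continuous_toSyn h)

theorem t2_syn (h : ∀ x y, P.D x y = 0 → x = y) : T2Space (Syn P c) := by
  have : T0Space (Syn P c) := by
    rw [t0Space_iff_inseparable]
    intro x y hxy
    have h1 := Metric.inseparable_iff.1 hxy
    rw [dist_syn, mul_eq_zero] at h1
    rcases h1 with h1 | h1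
    · exact absurd h1 c.2.ne'
    · exact h _ _ h1
  infer_instance

end

end Crest.Agent.R249.Cov3_802
end

-- ▼ part R249/Cov4_802
section

/-!
# R249 (helper802), part 4: the round sphere as a model
-/

set_option autoImplicit false
set_option linter.unusedSectionVars false
open Set Metric Filter Topology

namespace Crest.Agent.R249.Cov4_802

open Crest.Agent.R249.Cov1_802 Crest.Agent.R249.Cov3_802

noncomputable section

/-! ### one variable -/

theorem small_of_hasDerivAt {f : ℝ → ℝ} {c : ℝ} (hf : HasDerivAt f c 0) (h0 : f 0 = 0)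
    (η : ℝ) (hη : 0 < η) : ∃ s₀ : ℝ, 0 < s₀ ∧ ∀ s, 0 < s → s < s₀ → |f s - c * s| ≤ η * s := by
  have h1 := (hasDerivAt_iff_isLittleO.1 hf).def hη
  obtain ⟨s₀, hs₀, h2⟩ := Metric.eventually_nhds_iff.1 h1
  refine ⟨s₀, hs₀, fun s hs hs' => ?_⟩
  have h3 := h2 (y := s) (by rw [Real.dist_eq, sub_zero, abs_of_pos hs]; exact hs')
  simp only [h0, sub_zero, smul_eq_mul, Real.norm_eq_abs, abs_of_pos hs] at h3
  rw [mul_comm c s]
  exact h3

/-- distance of two points at distance `s` in orthogonal directions of a sphere -/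
def f1 (s : ℝ) : ℝ := 2 * Real.arcsin (Real.sin s / √2)
/-- distance of two points at distance `s` in directions `e`, `i e` of the projective space -/
def f2 (s : ℝ) : ℝ := Real.arcsin (√2 * Real.sin s * Real.cos s)

theorem f1_deriv : HasDerivAt f1 (√2) 0 := by
  have h1 : HasDerivAt (fun s : ℝ => Real.sin s / √2) (Real.cos 0 / √2) 0 :=
    (Real.hasDerivAt_sin 0).div_const _
  have h2 : HasDerivAt Real.arcsin (1 / √(1 - (Real.sin 0 / √2) ^ 2)) (Real.sin 0 / √2) := by
    apply Real.hasDerivAt_arcsin <;> simp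
  have h3 := (h2.comp (0:ℝ) h1).const_mul 2
  have e : 2 * (1 / √(1 - (Real.sin 0 / √2) ^ 2) * (Real.cos 0 / √2)) = √2 := by
    have : √2 * √2 = 2 := Real.mul_self_sqrt (by norm_num)
    have h : √2 ≠ 0 := by positivity
    simp only [Real.sin_zero, Real.cos_zero, zero_div]
    norm_num
    field_simp
    linarith
  rw [e] at h3
  exact h3

theorem f1_zero : f1 0 = 0 := by simp [f1]
theorem f2_zero : f2 0 = 0 := by simp [f2]

theorem f2_deriv : HasDerivAt f2 (√2) 0 := by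
  have h1 : HasDerivAt (fun s : ℝ => √2 * Real.sin s * Real.cos s)
      ((√2 * Real.cos 0) * Real.cos 0 + (√2 * Real.sin 0) * (-Real.sin 0)) 0 :=
    ((Real.hasDerivAt_sin 0).const_mul _).mul (Real.hasDerivAt_cos 0)
  have h2 : HasDerivAt Real.arcsin (1 / √(1 - (√2 * Real.sin 0 * Real.cos 0) ^ 2))
      (√2 * Real.sin 0 * Real.cos 0) := by
    apply Real.hasDerivAt_arcsin <;> simp
  have h3 := h2.comp (0:ℝ) h1
  have e : 1 / √(1 - (√2 * Real.sin 0 * Real.cos 0) ^ 2) *
      ((√2 * Real.cos 0) * Real.cos 0 + (√2 * Real.sin 0) * (-Real.sin 0)) = √2 := by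
    simp
  rw [e] at h3
  exact h3

theorem arccos_f1 {s : ℝ} (h0 : 0 ≤ s) (h1 : s ≤ Real.pi / 2) :
    Real.arccos (Real.cos s * Real.cos s) = f1 s := by
  have hpi := Real.pi_pos
  have hs0 : 0 ≤ Real.sin s := Real.sin_nonneg_of_nonneg_of_le_pi h0 (by linarith)
  have h2 : (0:ℝ) < √2 := by positivity
  have h2' : √2 * √2 = 2 := Real.mul_self_sqrt (by norm_num)
  have hs1 : Real.sin s / √2 ≤ 1 := by
    rw [div_le_one h2]
    have := Real.sin_le_one s
    nlinarith
  have hs2 : 0 ≤ Real.sin s / √2 := by positivity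
  have hy0 : 0 ≤ Real.arcsin (Real.sin s / √2) := Real.arcsin_nonneg.2 hs2
  have hy1 := Real.arcsin_le_pi_div_two (Real.sin s / √2)
  have h3 : Real.cos (f1 s) = Real.cos s * Real.cos s := by
    rw [f1, Real.cos_two_mul, Real.cos_sq', Real.sin_arcsin (by linarith) hs1]
    have := Real.sin_sq_add_cos_sq s
    field_simp
    nlinarith
  rw [← h3, Real.arccos_cos (by unfold f1; linarith) (by unfold f1; linarith)]

theorem arccos_f2 {s : ℝ} (h0 : 0 ≤ s) (h1 : s ≤ Real.pi / 2) :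
    Real.arccos (√(Real.cos s ^ 4 + Real.sin s ^ 4)) = f2 s := by
  have hpi := Real.pi_pos
  have hs0 : 0 ≤ Real.sin s := Real.sin_nonneg_of_nonneg_of_le_pi h0 (by linarith)
  have hc0 : 0 ≤ Real.cos s := Real.cos_nonneg_of_mem_Icc ⟨by linarith, h1⟩
  have h2' : √2 * √2 = 2 := Real.mul_self_sqrt (by norm_num)
  have h2 : (0:ℝ) < √2 := by positivity
  have hsc := Real.sin_sq_add_cos_sq s
  have e1 : (√2 * Real.sin s * Real.cos s) ^ 2 + (Real.cos s ^ 4 + Real.sin s ^ 4) = 1 := by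
    have : (√2 * Real.sin s * Real.cos s) ^ 2 = 2 * Real.sin s ^ 2 * Real.cos s ^ 2 := by
      rw [mul_pow, mul_pow, sq (√2), h2']
    rw [this]
    have : (Real.sin s ^ 2 + Real.cos s ^ 2) ^ 2 = 1 := by rw [hsc]; norm_num
    nlinarith
  have hx0 : 0 ≤ √2 * Real.sin s * Real.cos s := by positivity
  have e2 : Real.cos (f2 s) = √(Real.cos s ^ 4 + Real.sin s ^ 4) := by
    rw [f2, Real.cos_arcsin]
    congr 1
    linarith
  have hy0 : 0 ≤ f2 s := Real.arcsin_nonneg.2 hx0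
  have hy1 : f2 s ≤ Real.pi / 2 := Real.arcsin_le_pi_div_two _
  rw [← e2, Real.arccos_cos hy0 (by linarith)]

/-! ### the sphere -/

section sphere

variable {V : Type*} [NormedAddCommGroup V] [InnerProductSpace ℝ V]

theorem nrm (p : sphere (0 : V) 1) : ‖(p : V)‖ = 1 := norm_eq_of_mem_sphere p

theorem inner_self_sph (p : sphere (0 : V) 1) : (inner ℝ (p : V) p : ℝ) = 1 := by
  rw [real_inner_self_eq_norm_sq, nrm]; norm_num

theorem abs_inner_le (p q : sphere (0 : V) 1) : |(inner ℝ (p : V) q : ℝ)| ≤ 1 := by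
  have := abs_real_inner_le_norm (p : V) q
  rwa [nrm, nrm, mul_one] at this

theorem le_inner (p q : sphere (0 : V) 1) : -1 ≤ (inner ℝ (p : V) q : ℝ) :=
  (abs_le.1 (abs_inner_le p q)).1

theorem inner_le (p q : sphere (0 : V) 1) : (inner ℝ (p : V) q : ℝ) ≤ 1 :=
  (abs_le.1 (abs_inner_le p q)).2

theorem angle_eq_arccos {x y : V} (hx : ‖x‖ = 1) (hy : ‖y‖ = 1) :
    InnerProductGeometry.angle x y = Real.arccos (inner ℝ x y) := by
  rw [InnerProductGeometry.angle, hx, hy, mul_one, div_one]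

/-- the great circle distance -/
def sphPD (V : Type*) [NormedAddCommGroup V] [InnerProductSpace ℝ V] : PD (sphere (0 : V) 1) where
  D p q := Real.arccos (inner ℝ (p : V) q)
  self p := by rw [inner_self_sph, Real.arccos_one]
  comm p q := by rw [real_inner_comm]
  tri p q r := by
    have := InnerProductGeometry.angle_le_angle_add_angle (p : V) (q : V) (r : V)
    rwa [angle_eq_arccos (nrm p) (nrm r), angle_eq_arccos (nrm p) (nrm q),
      angle_eq_arccos (nrm q) (nrm r)] at this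

theorem sphPD_D (p q : sphere (0 : V) 1) :
    (sphPD V).D p q = Real.arccos (inner ℝ (p : V) q) := rfl

theorem cos_sphPD (p q : sphere (0 : V) 1) :
    Real.cos ((sphPD V).D p q) = (inner ℝ (p : V) q : ℝ) :=
  Real.cos_arccos (le_inner p q) (inner_le p q)


theorem sphPD_tendsto (x : sphere (0 : V) 1) : Tendsto (fun y => (sphPD V).D x y) (𝓝 x) (𝓝 0) := by
  have h1 : Continuous fun y : sphere (0 : V) 1 => (inner ℝ (x : V) (y : V) : ℝ) :=
    continuous_const.inner continuous_subtype_val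
  have h2 : Continuous fun y => (sphPD V).D x y := Real.continuous_arccos.comp h1
  have h3 := h2.tendsto x
  have h4 : (sphPD V).D x x = 0 := (sphPD V).self x
  simp only [h4] at h3
  exact h3

theorem sphPD_eq {x y : sphere (0 : V) 1} (h : (sphPD V).D x y = 0) : x = y := by
  have h1 := cos_sphPD x y
  rw [h, Real.cos_zero] at h1
  exact Subtype.ext ((inner_eq_one_iff_of_norm_eq_one (nrm x) (nrm y)).1 h1.symm)

/-- the chordal distance is at most the great circle distance -/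
theorem chord_le (x y : sphere (0 : V) 1) : dist x y ≤ (sphPD V).D x y := by
  have h0 := (sphPD V).nonneg x y
  have h1 : dist x y ^ 2 = 2 * (1 - Real.cos ((sphPD V).D x y)) := by
    rw [cos_sphPD, Subtype.dist_eq, dist_eq_norm, norm_sub_sq_real, nrm, nrm]
    ring
  have h2 := Real.one_sub_sq_div_two_le_cos (x := (sphPD V).D x y)
  exact abs_le_of_sq_le_sq' (by nlinarith) h0 |>.2

/-- the point at distance `θ` from `p` in the direction `u` -/
def pt (p u : V) (θ : ℝ) : V := Real.cos θ • p + Real.sin θ • u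

theorem inner_pt_pt {p u : V} (hp : ‖p‖ = 1) (hu : ‖u‖ = 1) (hpu : (inner ℝ p u : ℝ) = 0)
    (θ φ : ℝ) : (inner ℝ (pt p u θ) (pt p u φ) : ℝ) = Real.cos (θ - φ) := by
  have hup : (inner ℝ u p : ℝ) = 0 := by rw [real_inner_comm, hpu]
  simp only [pt, inner_add_left, inner_add_right, real_inner_smul_left, real_inner_smul_right,
    real_inner_self_eq_norm_sq, hp, hu, hpu, hup, Real.cos_sub]
  ring

theorem norm_pt {p u : V} (hp : ‖p‖ = 1) (hu : ‖u‖ = 1) (hpu : (inner ℝ p u : ℝ) = 0) (θ : ℝ) :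
    ‖pt p u θ‖ = 1 := by
  have h := inner_pt_pt hp hu hpu θ θ
  rw [sub_self, Real.cos_zero, real_inner_self_eq_norm_sq] at h
  have h0 := norm_nonneg (pt p u θ)
  nlinarith

theorem inner_pt {p u : V} (hp : ‖p‖ = 1) (hu : ‖u‖ = 1) (hpu : (inner ℝ p u : ℝ) = 0)
    (θ : ℝ) : (inner ℝ p (pt p u θ) : ℝ) = Real.cos θ := by
  have h := inner_pt_pt hp hu hpu 0 θ
  simp only [pt, Real.cos_zero, Real.sin_zero, zero_smul, one_smul, add_zero, zero_sub,
    Real.cos_neg] at h
  exact h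

theorem inner_pt_orth {p u v : V} (hp : ‖p‖ = 1) (hpu : (inner ℝ p u : ℝ) = 0)
    (hpv : (inner ℝ p v : ℝ) = 0) (huv : (inner ℝ u v : ℝ) = 0)
    (θ φ : ℝ) : (inner ℝ (pt p u θ) (pt p v φ) : ℝ) = Real.cos θ * Real.cos φ := by
  have hup : (inner ℝ u p : ℝ) = 0 := by rw [real_inner_comm, hpu]
  simp only [pt, inner_add_left, inner_add_right, real_inner_smul_left, real_inner_smul_right,
    real_inner_self_eq_norm_sq, hp, hpv, hup, huv]
  ring

/-- every point is seen from every other -/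
theorem exists_dir (hV : ∀ p : V, ‖p‖ = 1 → ∃ u : V, ‖u‖ = 1 ∧ (inner ℝ p u : ℝ) = 0)
    (p q : sphere (0 : V) 1) : ∃ u : V, ‖u‖ = 1 ∧ (inner ℝ (p : V) u : ℝ) = 0 ∧
      (q : V) = pt (p : V) u ((sphPD V).D p q) := by
  set θ := (sphPD V).D p q with hθ
  have hc : Real.cos θ = (inner ℝ (p : V) q : ℝ) := cos_sphPD p q
  by_cases hs : Real.sin θ = 0
  · obtain ⟨u, hu, hpu⟩ := hV p (nrm p)
    refine ⟨u, hu, hpu, ?_⟩
    rw [pt, hs, zero_smul, add_zero, hc]
    have h1 := Real.sin_sq_add_cos_sq θ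
    rw [hs, hc] at h1
    have h2 : (inner ℝ (p : V) q : ℝ) ^ 2 = 1 := by linarith
    rcases sq_eq_one_iff.1 h2 with h3 | h3
    · rw [h3, one_smul]
      exact ((inner_eq_one_iff_of_norm_eq_one (nrm p) (nrm q)).1 h3).symm
    · rw [h3]
      have := (inner_eq_neg_one_iff_of_norm_eq_one (nrm p) (nrm q)).1 h3
      rw [this]; simp
  · refine ⟨(Real.sin θ)⁻¹ • ((q : V) - Real.cos θ • (p : V)), ?_, ?_, ?_⟩
    · have h1 : ‖(q : V) - Real.cos θ • (p : V)‖ ^ 2 = Real.sin θ ^ 2 := by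
        rw [norm_sub_sq_real, norm_smul, real_inner_smul_right, real_inner_comm, ← hc, nrm, nrm,
          Real.norm_eq_abs, mul_one, sq_abs]
        have := Real.sin_sq_add_cos_sq θ
        nlinarith
      have hs0 : 0 ≤ Real.sin θ :=
        Real.sin_nonneg_of_nonneg_of_le_pi (Real.arccos_nonneg _) (Real.arccos_le_pi _)
      have h2 : ‖(q : V) - Real.cos θ • (p : V)‖ = Real.sin θ :=
        (sq_eq_sq₀ (norm_nonneg _) hs0).1 h1
      rw [norm_smul, h2, norm_inv, Real.norm_eq_abs, abs_of_nonneg hs0, inv_mul_cancel₀ hs]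
    · rw [real_inner_smul_right, inner_sub_right, real_inner_smul_right, inner_self_sph, ← hc]
      ring
    · rw [pt, smul_inv_smul₀ hs]
      abel

theorem arccos_cos_abs {θ : ℝ} (h : |θ| ≤ Real.pi) : Real.arccos (Real.cos θ) = |θ| := by
  rw [← Real.cos_abs, Real.arccos_cos (abs_nonneg θ) h]

theorem mid (hV : ∀ p : V, ‖p‖ = 1 → ∃ u : V, ‖u‖ = 1 ∧ (inner ℝ p u : ℝ) = 0)
    (a b : sphere (0 : V) 1) (t : ℝ) (ht : t ∈ Icc (0:ℝ) 1) :
    ∃ x, (sphPD V).D a x = t * (sphPD V).D a b ∧ (sphPD V).D x b = (1 - t) * (sphPD V).D a b := by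
  obtain ⟨u, hu, hpu, hb⟩ := exists_dir hV a b
  set θ := (sphPD V).D a b with hθ
  have h0 : 0 ≤ θ := Real.arccos_nonneg _
  have h1 : θ ≤ Real.pi := Real.arccos_le_pi _
  have hn := norm_pt (nrm a) hu hpu (t * θ)
  refine ⟨⟨pt (a : V) u (t * θ), by simp [hn]⟩, ?_, ?_⟩
  · have e1 := inner_pt (nrm a) hu hpu (t * θ)
    change Real.arccos (inner ℝ (a : V) (pt (a : V) u (t * θ))) = _
    rw [e1, Real.arccos_cos (mul_nonneg ht.1 h0) (by nlinarith [ht.2])]
  · have e1 := inner_pt_pt (nrm a) hu hpu (t * θ) θ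
    change Real.arccos (inner ℝ (pt (a : V) u (t * θ)) (b : V)) = _
    rw [hb, e1, ← Real.cos_neg, Real.arccos_cos (by nlinarith [ht.2]) (by nlinarith [ht.1])]
    ring

theorem frames {n : ℕ} (hF : ∀ p : V, ‖p‖ = 1 → ∃ e : Fin n → V, Orthonormal ℝ e ∧
    ∀ i, (inner ℝ p (e i) : ℝ) = 0) (η : ℝ) (hη : 0 < η) :
    ∃ s₀ : ℝ, 0 < s₀ ∧ ∀ q : sphere (0 : V) 1, ∀ s : ℝ, 0 < s → s < s₀ →
    ∃ e : Fin n → Bool → sphere (0 : V) 1, (∀ i b, (sphPD V).D q (e i b) = s) ∧
      (∀ i, (sphPD V).D (e i true) (e i false) = 2 * s) ∧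
      (∀ i j b b', i ≠ j → |(sphPD V).D (e i b) (e j b') - √2 * s| ≤ η * s) := by
  obtain ⟨s₁, hs₁, hsm⟩ := small_of_hasDerivAt f1_deriv f1_zero η hη
  have hpi := Real.pi_pos
  refine ⟨min s₁ (Real.pi / 2), by positivity, fun q s hs hs' => ?_⟩
  have hss : s < s₁ := hs'.trans_le (min_le_left _ _)
  have hsp : s < Real.pi / 2 := hs'.trans_le (min_le_right _ _)
  obtain ⟨e, he, hqe⟩ := hF q (nrm q)
  have hn : ∀ i (b : Bool), ‖pt (q : V) (e i) (if b then s else -s)‖ = 1 := fun i b =>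
    norm_pt (nrm q) (he.1 i) (hqe i) _
  have hcs : ∀ b : Bool, Real.cos (if b then s else -s) = Real.cos s := by
    intro b; cases b <;> simp
  refine ⟨fun i b => ⟨pt (q : V) (e i) (if b then s else -s), by simpa using hn i b⟩, fun i b => ?_,
    fun i => ?_, fun i j b b' hij => ?_⟩
  · have e1 := inner_pt (nrm q) (he.1 i) (hqe i) (if b then s else -s)
    change Real.arccos (inner ℝ (q : V) (pt (q : V) (e i) (if b then s else -s))) = _
    rw [e1, hcs, Real.arccos_cos hs.le (by linarith)]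
  · have e1 := inner_pt_pt (nrm q) (he.1 i) (hqe i) s (-s)
    change Real.arccos (inner ℝ (pt (q : V) (e i) (if true then s else -s))
      (pt (q : V) (e i) (if false then s else -s))) = _
    simp only [if_true, Bool.false_eq_true, if_false]
    rw [e1, Real.arccos_cos (by linarith) (by linarith)]
    ring
  · have e1 := inner_pt_orth (nrm q) (hqe i) (hqe j) (he.2 hij) (if b then s else -s)
      (if b' then s else -s)
    change |Real.arccos (inner ℝ (pt (q : V) (e i) (if b then s else -s))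
      (pt (q : V) (e j) (if b' then s else -s))) - _| ≤ _
    rw [e1, hcs, hcs, arccos_f1 hs.le hsp.le]
    exact hsm s hs hss

/-- small balls of the sphere span -/
theorem span_sph (x : sphere (0 : V) 1) (r : ℝ) (hr : 0 < r) :
    Submodule.span ℝ ((fun y : sphere (0 : V) 1 => (y : V)) '' {y | (sphPD V).D y x < r}) = ⊤ := by
  have hpi := Real.pi_pos
  set W := Submodule.span ℝ ((fun y : sphere (0 : V) 1 => (y : V)) '' {y | (sphPD V).D y x < r})
    with hW
  have hx : (x : V) ∈ W := Submodule.subset_span ⟨x, by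
    change (sphPD V).D x x < r
    rw [(sphPD V).self]; exact hr, rfl⟩
  rw [eq_top_iff]
  intro v _
  set w : V := v - (inner ℝ (x : V) v : ℝ) • (x : V) with hw
  have hxw : (inner ℝ (x : V) w : ℝ) = 0 := by
    rw [hw, inner_sub_right, real_inner_smul_right, inner_self_sph]; ring
  have hwW : w ∈ W := by
    by_cases h0 : w = 0
    · rw [h0]; exact W.zero_mem
    have hw0 : ‖w‖ ≠ 0 := norm_ne_zero_iff.2 h0
    set u : V := ‖w‖⁻¹ • w with hu
    have hu1 : ‖u‖ = 1 := by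
      rw [hu, norm_smul, norm_inv, norm_norm, inv_mul_cancel₀ hw0]
    have hxu : (inner ℝ (x : V) u : ℝ) = 0 := by rw [hu, real_inner_smul_right, hxw, mul_zero]
    obtain ⟨s, hs0, hs1, hs2⟩ : ∃ s, 0 < s ∧ s < r ∧ s < Real.pi :=
      ⟨min r Real.pi / 2, by positivity,
        (half_lt_self (by positivity)).trans_le (min_le_left _ _),
        (half_lt_self (by positivity)).trans_le (min_le_right _ _)⟩
    have hn := norm_pt (nrm x) hu1 hxu s
    have h1 : pt (x : V) u s ∈ W := by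
      refine Submodule.subset_span ⟨⟨pt (x : V) u s, by simp [hn]⟩, ?_, rfl⟩
      change (sphPD V).D _ x < r
      rw [(sphPD V).comm]
      change Real.arccos (inner ℝ (x : V) (pt (x : V) u s)) < r
      rw [inner_pt (nrm x) hu1 hxu, Real.arccos_cos hs0.le hs2.le]
      exact hs1
    have hsin : Real.sin s ≠ 0 := (Real.sin_pos_of_pos_of_lt_pi hs0 hs2).ne'
    have h2 : w = (‖w‖ * (Real.sin s)⁻¹) • (pt (x : V) u s - Real.cos s • (x : V)) := by
      rw [pt, add_sub_cancel_left, smul_smul, mul_assoc, inv_mul_cancel₀ hsin, mul_one, hu,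
        smul_inv_smul₀ hw0]
    rw [h2]
    exact W.smul_mem _ (W.sub_mem h1 (W.smul_mem _ hx))
  have : v = w + (inner ℝ (x : V) v : ℝ) • (x : V) := by rw [hw]; abel
  rw [this]
  exact W.add_mem hwW (W.smul_mem _ hx)

/-- the sphere model -/
def sphMdl (V : Type*) [NormedAddCommGroup V] [InnerProductSpace ℝ V] (c : {c : ℝ // 0 < c}) :
    Mdl (Syn (sphPD V) c) V where
  P x := ((ofSyn x : sphere (0 : V) 1) : V)
  gram x y x' y' := by
    rw [dist_syn, dist_syn, mul_right_inj' c.2.ne']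
    constructor
    · intro h
      have := congrArg Real.cos h
      rwa [cos_sphPD, cos_sphPD] at this
    · intro h
      rw [sphPD_D, sphPD_D, h]
  span x r hr := by
    have h := span_sph (ofSyn x) (r / c.1) (div_pos hr c.2)
    rw [eq_top_iff, ← h]
    apply Submodule.span_mono
    rintro _ ⟨y, hy, rfl⟩
    refine ⟨toSyn _ c y, ?_, rfl⟩
    have hy' : (sphPD V).D y (ofSyn x) < r / c.1 := hy
    rw [lt_div_iff₀ c.2, mul_comm] at hy'
    exact hy'

end sphere

end

end Crest.Agent.R249.Cov4_802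
end

-- ▼ part R249/Cov5_802
section

/-!
# R249 (helper802), part 5: manifolds covered by round spheres
-/

set_option autoImplicit false
set_option linter.unusedSectionVars false
set_option maxSynthPendingDepth 3
open Set Metric Filter Topology Bundle Manifold
open scoped ContDiff
open Crest.GeometryTopology.ChartCurvature

namespace Crest.Agent.R249.Cov5_802

open Crest.Agent.R249.Cov1_802 Crest.Agent.R249.Cov2_802 Crest.Agent.R249.Cov3_802
  Crest.Agent.R249.Cov4_802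

noncomputable section

section linear

variable {V : Type*} [NormedAddCommGroup V] [InnerProductSpace ℝ V] [FiniteDimensional ℝ V]

/-- the determinant of a linear isometry -/
def dt (T : V ≃ₗᵢ[ℝ] V) : ℝ := LinearMap.det (T.toLinearEquiv : V →ₗ[ℝ] V)

theorem dt_trans (T S : V ≃ₗᵢ[ℝ] V) : dt (T.trans S) = dt T * dt S := by
  unfold dt
  have : ((T.trans S).toLinearEquiv : V →ₗ[ℝ] V) =
      (S.toLinearEquiv : V →ₗ[ℝ] V) * (T.toLinearEquiv : V →ₗ[ℝ] V) := by
    ext v; rfl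
  rw [this, map_mul, mul_comm]

theorem dt_cases (T : V ≃ₗᵢ[ℝ] V) : dt T = 1 ∨ dt T = -1 := by
  set b := stdOrthonormalBasis ℝ V
  have h1 := T.toMatrix_mem_unitaryGroup b b
  have h2 := (Matrix.det_of_mem_unitary h1).1
  have h3 : dt T = (LinearMap.toMatrix b.toBasis b.toBasis (T.toLinearEquiv : V →ₗ[ℝ] V)).det := by
    rw [LinearMap.det_toMatrix]; rfl
  have h4 : dt T * dt T = 1 := by
    rw [star_trivial] at h2
    rw [h3]
    exact h2
  rw [← sq_eq_one_iff, sq, h4]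

/-- a linear isometry of determinant one in odd dimension fixes a unit vector -/
theorem exists_fixed_of_det (hodd : Odd (Module.finrank ℝ V)) (T : V ≃ₗᵢ[ℝ] V) (hdet : dt T = 1) :
    ∃ v : V, ‖v‖ = 1 ∧ T v = v := by
  classical
  set b := stdOrthonormalBasis ℝ V
  set A := LinearMap.toMatrix b.toBasis b.toBasis (T.toLinearEquiv : V →ₗ[ℝ] V) with hA
  have h1 : A ∈ Matrix.unitaryGroup _ ℝ := T.toMatrix_mem_unitaryGroup b b
  have h2 : A * star A = 1 := Matrix.mem_unitaryGroup_iff.1 h1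
  have h3 : A.det = 1 := by
    rw [hA, LinearMap.det_toMatrix]; exact hdet
  have h4 : (A - 1).det = - (A - 1).det := by
    have e1 : A - 1 = A * (1 - star A) := by rw [mul_sub, h2, mul_one]
    have e2 : (1 - star A : Matrix _ _ ℝ) = star (1 - A) := by rw [star_sub, star_one]
    have e3 : (star (1 - A)).det = (1 - A).det := by
      rw [Matrix.star_eq_conjTranspose, Matrix.det_conjTranspose, star_trivial]
    have e4 : (1 - A : Matrix _ _ ℝ) = -(A - 1) := by abel
    calc (A - 1).det = A.det * (1 - star A).det := by rw [← Matrix.det_mul, ← e1]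
      _ = (1 - A).det := by rw [h3, one_mul, e2, e3]
      _ = - (A - 1).det := by
        rw [e4, Matrix.det_neg, Fintype.card_fin, hodd.neg_one_pow, neg_one_mul]
  have h5 : (A - 1).det = 0 := by linarith
  have h6 : LinearMap.det ((T.toLinearEquiv : V →ₗ[ℝ] V) - 1) = 0 := by
    rw [← LinearMap.det_toMatrix b.toBasis, map_sub, LinearMap.toMatrix_one, ← hA, h5]
  have h7 := LinearMap.det_eq_zero_iff_ker_ne_bot.1 h6
  obtain ⟨v, hv, hv0⟩ := (Submodule.ne_bot_iff _).1 h7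
  have hv1 : T v = v := by
    rw [LinearMap.mem_ker, LinearMap.sub_apply, sub_eq_zero] at hv
    exact hv
  have hn : ‖v‖ ≠ 0 := norm_ne_zero_iff.2 hv0
  refine ⟨‖v‖⁻¹ • v, ?_, by rw [map_smul, hv1]⟩
  rw [norm_smul, norm_inv, norm_norm, inv_mul_cancel₀ hn]

theorem exists_orth {n : ℕ} (hV : Module.finrank ℝ V = n + 1) (p : V) (hp : ‖p‖ = 1) :
    ∃ e : Fin n → V, Orthonormal ℝ e ∧ ∀ i, (inner ℝ p (e i) : ℝ) = 0 := by
  have : Fact (Module.finrank ℝ V = n + 1) := ⟨hV⟩
  have hp0 : p ≠ 0 := by rintro rfl; simp at hp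
  let B := OrthonormalBasis.fromOrthogonalSpanSingleton (𝕜 := ℝ) n hp0
  refine ⟨fun i => (B i : V), B.orthonormal.comp_linearIsometry (Submodule.subtypeₗᵢ _), fun i => ?_⟩
  exact Submodule.mem_orthogonal_singleton_iff_inner_right.1 (B i).2

theorem exists_orth1 {n : ℕ} (hn : n ≠ 0) (hV : Module.finrank ℝ V = n + 1) (p : V)
    (hp : ‖p‖ = 1) : ∃ u : V, ‖u‖ = 1 ∧ (inner ℝ p u : ℝ) = 0 := by
  obtain ⟨e, he, hpe⟩ := exists_orth hV p hp
  exact ⟨e ⟨0, Nat.pos_of_ne_zero hn⟩, he.1 _, hpe _⟩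

end linear

/-! ### from charts in the sense of the statements to `Loc` -/

/-- the general step: local isometries for a distance -/
theorem exists_loc' {n : ℕ} {S : Type*} [TopologicalSpace S] [CompactSpace S] (P : PD S)
    (hten : ∀ x, Tendsto (fun y => P.D x y) (𝓝 x) (𝓝 0))
    (hfr : ∀ η : ℝ, 0 < η → ∃ s₀ : ℝ, 0 < s₀ ∧ ∀ q : S, ∀ s : ℝ, 0 < s → s < s₀ →
    ∃ e : Fin n → Bool → S, (∀ i b, |P.D q (e i b) - s| ≤ η * s) ∧
      (∀ i, |P.D (e i true) (e i false) - 2 * s| ≤ η * s) ∧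
      (∀ i j b b', i ≠ j → |P.D (e i b) (e j b') - √2 * s| ≤ η * s))
    {M : Type*} [MetricSpace M] (hM : BL n M) (hE : ExM M) {a : ℝ} (ha : 0 < a) (Φ : S → M)
    (hloc : ∀ p, ∃ ε : ℝ, 0 < ε ∧ ∀ q q', P.D p q < ε → P.D p q' < ε →
      dist (Φ q) (Φ q') = P.D q q' / √a) :
    ∃ ρ : ℝ, Loc (fun x : Syn P ⟨(√a)⁻¹, inv_pos.2 (Real.sqrt_pos.2 ha)⟩ => Φ (ofSyn x)) ρ := by
  have hsa : 0 < √a := Real.sqrt_pos.2 ha
  set c : {c : ℝ // 0 < c} := ⟨(√a)⁻¹, inv_pos.2 hsa⟩ with hc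
  have : CompactSpace (Syn P c) := compact_syn hten
  have h1 : ∀ p : Syn P c, ∃ ε : ℝ, 0 < ε ∧ ∀ q q' : Syn P c, dist p q < ε → dist p q' < ε →
      dist (Φ (ofSyn q)) (Φ (ofSyn q')) = dist q q' := by
    intro p
    obtain ⟨ε, hε, h⟩ := hloc (ofSyn p)
    refine ⟨(√a)⁻¹ * ε, by positivity, fun q q' hq hq' => ?_⟩
    have key : ∀ q : Syn P c, dist p q < (√a)⁻¹ * ε → P.D (ofSyn p) (ofSyn q) < ε := by
      intro q hq
      rw [dist_syn] at hq
      exact lt_of_mul_lt_mul_left hq (by positivity)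
    rw [h _ _ (key q hq) (key q' hq'), dist_syn, div_eq_inv_mul]
  obtain ⟨ρ, hρ, h⟩ := exists_uniform (Φ := fun x : Syn P c => Φ (ofSyn x)) (ufr_syn hfr) hM hE h1
  exact ⟨ρ, hρ, fun p => (h p).1, fun p => (h p).2⟩

/-- the general step: local isometries for a distance dominating the given one -/
theorem exists_loc {n : ℕ} {S : Type*} [MetricSpace S] [CompactSpace S] (P : PD S)
    (hten : ∀ x, Tendsto (fun y => P.D x y) (𝓝 x) (𝓝 0))
    (hch : ∀ x y, dist x y ≤ P.D x y)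
    (hfr : ∀ η : ℝ, 0 < η → ∃ s₀ : ℝ, 0 < s₀ ∧ ∀ q : S, ∀ s : ℝ, 0 < s → s < s₀ →
    ∃ e : Fin n → Bool → S, (∀ i b, |P.D q (e i b) - s| ≤ η * s) ∧
      (∀ i, |P.D (e i true) (e i false) - 2 * s| ≤ η * s) ∧
      (∀ i j b b', i ≠ j → |P.D (e i b) (e j b') - √2 * s| ≤ η * s))
    {M : Type*} [MetricSpace M] (hM : BL n M) (hE : ExM M) {a : ℝ} (ha : 0 < a) (Φ : S → M)
    (hloc : ∀ p, ∃ ε : ℝ, 0 < ε ∧ ∀ q q', dist p q < ε → dist p q' < ε →
      dist (Φ q) (Φ q') = P.D q q' / √a) :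
    ∃ ρ : ℝ, Loc (fun x : Syn P ⟨(√a)⁻¹, inv_pos.2 (Real.sqrt_pos.2 ha)⟩ => Φ (ofSyn x)) ρ := by
  refine exists_loc' P hten hfr hM hE ha Φ fun p => ?_
  obtain ⟨ε, hε, h⟩ := hloc p
  exact ⟨ε, hε, fun q q' hq hq' => h q q' ((hch _ _).trans_lt hq) ((hch _ _).trans_lt hq')⟩

section T1

variable {n : ℕ} {M : Type*} [MetricSpace M] {V : Type*} [NormedAddCommGroup V]
  [InnerProductSpace ℝ V] [FiniteDimensional ℝ V]

/-- **manifolds covered by round spheres of even dimension** -/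
theorem sphere_core (hfin : Module.finrank ℝ V = n + 1) (hn : n ≠ 0) (hM : BL n M) (hE : ExM M)
    (he : Even n) {a : ℝ} (ha : 0 < a) (Φ : sphere (0 : V) 1 → M)
    (hsurj : Function.Surjective Φ)
    (hloc : ∀ p, ∃ ε : ℝ, 0 < ε ∧ ∀ q q', dist p q < ε → dist p q' < ε →
      dist (Φ q) (Φ q') = Real.arccos (inner ℝ (q : V) q') / √a) :
    (Function.Bijective Φ ∧ ∀ p q, dist (Φ p) (Φ q) = Real.arccos (inner ℝ (p : V) q) / √a) ∨
    (Function.Surjective Φ ∧ (∀ p q, Φ p = Φ q ↔ (p = q ∨ (p : V) = -(q : V))) ∧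
      ∀ p q, dist (Φ p) (Φ q) = Real.arccos |inner ℝ (p : V) q| / √a) := by
  have hsa : 0 < √a := Real.sqrt_pos.2 ha
  have hodd : Odd (Module.finrank ℝ V) := by rw [hfin]; exact he.add_one
  obtain ⟨ρ, hL⟩ := exists_loc (sphPD V) sphPD_tendsto chord_le (fun η hη => by
    obtain ⟨s₀, hs₀, h⟩ := frames (exists_orth hfin) η hη
    refine ⟨s₀, hs₀, fun q s hs hs' => ?_⟩
    obtain ⟨e, h1, h2, h3⟩ := h q s hs hs'
    refine ⟨e, fun i b => ?_, fun i => ?_, h3⟩
    · rw [h1, sub_self, abs_zero]; positivity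
    · rw [h2, sub_self, abs_zero]; positivity) hM hE ha Φ hloc
  set c : {c : ℝ // 0 < c} := ⟨(√a)⁻¹, inv_pos.2 hsa⟩ with hc
  set Ψ : Syn (sphPD V) c → M := fun x => Φ (ofSyn x) with hΨ
  have hX : ExM (Syn (sphPD V) c) := exM_syn (mid (exists_orth1 hn hfin))
  set A := sphMdl V c with hA
  have hdist : ∀ x y : Syn (sphPD V) c, dist x y = 0 → x = y := by
    intro x y hxy
    rw [dist_syn, mul_eq_zero] at hxy
    rcases hxy with h1 | h1
    · exact absurd h1 c.2.ne'
    · exact sphPD_eq h1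
  -- a nontrivial deck map is the antipode
  have key : ∀ x y : Syn (sphPD V) c, Ψ x = Ψ y → x ≠ y →
      (∀ u, Ψ (toSyn _ c (-(ofSyn u))) = Ψ u) ∧ y = toSyn _ c (-(ofSyn x)) := by
    intro x y hxy hne
    obtain ⟨T, γ, hD, hγ⟩ := exists_deck A hL hX hxy
    have hγy : γ x = y := hdist _ _ hγ
    have hfree : ∀ (T' : V ≃ₗᵢ[ℝ] V) (γ' : Syn (sphPD V) c → Syn (sphPD V) c),
        DeckMap A Ψ T' γ' → ∀ v : V, ‖v‖ = 1 → T' v = v → ∀ w, T' w = w := by
      intro T' γ' hD' v hv hTv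
      exact hD'.free hL (x := toSyn _ c ⟨v, by simpa using hv⟩) hTv
    have hT : ¬ ∀ w, T w = w := by
      intro h
      apply hne
      apply hdist
      rw [← A.eq_iff, ← hγy, hD.P_γ, h]
    have hdt : dt T ≠ 1 := by
      intro h1
      obtain ⟨v, hv, hTv⟩ := exists_fixed_of_det hodd T h1
      exact hT (hfree T γ hD v hv hTv)
    have hdt' : dt T = -1 := (dt_cases T).resolve_left hdt
    have hTT : ∀ w, T (T w) = w := by
      have h1 : dt (T.trans T) = 1 := by rw [dt_trans, hdt']; norm_num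
      obtain ⟨v, hv, hTv⟩ := exists_fixed_of_det hodd _ h1
      exact hfree _ _ hD.comp v hv hTv
    have hneg : ∀ w, T w = -w := by
      intro w
      by_contra h1
      have h2 : w + T w ≠ 0 := by
        intro h3
        apply h1
        rw [← add_eq_zero_iff_eq_neg', h3]
      have hn0 : ‖w + T w‖ ≠ 0 := norm_ne_zero_iff.2 h2
      apply hT
      refine hfree T γ hD (‖w + T w‖⁻¹ • (w + T w)) ?_ ?_
      · rw [norm_smul, norm_inv, norm_norm, inv_mul_cancel₀ hn0]
      · rw [map_smul, map_add, hTT, add_comm (T w)]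
    have hγneg : ∀ u, γ u = toSyn _ c (-(ofSyn u)) := by
      intro u
      apply Subtype.ext
      have := hD.P_γ u
      rw [hneg] at this
      exact this
    exact ⟨fun u => by rw [← hγneg, hD.Φ_γ], by rw [← hγneg, hγy]⟩
  by_cases hinj : Function.Injective Φ
  · left
    refine ⟨⟨hinj, hsurj⟩, fun p q => ?_⟩
    have := hL.isometry hX hE (fun x y h => by
      have : ofSyn x = ofSyn y := hinj h
      have : x = y := this
      rw [this, dist_self]) (toSyn _ c p) (toSyn _ c q)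
    rw [dist_toSyn] at this
    rw [div_eq_inv_mul]
    exact this
  · right
    obtain ⟨x₀, y₀, hxy₀, hne₀⟩ : ∃ x y, Φ x = Φ y ∧ x ≠ y := by
      simpa [Function.Injective] using hinj
    have hanti : ∀ u : sphere (0 : V) 1, Φ (-u) = Φ u := fun u =>
      (key (toSyn _ c x₀) (toSyn _ c y₀) hxy₀ hne₀).1 (toSyn _ c u)
    have hfib : ∀ p q, Φ p = Φ q ↔ (p = q ∨ (p : V) = -(q : V)) := by
      intro p q
      constructor
      · intro h
        by_cases hpq : p = q
        · exact Or.inl hpq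
        · right
          have : q = -p := (key (toSyn _ c p) (toSyn _ c q) h hpq).2
          rw [this]; simp
      · rintro (rfl | h)
        · rfl
        · have : p = -q := Subtype.ext h
          rw [this, hanti]
    refine ⟨hsurj, hfib, fun p q => ?_⟩
    have hle : ∀ p q, dist (Φ p) (Φ q) ≤ (√a)⁻¹ * Real.arccos (inner ℝ (p : V) q) := fun p q =>
      hL.lip hX (toSyn _ c p) (toSyn _ c q)
    obtain ⟨q', hq', hq''⟩ : ∃ q' : sphere (0 : V) 1, Φ q' = Φ q ∧
        (√a)⁻¹ * (sphPD V).D p q' ≤ dist (Φ p) (Φ q) := by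
      obtain ⟨q', hq', hq''⟩ := hL.lift hE (toSyn _ c p) (Φ q)
      exact ⟨ofSyn q', hq', hq''⟩
    rw [sphPD_D] at hq''
    have h1 := hle p q
    have h2 := hle p (-q)
    rw [hanti] at h2
    have e1 : (inner ℝ (p : V) ((-q : sphere (0 : V) 1) : V) : ℝ) = -inner ℝ (p : V) q := by
      rw [coe_neg_sphere, inner_neg_right]
    rw [e1] at h2
    rw [div_eq_inv_mul]
    rcases abs_cases (inner ℝ (p : V) q : ℝ) with ⟨h3, h4⟩ | ⟨h3, h4⟩
    · rw [h3]
      refine le_antisymm h1 ?_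
      rcases (hfib _ _).1 hq' with h5 | h5
      · rwa [h5] at hq''
      · rw [h5, inner_neg_right] at hq''
        refine le_trans ?_ hq''
        gcongr
        linarith
    · rw [h3]
      refine le_antisymm h2 ?_
      rcases (hfib _ _).1 hq' with h5 | h5
      · rw [h5] at hq''
        refine le_trans ?_ hq''
        gcongr
        linarith
      · rwa [h5, inner_neg_right] at hq''

end T1

/-! ### the statements -/

section final

variable (n : ℕ) (M : Type*) [MetricSpace M] [ChartedSpace (EuclideanSpace ℝ (Fin n)) M]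
  [IsManifold 𝓘(ℝ, EuclideanSpace ℝ (Fin n)) ∞ M] [CompleteSpace M]
  [RiemannianBundle (fun x : M => TangentSpace 𝓘(ℝ, EuclideanSpace ℝ (Fin n)) x)]
  [IsContMDiffRiemannianBundle 𝓘(ℝ, EuclideanSpace ℝ (Fin n)) ∞ (EuclideanSpace ℝ (Fin n))
    (fun x : M => TangentSpace 𝓘(ℝ, EuclideanSpace ℝ (Fin n)) x)]
  [IsRiemannianManifold 𝓘(ℝ, EuclideanSpace ℝ (Fin n)) M]

/-- **a complete Riemannian manifold of even dimension locally covered by a round sphere is
homothetic to the round sphere or to the real projective space** -/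
theorem sphere_or_projective (hn : n ≠ 0) (he : Even n) {a : ℝ}
    (h : IsLocallyCoveredByRoundSphere M n a) :
    IsHomotheticToRoundSphere M n a ∨ IsHomotheticToRealProjective M n a := by
  obtain ⟨ha, Φ, hsurj, hloc⟩ := h
  have hfin : Module.finrank ℝ (EuclideanSpace ℝ (Fin (n + 1))) = n + 1 := by simp
  rcases sphere_core hfin hn (bl n M) (exM n M) he ha Φ hsurj hloc with ⟨h1, h2⟩ | ⟨h1, h2, h3⟩
  · exact Or.inl ⟨ha, Φ, h1, h2⟩
  · exact Or.inr ⟨ha, Φ, h1, h2, h3⟩

end final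

/-- (T1) of row 249 -/
theorem T1 (M : Type*) [MetricSpace M] [ChartedSpace (EuclideanSpace ℝ (Fin 4)) M]
    [IsManifold 𝓘(ℝ, EuclideanSpace ℝ (Fin 4)) ∞ M] [CompactSpace M] [ConnectedSpace M]
    [RiemannianBundle (fun x : M => TangentSpace 𝓘(ℝ, EuclideanSpace ℝ (Fin 4)) x)]
    [IsContMDiffRiemannianBundle 𝓘(ℝ, EuclideanSpace ℝ (Fin 4)) ∞ (EuclideanSpace ℝ (Fin 4))
      (fun x : M => TangentSpace 𝓘(ℝ, EuclideanSpace ℝ (Fin 4)) x)]
    [IsRiemannianManifold 𝓘(ℝ, EuclideanSpace ℝ (Fin 4)) M] (a : ℝ)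
    (h : IsLocallyCoveredByRoundSphere M 4 a) :
    IsHomotheticToRoundSphere M 4 a ∨ IsHomotheticToRealProjective M 4 a :=
  sphere_or_projective 4 M (by norm_num) (by decide) h

end

end Crest.Agent.R249.Cov5_802
end

-- ▼ part R249/Cov6_802
section

/-!
# R249 (helper802), part 6: the complex projective space as a model
-/

set_option autoImplicit false
set_option linter.unusedSectionVars false
set_option maxSynthPendingDepth 3
open Set Metric Filter Topology

namespace Crest.Agent.R249.Cov6_802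

open Crest.Agent.R249.Cov1_802 Crest.Agent.R249.Cov2_802 Crest.Agent.R249.Cov3_802
  Crest.Agent.R249.Cov4_802 Crest.Agent.R249.Cov5_802

noncomputable section

attribute [local instance] InnerProductSpace.complexToReal

variable {W : Type*} [NormedAddCommGroup W] [InnerProductSpace ℂ W]

theorem re_inner (x y : W) : (inner ℝ x y : ℝ) = (inner ℂ x y : ℂ).re :=
  real_inner_eq_re_inner ℂ x y

/-- multiplication by a unit complex number -/
def ph (μ : ℂ) (hμ : ‖μ‖ = 1) (x : sphere (0 : W) 1) : sphere (0 : W) 1 :=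
  ⟨μ • (x : W), by rw [mem_sphere_zero_iff_norm, norm_smul, hμ, one_mul]; exact nrm x⟩

theorem coe_ph (μ : ℂ) (hμ : ‖μ‖ = 1) (x : sphere (0 : W) 1) : (ph μ hμ x : W) = μ • (x : W) := rfl

theorem inner_self_c (p : sphere (0 : W) 1) : (inner ℂ (p : W) p : ℂ) = 1 := by
  rw [inner_self_eq_norm_sq_to_K, nrm]; norm_num

theorem norm_inner_le (p q : sphere (0 : W) 1) : ‖(inner ℂ (p : W) q : ℂ)‖ ≤ 1 := by
  have := norm_inner_le_norm (𝕜 := ℂ) (p : W) q
  rwa [nrm, nrm, mul_one] at this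

theorem exists_phase (x y : W) :
    ∃ μ : ℂ, ‖μ‖ = 1 ∧ (inner ℂ x (μ • y) : ℂ) = (‖(inner ℂ x y : ℂ)‖ : ℂ) := by
  obtain ⟨c, hc, h⟩ := Complex.exists_norm_eq_mul_self (inner ℂ x y : ℂ)
  exact ⟨c, hc, by rw [inner_smul_right, h]⟩

theorem exists_phase_sph (p q : sphere (0 : W) 1) : ∃ (μ : ℂ) (hμ : ‖μ‖ = 1),
    (sphPD W).D p (ph μ hμ q) = Real.arccos ‖(inner ℂ (p : W) q : ℂ)‖ := by
  obtain ⟨μ, hμ, h⟩ := exists_phase (p : W) (q : W)
  refine ⟨μ, hμ, ?_⟩
  rw [sphPD_D, coe_ph, re_inner, h, Complex.ofReal_re]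

theorem arccos_norm_le (p q : sphere (0 : W) 1) :
    Real.arccos ‖(inner ℂ (p : W) q : ℂ)‖ ≤ (sphPD W).D p q := by
  rw [sphPD_D, re_inner]
  exact Real.arccos_le_arccos (Complex.re_le_norm _)

theorem norm_inner_ph_right (p q : sphere (0 : W) 1) (μ : ℂ) (hμ : ‖μ‖ = 1) :
    ‖(inner ℂ (p : W) (ph μ hμ q : W) : ℂ)‖ = ‖(inner ℂ (p : W) q : ℂ)‖ := by
  rw [coe_ph, inner_smul_right, norm_mul, hμ, one_mul]

theorem norm_inner_ph_left (p q : sphere (0 : W) 1) (μ : ℂ) (hμ : ‖μ‖ = 1) :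
    ‖(inner ℂ (ph μ hμ p : W) (q : W) : ℂ)‖ = ‖(inner ℂ (p : W) q : ℂ)‖ := by
  rw [coe_ph, inner_smul_left, norm_mul, RCLike.norm_conj, hμ, one_mul]

/-- the Fubini–Study distance -/
def cpPD (W : Type*) [NormedAddCommGroup W] [InnerProductSpace ℂ W] : PD (sphere (0 : W) 1) where
  D p q := Real.arccos ‖(inner ℂ (p : W) q : ℂ)‖
  self p := by rw [inner_self_c, norm_one, Real.arccos_one]
  comm p q := by rw [norm_inner_symm]
  tri x y z := by
    obtain ⟨μ, hμ, h1⟩ := exists_phase_sph x y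
    obtain ⟨ν, hν, h2⟩ := exists_phase_sph (ph μ hμ y) z
    rw [norm_inner_ph_left] at h2
    have h3 := (sphPD W).tri x (ph μ hμ y) (ph ν hν z)
    have h4 := arccos_norm_le x (ph ν hν z)
    rw [norm_inner_ph_right] at h4
    linarith

theorem cpPD_D (p q : sphere (0 : W) 1) :
    (cpPD W).D p q = Real.arccos ‖(inner ℂ (p : W) q : ℂ)‖ := rfl

theorem cp_le_sph (p q : sphere (0 : W) 1) : (cpPD W).D p q ≤ (sphPD W).D p q := arccos_norm_le p q

theorem D_ph_right (p q : sphere (0 : W) 1) (μ : ℂ) (hμ : ‖μ‖ = 1) :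
    (cpPD W).D p (ph μ hμ q) = (cpPD W).D p q := by
  rw [cpPD_D, norm_inner_ph_right, ← cpPD_D]


theorem cos_cpPD (p q : sphere (0 : W) 1) :
    Real.cos ((cpPD W).D p q) = ‖(inner ℂ (p : W) q : ℂ)‖ :=
  Real.cos_arccos (by have := norm_nonneg (inner ℂ (p : W) q : ℂ); linarith) (norm_inner_le p q)

theorem cpPD_le (p q : sphere (0 : W) 1) : (cpPD W).D p q ≤ Real.pi / 2 :=
  Real.arccos_le_pi_div_two.2 (norm_nonneg _)

theorem cpPD_tendsto (x : sphere (0 : W) 1) : Tendsto (fun y => (cpPD W).D x y) (𝓝 x) (𝓝 0) :=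
  squeeze_zero (fun y => (cpPD W).nonneg x y) (fun y => cp_le_sph x y) (sphPD_tendsto x)

/-- distance zero means same complex line -/
theorem cpPD_eq_zero (p q : sphere (0 : W) 1) :
    (cpPD W).D p q = 0 ↔ ∃ μ : ℂ, ‖μ‖ = 1 ∧ (q : W) = μ • (p : W) := by
  constructor
  · intro h
    obtain ⟨μ, hμ, h1⟩ := exists_phase_sph q p
    rw [← cpPD_D, (cpPD W).comm, h] at h1
    have h2 := sphPD_eq h1
    exact ⟨μ, hμ, by rw [← coe_ph μ hμ, ← h2]⟩
  · rintro ⟨μ, hμ, h⟩
    have : q = ph μ hμ p := Subtype.ext h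
    rw [this, D_ph_right, (cpPD W).self]

theorem cp_mid (hV : ∀ p : W, ‖p‖ = 1 → ∃ u : W, ‖u‖ = 1 ∧ (inner ℝ p u : ℝ) = 0)
    (a b : sphere (0 : W) 1) (t : ℝ) (ht : t ∈ Icc (0:ℝ) 1) :
    ∃ x, (cpPD W).D a x = t * (cpPD W).D a b ∧ (cpPD W).D x b = (1 - t) * (cpPD W).D a b := by
  obtain ⟨μ, hμ, h1⟩ := exists_phase_sph a b
  rw [← cpPD_D] at h1
  obtain ⟨x, hx1, hx2⟩ := mid hV a (ph μ hμ b) t ht
  rw [h1] at hx1 hx2
  have h3 := cp_le_sph a x
  have h4 := cp_le_sph x (ph μ hμ b)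
  rw [D_ph_right] at h4
  have h5 := (cpPD W).tri a x b
  exact ⟨x, by linarith, by linarith⟩

/-- equality in the triangle inequality -/
theorem cp_eq_tri (a b c : sphere (0 : W) 1)
    (h : (cpPD W).D a c = (cpPD W).D a b + (cpPD W).D b c) :
    ∃ κ₁ κ₂ : ℂ, (b : W) = κ₁ • (a : W) + κ₂ • (c : W) := by
  obtain ⟨μ, hμ, h1⟩ := exists_phase_sph a b
  obtain ⟨ν, hν, h2⟩ := exists_phase_sph (ph μ hμ b) c
  rw [norm_inner_ph_left] at h2
  rw [← cpPD_D] at h1 h2
  have h3 := (sphPD W).tri a (ph μ hμ b) (ph ν hν c)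
  have h4 := cp_le_sph a (ph ν hν c)
  rw [D_ph_right] at h4
  have h5 : (sphPD W).D a (ph ν hν c) = (sphPD W).D a (ph μ hμ b) +
      (sphPD W).D (ph μ hμ b) (ph ν hν c) := by linarith
  have h6 : (sphPD W).D a (ph ν hν c) ≤ Real.pi / 2 := by
    have := cpPD_le a c
    linarith
  rw [sphPD_D, sphPD_D, sphPD_D, ← angle_eq_arccos (nrm _) (nrm _),
    ← angle_eq_arccos (nrm _) (nrm _), ← angle_eq_arccos (nrm _) (nrm _),
    InnerProductGeometry.angle_eq_angle_add_angle_iff (ne_zero_of_mem_unit_sphere _)] at h5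
  rcases h5 with h5 | h5
  · rw [sphPD_D, ← angle_eq_arccos (nrm _) (nrm _), h5] at h6
    have := Real.pi_pos
    linarith
  · rw [Submodule.mem_span_pair] at h5
    obtain ⟨k₁, k₂, h5⟩ := h5
    rw [coe_ph, coe_ph] at h5
    have hμ0 : μ ≠ 0 := by rintro rfl; simp at hμ
    refine ⟨μ⁻¹ * ((k₁ : ℝ) : ℂ), μ⁻¹ * ((k₂ : ℝ) : ℂ) * ν, ?_⟩
    have h7 : (b : W) = μ⁻¹ • (μ • (b : W)) := by rw [smul_smul, inv_mul_cancel₀ hμ0, one_smul]
    rw [h7, ← h5, smul_add, mul_smul, mul_smul, mul_smul]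
    congr 2

end

end Crest.Agent.R249.Cov6_802
end

-- ▼ part R249/Cov7_802
section

/-!
# R249 (helper802), part 7: frames and the Veronese embedding of the complex projective space
-/

set_option autoImplicit false
set_option linter.unusedSectionVars false
set_option maxSynthPendingDepth 3
open Set Metric Filter Topology

namespace Crest.Agent.R249.Cov7_802

open Crest.Agent.R249.Cov1_802 Crest.Agent.R249.Cov2_802 Crest.Agent.R249.Cov3_802
  Crest.Agent.R249.Cov4_802 Crest.Agent.R249.Cov5_802 Crest.Agent.R249.Cov6_802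

noncomputable section

attribute [local instance] InnerProductSpace.complexToReal

variable {W : Type*} [NormedAddCommGroup W] [InnerProductSpace ℂ W]

theorem pt_eq (q d : W) (θ : ℝ) :
    pt q d θ = ((Real.cos θ : ℝ) : ℂ) • q + ((Real.sin θ : ℝ) : ℂ) • d := by
  rw [pt, Complex.coe_smul, Complex.coe_smul]

theorem inner_pt_c {q d d' : W} (hq : ‖q‖ = 1) (hd : (inner ℂ q d : ℂ) = 0)
    (hd' : (inner ℂ q d' : ℂ) = 0) (θ θ' : ℝ) :
    (inner ℂ (pt q d θ) (pt q d' θ') : ℂ) = ((Real.cos θ * Real.cos θ' : ℝ) : ℂ) +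
      ((Real.sin θ * Real.sin θ' : ℝ) : ℂ) * inner ℂ d d' := by
  have hd2 : (inner ℂ d q : ℂ) = 0 := by rw [← inner_conj_symm, hd, map_zero]
  have hqq : (inner ℂ q q : ℂ) = 1 := by rw [inner_self_eq_norm_sq_to_K, hq]; norm_num
  rw [pt_eq, pt_eq]
  simp only [inner_add_left, inner_add_right, inner_smul_left, inner_smul_right, hd2, hd', hqq,
    Complex.conj_ofReal, Complex.ofReal_mul]
  ring

theorem inner_q_pt {q d : W} (hq : ‖q‖ = 1) (hd : (inner ℂ q d : ℂ) = 0) (θ : ℝ) :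
    (inner ℂ q (pt q d θ) : ℂ) = (Real.cos θ : ℝ) := by
  have hqq : (inner ℂ q q : ℂ) = 1 := by rw [inner_self_eq_norm_sq_to_K, hq]; norm_num
  rw [pt_eq]
  simp only [inner_add_right, inner_smul_right, hd, hqq]
  ring

/-- the directions of a frame -/
def dr {m : ℕ} (e : Fin m → W) (p : Fin m × Fin 2) : W := if p.2 = 0 then e p.1 else Complex.I • e p.1

theorem dr_norm {m : ℕ} {e : Fin m → W} (he : Orthonormal ℂ e) (p : Fin m × Fin 2) :
    ‖dr e p‖ = 1 := by
  unfold dr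
  split_ifs
  · exact he.1 _
  · rw [norm_smul, he.1, Complex.norm_I, one_mul]

theorem dr_orth {m : ℕ} {q : W} {e : Fin m → W} (h : ∀ i, (inner ℂ q (e i) : ℂ) = 0)
    (p : Fin m × Fin 2) : (inner ℂ q (dr e p) : ℂ) = 0 := by
  unfold dr
  split_ifs
  · exact h _
  · rw [inner_smul_right, h, mul_zero]

theorem dr_inner {m : ℕ} {e : Fin m → W} (he : Orthonormal ℂ e) {p p' : Fin m × Fin 2}
    (hpp : p ≠ p') : (inner ℂ (dr e p) (dr e p') : ℂ) = 0 ∨
      ((inner ℂ (dr e p) (dr e p') : ℂ).re = 0 ∧ (inner ℂ (dr e p) (dr e p') : ℂ).im ^ 2 = 1) := by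
  obtain ⟨i, k⟩ := p
  obtain ⟨j, l⟩ := p'
  by_cases hij : i = j
  · right
    subst hij
    have hii : (inner ℂ (e i) (e i) : ℂ) = 1 := by
      rw [inner_self_eq_norm_sq_to_K, he.1]; norm_num
    have hkl : k ≠ l := fun h => hpp (by rw [h])
    have h01 : (inner ℂ (dr e (i, 0)) (dr e (i, 1)) : ℂ) = Complex.I := by
      change (inner ℂ (e i) (Complex.I • e i) : ℂ) = _
      rw [inner_smul_right, hii, mul_one]
    have h10 : (inner ℂ (dr e (i, 1)) (dr e (i, 0)) : ℂ) = -Complex.I := by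
      rw [← inner_conj_symm, h01, Complex.conj_I]
    rcases Fin.exists_fin_two.1 ⟨k, rfl⟩ with hk | hk <;>
      rcases Fin.exists_fin_two.1 ⟨l, rfl⟩ with hl | hl <;> subst hk <;> subst hl
    · exact absurd rfl hkl
    · rw [h01]; simp
    · rw [h10]; simp
    · exact absurd rfl hkl
  · left
    have h0 : (inner ℂ (e i) (e j) : ℂ) = 0 := he.2 hij
    unfold dr
    split_ifs <;> simp only [inner_smul_left, inner_smul_right, h0, mul_zero]

theorem cp_frames {m : ℕ} (hF : ∀ q : W, ‖q‖ = 1 → ∃ e : Fin m → W, Orthonormal ℂ e ∧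
    ∀ i, (inner ℂ q (e i) : ℂ) = 0) (η : ℝ) (hη : 0 < η) :
    ∃ s₀ : ℝ, 0 < s₀ ∧ ∀ q : sphere (0 : W) 1, ∀ s : ℝ, 0 < s → s < s₀ →
    ∃ e : Fin m × Fin 2 → Bool → sphere (0 : W) 1, (∀ i b, (cpPD W).D q (e i b) = s) ∧
      (∀ i, (cpPD W).D (e i true) (e i false) = 2 * s) ∧
      (∀ i j b b', i ≠ j → |(cpPD W).D (e i b) (e j b') - √2 * s| ≤ η * s) := by
  obtain ⟨s₁, hs₁, hsm1⟩ := small_of_hasDerivAt f1_deriv f1_zero η hη
  obtain ⟨s₂, hs₂, hsm2⟩ := small_of_hasDerivAt f2_deriv f2_zero η hη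
  have hpi := Real.pi_pos
  refine ⟨min (min s₁ s₂) (Real.pi / 4), by positivity, fun q s hs hs' => ?_⟩
  have hss1 : s < s₁ := hs'.trans_le ((min_le_left _ _).trans (min_le_left _ _))
  have hss2 : s < s₂ := hs'.trans_le ((min_le_left _ _).trans (min_le_right _ _))
  have hsp : s < Real.pi / 4 := hs'.trans_le (min_le_right _ _)
  obtain ⟨e, he, hqe⟩ := hF q (nrm q)
  have hre : ∀ i, (inner ℝ (q : W) (dr e i) : ℝ) = 0 := fun i => by
    rw [re_inner, dr_orth hqe, Complex.zero_re]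
  have hn : ∀ i (b : Bool), ‖pt (q : W) (dr e i) (if b then s else -s)‖ = 1 := fun i b =>
    norm_pt (nrm q) (dr_norm he i) (hre i) _
  have hcs : ∀ b : Bool, Real.cos (if b then s else -s) = Real.cos s := by
    intro b; cases b <;> simp
  have hsn : ∀ b b' : Bool, (Real.sin (if b then s else -s) * Real.sin (if b' then s else -s)) ^ 2 =
      Real.sin s ^ 4 := by
    intro b b'; cases b <;> cases b' <;> simp <;> ring
  have hc0 : 0 ≤ Real.cos s := Real.cos_nonneg_of_mem_Icc ⟨by linarith, by linarith⟩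
  refine ⟨fun i b => ⟨pt (q : W) (dr e i) (if b then s else -s),
    mem_sphere_zero_iff_norm.2 (hn i b)⟩, fun i b => ?_, fun i => ?_, fun i j b b' hij => ?_⟩
  · change Real.arccos ‖(inner ℂ (q : W) (pt (q : W) (dr e i) (if b then s else -s)) : ℂ)‖ = s
    rw [inner_q_pt (nrm q) (dr_orth hqe i), hcs, Complex.norm_real, Real.norm_eq_abs,
      abs_of_nonneg hc0, Real.arccos_cos hs.le (by linarith)]
  · change Real.arccos ‖(inner ℂ (pt (q : W) (dr e i) (if true then s else -s))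
      (pt (q : W) (dr e i) (if false then s else -s)) : ℂ)‖ = 2 * s
    have hdd : (inner ℂ (dr e i) (dr e i) : ℂ) = 1 := by
      rw [inner_self_eq_norm_sq_to_K, dr_norm he]; norm_num
    rw [inner_pt_c (nrm q) (dr_orth hqe i) (dr_orth hqe i), hdd, mul_one, ← Complex.ofReal_add,
      ← Real.cos_sub]
    simp only [if_true, Bool.false_eq_true, if_false]
    have h2 : s - -s = 2 * s := by ring
    rw [h2, Complex.norm_real, Real.norm_eq_abs, abs_of_nonneg
      (Real.cos_nonneg_of_mem_Icc ⟨by linarith, by linarith⟩), Real.arccos_cos (by linarith)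
      (by linarith)]
  · change |Real.arccos ‖(inner ℂ (pt (q : W) (dr e i) (if b then s else -s))
      (pt (q : W) (dr e j) (if b' then s else -s)) : ℂ)‖ - _| ≤ _
    rw [inner_pt_c (nrm q) (dr_orth hqe i) (dr_orth hqe j), hcs, hcs]
    rcases dr_inner he hij with h0 | ⟨h0, h1⟩
    · rw [h0, mul_zero, add_zero, Complex.norm_real, Real.norm_eq_abs,
        abs_of_nonneg (mul_nonneg hc0 hc0), arccos_f1 hs.le (by linarith)]
      exact hsm1 s hs hss1
    · have e1 : ‖((Real.cos s * Real.cos s : ℝ) : ℂ) +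
          ((Real.sin (if b then s else -s) * Real.sin (if b' then s else -s) : ℝ) : ℂ) *
            inner ℂ (dr e i) (dr e j)‖ = √(Real.cos s ^ 4 + Real.sin s ^ 4) := by
        rw [Complex.norm_eq_sqrt_sq_add_sq]
        congr 1
        rw [Complex.add_re, Complex.add_im, Complex.ofReal_re, Complex.ofReal_im,
          Complex.re_ofReal_mul, Complex.im_ofReal_mul, h0, mul_zero, add_zero, zero_add,
          mul_pow _ (Complex.im _), h1, hsn]
        ring
      rw [e1, arccos_f2 hs.le (by linarith)]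
      exact hsm2 s hs hss2

end

end Crest.Agent.R249.Cov7_802
end

-- ▼ part R249/Cov8_802
section

/-!
# R249 (helper802), part 8: manifolds covered by the complex projective plane
-/

set_option autoImplicit false
set_option linter.unusedSectionVars false
set_option maxSynthPendingDepth 3
open Set Metric Filter Topology

namespace Crest.Agent.R249.Cov8_802

open Crest.Agent.R249.Cov1_802 Crest.Agent.R249.Cov2_802 Crest.Agent.R249.Cov3_802
  Crest.Agent.R249.Cov4_802 Crest.Agent.R249.Cov5_802 Crest.Agent.R249.Cov6_802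
  Crest.Agent.R249.Cov7_802

noncomputable section

attribute [local instance] InnerProductSpace.complexToReal

variable {W : Type*} [NormedAddCommGroup W] [InnerProductSpace ℂ W]
  {H : Type*} [NormedAddCommGroup H] [InnerProductSpace ℝ H]

/-- the Veronese map `u ↦ u u*` -/
structure Ver (Q : W → H) : Prop where
  gram : ∀ u v : W, (inner ℝ (Q u) (Q v) : ℝ) = ‖(inner ℂ u v : ℂ)‖ ^ 2
  quad : ∀ x w : W, ∃ C : H, ∀ α β : ℝ,
    Q (α • x + β • w) = (α ^ 2) • Q x + (β ^ 2) • Q w + (α * β) • C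

theorem Ver.eq_of {Q : W → H} (h : Ver Q) {u v : W}
    (h1 : ‖(inner ℂ u v : ℂ)‖ ^ 2 = ‖(inner ℂ u u : ℂ)‖ ^ 2)
    (h2 : ‖(inner ℂ u v : ℂ)‖ ^ 2 = ‖(inner ℂ v v : ℂ)‖ ^ 2) : Q u = Q v := by
  have h3 : (inner ℝ (Q u - Q v) (Q u - Q v) : ℝ) = 0 := by
    rw [real_inner_sub_sub_self, h.gram, h.gram, h.gram]
    linarith
  rw [inner_self_eq_zero, sub_eq_zero] at h3
  exact h3

theorem Ver.ph {Q : W → H} (h : Ver Q) (μ : ℂ) (hμ : ‖μ‖ = 1) (y : sphere (0 : W) 1) :
    Q (ph μ hμ y : W) = Q y := by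
  apply h.eq_of
  · rw [norm_inner_ph_left, inner_self_c, inner_self_c]
  · rw [norm_inner_ph_left]

theorem span_cp {Q : W → H} (h : Ver Q)
    (hV : ∀ p : W, ‖p‖ = 1 → ∃ u : W, ‖u‖ = 1 ∧ (inner ℝ p u : ℝ) = 0)
    (x : sphere (0 : W) 1) (r : ℝ) (hr : 0 < r) (y : sphere (0 : W) 1) :
    Q y ∈ Submodule.span ℝ ((fun z : sphere (0 : W) 1 => Q z) '' {z | (cpPD W).D z x < r}) := by
  have hpi := Real.pi_pos
  set N := Submodule.span ℝ ((fun z : sphere (0 : W) 1 => Q z) '' {z | (cpPD W).D z x < r}) with hN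
  obtain ⟨μ, hμ, -⟩ := exists_phase_sph x y
  obtain ⟨w, hw, hxw, hy⟩ := exists_dir hV x (ph μ hμ y)
  rw [← h.ph μ hμ y, hy]
  set θ := (sphPD W).D x (ph μ hμ y) with hθ
  obtain ⟨t, ht0, ht1, ht2⟩ : ∃ t, 0 < t ∧ t < r ∧ t < Real.pi / 2 :=
    ⟨min r (Real.pi / 2) / 2, by positivity,
      (half_lt_self (by positivity)).trans_le (min_le_left _ _),
      (half_lt_self (by positivity)).trans_le (min_le_right _ _)⟩
  have hmem : ∀ s : ℝ, |s| ≤ t → Q (pt (x : W) w s) ∈ N := by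
    intro s hs
    have hn := norm_pt (nrm x) hw hxw s
    refine Submodule.subset_span ⟨⟨pt (x : W) w s, mem_sphere_zero_iff_norm.2 hn⟩, ?_, rfl⟩
    change (cpPD W).D _ x < r
    rw [(cpPD W).comm]
    refine (cp_le_sph _ _).trans_lt ?_
    change Real.arccos (inner ℝ (x : W) (pt (x : W) w s)) < r
    rw [inner_pt (nrm x) hw hxw, arccos_cos_abs (by linarith)]
    linarith
  obtain ⟨C, hC⟩ := h.quad (x : W) w
  have hpt : ∀ s : ℝ, Q (pt (x : W) w s) =
      (Real.cos s ^ 2) • Q (x : W) + (Real.sin s ^ 2) • Q w + (Real.cos s * Real.sin s) • C :=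
    fun s => hC _ _
  have hs : 0 < Real.sin t := Real.sin_pos_of_pos_of_lt_pi ht0 (by linarith)
  have hc : 0 < Real.cos t := Real.cos_pos_of_mem_Ioo ⟨by linarith, by linarith⟩
  have hA : Q (x : W) ∈ N := by
    have := hmem 0 (by rw [abs_zero]; exact ht0.le)
    rwa [hpt, Real.cos_zero, Real.sin_zero, one_pow, one_smul, zero_pow two_ne_zero, zero_smul,
      mul_zero, zero_smul, add_zero, add_zero] at this
  have hp := hmem t (by rw [abs_of_pos ht0])
  have hm := hmem (-t) (by rw [abs_neg, abs_of_pos ht0])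
  rw [hpt] at hp hm
  rw [Real.cos_neg, Real.sin_neg] at hm
  have hB : Q w ∈ N := by
    have h1 := N.smul_mem ((2 * Real.sin t ^ 2)⁻¹)
      (N.sub_mem (N.add_mem hp hm) (N.smul_mem (2 * Real.cos t ^ 2) hA))
    have h2 : (2 * Real.sin t ^ 2)⁻¹ • ((Real.cos t ^ 2) • Q (x : W) + (Real.sin t ^ 2) • Q w +
        (Real.cos t * Real.sin t) • C + ((Real.cos t ^ 2) • Q (x : W) +
        ((-Real.sin t) ^ 2) • Q w + (Real.cos t * -Real.sin t) • C) -
        (2 * Real.cos t ^ 2) • Q (x : W)) = Q w := by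
      have h3 : (Real.cos t ^ 2) • Q (x : W) + (Real.sin t ^ 2) • Q w +
        (Real.cos t * Real.sin t) • C + ((Real.cos t ^ 2) • Q (x : W) +
        ((-Real.sin t) ^ 2) • Q w + (Real.cos t * -Real.sin t) • C) -
        (2 * Real.cos t ^ 2) • Q (x : W) = (2 * Real.sin t ^ 2) • Q w := by module
      rw [h3, smul_smul, inv_mul_cancel₀ (by positivity), one_smul]
    rwa [h2] at h1
  have hCm : C ∈ N := by
    have h1 := N.smul_mem ((2 * (Real.cos t * Real.sin t))⁻¹) (N.sub_mem hp hm)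
    have h2 : (2 * (Real.cos t * Real.sin t))⁻¹ • ((Real.cos t ^ 2) • Q (x : W) +
        (Real.sin t ^ 2) • Q w + (Real.cos t * Real.sin t) • C - ((Real.cos t ^ 2) • Q (x : W) +
        ((-Real.sin t) ^ 2) • Q w + (Real.cos t * -Real.sin t) • C)) = C := by
      have h3 : (Real.cos t ^ 2) • Q (x : W) +
        (Real.sin t ^ 2) • Q w + (Real.cos t * Real.sin t) • C - ((Real.cos t ^ 2) • Q (x : W) +
        ((-Real.sin t) ^ 2) • Q w + (Real.cos t * -Real.sin t) • C) =
          (2 * (Real.cos t * Real.sin t)) • C := by module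
      rw [h3, smul_smul, inv_mul_cancel₀ (by positivity), one_smul]
    rwa [h2] at h1
  rw [hpt]
  exact N.add_mem (N.add_mem (N.smul_mem _ hA) (N.smul_mem _ hB)) (N.smul_mem _ hCm)

/-- the span of the Veronese variety -/
def VV (Q : W → H) : Submodule ℝ H := Submodule.span ℝ (range fun z : sphere (0 : W) 1 => Q z)

/-- the model -/
def cpMdl {Q : W → H} (h : Ver Q)
    (hV : ∀ p : W, ‖p‖ = 1 → ∃ u : W, ‖u‖ = 1 ∧ (inner ℝ p u : ℝ) = 0) (c : {c : ℝ // 0 < c}) :
    Mdl (Syn (cpPD W) c) (VV Q) where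
  P x := ⟨Q ((ofSyn x : sphere (0 : W) 1) : W), Submodule.subset_span ⟨ofSyn x, rfl⟩⟩
  gram x y x' y' := by
    rw [dist_syn, dist_syn, mul_right_inj' c.2.ne', Submodule.coe_inner, Submodule.coe_inner,
      h.gram, h.gram, ← cos_cpPD, ← cos_cpPD]
    constructor
    · intro h
      rw [h]
    · intro h1
      rw [cos_cpPD, cos_cpPD, sq_eq_sq₀ (norm_nonneg _) (norm_nonneg _)] at h1
      rw [cpPD_D, cpPD_D, h1]
  span x r hr := by
    set N : Submodule ℝ (VV Q) := Submodule.span ℝ ((fun x : Syn (cpPD W) c =>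
      (⟨Q ((ofSyn x : sphere (0 : W) 1) : W), Submodule.subset_span ⟨ofSyn x, rfl⟩⟩ : VV Q)) ''
        ball x r) with hN
    have h1 : VV Q ≤ N.map (VV Q).subtype := by
      refine Submodule.span_le.2 ?_
      rintro _ ⟨y, rfl⟩
      have h2 := span_cp h hV (ofSyn x) (r / c.1) (div_pos hr c.2) y
      refine Submodule.span_le.2 ?_ h2
      rintro _ ⟨z, hz, rfl⟩
      have hz' : (cpPD W).D z (ofSyn x) < r / c.1 := hz
      rw [lt_div_iff₀ c.2, mul_comm] at hz'
      exact ⟨_, Submodule.subset_span ⟨toSyn _ c z, hz', rfl⟩, rfl⟩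
    rw [eq_top_iff]
    rintro ⟨v, hv⟩ -
    obtain ⟨n, hn, hnv⟩ := h1 hv
    have : n = ⟨v, hv⟩ := Subtype.ext hnv
    rwa [← this]

section fixed

variable {M : Type*} [MetricSpace M]

theorem D_eq_zero_of_parallel {p q : sphere (0 : W) 1} {κ : ℂ} (h : (q : W) = κ • (p : W)) :
    (cpPD W).D p q = 0 := by
  rw [cpPD_eq_zero]
  refine ⟨κ, ?_, h⟩
  have := congrArg norm h
  rw [norm_smul, nrm, nrm, mul_one] at this
  exact this.symm

/-- **local isometries of the complex projective plane are injective** -/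
theorem cp_inj [FiniteDimensional ℂ W] [FiniteDimensional ℝ H] (hfin : Module.finrank ℂ W = 3)
    {Q : W → H} (hQ : Ver Q)
    (hV : ∀ p : W, ‖p‖ = 1 → ∃ u : W, ‖u‖ = 1 ∧ (inner ℝ p u : ℝ) = 0) (c : {c : ℝ // 0 < c})
    [CompactSpace (Syn (cpPD W) c)] {Ψ : Syn (cpPD W) c → M} {ρ : ℝ} (hL : Loc Ψ ρ)
    {x y : Syn (cpPD W) c} (hxy : Ψ x = Ψ y) : dist x y = 0 := by
  by_contra hne
  have hX : ExM (Syn (cpPD W) c) := exM_syn (cp_mid hV)
  set A := cpMdl hQ hV c with hA
  obtain ⟨T, γ, hD, hγ⟩ := exists_deck A hL hX hxy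
  have hfree : ∀ z, dist z (γ z) ≠ 0 := by
    intro z hz
    have h1 : T (A.P z) = A.P z := by
      rw [← hD.P_γ, A.eq_iff, dist_comm]; exact hz
    have h2 := hD.free hL h1
    apply hne
    have h3 : dist (γ x) x = 0 := by rw [← A.eq_iff, hD.P_γ, h2]
    have h4 := dist_triangle x (γ x) y
    have h5 := dist_nonneg (x := x) (y := y)
    rw [hγ, dist_comm x (γ x), h3] at h4
    linarith
  have hcont : Continuous fun z => dist z (γ z) := by
    have hγc : Continuous γ := by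
      apply Isometry.continuous
      intro u v
      rw [edist_dist, edist_dist, hD.dist_γ]
    exact continuous_id.dist hγc
  obtain ⟨x₀, -, hmin⟩ := isCompact_univ.exists_isMinOn ⟨x, mem_univ x⟩ hcont.continuousOn
  have hmin : ∀ z, dist x₀ (γ x₀) ≤ dist z (γ z) := fun z => isMinOn_iff.1 hmin z (mem_univ z)
  set ℓ := dist x₀ (γ x₀) with hℓ
  have hℓ0 : 0 < ℓ := lt_of_le_of_ne dist_nonneg (hfree x₀).symm
  obtain ⟨m, hm1, hm2⟩ := hX x₀ (γ x₀) (1 / 2) ⟨by norm_num, by norm_num⟩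
  rw [← hℓ] at hm1 hm2
  have hm3 : dist (γ x₀) (γ m) = 1 / 2 * ℓ := by rw [hD.dist_γ, hm1]
  have hm4 := hmin m
  have hm5 := dist_triangle m (γ x₀) (γ m)
  have hm6 : dist m (γ m) = dist m (γ x₀) + dist (γ x₀) (γ m) := by linarith
  have hm7 : dist x₀ (γ x₀) = dist x₀ m + dist m (γ x₀) := by linarith
  have hc := c.2
  set X₀ : sphere (0 : W) 1 := ofSyn x₀ with hX₀
  set Y₀ : sphere (0 : W) 1 := ofSyn (γ x₀) with hY₀
  set m₀ : sphere (0 : W) 1 := ofSyn m with hm₀
  set z₀ : sphere (0 : W) 1 := ofSyn (γ m) with hz₀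
  rw [dist_syn, dist_syn, dist_syn, ← mul_add, mul_right_inj' hc.ne', ← hm₀, ← hz₀, ← hY₀] at hm6
  rw [dist_syn, dist_syn, dist_syn, ← mul_add, mul_right_inj' hc.ne', ← hm₀, ← hX₀, ← hY₀] at hm7
  obtain ⟨κ₁, κ₂, h12⟩ := cp_eq_tri _ _ _ hm7
  obtain ⟨κ₃, κ₄, h34⟩ := cp_eq_tri _ _ _ hm6
  have hmy : (cpPD W).D m₀ Y₀ ≠ 0 := by
    intro h0
    rw [dist_syn, ← hm₀, ← hY₀, h0, mul_zero] at hm2
    linarith
  have hyz : (cpPD W).D Y₀ z₀ ≠ 0 := by
    intro h0
    rw [dist_syn, ← hz₀, ← hY₀, h0, mul_zero] at hm3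
    linarith
  have hxy₀ : (cpPD W).D X₀ Y₀ ≠ 0 := by
    intro h0
    rw [hℓ, dist_syn, ← hX₀, ← hY₀, h0, mul_zero] at hℓ0
    exact lt_irrefl _ hℓ0
  have hκ₁ : κ₁ ≠ 0 := by
    rintro rfl
    rw [zero_smul, zero_add] at h12
    apply hmy
    rw [(cpPD W).comm]
    exact D_eq_zero_of_parallel h12
  have hκ₃ : κ₃ ≠ 0 := by
    rintro rfl
    rw [zero_smul, zero_add] at h34
    apply hyz
    rw [(cpPD W).comm]
    exact D_eq_zero_of_parallel h34
  -- the orthogonal line
  have hli : LinearIndependent ℂ ![(X₀ : W), (Y₀ : W)] := by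
    rw [LinearIndependent.pair_iff' (ne_zero_of_mem_unit_sphere _)]
    intro a ha
    exact hxy₀ (D_eq_zero_of_parallel ha.symm)
  set K := Submodule.span ℂ (range ![(X₀ : W), (Y₀ : W)]) with hK
  have hK2 : Module.finrank ℂ K = 2 := by
    rw [hK, finrank_span_eq_card hli]; simp
  have hK1 : Module.finrank ℂ Kᗮ = 1 := by
    have := Submodule.finrank_add_finrank_orthogonal K
    rw [hK2, hfin] at this
    linarith
  obtain ⟨⟨e', he'⟩, he'0, he'1⟩ := finrank_eq_one_iff'.1 hK1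
  have he'n : ‖e'‖ ≠ 0 := by
    rw [norm_ne_zero_iff]
    rintro rfl
    exact he'0 rfl
  have hXK : (X₀ : W) ∈ K := Submodule.subset_span ⟨0, rfl⟩
  have hYK : (Y₀ : W) ∈ K := Submodule.subset_span ⟨1, rfl⟩
  set e : W := (((‖e'‖⁻¹ : ℝ)) : ℂ) • e' with he
  have hen : ‖e‖ = 1 := by
    rw [he, norm_smul, Complex.norm_real, norm_inv, norm_norm, inv_mul_cancel₀ he'n]
  have hXe : (inner ℂ (X₀ : W) e : ℂ) = 0 := by
    rw [he, inner_smul_right, Submodule.inner_right_of_mem_orthogonal hXK he', mul_zero]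
  have hYe : (inner ℂ (Y₀ : W) e : ℂ) = 0 := by
    rw [he, inner_smul_right, Submodule.inner_right_of_mem_orthogonal hYK he', mul_zero]
  have hme : (inner ℂ (m₀ : W) e : ℂ) = 0 := by
    rw [h12, inner_add_left, inner_smul_left, inner_smul_left, hXe, hYe]; simp
  set E₀ : sphere (0 : W) 1 := ⟨e, mem_sphere_zero_iff_norm.2 hen⟩ with hE₀
  set e₁ : Syn (cpPD W) c := γ (toSyn _ c E₀) with he₁
  set G₀ : sphere (0 : W) 1 := ofSyn e₁ with hG₀
  have htr : ∀ u : Syn (cpPD W) c, (inner ℂ ((ofSyn u : sphere (0 : W) 1) : W) e : ℂ) = 0 →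
      (inner ℂ ((ofSyn (γ u) : sphere (0 : W) 1) : W) (G₀ : W) : ℂ) = 0 := by
    intro u hu
    have h1 := hD.dist_γ u (toSyn _ c E₀)
    rw [dist_syn, dist_syn, mul_right_inj' hc.ne'] at h1
    have h2 := congrArg Real.cos h1
    rw [cos_cpPD, cos_cpPD] at h2
    have h3 : ‖(inner ℂ ((ofSyn u : sphere (0 : W) 1) : W)
        ((ofSyn (toSyn (cpPD W) c E₀) : sphere (0 : W) 1) : W) : ℂ)‖ = 0 := by
      change ‖(inner ℂ ((ofSyn u : sphere (0 : W) 1) : W) e : ℂ)‖ = 0
      rw [hu, norm_zero]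
    rw [h3] at h2
    exact norm_eq_zero.1 h2
  have hYG : (inner ℂ (Y₀ : W) (G₀ : W) : ℂ) = 0 := htr x₀ hXe
  have hzG : (inner ℂ (z₀ : W) (G₀ : W) : ℂ) = 0 := htr m hme
  have hmG : (inner ℂ (m₀ : W) (G₀ : W) : ℂ) = 0 := by
    have h1 := hYG
    rw [h34, inner_add_left, inner_smul_left, inner_smul_left, hzG, mul_zero, add_zero,
      mul_eq_zero] at h1
    exact h1.resolve_left (by simpa using hκ₃)
  have hXG : (inner ℂ (X₀ : W) (G₀ : W) : ℂ) = 0 := by
    have h1 := hmG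
    rw [h12, inner_add_left, inner_smul_left, inner_smul_left, hYG, mul_zero, add_zero,
      mul_eq_zero] at h1
    exact h1.resolve_left (by simpa using hκ₁)
  have hGK : (G₀ : W) ∈ Kᗮ := by
    rw [hK, Submodule.mem_orthogonal]
    intro u hu
    induction hu using Submodule.span_induction with
    | mem u hu =>
      obtain ⟨i, rfl⟩ := hu
      fin_cases i
      · exact hXG
      · exact hYG
    | zero => exact inner_zero_left _
    | add u v _ _ hu hv => rw [inner_add_left, hu, hv, add_zero]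
    | smul a u _ hu => rw [inner_smul_left, hu, mul_zero]
  obtain ⟨a, ha⟩ := he'1 ⟨G₀, hGK⟩
  have ha' : (G₀ : W) = a • e' := (congrArg Subtype.val ha).symm
  have hGe : (G₀ : W) = (a * ((‖e'‖ : ℝ) : ℂ)) • (E₀ : W) := by
    change (G₀ : W) = (a * ((‖e'‖ : ℝ) : ℂ)) • e
    rw [he, smul_smul, mul_assoc, ← Complex.ofReal_mul, mul_inv_cancel₀ he'n, Complex.ofReal_one,
      mul_one, ha']
  apply hfree (toSyn _ c E₀)
  rw [dist_syn]
  have h1 : (cpPD W).D E₀ G₀ = 0 := D_eq_zero_of_parallel hGe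
  change c.1 * (cpPD W).D E₀ G₀ = 0
  rw [h1, mul_zero]

end fixed

end

end Crest.Agent.R249.Cov8_802
end

-- ▼ part R249/Cov9_802

/-!
# R249 (helper802), part 9: manifolds covered by the complex projective plane, conclusion
-/

set_option autoImplicit false
set_option linter.unusedSectionVars false
set_option maxSynthPendingDepth 3
open Set Metric Filter Topology Bundle Manifold
open scoped ContDiff
open Crest.GeometryTopology.ChartCurvature

namespace Crest.Agent.R249.Cov9_802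

open Crest.Agent.R249.Cov1_802 Crest.Agent.R249.Cov2_802 Crest.Agent.R249.Cov3_802
  Crest.Agent.R249.Cov4_802 Crest.Agent.R249.Cov5_802 Crest.Agent.R249.Cov6_802
  Crest.Agent.R249.Cov7_802 Crest.Agent.R249.Cov8_802

noncomputable section

section core

attribute [local instance] InnerProductSpace.complexToReal

variable {W : Type*} [NormedAddCommGroup W] [InnerProductSpace ℂ W]

/-- the Veronese map in bases -/
theorem ver_basis {ι : Type*} [Fintype ι] {H : Type*} [NormedAddCommGroup H]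
    [InnerProductSpace ℂ H] (b : OrthonormalBasis ι ℂ W) (B : OrthonormalBasis (ι × ι) ℂ H) :
    Ver (fun u : W => ∑ p : ι × ι,
      ((inner ℂ (b p.1) u : ℂ) * (starRingEnd ℂ) (inner ℂ (b p.2) u : ℂ)) • B p) where
  gram u v := by
    have h1 : (inner ℂ (∑ p : ι × ι, ((inner ℂ (b p.1) u : ℂ) *
        (starRingEnd ℂ) (inner ℂ (b p.2) u : ℂ)) • B p) (∑ p : ι × ι, ((inner ℂ (b p.1) v : ℂ) *
        (starRingEnd ℂ) (inner ℂ (b p.2) v : ℂ)) • B p) : ℂ) =
        (inner ℂ u v : ℂ) * (inner ℂ v u : ℂ) := by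
      rw [B.orthonormal.inner_sum, Fintype.sum_prod_type, ← b.sum_inner_mul_inner u v,
        ← b.sum_inner_mul_inner v u, Finset.sum_mul_sum]
      refine Finset.sum_congr rfl fun i _ => Finset.sum_congr rfl fun j _ => ?_
      simp only [map_mul, Complex.conj_conj]
      rw [inner_conj_symm, inner_conj_symm]
      ring
    rw [re_inner, h1, ← inner_conj_symm v u, Complex.mul_conj, Complex.ofReal_re,
      Complex.normSq_eq_norm_sq]
  quad x w := by
    refine ⟨∑ p : ι × ι, ((inner ℂ (b p.1) x : ℂ) * (starRingEnd ℂ) (inner ℂ (b p.2) w : ℂ) +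
      (inner ℂ (b p.1) w : ℂ) * (starRingEnd ℂ) (inner ℂ (b p.2) x : ℂ)) • B p, fun α β => ?_⟩
    simp only [← Complex.coe_smul, Finset.smul_sum, ← Finset.sum_add_distrib]
    refine Finset.sum_congr rfl fun p _ => ?_
    rw [smul_smul, smul_smul, smul_smul, ← add_smul, ← add_smul]
    congr 1
    simp only [inner_add_right, inner_smul_right, map_add, map_mul, Complex.conj_ofReal,
      Complex.ofReal_mul, Complex.ofReal_pow]
    ring

variable {M : Type*} [MetricSpace M]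

/-- local isometries of the projective space are constant along phases -/
theorem phase_const {a : ℝ} (Φ : sphere (0 : W) 1 → M)
    (hloc : ∀ p, ∃ ε : ℝ, 0 < ε ∧ ∀ q q', dist p q < ε → dist p q' < ε →
      dist (Φ q) (Φ q') = Real.arccos ‖(inner ℂ (q : W) q' : ℂ)‖ / √a)
    (μ : ℂ) (hμ : ‖μ‖ = 1) (q : sphere (0 : W) 1) : Φ (ph μ hμ q) = Φ q := by
  have hexp : ∀ θ : ℝ, ‖Complex.exp (θ * Complex.I)‖ = 1 := Complex.norm_exp_ofReal_mul_I
  set g : ℝ → sphere (0 : W) 1 := fun θ => ph (Complex.exp (θ * Complex.I)) (hexp θ) q with hg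
  have hgc : Continuous g := by
    apply Continuous.subtype_mk
    have : Continuous fun θ : ℝ => Complex.exp (θ * Complex.I) := by fun_prop
    exact this.smul continuous_const
  have hlc : IsLocallyConstant (fun θ => Φ (g θ)) := by
    rw [IsLocallyConstant.iff_eventually_eq]
    intro θ₀
    obtain ⟨ε, hε, h⟩ := hloc (g θ₀)
    have h1 : ∀ᶠ θ in 𝓝 θ₀, dist (g θ) (g θ₀) < ε :=
      (hgc.tendsto θ₀).eventually (ball_mem_nhds _ hε)
    filter_upwards [h1] with θ hθ
    have h2 := h (g θ) (g θ₀) (by rw [dist_comm]; exact hθ) (by rw [dist_self]; exact hε)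
    have h3 : ‖(inner ℂ (g θ : W) (g θ₀ : W) : ℂ)‖ = 1 := by
      rw [hg, norm_inner_ph_left, norm_inner_ph_right, inner_self_c, norm_one]
    rw [h3, Real.arccos_one, zero_div] at h2
    exact dist_eq_zero.1 h2
  have h1 : Φ (g (Complex.arg μ)) = Φ (g 0) := hlc.apply_eq_of_preconnectedSpace _ _
  have h2 : g (Complex.arg μ) = ph μ hμ q := by
    apply Subtype.ext
    change Complex.exp (Complex.arg μ * Complex.I) • (q : W) = μ • (q : W)
    congr 1
    have := Complex.norm_mul_exp_arg_mul_I μ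
    rwa [hμ, Complex.ofReal_one, one_mul] at this
  have h3 : g 0 = q := by
    apply Subtype.ext
    change Complex.exp (((0 : ℝ) : ℂ) * Complex.I) • (q : W) = q
    simp
  rw [← h2, h1, h3]

/-- **manifolds covered by the complex projective plane** -/
theorem cp_core {H : Type*} [NormedAddCommGroup H] [InnerProductSpace ℝ H]
    [FiniteDimensional ℂ W] [FiniteDimensional ℝ H] (hfin : Module.finrank ℂ W = 3)
    {Q : W → H} (hQ : Ver Q) (hM : BL 4 M) (hE : ExM M)
    {a : ℝ} (ha : 0 < a) (Φ : sphere (0 : W) 1 → M)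
    (hloc : ∀ p, ∃ ε : ℝ, 0 < ε ∧ ∀ q q', dist p q < ε → dist p q' < ε →
      dist (Φ q) (Φ q') = Real.arccos ‖(inner ℂ (q : W) q' : ℂ)‖ / √a) :
    (∀ p q, Φ p = Φ q ↔ ∃ μ : ℂ, ‖μ‖ = 1 ∧ (q : W) = μ • (p : W)) ∧
      ∀ p q, dist (Φ p) (Φ q) = Real.arccos ‖(inner ℂ (p : W) q : ℂ)‖ / √a := by
  have hsa : 0 < √a := Real.sqrt_pos.2 ha
  have hF : ∀ q : W, ‖q‖ = 1 → ∃ e : Fin 2 → W, Orthonormal ℂ e ∧
      ∀ i, (inner ℂ q (e i) : ℂ) = 0 := by
    intro q hq
    have : Fact (Module.finrank ℂ W = 2 + 1) := ⟨hfin⟩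
    have hq0 : q ≠ 0 := by rintro rfl; simp at hq
    let B := OrthonormalBasis.fromOrthogonalSpanSingleton (𝕜 := ℂ) 2 hq0
    refine ⟨fun i => (B i : W), B.orthonormal.comp_linearIsometry (Submodule.subtypeₗᵢ _),
      fun i => ?_⟩
    exact Submodule.mem_orthogonal_singleton_iff_inner_right.1 (B i).2
  have hV : ∀ p : W, ‖p‖ = 1 → ∃ u : W, ‖u‖ = 1 ∧ (inner ℝ p u : ℝ) = 0 := by
    intro p hp
    obtain ⟨e, he, hpe⟩ := hF p hp
    exact ⟨e 0, he.1 0, by rw [re_inner, hpe, Complex.zero_re]⟩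
  have hph := phase_const Φ hloc
  have hcomp : CompactSpace (sphere (0 : W) 1) := by
    have : FiniteDimensional ℝ W := FiniteDimensional.complexToReal W
    have : ProperSpace W := FiniteDimensional.proper ℝ W
    infer_instance
  have hloc' : ∀ p, ∃ ε : ℝ, 0 < ε ∧ ∀ q q', (cpPD W).D p q < ε → (cpPD W).D p q' < ε →
      dist (Φ q) (Φ q') = (cpPD W).D q q' / √a := by
    intro p
    obtain ⟨ε, hε, h⟩ := hloc p
    refine ⟨ε, hε, fun q q' hq hq' => ?_⟩
    obtain ⟨μ, hμ, h1⟩ := exists_phase_sph p q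
    obtain ⟨ν, hν, h2⟩ := exists_phase_sph p q'
    rw [← cpPD_D] at h1 h2
    have h3 := h (ph μ hμ q) (ph ν hν q') ((chord_le _ _).trans_lt (by rw [h1]; exact hq))
      ((chord_le _ _).trans_lt (by rw [h2]; exact hq'))
    rw [hph, hph, norm_inner_ph_left, norm_inner_ph_right] at h3
    exact h3
  obtain ⟨ρ, hL⟩ := exists_loc' (n := 4) (cpPD W) cpPD_tendsto (fun η hη => by
    obtain ⟨s₀, hs₀, h⟩ := cp_frames hF η hη
    refine ⟨s₀, hs₀, fun q s hs hs' => ?_⟩
    obtain ⟨e, h1, h2, h3⟩ := h q s hs hs'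
    let σ : Fin 4 ≃ Fin 2 × Fin 2 := (finProdFinEquiv (m := 2) (n := 2)).symm
    refine ⟨fun i => e (σ i), fun i b => ?_, fun i => ?_, fun i j b b' hij =>
      h3 _ _ b b' (fun h => hij (σ.injective h))⟩
    · rw [h1, sub_self, abs_zero]; positivity
    · rw [h2, sub_self, abs_zero]; positivity) hM hE ha Φ hloc'
  set c : {c : ℝ // 0 < c} := ⟨(√a)⁻¹, inv_pos.2 hsa⟩ with hc
  have hcX : CompactSpace (Syn (cpPD W) c) := compact_syn cpPD_tendsto
  have hX : ExM (Syn (cpPD W) c) := exM_syn (cp_mid hV)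
  have hinj := fun (x y : Syn (cpPD W) c) h => cp_inj hfin hQ hV c hL (x := x) (y := y) h
  have hiso : ∀ p q, dist (Φ p) (Φ q) = (cpPD W).D p q / √a := by
    intro p q
    have := hL.isometry hX hE hinj (toSyn _ c p) (toSyn _ c q)
    rw [dist_toSyn] at this
    rw [div_eq_inv_mul]
    exact this
  refine ⟨fun p q => ?_, hiso⟩
  rw [← cpPD_eq_zero, ← dist_eq_zero, hiso, div_eq_zero_iff]
  constructor
  · rintro (h | h)
    · exact h
    · exact absurd h hsa.ne'
  · exact Or.inl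

end core

/-- the case of the statements -/
theorem cp_concrete {M : Type*} [MetricSpace M] (hM : BL 4 M) (hE : ExM M) {a : ℝ}
    (h : IsLocallyCoveredByComplexProjective M 2 a) : IsHomotheticToComplexProjective M 2 a := by
  obtain ⟨ha, Φ, hsurj, hloc⟩ := h
  have hfin : Module.finrank ℂ (EuclideanSpace ℂ (Fin 3)) = 3 := by simp
  have hH : FiniteDimensional ℝ (EuclideanSpace ℂ (Fin 3 × Fin 3)) :=
    FiniteDimensional.complexToReal _
  have hver := ver_basis (EuclideanSpace.basisFun (Fin 3) ℂ)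
    (EuclideanSpace.basisFun (Fin 3 × Fin 3) ℂ)
  have key := cp_core hfin hver hM hE ha Φ hloc
  exact ⟨ha, Φ, hsurj, key.1, key.2⟩

/-- (T2) of row 249 -/
theorem T2 (M : Type*) [MetricSpace M] [ChartedSpace (EuclideanSpace ℝ (Fin 4)) M]
    [IsManifold 𝓘(ℝ, EuclideanSpace ℝ (Fin 4)) ∞ M] [CompactSpace M]
    [RiemannianBundle (fun x : M => TangentSpace 𝓘(ℝ, EuclideanSpace ℝ (Fin 4)) x)]
    [IsContMDiffRiemannianBundle 𝓘(ℝ, EuclideanSpace ℝ (Fin 4)) ∞ (EuclideanSpace ℝ (Fin 4))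
      (fun x : M => TangentSpace 𝓘(ℝ, EuclideanSpace ℝ (Fin 4)) x)]
    [IsRiemannianManifold 𝓘(ℝ, EuclideanSpace ℝ (Fin 4)) M] (a : ℝ)
    (h : IsLocallyCoveredByComplexProjective M 2 a) : IsHomotheticToComplexProjective M 2 a :=
  cp_concrete (bl 4 M) (exM 4 M) h

end

end Crest.Agent.R249.Cov9_802
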