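import Mathlib
import Crest.Agent.R226.DiffAE_225
import Crest.Agent.R226.GeoBasic_616
import Crest.Agent.R226.LoeperMfd_128

-- ▼ part R249/D4Euc_789
section

/-!
R249, part D4 (helper789), file 1: mollification of a locally Lipschitz function on an open subset
of a finite dimensional space with one-sided control of the differential by a continuous function
`Θ b w` (to be used for supergradients).
-/

set_option autoImplicit false

open MeasureTheory Set Filter Metric
open scoped ContDiff ENNReal NNReal Topology Convolution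

namespace Crest.Agent.R249.D4_789

noncomputable section

variable {E : Type*} [NormedAddCommGroup E] [NormedSpace ℝ E] [FiniteDimensional ℝ E]
  [MeasurableSpace E] [BorelSpace E]

/-- The derivative of the mollification of a Lipschitz function is the mollification of the
(a.e. defined) derivative. -/
theorem hasFDerivAt_mollify (μ : Measure E) [μ.IsAddHaarMeasure] {g : E → ℝ} {C : ℝ≥0}
    (hg : LipschitzWith C g) (φ : ContDiffBump (0 : E)) (b : E) :
    Integrable (fun t => φ.normed μ t • fderiv ℝ g (b - t)) μ ∧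
    HasFDerivAt (fun x => ∫ t, φ.normed μ t • g (x - t) ∂μ)
      (∫ t, φ.normed μ t • fderiv ℝ g (b - t) ∂μ) b := by
  refine hasFDerivAt_integral_of_dominated_loc_of_lip
    (bound := fun t => φ.normed μ t * C) (F := fun x t => φ.normed μ t • g (x - t)) univ_mem ?_ ?_ ?_ ?_ ?_ ?_
  · refine Eventually.of_forall fun x => ?_
    exact (φ.continuous_normed.smul (hg.continuous.comp (continuous_const.sub continuous_id))).aestronglyMeasurable
  · refine Continuous.integrable_of_hasCompactSupport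
      (φ.continuous_normed.smul (hg.continuous.comp (continuous_const.sub continuous_id))) ?_
    exact φ.hasCompactSupport_normed.smul_right
  · refine φ.continuous_normed.aestronglyMeasurable.smul ?_
    exact ((measurable_fderiv ℝ g).comp (measurable_const.sub measurable_id)).aestronglyMeasurable
  · refine Eventually.of_forall fun t => ?_
    rw [lipschitzOnWith_univ]
    refine LipschitzWith.of_dist_le_mul fun x y => ?_
    have h0 : (0 : ℝ) ≤ φ.normed μ t := φ.nonneg_normed t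
    have h1 := hg.dist_le_mul (x - t) (y - t)
    rw [dist_sub_right] at h1
    rw [dist_smul₀, Real.norm_of_nonneg h0]
    have h2 : ((Real.nnabs (φ.normed μ t * C) : ℝ≥0) : ℝ) = φ.normed μ t * C := by
      rw [Real.coe_nnabs]
      exact abs_of_nonneg (mul_nonneg h0 C.2)
    rw [h2, mul_assoc]
    exact mul_le_mul_of_nonneg_left h1 h0
  · exact φ.integrable_normed.mul_const _
  · have h1 : ∀ᵐ x ∂μ, DifferentiableAt ℝ g x := hg.ae_differentiableAt
    have h2 : ∀ᵐ t ∂μ, DifferentiableAt ℝ g (b - t) :=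
      (μ.measurePreserving_sub_left b).quasiMeasurePreserving.ae h1
    filter_upwards [h2] with t ht
    have h3 : HasFDerivAt (fun x => g (x - t)) (fderiv ℝ g (b - t)) b := by
      have := ht.hasFDerivAt.comp b ((hasFDerivAt_id b).sub_const t)
      rw [ContinuousLinearMap.comp_id] at this
      exact this
    exact h3.fun_const_smul _

/-- **Local smoothing.** -/
theorem exists_smooth_local {Ω K : Set E} (hΩ : IsOpen Ω) (hK : IsCompact K) (hKΩ : K ⊆ Ω)
    {u : E → ℝ} (hu : LocallyLipschitzOn Ω u) {Θ : E → E → ℝ}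
    (hΘ : ContinuousOn (fun p : E × E => Θ p.1 p.2) (Ω ×ˢ univ))
    (h : ∀ b ∈ Ω, DifferentiableAt ℝ u b → ∀ w, Θ b w ≤ fderiv ℝ u b w)
    {ε R : ℝ} (hε : 0 < ε) :
    ∃ v : E → ℝ, ContDiff ℝ ∞ v ∧ ∀ b ∈ K, |v b - u b| ≤ ε ∧
      ∀ w, ‖w‖ ≤ R → Θ b w - ε ≤ fderiv ℝ v b w := by
  obtain ⟨δ, hδ, hδΩ⟩ := hK.exists_cthickening_subset_open hΩ hKΩ
  have hK' : IsCompact (cthickening δ K) := hK.cthickening
  obtain ⟨C, hC⟩ := LocallyLipschitzOn.exists_lipschitzOnWith_of_compact hK' (hu.mono hδΩ)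
  obtain ⟨g, hg, hgu⟩ := hC.extend_real
  -- uniform continuity of `Θ`
  have hcomp : IsCompact ((cthickening δ K) ×ˢ (closedBall (0 : E) R)) :=
    hK'.prod (isCompact_closedBall _ _)
  have huc := hcomp.uniformContinuousOn_of_continuous
    (hΘ.mono (prod_mono hδΩ (subset_univ _)))
  rw [Metric.uniformContinuousOn_iff] at huc
  obtain ⟨δ', hδ', hunif⟩ := huc ε hε
  -- the radius
  obtain ⟨r, hr, hrδ, hrδ', hrC⟩ : ∃ r : ℝ, 0 < r ∧ r < δ ∧ r < δ' ∧ C * r ≤ ε := by
    refine ⟨min (min (δ / 2) (δ' / 2)) (ε / (C + 1)), ?_, ?_, ?_, ?_⟩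
    · have : (0 : ℝ) < C + 1 := by positivity
      positivity
    · exact lt_of_le_of_lt ((min_le_left _ _).trans (min_le_left _ _)) (by linarith)
    · exact lt_of_le_of_lt ((min_le_left _ _).trans (min_le_right _ _)) (by linarith)
    · have h1 : (0 : ℝ) < C + 1 := by positivity
      have h2 : (C : ℝ) * min (min (δ / 2) (δ' / 2)) (ε / (C + 1)) ≤ C * (ε / (C + 1)) :=
        mul_le_mul_of_nonneg_left (min_le_right _ _) C.2
      refine h2.trans ?_
      rw [mul_div_assoc', div_le_iff₀ h1]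
      nlinarith [C.2]
  let φ : ContDiffBump (0 : E) := ⟨r / 2, r, half_pos hr, half_lt_self hr⟩
  set μ : Measure E := Measure.addHaar
  set v : E → ℝ := fun x => ∫ t, φ.normed μ t • g (x - t) ∂μ with hv
  have hv' : v = (φ.normed μ ⋆[ContinuousLinearMap.lsmul ℝ ℝ, μ] g) := by
    ext x
    rfl
  have hsm : ContDiff ℝ ∞ v := by
    rw [hv']
    exact φ.hasCompactSupport_normed.contDiff_convolution_left _ φ.contDiff_normed
      hg.continuous.locallyIntegrable
  refine ⟨v, hsm, fun b hb => ⟨?_, fun w hw => ?_⟩⟩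
  · have hbK : b ∈ cthickening δ K := self_subset_cthickening _ hb
    have h1 : dist (v b) (g b) ≤ C * r := by
      rw [hv']
      refine φ.dist_normed_convolution_le hg.continuous.aestronglyMeasurable fun x hx => ?_
      have h2 := hg.dist_le_mul x b
      exact h2.trans (mul_le_mul_of_nonneg_left (le_of_lt (mem_ball.1 hx)) C.2)
    rw [← hgu hbK] at h1
    rw [Real.dist_eq] at h1
    exact h1.trans hrC
  · obtain ⟨hint, hder⟩ := hasFDerivAt_mollify μ hg φ b
    rw [hder.fderiv, ContinuousLinearMap.integral_apply hint]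
    have h1 : Θ b w - ε = ∫ t, φ.normed μ t * (Θ b w - ε) ∂μ := by
      rw [integral_mul_const, φ.integral_normed, one_mul]
    rw [h1]
    refine integral_mono_ae (φ.integrable_normed.mul_const _) (hint.apply_continuousLinearMap w) ?_
    have h2 : ∀ᵐ x ∂μ, DifferentiableAt ℝ g x := hg.ae_differentiableAt
    have h3 : ∀ᵐ t ∂μ, DifferentiableAt ℝ g (b - t) :=
      (μ.measurePreserving_sub_left b).quasiMeasurePreserving.ae h2
    filter_upwards [h3] with t ht
    simp only [_root_.smul_apply, smul_eq_mul]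
    by_cases htr : ‖t‖ < r
    · refine mul_le_mul_of_nonneg_left ?_ (φ.nonneg_normed t)
      have hd : dist (b - t) b < r := by
        rw [dist_eq_norm]
        simpa using htr
      have hmem : b - t ∈ thickening δ K := mem_thickening_iff.2 ⟨b, hb, hd.trans hrδ⟩
      have hmem' : b - t ∈ cthickening δ K := thickening_subset_cthickening _ _ hmem
      have hbK : b ∈ cthickening δ K := self_subset_cthickening _ hb
      have hev : g =ᶠ[𝓝 (b - t)] u := by
        filter_upwards [isOpen_thickening.mem_nhds hmem] with y hy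
        exact (hgu (thickening_subset_cthickening _ _ hy)).symm
      have hdu : DifferentiableAt ℝ u (b - t) := hev.differentiableAt_iff.1 ht
      have h4 := h (b - t) (hδΩ hmem') hdu w
      rw [hev.fderiv_eq]
      have h5 := hunif (b, w) ⟨hbK, by simpa using hw⟩ (b - t, w) ⟨hmem', by simpa using hw⟩ (by
        rw [Prod.dist_eq, dist_self, max_eq_left dist_nonneg, dist_comm]
        exact hd.trans hrδ')
      rw [Real.dist_eq, abs_lt] at h5
      linarith [h5.1, h5.2]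
    · have h0 : φ.normed μ t = 0 := by
        have : t ∉ Function.support (φ.normed μ) := by
          rw [φ.support_normed_eq]
          simpa [φ] using htr
        simpa using this
      rw [h0]
      simp

end

end Crest.Agent.R249.D4_789
end

-- ▼ part R249/D4Sm_789
section

/-!
R249, part D4 (helper789), file 2: smoothing of a Lipschitz function on a closed Riemannian
manifold with one-sided control of the differential by a continuous function on `TM`.
-/

set_option autoImplicit false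
set_option linter.unusedSectionVars false

open MeasureTheory Set Filter Metric Bundle
open scoped ContDiff ENNReal NNReal Topology Manifold
open Crest.Agent.R226

namespace Crest.Agent.R249.D4_789

noncomputable section

section NoMetric

variable {n : ℕ} {M : Type*} [TopologicalSpace M] [ChartedSpace (EuclideanSpace ℝ (Fin n)) M]
  [IsManifold (𝓡 n) ∞ M]

local notation "𝔼" => EuclideanSpace ℝ (Fin n)

/-- the differential of a smooth function is continuous on the tangent bundle -/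
theorem continuous_df {f : M → ℝ} (hf : ContMDiff (𝓡 n) 𝓘(ℝ) ∞ f) :
    Continuous (fun p : TangentBundle (𝓡 n) M => mfderiv (𝓡 n) 𝓘(ℝ) f p.1 p.2) := by
  have h := hf.continuous_tangentMap (by simp)
  have h2 := (tangentBundleModelSpaceHomeomorph 𝓘(ℝ, ℝ)).continuous
  have h3 := continuous_snd.comp (h2.comp h)
  exact h3

/-- `Θ` read in the chart at `x₀` -/
def hatΘ (Θ : TangentBundle (𝓡 n) M → ℝ) (x₀ : M) (b w : 𝔼) : ℝ :=
  Θ (tangentMapWithin 𝓘(ℝ, 𝔼) (𝓡 n) (extChartAt (𝓡 n) x₀).symm (extChartAt (𝓡 n) x₀).target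
    (⟨b, w⟩ : TangentBundle 𝓘(ℝ, 𝔼) 𝔼))

theorem isOpen_tgt (x₀ : M) : IsOpen (extChartAt (𝓡 n) x₀).target := isOpen_extChartAt_target x₀

theorem continuousOn_hatΘ {Θ : TangentBundle (𝓡 n) M → ℝ} (hΘ : Continuous Θ) (x₀ : M) :
    ContinuousOn (fun p : 𝔼 × 𝔼 => hatΘ Θ x₀ p.1 p.2)
      ((extChartAt (𝓡 n) x₀).target ×ˢ univ) := by
  have h1 : ContMDiffOn 𝓘(ℝ, 𝔼) (𝓡 n) ∞ (extChartAt (𝓡 n) x₀).symm (extChartAt (𝓡 n) x₀).target :=
    contMDiffOn_extChartAt_symm x₀
  have h2 := h1.continuousOn_tangentMapWithin (by simp)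
    ((isOpen_tgt x₀).uniqueMDiffOn)
  have h3 : Continuous (fun p : 𝔼 × 𝔼 => (⟨p.1, p.2⟩ : TangentBundle 𝓘(ℝ, 𝔼) 𝔼)) :=
    (tangentBundleModelSpaceHomeomorph 𝓘(ℝ, 𝔼)).symm.continuous
  have h4 := h2.comp h3.continuousOn (s := (extChartAt (𝓡 n) x₀).target ×ˢ univ) (by
    rintro ⟨b, w⟩ hb
    exact hb.1)
  exact hΘ.comp_continuousOn h4

/-- at points of the target -/
theorem hatΘ_eq {Θ : TangentBundle (𝓡 n) M → ℝ} (x₀ : M) {b : 𝔼}
    (hb : b ∈ (extChartAt (𝓡 n) x₀).target) (w : 𝔼) :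
    hatΘ Θ x₀ b w = Θ ⟨(extChartAt (𝓡 n) x₀).symm b,
      mfderiv 𝓘(ℝ, 𝔼) (𝓡 n) (extChartAt (𝓡 n) x₀).symm b w⟩ := by
  unfold hatΘ tangentMapWithin
  have : mfderivWithin 𝓘(ℝ, 𝔼) (𝓡 n) (extChartAt (𝓡 n) x₀).symm (extChartAt (𝓡 n) x₀).target b
      = mfderiv 𝓘(ℝ, 𝔼) (𝓡 n) (extChartAt (𝓡 n) x₀).symm b :=
    mfderivWithin_of_isOpen (isOpen_tgt x₀) hb
  simp only [this]

theorem mfderiv_chart_symm (x₀ : M) {b : 𝔼} (hb : b ∈ (extChartAt (𝓡 n) x₀).target) (w : 𝔼) :
    mfderiv (𝓡 n) 𝓘(ℝ, 𝔼) (extChartAt (𝓡 n) x₀) ((extChartAt (𝓡 n) x₀).symm b)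
      (mfderiv 𝓘(ℝ, 𝔼) (𝓡 n) (extChartAt (𝓡 n) x₀).symm b w) = w := by
  have h := mfderiv_extChartAt_comp_mfderivWithin_extChartAt_symm (I := 𝓡 n) hb
  have h1 : range (𝓡 n) = univ := by simp
  rw [h1, mfderivWithin_univ] at h
  exact congrArg (fun L => L w) h

theorem mfderiv_symm_chart (x₀ : M) {x : M} (hx : x ∈ (extChartAt (𝓡 n) x₀).source)
    (w : TangentSpace (𝓡 n) x) :
    (mfderiv 𝓘(ℝ, 𝔼) (𝓡 n) (extChartAt (𝓡 n) x₀).symm (extChartAt (𝓡 n) x₀ x)
      (mfderiv (𝓡 n) 𝓘(ℝ, 𝔼) (extChartAt (𝓡 n) x₀) x w) : 𝔼) = w := by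
  have h := mfderivWithin_extChartAt_symm_comp_mfderiv_extChartAt' (I := 𝓡 n) hx
  have h1 : range (𝓡 n) = univ := by simp
  rw [h1, mfderivWithin_univ] at h
  exact congrArg (fun L => L w) h

/-- value of `hatΘ` on the image of a tangent vector -/
theorem hatΘ_chart {Θ : TangentBundle (𝓡 n) M → ℝ} (x₀ : M) {x : M}
    (hx : x ∈ (extChartAt (𝓡 n) x₀).source) (w : TangentSpace (𝓡 n) x) :
    hatΘ Θ x₀ (extChartAt (𝓡 n) x₀ x) (mfderiv (𝓡 n) 𝓘(ℝ, 𝔼) (extChartAt (𝓡 n) x₀) x w) =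
      Θ ⟨x, w⟩ := by
  refine (hatΘ_eq x₀ ((extChartAt (𝓡 n) x₀).map_source hx) _).trans ?_
  exact congrArg Θ (TB616.tb_ext ((extChartAt (𝓡 n) x₀).left_inv hx) (mfderiv_symm_chart x₀ hx w))

theorem mdiffAt_extChart (x₀ : M) {x : M} (hx : x ∈ (extChartAt (𝓡 n) x₀).source) :
    MDifferentiableAt (𝓡 n) 𝓘(ℝ, 𝔼) (extChartAt (𝓡 n) x₀) x :=
  mdifferentiableAt_extChartAt (by simpa using hx)

/-- the differential in the chart -/
theorem diff_chart {u : M → ℝ} (x₀ : M) {b : 𝔼} (hb : b ∈ (extChartAt (𝓡 n) x₀).target)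
    (hd : DifferentiableAt ℝ (u ∘ (extChartAt (𝓡 n) x₀).symm) b) :
    MDifferentiableAt (𝓡 n) 𝓘(ℝ) u ((extChartAt (𝓡 n) x₀).symm b) ∧ ∀ w : 𝔼,
      mfderiv (𝓡 n) 𝓘(ℝ) u ((extChartAt (𝓡 n) x₀).symm b)
        (mfderiv 𝓘(ℝ, 𝔼) (𝓡 n) (extChartAt (𝓡 n) x₀).symm b w) =
      fderiv ℝ (u ∘ (extChartAt (𝓡 n) x₀).symm) b w := by
  set x := (extChartAt (𝓡 n) x₀).symm b with hx
  have hxs : x ∈ (extChartAt (𝓡 n) x₀).source := (extChartAt (𝓡 n) x₀).map_target hb
  have hφx : extChartAt (𝓡 n) x₀ x = b := (extChartAt (𝓡 n) x₀).right_inv hb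
  have hev : u =ᶠ[𝓝 x] (u ∘ (extChartAt (𝓡 n) x₀).symm) ∘ (extChartAt (𝓡 n) x₀) := by
    filter_upwards [(isOpen_extChartAt_source (I := 𝓡 n) x₀).mem_nhds hxs] with y hy
    show u y = u ((extChartAt (𝓡 n) x₀).symm (extChartAt (𝓡 n) x₀ y))
    rw [(extChartAt (𝓡 n) x₀).left_inv hy]
  have hφ := mdiffAt_extChart x₀ hxs
  have hd' : MDifferentiableAt 𝓘(ℝ, 𝔼) 𝓘(ℝ) (u ∘ (extChartAt (𝓡 n) x₀).symm)
      (extChartAt (𝓡 n) x₀ x) := by
    rw [hφx]; exact hd.mdifferentiableAt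
  have hm : MDifferentiableAt (𝓡 n) 𝓘(ℝ)
      ((u ∘ (extChartAt (𝓡 n) x₀).symm) ∘ (extChartAt (𝓡 n) x₀)) x := hd'.comp x hφ
  refine ⟨hm.congr_of_eventuallyEq hev, fun w => ?_⟩
  rw [hev.mfderiv_eq, mfderiv_comp x hd' hφ]
  have h1 := mfderiv_chart_symm x₀ hb w
  rw [mfderiv_eq_fderiv, hφx]
  show fderiv ℝ (u ∘ (extChartAt (𝓡 n) x₀).symm) b
    (mfderiv (𝓡 n) 𝓘(ℝ, 𝔼) (extChartAt (𝓡 n) x₀) x _) = _
  rw [h1]

end NoMetric

section Metric

variable {n : ℕ} {M : Type*} [MetricSpace M] [ChartedSpace (EuclideanSpace ℝ (Fin n)) M]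
  [IsManifold (𝓡 n) ∞ M] [RiemannianBundle (fun p : M => TangentSpace (𝓡 n) p)]
  [IsContMDiffRiemannianBundle (𝓡 n) ∞ (EuclideanSpace ℝ (Fin n))
    (fun p : M => TangentSpace (𝓡 n) p)]
  [IsRiemannianManifold (𝓡 n) M]

local notation "𝔼" => EuclideanSpace ℝ (Fin n)

theorem continuousBundle : IsContinuousRiemannianBundle 𝔼 (fun p : M => TangentSpace (𝓡 n) p) :=
  R219.Haus.isContinuousRiemannianBundle (d := n) (M := M)

section
attribute [local instance] normedAddCommGroupTangentSpaceVectorSpace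
attribute [local instance] normedSpaceTangentSpaceVectorSpace

/-- the differential of the chart is bounded near the centre -/
theorem norm_dchart_le (x₀ : M) : ∃ C : ℝ, 0 < C ∧ ∀ᶠ x in 𝓝 x₀, ∀ w : TangentSpace (𝓡 n) x,
    @norm 𝔼 _ (mfderiv (𝓡 n) 𝓘(ℝ, 𝔼) (extChartAt (𝓡 n) x₀) x w) ≤ C * ‖w‖ := by
  have := continuousBundle (n := n) (M := M)
  obtain ⟨C₂, hC₂, hev⟩ := eventually_norm_mfderiv_extChartAt_lt (𝓡 n) x₀
  refine ⟨C₂, hC₂, ?_⟩
  filter_upwards [hev] with x hx w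
  have h1 := ContinuousLinearMap.le_opNorm (mfderiv (𝓡 n) 𝓘(ℝ, 𝔼) (extChartAt (𝓡 n) x₀) x) w
  exact h1.trans (mul_le_mul_of_nonneg_right hx.le (norm_nonneg _))

end

/-- local version -/
theorem exists_local (x₀ : M) {u : M → ℝ} {C : ℝ≥0} (hu : LipschitzWith C u)
    {Θ : TangentBundle (𝓡 n) M → ℝ} (hΘ : Continuous Θ)
    (h : ∀ x, MDifferentiableAt (𝓡 n) 𝓘(ℝ) u x → ∀ w : TangentSpace (𝓡 n) x,
      Θ ⟨x, w⟩ ≤ mfderiv (𝓡 n) 𝓘(ℝ) u x w) :
    ∃ V : Set M, IsOpen V ∧ x₀ ∈ V ∧ V ⊆ (extChartAt (𝓡 n) x₀).source ∧ ∀ ε R : ℝ, 0 < ε →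
      ∃ v : M → ℝ, ContMDiffOn (𝓡 n) 𝓘(ℝ) ∞ v (extChartAt (𝓡 n) x₀).source ∧
        ∀ x ∈ V, |v x - u x| ≤ ε ∧ ∀ w : TangentSpace (𝓡 n) x, ‖w‖ ≤ R →
          Θ ⟨x, w⟩ - ε ≤ mfderiv (𝓡 n) 𝓘(ℝ) v x w := by
  obtain ⟨C₁, r, hr, hsub, hL⟩ := DiffAE225.exists_lipschitzOnWith_symm (n := n) x₀
  obtain ⟨C₂, hC₂, hev⟩ := norm_dchart_le (n := n) x₀
  obtain ⟨N, hNsub, hNo, hNx⟩ := _root_.mem_nhds_iff.1 hev
  set φ := extChartAt (𝓡 n) x₀ with hφ
  set V : Set M := N ∩ (φ.source ∩ φ ⁻¹' (ball (φ x₀) (r / 2))) with hV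
  have hVo : IsOpen V := by
    refine hNo.inter ?_
    exact (continuousOn_extChartAt (I := 𝓡 n) x₀).isOpen_inter_preimage
      (isOpen_extChartAt_source (I := 𝓡 n) x₀) isOpen_ball
  refine ⟨V, hVo, ⟨hNx, mem_extChartAt_source (I := 𝓡 n) x₀, mem_ball_self (by linarith)⟩,
    fun x hx => hx.2.1, fun ε R hε => ?_⟩
  have hloc : LocallyLipschitzOn (ball (φ x₀) r) (u ∘ φ.symm) :=
    fun b _ => ⟨C * C₁, ball (φ x₀) r, self_mem_nhdsWithin, hu.comp_lipschitzOnWith hL⟩
  obtain ⟨v, hv, hvK⟩ := exists_smooth_local (E := 𝔼) (Ω := ball (φ x₀) r)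
    (K := closedBall (φ x₀) (r / 2)) isOpen_ball (isCompact_closedBall _ _)
    (closedBall_subset_ball (by linarith)) hloc
    (Θ := hatΘ Θ x₀) ((continuousOn_hatΘ hΘ x₀).mono (prod_mono hsub (subset_univ _)))
    (fun b hb hd w => by
      rw [hatΘ_eq x₀ (hsub hb)]
      obtain ⟨h1, h2⟩ := diff_chart x₀ (hsub hb) hd
      rw [← h2 w]
      exact h _ h1 _) hε (R := C₂ * R)
  have hv' : ContMDiff 𝓘(ℝ, 𝔼) 𝓘(ℝ) ∞ v := hv.contMDiff
  have hφs : ContMDiffOn (𝓡 n) 𝓘(ℝ, 𝔼) ∞ φ φ.source := by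
    have := contMDiffOn_extChartAt (I := 𝓡 n) (n := ∞) (x := x₀)
    rwa [← extChartAt_source (𝓡 n)] at this
  refine ⟨v ∘ φ, hv'.comp_contMDiffOn hφs, fun x hx => ?_⟩
  have hxs : x ∈ φ.source := hx.2.1
  have hxK : φ x ∈ closedBall (φ x₀) (r / 2) := ball_subset_closedBall hx.2.2
  obtain ⟨h1, h2⟩ := hvK (φ x) hxK
  refine ⟨?_, fun w hw => ?_⟩
  · have h3 : φ.symm (φ x) = x := φ.left_inv hxs
    simpa [h3] using h1
  · have hder : mfderiv (𝓡 n) 𝓘(ℝ) (v ∘ φ) x w =
        fderiv ℝ v (φ x) (mfderiv (𝓡 n) 𝓘(ℝ, 𝔼) φ x w) := by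
      rw [mfderiv_comp x (hv'.mdifferentiableAt (by simp)) (mdiffAt_extChart x₀ hxs),
        mfderiv_eq_fderiv]
      rfl
    rw [hder, ← hatΘ_chart (Θ := Θ) x₀ hxs w]
    refine h2 _ ?_
    exact (hNsub hx.1 w).trans (mul_le_mul_of_nonneg_left hw hC₂.le)

end Metric

end

end Crest.Agent.R249.D4_789
end

-- ▼ part R249/D4Dd_789
section

/-!
R249, part D4 (helper789), file 3: elementary calculus of the differential `dd f x` (read in the
preferred chart at `x`) of vector valued functions on a manifold; global smoothing theorem.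
-/

set_option autoImplicit false
set_option linter.unusedSectionVars false

open MeasureTheory Set Filter Metric Bundle
open scoped ContDiff ENNReal NNReal Topology Manifold
open Crest.Agent.R226

namespace Crest.Agent.R249.D4_789

noncomputable section

section NoMetric

variable {n : ℕ} {M : Type*} [TopologicalSpace M] [ChartedSpace (EuclideanSpace ℝ (Fin n)) M]
variable {F F' : Type*} [NormedAddCommGroup F] [NormedSpace ℝ F] [NormedAddCommGroup F']
  [NormedSpace ℝ F']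

local notation "𝔼" => EuclideanSpace ℝ (Fin n)

variable (n) in
/-- the function read in the preferred chart at `x` is differentiable at (the image of) `x` -/
def DA (f : M → F) (x : M) : Prop :=
  DifferentiableAt ℝ (f ∘ (extChartAt (𝓡 n) x).symm) (extChartAt (𝓡 n) x x)

variable (n) in
/-- the differential of a vector valued function, as a linear map on the model space -/
def dd (f : M → F) (x : M) : EuclideanSpace ℝ (Fin n) →L[ℝ] F :=
  fderiv ℝ (f ∘ (extChartAt (𝓡 n) x).symm) (extChartAt (𝓡 n) x x)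

theorem DA.of_mdiff {f : M → F} {x : M} (h : MDifferentiableAt (𝓡 n) 𝓘(ℝ, F) f x) : DA n f x := by
  have h1 := h.differentiableWithinAt_writtenInExtChartAt
  have h2 : range (𝓡 n) = univ := by simp
  rw [h2, differentiableWithinAt_univ] at h1
  exact h1

theorem DA.of_contMDiffAt {f : M → F} {x : M} {k : WithTop ℕ∞} (hk : k ≠ 0)
    (h : ContMDiffAt (𝓡 n) 𝓘(ℝ, F) k f x) : DA n f x :=
  DA.of_mdiff (h.mdifferentiableAt hk)

theorem DA.of_contMDiff {f : M → F} {k : WithTop ℕ∞} (hk : k ≠ 0)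
    (h : ContMDiff (𝓡 n) 𝓘(ℝ, F) k f) (x : M) : DA n f x :=
  DA.of_contMDiffAt hk (h x)

theorem mfderiv_eq_dd {f : M → F} {x : M} (h : MDifferentiableAt (𝓡 n) 𝓘(ℝ, F) f x) :
    mfderiv (𝓡 n) 𝓘(ℝ, F) f x = dd n f x := by
  rw [h.mfderiv]
  have h2 : range (𝓡 n) = univ := by simp
  rw [h2, fderivWithin_univ]
  rfl

theorem ev_symm {x : M} {p : M → Prop} (h : ∀ᶠ y in 𝓝 x, p y) :
    ∀ᶠ b in 𝓝 (extChartAt (𝓡 n) x x), p ((extChartAt (𝓡 n) x).symm b) := by
  have h1 : Tendsto (extChartAt (𝓡 n) x).symm (𝓝 (extChartAt (𝓡 n) x x)) (𝓝 x) := by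
    have h2 := continuousAt_extChartAt_symm (I := 𝓡 n) x
    have h3 : (extChartAt (𝓡 n) x).symm (extChartAt (𝓡 n) x x) = x := extChartAt_to_inv x
    rw [ContinuousAt, h3] at h2
    exact h2
  exact h1.eventually h

theorem dd_congr {f g : M → F} {x : M} (h : f =ᶠ[𝓝 x] g) : dd n f x = dd n g x := by
  unfold dd
  exact Filter.EventuallyEq.fderiv_eq (ev_symm h)

theorem DA.congr {f g : M → F} {x : M} (hg : DA n g x) (h : f =ᶠ[𝓝 x] g) : DA n f x := by
  unfold DA at *
  exact hg.congr_of_eventuallyEq (ev_symm h)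

@[simp] theorem at_symm (x : M) : (extChartAt (𝓡 n) x).symm (extChartAt (𝓡 n) x x) = x :=
  extChartAt_to_inv x

theorem DA.add {f g : M → F} {x : M} (hf : DA n f x) (hg : DA n g x) :
    DA n (fun y => f y + g y) x :=
  DifferentiableAt.add hf hg

theorem dd_add {f g : M → F} {x : M} (hf : DA n f x) (hg : DA n g x) :
    dd n (fun y => f y + g y) x = dd n f x + dd n g x :=
  fderiv_add hf hg

theorem DA.const (c : F) (x : M) : DA n (fun _ => c) x := differentiableAt_const c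

theorem dd_const (c : F) (x : M) : dd n (fun _ => c) x = 0 := by
  unfold dd
  exact fderiv_const_apply c

theorem DA.sub {f g : M → F} {x : M} (hf : DA n f x) (hg : DA n g x) :
    DA n (fun y => f y - g y) x :=
  DifferentiableAt.sub hf hg

theorem dd_sub {f g : M → F} {x : M} (hf : DA n f x) (hg : DA n g x) :
    dd n (fun y => f y - g y) x = dd n f x - dd n g x :=
  fderiv_sub hf hg

theorem DA.sum {ι : Type*} {s : Finset ι} {f : ι → M → F} {x : M} (hf : ∀ i ∈ s, DA n (f i) x) :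
    DA n (fun y => ∑ i ∈ s, f i y) x := by
  have := DifferentiableAt.fun_sum (𝕜 := ℝ)
    (A := fun i => f i ∘ (extChartAt (𝓡 n) x).symm) (u := s) hf
  exact this

theorem dd_sum {ι : Type*} {s : Finset ι} {f : ι → M → F} {x : M} (hf : ∀ i ∈ s, DA n (f i) x) :
    dd n (fun y => ∑ i ∈ s, f i y) x = ∑ i ∈ s, dd n (f i) x := by
  have := fderiv_fun_sum (𝕜 := ℝ)
    (A := fun i => f i ∘ (extChartAt (𝓡 n) x).symm) (u := s) hf
  exact this

theorem DA.smul {a : M → ℝ} {f : M → F} {x : M} (ha : DA n a x) (hf : DA n f x) :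
    DA n (fun y => a y • f y) x :=
  DifferentiableAt.smul ha hf

theorem dd_smul {a : M → ℝ} {f : M → F} {x : M} (ha : DA n a x) (hf : DA n f x) (w : 𝔼) :
    dd n (fun y => a y • f y) x w = a x • dd n f x w + dd n a x w • f x := by
  have h := HasFDerivAt.smul ha.hasFDerivAt hf.hasFDerivAt
  have h1 : dd n (fun y => a y • f y) x = _ := h.fderiv
  rw [h1]
  simp [dd]


theorem DA.comp {f : M → F} {g : F → F'} {x : M} (hf : DA n f x)
    (hg : DifferentiableAt ℝ g (f x)) : DA n (fun y => g (f y)) x := by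
  have hg' : DifferentiableAt ℝ g ((f ∘ (extChartAt (𝓡 n) x).symm) (extChartAt (𝓡 n) x x)) := by
    simpa using hg
  have h : DifferentiableAt ℝ (g ∘ (f ∘ (extChartAt (𝓡 n) x).symm)) (extChartAt (𝓡 n) x x) :=
    hg'.comp _ hf
  exact h

theorem dd_comp {f : M → F} {g : F → F'} {x : M} (hf : DA n f x)
    (hg : DifferentiableAt ℝ g (f x)) (w : 𝔼) :
    dd n (fun y => g (f y)) x w = fderiv ℝ g (f x) (dd n f x w) := by
  have hg' : DifferentiableAt ℝ g ((f ∘ (extChartAt (𝓡 n) x).symm) (extChartAt (𝓡 n) x x)) := by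
    simpa using hg
  have h := fderiv_comp (extChartAt (𝓡 n) x x) hg' hf
  have h1 : dd n (fun y => g (f y)) x = _ := h
  rw [h1]
  simp [dd]

theorem dd_clm {f : M → F} (B : F →L[ℝ] F') {x : M} (hf : DA n f x) (w : 𝔼) :
    dd n (fun y => B (f y)) x w = B (dd n f x w) := by
  rw [dd_comp (g := B) hf B.differentiableAt]
  simp


end NoMetric

section Metric

variable {n : ℕ} {M : Type*} [MetricSpace M] [ChartedSpace (EuclideanSpace ℝ (Fin n)) M]
  [IsManifold (𝓡 n) ∞ M] [RiemannianBundle (fun p : M => TangentSpace (𝓡 n) p)]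
  [IsContMDiffRiemannianBundle (𝓡 n) ∞ (EuclideanSpace ℝ (Fin n))
    (fun p : M => TangentSpace (𝓡 n) p)]
  [IsRiemannianManifold (𝓡 n) M] [CompactSpace M]

local notation "𝔼" => EuclideanSpace ℝ (Fin n)

/-- the differential of a smooth function is continuous on the tangent bundle -/
theorem continuous_dd {f : M → ℝ} (hf : ContMDiff (𝓡 n) 𝓘(ℝ) ∞ f) :
    Continuous (fun p : TangentBundle (𝓡 n) M => dd n f p.1 p.2) := by
  have h := continuous_df hf
  refine (continuous_congr fun p => ?_).1 h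
  exact congrArg (fun L : 𝔼 →L[ℝ] ℝ => L p.2) (mfderiv_eq_dd (hf.mdifferentiableAt (by simp)))

/-- the differential of a smooth function on a closed manifold is bounded -/
theorem exists_dd_bound {f : M → ℝ} (hf : ContMDiff (𝓡 n) 𝓘(ℝ) ∞ f) (R : ℝ) :
    ∃ D : ℝ, 0 ≤ D ∧ ∀ x, ∀ w : TangentSpace (𝓡 n) x, ‖w‖ ≤ R → |dd n f x w| ≤ D := by
  have hc := TB616.isCompact_disc (n := n) (M := M) R
  obtain ⟨D, hD⟩ := (hc.image (continuous_abs.comp (continuous_dd hf))).bddAbove
  refine ⟨max D 0, le_max_right _ _, fun x w hw => ?_⟩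
  have hmem : (⟨x, w⟩ : TangentBundle (𝓡 n) M) ∈ {p : TangentBundle (𝓡 n) M | ‖p.2‖ ≤ R} := hw
  have h1 := hD (mem_image_of_mem _ hmem)
  exact h1.trans (le_max_left _ _)

/-- **Global smoothing theorem.** -/
theorem exists_smooth {u : M → ℝ} {C : ℝ≥0} (hu : LipschitzWith C u)
    {Θ : TangentBundle (𝓡 n) M → ℝ} (hΘ : Continuous Θ)
    (h : ∀ x, MDifferentiableAt (𝓡 n) 𝓘(ℝ) u x → ∀ w : TangentSpace (𝓡 n) x,
      Θ ⟨x, w⟩ ≤ mfderiv (𝓡 n) 𝓘(ℝ) u x w) {ε R : ℝ} (hε : 0 < ε) :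
    ∃ v : M → ℝ, ContMDiff (𝓡 n) 𝓘(ℝ) ∞ v ∧ ∀ x, |v x - u x| ≤ ε ∧
      ∀ w : TangentSpace (𝓡 n) x, ‖w‖ ≤ R → Θ ⟨x, w⟩ - ε ≤ dd n v x w := by
  choose V hVo hxV hVs hloc using fun x₀ : M => exists_local (n := n) x₀ hu hΘ h
  obtain ⟨t, ht⟩ := CompactSpace.elim_nhds_subcover V (fun x => (hVo x).mem_nhds (hxV x))
  obtain ⟨ρ, hρ⟩ := SmoothPartitionOfUnity.exists_isSubordinate (𝓡 n) (s := (univ : Set M))
    isClosed_univ (fun i : t => V i) (fun i => hVo i) (by
      intro y _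
      have hy : y ∈ ⋃ x ∈ t, V x := by rw [ht]; exact mem_univ y
      obtain ⟨x, hx, hyx⟩ := mem_iUnion₂.1 hy
      exact mem_iUnion.2 ⟨⟨x, hx⟩, hyx⟩)
  have hρs : ∀ i, ContMDiff (𝓡 n) 𝓘(ℝ) ∞ (ρ i) := fun i => (ρ i).contMDiff
  choose D hD0 hD using fun i : t => exists_dd_bound (hρs i) R
  set S : ℝ := ∑ i, D i with hS
  have hS0 : 0 ≤ S := Finset.sum_nonneg fun i _ => hD0 i
  obtain ⟨ε', hε', hε1, hε2⟩ : ∃ ε' : ℝ, 0 < ε' ∧ ε' ≤ ε / 2 ∧ S * ε' ≤ ε / 2 := by
    refine ⟨min (ε / 2) (ε / (2 * (S + 1))), by positivity, min_le_left _ _, ?_⟩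
    have h1 : S * min (ε / 2) (ε / (2 * (S + 1))) ≤ S * (ε / (2 * (S + 1))) :=
      mul_le_mul_of_nonneg_left (min_le_right _ _) hS0
    refine h1.trans ?_
    rw [mul_div_assoc', div_le_div_iff₀ (by positivity) (by norm_num)]
    nlinarith
  choose v hv hvV using fun i : t => hloc i ε' R hε'
  have hts : ∀ i : t, ∀ x, x ∈ tsupport (ρ i) → x ∈ V i := fun i x hx => hρ i hx
  have hvs : ∀ i : t, ∀ x ∈ tsupport (ρ i), ContMDiffAt (𝓡 n) 𝓘(ℝ) ∞ (v i) x := fun i x hx =>
    (hv i).contMDiffAt ((isOpen_extChartAt_source (I := 𝓡 n) (i : M)).mem_nhds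
      (hVs i (hts i x hx)))
  have hsum : ∀ x, ∑ i, ρ i x = 1 := fun x => by
    rw [← finsum_eq_sum_of_fintype]
    exact ρ.sum_eq_one (mem_univ x)
  -- the terms
  have hterm : ∀ i : t, ContMDiff (𝓡 n) 𝓘(ℝ) ∞ (fun x => ρ i x • v i x) := fun i =>
    ρ.contMDiff_smul (hvs i)
  refine ⟨fun x => ∑ i, ρ i x • v i x, ?_, fun x => ⟨?_, fun w hw => ?_⟩⟩
  · exact contMDiff_finsetSum fun i _ => hterm i
  · have h1 : ∑ i, ρ i x • v i x - u x = ∑ i, ρ i x * (v i x - u x) := by
      simp only [mul_sub, Finset.sum_sub_distrib, smul_eq_mul]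
      rw [← Finset.sum_mul, hsum, one_mul]
    rw [h1]
    calc |∑ i, ρ i x * (v i x - u x)| ≤ ∑ i, |ρ i x * (v i x - u x)| :=
          Finset.abs_sum_le_sum_abs _ _
      _ ≤ ∑ i, ρ i x * ε' := by
          refine Finset.sum_le_sum fun i _ => ?_
          rw [abs_mul, abs_of_nonneg (ρ.nonneg i x)]
          by_cases h0 : ρ i x = 0
          · simp [h0]
          · refine mul_le_mul_of_nonneg_left ?_ (ρ.nonneg i x)
            exact (hvV i x (hts i x (subset_closure h0))).1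
      _ = ε' := by rw [← Finset.sum_mul, hsum, one_mul]
      _ ≤ ε := by linarith
  · -- the differential of one term
    have hDρ : ∀ i, DA n (ρ i) x := fun i => DA.of_contMDiff (by simp) (hρs i) x
    have hone : ∀ (w : 𝔼) (i : t), dd n (fun y => ρ i y • v i y) x w =
        ρ i x * dd n (v i) x w + dd n (ρ i) x w * v i x := by
      intro w i
      by_cases hx : x ∈ tsupport (ρ i)
      · have := dd_smul (hDρ i) (DA.of_contMDiffAt (by simp) (hvs i x hx)) w
        simpa [smul_eq_mul] using this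
      · have hz : (ρ i : M → ℝ) =ᶠ[𝓝 x] fun _ => 0 := by
          filter_upwards [(isClosed_tsupport (ρ i)).isOpen_compl.mem_nhds hx] with y hy
          exact image_eq_zero_of_notMem_tsupport hy
        have hz2 : (fun y => ρ i y • v i y) =ᶠ[𝓝 x] fun _ => (0 : ℝ) := by
          filter_upwards [hz] with y hy
          rw [hy, zero_smul]
        have hx0 : ρ i x = 0 := hz.self_of_nhds
        rw [dd_congr hz2, dd_congr hz, dd_const, hx0]
        simp
    have hder : ∀ w : 𝔼, dd n (fun y => ∑ i, ρ i y • v i y) x w =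
        ∑ i, ρ i x * dd n (v i) x w + ∑ i, dd n (ρ i) x w * (v i x - u x) := by
      intro w
      rw [dd_sum (f := fun i y => ρ i y • v i y)
        (fun i _ => DA.of_contMDiff (by simp) (hterm i) x), _root_.sum_apply,
        Finset.sum_congr rfl fun i _ => hone w i, Finset.sum_add_distrib]
      congr 1
      have h3 : ∑ i, dd n (ρ i) x w = 0 := by
        have h4 : dd n (fun y => ∑ i, ρ i y) x = dd n (fun _ => (1 : ℝ)) x := by
          congr 1; funext y; exact hsum y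
        rw [dd_sum (fun i _ => hDρ i), dd_const] at h4
        rw [← _root_.sum_apply, h4]
        rfl
      simp only [mul_sub, Finset.sum_sub_distrib]
      rw [← Finset.sum_mul, h3, zero_mul, sub_zero]
    refine le_trans ?_ (hder w).ge
    have hA : Θ ⟨x, w⟩ - ε' ≤ ∑ i, ρ i x * dd n (v i) x w := by
      have h1 : Θ ⟨x, w⟩ - ε' = ∑ i, ρ i x * (Θ ⟨x, w⟩ - ε') := by
        rw [← Finset.sum_mul, hsum, one_mul]
      rw [h1]
      refine Finset.sum_le_sum fun i _ => ?_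
      by_cases h0 : ρ i x = 0
      · simp [h0]
      · refine mul_le_mul_of_nonneg_left ?_ (ρ.nonneg i x)
        have hx := subset_tsupport _ h0
        have h2 := (hvV i x (hts i x hx)).2 w hw
        rwa [mfderiv_eq_dd ((hvs i x hx).mdifferentiableAt (by simp))] at h2
    have hB : |∑ i, dd n (ρ i) x w * (v i x - u x)| ≤ ε / 2 := by
      calc |∑ i, dd n (ρ i) x w * (v i x - u x)| ≤ ∑ i, |dd n (ρ i) x w * (v i x - u x)| :=
            Finset.abs_sum_le_sum_abs _ _
        _ ≤ ∑ i, D i * ε' := by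
            refine Finset.sum_le_sum fun i _ => ?_
            rw [abs_mul]
            by_cases hx : x ∈ tsupport (ρ i)
            · exact mul_le_mul (hD i x w hw) (hvV i x (hts i x hx)).1 (abs_nonneg _) (hD0 i)
            · have hz : (ρ i : M → ℝ) =ᶠ[𝓝 x] fun _ => 0 := by
                filter_upwards [(isClosed_tsupport (ρ i)).isOpen_compl.mem_nhds hx] with y hy
                exact image_eq_zero_of_notMem_tsupport hy
              have h0 : ∀ w : 𝔼, dd n (ρ i) x w = 0 := fun w => by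
                rw [dd_congr hz, dd_const]; rfl
              have h0' : dd n (ρ i) x w = 0 := h0 w
              rw [h0', abs_zero, zero_mul]
              exact mul_nonneg (hD0 i) hε'.le
        _ = S * ε' := by rw [← Finset.sum_mul]
        _ ≤ ε / 2 := hε2
    have := (abs_le.1 hB).1
    linarith

end Metric

end

end Crest.Agent.R249.D4_789
end

-- ▼ part R249/D4Sg_789

/-!
R249, part D4 (helper789), file 4: supergradients of half squared distances; smooth functions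
close to half squared distances whose differentials are everywhere approximate supergradients.
-/

set_option autoImplicit false
set_option linter.unusedSectionVars false

open MeasureTheory Set Filter Metric Bundle
open scoped ContDiff ENNReal NNReal Topology Manifold
open Crest.GeometryTopology.MTW
open Crest.Agent.R226

namespace Crest.Agent.R249.D4_789

noncomputable section

variable {n : ℕ} {M : Type*} [MetricSpace M] [ChartedSpace (EuclideanSpace ℝ (Fin n)) M]
  [IsManifold (𝓡 n) ∞ M] [RiemannianBundle (fun p : M => TangentSpace (𝓡 n) p)]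

local notation "𝔼" => EuclideanSpace ℝ (Fin n)

/-- **Hinge inequality** (Toponogov for `K ≥ 0`) in exponential form: `exp_x` does not increase
the distance to (the image of) a minimal vector `u`. -/
def Hinge (G : GeoData n M) : Prop :=
  ∀ (x : M) (u w : TangentSpace (𝓡 n) x), u ∈ G.K x → dist (G.ex x u) (G.ex x w) ^ 2 ≤ ‖u - w‖ ^ 2

variable (G : GeoData n M)

/-- the test function -/
def Th (q : M) (p : TangentBundle (𝓡 n) M) : ℝ :=
  dist q (G.ex p.1 p.2) ^ 2 / 2 - dist q p.1 ^ 2 / 2 - ‖p.2‖ ^ 2 / 2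

variable {G}

theorem exists_min (x q : M) : ∃ u : TangentSpace (𝓡 n) x, u ∈ G.K x ∧ G.ex x u = q := by
  obtain ⟨u, h1, h2⟩ := G.surj x q
  refine ⟨u, ?_, h1⟩
  show dist x (G.ex x u) = ‖u‖
  rw [h1, h2]

theorem norm_of_K {x : M} {u : TangentSpace (𝓡 n) x} (hu : u ∈ G.K x) : ‖u‖ = dist x (G.ex x u) :=
  Eq.symm hu

/-- a minimal vector gives a supergradient -/
theorem Hinge.le (hH : Hinge G) {x : M} {u : TangentSpace (𝓡 n) x} (hu : u ∈ G.K x)
    (w : TangentSpace (𝓡 n) x) :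
    dist (G.ex x u) (G.ex x w) ^ 2 / 2 ≤ dist (G.ex x u) x ^ 2 / 2 - inner ℝ u w + ‖w‖ ^ 2 / 2 := by
  have h := hH x u w hu
  rw [norm_sub_sq_real] at h
  have h1 : dist (G.ex x u) x = ‖u‖ := by rw [dist_comm]; exact hu
  rw [h1]
  linarith

theorem Hinge.Th_le (hH : Hinge G) {x : M} {u : TangentSpace (𝓡 n) x} (hu : u ∈ G.K x)
    (w : TangentSpace (𝓡 n) x) : Th G (G.ex x u) ⟨x, w⟩ ≤ - inner ℝ u w := by
  have h := hH.le hu w
  show dist (G.ex x u) (G.ex x w) ^ 2 / 2 - dist (G.ex x u) x ^ 2 / 2 - ‖w‖ ^ 2 / 2 ≤ _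
  linarith

/-- derivative along a radial curve -/
theorem hasDerivAt_radial {f : M → ℝ} {x : M} (hf : MDifferentiableAt (𝓡 n) 𝓘(ℝ) f x)
    (w : TangentSpace (𝓡 n) x) :
    HasDerivAt (fun t : ℝ => f (G.ex x (t • w))) (mfderiv (𝓡 n) 𝓘(ℝ) f x w) 0 := by
  have hx : G.ex x ((0 : ℝ) • w) = x := by rw [zero_smul, G.ex_zero]
  have hf' : MDifferentiableAt (𝓡 n) 𝓘(ℝ) f (G.ex x ((0 : ℝ) • w)) := by rw [hx]; exact hf
  have h := LoeperMfd128.hasDerivAt_comp_curve (n := n) (h := f)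
    (γ := fun t : ℝ => G.ex x (t • w)) (t := 0) hf' (GeoBasic616.mdifferentiableAt_ray G x w 0)
  have h2 : LoeperMfd128.cv (n := n) (fun t : ℝ => G.ex x (t • w)) 0 = (w : 𝔼) := G.vel_zero x w
  have h3 : LoeperMfd128.md (n := n) f (G.ex x ((0 : ℝ) • w)) = LoeperMfd128.md (n := n) f x := by
    rw [hx]
  rw [h2, h3] at h
  exact h

/-- at a point of differentiability the differential is `- ⟨u, ·⟩` for every minimal vector -/
theorem Hinge.mfderiv_eq (hH : Hinge G) {x : M} {u : TangentSpace (𝓡 n) x} (hu : u ∈ G.K x)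
    (hd : MDifferentiableAt (𝓡 n) 𝓘(ℝ) (fun y => dist (G.ex x u) y ^ 2 / 2) x)
    (w : TangentSpace (𝓡 n) x) :
    - inner ℝ u w ≤ mfderiv (𝓡 n) 𝓘(ℝ) (fun y => dist (G.ex x u) y ^ 2 / 2) x w := by
  set f : M → ℝ := fun y => dist (G.ex x u) y ^ 2 / 2 with hf
  have h := hasDerivAt_radial (G := G) hd w
  have h0 : f (G.ex x ((0 : ℝ) • w)) = f x := by rw [zero_smul, G.ex_zero]
  -- left difference quotients
  have hlim : Tendsto (fun t : ℝ => t⁻¹ * (f (G.ex x (t • w)) - f x)) (𝓝[<] 0)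
      (𝓝 (mfderiv (𝓡 n) 𝓘(ℝ) f x w)) := by
    have h1 := (hasDerivAt_iff_tendsto_slope.1 h).mono_left
      (nhdsWithin_mono (0 : ℝ) (fun t (ht : t < 0) => ht.ne) : 𝓝[<] (0 : ℝ) ≤ 𝓝[≠] 0)
    refine h1.congr fun t => ?_
    rw [slope_def_field, h0, sub_zero, div_eq_inv_mul]
  have hlim2 : Tendsto (fun t : ℝ => - inner ℝ u w + t * (‖w‖ ^ 2 / 2)) (𝓝[<] 0)
      (𝓝 (- inner ℝ u w + 0 * (‖w‖ ^ 2 / 2))) := by
    refine Tendsto.mono_left ?_ nhdsWithin_le_nhds
    exact Continuous.tendsto (by fun_prop) 0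
  rw [zero_mul, add_zero] at hlim2
  refine le_of_tendsto_of_tendsto hlim2 hlim ?_
  filter_upwards [self_mem_nhdsWithin] with t ht
  have ht' : t < 0 := ht
  have h2 := hH.le hu (t • w)
  rw [inner_smul_right, norm_smul, Real.norm_eq_abs, mul_pow, sq_abs] at h2
  have h3 : f (G.ex x (t • w)) - f x ≤ t * (- inner ℝ u w + t * (‖w‖ ^ 2 / 2)) := by
    simp only [hf]
    linarith
  have h4 : t⁻¹ * (t * (- inner ℝ u w + t * (‖w‖ ^ 2 / 2))) ≤
      t⁻¹ * (f (G.ex x (t • w)) - f x) :=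
    mul_le_mul_of_nonpos_left h3 (inv_nonpos.2 ht'.le)
  rwa [← mul_assoc, inv_mul_cancel₀ ht'.ne, one_mul] at h4

section Cpt

variable [IsContMDiffRiemannianBundle (𝓡 n) ∞ (EuclideanSpace ℝ (Fin n))
    (fun p : M => TangentSpace (𝓡 n) p)]
  [IsRiemannianManifold (𝓡 n) M] [CompactSpace M]

theorem continuous_Th (q : M) : Continuous (Th G q) := by
  unfold Th
  have h1 : Continuous (fun p : TangentBundle (𝓡 n) M => G.ex p.1 p.2) := G.smooth.continuous
  have h2 : Continuous (fun p : TangentBundle (𝓡 n) M => ‖p.2‖) :=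
    TB616.continuous_norm (n := n) (M := M)
  have h3 : Continuous (fun p : TangentBundle (𝓡 n) M => p.1) :=
    FiberBundle.continuous_proj _ _
  fun_prop

theorem lipschitz_halfDistSq (q : M) : ∃ C : ℝ≥0, LipschitzWith C (fun y => dist q y ^ 2 / 2) := by
  obtain ⟨D, hD⟩ := Metric.isBounded_iff.1 (isCompact_univ (X := M)).isBounded
  have hD0 : 0 ≤ D := dist_nonneg.trans (hD (mem_univ q) (mem_univ q))
  refine ⟨⟨D, hD0⟩, LipschitzWith.of_dist_le_mul fun x y => ?_⟩
  have h1 : dist q x ≤ D := hD (mem_univ _) (mem_univ _)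
  have h2 : dist q y ≤ D := hD (mem_univ _) (mem_univ _)
  have h3 : |dist q x - dist q y| ≤ dist x y := by
    rw [dist_comm q x, dist_comm q y]
    exact abs_dist_sub_le x y q
  rw [Real.dist_eq]
  have h4 : dist q x ^ 2 / 2 - dist q y ^ 2 / 2 =
      (dist q x - dist q y) * ((dist q x + dist q y) / 2) := by ring
  rw [h4, abs_mul]
  have h5 : |(dist q x + dist q y) / 2| ≤ D := by
    rw [abs_of_nonneg (by positivity)]
    linarith
  calc |dist q x - dist q y| * |(dist q x + dist q y) / 2| ≤ dist x y * D :=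
        mul_le_mul h3 h5 (abs_nonneg _) dist_nonneg
    _ = D * dist x y := mul_comm _ _

/-- **Smoothing of the half squared distance.** -/
theorem exists_smooth_dist (hH : Hinge G) (q : M) {ε R : ℝ} (hε : 0 < ε) :
    ∃ v : M → ℝ, ContMDiff (𝓡 n) 𝓘(ℝ) ∞ v ∧ ∀ x, |v x - dist q x ^ 2 / 2| ≤ ε ∧
      (∀ w : TangentSpace (𝓡 n) x, ‖w‖ ≤ R →
        dist q (G.ex x w) ^ 2 / 2 - dist q x ^ 2 / 2 - ‖w‖ ^ 2 / 2 - ε ≤ dd n v x w) ∧
      ∀ w : TangentSpace (𝓡 n) x, |dd n v x w| ≤ (dist q x + ε) * ‖w‖ := by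
  obtain ⟨C, hC⟩ := lipschitz_halfDistSq (M := M) q
  set r : ℝ := G.r₀ / 2 with hr
  have hr0 : 0 < r := half_pos G.r₀_pos
  set ε' : ℝ := min ε (ε * r) with hε'
  have hε'0 : 0 < ε' := by positivity
  obtain ⟨v, hv, hvx⟩ := exists_smooth (ε := ε') (R := max R r) hC (continuous_Th (G := G) q)
    (fun x hd w => by
      obtain ⟨u, hu, huq⟩ := exists_min (G := G) x q
      subst huq
      exact (hH.Th_le hu w).trans (hH.mfderiv_eq hu hd w)) hε'0
  refine ⟨v, hv, fun x => ⟨(hvx x).1.trans (min_le_left _ _), fun w hw => ?_, ?_⟩⟩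
  · have h1 := (hvx x).2 w (hw.trans (le_max_left _ _))
    refine le_trans ?_ h1
    show _ ≤ dist q (G.ex x w) ^ 2 / 2 - dist q x ^ 2 / 2 - ‖w‖ ^ 2 / 2 - ε'
    have := min_le_left ε (ε * r)
    linarith
  · -- lower bound on vectors of norm `r`
    have key : ∀ w : TangentSpace (𝓡 n) x, ‖w‖ = r → - ((dist q x + ε) * r) ≤ dd n v x w := by
      intro w hw
      have h1 := (hvx x).2 w (by rw [hw]; exact le_max_right _ _)
      refine le_trans ?_ h1
      show _ ≤ dist q (G.ex x w) ^ 2 / 2 - dist q x ^ 2 / 2 - ‖w‖ ^ 2 / 2 - ε'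
      have h2 : dist x (G.ex x w) = r := by
        rw [← hw]
        exact GeoBasic616.dist_ex_of_norm_lt G (by rw [hw]; linarith [G.r₀_pos])
      have h3 : |dist q x - dist x (G.ex x w)| ≤ dist q (G.ex x w) := by
        rw [dist_comm q x, dist_comm q (G.ex x w)]
        have := abs_dist_sub_le q (G.ex x w) x
        rw [dist_comm q x, dist_comm (G.ex x w) x, dist_comm q] at this
        exact this
      rw [h2] at h3
      have h4 : (dist q x - r) ^ 2 ≤ dist q (G.ex x w) ^ 2 := by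
        rw [← sq_abs (dist q x - r)]
        exact pow_le_pow_left₀ (abs_nonneg _) h3 2
      have h5 : ε' ≤ ε * r := min_le_right _ _
      rw [hw]
      nlinarith
    have key2 : ∀ w : TangentSpace (𝓡 n) x, - ((dist q x + ε) * ‖w‖) ≤ dd n v x w := by
      intro w
      rcases eq_or_ne w 0 with h0 | h0
      · subst h0
        have h1 : dd n v x (0 : 𝔼) = 0 := map_zero _
        have h2 : dd n v x (0 : TangentSpace (𝓡 n) x) = 0 := h1
        rw [h2, norm_zero, mul_zero, neg_zero]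
      · have hn : 0 < ‖w‖ := norm_pos_iff.2 h0
        have h1 := key ((r / ‖w‖) • w) (by
          rw [norm_smul, Real.norm_of_nonneg (by positivity)]
          field_simp)
        have h2 : dd n v x ((r / ‖w‖) • w) = (r / ‖w‖) * dd n v x w :=
          (dd n v x).map_smul (r / ‖w‖) (w : 𝔼)
        rw [h2] at h1
        have h3 : 0 < ‖w‖ / r := by positivity
        have h4 := mul_le_mul_of_nonneg_left h1 h3.le
        have h5 : ‖w‖ / r * (r / ‖w‖ * dd n v x w) = dd n v x w := by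
          field_simp
        rw [h5] at h4
        refine le_trans (le_of_eq ?_) h4
        field_simp
    intro w
    rw [abs_le]
    refine ⟨key2 w, ?_⟩
    have h1 := key2 (-w)
    have h2 : dd n v x (-w) = - dd n v x w := (dd n v x).map_neg (w : 𝔼)
    rw [h2, norm_neg] at h1
    linarith

end Cpt

end

end Crest.Agent.R249.D4_789
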