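import Crest.Agent.R249.SobF_982

/-!
# R249 (D3-SOB), part G: real-integral forms of Sobolev, Poincaré and Sobolev–Poincaré on balls

`X` proper, `μ` finite on compact sets, `C : Rad 4 κ X μ`, `μ (ball y s) ≤ ω s⁴` for all `y, s`,
`μ (ball x0 (Λ r)) ≥ v (Λ r)⁴` with `16 ω + 1 ≤ v Λ⁴`.

* `sobR` : `√(∫ ψ⁴) ≤ KS κ ω Λ r * ∫ G²` for `LG ψ G`, `ψ = 0` off `ball x0 (2r)`;
* `poincR` (any `n`) : `∫_{B_r} (f - f_{B_r})² ≤ 8 r² exp(2κr²) 2ⁿ ∫_{B_2r} G²`;
* `sobpoincR` : `√(∫_{B_r} (f - c)⁴) ≤ KSP κ ω Λ r * ∫_{B_4r} G²`, `c` = mean of `f` over `B_2r`.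
-/

set_option autoImplicit false
set_option linter.unusedSectionVars false
open MeasureTheory Set Filter Topology
open scoped ENNReal NNReal

noncomputable section
namespace Crest.Agent.R249.SobG_982

open Crest.Agent.R247.Mcp688 Crest.Agent.R249.SobA_982 Crest.Agent.R249.SobB_982
  Crest.Agent.R249.SobC_982 Crest.Agent.R249.SobD_982 Crest.Agent.R249.SobE_982
  Crest.Agent.R249.SobF_982

/-- the Sobolev constant -/
def KS (κ ω Λ r : ℝ) : ℝ :=
  (12 * Real.exp (κ * ((Λ + 2) * r) ^ 2 / 2) * (Λ + 2) ^ 4 * (4 ^ 4 * ω + 1) * Cth) ^ 2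

lemma KS_nonneg (κ ω Λ r : ℝ) : 0 ≤ KS κ ω Λ r := sq_nonneg _



section main
variable {κ : ℝ} {X : Type*} [MetricSpace X] [MeasurableSpace X] [BorelSpace X] [ProperSpace X]
  {μ : Measure X} [IsFiniteMeasureOnCompacts μ]

lemma integrable_of_zero_off {f : X → ℝ} (hf : Continuous f) {x0 : X} {R : ℝ}
    (h : ∀ x, R < dist x x0 → f x = 0) : Integrable f μ := by
  apply hf.integrable_of_hasCompactSupport
  refine HasCompactSupport.intro (isCompact_closedBall x0 R) fun x hx => h x ?_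
  simpa using hx

variable [SFinite μ]

/-- **Sobolev inequality on a ball**, `n = 4`. -/
theorem sobR (C : Rad 4 κ X μ) (hκ : 0 ≤ κ) {ω : ℝ} (hω : 0 ≤ ω)
    (hup : ∀ (y : X) (s : ℝ), 0 < s → μ (Metric.ball y s) ≤ ENNReal.ofReal (ω * s ^ 4))
    {x0 : X} {r Λ v : ℝ} (hr : 0 < r) (hΛ : 2 ≤ Λ) (hv : 16 * ω + 1 ≤ v * Λ ^ 4)
    (hlo : ENNReal.ofReal (v * (Λ * r) ^ 4) ≤ μ (Metric.ball x0 (Λ * r)))
    {ψ G : X → ℝ} (hψ : LG ψ G) (h0 : ∀ x, 2 * r ≤ dist x x0 → ψ x = 0)
    (hGi : Integrable (fun y => G y ^ 2) μ) :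
    √(∫ x, ψ x ^ 4 ∂μ) ≤ KS κ ω Λ r * ∫ x, G x ^ 2 ∂μ := by
  set S : Set X := Metric.ball x0 (2 * r) with hS
  set A : Set X := Metric.ball x0 (Λ * r) \ Metric.ball x0 (2 * r) with hA
  have hΛ0 : 0 < Λ := by linarith
  have hAm : MeasurableSet A := Metric.isOpen_ball.measurableSet.diff Metric.isOpen_ball.measurableSet
  have hSfin : μ S ≠ ∞ := (ne_top_of_le_ne_top ENNReal.ofReal_ne_top (hup x0 (2 * r) (by positivity)))
  have hS0 : ∀ x ∉ S, ψ x = 0 := by
    intro x hx
    apply h0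
    simpa [hS] using hx
  have hA0 : ∀ x ∈ A, ψ x = 0 := fun x hx => hS0 x hx.2
  have hAD : ∀ x ∈ S, ∀ z ∈ A, dist x z ≤ (Λ + 2) * r := by
    intro x hx z hz
    have h1 : dist x x0 < 2 * r := hx
    have h2 : dist z x0 < Λ * r := hz.1
    have := dist_triangle_right x z x0
    nlinarith
  have hvA : ENNReal.ofReal (r ^ 4) ≤ μ A := by
    have h1 : μ (Metric.ball x0 (Λ * r)) ≤ μ A + μ S := by
      refine (measure_mono ?_).trans (measure_union_le _ _)
      intro z hz
      by_cases h : z ∈ Metric.ball x0 (2 * r)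
      · exact Or.inr h
      · exact Or.inl ⟨hz, h⟩
    have h2 : μ S ≤ ENNReal.ofReal (ω * (2 * r) ^ 4) := hup x0 (2 * r) (by positivity)
    have h3 : ENNReal.ofReal (r ^ 4) + ENNReal.ofReal (ω * (2 * r) ^ 4) ≤
        μ A + ENNReal.ofReal (ω * (2 * r) ^ 4) := by
      calc ENNReal.ofReal (r ^ 4) + ENNReal.ofReal (ω * (2 * r) ^ 4)
          = ENNReal.ofReal ((16 * ω + 1) * r ^ 4) := by
            rw [← ENNReal.ofReal_add (by positivity) (by positivity)]
            congr 1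
            ring
        _ ≤ ENNReal.ofReal (v * (Λ * r) ^ 4) := by
            apply ENNReal.ofReal_le_ofReal
            rw [mul_pow, ← mul_assoc]
            gcongr
        _ ≤ μ (Metric.ball x0 (Λ * r)) := hlo
        _ ≤ μ A + μ S := h1
        _ ≤ _ := by gcongr
    exact (ENNReal.add_le_add_iff_right ENNReal.ofReal_ne_top).1 h3
  have hzero : ∀ x, 2 * r < dist x x0 → ψ x ^ 4 = 0 := by
    intro x hx
    rw [h0 x hx.le]
    norm_num
  have hψi : Integrable (fun x => ψ x ^ 4) μ :=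
    integrable_of_zero_off (hψ.continuous.pow 4) hzero
  have hb : ∃ b, ∀ x, |ψ x| ≤ b := by
    obtain ⟨b, hb⟩ := (isCompact_closedBall x0 (2 * r)).exists_bound_of_continuousOn
      hψ.continuous.continuousOn
    refine ⟨max b 0, fun x => ?_⟩
    by_cases hx : x ∈ Metric.closedBall x0 (2 * r)
    · exact (hb x hx).trans (le_max_left _ _)
    · rw [h0 x (by simpa using (le_of_lt (not_le.1 hx))), abs_zero]
      exact le_max_right _ _
  have key := sobolev_four C hκ hω hup hψ (S := S) hAm hS0 hA0 (D := (Λ + 2) * r) (by positivity)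
    hAD hSfin (v := r ^ 4) (by positivity) hvA hb
  rw [← ofReal_integral_eq_lintegral_ofReal hψi (Eventually.of_forall fun x => by positivity),
    ← ofReal_integral_eq_lintegral_ofReal hGi (Eventually.of_forall fun x => by positivity),
    ENNReal.ofReal_rpow_of_nonneg (integral_nonneg fun x => by positivity) (by norm_num),
    ← ENNReal.ofReal_mul (by positivity)] at key
  have hC := Cth_pos
  have hGn : 0 ≤ ∫ x, G x ^ 2 ∂μ := integral_nonneg fun x => sq_nonneg _
  rw [ENNReal.ofReal_le_ofReal_iff (by positivity)] at key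
  rw [Real.sqrt_eq_rpow]
  refine key.trans (le_of_eq ?_)
  congr 1
  unfold KS
  congr 1
  field_simp

end main

section poinc
variable {n : ℕ} {κ : ℝ} {X : Type*} [MetricSpace X] [MeasurableSpace X] [BorelSpace X]
  [ProperSpace X] {μ : Measure X} [IsFiniteMeasureOnCompacts μ] [SFinite μ]

lemma integrableOn_ball_of_contAt {U : Set X} {f : X → ℝ} (hf : ∀ y ∈ U, ContinuousAt f y) {x0 : X}
    {R : ℝ} (hU : Metric.closedBall x0 R ⊆ U) : IntegrableOn f (Metric.ball x0 R) μ := by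
  have h1 : ContinuousOn f (Metric.closedBall x0 R) := fun y hy =>
    (hf y (hU hy)).continuousWithinAt
  exact (h1.integrableOn_compact (isCompact_closedBall x0 R)).mono_set Metric.ball_subset_closedBall

/-- **Poincaré inequality on a ball**, real form. -/
theorem poincR (C : Rad n κ X μ) (hκ : 0 ≤ κ) {U : Set X} {f G : X → ℝ} (hf : LGOn U f G)
    (hG : Measurable G) {x0 : X} {r : ℝ} (hr : 0 < r) (hU : Metric.closedBall x0 (2 * r) ⊆ U) :
    ∫ x in Metric.ball x0 r, (f x - ⨍ z in Metric.ball x0 r, f z ∂μ) ^ 2 ∂μ ≤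
      8 * r ^ 2 * (Real.exp (2 * κ * r ^ 2) * 2 ^ n) * ∫ x in Metric.ball x0 (2 * r), G x ^ 2 ∂μ := by
  have hU1 : Metric.closedBall x0 r ⊆ U :=
    (Metric.closedBall_subset_closedBall (by linarith)).trans hU
  have hfc : ∀ y ∈ U, ContinuousAt f y := fun y hy => hf.continuousAt hy
  have hfi : IntegrableOn f (Metric.ball x0 r) μ := integrableOn_ball_of_contAt hfc hU1
  have hfi2 : IntegrableOn (fun x => f x ^ 2) (Metric.ball x0 r) μ :=
    integrableOn_ball_of_contAt (fun y hy => (hfc y hy).pow 2) hU1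
  have hBf : μ (Metric.ball x0 r) ≠ ∞ := measure_ball_lt_top.ne
  have key := SobF_982.poinc_two C hκ hf hG x0 hr (Metric.ball_subset_closedBall.trans hU) hBf hfi
    hfi2
  set c := ⨍ z in Metric.ball x0 r, f z ∂μ with hc
  have hi1 : IntegrableOn (fun x => (f x - c) ^ 2) (Metric.ball x0 r) μ :=
    integrableOn_ball_of_contAt (fun y hy => ((hfc y hy).sub continuousAt_const).pow 2) hU1
  have hi2 : IntegrableOn (fun x => G x ^ 2) (Metric.ball x0 (2 * r)) μ :=
    integrableOn_ball_of_contAt (fun y hy => (hf.contG y hy).pow 2) hU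
  rw [← ofReal_integral_eq_lintegral_ofReal hi1 (Eventually.of_forall fun x => sq_nonneg _),
    ← ofReal_integral_eq_lintegral_ofReal hi2 (Eventually.of_forall fun x => sq_nonneg _),
    ← ENNReal.ofReal_mul (by positivity)] at key
  have hGn : 0 ≤ ∫ x in Metric.ball x0 (2 * r), G x ^ 2 ∂μ := integral_nonneg fun x => sq_nonneg _
  exact (ENNReal.ofReal_le_ofReal_iff (by positivity)).1 key


end poinc

section sp
variable {κ : ℝ} {X : Type*} [MetricSpace X] [MeasurableSpace X] [BorelSpace X] [ProperSpace X]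
  {μ : Measure X} [IsFiniteMeasureOnCompacts μ] [SFinite μ]





end sp

end Crest.Agent.R249.SobG_982
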