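import Crest.Agent.R247.Bs2_84
import Crest.Agent.R249.HRep3_308
import Crest.Agent.R249.SobG_982
import Crest.Agent.R249.StaD_509
import Mathlib
import Crest.Agent.R249.Cod5_992
import Crest.Agent.R249.SobJ_982
import Crest.Agent.R249.Alg2_104
import Crest.Agent.R249.Dens_274

-- ▼ part R249/Dec1_308
section

/-!
R249, D3-DECAY (helper308), part 1: pointwise algebra of a system of harmonic functions `u a`,
`a : Fin n`, on an `n`-manifold: `F a b = ⟨du a, du b⟩`, `T a = Hess (u a)`.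

* `gram_le`, `gram_mat_le`: a square system of vectors with Gram matrix `≥ c` controls vectors and matrices;
* `Gr_mGam`: gradient of `⟨du, dv⟩`; `koszul`: `2 Hess u (∇v, ∇w)` through the gradients of the Gram matrix;
* `T_le_dF`: `∑ |T a|² ≤ C ∑ |∇ F a b|²` where the Gram matrix is `≥ c`;
* `dF_le_T`, `lapF_le`.
-/

set_option autoImplicit false
set_option maxSynthPendingDepth 3
set_option linter.unusedSectionVars false

open scoped ContDiff Topology Manifold RealInnerProductSpace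
open Filter Set Bundle
open Crest.GeometryTopology.CoordMetric Crest.GeometryTopology.ChartCurvature
open Crest.Agent.R247 Crest.Agent.R247.Bo84 Crest.Agent.R247.Ms322 Crest.Agent.R247.Bs84
open Crest.Agent.R247.Hes124 (F S mv tr idm)

noncomputable section

namespace Crest.Agent.R249.Dec308

/-! ### linear algebra -/

section LA

variable {n : ℕ}

theorem gram_le {V : Fin n → F n} {c : ℝ} (hc : 0 < c)
    (hV : ∀ x : F n, c * ‖x‖ ^ 2 ≤ ‖∑ b, x b • V b‖ ^ 2) (y : F n) :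
    c * ‖y‖ ^ 2 ≤ ∑ b, (⟪V b, y⟫ : ℝ) ^ 2 := by
  let L : F n →ₗ[ℝ] F n :=
    { toFun := fun x => ∑ b, x b • V b
      map_add' := fun x y => by simp [add_smul, Finset.sum_add_distrib]
      map_smul' := fun a x => by simp [mul_smul, Finset.smul_sum] }
  have hinj : Function.Injective L := by
    rw [← LinearMap.ker_eq_bot, LinearMap.ker_eq_bot']
    intro x hx
    have h1 := hV x
    have h2 : (∑ b, x b • V b) = 0 := hx
    rw [h2, norm_zero] at h1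
    have h3 : ‖x‖ ^ 2 ≤ 0 := by nlinarith [sq_nonneg ‖x‖]
    have h4 : ‖x‖ = 0 := by nlinarith [norm_nonneg x]
    exact norm_eq_zero.1 h4
  obtain ⟨x, hx⟩ := LinearMap.surjective_of_injective hinj y
  have hx' : (∑ b, x b • V b) = y := hx
  have h1 : ‖y‖ ^ 2 = ∑ b, x b * (⟪V b, y⟫ : ℝ) := by
    rw [← real_inner_self_eq_norm_sq]
    nth_rewrite 1 [← hx']
    rw [sum_inner]
    exact Finset.sum_congr rfl fun b _ => by rw [real_inner_smul_left]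
  have h2 : (‖y‖ ^ 2) ^ 2 ≤ ‖x‖ ^ 2 * ∑ b, (⟪V b, y⟫ : ℝ) ^ 2 := by
    rw [h1, EuclideanSpace.real_norm_sq_eq]
    exact Finset.sum_mul_sq_le_sq_mul_sq _ _ _
  have h3 := hV x
  rw [hx'] at h3
  have hS : 0 ≤ ∑ b, (⟪V b, y⟫ : ℝ) ^ 2 := Finset.sum_nonneg fun b _ => sq_nonneg _
  rcases (sq_nonneg ‖y‖).eq_or_lt with h0 | h0
  · rw [← h0, mul_zero]; exact hS
  · have h4 : c * (‖y‖ ^ 2) ^ 2 ≤ ‖y‖ ^ 2 * ∑ b, (⟪V b, y⟫ : ℝ) ^ 2 :=
      calc c * (‖y‖ ^ 2) ^ 2 ≤ c * (‖x‖ ^ 2 * ∑ b, (⟪V b, y⟫ : ℝ) ^ 2) := by gcongr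
        _ = (c * ‖x‖ ^ 2) * ∑ b, (⟪V b, y⟫ : ℝ) ^ 2 := by ring
        _ ≤ _ := by gcongr
    have h5 : ‖y‖ ^ 2 * (c * ‖y‖ ^ 2) ≤ ‖y‖ ^ 2 * ∑ b, (⟪V b, y⟫ : ℝ) ^ 2 := by nlinarith [h4]
    exact le_of_mul_le_mul_left h5 h0

theorem gram_mat_le {V : Fin n → F n} {c : ℝ} (hc : 0 < c)
    (hV : ∀ x : F n, c * ‖x‖ ^ 2 ≤ ‖∑ b, x b • V b‖ ^ 2) (A : S n) :
    c ^ 2 * ‖A‖ ^ 2 ≤ ∑ b, ∑ d, (⟪mv A (V b), V d⟫ : ℝ) ^ 2 := by
  have h1 : c * ‖A‖ ^ 2 ≤ ∑ b, ‖mv A (V b)‖ ^ 2 := by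
    rw [Hes124.norm_sq_S, Finset.mul_sum]
    have e : ∑ b, ‖mv A (V b)‖ ^ 2 = ∑ i, ∑ b, (mv A (V b) i) ^ 2 := by
      rw [Finset.sum_comm]
      exact Finset.sum_congr rfl fun b _ => EuclideanSpace.real_norm_sq_eq _
    rw [e]
    refine Finset.sum_le_sum fun i _ => ?_
    have h2 := gram_le hc hV (WithLp.toLp 2 fun j => A (i, j))
    rw [EuclideanSpace.real_norm_sq_eq] at h2
    refine h2.trans (le_of_eq ?_)
    refine Finset.sum_congr rfl fun b _ => ?_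
    congr 1
  have h2 : ∀ b, c * ‖mv A (V b)‖ ^ 2 ≤ ∑ d, (⟪mv A (V b), V d⟫ : ℝ) ^ 2 := by
    intro b
    refine (gram_le hc hV (mv A (V b))).trans (le_of_eq ?_)
    exact Finset.sum_congr rfl fun d _ => by rw [real_inner_comm]
  calc c ^ 2 * ‖A‖ ^ 2 = c * (c * ‖A‖ ^ 2) := by ring
    _ ≤ c * ∑ b, ‖mv A (V b)‖ ^ 2 := by gcongr
    _ = ∑ b, c * ‖mv A (V b)‖ ^ 2 := by rw [Finset.mul_sum]
    _ ≤ _ := Finset.sum_le_sum fun b _ => h2 b

end LA

/-! ### on the manifold -/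

variable {n : ℕ} {M : Type*} [MetricSpace M] [ChartedSpace (EuclideanSpace ℝ (Fin n)) M]
  [IsManifold (𝓡 n) ∞ M]
  [RiemannianBundle (fun p : M => TangentSpace (𝓡 n) p)]
  [IsContMDiffRiemannianBundle (𝓡 n) ∞ (EuclideanSpace ℝ (Fin n))
    (fun p : M => TangentSpace (𝓡 n) p)]
  [SecondCountableTopology M] [Nonempty M]

local notation "𝔼" => EuclideanSpace ℝ (Fin n)

variable {u v w : M → ℝ} {z : M}

theorem inner_mv_symm (hu : ContMDiffAt (𝓡 n) 𝓘(ℝ, ℝ) 2 u z) (x y : F n) :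
    (⟪mv (Hf u z) x, y⟫ : ℝ) = ⟪mv (Hf u z) y, x⟫ := by
  rw [inner_mv_Hf hu, inner_mv_Hf hu, mHess_symm hu]

theorem Gr_mGam (hu : ContMDiffAt (𝓡 n) 𝓘(ℝ, ℝ) 2 u z) (hv : ContMDiffAt (𝓡 n) 𝓘(ℝ, ℝ) 2 v z) :
    Gr (n := n) (mGam n u v) z = mv (Hf u z) (Gr v z) + mv (Hf v z) (Gr u z) := by
  ext i
  rw [PiLp.add_apply, mv_Hf_apply, mv_Hf_apply, vf_Gr, vf_Gr, Gr_apply', dM_eq,
    mfderiv_mGam hu hv]

/-- **Koszul identity.** -/
theorem koszul (hu : ContMDiffAt (𝓡 n) 𝓘(ℝ, ℝ) 2 u z) (hv : ContMDiffAt (𝓡 n) 𝓘(ℝ, ℝ) 2 v z)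
    (hw : ContMDiffAt (𝓡 n) 𝓘(ℝ, ℝ) 2 w z) :
    2 * (⟪mv (Hf (n := n) u z) (Gr v z), Gr w z⟫ : ℝ) =
      ⟪Gr (n := n) (mGam n u v) z, Gr w z⟫ + ⟪Gr (n := n) (mGam n u w) z, Gr v z⟫ -
        ⟪Gr (n := n) (mGam n v w) z, Gr u z⟫ := by
  rw [Gr_mGam hu hv, Gr_mGam hu hw, Gr_mGam hv hw, inner_add_left, inner_add_left, inner_add_left,
    inner_mv_symm hu (Gr w z) (Gr v z), inner_mv_symm hv (Gr w z) (Gr u z),
    inner_mv_symm hw (Gr v z) (Gr u z)]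
  ring

/-- `|2 T(∇v, ∇w)| ≤ Λ (|∇F_uv| + |∇F_uw| + |∇F_vw|)`. -/
theorem koszul_sq_le (hu : ContMDiffAt (𝓡 n) 𝓘(ℝ, ℝ) 2 u z)
    (hv : ContMDiffAt (𝓡 n) 𝓘(ℝ, ℝ) 2 v z) (hw : ContMDiffAt (𝓡 n) 𝓘(ℝ, ℝ) 2 w z) {Λ : ℝ}
    (h1 : ‖Gr (n := n) u z‖ ≤ Λ) (h2 : ‖Gr (n := n) v z‖ ≤ Λ) (h3 : ‖Gr (n := n) w z‖ ≤ Λ) :
    (⟪mv (Hf (n := n) u z) (Gr v z), Gr w z⟫ : ℝ) ^ 2 ≤ Λ ^ 2 *
      (‖Gr (n := n) (mGam n u v) z‖ ^ 2 + ‖Gr (n := n) (mGam n u w) z‖ ^ 2 +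
        ‖Gr (n := n) (mGam n v w) z‖ ^ 2) := by
  have hk := koszul hu hv hw
  set a := ‖Gr (n := n) (mGam n u v) z‖
  set b := ‖Gr (n := n) (mGam n u w) z‖
  set c := ‖Gr (n := n) (mGam n v w) z‖
  have i1 : |(⟪Gr (n := n) (mGam n u v) z, Gr w z⟫ : ℝ)| ≤ a * Λ :=
    (abs_real_inner_le_norm _ _).trans (by gcongr)
  have i2 : |(⟪Gr (n := n) (mGam n u w) z, Gr v z⟫ : ℝ)| ≤ b * Λ :=
    (abs_real_inner_le_norm _ _).trans (by gcongr)
  have i3 : |(⟪Gr (n := n) (mGam n v w) z, Gr u z⟫ : ℝ)| ≤ c * Λ :=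
    (abs_real_inner_le_norm _ _).trans (by gcongr)
  have h4 : |2 * (⟪mv (Hf (n := n) u z) (Gr v z), Gr w z⟫ : ℝ)| ≤ (a + b + c) * Λ := by
    rw [hk]
    refine (abs_sub _ _).trans ((add_le_add (abs_add_le _ _) le_rfl).trans ?_)
    linarith
  have h5 : (2 * (⟪mv (Hf (n := n) u z) (Gr v z), Gr w z⟫ : ℝ)) ^ 2 ≤ ((a + b + c) * Λ) ^ 2 := by
    rw [← sq_abs]
    exact pow_le_pow_left₀ (abs_nonneg _) h4 2
  have h6 : (a + b + c) ^ 2 ≤ 3 * (a ^ 2 + b ^ 2 + c ^ 2) := by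
    nlinarith [sq_nonneg (a - b), sq_nonneg (a - c), sq_nonneg (b - c)]
  nlinarith [sq_nonneg Λ, mul_le_mul_of_nonneg_left h6 (sq_nonneg Λ), sq_nonneg a, sq_nonneg b,
    sq_nonneg c, mul_nonneg (sq_nonneg Λ) (sq_nonneg a), mul_nonneg (sq_nonneg Λ) (sq_nonneg b),
    mul_nonneg (sq_nonneg Λ) (sq_nonneg c)]

/-- sum of the squared norms of the Hessians of a system -/
def T2 (n : ℕ) {M : Type*} [MetricSpace M] [ChartedSpace (EuclideanSpace ℝ (Fin n)) M]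
    [IsManifold (𝓡 n) ∞ M] [RiemannianBundle (fun p : M => TangentSpace (𝓡 n) p)]
    [IsContMDiffRiemannianBundle (𝓡 n) ∞ (EuclideanSpace ℝ (Fin n))
      (fun p : M => TangentSpace (𝓡 n) p)]
    (U : Fin n → M → ℝ) (z : M) : ℝ := ∑ a, mHessSq n (U a) z

/-- sum of the squared norms of the gradients of the Gram matrix -/
def dF2 (n : ℕ) {M : Type*} [MetricSpace M] [ChartedSpace (EuclideanSpace ℝ (Fin n)) M]
    [IsManifold (𝓡 n) ∞ M] [RiemannianBundle (fun p : M => TangentSpace (𝓡 n) p)]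
    [IsContMDiffRiemannianBundle (𝓡 n) ∞ (EuclideanSpace ℝ (Fin n))
      (fun p : M => TangentSpace (𝓡 n) p)] [SecondCountableTopology M] [Nonempty M]
    (U : Fin n → M → ℝ) (z : M) : ℝ := ∑ a, ∑ b, ‖Gr (n := n) (mGam n (U a) (U b)) z‖ ^ 2

variable {U : Fin n → M → ℝ}

theorem T2_eq (hU : ∀ a, ContMDiffAt (𝓡 n) 𝓘(ℝ, ℝ) 2 (U a) z) :
    T2 n U z = ∑ a, ‖Hf (n := n) (U a) z‖ ^ 2 :=
  Finset.sum_congr rfl fun a _ => (norm_Hf_sq (hU a)).symm

theorem T2_nonneg (hU : ∀ a, ContMDiffAt (𝓡 n) 𝓘(ℝ, ℝ) 2 (U a) z) : 0 ≤ T2 n U z := by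
  rw [T2_eq hU]; positivity

theorem dF2_nonneg : 0 ≤ dF2 n U z := by unfold dF2; positivity

/-- `∑ |T|² ≤ C ∑ |∇F|²` where the Gram matrix is `≥ c`. -/
theorem T_le_dF {c Λ : ℝ} (hc : 0 < c) (hU : ∀ a, ContMDiffAt (𝓡 n) 𝓘(ℝ, ℝ) 2 (U a) z)
    (hΛ : ∀ a, ‖Gr (n := n) (U a) z‖ ≤ Λ)
    (hV : ∀ x : F n, c * ‖x‖ ^ 2 ≤ ‖∑ b, x b • Gr (n := n) (U b) z‖ ^ 2) :
    c ^ 2 * T2 n U z ≤ 3 * n * Λ ^ 2 * dF2 n U z := by
  rw [T2_eq hU, Finset.mul_sum]
  have h1 : ∀ a, c ^ 2 * ‖Hf (n := n) (U a) z‖ ^ 2 ≤ ∑ b, ∑ d, Λ ^ 2 *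
      (‖Gr (n := n) (mGam n (U a) (U b)) z‖ ^ 2 + ‖Gr (n := n) (mGam n (U a) (U d)) z‖ ^ 2 +
        ‖Gr (n := n) (mGam n (U b) (U d)) z‖ ^ 2) := fun a =>
    (gram_mat_le hc hV (Hf (U a) z)).trans (Finset.sum_le_sum fun b _ =>
      Finset.sum_le_sum fun d _ => koszul_sq_le (hU a) (hU b) (hU d) (hΛ a) (hΛ b) (hΛ d))
  refine (Finset.sum_le_sum fun a _ => h1 a).trans (le_of_eq ?_)
  simp only [← Finset.mul_sum, Finset.sum_add_distrib, Finset.sum_const, Finset.card_univ,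
    Fintype.card_fin, nsmul_eq_mul]
  rw [dF2]
  ring

/-- `∑ |∇F|² ≤ C ∑ |T|²`. -/
theorem dF_le_T {Λ : ℝ} (hU : ∀ a, ContMDiffAt (𝓡 n) 𝓘(ℝ, ℝ) 2 (U a) z)
    (hΛ : ∀ a, ‖Gr (n := n) (U a) z‖ ≤ Λ) :
    dF2 n U z ≤ 4 * n * Λ ^ 2 * T2 n U z := by
  rw [T2_eq hU, dF2]
  have h1 : ∀ a b, ‖Gr (n := n) (mGam n (U a) (U b)) z‖ ^ 2 ≤
      2 * Λ ^ 2 * (‖Hf (n := n) (U a) z‖ ^ 2 + ‖Hf (n := n) (U b) z‖ ^ 2) := by
    intro a b
    rw [Gr_mGam (hU a) (hU b)]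
    have e1 : ‖mv (Hf (U a) z) (Gr (n := n) (U b) z)‖ ≤ ‖Hf (n := n) (U a) z‖ * Λ :=
      (Hes124.norm_mv_le _ _).trans (by gcongr; exact hΛ b)
    have e2 : ‖mv (Hf (U b) z) (Gr (n := n) (U a) z)‖ ≤ ‖Hf (n := n) (U b) z‖ * Λ :=
      (Hes124.norm_mv_le _ _).trans (by gcongr; exact hΛ a)
    have e3 := (norm_add_le (mv (Hf (U a) z) (Gr (n := n) (U b) z))
      (mv (Hf (U b) z) (Gr (n := n) (U a) z))).trans (add_le_add e1 e2)
    have e4 := pow_le_pow_left₀ (norm_nonneg _) e3 2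
    refine e4.trans ?_
    nlinarith [sq_nonneg ((‖Hf (n := n) (U a) z‖ - ‖Hf (n := n) (U b) z‖) * Λ)]
  refine (Finset.sum_le_sum fun a _ => Finset.sum_le_sum fun b _ => h1 a b).trans (le_of_eq ?_)
  simp only [← Finset.mul_sum, Finset.sum_add_distrib, Finset.sum_const, Finset.card_univ,
    Fintype.card_fin, nsmul_eq_mul]
  ring

/-- Laplacian of `|∇u|²`, `u` harmonic near `z`. -/
theorem lap_mGam_self {ρ Λ : ℝ} (hu : ∀ᶠ y in 𝓝 z, mLap n u y = 0)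
    (hs : ContMDiffAt (𝓡 n) 𝓘(ℝ, ℝ) 3 u z)
    (hρ : ∀ x : F n, |(⟪mv (Ricf (n := n) z) x, x⟫ : ℝ)| ≤ ρ * ‖x‖ ^ 2)
    (hΛ : ‖Gr (n := n) u z‖ ≤ Λ) (hρ0 : 0 ≤ ρ) :
    |mLap n (mGam n u u) z| ≤ 2 * ‖Hf (n := n) u z‖ ^ 2 + 2 * ρ * Λ ^ 2 := by
  have h1 := bochner_pt hs
  have h2 : mLap n (hsq n u) z = (1 / 2) * mLap n (mGam n u u) z :=
    mLap_const_mul (1 / 2) (contMDiffAt_mGam (m := 2) hs hs (by norm_num) three_le_infty)
  have h3 : Gr (n := n) (mLap n u) z = 0 := by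
    rw [Gr_congr (g := fun _ => (0:ℝ)) hu]
    ext j
    rw [Gr_apply]
    have : df (n := n) (fun _ : M => (0:ℝ)) z = 0 := by
      unfold df
      rw [mfderiv_const]
      rfl
    rw [this]
    rfl
  rw [h3, inner_zero_right, add_zero, h2] at h1
  have h4 : mLap n (mGam n u u) z = 2 * ‖Hf (n := n) u z‖ ^ 2 +
      2 * ⟪mv (Ricf (n := n) z) (Gr (n := n) u z), Gr u z⟫ := by linarith
  rw [h4]
  refine (abs_add_le _ _).trans ?_
  rw [abs_of_nonneg (by positivity : (0:ℝ) ≤ 2 * ‖Hf (n := n) u z‖ ^ 2), abs_mul, abs_two]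
  have h5 := hρ (Gr (n := n) u z)
  have h6 : ‖Gr (n := n) u z‖ ^ 2 ≤ Λ ^ 2 := pow_le_pow_left₀ (norm_nonneg _) hΛ 2
  nlinarith [mul_le_mul_of_nonneg_left h6 hρ0]

theorem Hf_add (hu : ContMDiffAt (𝓡 n) 𝓘(ℝ, ℝ) 2 u z) (hv : ContMDiffAt (𝓡 n) 𝓘(ℝ, ℝ) 2 v z) :
    Hf (n := n) (fun q => u q + v q) z = Hf u z + Hf v z := by
  ext ij
  rw [PiLp.add_apply]
  exact mHess_add hu hv _ _

theorem mGam_polar (hu : MDifferentiableAt (𝓡 n) 𝓘(ℝ, ℝ) u z)
    (hv : MDifferentiableAt (𝓡 n) 𝓘(ℝ, ℝ) v z) :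
    mGam n (fun q => u q + v q) (fun q => u q + v q) z =
      mGam n u u z + 2 * mGam n u v z + mGam n v v z := by
  rw [mGam_add_left hu hv, mGam_add_right hu hv, mGam_add_right hu hv, mGam_comm v u]
  ring

/-- Laplacian of `⟨∇u, ∇v⟩`, `u`, `v` harmonic near `z`. -/
theorem lap_mGam {ρ Λ : ℝ} (hu : ∀ᶠ y in 𝓝 z, mLap n u y = 0) (hv : ∀ᶠ y in 𝓝 z, mLap n v y = 0)
    (hsu : ContMDiffAt (𝓡 n) 𝓘(ℝ, ℝ) 3 u z) (hsv : ContMDiffAt (𝓡 n) 𝓘(ℝ, ℝ) 3 v z)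
    (hρ : ∀ x : F n, |(⟪mv (Ricf (n := n) z) x, x⟫ : ℝ)| ≤ ρ * ‖x‖ ^ 2)
    (hΛu : ‖Gr (n := n) u z‖ ≤ Λ) (hΛv : ‖Gr (n := n) v z‖ ≤ Λ) (hρ0 : 0 ≤ ρ) :
    |mLap n (mGam n u v) z| ≤
      3 * (‖Hf (n := n) u z‖ ^ 2 + ‖Hf (n := n) v z‖ ^ 2) + 6 * ρ * Λ ^ 2 := by
  have hu2 := hsu.of_le (m := 2) (by norm_num)
  have hv2 := hsv.of_le (m := 2) (by norm_num)
  have : IsManifold (𝓡 n) 2 M := IsManifold.of_le (n := ∞) two_le_infty
  have hev : ∀ᶠ y in 𝓝 z, ContMDiffAt (𝓡 n) 𝓘(ℝ, ℝ) 2 u y ∧ ContMDiffAt (𝓡 n) 𝓘(ℝ, ℝ) 2 v y :=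
    ((contMDiffAt_iff_contMDiffAt_nhds (by norm_num)).1 hu2).and
      ((contMDiffAt_iff_contMDiffAt_nhds (by norm_num)).1 hv2)
  have hs : ContMDiffAt (𝓡 n) 𝓘(ℝ, ℝ) 3 (fun q => u q + v q) z := hsu.add hsv
  have hh : ∀ᶠ y in 𝓝 z, mLap n (fun q => u q + v q) y = 0 := by
    filter_upwards [hu, hv, hev] with y h1 h2 h3
    rw [mLap_add h3.1 h3.2, h1, h2, add_zero]
  have hG : Gr (n := n) (fun q => u q + v q) z = Gr u z + Gr v z :=
    Gr_add (hu2.mdifferentiableAt (by norm_num)) (hv2.mdifferentiableAt (by norm_num))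
  have hΛ : ‖Gr (n := n) (fun q => u q + v q) z‖ ≤ 2 * Λ := by
    rw [hG]; refine (norm_add_le _ _).trans ?_; linarith
  have b1 := lap_mGam_self hh hs hρ hΛ hρ0
  have b2 := lap_mGam_self hu hsu hρ hΛu hρ0
  have b3 := lap_mGam_self hv hsv hρ hΛv hρ0
  have hG2 : ∀ {f g : M → ℝ}, ContMDiffAt (𝓡 n) 𝓘(ℝ, ℝ) 3 f z → ContMDiffAt (𝓡 n) 𝓘(ℝ, ℝ) 3 g z →
      ContMDiffAt (𝓡 n) 𝓘(ℝ, ℝ) 2 (mGam n f g) z := fun hf hg =>
    contMDiffAt_mGam (m := 2) hf hg (by norm_num) three_le_infty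
  have e1 : mLap n (mGam n (fun q => u q + v q) (fun q => u q + v q)) z =
      mLap n (mGam n u u) z + 2 * mLap n (mGam n u v) z + mLap n (mGam n v v) z := by
    have e2 : mGam n (fun q => u q + v q) (fun q => u q + v q) =ᶠ[𝓝 z]
        fun y => (mGam n u u y + 2 * mGam n u v y) + mGam n v v y := by
      filter_upwards [hev] with y h3
      exact mGam_polar (h3.1.mdifferentiableAt (by norm_num)) (h3.2.mdifferentiableAt (by norm_num))
    have c1 : ContMDiffAt (𝓡 n) 𝓘(ℝ, ℝ) 2 (fun y => 2 * mGam n u v y) z :=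
      contMDiffAt_const.mul (hG2 hsu hsv)
    have c2 : ContMDiffAt (𝓡 n) 𝓘(ℝ, ℝ) 2 (fun y => mGam n u u y + 2 * mGam n u v y) z :=
      (hG2 hsu hsu).add c1
    rw [mLap_congr e2, mLap_add c2 (hG2 hsv hsv), mLap_add (hG2 hsu hsu) c1,
      mLap_const_mul 2 (hG2 hsu hsv)]
  have hH : ‖Hf (n := n) (fun q => u q + v q) z‖ ^ 2 ≤
      2 * (‖Hf (n := n) u z‖ ^ 2 + ‖Hf (n := n) v z‖ ^ 2) := by
    rw [Hf_add hu2 hv2]
    have h1 := norm_add_le (Hf (n := n) u z) (Hf v z)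
    have h2 := pow_le_pow_left₀ (norm_nonneg _) h1 2
    nlinarith [sq_nonneg (‖Hf (n := n) u z‖ - ‖Hf (n := n) v z‖)]
  have e3 : 2 * mLap n (mGam n u v) z = mLap n (mGam n (fun q => u q + v q) (fun q => u q + v q)) z -
      mLap n (mGam n u u) z - mLap n (mGam n v v) z := by rw [e1]; ring
  have h9 : |2 * mLap n (mGam n u v) z| ≤
      (2 * (2 * (‖Hf (n := n) u z‖ ^ 2 + ‖Hf (n := n) v z‖ ^ 2)) + 2 * ρ * (2 * Λ) ^ 2) +
      (2 * ‖Hf (n := n) u z‖ ^ 2 + 2 * ρ * Λ ^ 2) + (2 * ‖Hf (n := n) v z‖ ^ 2 + 2 * ρ * Λ ^ 2) := by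
    rw [e3]
    refine (abs_sub _ _).trans (add_le_add ((abs_sub _ _).trans (add_le_add ?_ b2)) b3)
    refine b1.trans ?_
    linarith
  rw [abs_mul, abs_two] at h9
  nlinarith [h9]

/-- `∑ (ΔF)² ≤ C ((∑ |T|²)² + Λ⁴ ρ²)`. -/
theorem lapF_le {ρ Λ : ℝ} (hu : ∀ a, ∀ᶠ y in 𝓝 z, mLap n (U a) y = 0)
    (hs : ∀ a, ContMDiffAt (𝓡 n) 𝓘(ℝ, ℝ) 3 (U a) z)
    (hρ : ∀ x : F n, |(⟪mv (Ricf (n := n) z) x, x⟫ : ℝ)| ≤ ρ * ‖x‖ ^ 2)
    (hΛ : ∀ a, ‖Gr (n := n) (U a) z‖ ≤ Λ) (hρ0 : 0 ≤ ρ) :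
    ∀ a b, mLap n (mGam n (U a) (U b)) z ^ 2 ≤ 72 * (T2 n U z ^ 2 + Λ ^ 4 * ρ ^ 2) := by
  intro a b
  have hU2 : ∀ a, ContMDiffAt (𝓡 n) 𝓘(ℝ, ℝ) 2 (U a) z := fun a => (hs a).of_le (by norm_num)
  have h1 := lap_mGam (hu a) (hu b) (hs a) (hs b) hρ (hΛ a) (hΛ b) hρ0
  have hT : ∀ a, ‖Hf (n := n) (U a) z‖ ^ 2 ≤ T2 n U z := by
    intro a
    rw [T2_eq hU2]
    exact Finset.single_le_sum (f := fun a => ‖Hf (n := n) (U a) z‖ ^ 2) (fun b _ => sq_nonneg _)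
      (Finset.mem_univ a)
  have h2 : |mLap n (mGam n (U a) (U b)) z| ≤ 6 * T2 n U z + 6 * ρ * Λ ^ 2 := by
    refine h1.trans ?_
    linarith [hT a, hT b]
  have h3 := pow_le_pow_left₀ (abs_nonneg _) h2 2
  rw [sq_abs] at h3
  nlinarith [sq_nonneg (T2 n U z - ρ * Λ ^ 2)]

end Crest.Agent.R249.Dec308
end
end

-- ▼ part R249/Dec3_308
section

/-!
R249, D3-DECAY (helper308), part 3: pointwise splitting `T2 ≤ C dF2 + 10 |F - A| T2`, continuity,
decay of the gradient of a harmonic function and of a function with `L²` Laplacian.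
-/

set_option autoImplicit false
set_option maxSynthPendingDepth 3
set_option linter.unusedSectionVars false

open scoped ContDiff ENNReal NNReal Topology Manifold Bundle RealInnerProductSpace
open MeasureTheory Set Filter Metric Bundle
open Crest.GeometryTopology.CoordMetric Crest.GeometryTopology.ChartCurvature
open Crest.Agent.R247 Crest.Agent.R247.Bo84 Crest.Agent.R247.Ms322 Crest.Agent.R247.Bs84
open Crest.Agent.R247.Hes124 (F S mv tr idm)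
open Crest.Agent.R247.Dir593.GradS (IsT)
open Crest.GeometryTopology.PointedLimit Crest.Agent.R247.Mcp688
open Crest.Agent.R249.HRep308 Crest.Agent.R249.SobE_982 Crest.Agent.R249.SobG_982

noncomputable section

namespace Crest.Agent.R249.Dec308

universe u
variable {n : ℕ} {M : Type u} [MetricSpace M] [CompleteSpace M] [ConnectedSpace M]
  [ChartedSpace (EuclideanSpace ℝ (Fin n)) M]
  [IsManifold 𝓘(ℝ, EuclideanSpace ℝ (Fin n)) ∞ M]
  [RiemannianBundle (fun x : M => TangentSpace 𝓘(ℝ, EuclideanSpace ℝ (Fin n)) x)]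
  [IsContMDiffRiemannianBundle 𝓘(ℝ, EuclideanSpace ℝ (Fin n)) ∞ (EuclideanSpace ℝ (Fin n))
    (fun x : M => TangentSpace 𝓘(ℝ, EuclideanSpace ℝ (Fin n)) x)]
  [IsRiemannianManifold 𝓘(ℝ, EuclideanSpace ℝ (Fin n)) M]
  [MeasurableSpace M] [BorelSpace M] [SecondCountableTopology M] [Nonempty M]

local notation "μM" => (μHE[n] : Measure M)

/-- the Gram matrix of a system -/
def Fm (n : ℕ) {M : Type*} [MetricSpace M] [ChartedSpace (EuclideanSpace ℝ (Fin n)) M]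
    [IsManifold (𝓡 n) ∞ M] [RiemannianBundle (fun p : M => TangentSpace (𝓡 n) p)]
    [IsContMDiffRiemannianBundle (𝓡 n) ∞ (EuclideanSpace ℝ (Fin n))
      (fun p : M => TangentSpace (𝓡 n) p)]
    (U : Fin n → M → ℝ) (z : M) : S n := WithLp.toLp 2 fun p => mGam n (U p.1) (U p.2) z

variable {U : Fin n → M → ℝ} {z : M}

theorem Fm_apply (p : Fin n × Fin n) : Fm n U z p = mGam n (U p.1) (U p.2) z := rfl

theorem norm_comb_sq (x : F n) :
    ‖∑ b, x b • Gr (n := n) (U b) z‖ ^ 2 = (⟪mv (Fm n U z) x, x⟫ : ℝ) := by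
  rw [← real_inner_self_eq_norm_sq, sum_inner, PiLp.inner_apply]
  refine Finset.sum_congr rfl fun a _ => ?_
  rw [inner_sum, Hes124.mv_apply, RCLike.inner_apply, conj_trivial, Finset.mul_sum]
  refine Finset.sum_congr rfl fun b _ => ?_
  rw [real_inner_smul_left, real_inner_smul_right, inner_Gr_eq_mGam, Fm_apply]
  ring

theorem mv_idm (x : F n) : mv (idm n) x = x := by
  ext i
  rw [Hes124.mv_apply]
  simp [idm]

theorem gram_lower {η : ℝ} (h : ‖Fm n U z - idm n‖ ≤ η) (x : F n) :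
    (1 - η) * ‖x‖ ^ 2 ≤ ‖∑ b, x b • Gr (n := n) (U b) z‖ ^ 2 := by
  rw [norm_comb_sq]
  have h1 : mv (Fm n U z) x = x + mv (Fm n U z - idm n) x := by
    rw [Hes124.mv_sub_left, mv_idm]; abel
  rw [h1, inner_add_left, real_inner_self_eq_norm_sq]
  have h2 : |(⟪mv (Fm n U z - idm n) x, x⟫ : ℝ)| ≤ η * ‖x‖ * ‖x‖ :=
    (abs_real_inner_le_norm _ _).trans
      (mul_le_mul_of_nonneg_right ((Hes124.norm_mv_le _ _).trans
        (mul_le_mul_of_nonneg_right h (norm_nonneg _))) (norm_nonneg _))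
  have h3 := neg_le_of_abs_le h2
  nlinarith

/-- **the splitting** -/
theorem T2_split {Λ : ℝ} (hU : ∀ a, ContMDiffAt (𝓡 n) 𝓘(ℝ, ℝ) 2 (U a) z)
    (hΛ : ∀ a, ‖Gr (n := n) (U a) z‖ ≤ Λ) {A : S n} (hA : ‖A - idm n‖ ≤ 1 / 4) :
    T2 n U z ≤ 8 * n * Λ ^ 2 * dF2 n U z + 10 * (‖Fm n U z - A‖ * T2 n U z) := by
  have hT := T2_nonneg hU
  have hd : 0 ≤ dF2 n U z := dF2_nonneg
  by_cases h : ‖Fm n U z - A‖ ≤ 1 / 10
  · have h1 : ‖Fm n U z - idm n‖ ≤ 7 / 20 := by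
      calc ‖Fm n U z - idm n‖ = ‖(Fm n U z - A) + (A - idm n)‖ := by congr 1; abel
        _ ≤ ‖Fm n U z - A‖ + ‖A - idm n‖ := norm_add_le _ _
        _ ≤ 7 / 20 := by linarith
    have h2 := T_le_dF (c := 13 / 20) (by norm_num) hU hΛ (fun x => by
      have := gram_lower h1 x
      norm_num at this ⊢
      linarith)
    have h3 : 0 ≤ 10 * (‖Fm n U z - A‖ * T2 n U z) := by positivity
    have h4 : 0 ≤ (n:ℝ) * Λ ^ 2 * dF2 n U z := by positivity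
    nlinarith
  · have h1 : 1 / 10 < ‖Fm n U z - A‖ := not_le.1 h
    have h2 : 1 / 10 * T2 n U z ≤ ‖Fm n U z - A‖ * T2 n U z :=
      mul_le_mul_of_nonneg_right h1.le hT
    have h3 : 0 ≤ 8 * (n:ℝ) * Λ ^ 2 * dF2 n U z := by positivity
    linarith

theorem z11_le : (0 : WithTop ℕ∞) + 1 + 1 ≤ ((⊤ : ℕ∞) : WithTop ℕ∞) := by
  have h : (0 : WithTop ℕ∞) + 1 + 1 = 2 := by norm_num
  rw [h]
  exact two_le_infty

/-! ### continuity -/

theorem continuousAt_T2 (hU : ∀ a, ContMDiffAt (𝓡 n) 𝓘(ℝ, ℝ) 2 (U a) z) :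
    ContinuousAt (T2 n U) z := by
  have : T2 n U = fun z => ∑ a, mHessSq n (U a) z := rfl
  rw [this]
  exact tendsto_finsetSum _ fun a _ => continuousAt_mHessSq (hU a)

theorem ctF (hU : ∀ a, ContMDiffAt (𝓡 n) 𝓘(ℝ, ℝ) ∞ (U a) z) (a b : Fin n) :
    ContMDiffAt (𝓡 n) 𝓘(ℝ, ℝ) ∞ (mGam n (U a) (U b)) z :=
  contMDiffAt_mGam (m := ∞) (hU a) (hU b) (by simp) le_rfl

theorem continuousAt_dF2 (hU : ∀ a, ContMDiffAt (𝓡 n) 𝓘(ℝ, ℝ) ∞ (U a) z) :
    ContinuousAt (dF2 n U) z := by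
  have : dF2 n U = fun z => ∑ a, ∑ b, ‖Gr (n := n) (mGam n (U a) (U b)) z‖ ^ 2 := rfl
  rw [this]
  exact tendsto_finsetSum _ fun a _ => tendsto_finsetSum _ fun b _ =>
    ((continuousAt_norm_Gr ((ctF hU a b).of_le (by simp))).pow 2)

theorem continuousAt_Fm (hU : ∀ a, ContMDiffAt (𝓡 n) 𝓘(ℝ, ℝ) ∞ (U a) z) :
    ContinuousAt (Fm n U) z := by
  have h1 : ContinuousAt (fun z => fun p : Fin n × Fin n => mGam n (U p.1) (U p.2) z) z :=
    continuousAt_pi.2 fun p => (ctF hU p.1 p.2).continuousAt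
  exact (PiLp.continuous_toLp 2 _).continuousAt.comp h1

/-! ### decay of harmonic functions -/

/-- decay for a harmonic function from the mean value inequality -/
theorem harm_decay (hRic : HasRicciLowerBound n M 0) {x : M} {s t C₁ w : ℝ} (hs : 0 < s)
    (ht : 0 < t) (ht4 : t ≤ 1 / 4) (hC₁ : 0 ≤ C₁)
    (hMV : ∀ f : M → ℝ, (∀ z ∈ ball x s, ContMDiffAt (𝓡 n) 𝓘(ℝ, ℝ) 2 f z) →
      (∀ z ∈ ball x s, 0 ≤ f z) → (∀ z ∈ ball x s, 0 ≤ mLap n f z) →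
      ∀ z ∈ ball x (s / 4), f z ≤ C₁ / s ^ n * ∫ y in ball x (s / 2), f y ∂μM)
    (hvol : (μM).real (ball x (t * s)) ≤ w * (t * s) ^ n)
    {H : M → ℝ} (hH : ContMDiffOn (𝓡 n) 𝓘(ℝ, ℝ) ∞ H (ball x s))
    (hL : ∀ z ∈ ball x s, mLap n H z = 0)
    (hHG : MemLp ((ball x s).indicator (Gr (n := n) H)) 2 μM) :
    ∫ z in ball x (t * s), ‖Gr (n := n) H z‖ ^ 2 ∂μM ≤
      w * C₁ * t ^ n * ∫ z in ball x s, ‖Gr (n := n) H z‖ ^ 2 ∂μM := by
  have := HR216.properSpace_of_riemannian n M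
  have := isLocallyFinite_muHE n M
  have hint : IntegrableOn (fun z => ‖Gr (n := n) H z‖ ^ 2) (ball x s) μM := by
    have h1 := (memLp_two_iff_integrable_sq_norm hHG.1).1 hHG
    rw [← integrable_indicator_iff isOpen_ball.measurableSet]
    refine h1.congr (Eventually.of_forall fun z => ?_)
    by_cases hz : z ∈ ball x s
    · simp [indicator_of_mem hz]
    · simp [indicator_of_notMem hz]
  set f : M → ℝ := fun z => ‖Gr (n := n) H z‖ ^ 2 with hf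
  have hfe : f = mGam n H H := by
    funext z; exact sq_norm_Gr H z
  have hc : ∀ z ∈ ball x s, ContMDiffAt (𝓡 n) 𝓘(ℝ, ℝ) ∞ H z := fun z hz =>
    ctAt isOpen_ball hH hz
  have h1 : ∀ z ∈ ball x (s / 4), f z ≤ C₁ / s ^ n * ∫ y in ball x (s / 2), f y ∂μM := by
    refine hMV f (fun z hz => ?_) (fun z _ => sq_nonneg _) (fun z hz => ?_)
    · rw [hfe]
      exact contMDiffAt_mGam (m := 2) ((hc z hz).of_le three_le_infty)
        ((hc z hz).of_le three_le_infty) (by norm_num) three_le_infty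
    · have hs3 : ContMDiffAt (𝓡 n) 𝓘(ℝ, ℝ) 3 H z := (hc z hz).of_le three_le_infty
      have hu : ∀ᶠ y in 𝓝 z, mLap n H y = 0 := by
        filter_upwards [isOpen_ball.mem_nhds hz] with y hy using hL y hy
      have b1 := bochner_pt hs3
      have b2 : mLap n (hsq n H) z = (1 / 2) * mLap n (mGam n H H) z :=
        mLap_const_mul (1 / 2) (contMDiffAt_mGam (m := 2) hs3 hs3 (by norm_num) three_le_infty)
      have b3 : Gr (n := n) (mLap n H) z = 0 := by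
        rw [Gr_congr (g := fun _ => (0:ℝ)) hu]
        ext j
        rw [Gr_apply]
        have : df (n := n) (fun _ : M => (0:ℝ)) z = 0 := by
          unfold df
          rw [mfderiv_const]
          rfl
        rw [this]
        rfl
      rw [b3, inner_zero_right, add_zero, b2] at b1
      have b4 := Ricf_lb hRic z (Gr (n := n) H z)
      rw [zero_mul] at b4
      rw [hfe]
      nlinarith [sq_nonneg ‖Hf (n := n) H z‖]
  set J := ∫ z in ball x s, f z ∂μM with hJ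
  have hJ0 : 0 ≤ J := integral_nonneg fun z => sq_nonneg _
  have h2 : ∫ y in ball x (s / 2), f y ∂μM ≤ J :=
    setIntegral_mono_set hint (Eventually.of_forall fun z => sq_nonneg _)
      (ball_subset_ball (by linarith)).eventuallyLE
  have h3 : ∀ z ∈ ball x (t * s), f z ≤ C₁ / s ^ n * J := by
    intro z hz
    have hz' : z ∈ ball x (s / 4) := ball_subset_ball (by nlinarith) hz
    exact (h1 z hz').trans (mul_le_mul_of_nonneg_left h2 (by positivity))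
  have hsub : ball x (t * s) ⊆ ball x s := ball_subset_ball (by nlinarith)
  have hfin : μM (ball x (t * s)) ≠ ⊤ := measure_ball_lt_top.ne
  calc ∫ z in ball x (t * s), f z ∂μM ≤ ∫ z in ball x (t * s), C₁ / s ^ n * J ∂μM :=
        setIntegral_mono_on (hint.mono_set hsub) (integrableOn_const hfin)
          isOpen_ball.measurableSet h3
    _ = (μM).real (ball x (t * s)) * (C₁ / s ^ n * J) := by
        rw [setIntegral_const, smul_eq_mul]
    _ ≤ (w * (t * s) ^ n) * (C₁ / s ^ n * J) := by gcongr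
    _ = w * C₁ * t ^ n * J := by
        rw [mul_pow]
        field_simp

/-- **decay for a function with `L²` Laplacian** -/
theorem fun_decay (hRic : HasRicciLowerBound n M 0) {x y : M} {s t C₁ w : ℝ} (hs : 0 < s)
    (ht : 0 < t) (ht4 : t ≤ 1 / 4) (hC₁ : 0 ≤ C₁) (hw : 0 ≤ w)
    (hy1 : 5 / 2 * s ≤ dist x y) (hy2 : dist x y ≤ 3 * s)
    (hMV : ∀ f : M → ℝ, (∀ z ∈ ball x s, ContMDiffAt (𝓡 n) 𝓘(ℝ, ℝ) 2 f z) →
      (∀ z ∈ ball x s, 0 ≤ f z) → (∀ z ∈ ball x s, 0 ≤ mLap n f z) →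
      ∀ z ∈ ball x (s / 4), f z ≤ C₁ / s ^ n * ∫ y in ball x (s / 2), f y ∂μM)
    (hvol : (μM).real (ball x (t * s)) ≤ w * (t * s) ^ n)
    {W : Set M} (hWo : IsOpen W) (hW : closedBall x s ⊆ W)
    {Fn : M → ℝ} (hF : ∀ z ∈ W, ContMDiffAt (𝓡 n) 𝓘(ℝ, ℝ) ∞ Fn z) :
    ∫ z in ball x (t * s), ‖Gr (n := n) Fn z‖ ^ 2 ∂μM ≤
      2 * (w * C₁) * t ^ n * (∫ z in ball x s, ‖Gr (n := n) Fn z‖ ^ 2 ∂μM) +
      2 * (64 * 4 ^ (n + 2)) * s ^ 2 * ∫ z in ball x s, mLap n Fn z ^ 2 ∂μM := by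
  have := HR216.properSpace_of_riemannian n M
  have := isLocallyFinite_muHE n M
  have hbW : ball x s ⊆ W := ball_subset_closedBall.trans hW
  have hFo : ContMDiffOn (𝓡 n) 𝓘(ℝ, ℝ) ∞ Fn (ball x s) := fun z hz =>
    (hF z (hbW hz)).contMDiffWithinAt
  have hiG : IntegrableOn (fun z => ‖Gr (n := n) Fn z‖ ^ 2) (ball x s) μM :=
    integrableOn_ball_of_contAt (U := W) (fun z hz =>
      (continuousAt_norm_Gr ((hF z hz).of_le (by simp))).pow 2) hW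
  have hiL : IntegrableOn (fun z => mLap n Fn z ^ 2) (ball x s) μM :=
    integrableOn_ball_of_contAt (U := W) (fun z hz =>
      (contMDiffAt_mLap (m := 0) (hF z hz) z11_le le_rfl).continuousAt.pow 2) hW
  have hmL : MemLp ((ball x s).indicator (mLap n Fn)) 2 μM := by
    have hco : ContinuousOn (mLap n Fn) (ball x s) := fun z hz =>
      ((contMDiffAt_mLap (m := 0) (hF z (hbW hz)) z11_le le_rfl).continuousAt).continuousWithinAt
    have hms : AEStronglyMeasurable ((ball x s).indicator (mLap n Fn)) μM :=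
      (aestronglyMeasurable_indicator_iff isOpen_ball.measurableSet).2
        (hco.aestronglyMeasurable isOpen_ball.measurableSet)
    rw [memLp_two_iff_integrable_sq hms]
    refine ((integrable_indicator_iff isOpen_ball.measurableSet).2 hiL).congr
      (Eventually.of_forall fun z => ?_)
    by_cases hz : z ∈ ball x s
    · simp [indicator_of_mem hz]
    · simp [indicator_of_notMem hz]
  have hmG : MemLp ((ball x s).indicator (Gr (n := n) Fn)) 2 μM := by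
    have hms : AEStronglyMeasurable ((ball x s).indicator (Gr (n := n) Fn)) μM :=
      ((measurable_Gr Fn).indicator isOpen_ball.measurableSet).aestronglyMeasurable
    rw [memLp_two_iff_integrable_sq_norm hms]
    refine ((integrable_indicator_iff isOpen_ball.measurableSet).2 hiG).congr
      (Eventually.of_forall fun z => ?_)
    by_cases hz : z ∈ ball x s
    · simp [indicator_of_mem hz]
    · simp [indicator_of_notMem hz]
  have hRic' : HasRicciLowerBound n M (-0) := by rw [neg_zero]; exact hRic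
  obtain ⟨H, hH, hL, hHG, hE, hD⟩ := hrep (n := n) (O := ball x s) isOpen_ball
    (P := 64 * 4 ^ (n + 2) * s ^ 2) (by positivity)
    (fun f hf hfs => StaD_509.dp le_rfl hRic' x y hs hy1 hy2 (by simp) hf hfs) hFo hmG hmL
  have hdec := harm_decay hRic hs ht ht4 hC₁ hMV hvol hH hL hHG
  have hsub : ball x (t * s) ⊆ ball x s := ball_subset_ball (by nlinarith)
  have hiH : IntegrableOn (fun z => ‖Gr (n := n) H z‖ ^ 2) (ball x s) μM := by
    have h1 := (memLp_two_iff_integrable_sq_norm hHG.1).1 hHG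
    rw [← integrable_indicator_iff isOpen_ball.measurableSet]
    refine h1.congr (Eventually.of_forall fun z => ?_)
    by_cases hz : z ∈ ball x s
    · simp [indicator_of_mem hz]
    · simp [indicator_of_notMem hz]
  have hiD : IntegrableOn (fun z => ‖Gr (n := n) Fn z - Gr (n := n) H z‖ ^ 2) (ball x s) μM := by
    have h1 := (memLp_two_iff_integrable_sq_norm (hmG.sub hHG).1).1 (hmG.sub hHG)
    rw [← integrable_indicator_iff isOpen_ball.measurableSet]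
    refine h1.congr (Eventually.of_forall fun z => ?_)
    by_cases hz : z ∈ ball x s
    · simp [indicator_of_mem hz]
    · simp [indicator_of_notMem hz]
  have h1 : ∫ z in ball x (t * s), ‖Gr (n := n) Fn z‖ ^ 2 ∂μM ≤
      ∫ z in ball x (t * s), (2 * ‖Gr (n := n) H z‖ ^ 2 +
        2 * ‖Gr (n := n) Fn z - Gr (n := n) H z‖ ^ 2) ∂μM := by
    refine setIntegral_mono_on (hiG.mono_set hsub)
      (((hiH.mono_set hsub).const_mul 2).add ((hiD.mono_set hsub).const_mul 2))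
      isOpen_ball.measurableSet fun z _ => ?_
    have e : Gr (n := n) Fn z = Gr (n := n) H z + (Gr (n := n) Fn z - Gr (n := n) H z) := by abel
    have e1 := norm_add_le (Gr (n := n) H z) (Gr (n := n) Fn z - Gr (n := n) H z)
    rw [← e] at e1
    have e2 := pow_le_pow_left₀ (norm_nonneg _) e1 2
    nlinarith [sq_nonneg (‖Gr (n := n) H z‖ - ‖Gr (n := n) Fn z - Gr (n := n) H z‖)]
  rw [integral_add ((hiH.mono_set hsub).const_mul 2) ((hiD.mono_set hsub).const_mul 2),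
    integral_const_mul, integral_const_mul] at h1
  have h2 : ∫ z in ball x (t * s), ‖Gr (n := n) Fn z - Gr (n := n) H z‖ ^ 2 ∂μM ≤
      ∫ z in ball x s, ‖Gr (n := n) Fn z - Gr (n := n) H z‖ ^ 2 ∂μM :=
    setIntegral_mono_set hiD (Eventually.of_forall fun z => sq_nonneg _) hsub.eventuallyLE
  have h3 : w * C₁ * t ^ n * ∫ z in ball x s, ‖Gr (n := n) H z‖ ^ 2 ∂μM ≤
      w * C₁ * t ^ n * ∫ z in ball x s, ‖Gr (n := n) Fn z‖ ^ 2 ∂μM :=
    mul_le_mul_of_nonneg_left hE (by positivity)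
  nlinarith [h1, h2, h3, hdec, hD]

end Crest.Agent.R249.Dec308
end
end

-- ▼ part R249/Dec4_308
section

/-!
R249, D3-DECAY (helper308), part 4: the one step inequality on a ball, in raw form.
-/

set_option autoImplicit false
set_option maxSynthPendingDepth 3
set_option linter.unusedSectionVars false

open scoped ContDiff ENNReal NNReal Topology Manifold Bundle RealInnerProductSpace
open MeasureTheory Set Filter Metric Bundle
open Crest.GeometryTopology.CoordMetric Crest.GeometryTopology.ChartCurvature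
open Crest.Agent.R247 Crest.Agent.R247.Bo84 Crest.Agent.R247.Ms322 Crest.Agent.R247.Bs84
open Crest.Agent.R247.Hes124 (F S mv tr idm)
open Crest.Agent.R247.Dir593.GradS (IsT)
open Crest.GeometryTopology.PointedLimit Crest.Agent.R247.Mcp688
open Crest.Agent.R249.HRep308 Crest.Agent.R249.SobE_982 Crest.Agent.R249.SobG_982

noncomputable section

namespace Crest.Agent.R249.Dec308

universe u
variable {n : ℕ} {M : Type u} [MetricSpace M] [CompleteSpace M] [ConnectedSpace M]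
  [ChartedSpace (EuclideanSpace ℝ (Fin n)) M]
  [IsManifold 𝓘(ℝ, EuclideanSpace ℝ (Fin n)) ∞ M]
  [RiemannianBundle (fun x : M => TangentSpace 𝓘(ℝ, EuclideanSpace ℝ (Fin n)) x)]
  [IsContMDiffRiemannianBundle 𝓘(ℝ, EuclideanSpace ℝ (Fin n)) ∞ (EuclideanSpace ℝ (Fin n))
    (fun x : M => TangentSpace 𝓘(ℝ, EuclideanSpace ℝ (Fin n)) x)]
  [IsRiemannianManifold 𝓘(ℝ, EuclideanSpace ℝ (Fin n)) M]
  [MeasurableSpace M] [BorelSpace M] [SecondCountableTopology M] [Nonempty M]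

local notation "μM" => (μHE[n] : Measure M)

variable {U : Fin n → M → ℝ} {z : M}

theorem norm_Fm_sub_sq (A : S n) (z : M) :
    ‖Fm n U z - A‖ ^ 2 = ∑ a, ∑ b, (mGam n (U a) (U b) z - A (a, b)) ^ 2 := by
  rw [Hes124.norm_sq_S]
  rfl

/-- Poincaré for the Gram matrix -/
theorem poinc_Fm (hRic : HasRicciLowerBound n M 0) {x : M} {s Λ : ℝ} (hs : 0 < s)
    {W : Set M} (hWo : IsOpen W) (hW : closedBall x (2 * s) ⊆ W)
    (hU : ∀ a, ∀ z ∈ W, ContMDiffAt (𝓡 n) 𝓘(ℝ, ℝ) ∞ (U a) z)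
    (hΛ : ∀ a, ∀ z ∈ W, ‖Gr (n := n) (U a) z‖ ≤ Λ)
    {A : S n} (hA : ∀ p, A p = ⨍ z in ball x s, mGam n (U p.1) (U p.2) z ∂μM) :
    ∫ z in ball x s, ‖Fm n U z - A‖ ^ 2 ∂μM ≤
      8 * s ^ 2 * 2 ^ n * (4 * n * Λ ^ 2) * ∫ z in ball x (2 * s), T2 n U z ∂μM := by
  have := HR216.properSpace_of_riemannian n M
  have := isLocallyFinite_muHE n M
  obtain ⟨C⟩ := Bgr546.rad_all n 0 le_rfl M (by rw [neg_zero]; exact hRic)
  have hW1 : closedBall x s ⊆ W := (closedBall_subset_closedBall (by linarith)).trans hW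
  have hF : ∀ a b, ∀ z ∈ W, ContMDiffAt (𝓡 n) 𝓘(ℝ, ℝ) ∞ (mGam n (U a) (U b)) z := fun a b z hz =>
    ctF (fun a => hU a z hz) a b
  have hi : ∀ a b, IntegrableOn (fun z => (mGam n (U a) (U b) z - A (a, b)) ^ 2) (ball x s) μM :=
    fun a b => integrableOn_ball_of_contAt (U := W)
      (fun z hz => ((hF a b z hz).continuousAt.sub continuousAt_const).pow 2) hW1
  have hiG : ∀ a b, IntegrableOn (fun z => ‖Gr (n := n) (mGam n (U a) (U b)) z‖ ^ 2)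
      (ball x (2 * s)) μM := fun a b => integrableOn_ball_of_contAt (U := W)
      (fun z hz => (continuousAt_norm_Gr ((hF a b z hz).of_le (by simp))).pow 2) hW
  have hiT : IntegrableOn (T2 n U) (ball x (2 * s)) μM := integrableOn_ball_of_contAt (U := W)
      (fun z hz => continuousAt_T2 fun a => (hU a z hz).of_le two_le_infty) hW
  have h1 : ∀ a b, ∫ z in ball x s, (mGam n (U a) (U b) z - A (a, b)) ^ 2 ∂μM ≤
      8 * s ^ 2 * 2 ^ n * ∫ z in ball x (2 * s), ‖Gr (n := n) (mGam n (U a) (U b)) z‖ ^ 2 ∂μM := by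
    intro a b
    have h2 := poincR C le_rfl (lgOn_of_contMDiffAt (n := n) hWo
      (fun z hz => (hF a b z hz).of_le (by simp))) (measurable_Gr _).norm hs hW
    rw [hA (a, b)]
    refine h2.trans (le_of_eq ?_)
    rw [mul_zero, zero_mul, Real.exp_zero, one_mul]
  simp only [norm_Fm_sub_sq]
  rw [integral_finsetSum _ fun a _ => integrable_finsetSum _ fun b _ => hi a b]
  have h3 : ∀ a, ∫ z in ball x s, ∑ b, (mGam n (U a) (U b) z - A (a, b)) ^ 2 ∂μM ≤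
      ∑ b, 8 * s ^ 2 * 2 ^ n *
        ∫ z in ball x (2 * s), ‖Gr (n := n) (mGam n (U a) (U b)) z‖ ^ 2 ∂μM := fun a => by
    rw [integral_finsetSum _ fun b _ => hi a b]
    exact Finset.sum_le_sum fun b _ => h1 a b
  refine (Finset.sum_le_sum fun a _ => h3 a).trans ?_
  simp only [← Finset.mul_sum]
  have h4 : (∑ a, ∑ b, ∫ z in ball x (2 * s), ‖Gr (n := n) (mGam n (U a) (U b)) z‖ ^ 2 ∂μM) =
      ∫ z in ball x (2 * s), dF2 n U z ∂μM := by
    unfold dF2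
    rw [integral_finsetSum _ fun a _ => integrable_finsetSum _ fun b _ => hiG a b]
    exact Finset.sum_congr rfl fun a _ => (integral_finsetSum _ fun b _ => hiG a b).symm
  rw [h4]
  have h5 : ∫ z in ball x (2 * s), dF2 n U z ∂μM ≤
      ∫ z in ball x (2 * s), (4 * n * Λ ^ 2) * T2 n U z ∂μM := by
    refine setIntegral_mono_on ?_ (hiT.const_mul _) isOpen_ball.measurableSet fun z hz => ?_
    · exact integrableOn_ball_of_contAt (U := W)
        (fun z hz => continuousAt_dF2 fun a => hU a z hz) hW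
    · have hzW := hW (ball_subset_closedBall hz)
      exact dF_le_T (fun a => (hU a z hzW).of_le two_le_infty) fun a => hΛ a z hzW
  rw [integral_const_mul] at h5
  have h6 : 8 * s ^ 2 * 2 ^ n * ∫ z in ball x (2 * s), dF2 n U z ∂μM ≤
      8 * s ^ 2 * 2 ^ n * ((4 * n * Λ ^ 2) * ∫ z in ball x (2 * s), T2 n U z ∂μM) :=
    mul_le_mul_of_nonneg_left h5 (by positivity)
  refine h6.trans (le_of_eq ?_)
  ring

/-- decay of the gradients of the Gram matrix -/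
theorem decay_dF2 (hRic : HasRicciLowerBound n M 0) {x y : M} {s t C₁ w Λ : ℝ} (hs : 0 < s)
    (ht : 0 < t) (ht4 : t ≤ 1 / 4) (hC₁ : 0 ≤ C₁) (hw : 0 ≤ w)
    (hy1 : 5 / 2 * s ≤ dist x y) (hy2 : dist x y ≤ 3 * s)
    (hMV : ∀ f : M → ℝ, (∀ z ∈ ball x s, ContMDiffAt (𝓡 n) 𝓘(ℝ, ℝ) 2 f z) →
      (∀ z ∈ ball x s, 0 ≤ f z) → (∀ z ∈ ball x s, 0 ≤ mLap n f z) →
      ∀ z ∈ ball x (s / 4), f z ≤ C₁ / s ^ n * ∫ y in ball x (s / 2), f y ∂μM)
    (hvol : (μM).real (ball x (t * s)) ≤ w * (t * s) ^ n)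
    {W : Set M} (hWo : IsOpen W) (hW : closedBall x s ⊆ W)
    (hU : ∀ a, ∀ z ∈ W, ContMDiffAt (𝓡 n) 𝓘(ℝ, ℝ) ∞ (U a) z)
    (hL : ∀ a, ∀ z ∈ W, mLap n (U a) z = 0)
    (hΛ : ∀ a, ∀ z ∈ W, ‖Gr (n := n) (U a) z‖ ≤ Λ)
    {ρ : M → ℝ} (hρ0 : ∀ z ∈ W, 0 ≤ ρ z)
    (hρ : ∀ z ∈ W, ∀ v : F n, |(⟪mv (Ricf (n := n) z) v, v⟫ : ℝ)| ≤ ρ z * ‖v‖ ^ 2)
    (hρi : IntegrableOn (fun z => ρ z ^ 2) (ball x s) μM) :
    ∫ z in ball x (t * s), dF2 n U z ∂μM ≤
      2 * (w * C₁) * t ^ n * (∫ z in ball x s, dF2 n U z ∂μM) +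
      2 * (64 * 4 ^ (n + 2)) * s ^ 2 * (n ^ 2 * (72 * ((∫ z in ball x s, T2 n U z ^ 2 ∂μM) +
        Λ ^ 4 * ∫ z in ball x s, ρ z ^ 2 ∂μM))) := by
  have := HR216.properSpace_of_riemannian n M
  have := isLocallyFinite_muHE n M
  have hF : ∀ a b, ∀ z ∈ W, ContMDiffAt (𝓡 n) 𝓘(ℝ, ℝ) ∞ (mGam n (U a) (U b)) z := fun a b z hz =>
    ctF (fun a => hU a z hz) a b
  have hsub : ball x (t * s) ⊆ ball x s := ball_subset_ball (by nlinarith)
  have hiG : ∀ a b, IntegrableOn (fun z => ‖Gr (n := n) (mGam n (U a) (U b)) z‖ ^ 2)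
      (ball x s) μM := fun a b => integrableOn_ball_of_contAt (U := W)
      (fun z hz => (continuousAt_norm_Gr ((hF a b z hz).of_le (by simp))).pow 2) hW
  have hiT : IntegrableOn (fun z => T2 n U z ^ 2) (ball x s) μM :=
    integrableOn_ball_of_contAt (U := W)
      (fun z hz => (continuousAt_T2 fun a => (hU a z hz).of_le two_le_infty).pow 2) hW
  have hsum : ∀ {r : ℝ}, ball x r ⊆ ball x s →
      ∫ z in ball x r, dF2 n U z ∂μM =
        ∑ a, ∑ b, ∫ z in ball x r, ‖Gr (n := n) (mGam n (U a) (U b)) z‖ ^ 2 ∂μM := by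
    intro r hr
    unfold dF2
    rw [integral_finsetSum _ fun a _ => integrable_finsetSum _ fun b _ => (hiG a b).mono_set hr]
    exact Finset.sum_congr rfl fun a _ =>
      integral_finsetSum _ fun b _ => (hiG a b).mono_set hr
  set Q := 72 * ((∫ z in ball x s, T2 n U z ^ 2 ∂μM) + Λ ^ 4 * ∫ z in ball x s, ρ z ^ 2 ∂μM) with hQ
  have hLF : ∀ a b, ∫ z in ball x s, mLap n (mGam n (U a) (U b)) z ^ 2 ∂μM ≤ Q := by
    intro a b
    have h1 : ∫ z in ball x s, mLap n (mGam n (U a) (U b)) z ^ 2 ∂μM ≤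
        ∫ z in ball x s, 72 * (T2 n U z ^ 2 + Λ ^ 4 * ρ z ^ 2) ∂μM := by
      refine setIntegral_mono_on ?_ ((hiT.add (hρi.const_mul _)).const_mul _)
        isOpen_ball.measurableSet fun z hz => ?_
      · exact integrableOn_ball_of_contAt (U := W) (fun z hz =>
          (contMDiffAt_mLap (m := 0) (hF a b z hz) z11_le le_rfl).continuousAt.pow 2) hW
      · have hzW := hW (ball_subset_closedBall hz)
        have hev : ∀ a, ∀ᶠ q in 𝓝 z, mLap n (U a) q = 0 := fun a => by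
          filter_upwards [hWo.mem_nhds hzW] with q hq using hL a q hq
        exact lapF_le hev (fun a => (hU a z hzW).of_le three_le_infty) (hρ z hzW)
          (fun a => hΛ a z hzW) (hρ0 z hzW) a b
    rw [integral_const_mul, integral_add hiT (hρi.const_mul _), integral_const_mul] at h1
    exact h1
  have h1 : ∀ a b, ∫ z in ball x (t * s), ‖Gr (n := n) (mGam n (U a) (U b)) z‖ ^ 2 ∂μM ≤
      2 * (w * C₁) * t ^ n * (∫ z in ball x s, ‖Gr (n := n) (mGam n (U a) (U b)) z‖ ^ 2 ∂μM) +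
      2 * (64 * 4 ^ (n + 2)) * s ^ 2 * Q := by
    intro a b
    have h2 := fun_decay hRic hs ht ht4 hC₁ hw hy1 hy2 hMV hvol hWo hW (hF a b)
    refine h2.trans ?_
    have h3 : 2 * (64 * 4 ^ (n + 2)) * s ^ 2 *
        ∫ z in ball x s, mLap n (mGam n (U a) (U b)) z ^ 2 ∂μM ≤
        2 * (64 * 4 ^ (n + 2)) * s ^ 2 * Q := mul_le_mul_of_nonneg_left (hLF a b) (by positivity)
    linarith
  rw [hsum hsub, hsum le_rfl]
  refine (Finset.sum_le_sum fun a _ => Finset.sum_le_sum fun b _ => h1 a b).trans (le_of_eq ?_)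
  simp only [Finset.sum_add_distrib, ← Finset.mul_sum, Finset.sum_const, Finset.card_univ,
    Fintype.card_fin, nsmul_eq_mul]
  ring

/-- **the one step inequality**, raw form. -/
theorem one_step_raw (hRic : HasRicciLowerBound n M 0) {x y : M} {s t C₁ w Λ : ℝ} (hs : 0 < s)
    (ht : 0 < t) (ht4 : t ≤ 1 / 4) (hC₁ : 0 ≤ C₁) (hw : 0 ≤ w)
    (hy1 : 5 / 2 * s ≤ dist x y) (hy2 : dist x y ≤ 3 * s)
    (hMV : ∀ f : M → ℝ, (∀ z ∈ ball x s, ContMDiffAt (𝓡 n) 𝓘(ℝ, ℝ) 2 f z) →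
      (∀ z ∈ ball x s, 0 ≤ f z) → (∀ z ∈ ball x s, 0 ≤ mLap n f z) →
      ∀ z ∈ ball x (s / 4), f z ≤ C₁ / s ^ n * ∫ y in ball x (s / 2), f y ∂μM)
    (hvol : (μM).real (ball x (t * s)) ≤ w * (t * s) ^ n)
    {W : Set M} (hWo : IsOpen W) (hW : closedBall x (2 * s) ⊆ W)
    (hU : ∀ a, ∀ z ∈ W, ContMDiffAt (𝓡 n) 𝓘(ℝ, ℝ) ∞ (U a) z)
    (hL : ∀ a, ∀ z ∈ W, mLap n (U a) z = 0)
    (hΛ : ∀ a, ∀ z ∈ W, ‖Gr (n := n) (U a) z‖ ≤ Λ)
    {ρ : M → ℝ} (hρ0 : ∀ z ∈ W, 0 ≤ ρ z)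
    (hρ : ∀ z ∈ W, ∀ v : F n, |(⟪mv (Ricf (n := n) z) v, v⟫ : ℝ)| ≤ ρ z * ‖v‖ ^ 2)
    (hρi : IntegrableOn (fun z => ρ z ^ 2) (ball x s) μM)
    {A : S n} (hA : ∀ p, A p = ⨍ z in ball x s, mGam n (U p.1) (U p.2) z ∂μM)
    (hA1 : ‖A - idm n‖ ≤ 1 / 4) :
    ∫ z in ball x (t * s), T2 n U z ∂μM ≤
      8 * n * Λ ^ 2 * (2 * (w * C₁) * t ^ n * (4 * n * Λ ^ 2 *
          ∫ z in ball x (2 * s), T2 n U z ∂μM) +
        2 * (64 * 4 ^ (n + 2)) * s ^ 2 * (n ^ 2 * (72 * ((∫ z in ball x s, T2 n U z ^ 2 ∂μM) +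
          Λ ^ 4 * ∫ z in ball x s, ρ z ^ 2 ∂μM)))) +
      10 * (√(8 * s ^ 2 * 2 ^ n * (4 * n * Λ ^ 2) * ∫ z in ball x (2 * s), T2 n U z ∂μM) *
        √(∫ z in ball x s, T2 n U z ^ 2 ∂μM)) := by
  have := HR216.properSpace_of_riemannian n M
  have := isLocallyFinite_muHE n M
  have hW1 : closedBall x s ⊆ W := (closedBall_subset_closedBall (by linarith)).trans hW
  have hsub : ball x (t * s) ⊆ ball x s := ball_subset_ball (by nlinarith)
  have hsub2 : ball x s ⊆ ball x (2 * s) := ball_subset_ball (by linarith)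
  have hTn : ∀ z ∈ W, 0 ≤ T2 n U z := fun z hz =>
    T2_nonneg fun a => (hU a z hz).of_le two_le_infty
  have hcT : ∀ z ∈ W, ContinuousAt (T2 n U) z := fun z hz =>
    continuousAt_T2 fun a => (hU a z hz).of_le two_le_infty
  have hcF : ∀ z ∈ W, ContinuousAt (fun z => ‖Fm n U z - A‖) z := fun z hz =>
    ((continuousAt_Fm fun a => hU a z hz).sub continuousAt_const).norm
  have hcd : ∀ z ∈ W, ContinuousAt (dF2 n U) z := fun z hz => continuousAt_dF2 fun a => hU a z hz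
  have hiT : IntegrableOn (T2 n U) (ball x (2 * s)) μM := integrableOn_ball_of_contAt hcT hW
  have hiT2 : IntegrableOn (fun z => T2 n U z ^ 2) (ball x s) μM :=
    integrableOn_ball_of_contAt (U := W) (fun z hz => (hcT z hz).pow 2) hW1
  have hid : IntegrableOn (dF2 n U) (ball x (2 * s)) μM := integrableOn_ball_of_contAt hcd hW
  have hiF2 : IntegrableOn (fun z => ‖Fm n U z - A‖ ^ 2) (ball x s) μM :=
    integrableOn_ball_of_contAt (U := W) (fun z hz => (hcF z hz).pow 2) hW1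
  have hiFT : IntegrableOn (fun z => ‖Fm n U z - A‖ * T2 n U z) (ball x s) μM :=
    integrableOn_ball_of_contAt (U := W) (fun z hz => (hcF z hz).mul (hcT z hz)) hW1
  -- pointwise splitting
  have h1 : ∫ z in ball x (t * s), T2 n U z ∂μM ≤
      8 * n * Λ ^ 2 * (∫ z in ball x (t * s), dF2 n U z ∂μM) +
        10 * ∫ z in ball x (t * s), ‖Fm n U z - A‖ * T2 n U z ∂μM := by
    have h2 : ∫ z in ball x (t * s), T2 n U z ∂μM ≤
        ∫ z in ball x (t * s), (8 * n * Λ ^ 2 * dF2 n U z +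
          10 * (‖Fm n U z - A‖ * T2 n U z)) ∂μM := by
      refine setIntegral_mono_on (hiT.mono_set (hsub.trans hsub2))
        (((hid.mono_set (hsub.trans hsub2)).const_mul _).add ((hiFT.mono_set hsub).const_mul _))
        isOpen_ball.measurableSet fun z hz => ?_
      have hzW := hW1 (ball_subset_closedBall (hsub hz))
      exact T2_split (fun a => (hU a z hzW).of_le two_le_infty) (fun a => hΛ a z hzW) hA1
    rwa [integral_add ((hid.mono_set (hsub.trans hsub2)).const_mul _)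
      ((hiFT.mono_set hsub).const_mul _), integral_const_mul, integral_const_mul] at h2
  -- Cauchy-Schwarz
  have h3 : ∫ z in ball x (t * s), ‖Fm n U z - A‖ * T2 n U z ∂μM ≤
      ∫ z in ball x s, ‖Fm n U z - A‖ * T2 n U z ∂μM := by
    refine setIntegral_mono_set hiFT ?_ hsub.eventuallyLE
    filter_upwards [ae_restrict_mem isOpen_ball.measurableSet] with z hz
    exact mul_nonneg (norm_nonneg _) (hTn z (hW1 (ball_subset_closedBall hz)))
  have h4 : ∫ z in ball x s, ‖Fm n U z - A‖ * T2 n U z ∂μM ≤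
      √(∫ z in ball x s, ‖Fm n U z - A‖ ^ 2 ∂μM) * √(∫ z in ball x s, T2 n U z ^ 2 ∂μM) := by
    have m1 : MemLp (fun z => ‖Fm n U z - A‖) 2 ((μM).restrict (ball x s)) := by
      refine (memLp_two_iff_integrable_sq ?_).2 hiF2
      exact ContinuousOn.aestronglyMeasurable (fun z hz =>
        (hcF z (hW1 (ball_subset_closedBall hz))).continuousWithinAt) isOpen_ball.measurableSet
    have m2 : MemLp (T2 n U) 2 ((μM).restrict (ball x s)) := by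
      refine (memLp_two_iff_integrable_sq ?_).2 hiT2
      exact ContinuousOn.aestronglyMeasurable (fun z hz =>
        (hcT z (hW1 (ball_subset_closedBall hz))).continuousWithinAt) isOpen_ball.measurableSet
    have h5 := Hes124.cs_mul m1 m2
    exact (le_abs_self _).trans h5
  have h6 := poinc_Fm hRic hs hWo hW hU hΛ hA
  have h7 := decay_dF2 hRic hs ht ht4 hC₁ hw hy1 hy2 hMV hvol hWo hW1 hU hL hΛ hρ0 hρ hρi
  have h8 : ∫ z in ball x s, dF2 n U z ∂μM ≤ 4 * n * Λ ^ 2 * ∫ z in ball x (2 * s), T2 n U z ∂μM := by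
    have h9 : ∫ z in ball x s, dF2 n U z ∂μM ≤ ∫ z in ball x (2 * s), dF2 n U z ∂μM :=
      setIntegral_mono_set hid (Eventually.of_forall fun z => dF2_nonneg) hsub2.eventuallyLE
    refine h9.trans ?_
    rw [← integral_const_mul]
    refine setIntegral_mono_on hid (hiT.const_mul _) isOpen_ball.measurableSet fun z hz => ?_
    have hzW := hW (ball_subset_closedBall hz)
    exact dF_le_T (fun a => (hU a z hzW).of_le two_le_infty) fun a => hΛ a z hzW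
  have h10 : ∫ z in ball x (t * s), dF2 n U z ∂μM ≤
      2 * (w * C₁) * t ^ n * (4 * n * Λ ^ 2 * ∫ z in ball x (2 * s), T2 n U z ∂μM) +
        2 * (64 * 4 ^ (n + 2)) * s ^ 2 * (n ^ 2 * (72 * ((∫ z in ball x s, T2 n U z ^ 2 ∂μM) +
          Λ ^ 4 * ∫ z in ball x s, ρ z ^ 2 ∂μM))) := by
    refine h7.trans ?_
    gcongr
  have h11 : √(∫ z in ball x s, ‖Fm n U z - A‖ ^ 2 ∂μM) * √(∫ z in ball x s, T2 n U z ^ 2 ∂μM) ≤
      √(8 * s ^ 2 * 2 ^ n * (4 * n * Λ ^ 2) * ∫ z in ball x (2 * s), T2 n U z ∂μM) *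
        √(∫ z in ball x s, T2 n U z ^ 2 ∂μM) :=
    mul_le_mul_of_nonneg_right (Real.sqrt_le_sqrt h6) (Real.sqrt_nonneg _)
  have h12 : 8 * n * Λ ^ 2 * (∫ z in ball x (t * s), dF2 n U z ∂μM) ≤
      8 * n * Λ ^ 2 * (2 * (w * C₁) * t ^ n * (4 * n * Λ ^ 2 *
          ∫ z in ball x (2 * s), T2 n U z ∂μM) +
        2 * (64 * 4 ^ (n + 2)) * s ^ 2 * (n ^ 2 * (72 * ((∫ z in ball x s, T2 n U z ^ 2 ∂μM) +
          Λ ^ 4 * ∫ z in ball x s, ρ z ^ 2 ∂μM)))) :=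
    mul_le_mul_of_nonneg_left h10 (by positivity)
  linarith

end Crest.Agent.R249.Dec308
end
end

-- ▼ part R249/Dec2_308
section

/-!
R249, D3-DECAY (helper308), part 2: the numerical iteration.

`iterate`: from the one step inequality
`θ (k+1) ≤ C₀ (τ² θ k + τ⁻² ((θ k + R k)² + R k + √(θ k) (θ k + R k)))`,
the drift `δ (k+1) ≤ δ k + D τ * √(θ k)` and `R k ≤ K (ρ τ^{4k} + e²)` to
`θ k ≤ C (τ^{2αk} (θ 0 + ρ) + e²)` as long as `k e ≤ c`.
-/

set_option autoImplicit false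

open Real

namespace Crest.Agent.R249.Dec308

/-- choice of the ratio `τ` -/
theorem exists_tau {C₀ α : ℝ} (hC : 1 ≤ C₀) (hα0 : 0 < α) (hα : α < 1) :
    ∃ τ : ℝ, 0 < τ ∧ τ ≤ 1 / 8 ∧ C₀ * τ ^ 2 ≤ 1 / 2 * τ ^ (2 * α) ∧ τ ^ 4 < τ ^ (2 * α) ∧
      τ ^ (2 * α) < 1 := by
  have h1 : 0 < 2 - 2 * α := by linarith
  have h2 : 0 < 1 / (2 * C₀) := by positivity
  set τ : ℝ := min (1 / 8) ((1 / (2 * C₀)) ^ (1 / (2 - 2 * α))) with hτ
  have hτ0 : 0 < τ := lt_min (by norm_num) (Real.rpow_pos_of_pos h2 _)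
  have hτ8 : τ ≤ 1 / 8 := min_le_left _ _
  have h3 : τ ^ (2 - 2 * α) ≤ 1 / (2 * C₀) := by
    have h4 : τ ^ (2 - 2 * α) ≤ ((1 / (2 * C₀)) ^ (1 / (2 - 2 * α))) ^ (2 - 2 * α) :=
      Real.rpow_le_rpow hτ0.le (min_le_right _ _) h1.le
    rwa [← Real.rpow_mul h2.le, one_div_mul_cancel h1.ne', Real.rpow_one] at h4
  refine ⟨τ, hτ0, hτ8, ?_, ?_, ?_⟩
  · have h5 : τ ^ 2 = τ ^ (2 * α) * τ ^ (2 - 2 * α) := by
      rw [← Real.rpow_add hτ0]
      norm_num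
    rw [h5]
    have h6 : 0 < τ ^ (2 * α) := Real.rpow_pos_of_pos hτ0 _
    calc C₀ * (τ ^ (2 * α) * τ ^ (2 - 2 * α)) ≤ C₀ * (τ ^ (2 * α) * (1 / (2 * C₀))) := by gcongr
      _ = 1 / 2 * τ ^ (2 * α) := by field_simp
  · have h7 : τ ^ (4:ℕ) = τ ^ (4:ℝ) := by norm_cast
    rw [h7]
    exact Real.rpow_lt_rpow_of_exponent_gt hτ0 (by linarith) (by linarith)
  · exact Real.rpow_lt_one hτ0.le (by linarith) (by linarith)

/-- absorption of the quadratic terms -/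
theorem absorb {C₀ τ β : ℝ} (hC : 1 ≤ C₀) (hτ : 0 < τ) (hβ : 0 < β)
    (h : C₀ * τ ^ 2 ≤ 1 / 2 * β) :
    ∃ ε : ℝ, 0 < ε ∧ ε ≤ 1 ∧ ∀ θ R : ℝ, 0 ≤ θ → 0 ≤ R → θ + R ≤ ε →
      C₀ * (τ ^ 2 * θ + τ⁻¹ ^ 2 * ((θ + R) ^ 2 + R + √θ * (θ + R))) ≤
        β * θ + 3 * C₀ * τ⁻¹ ^ 2 * R := by
  obtain ⟨D, hD⟩ : ∃ D, D = C₀ * τ⁻¹ ^ 2 := ⟨_, rfl⟩
  have hD0 : 0 < D := by rw [hD]; positivity
  obtain ⟨ε, hε⟩ : ∃ ε : ℝ, ε = min 1 ((β / (4 * D)) ^ 2) := ⟨_, rfl⟩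
  have hε0 : 0 < ε := by rw [hε]; exact lt_min one_pos (by positivity)
  have hε1 : ε ≤ 1 := by rw [hε]; exact min_le_left _ _
  have hsq : √ε ≤ β / (4 * D) := by
    rw [Real.sqrt_le_left (by positivity), hε]
    exact min_le_right _ _
  have hs1 : √ε ≤ 1 := (Real.sqrt_le_sqrt hε1).trans_eq Real.sqrt_one
  have hεs : ε ≤ √ε := by
    calc ε = √ε * √ε := (Real.mul_self_sqrt hε0.le).symm
      _ ≤ √ε * 1 := by gcongr
      _ = √ε := mul_one _
  refine ⟨ε, hε0, hε1, fun θ R hθ hR hs => ?_⟩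
  have h0 : 0 ≤ θ + R := by linarith
  have h1 : (θ + R) ^ 2 ≤ √ε * (θ + R) := by
    rw [sq]
    exact mul_le_mul_of_nonneg_right (hs.trans hεs) h0
  have h2 : √θ * (θ + R) ≤ √ε * (θ + R) :=
    mul_le_mul_of_nonneg_right (Real.sqrt_le_sqrt (by linarith)) h0
  have h4 : C₀ * (τ ^ 2 * θ + τ⁻¹ ^ 2 * ((θ + R) ^ 2 + R + √θ * (θ + R))) =
      C₀ * τ ^ 2 * θ + D * ((θ + R) ^ 2 + R + √θ * (θ + R)) := by rw [hD]; ring
  have h5 : D * (2 * √ε) ≤ 1 / 2 * β := by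
    have h51 : D * (2 * √ε) ≤ D * (2 * (β / (4 * D))) := by gcongr
    refine h51.trans (le_of_eq ?_)
    field_simp
    ring
  have h60 : (θ + R) ^ 2 + R + √θ * (θ + R) ≤ 2 * √ε * (θ + R) + R := by linarith
  have h6 : D * ((θ + R) ^ 2 + R + √θ * (θ + R)) ≤ D * (2 * √ε * (θ + R) + R) :=
    mul_le_mul_of_nonneg_left h60 hD0.le
  have h7 : D * (2 * √ε * (θ + R) + R) = D * (2 * √ε) * θ + (D * (2 * √ε) + D) * R := by ring
  have h8 : D * (2 * √ε) * θ ≤ 1 / 2 * β * θ := mul_le_mul_of_nonneg_right h5 hθ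
  have h90 : D * (2 * √ε) + D ≤ 3 * D := by
    have h91 : D * (2 * √ε) ≤ D * (2 * 1) := by gcongr
    linarith
  have h9 : (D * (2 * √ε) + D) * R ≤ 3 * D * R := mul_le_mul_of_nonneg_right h90 hR
  have h10 : C₀ * τ ^ 2 * θ ≤ 1 / 2 * β * θ := mul_le_mul_of_nonneg_right h hθ
  have h11 : 3 * D * R = 3 * C₀ * τ⁻¹ ^ 2 * R := by rw [hD]; ring
  rw [h4]
  linarith

/-- from the exact recursion to the simple bound -/
theorem ar1 {x b t θ₀ ρ e2 C₂ C₃ L : ℝ} (hb : 0 ≤ b) (ht : 0 ≤ t) (hθ : 0 ≤ θ₀) (hρ : 0 ≤ ρ)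
    (he : 0 ≤ e2) (h2 : 0 ≤ C₂) (h3 : 0 ≤ C₃) (hL : L = 1 + C₂ + C₃)
    (hx : x ≤ b * θ₀ + C₂ * ρ * (b - t) + C₃ * e2) : x ≤ L * (b * (θ₀ + ρ) + e2) := by
  have h1 : 0 ≤ C₂ * ρ * t := by positivity
  have h4 : 0 ≤ (C₂ + C₃) * b * θ₀ := by positivity
  have h5 : 0 ≤ (1 + C₃) * b * ρ := by positivity
  have h6 : 0 ≤ (1 + C₂) * e2 := by positivity
  have e1 : L * (b * (θ₀ + ρ) + e2) = (b * θ₀ + C₂ * ρ * (b - t) + C₃ * e2) + C₂ * ρ * t +
      (C₂ + C₃) * b * θ₀ + (1 + C₃) * b * ρ + (1 + C₂) * e2 := by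
    rw [hL]; ring
  linarith

/-- the drift bound -/
theorem ar2 {s p A L D y Q : ℝ} (hs : s < 1) (hp : 0 ≤ p) (hA : 0 ≤ A) (hL : 0 ≤ L)
    (hD : 0 ≤ D) (hy : 0 ≤ y) (hQ : Q = D * √L / (1 - s) + D * √L) :
    D * (√(L * A) * ((1 - p) / (1 - s)) + √L * y) ≤ Q * (√A + y) := by
  have hd : 0 < 1 - s := by linarith
  have i1 : (1 - p) / (1 - s) ≤ 1 / (1 - s) := by
    gcongr
    linarith
  have i2 : √(L * A) = √L * √A := Real.sqrt_mul hL _
  rw [i2]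
  have i3 : √L * √A * ((1 - p) / (1 - s)) ≤ √L * √A * (1 / (1 - s)) :=
    mul_le_mul_of_nonneg_left i1 (by positivity)
  have i3' : D * (√L * √A * ((1 - p) / (1 - s)) + √L * y) ≤
      D * (√L * √A * (1 / (1 - s)) + √L * y) :=
    mul_le_mul_of_nonneg_left (by linarith) hD
  refine i3'.trans ?_
  have i4 : 0 ≤ D * √L * √A := by positivity
  have i5 : 0 ≤ D * √L / (1 - s) * y := by positivity
  have e1 : D * (√L * √A * (1 / (1 - s)) + √L * y) =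
    D * √L / (1 - s) * √A + D * √L * y := by ring
  have e2 : Q * (√A + y) = D * √L / (1 - s) * √A + D * √L * y + D * √L * √A +
    D * √L / (1 - s) * y := by rw [hQ]; ring
  rw [e1, e2]
  linarith

/-- smallness of the drift -/
theorem ar3 {A ε Q y : ℝ} (hQ : 0 < Q) (hA : A ≤ 2 * ε) (hε : ε ≤ 1 / (1024 * Q ^ 2 + 1))
    (hy : y ≤ 1 / (16 * Q)) : Q * (√A + y) ≤ 1 / 8 := by
  have h1 : √A ≤ 1 / (16 * Q) := by
    rw [Real.sqrt_le_left (by positivity)]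
    have i2 : 1 / (1024 * Q ^ 2 + 1) ≤ 1 / (1024 * Q ^ 2) := by
      apply one_div_le_one_div_of_le (by positivity)
      linarith
    have i3 : (1 / (16 * Q)) ^ 2 = 1 / (256 * Q ^ 2) := by field_simp; norm_num
    have i4 : 1 / (1024 * Q ^ 2) = 1 / 4 * (1 / (256 * Q ^ 2)) := by field_simp; norm_num
    have i5 : 0 < 1 / (256 * Q ^ 2) := by positivity
    rw [i3]
    linarith
  have h2 : √A + y ≤ 2 * (1 / (16 * Q)) := by linarith
  calc Q * (√A + y) ≤ Q * (2 * (1 / (16 * Q))) := mul_le_mul_of_nonneg_left h2 hQ.le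
    _ = 1 / 8 := by field_simp; norm_num

/-- square root of the bound -/
theorem ar4 {x L b A e s : ℝ} (hx : x ≤ L * (b * A + e ^ 2)) (hL : 0 ≤ L) (hA : 0 ≤ A)
    (he : 0 ≤ e) (hs : 0 ≤ s) (hb : s ^ 2 = b) : √x ≤ √(L * A) * s + √L * e := by
  rw [Real.sqrt_le_left (by positivity)]
  refine hx.trans ?_
  have e1 : (√(L * A) * s + √L * e) ^ 2 = (√(L * A)) ^ 2 * s ^ 2 +
      (√L) ^ 2 * e ^ 2 + 2 * (√(L * A) * s * (√L * e)) := by ring
  rw [e1, Real.sq_sqrt (by positivity), Real.sq_sqrt hL, hb]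
  have h1 : 0 ≤ 2 * (√(L * A) * s * (√L * e)) := by positivity
  linarith

/-- the recursion step for `θ` -/
theorem ar5 {x y β t C₁ C₂ C₃ K ρ e2 θ₀ R : ℝ} {k : ℕ} (hβ : 0 ≤ β) (hC₁ : 0 ≤ C₁)
    (h3 : C₂ * (β - t) = C₁ * K) (h4 : C₃ * (1 - β) = C₁ * K)
    (hR : R ≤ K * (ρ * t ^ k + e2)) (hy : y ≤ β * x + C₁ * R)
    (hx : x ≤ β ^ k * θ₀ + C₂ * ρ * (β ^ k - t ^ k) + C₃ * e2) :
    y ≤ β ^ (k + 1) * θ₀ + C₂ * ρ * (β ^ (k + 1) - t ^ (k + 1)) + C₃ * e2 := by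
  have h1 : β * x ≤ β * (β ^ k * θ₀ + C₂ * ρ * (β ^ k - t ^ k) + C₃ * e2) :=
    mul_le_mul_of_nonneg_left hx hβ
  have h2 : C₁ * R ≤ C₁ * (K * (ρ * t ^ k + e2)) := mul_le_mul_of_nonneg_left hR hC₁
  have e1 : C₁ * (K * (ρ * t ^ k + e2)) =
      (C₂ * (β - t)) * (ρ * t ^ k) + (C₃ * (1 - β)) * e2 := by
    rw [h3, h4]; ring
  have h5 : β * (β ^ k * θ₀ + C₂ * ρ * (β ^ k - t ^ k) + C₃ * e2) +
      C₁ * (K * (ρ * t ^ k + e2)) =
      β ^ (k + 1) * θ₀ + C₂ * ρ * (β ^ (k + 1) - t ^ (k + 1)) + C₃ * e2 := by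
    rw [e1]
    ring
  linarith

/-- smallness of `θ + R` -/
theorem ar6 {x R L b A e2 K ρ ε ε₁ : ℝ} (hL : 0 ≤ L) (hK : 0 ≤ K) (hε : 0 ≤ ε)
    (hx : x ≤ L * (b * A + e2)) (hb : b ≤ 1) (hA0 : 0 ≤ A) (hA : A ≤ 2 * ε)
    (he : e2 ≤ ε) (hρ : ρ ≤ ε) (hR : R ≤ K * (ρ + e2)) (hεb : ε ≤ ε₁ / (4 * (L + K + 1))) :
    x + R ≤ ε₁ := by
  have h1 : b * A ≤ 1 * A := mul_le_mul_of_nonneg_right hb hA0
  have h2 : L * (b * A + e2) ≤ L * (3 * ε) := mul_le_mul_of_nonneg_left (by linarith) hL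
  have h3 : K * (ρ + e2) ≤ K * (2 * ε) := mul_le_mul_of_nonneg_left (by linarith) hK
  have h4 : L * (3 * ε) + K * (2 * ε) ≤ 4 * (L + K + 1) * ε := by nlinarith [mul_nonneg hL hε, mul_nonneg hK hε]
  have h5 : 4 * (L + K + 1) * ε ≤ 4 * (L + K + 1) * (ε₁ / (4 * (L + K + 1))) :=
    mul_le_mul_of_nonneg_left hεb (by positivity)
  have h6 : 4 * (L + K + 1) * (ε₁ / (4 * (L + K + 1))) = ε₁ := by
    have : (4 * (L + K + 1)) ≠ 0 := by positivity
    field_simp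
  linarith

/-- **the iteration** -/
theorem iterate {C₀ K α κ : ℝ} (D : ℝ → ℝ) (hC : 1 ≤ C₀) (hK : 0 ≤ K) (hκ : 0 < κ)
    (hD : ∀ t, 0 < t → 0 ≤ D t) (hα0 : 0 < α) (hα : α < 1) :
    ∃ τ ε C c : ℝ, 0 < τ ∧ τ ≤ 1 / 8 ∧ 0 < ε ∧ 0 < C ∧ 0 < c ∧
      ∀ (θ R δ : ℕ → ℝ) (e ρ : ℝ), (∀ k, 0 ≤ θ k) → (∀ k, 0 ≤ R k) → 0 ≤ e → 0 ≤ ρ →
        θ 0 ≤ ε → δ 0 ≤ 1 / 16 → ρ ≤ ε → e ≤ ε → (∀ k, R k ≤ K * (ρ * τ ^ (4 * k) + e ^ 2)) →
        (∀ k, δ k ≤ 1 / 4 → R k ≤ κ → θ (k + 1) ≤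
          C₀ * (τ ^ 2 * θ k + τ⁻¹ ^ 2 * ((θ k + R k) ^ 2 + R k + √(θ k) * (θ k + R k)))) →
        (∀ k, δ k ≤ 1 / 4 → δ (k + 1) ≤ δ k + D τ * √(θ k)) →
        ∀ k : ℕ, k * e ≤ c → θ k ≤ C * (τ ^ (2 * α * k) * (θ 0 + ρ) + e ^ 2) ∧
          δ k ≤ δ 0 + C * (√(θ 0 + ρ) + k * e) ∧ δ k ≤ 1 / 4 ∧ R k ≤ κ := by
  obtain ⟨τ, hτ0, hτ8, hτ1, hτ4, hβ1⟩ := exists_tau hC hα0 hα
  obtain ⟨β, hβ⟩ : ∃ β, β = τ ^ (2 * α) := ⟨_, rfl⟩
  rw [← hβ] at hτ1 hτ4 hβ1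
  have hβ0 : 0 < β := hβ ▸ Real.rpow_pos_of_pos hτ0 _
  obtain ⟨ε₁, hε₁0, hε₁1, habs⟩ := absorb hC hτ0 hβ0 hτ1
  obtain ⟨C₁, hC₁⟩ : ∃ C₁, C₁ = 3 * C₀ * τ⁻¹ ^ 2 := ⟨_, rfl⟩
  have hC₁0 : 0 < C₁ := by rw [hC₁]; positivity
  have hd2 : 0 < β - τ ^ 4 := by linarith
  have hd3 : 0 < 1 - β := by linarith
  obtain ⟨C₂, hC₂⟩ : ∃ C₂, C₂ = C₁ * K / (β - τ ^ 4) := ⟨_, rfl⟩
  obtain ⟨C₃, hC₃⟩ : ∃ C₃, C₃ = C₁ * K / (1 - β) := ⟨_, rfl⟩
  have hC₂0 : 0 ≤ C₂ := by rw [hC₂]; positivity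
  have hC₃0 : 0 ≤ C₃ := by rw [hC₃]; positivity
  have h32 : C₂ * (β - τ ^ 4) = C₁ * K := by rw [hC₂]; field_simp
  have h33 : C₃ * (1 - β) = C₁ * K := by rw [hC₃]; field_simp
  obtain ⟨s, hs⟩ : ∃ s, s = √β := ⟨_, rfl⟩
  have hs0 : 0 < s := hs ▸ Real.sqrt_pos.2 hβ0
  have hs1 : s < 1 := by rw [hs, Real.sqrt_lt' one_pos]; simpa using hβ1
  have hs2 : s ^ 2 = β := by rw [hs, Real.sq_sqrt hβ0.le]
  have hd4 : 0 < 1 - s := by linarith
  obtain ⟨L, hL⟩ : ∃ L, L = 1 + C₂ + C₃ := ⟨_, rfl⟩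
  have hL1 : 1 ≤ L := by linarith
  have hL0 : 0 < L := by linarith
  obtain ⟨E, hE⟩ : ∃ E, E = D τ + 1 := ⟨_, rfl⟩
  have hDτ := hD τ hτ0
  have hE0 : 0 < E := by linarith
  obtain ⟨Q, hQ⟩ : ∃ Q, Q = E * √L / (1 - s) + E * √L := ⟨_, rfl⟩
  have hQ0 : 0 < Q := by rw [hQ]; positivity
  obtain ⟨ε, hε⟩ : ∃ ε, ε = min (min (1 / (1024 * Q ^ 2 + 1)) (ε₁ / (4 * (L + K + 1))))
    (min (κ / (2 * (K + 1))) 1) := ⟨_, rfl⟩
  have hε0 : 0 < ε := by
    rw [hε]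
    exact lt_min (lt_min (by positivity) (by positivity)) (lt_min (by positivity) one_pos)
  have hεa : ε ≤ 1 / (1024 * Q ^ 2 + 1) := hε ▸ (min_le_left _ _).trans (min_le_left _ _)
  have hεb : ε ≤ ε₁ / (4 * (L + K + 1)) := hε ▸ (min_le_left _ _).trans (min_le_right _ _)
  have hεc : ε ≤ κ / (2 * (K + 1)) := hε ▸ (min_le_right _ _).trans (min_le_left _ _)
  have hε1 : ε ≤ 1 := hε ▸ (min_le_right _ _).trans (min_le_right _ _)
  clear hε
  refine ⟨τ, ε, L + Q, 1 / (16 * Q), hτ0, hτ8, hε0, by positivity, by positivity, ?_⟩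
  intro θ R δ e ρ hθ hR he hρ hθ0 hδ0 hρε heε hRK hstep hdrift
  obtain ⟨A, hA⟩ : ∃ A, A = θ 0 + ρ := ⟨_, rfl⟩
  have hA0 : 0 ≤ A := by have := hθ 0; linarith
  have hA2 : A ≤ 2 * ε := by linarith
  have hτ1' : τ ≤ 1 := by linarith
  have hpow : ∀ k : ℕ, β ^ k = τ ^ (2 * α * k) := by
    intro k
    rw [hβ, ← Real.rpow_natCast, ← Real.rpow_mul hτ0.le]
  have hβk : ∀ k : ℕ, β ^ k ≤ 1 := fun k => pow_le_one₀ hβ0.le hβ1.le
  have hRK' : ∀ k, R k ≤ K * (ρ * (τ ^ 4) ^ k + e ^ 2) := fun k => by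
    rw [← pow_mul]; exact hRK k
  have hRsmall : ∀ k, R k ≤ K * (ρ + e ^ 2) := by
    intro k
    refine (hRK' k).trans (mul_le_mul_of_nonneg_left ?_ hK)
    have h1 : (τ ^ 4) ^ k ≤ 1 := pow_le_one₀ (by positivity) (by linarith)
    have h2 : ρ * (τ ^ 4) ^ k ≤ ρ * 1 := mul_le_mul_of_nonneg_left h1 hρ
    linarith
  have he2 : e ^ 2 ≤ ε := by
    have : e ^ 2 ≤ e * 1 := by rw [sq]; exact mul_le_mul_of_nonneg_left (by linarith) he
    linarith
  have he20 : 0 ≤ e ^ 2 := sq_nonneg e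
  have hRκ : ∀ k, R k ≤ κ := by
    intro k
    refine (hRsmall k).trans ?_
    have h1 : K * (ρ + e ^ 2) ≤ K * (2 * ε) := mul_le_mul_of_nonneg_left (by linarith) hK
    have h2 : K * (2 * ε) ≤ (K + 1) * (2 * ε) :=
      mul_le_mul_of_nonneg_right (by linarith) (by linarith)
    have h3 : (K + 1) * (2 * ε) ≤ (K + 1) * (2 * (κ / (2 * (K + 1)))) :=
      mul_le_mul_of_nonneg_left (by linarith) (by linarith)
    have h4 : (K + 1) * (2 * (κ / (2 * (K + 1)))) = κ := by field_simp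
    linarith
  have hstepE : ∀ k, δ k ≤ 1 / 4 → δ (k + 1) ≤ δ k + E * √(θ k) := by
    intro k hk
    refine (hdrift k hk).trans ?_
    have : D τ * √(θ k) ≤ E * √(θ k) :=
      mul_le_mul_of_nonneg_right (by linarith) (Real.sqrt_nonneg _)
    linarith
  have hkey : ∀ k : ℕ, (k:ℝ) * e ≤ 1 / (16 * Q) →
      θ k ≤ β ^ k * θ 0 + C₂ * ρ * (β ^ k - (τ ^ 4) ^ k) + C₃ * e ^ 2 ∧
      δ k ≤ δ 0 + E * (√(L * A) * ((1 - s ^ k) / (1 - s)) + √L * (k * e)) := by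
    intro k
    induction k with
    | zero =>
      intro _
      simp only [pow_zero, one_mul, sub_self, mul_zero, add_zero, Nat.cast_zero, zero_mul, zero_div]
      refine ⟨?_, le_rfl⟩
      have : 0 ≤ C₃ * e ^ 2 := by positivity
      linarith
    | succ k ih =>
      intro hk
      have hk' : (k:ℝ) * e ≤ 1 / (16 * Q) := by
        refine le_trans ?_ hk
        exact mul_le_mul_of_nonneg_right (by push_cast; linarith) he
      obtain ⟨ih1, ih2⟩ := ih hk'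
      have hθk : θ k ≤ L * (β ^ k * A + e ^ 2) := by
        rw [hA]
        exact ar1 (by positivity) (by positivity) (hθ 0) hρ he20 hC₂0 hC₃0 hL ih1
      have hke : 0 ≤ (k:ℝ) * e := by positivity
      have hδk : δ k ≤ 1 / 4 := by
        have h1 := ar2 (p := s ^ k) hs1 (by positivity) hA0 hL0.le hE0.le hke hQ
        have h2 := ar3 hQ0 hA2 hεa hk'
        linarith
      have hsum : θ k + R k ≤ ε₁ :=
        ar6 hL0.le hK hε0.le hθk (hβk k) hA0 hA2 he2 hρε (hRsmall k) hεb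
      have hst := (hstep k hδk (hRκ k)).trans (habs (θ k) (R k) (hθ k) (hR k) hsum)
      rw [← hC₁] at hst
      constructor
      · exact ar5 hβ0.le hC₁0.le h32 h33 (hRK' k) hst ih1
      · refine (hstepE k hδk).trans ?_
        have h1 : √(θ k) ≤ √(L * A) * s ^ k + √L * e :=
          ar4 hθk hL0.le hA0 he (by positivity) (by rw [← pow_mul, mul_comm, pow_mul, hs2])
        have h2 : E * √(θ k) ≤ E * (√(L * A) * s ^ k + √L * e) :=
          mul_le_mul_of_nonneg_left h1 hE0.le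
        have h3 : (1 - s ^ (k + 1)) / (1 - s) = (1 - s ^ k) / (1 - s) + s ^ k := by
          field_simp
          ring
        rw [h3]
        push_cast
        have h4 : E * (√(L * A) * ((1 - s ^ k) / (1 - s) + s ^ k) + √L * ((k + 1) * e)) =
            E * (√(L * A) * ((1 - s ^ k) / (1 - s)) + √L * (k * e)) +
            E * (√(L * A) * s ^ k + √L * e) := by ring
        rw [h4]
        linarith
  intro k hk
  obtain ⟨h1, h2⟩ := hkey k hk
  have hke : 0 ≤ (k:ℝ) * e := by positivity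
  have hθk : θ k ≤ L * (β ^ k * A + e ^ 2) := by
    rw [hA]
    exact ar1 (by positivity) (by positivity) (hθ 0) hρ he20 hC₂0 hC₃0 hL h1
  have h3 := ar2 (p := s ^ k) hs1 (by positivity) hA0 hL0.le hE0.le hke hQ
  have h4 := ar3 hQ0 hA2 hεa hk
  refine ⟨?_, ?_, by linarith, hRκ k⟩
  · rw [← hpow k, ← hA]
    refine hθk.trans ?_
    have h5 : 0 ≤ Q * (β ^ k * A + e ^ 2) := by positivity
    linarith
  · rw [← hA]
    have h5 : 0 ≤ L * (√A + k * e) := by positivity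
    linarith

end Crest.Agent.R249.Dec308
end

-- ▼ part R249/Cod7_992
section

/-!
# R249, leaf D3-COD (helper992), file 7: `MCurvLe` in the coordinate form of `D1Def104.IdxStmt`
-/

set_option autoImplicit false

open scoped ContDiff Topology Manifold
open Filter Set Bundle
open Crest.GeometryTopology.CoordMetric Crest.GeometryTopology.ChartCurvature
open Crest.Agent.R202.Tens Crest.Agent.R247.Bo84

noncomputable section

namespace Crest.Agent.R249.Cod992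

variable {n : ℕ}

local notation "𝔼" => EuclideanSpace ℝ (Fin n)

lemma bil_curv_eq_sum {g : MetricField n} {U : Set (EuclideanSpace ℝ (Fin n))}
    {x : EuclideanSpace ℝ (Fin n)} (hg : IsRiemannianOn g U) (hx : x ∈ U)
    (u v w z : EuclideanSpace ℝ (Fin n)) :
    bil (g x) (curv (Gam g) x u v w) z =
      ∑ l, ∑ m, g x l m * (∑ k, ∑ i, ∑ j, riemann g x l k i j * w k * u i * v j) * z m := by
  rw [bil_apply]
  refine Finset.sum_congr rfl fun l _ => Finset.sum_congr rfl fun m _ => ?_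
  rw [curv_apply fun k i j => differentiableAt_christoffel hg hx k i j]

lemma quadForm_eq_bil (g : MetricField n) (x v : EuclideanSpace ℝ (Fin n)) :
    quadForm g x v = bil (g x) v v := by
  rw [bil_apply]; rfl

/-- the curvature bound in coordinates, with square roots. -/
theorem curvLe_iff {g : MetricField n} {U : Set (EuclideanSpace ℝ (Fin n))}
    {x : EuclideanSpace ℝ (Fin n)} (hg : IsRiemannianOn g U) (hx : x ∈ U) {b : ℝ} (hb : 0 ≤ b) :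
    CurvLe g x b ↔ ∀ u v w z : EuclideanSpace ℝ (Fin n),
      |∑ l, ∑ m, g x l m * (∑ k, ∑ i, ∑ j, riemann g x l k i j * w k * u i * v j) * z m| ≤
        b * Real.sqrt (quadForm g x u) * Real.sqrt (quadForm g x v) *
          Real.sqrt (quadForm g x w) * Real.sqrt (quadForm g x z) := by
  refine forall_congr' fun u => forall_congr' fun v => forall_congr' fun w =>
    forall_congr' fun z => ?_
  rw [← bil_curv_eq_sum hg hx, quadForm_eq_bil, quadForm_eq_bil, quadForm_eq_bil, quadForm_eq_bil]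
  have hu := bil_self_nonneg hg hx u
  have hv := bil_self_nonneg hg hx v
  have hw := bil_self_nonneg hg hx w
  have hz := bil_self_nonneg hg hx z
  have e : (b * Real.sqrt (bil (g x) u u) * Real.sqrt (bil (g x) v v) *
      Real.sqrt (bil (g x) w w) * Real.sqrt (bil (g x) z z)) ^ 2 =
      b ^ 2 * (bil (g x) u u * bil (g x) v v * bil (g x) w w * bil (g x) z z) := by
    rw [mul_pow, mul_pow, mul_pow, mul_pow, Real.sq_sqrt hu, Real.sq_sqrt hv, Real.sq_sqrt hw,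
      Real.sq_sqrt hz]
    ring
  rw [← e]
  exact ⟨fun h => abs_le_of_sq_le_sq h (by positivity), fun h => by
    rw [← sq_abs]; exact pow_le_pow_left₀ (abs_nonneg _) h 2⟩

variable {M : Type*} [TopologicalSpace M] [ChartedSpace (EuclideanSpace ℝ (Fin n)) M]
  [IsManifold 𝓘(ℝ, EuclideanSpace ℝ (Fin n)) ∞ M]
  [RiemannianBundle (fun p : M => TangentSpace 𝓘(ℝ, EuclideanSpace ℝ (Fin n)) p)]
  [IsContMDiffRiemannianBundle 𝓘(ℝ, EuclideanSpace ℝ (Fin n)) ∞ (EuclideanSpace ℝ (Fin n))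
    (fun p : M => TangentSpace 𝓘(ℝ, EuclideanSpace ℝ (Fin n)) p)]

/-- `MCurvLe` is exactly the pointwise hypothesis of `D1Def104.IdxStmt`. -/
theorem mCurvLe_iff {p : M} {b : ℝ} (hb : 0 ≤ b) :
    MCurvLe n p b ↔ ∀ u v w z : EuclideanSpace ℝ (Fin n),
      |∑ l, ∑ m, chartMetric n M p (chartCentre n M p) l m *
        (∑ k, ∑ i, ∑ j, riemann (chartMetric n M p) (chartCentre n M p) l k i j *
          w k * u i * v j) * z m| ≤
        b * Real.sqrt (quadForm (chartMetric n M p) (chartCentre n M p) u) *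
          Real.sqrt (quadForm (chartMetric n M p) (chartCentre n M p) v) *
          Real.sqrt (quadForm (chartMetric n M p) (chartCentre n M p) w) *
          Real.sqrt (quadForm (chartMetric n M p) (chartCentre n M p) z) :=
  curvLe_iff (isRiemannianOn_chartMetric (n := n) p) (centre_mem p) hb

/-- monotonicity of the bound. -/
lemma MCurvLe.mono {p : M} {b c : ℝ} (h : MCurvLe n p b) (hbc : b ^ 2 ≤ c ^ 2) :
    MCurvLe n p c := by
  intro u v w z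
  refine (h u v w z).trans (mul_le_mul_of_nonneg_right hbc ?_)
  have hg := isRiemannianOn_chartMetric (n := n) p
  have hx := centre_mem (n := n) p
  exact mul_nonneg (mul_nonneg (mul_nonneg (bil_self_nonneg hg hx u) (bil_self_nonneg hg hx v))
    (bil_self_nonneg hg hx w)) (bil_self_nonneg hg hx z)

end Crest.Agent.R249.Cod992
end
end

-- ▼ part R249/Dec5_308

/-!
R249, D3-DECAY (helper308), part 5 (`n = 4`): Ricci bound from a curvature bound, volume facts under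
the pinching `Pin`, mean value inequality, normalised one step inequality, drift of the averages.
-/

set_option autoImplicit false
set_option maxSynthPendingDepth 3
set_option linter.unusedSectionVars false

open scoped ContDiff ENNReal NNReal Topology Manifold Bundle RealInnerProductSpace
open MeasureTheory Set Filter Metric Bundle
open Crest.GeometryTopology.CoordMetric Crest.GeometryTopology.ChartCurvature
open Crest.Agent.R247 Crest.Agent.R247.Bo84 Crest.Agent.R247.Ms322 Crest.Agent.R247.Bs84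
open Crest.Agent.R247.Hes124 (F S mv tr idm)
open Crest.Agent.R247.Dir593.GradS (IsT)
open Crest.GeometryTopology.PointedLimit Crest.Agent.R247.Mcp688
open Crest.Agent.R249.HRep308 Crest.Agent.R249.SobE_982 Crest.Agent.R249.SobG_982
open Crest.Agent.R249.Cod992 Crest.Agent.R202.Tens

noncomputable section

namespace Crest.Agent.R249.Dec308

universe u

section ric
variable {n : ℕ} {M : Type u} [MetricSpace M]
  [ChartedSpace (EuclideanSpace ℝ (Fin n)) M]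
  [IsManifold 𝓘(ℝ, EuclideanSpace ℝ (Fin n)) ∞ M]
  [RiemannianBundle (fun x : M => TangentSpace 𝓘(ℝ, EuclideanSpace ℝ (Fin n)) x)]
  [IsContMDiffRiemannianBundle 𝓘(ℝ, EuclideanSpace ℝ (Fin n)) ∞ (EuclideanSpace ℝ (Fin n))
    (fun x : M => TangentSpace 𝓘(ℝ, EuclideanSpace ℝ (Fin n)) x)]
  [SecondCountableTopology M] [Nonempty M]

/-- bound of the Ricci form by the curvature bound. -/
theorem Ricf_le_of_curv {z : M} {b : ℝ} (hb : 0 ≤ b) (h : MCurvLe n z b) (v : F n) :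
    |(⟪mv (Ricf (n := n) z) v, v⟫ : ℝ)| ≤ n * b * ‖v‖ ^ 2 := by
  rw [inner_mv_Ricf]
  have hg := Bo84.isRiemannianOn_chartMetric (n := n) z
  have hc := Bo84.centre_mem (n := n) z
  set V := dCh z z (vf z v) with hV
  have e1 : mRic n z (vf z v) (vf z v) =
      Bia3_104.ricF (chartMetric n M z) (chartCentre n M z) V V := by
    rw [Bia3_104.ricF_eq hg hc]; rfl
  have hn : bil (chartMetric n M z (chartCentre n M z)) V V = ‖v‖ ^ 2 := by
    rw [hV, ← inner_centre, real_inner_self_eq_norm_sq, norm_vf_sq]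
  obtain ⟨ξ, hξ⟩ := exists_frame hg hc
  rw [e1, Bia3_104.ricF_frame hg hc hξ]
  refine (Finset.abs_sum_le_sum_abs _ _).trans ?_
  have h1 : ∀ a, |bil (chartMetric n M z (chartCentre n M z))
      (curv (Gam (chartMetric n M z)) (chartCentre n M z) (ξ a) V V) (ξ a)| ≤ b * ‖v‖ ^ 2 := by
    intro a
    refine abs_le_of_sq_le_sq ?_ (by positivity)
    have h2 := h (ξ a) V V (ξ a)
    have h3 : bil (chartMetric n M z (chartCentre n M z)) (ξ a) (ξ a) = 1 := by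
      rw [hξ.orth a a, if_pos rfl]
    rw [h3, hn] at h2
    refine h2.trans (le_of_eq ?_)
    ring
  refine (Finset.sum_le_sum fun a _ => h1 a).trans (le_of_eq ?_)
  rw [Finset.sum_const, Finset.card_univ, Fintype.card_fin, nsmul_eq_mul]
  ring

end ric

/-! ### volumes -/

/-- volume of the unit ball of `ℝ⁴` -/
def om4 : ℝ := (volume (ball (0 : EuclideanSpace ℝ (Fin 4)) 1)).toReal

theorem om4_ge : 1 ≤ om4 := by
  unfold om4
  rw [InnerProductSpace.volume_ball_of_dim_even (k := 2) (by simp)]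
  have h2 : (1:ℝ) ≤ Real.pi ^ 2 / 2 := by
    have := Real.pi_gt_three
    nlinarith
  simp only [finrank_euclideanSpace_fin, ENNReal.ofReal_one, one_pow, one_mul]
  rw [ENNReal.toReal_ofReal (by positivity)]
  norm_num [Nat.factorial]
  linarith

theorem vol4 {r : ℝ} (hr : 0 < r) :
    volume (ball (0 : EuclideanSpace ℝ (Fin 4)) r) = ENNReal.ofReal (om4 * r ^ 4) := by
  rw [Dens_274.vol_ball _ hr, mul_comm om4, ENNReal.ofReal_mul (by positivity), om4,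
    ENNReal.ofReal_toReal measure_ball_lt_top.ne]

variable {M : Type u} [MetricSpace M] [CompleteSpace M] [ConnectedSpace M]
  [ChartedSpace (EuclideanSpace ℝ (Fin 4)) M]
  [IsManifold 𝓘(ℝ, EuclideanSpace ℝ (Fin 4)) ∞ M]
  [RiemannianBundle (fun x : M => TangentSpace 𝓘(ℝ, EuclideanSpace ℝ (Fin 4)) x)]
  [IsContMDiffRiemannianBundle 𝓘(ℝ, EuclideanSpace ℝ (Fin 4)) ∞ (EuclideanSpace ℝ (Fin 4))
    (fun x : M => TangentSpace 𝓘(ℝ, EuclideanSpace ℝ (Fin 4)) x)]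
  [IsRiemannianManifold 𝓘(ℝ, EuclideanSpace ℝ (Fin 4)) M]
  [MeasurableSpace M] [BorelSpace M] [SecondCountableTopology M] [Nonempty M]

local notation "μM" => (μHE[4] : Measure M)

/-- volume pinching on a ball, all scales up to `3 R` -/
def Pin (x : M) (R : ℝ) : Prop := ∀ y ∈ ball x R, ∀ r : ℝ, 0 < r → r ≤ 3 * R →
  ENNReal.ofReal (1 / 2) * volume (ball (0 : EuclideanSpace ℝ (Fin 4)) r) ≤ μM (ball y r)

theorem vol_up (hRic : HasRicciLowerBound 4 M 0) (y : M) (s : ℝ) (hs : 0 < s) :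
    μM (ball y s) ≤ ENNReal.ofReal (om4 * s ^ 4) := by
  have h := Dens_274.theta_le_one hRic y hs
  unfold Dens_274.theta at h
  rw [ENNReal.div_le_iff (measure_ball_pos _ _ hs).ne' measure_ball_lt_top.ne, one_mul, vol4 hs] at h
  exact h

theorem real_up (hRic : HasRicciLowerBound 4 M 0) (y : M) (s : ℝ) (hs : 0 < s) :
    (μM).real (ball y s) ≤ om4 * s ^ 4 := by
  have h := vol_up hRic y s hs
  have h0 := om4_ge
  exact ENNReal.toReal_le_of_le_ofReal (by positivity) h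

theorem vol_lo {x : M} {R : ℝ} (hP : Pin x R) {y : M} (hy : y ∈ ball x R) {r : ℝ} (hr : 0 < r)
    (hrR : r ≤ 3 * R) : ENNReal.ofReal (om4 / 2 * r ^ 4) ≤ μM (ball y r) := by
  refine le_trans (le_of_eq ?_) (hP y hy r hr hrR)
  rw [vol4 hr, ← ENNReal.ofReal_mul (by norm_num)]
  congr 1
  ring

theorem real_lo (hRic : HasRicciLowerBound 4 M 0) {x : M} {R : ℝ} (hP : Pin x R) {y : M}
    (hy : y ∈ ball x R) {r : ℝ} (hr : 0 < r)
    (hrR : r ≤ 3 * R) : om4 / 2 * r ^ 4 ≤ (μM).real (ball y r) := by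
  have h1 := vol_lo hP hy hr hrR
  have h2 : μM (ball y r) ≠ ⊤ := ne_top_of_le_ne_top ENNReal.ofReal_ne_top (vol_up hRic y r hr)
  exact (ENNReal.ofReal_le_iff_le_toReal h2).1 h1

/-- a point at distance between `5 s / 2` and `3 s` -/
theorem exists_far (hRic : HasRicciLowerBound 4 M 0) {x : M} {R : ℝ} (hP : Pin x R) {s : ℝ}
    (hs : 0 < s) (hsR : s ≤ R) : ∃ y : M, 5 / 2 * s ≤ dist x y ∧ dist x y ≤ 3 * s := by
  by_contra hcon
  push Not at hcon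
  have h0 := om4_ge
  have h1 : ball x (3 * s) ⊆ ball x (5 / 2 * s) := by
    intro y hy
    by_contra h
    rw [mem_ball, dist_comm] at hy
    rw [mem_ball, dist_comm, not_lt] at h
    have := hcon y h
    linarith
  have h2 := vol_lo hP (mem_ball_self (by linarith : 0 < R)) (r := 3 * s) (by positivity)
    (by linarith)
  have h3 := vol_up hRic x (5 / 2 * s) (by positivity)
  have h4 := (h2.trans (measure_mono h1)).trans h3
  rw [ENNReal.ofReal_le_ofReal_iff (by positivity)] at h4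
  have h5 : 0 < om4 * s ^ 4 := by positivity
  nlinarith

/-- the constant of the mean value inequality -/
def CMV : ℝ := 4096 * SobI_982.CM 0 om4 3 1 ^ 2 * 16

theorem CMV_nonneg : 0 ≤ CMV := by unfold CMV; positivity

theorem KS_zero (om Λ r r' : ℝ) : KS 0 om Λ r = KS 0 om Λ r' := by
  unfold KS
  simp

theorem CM_zero (om Λ r r' : ℝ) : SobI_982.CM 0 om Λ r = SobI_982.CM 0 om Λ r' := by
  unfold SobI_982.CM
  rw [KS_zero om Λ (r / 2) (r' / 2)]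

/-- **mean value inequality** in the form used by `one_step_raw` -/
theorem mv_ball (hRic : HasRicciLowerBound 4 M 0) {x : M} {R : ℝ} (hP : Pin x R) {s : ℝ}
    (hs : 0 < s) (hsR : s ≤ R) : ∀ f : M → ℝ,
      (∀ z ∈ ball x s, ContMDiffAt (𝓡 4) 𝓘(ℝ, ℝ) 2 f z) →
      (∀ z ∈ ball x s, 0 ≤ f z) → (∀ z ∈ ball x s, 0 ≤ mLap 4 f z) →
      ∀ z ∈ ball x (s / 4), f z ≤ CMV / s ^ 4 * ∫ y in ball x (s / 2), f y ∂μM := by
  intro f hf hf0 hL z hz
  obtain ⟨C⟩ := Bgr546.rad_all 4 0 le_rfl M (by rw [neg_zero]; exact hRic)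
  have h0 := om4_ge
  have h1 := SobJ_982.mv1 C le_rfl (om := om4) (by linarith) (vol_up hRic) (x0 := x) (r := s / 2)
    (Λ := 3) (v := om4 / 2) (by positivity) (by norm_num) (by linarith)
    (fun y hy s' hs' hs'2 => vol_lo hP (ball_subset_ball (by linarith) hy) (by positivity)
      (by linarith)) (U := ball x s) isOpen_ball
    (fun y hy => by
      rw [mem_closedBall] at hy
      rw [mem_ball]; linarith) hf hf0 hL (x := z)
    (by rw [show s / 2 / 2 = s / 4 by ring]; exact hz)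
  refine h1.trans (le_of_eq ?_)
  rw [CM_zero om4 3 (s / 2) 1, CMV]
  field_simp
  ring

end Crest.Agent.R249.Dec308
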