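import Crest.Agent.R249.DenH_714

/-!
# Row 249, PART C (helper714): the limit of the heat trace difference for a pair of `Bun`s

`PLoc B0 B1 D0 D1 z d` : at `z` there are local frames (germs) of both bundles with matrices `a0, a1`, potentials
`q0, q1`, equal ranks, `tr q0 = tr q1` and
`d = (1/32π²) ev (tr q0² - tr q1²) + (1/192π²) ev (tO a0 - tO a1)`.
`lim_pair` : then `∑ e^{-tμ_k} - ∑ e^{-tν_k} → ∫_M d`.
-/

set_option autoImplicit false
set_option maxSynthPendingDepth 3
set_option linter.unusedSectionVars false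

open Filter Topology Set Bundle Manifold Matrix MeasureTheory
open scoped ContDiff ENNReal NNReal
open Crest.GeometryTopology.CoordMetric Crest.GeometryTopology.ChartCurvature
open Crest.Agent.R249.Fr129 Crest.Agent.R249.Sg129
open Crest.Agent.R249.Tv57 Crest.Agent.R249.Tz805
open Crest.Agent.R249.HK286 (E4)

noncomputable section

namespace Crest.Agent.R249.HK9_714

variable {M : Type*} [MetricSpace M] [ChartedSpace (EuclideanSpace ℝ (Fin 4)) M]
  [IsManifold (𝓡 4) ∞ M]
  [RiemannianBundle (fun p : M => TangentSpace (𝓡 4) p)]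
  [IsContMDiffRiemannianBundle (𝓡 4) ∞ (EuclideanSpace ℝ (Fin 4)) (fun p : M => TangentSpace (𝓡 4) p)]
  [IsRiemannianManifold (𝓡 4) M] [MeasurableSpace M] [BorelSpace M]
  [SecondCountableTopology M] [Nonempty M]

variable {κ κ0 κ1 : Type} [Fintype κ] [Fintype κ0] [Fintype κ1]

theorem rd_centre (z : M) (f : M → ℝ) : rd z f (chartCentre 4 M z) = f z := by
  have : (chartAt E4 z).symm (chartCentre 4 M z) = z := (chartAt E4 z).left_inv (mem_chart_source E4 z)
  rw [rd, this]

section loc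
variable (D : Bun 4 M κ) (Dd : Dat 4 M κ) {z : M}
  {e : Fin 4 → EuclideanSpace ℝ (Fin 4) → EuclideanSpace ℝ (Fin 4)}
  {h : ONF (chartMetric 4 M z) (chartAt E4 z).target (chartCentre 4 M z) e}
  {ι : Type} [Fintype ι] [DecidableEq ι]
  {a : Fin 4 → Matrix ι ι (SG (chartCentre 4 M z))} {j : Matrix κ ι (SG (chartCentre 4 M z))}

/-- rank: `∑ p_aa = card ι` -/
theorem rank_germ (hp : Dd.p = D.p) (hL : Tz805.LF D h a j) :
    ∑ x, Dd.p x x z = Fintype.card ι := by
  have h1 : ev (j * jᵀ).trace = Fintype.card ι := by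
    rw [Matrix.trace_mul_comm, hL.jtj, Matrix.trace_one]
    simp
  rw [hL.jjt] at h1
  simp only [Matrix.trace, Matrix.diag_apply, Matrix.of_apply, map_sum] at h1
  rw [← h1]
  refine Finset.sum_congr rfl fun x _ => ?_
  rw [← hp, ev_fg (Dd.smp x x), rd_centre]

/-- trace of the potential: `∑ Q_xy p_xy = ev (tr q)` -/
theorem trace_germ (hp : Dd.p = D.p) (hL : Tz805.LF D h a j)
    {q : Matrix ι ι (SG (chartCentre 4 M z))}
    (hq : (Matrix.of fun y y' => fg (n := 4) z (Dd.Q y y')) = j * q * jᵀ) :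
    ∑ x, ∑ y, Dd.Q x y z * Dd.p x y z = ev q.trace := by
  rw [← tr_q1 (q := q) hL.jtj, ← hq, hL.jjt]
  simp only [Matrix.trace, Matrix.diag_apply, Matrix.mul_apply, Matrix.of_apply, map_sum, map_mul]
  refine Finset.sum_congr rfl fun x _ => Finset.sum_congr rfl fun y _ => ?_
  rw [← hp, ev_fg (Dd.smp y x), ev_fg (Dd.smQ x y), rd_centre, rd_centre, Dd.symmp x y]

end loc




end Crest.Agent.R249.HK9_714
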