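import Mathlib
import Crest.Agent.Lib.ODEFlow
import Crest.Agent.R249.Flat2_676

-- ▼ part R249/Flat1_676
section

/-!
# R249, leaf D2-FLATLOC, part 1: Frobenius theorem for linear total differential equations

`E, V, W` Banach spaces, `Γ : E → E →L V →L V` smooth on the open set `U` with vanishing curvature
`DΓ(x)(u)(v) - DΓ(x)(v)(u) + Γ(u)Γ(v) - Γ(v)Γ(u) = 0`. Then for every `x0 ∈ U` and `P0 : V →L W` the
equation `DP(x)(u) = P(x) ∘ Γ(x)(u)`, `P(x0) = P0` has a smooth solution on a ball around `x0`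
(`exists_frobenius`), and it is unique on convex open sets (`eqOn_of_total`).
-/

set_option autoImplicit false
set_option maxSynthPendingDepth 3

open Set Filter Topology Metric
open scoped ContDiff

namespace Crest.Agent.R249.Flat676

open Crest.Agent.Lib

noncomputable section

/-- A function on a convex open set which vanishes at one point and whose derivative is controlled
by the function vanishes identically. -/
theorem eqOn_zero_of_norm_fderiv_le {E G : Type*} [NormedAddCommGroup E] [NormedSpace ℝ E]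
    [NormedAddCommGroup G] [NormedSpace ℝ G] {s : Set E} (hs : Convex ℝ s)
    {H : E → G} {H' : E → E →L[ℝ] G} {K : E → ℝ} (hK : ContinuousOn K s)
    (hH : ∀ x ∈ s, HasFDerivAt H (H' x) x) (hb : ∀ x ∈ s, ‖H' x‖ ≤ K x * ‖H x‖)
    {x0 : E} (hx0 : x0 ∈ s) (h0 : H x0 = 0) : ∀ x ∈ s, H x = 0 := by
  intro x hx
  set c : ℝ → E := fun t => x0 + t • (x - x0) with hc
  have hcs : ∀ t ∈ Icc (0 : ℝ) 1, c t ∈ s := fun t ht =>
    hs.add_smul_sub_mem hx0 hx ht
  have hcd : ∀ t, HasDerivAt c (x - x0) t := by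
    intro t
    have := ((hasDerivAt_id t).smul_const (x - x0)).const_add x0
    simpa [hc] using this
  have hcc : Continuous c := continuous_iff_continuousAt.2 fun t => (hcd t).continuousAt
  have hKc : ContinuousOn (fun t => K (c t)) (Icc (0 : ℝ) 1) :=
    hK.comp hcc.continuousOn hcs
  obtain ⟨M, hM⟩ := (isCompact_Icc (a := (0 : ℝ)) (b := 1)).exists_bound_of_continuousOn hKc
  have hd : ∀ t ∈ Icc (0 : ℝ) 1, HasDerivAt (fun t => H (c t)) (H' (c t) (x - x0)) t := fun t ht =>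
    (hH _ (hcs t ht)).comp_hasDerivAt t (hcd t)
  have hcont : ContinuousOn (fun t => H (c t)) (Icc (0 : ℝ) 1) := fun t ht =>
    (hd t ht).continuousAt.continuousWithinAt
  have key := norm_le_gronwallBound_of_norm_deriv_right_le (f := fun t => H (c t))
    (f' := fun t => H' (c t) (x - x0)) (δ := 0) (K := M * ‖x - x0‖) (ε := 0) (a := 0) (b := 1)
    hcont (fun t ht => (hd t (Ico_subset_Icc_self ht)).hasDerivWithinAt) (by
      simp [hc, h0]) (by
      intro t ht
      have ht' := Ico_subset_Icc_self ht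
      have h1 := (H' (c t)).le_opNorm (x - x0)
      have h2 := hb _ (hcs t ht')
      have h3 := hM t ht'
      rw [Real.norm_eq_abs] at h3
      have h4 : K (c t) ≤ M := (le_abs_self _).trans h3
      have h5 : K (c t) * ‖H (c t)‖ ≤ M * ‖H (c t)‖ :=
        mul_le_mul_of_nonneg_right h4 (norm_nonneg _)
      calc ‖H' (c t) (x - x0)‖ ≤ ‖H' (c t)‖ * ‖x - x0‖ := h1
        _ ≤ (M * ‖H (c t)‖) * ‖x - x0‖ :=
            mul_le_mul_of_nonneg_right (h2.trans h5) (norm_nonneg _)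
        _ = M * ‖x - x0‖ * ‖H (c t)‖ + 0 := by ring)
    1 (right_mem_Icc.2 zero_le_one)
  rw [gronwallBound_ε0_δ0] at key
  have h1 : c 1 = x := by simp [hc]
  rw [h1] at key
  exact norm_le_zero_iff.1 key

section Frob

variable {E V W : Type*} [NormedAddCommGroup E] [NormedSpace ℝ E] [NormedAddCommGroup V]
  [NormedSpace ℝ V] [NormedAddCommGroup W] [NormedSpace ℝ W]

/-- the vector field on `E × E × Hom(V,W)` whose integral curves are parallel transports along
straight rays -/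
def fld (Γ : E → E →L[ℝ] V →L[ℝ] V) (s : E × (E × (V →L[ℝ] W))) : E × (E × (V →L[ℝ] W)) :=
  (s.2.1, (0, s.2.2.comp (Γ s.1 s.2.1)))

theorem contDiffOn_fld {Γ : E → E →L[ℝ] V →L[ℝ] V} {U : Set E} (hΓ : ContDiffOn ℝ ∞ Γ U) :
    ContDiffOn ℝ ∞ (fld (W := W) Γ) (U ×ˢ univ) := by
  have h1 : ContDiffOn ℝ ∞ (fun s : E × (E × (V →L[ℝ] W)) => Γ s.1) (U ×ˢ univ) :=
    hΓ.comp contDiff_fst.contDiffOn (fun s hs => hs.1)
  have h2 : ContDiffOn ℝ ∞ (fun s : E × (E × (V →L[ℝ] W)) => Γ s.1 s.2.1) (U ×ˢ univ) :=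
    h1.clm_apply (contDiff_fst.comp contDiff_snd).contDiffOn
  have h3 : ContDiffOn ℝ ∞ (fun s : E × (E × (V →L[ℝ] W)) => s.2.2.comp (Γ s.1 s.2.1))
      (U ×ˢ univ) :=
    ((contDiff_snd.comp contDiff_snd).contDiffOn).clm_comp h2
  exact ((contDiff_fst.comp contDiff_snd).contDiffOn).prodMk (contDiffOn_const.prodMk h3)

theorem fderiv_fld {Γ : E → E →L[ℝ] V →L[ℝ] V} {s : E × (E × (V →L[ℝ] W))}
    (h : DifferentiableAt ℝ Γ s.1) (z : E × (E × (V →L[ℝ] W))) :
    fderiv ℝ (fld Γ) s z = (z.2.1, ((0 : E), z.2.2.comp (Γ s.1 s.2.1)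
      + s.2.2.comp (fderiv ℝ Γ s.1 z.1 s.2.1 + Γ s.1 z.2.1))) := by
  have hfst : HasFDerivAt (fun s : E × (E × (V →L[ℝ] W)) => s.1)
      (ContinuousLinearMap.fst ℝ E (E × (V →L[ℝ] W))) s := hasFDerivAt_fst
  have hsnd : HasFDerivAt (fun s : E × (E × (V →L[ℝ] W)) => s.2)
      (ContinuousLinearMap.snd ℝ E (E × (V →L[ℝ] W))) s := hasFDerivAt_snd
  have hx : HasFDerivAt (fun s : E × (E × (V →L[ℝ] W)) => s.2.1)
      ((ContinuousLinearMap.fst ℝ E (V →L[ℝ] W)).comp
        (ContinuousLinearMap.snd ℝ E (E × (V →L[ℝ] W)))) s := hsnd.fst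
  have hA : HasFDerivAt (fun s : E × (E × (V →L[ℝ] W)) => s.2.2)
      ((ContinuousLinearMap.snd ℝ E (V →L[ℝ] W)).comp
        (ContinuousLinearMap.snd ℝ E (E × (V →L[ℝ] W)))) s := hsnd.snd
  have hG : HasFDerivAt (fun s : E × (E × (V →L[ℝ] W)) => Γ s.1)
      ((fderiv ℝ Γ s.1).comp (ContinuousLinearMap.fst ℝ E (E × (V →L[ℝ] W)))) s :=
    HasFDerivAt.comp (g := Γ) (f := fun s : E × (E × (V →L[ℝ] W)) => s.1) s h.hasFDerivAt hfst
  have h1 := hA.clm_comp (hG.clm_apply hx)
  have h2 := hx.prodMk ((hasFDerivAt_const (0 : E) s).prodMk h1)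
  have h3 : fderiv ℝ (fld Γ) s = _ := h2.fderiv
  rw [h3]
  simp only [ContinuousLinearMap.prod_apply, ContinuousLinearMap.comp_apply,
    ContinuousLinearMap.coe_fst', ContinuousLinearMap.coe_snd', zero_apply, add_apply]
  congr 2
  ext w
  simp
  abel

/-- curvature zero -/
def IsFlat (U : Set E) (Γ : E → E →L[ℝ] V →L[ℝ] V) : Prop :=
  ∀ x ∈ U, ∀ u v : E, fderiv ℝ Γ x u v - fderiv ℝ Γ x v u + (Γ x u).comp (Γ x v)
    - (Γ x v).comp (Γ x u) = 0

/-- **Frobenius theorem for linear total differential equations.** -/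
theorem exists_frobenius [CompleteSpace E] [CompleteSpace W]
    {Γ : E → E →L[ℝ] V →L[ℝ] V} {U : Set E} (hU : IsOpen U)
    (hΓ : ContDiffOn ℝ ∞ Γ U) (hflat : IsFlat U Γ) {x0 : E} (hx0 : x0 ∈ U) (P0 : V →L[ℝ] W) :
    ∃ r > 0, ball x0 r ⊆ U ∧ ∃ P : E → V →L[ℝ] W, ContDiffOn ℝ ∞ P (ball x0 r) ∧ P x0 = P0 ∧
      ∀ x ∈ ball x0 r,
        HasFDerivAt P ((ContinuousLinearMap.compL ℝ V V W (P x)).comp (Γ x)) x := by
  set v : E × (E × (V →L[ℝ] W)) → E × (E × (V →L[ℝ] W)) := fld Γ with hvdef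
  set U' : Set (E × (E × (V →L[ℝ] W))) := U ×ˢ univ with hU'
  have hU'o : IsOpen U' := hU.prod isOpen_univ
  have hvC : ContDiffOn ℝ ((⊤ : ℕ∞) : WithTop ℕ∞) v U' := contDiffOn_fld hΓ
  have hv2 : ContDiffOn ℝ 2 v U' := hvC.of_le (by exact ENat.LEInfty.out)
  have hv1 : ContDiffOn ℝ 1 v U' := hvC.of_le (by exact_mod_cast le_top)
  have hrest : ∀ t : ℝ, ((x0, ((0 : E), P0)), t) ∈ ODEFlow.dom v U' ∧
      ODEFlow.flow v U' ((x0, ((0 : E), P0)), t) = (x0, ((0 : E), P0)) := fun t =>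
    ODEFlow.flow_of_zero hU'o hv1 (x := (x0, ((0 : E), P0))) ⟨hx0, trivial⟩ (by simp [hvdef, fld]) t
  obtain ⟨W0, J, hW0, hJ, hmem, hIJ, hsub⟩ := ODEFlow.exists_prod_subset_dom hU'o hv1
    (x₀ := (x0, ((0 : E), P0))) (a := 0) (b := 1) (fun t _ => (hrest t).1)
  have hpre : ∀ᶠ ξ in 𝓝 (0 : E), (x0, (ξ, P0)) ∈ W0 := by
    have hcont : Continuous fun ξ : E => ((x0, (ξ, P0)) : E × (E × (V →L[ℝ] W))) := by fun_prop
    exact hcont.continuousAt.eventually_mem (hW0.mem_nhds hmem)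
  obtain ⟨r1, hr1, hball1⟩ := Metric.eventually_nhds_iff_ball.1 hpre
  obtain ⟨r2, hr2, hball2⟩ := Metric.isOpen_iff.1 hU x0 hx0
  refine ⟨min r1 r2, lt_min hr1 hr2, (ball_subset_ball (min_le_right _ _)).trans hball2, ?_⟩
  have hdom : ∀ ξ : E, ‖ξ‖ < min r1 r2 → ∀ t ∈ Icc (0 : ℝ) 1,
      ((x0, (ξ, P0)), t) ∈ ODEFlow.dom v U' := by
    intro ξ hξ t ht
    exact hsub ⟨hball1 ξ (by simpa using hξ.trans_le (min_le_left _ _)), hIJ ht⟩
  have hopen : IsOpen (ODEFlow.dom v U') := ODEFlow.isOpen_dom hU'o hv1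
  have hflowC : ContDiffOn ℝ ((⊤ : ℕ∞) : WithTop ℕ∞) (ODEFlow.flow v U') (ODEFlow.dom v U') :=
    ODEFlow.contDiffOn_flow (by simp) hU'o hvC
  -- the flow along the rays
  set Ψ : E → ℝ → E × (E × (V →L[ℝ] W)) := fun ξ t => ODEFlow.flow v U' ((x0, (ξ, P0)), t)
    with hΨ
  have hΨd : ∀ ξ : E, ‖ξ‖ < min r1 r2 → ∀ t ∈ Icc (0 : ℝ) 1,
      HasDerivAt (Ψ ξ) (v (Ψ ξ t)) t := fun ξ hξ t ht =>
    ODEFlow.hasDerivAt_flow hU'o hv1 (hdom ξ hξ t ht)
  have hΨ0 : ∀ ξ : E, Ψ ξ 0 = (x0, (ξ, P0)) := fun ξ =>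
    ODEFlow.flow_zero hU'o hv1 (x := (x0, (ξ, P0))) ⟨hx0, trivial⟩
  have hfst : ∀ {f : ℝ → E × (E × (V →L[ℝ] W))} {f' : E × (E × (V →L[ℝ] W))} {t : ℝ},
      HasDerivAt f f' t → HasDerivAt (fun t => (f t).1) f'.1 t := fun h => h.fst
  have hs1 : ∀ {f : ℝ → E × (E × (V →L[ℝ] W))} {f' : E × (E × (V →L[ℝ] W))} {t : ℝ},
      HasDerivAt f f' t → HasDerivAt (fun t => (f t).2.1) f'.2.1 t := fun h => h.snd.fst
  have hs2 : ∀ {f : ℝ → E × (E × (V →L[ℝ] W))} {f' : E × (E × (V →L[ℝ] W))} {t : ℝ},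
      HasDerivAt f f' t → HasDerivAt (fun t => (f t).2.2) f'.2.2 t := fun h => h.snd.snd
  have hconst : ∀ {G : Type _} [NormedAddCommGroup G] [NormedSpace ℝ G] {f : ℝ → G},
      (∀ t ∈ Icc (0 : ℝ) 1, HasDerivAt f 0 t) → ∀ t ∈ Icc (0 : ℝ) 1, f t = f 0 := by
    intro G _ _ f hf t ht
    exact constant_of_has_deriv_right_zero (f := f) (a := 0) (b := 1)
      (fun s hs => (hf s hs).continuousAt.continuousWithinAt)
      (fun s hs => (hf s (Ico_subset_Icc_self hs)).hasDerivWithinAt) t ht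
  have hΨ21 : ∀ ξ : E, ‖ξ‖ < min r1 r2 → ∀ t ∈ Icc (0 : ℝ) 1, (Ψ ξ t).2.1 = ξ := by
    intro ξ hξ t ht
    have h := hconst (f := fun t => (Ψ ξ t).2.1) (fun s hs => hs1 (hΨd ξ hξ s hs)) t ht
    simp only [hΨ0] at h
    exact h
  have hΨ1 : ∀ ξ : E, ‖ξ‖ < min r1 r2 → ∀ t ∈ Icc (0 : ℝ) 1, (Ψ ξ t).1 = x0 + t • ξ := by
    intro ξ hξ t ht
    have h := hconst (f := fun t => (Ψ ξ t).1 - t • ξ) (fun s hs => by
      have h1 := hfst (hΨd ξ hξ s hs)
      have h2 := (hasDerivAt_id s).smul_const ξ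
      have h3 := h1.sub h2
      have h4 : (v (Ψ ξ s)).1 - (1 : ℝ) • ξ = 0 := by
        have : (v (Ψ ξ s)).1 = (Ψ ξ s).2.1 := rfl
        rw [this, hΨ21 ξ hξ s hs]; simp
      rw [h4] at h3
      exact h3) t ht
    simp only [hΨ0, zero_smul, sub_zero] at h
    exact sub_eq_iff_eq_add.1 h
  -- main computation
  have hmain : ∀ ξ : E, ‖ξ‖ < min r1 r2 → ∀ u : E,
      (fderiv ℝ (ODEFlow.flow v U') ((x0, (ξ, P0)), (1 : ℝ)) (((0 : E), (u, (0 : V →L[ℝ] W))), 0)).2.2
        = (Ψ ξ 1).2.2.comp (Γ (x0 + ξ) u) := by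
    intro ξ hξ u
    set Z : ℝ → E × (E × (V →L[ℝ] W)) := fun t =>
      fderiv ℝ (ODEFlow.flow v U') ((x0, (ξ, P0)), t) (((0 : E), (u, (0 : V →L[ℝ] W))), 0) with hZ
    have hmemU : ∀ t ∈ Icc (0 : ℝ) 1, x0 + t • ξ ∈ U := by
      intro t ht
      have := ODEFlow.flow_mem hU'o hv1 (hdom ξ hξ t ht)
      have h2 : (Ψ ξ t).1 ∈ U := this.1
      rwa [hΨ1 ξ hξ t ht] at h2
    have hΓd : ∀ t ∈ Icc (0 : ℝ) 1, DifferentiableAt ℝ Γ (x0 + t • ξ) := fun t ht =>
      (hΓ.contDiffAt (hU.mem_nhds (hmemU t ht))).differentiableAt (by simp)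
    have hZd : ∀ t ∈ Icc (0 : ℝ) 1, HasDerivAt Z (fderiv ℝ v (Ψ ξ t) (Z t)) t := fun t ht =>
      ODEFlow.hasDerivAt_fderiv_flow hU'o hv2 (hdom ξ hξ t ht) _
    have hZ0 : Z 0 = ((0 : E), (u, (0 : V →L[ℝ] W))) :=
      ODEFlow.fderiv_flow_zero hU'o hv1 (x := (x0, (ξ, P0))) ⟨hx0, trivial⟩ _
    have hZd' : ∀ t ∈ Icc (0 : ℝ) 1, HasDerivAt Z ((Z t).2.1, ((0 : E),
        (Z t).2.2.comp (Γ (x0 + t • ξ) ξ) + (Ψ ξ t).2.2.comp (fderiv ℝ Γ (x0 + t • ξ) (Z t).1 ξ
          + Γ (x0 + t • ξ) (Z t).2.1))) t := by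
      intro t ht
      have h1 := hZd t ht
      rw [hvdef, fderiv_fld (by rw [hΨ1 ξ hξ t ht]; exact hΓd t ht), hΨ1 ξ hξ t ht,
        hΨ21 ξ hξ t ht] at h1
      exact h1
    have hZ21 : ∀ t ∈ Icc (0 : ℝ) 1, (Z t).2.1 = u := by
      intro t ht
      have h := hconst (f := fun t => (Z t).2.1) (fun s hs => hs1 (hZd' s hs)) t ht
      simp only [hZ0] at h
      exact h
    have hZ1 : ∀ t ∈ Icc (0 : ℝ) 1, (Z t).1 = t • u := by
      intro t ht
      have h := hconst (f := fun t => (Z t).1 - t • u) (fun s hs => by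
        have h1 := hfst (hZd' s hs)
        have h2 := (hasDerivAt_id s).smul_const u
        have h3 := h1.sub h2
        have h4 : (Z s).2.1 - (1 : ℝ) • u = 0 := by
          rw [hZ21 s hs]; simp
        simp only [h4] at h3
        exact h3) t ht
      simp only [hZ0, zero_smul, sub_zero] at h
      exact sub_eq_zero.1 h
    -- the defect
    set B : ℝ → V →L[ℝ] W := fun t => (Z t).2.2 - (Ψ ξ t).2.2.comp (Γ (x0 + t • ξ) (t • u)) with hB
    have hΓc : ∀ t ∈ Icc (0 : ℝ) 1, HasDerivAt (fun t : ℝ => Γ (x0 + t • ξ))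
        (fderiv ℝ Γ (x0 + t • ξ) ξ) t := by
      intro t ht
      have h1 : HasDerivAt (fun t : ℝ => x0 + t • ξ) ξ t := by
        simpa using ((hasDerivAt_id t).smul_const ξ).const_add x0
      exact (hΓd t ht).hasFDerivAt.comp_hasDerivAt t h1
    have hΨ22 : ∀ t ∈ Icc (0 : ℝ) 1, HasDerivAt (fun t => (Ψ ξ t).2.2)
        ((Ψ ξ t).2.2.comp (Γ (x0 + t • ξ) ξ)) t := by
      intro t ht
      have h1 := hs2 (hΨd ξ hξ t ht)
      have h2 : (v (Ψ ξ t)).2.2 = (Ψ ξ t).2.2.comp (Γ (Ψ ξ t).1 (Ψ ξ t).2.1) := rfl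
      rw [h2, hΨ1 ξ hξ t ht, hΨ21 ξ hξ t ht] at h1
      exact h1
    have hBd : ∀ t ∈ Icc (0 : ℝ) 1, HasDerivAt B ((B t).comp (Γ (x0 + t • ξ) ξ)) t := by
      intro t ht
      have h1 := hs2 (hZd' t ht)
      have h2 : HasDerivAt (fun t : ℝ => Γ (x0 + t • ξ) (t • u))
          (fderiv ℝ Γ (x0 + t • ξ) ξ (t • u) + Γ (x0 + t • ξ) u) t := by
        have := (hΓc t ht).clm_apply ((hasDerivAt_id t).smul_const u)
        simpa using this
      have h3 := (hΨ22 t ht).clm_comp h2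
      have h4 := h1.sub h3
      refine h4.congr_deriv ?_
      have hf := hflat _ (hmemU t ht) (t • u) ξ
      have hf2 := congrArg (fun L : V →L[ℝ] V => (Ψ ξ t).2.2.comp L) hf
      simp only [hB]
      simp only [hZ1 t ht, hZ21 t ht]
      ext w
      have hf3 := DFunLike.congr_fun hf2 w
      simp only [ContinuousLinearMap.comp_apply, sub_apply, add_apply, map_sub, map_add,
        ContinuousLinearMap.comp_zero, zero_apply] at hf3 ⊢
      have := sub_eq_zero.1 hf3
      rw [← sub_eq_zero] at hf3 ⊢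
      rw [← hf3]
      abel
    have hKc : ContinuousOn (fun t : ℝ => Γ (x0 + t • ξ) ξ) (Icc (0 : ℝ) 1) := fun t ht =>
      ((hΓc t ht).continuousAt.clm_apply continuousAt_const).continuousWithinAt
    obtain ⟨M, hM⟩ := (isCompact_Icc (a := (0 : ℝ)) (b := 1)).exists_bound_of_continuousOn hKc
    have key := norm_le_gronwallBound_of_norm_deriv_right_le (f := B)
      (f' := fun t => (B t).comp (Γ (x0 + t • ξ) ξ)) (δ := 0) (K := M) (ε := 0) (a := 0) (b := 1)
      (fun t ht => (hBd t ht).continuousAt.continuousWithinAt)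
      (fun t ht => (hBd t (Ico_subset_Icc_self ht)).hasDerivWithinAt) (by
        simp [hB, hZ0]) (by
        intro t ht
        have ht' := Ico_subset_Icc_self ht
        calc ‖(B t).comp (Γ (x0 + t • ξ) ξ)‖ ≤ ‖B t‖ * ‖Γ (x0 + t • ξ) ξ‖ :=
              ContinuousLinearMap.opNorm_comp_le _ _
          _ ≤ ‖B t‖ * M := mul_le_mul_of_nonneg_left (hM t ht') (norm_nonneg _)
          _ = M * ‖B t‖ + 0 := by ring)
      1 (right_mem_Icc.2 zero_le_one)
    rw [gronwallBound_ε0_δ0] at key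
    have hB1 : B 1 = 0 := norm_le_zero_iff.1 key
    have h5 := sub_eq_zero.1 hB1
    simp only [one_smul] at h5
    exact h5
  -- definition of the solution
  refine ⟨fun x => (ODEFlow.flow v U' ((x0, (x - x0, P0)), (1 : ℝ))).2.2, ?_, ?_, ?_⟩
  · have hin : ContDiff ℝ ((⊤ : ℕ∞) : WithTop ℕ∞) (fun x : E =>
        (((x0, (x - x0, P0)), (1 : ℝ)) : (E × (E × (V →L[ℝ] W))) × ℝ)) := by fun_prop
    have h1 := hflowC.comp (s := ball x0 (min r1 r2)) hin.contDiffOn (fun x hx =>
      hdom (x - x0) (by simpa [dist_eq_norm] using hx) 1 (right_mem_Icc.2 zero_le_one))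
    exact (contDiff_snd.comp contDiff_snd).comp_contDiffOn h1
  · simp only [sub_self]
    rw [(hrest 1).2]
  · intro x hx
    have hξ : ‖x - x0‖ < min r1 r2 := by simpa [dist_eq_norm] using hx
    have hd : DifferentiableAt ℝ (ODEFlow.flow v U') ((x0, (x - x0, P0)), (1 : ℝ)) :=
      (hflowC.contDiffAt (hopen.mem_nhds (hdom _ hξ 1 (right_mem_Icc.2 zero_le_one)))).differentiableAt
        (by simp)
    have hin : HasFDerivAt (fun x : E =>
        (((x0, (x - x0, P0)), (1 : ℝ)) : (E × (E × (V →L[ℝ] W))) × ℝ))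
        (((0 : E →L[ℝ] E).prod ((ContinuousLinearMap.id ℝ E).prod (0 : E →L[ℝ] (V →L[ℝ] W)))).prod
          (0 : E →L[ℝ] ℝ)) x :=
      ((hasFDerivAt_const x0 x).prodMk (((hasFDerivAt_id x).sub_const x0).prodMk
        (hasFDerivAt_const P0 x))).prodMk (hasFDerivAt_const (1 : ℝ) x)
    have h1 := HasFDerivAt.comp x hd.hasFDerivAt hin
    have h2 := h1.snd.snd
    refine h2.congr_fderiv ?_
    ext u : 1
    have h3 := hmain (x - x0) hξ u
    rw [add_sub_cancel] at h3
    simpa using h3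


end Frob

end

end Crest.Agent.R249.Flat676
end

-- ▼ part R249/Flat3_676
section

/-!
# R249, leaf D2-FLATLOC, part 3: a flat metric is locally the pull back of the Euclidean one
-/

set_option autoImplicit false
set_option maxSynthPendingDepth 3

open Set Filter Topology Metric
open scoped ContDiff
open Crest.Agent.R244 Crest.Agent.R244.CF
open Crest.GeometryTopology.CoordMetric Crest.GeometryTopology.ChartCurvature

namespace Crest.Agent.R249.Flat676

noncomputable section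

variable {n : ℕ}

local notation "𝔼" => EuclideanSpace ℝ (Fin n)

/-- a positive definite form on `ℝⁿ` is the pull back of the Euclidean one -/
theorem exists_linear_isometry {b : EuclideanSpace ℝ (Fin n) →L[ℝ] EuclideanSpace ℝ (Fin n) →L[ℝ] ℝ}
    (hs : ∀ u v, b u v = b v u) (hp : ∀ v, v ≠ 0 → 0 < b v v) :
    ∃ P : EuclideanSpace ℝ (Fin n) →L[ℝ] EuclideanSpace ℝ (Fin n), ∀ u v,
      b u v = inner ℝ (P u) (P v) := by
  set G : Matrix (Fin n) (Fin n) ℝ := Matrix.of fun i j =>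
    b (EuclideanSpace.single i 1) (EuclideanSpace.single j 1) with hG
  have hbG : ∀ u v : 𝔼, b u v = u.ofLp ⬝ᵥ (G.mulVec v.ofLp) := by
    intro u v
    have hu : ∀ u : 𝔼, u = ∑ i, u i • EuclideanSpace.single i (1 : ℝ) := by
      intro u
      ext k
      simp [Pi.single_apply]
    conv_lhs => rw [hu u, hu v]
    simp only [map_sum, map_smul, sum_apply, smul_apply, smul_eq_mul, dotProduct, Matrix.mulVec,
      hG, Matrix.of_apply, Finset.mul_sum]
    rw [Finset.sum_comm]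
    refine Finset.sum_congr rfl fun i _ => Finset.sum_congr rfl fun j _ => ?_
    ring
  have hPD : G.PosDef := by
    refine Matrix.PosDef.of_dotProduct_mulVec_pos ?_ ?_
    · ext i j
      simp [hG, hs]
    · intro y hy
      have h1 := hbG (WithLp.toLp 2 y) (WithLp.toLp 2 y)
      have h2 := hp (WithLp.toLp 2 y) (by
        intro h0
        apply hy
        have := congrArg (fun z : 𝔼 => z.ofLp) h0
        simpa using this)
      rw [h1] at h2
      simpa using h2
  obtain ⟨B, hB, -⟩ := exists_factor hPD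
  refine ⟨(Matrix.toEuclideanLin B).toContinuousLinearMap, fun u v => ?_⟩
  rw [hbG, hB]
  simp only [LinearMap.coe_toContinuousLinearMap', Matrix.toLpLin_apply,
    EuclideanSpace.inner_eq_star_dotProduct, star_trivial]
  rw [← Matrix.mulVec_mulVec, Matrix.dotProduct_mulVec, Matrix.vecMul_transpose, dotProduct_comm]

/-- **A flat metric is locally the pull back of the Euclidean metric.** -/
theorem exists_flat_map {U : Set (EuclideanSpace ℝ (Fin n))}
    {g : EuclideanSpace ℝ (Fin n) → EuclideanSpace ℝ (Fin n) →L[ℝ] EuclideanSpace ℝ (Fin n) →L[ℝ] ℝ}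
    {Γ : EuclideanSpace ℝ (Fin n) → EuclideanSpace ℝ (Fin n) →L[ℝ] EuclideanSpace ℝ (Fin n) →L[ℝ]
      EuclideanSpace ℝ (Fin n)}
    (h : IsLC U g Γ) (hR : ∀ x ∈ U, ∀ u v w, curv Γ x u v w = 0)
    {x0 : EuclideanSpace ℝ (Fin n)} (hx0 : x0 ∈ U) :
    ∃ r > 0, ball x0 r ⊆ U ∧ ∃ Φ : EuclideanSpace ℝ (Fin n) → EuclideanSpace ℝ (Fin n),
      ContDiffOn ℝ ∞ Φ (ball x0 r) ∧
      ∀ x ∈ ball x0 r, ∀ u v, g x u v = inner ℝ (fderiv ℝ Φ x u) (fderiv ℝ Φ x v) := by
  have hflat : IsFlat U Γ := by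
    intro x hx u v
    ext1 w
    have := hR x hx u v w
    simpa [CF.curv, sub_eq_add_neg, add_assoc] using this
  obtain ⟨P0, hP0⟩ := exists_linear_isometry (b := g x0) (h.g_symm x0 hx0) (h.g_pos x0 hx0)
  obtain ⟨r, hr, hrU, P, hPs, hPx0, hP⟩ := exists_frobenius h.isOpen h.Γ_smooth hflat hx0 P0
  -- the metric is the pull back by `P`
  set I : 𝔼 →L[ℝ] 𝔼 →L[ℝ] ℝ := innerSL ℝ with hI
  set Q : 𝔼 → 𝔼 →L[ℝ] 𝔼 →L[ℝ] ℝ := fun x =>
    ((ContinuousLinearMap.compL ℝ 𝔼 𝔼 ℝ).flip (P x)).comp (I.comp (P x)) with hQ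
  have hQa : ∀ x u v, Q x u v = inner ℝ (P x u) (P x v) := by
    intro x u v
    simp only [hQ, hI, ContinuousLinearMap.comp_apply, ContinuousLinearMap.flip_apply,
      ContinuousLinearMap.compL_apply]
    rfl
  have hQd : ∀ x ∈ ball x0 r, ∃ Q' : 𝔼 →L[ℝ] 𝔼 →L[ℝ] 𝔼 →L[ℝ] ℝ, HasFDerivAt Q Q' x ∧
      ∀ u v w, Q' u v w = inner ℝ (P x (Γ x u v)) (P x w) + inner ℝ (P x v) (P x (Γ x u w)) := by
    intro x hx
    have h1 := ((ContinuousLinearMap.compL ℝ 𝔼 𝔼 ℝ).flip.hasFDerivAt).comp x (hP x hx)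
    have h2 := (ContinuousLinearMap.compL ℝ 𝔼 𝔼 (𝔼 →L[ℝ] ℝ) I).hasFDerivAt.comp x (hP x hx)
    have h3 := h1.clm_comp h2
    refine ⟨_, h3, fun u v w => ?_⟩
    have hIa : ∀ a b : 𝔼, I a b = inner ℝ a b := fun a b => rfl
    simp only [add_apply, ContinuousLinearMap.comp_apply, ContinuousLinearMap.flip_apply,
      ContinuousLinearMap.compL_apply, Function.comp_apply]
    rfl
  choose! Q' hQ1 hQ2 using hQd
  have hgQ : ∀ x ∈ ball x0 r, g x = Q x := by
    intro x hx
    have h0 := eqOn_zero_of_norm_fderiv_le (H := fun x => g x - Q x)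
      (H' := fun x => fderiv ℝ g x - Q' x) (K := fun x => 2 * ‖Γ x‖) (s := ball x0 r)
      (convex_ball x0 r)
      (continuousOn_const.mul ((h.Γ_smooth.continuousOn.mono hrU).norm))
      (fun y hy => (h.g_differentiableAt (hrU hy)).hasFDerivAt.sub (hQ1 y hy))
      (fun y hy => by
        refine ContinuousLinearMap.opNorm_le_bound _ (by positivity) fun u => ?_
        refine ContinuousLinearMap.opNorm_le_bound _ (by positivity) fun v => ?_
        refine ContinuousLinearMap.opNorm_le_bound _ (by positivity) fun w => ?_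
        have e : ((fderiv ℝ g y - Q' y) u) v w
            = (g y - Q y) (Γ y u v) w + (g y - Q y) v (Γ y u w) := by
          simp only [sub_apply]
          rw [h.compat y (hrU hy), hQ2 y hy, hQa, hQa]
          ring
        rw [e]
        have b1 : ‖(g y - Q y) (Γ y u v) w‖ ≤ ‖g y - Q y‖ * (‖Γ y‖ * ‖u‖ * ‖v‖) * ‖w‖ :=
          ((g y - Q y).le_opNorm₂ _ _).trans (by
            gcongr
            exact (Γ y).le_opNorm₂ u v)
        have b2 : ‖(g y - Q y) v (Γ y u w)‖ ≤ ‖g y - Q y‖ * ‖v‖ * (‖Γ y‖ * ‖u‖ * ‖w‖) :=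
          ((g y - Q y).le_opNorm₂ _ _).trans (by
            gcongr
            exact (Γ y).le_opNorm₂ u w)
        calc ‖(g y - Q y) (Γ y u v) w + (g y - Q y) v (Γ y u w)‖
            ≤ ‖(g y - Q y) (Γ y u v) w‖ + ‖(g y - Q y) v (Γ y u w)‖ := norm_add_le _ _
          _ ≤ ‖g y - Q y‖ * (‖Γ y‖ * ‖u‖ * ‖v‖) * ‖w‖
              + ‖g y - Q y‖ * ‖v‖ * (‖Γ y‖ * ‖u‖ * ‖w‖) := add_le_add b1 b2
          _ = 2 * ‖Γ y‖ * ‖g y - Q y‖ * ‖u‖ * ‖v‖ * ‖w‖ := by ring)
      (x0 := x0) (mem_ball_self hr) (by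
        ext u v
        simp only [sub_apply, hQa, hPx0, hP0, sub_self, zero_apply]) x hx
    exact sub_eq_zero.1 h0
  -- the primitive of `P`
  have hPdiff : DifferentiableOn ℝ P (ball x0 r) := fun x hx =>
    (hP x hx).differentiableAt.differentiableWithinAt
  obtain ⟨Φ, hΦ⟩ := (convex_ball x0 r).exists_forall_hasFDerivAt_of_fderiv_symmetric isOpen_ball
    hPdiff (fun x hx u v => by
      rw [(hP x hx).fderiv]
      simp only [ContinuousLinearMap.comp_apply, ContinuousLinearMap.compL_apply]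
      rw [h.Γ_symm x (hrU hx)])
  refine ⟨r, hr, hrU, Φ, ?_, ?_⟩
  · refine (contDiffOn_infty_iff_fderiv_of_isOpen isOpen_ball).2
      ⟨fun x hx => (hΦ x hx).differentiableAt.differentiableWithinAt, ?_⟩
    exact hPs.congr fun x hx => (hΦ x hx).fderiv
  · intro x hx u v
    rw [(hΦ x hx).fderiv, hgQ x hx, hQa]

/-- **A flat metric is locally Euclidean**: there is a diffeomorphism onto an open set which pulls
back the Euclidean metric to the given one. -/
theorem exists_flat_chart {U : Set (EuclideanSpace ℝ (Fin n))}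
    {g : EuclideanSpace ℝ (Fin n) → EuclideanSpace ℝ (Fin n) →L[ℝ] EuclideanSpace ℝ (Fin n) →L[ℝ] ℝ}
    {Γ : EuclideanSpace ℝ (Fin n) → EuclideanSpace ℝ (Fin n) →L[ℝ] EuclideanSpace ℝ (Fin n) →L[ℝ]
      EuclideanSpace ℝ (Fin n)}
    (h : IsLC U g Γ) (hR : ∀ x ∈ U, ∀ u v w, curv Γ x u v w = 0)
    {x0 : EuclideanSpace ℝ (Fin n)} (hx0 : x0 ∈ U) :
    ∃ e : OpenPartialHomeomorph (EuclideanSpace ℝ (Fin n)) (EuclideanSpace ℝ (Fin n)),
      x0 ∈ e.source ∧ e.source ⊆ U ∧ ContDiffOn ℝ ∞ e e.source ∧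
      ContDiffOn ℝ ∞ e.symm e.target ∧
      ∀ x ∈ e.source, ∀ u v, g x u v = inner ℝ (fderiv ℝ e x u) (fderiv ℝ e x v) := by
  obtain ⟨r, hr, hrU, Φ, hΦs, hΦ⟩ := exists_flat_map h hR hx0
  have hCA : ∀ x ∈ ball x0 r, ContDiffAt ℝ ∞ Φ x := fun x hx =>
    hΦs.contDiffAt (isOpen_ball.mem_nhds hx)
  have hinj : ∀ x ∈ ball x0 r, Function.Injective (fderiv ℝ Φ x) := by
    intro x hx
    rw [injective_iff_map_eq_zero]
    intro v hv
    by_contra hne
    have h1 := h.g_pos x (hrU hx) v hne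
    rw [hΦ x hx, hv, inner_zero_left] at h1
    exact lt_irrefl _ h1
  have heq : ∀ x ∈ ball x0 r, ∃ L : 𝔼 ≃L[ℝ] 𝔼, (L : 𝔼 →L[ℝ] 𝔼) = fderiv ℝ Φ x := by
    intro x hx
    refine ⟨(LinearEquiv.ofInjectiveEndo (fderiv ℝ Φ x : 𝔼 →ₗ[ℝ] 𝔼)
      (hinj x hx)).toContinuousLinearEquiv, ?_⟩
    ext v
    rfl
  have hx0r : x0 ∈ ball x0 r := mem_ball_self hr
  obtain ⟨L, hL⟩ := heq x0 hx0r
  have hder : HasFDerivAt Φ (L : 𝔼 →L[ℝ] 𝔼) x0 := by
    rw [hL]
    exact ((hCA x0 hx0r).differentiableAt (by simp)).hasFDerivAt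
  set e0 := (hCA x0 hx0r).toOpenPartialHomeomorph Φ hder (by simp) with he0
  have he0c : ∀ x, e0 x = Φ x := fun x => rfl
  set e := e0.restrOpen (ball x0 r) isOpen_ball with he
  have hec : ∀ x, e x = Φ x := fun x => rfl
  have hsrc : e.source = e0.source ∩ ball x0 r := e0.restrOpen_source _ _
  have hecf : (e : 𝔼 → 𝔼) = Φ := rfl
  refine ⟨e, ?_, ?_, ?_, ?_, ?_⟩
  · rw [hsrc]
    exact ⟨ContDiffAt.mem_toOpenPartialHomeomorph_source _ _ _, hx0r⟩
  · rw [hsrc]
    exact inter_subset_right.trans hrU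
  · rw [hsrc, hecf]
    exact hΦs.mono inter_subset_right
  · intro y hy
    have hys : e.symm y ∈ e.source := e.map_target hy
    have hyr : e.symm y ∈ ball x0 r := by
      rw [hsrc] at hys
      exact hys.2
    obtain ⟨L', hL'⟩ := heq _ hyr
    refine (e.contDiffAt_symm hy (f₀' := L') ?_ ?_).contDiffWithinAt
    · rw [hecf, hL']
      exact ((hCA _ hyr).differentiableAt (by simp)).hasFDerivAt
    · exact hCA _ hyr
  · intro x hx u v
    rw [hsrc] at hx
    exact hΦ x hx.2 u v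

end

end Crest.Agent.R249.Flat676
end

-- ▼ part R249/Flat4_676
section

/-!
# R249, leaf D2-FLATLOC, part 4: the distance of a flat metric is locally Euclidean

`riemDist_eq_dist` : if the diffeomorphism `e` pulls back the Euclidean metric to `g` near `x0`, then
`riemDist g U y z = dist (e y) (e z)` for `y, z` near `x0` (for the full domain `U`).
-/

set_option autoImplicit false
set_option maxSynthPendingDepth 3

open Set Filter Topology Metric MeasureTheory
open scoped ContDiff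
open Crest.Agent.R244 Crest.Agent.R244.CF
open Crest.GeometryTopology.CoordMetric Crest.GeometryTopology.ChartCurvature

namespace Crest.Agent.R249.Flat676

noncomputable section

variable {n : ℕ}

local notation "𝔼" => EuclideanSpace ℝ (Fin n)

/-- `e` is a diffeomorphism from an open subset of `U` onto an open subset of `ℝⁿ` which pulls the
Euclidean metric back to `g`. -/
structure IsFlatChart (U : Set (EuclideanSpace ℝ (Fin n))) (g : MetricField n)
    (e : OpenPartialHomeomorph (EuclideanSpace ℝ (Fin n)) (EuclideanSpace ℝ (Fin n))) : Prop where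
  source_subset : e.source ⊆ U
  smooth : ContDiffOn ℝ ∞ e e.source
  smooth_symm : ContDiffOn ℝ ∞ e.symm e.target
  isom : ∀ x ∈ e.source, ∀ u v, gB g x u v = inner ℝ (fderiv ℝ e x u) (fderiv ℝ e x v)

variable {U : Set (EuclideanSpace ℝ (Fin n))} {g : MetricField n}
  {e : OpenPartialHomeomorph (EuclideanSpace ℝ (Fin n)) (EuclideanSpace ℝ (Fin n))}

theorem exists_isFlatChart (h : IsRiemannianOn g U)
    (hR : ∀ x ∈ U, ∀ u v w, curv (Gam g) x u v w = 0) {x0 : 𝔼} (hx0 : x0 ∈ U) :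
    ∃ e : OpenPartialHomeomorph (EuclideanSpace ℝ (Fin n)) (EuclideanSpace ℝ (Fin n)),
      IsFlatChart U g e ∧ x0 ∈ e.source := by
  obtain ⟨e, h1, h2, h3, h4, h5⟩ := exists_flat_chart (isLC_of_isRiemannianOn h) hR hx0
  exact ⟨e, ⟨h2, h3, h4, h5⟩, h1⟩

theorem IsFlatChart.sqrt_quadForm (he : IsFlatChart U g e) {x : 𝔼} (hx : x ∈ e.source) (v : 𝔼) :
    Real.sqrt (quadForm g x v) = ‖fderiv ℝ e x v‖ := by
  rw [← gB_self, he.isom x hx, real_inner_self_eq_norm_sq, Real.sqrt_sq (norm_nonneg _)]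

theorem continuousOn_speed (h : IsRiemannianOn g U) {γ : ℝ → 𝔼} (hγ : ContDiff ℝ 1 γ)
    {s : Set ℝ} (hs : ∀ t ∈ s, γ t ∈ U) :
    ContinuousOn (fun t => Real.sqrt (quadForm g (γ t) (deriv γ t))) s := by
  have h1 : ContinuousOn (fun t => gB g (γ t)) s :=
    (contDiffOn_gB h).continuousOn.comp hγ.continuous.continuousOn hs
  have h2 : Continuous (deriv γ) := hγ.continuous_deriv le_rfl
  have h3 : ContinuousOn (fun t => gB g (γ t) (deriv γ t) (deriv γ t)) s :=
    (h1.clm_apply h2.continuousOn).clm_apply h2.continuousOn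
  simp only [gB_self] at h3
  exact h3.sqrt

/-- length bound inside a flat chart -/
theorem IsFlatChart.dist_le_integral (he : IsFlatChart U g e)
    {γ : ℝ → 𝔼} (hγ : ContDiff ℝ 1 γ) {b : ℝ} (hb : 0 ≤ b)
    (hs : ∀ t ∈ Icc 0 b, γ t ∈ e.source) :
    dist (e (γ 0)) (e (γ b)) ≤ ∫ t in (0 : ℝ)..b, Real.sqrt (quadForm g (γ t) (deriv γ t)) := by
  have hd : ∀ t ∈ Icc 0 b, HasDerivAt (fun t => e (γ t)) (fderiv ℝ e (γ t) (deriv γ t)) t := by
    intro t ht
    have h1 : DifferentiableAt ℝ e (γ t) :=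
      (he.smooth.contDiffAt (e.open_source.mem_nhds (hs t ht))).differentiableAt (by simp)
    exact h1.hasFDerivAt.comp_hasDerivAt t
      (hγ.differentiable one_ne_zero t).hasDerivAt
  have hsp : ContinuousOn (fun t => fderiv ℝ e (γ t) (deriv γ t)) (Icc 0 b) := by
    have h1 : ContinuousOn (fderiv ℝ e) e.source :=
      he.smooth.continuousOn_fderiv_of_isOpen e.open_source (by simp)
    have h2 : ContinuousOn (fun t => fderiv ℝ e (γ t)) (Icc 0 b) :=
      h1.comp hγ.continuous.continuousOn hs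
    exact h2.clm_apply (hγ.continuous_deriv le_rfl).continuousOn
  have hint : IntervalIntegrable (fun t => fderiv ℝ e (γ t) (deriv γ t)) volume 0 b := by
    apply ContinuousOn.intervalIntegrable
    rwa [uIcc_of_le hb]
  have hftc := intervalIntegral.integral_eq_sub_of_hasDerivAt (a := 0) (b := b)
    (fun t ht => hd t (by rwa [uIcc_of_le hb] at ht)) hint
  rw [dist_comm, dist_eq_norm, ← hftc]
  refine (intervalIntegral.norm_integral_le_integral_norm hb).trans_eq ?_
  refine intervalIntegral.integral_congr fun t ht => ?_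
  rw [uIcc_of_le hb] at ht
  exact (he.sqrt_quadForm (hs t ht) _).symm

/-- the Euclidean lower bound for the length of ANY admissible path between nearby points -/
theorem IsFlatChart.dist_le_curveLength (h : IsRiemannianOn g U) (he : IsFlatChart U g e)
    {c : 𝔼} {R : ℝ} (hR : closedBall c (3 * R) ⊆ e.target)
    {y z : 𝔼} (hy : y ∈ e.source) (hyR : dist (e y) c < R)
    (hzR : dist (e z) c < R) (γ : AdmissiblePath U y z) :
    dist (e y) (e z) ≤ curveLength g γ.1 := by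
  obtain ⟨γ, hγ, h0, h1, hU⟩ := γ
  simp only
  set L := curveLength g γ with hL
  by_contra hlt
  push Not at hlt
  have hcont : ContinuousOn (fun t => Real.sqrt (quadForm g (γ t) (deriv γ t))) (Icc 0 1) :=
    continuousOn_speed h hγ hU
  have hmonoL : ∀ t ∈ Icc (0 : ℝ) 1,
      ∫ s in (0 : ℝ)..t, Real.sqrt (quadForm g (γ s) (deriv γ s)) ≤ L := by
    intro t ht
    refine intervalIntegral.integral_mono_interval le_rfl ht.1 ht.2
      (Filter.Eventually.of_forall fun s => Real.sqrt_nonneg _) ?_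
    apply ContinuousOn.intervalIntegrable
    rwa [uIcc_of_le zero_le_one]
  have hR0 : 0 < R := lt_of_le_of_lt dist_nonneg hyR
  have hL0 : 0 ≤ L := by
    have := hmonoL 0 (left_mem_Icc.2 zero_le_one)
    simpa using this
  have hL2 : L < 2 * R := by
    have := dist_triangle_right (e y) (e z) c
    linarith
  set K : Set 𝔼 := e.symm '' closedBall c (dist (e y) c + L) with hK
  have hKb : closedBall c (dist (e y) c + L) ⊆ ball c (3 * R) := by
    intro p hp
    rw [mem_closedBall] at hp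
    rw [mem_ball]
    linarith
  have hKt : closedBall c (dist (e y) c + L) ⊆ e.target :=
    (hKb.trans ball_subset_closedBall).trans hR
  have hKc : IsCompact K :=
    (isCompact_closedBall c _).image_of_continuousOn (e.continuousOn_symm.mono hKt)
  set O : Set 𝔼 := e.source ∩ e ⁻¹' ball c (3 * R) with hO
  have hOo : IsOpen O := e.isOpen_inter_preimage isOpen_ball
  have hKO : K ⊆ O := by
    rintro _ ⟨p, hp, rfl⟩
    refine ⟨e.map_target (hKt hp), ?_⟩
    rw [mem_preimage, e.right_inv (hKt hp)]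
    exact hKb hp
  -- the first exit time
  have hin : ∀ t ∈ Icc (0 : ℝ) 1, γ t ∈ O := by
    by_contra hne
    push Not at hne
    set A : Set ℝ := Icc (0 : ℝ) 1 ∩ γ ⁻¹' Oᶜ with hA
    have hAc : IsCompact A :=
      isCompact_Icc.inter_right (hOo.isClosed_compl.preimage hγ.continuous)
    have hAne : A.Nonempty := by
      obtain ⟨t, ht, ht'⟩ := hne
      exact ⟨t, ht, ht'⟩
    set T := sInf A with hT
    have hTA : T ∈ A := hAc.sInf_mem hAne
    have hlow : ∀ t ∈ Icc (0 : ℝ) 1, t < T → γ t ∈ O := by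
      intro t ht htT
      by_contra hno
      exact absurd (csInf_le hAc.bddBelow (show t ∈ A from ⟨ht, hno⟩)) (not_le.2 htT)
    have hyO : γ 0 ∈ O := by
      rw [h0]
      refine ⟨hy, ?_⟩
      rw [mem_preimage, mem_ball]
      linarith
    have hT0 : 0 < T := by
      rcases hTA.1.1.eq_or_lt with h | h
      · exact absurd (h ▸ hyO : γ T ∈ O) hTA.2
      · exact h
    have hK' : ∀ t ∈ Ico (0 : ℝ) T, γ t ∈ K := by
      intro t ht
      have ht1 : t ∈ Icc (0 : ℝ) 1 := ⟨ht.1, ht.2.le.trans hTA.1.2⟩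
      have hsub : ∀ s ∈ Icc 0 t, γ s ∈ e.source := fun s hs =>
        (hlow s ⟨hs.1, hs.2.trans ht1.2⟩ (hs.2.trans_lt ht.2)).1
      have h5 := (he.dist_le_integral hγ ht.1 hsub).trans (hmonoL t ht1)
      rw [h0] at h5
      refine ⟨e (γ t), ?_, e.left_inv (hlow t ht1 ht.2).1⟩
      rw [mem_closedBall]
      have := dist_triangle_left (e (γ t)) c (e y)
      linarith
    have hTK : γ T ∈ K := by
      have hcl : IsClosed (γ ⁻¹' K) := hKc.isClosed.preimage hγ.continuous
      have h6 : Ico 0 T ⊆ γ ⁻¹' K := hK'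
      have h7 := hcl.closure_subset_iff.2 h6
      rw [closure_Ico hT0.ne] at h7
      exact h7 ⟨hT0.le, le_rfl⟩
    exact hTA.2 (hKO hTK)
  have hfin := he.dist_le_integral hγ zero_le_one (fun t ht => (hin t ht).1)
  rw [h0, h1] at hfin
  exact absurd hfin (not_le.2 hlt)

/-- The Euclidean segment, read in a flat chart, has the Euclidean length. -/
theorem IsFlatChart.exists_path (he : IsFlatChart U g e)
    {c : 𝔼} {R : ℝ} (hR : ball c R ⊆ e.target)
    {y z : 𝔼} (hy : y ∈ e.source) (hz : z ∈ e.source) (hyR : dist (e y) c < R)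
    (hzR : dist (e z) c < R) :
    ∃ γ : AdmissiblePath U y z, curveLength g γ.1 = dist (e y) (e z) := by
  set l : ℝ → 𝔼 := fun t => e y + Real.smoothTransition t • (e z - e y) with hl
  have hls : ContDiff ℝ ∞ l :=
    contDiff_const.add (Real.smoothTransition.contDiff.smul contDiff_const)
  have hlm : ∀ t, l t ∈ ball c R := by
    intro t
    exact (convex_ball c R).add_smul_sub_mem (mem_ball.2 hyR) (mem_ball.2 hzR)
      ⟨Real.smoothTransition.nonneg t, Real.smoothTransition.le_one t⟩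
  set γ : ℝ → 𝔼 := fun t => e.symm (l t) with hγ
  have hγs : ContDiff ℝ ∞ γ := by
    rw [← contDiffOn_univ]
    exact he.smooth_symm.comp hls.contDiffOn (fun t _ => hR (hlm t))
  have hγ0 : γ 0 = y := by
    simp [hγ, hl, Real.smoothTransition.zero, e.left_inv hy]
  have hγ1 : γ 1 = z := by
    simp [hγ, hl, Real.smoothTransition.one, e.left_inv hz]
  have hγm : ∀ t, γ t ∈ e.source := fun t => e.map_target (hR (hlm t))
  refine ⟨⟨γ, hγs.of_le (by exact ENat.LEInfty.out), hγ0, hγ1,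
    fun t _ => he.source_subset (hγm t)⟩, ?_⟩
  have hd : ∀ t, fderiv ℝ e (γ t) (deriv γ t) = deriv Real.smoothTransition t • (e z - e y) := by
    intro t
    have h1 : DifferentiableAt ℝ e (γ t) :=
      (he.smooth.contDiffAt (e.open_source.mem_nhds (hγm t))).differentiableAt (by simp)
    have h2 : HasDerivAt (fun t => e (γ t)) (fderiv ℝ e (γ t) (deriv γ t)) t :=
      h1.hasFDerivAt.comp_hasDerivAt t (hγs.differentiable (by simp) t).hasDerivAt
    have h3 : (fun t => e (γ t)) = l := by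
      funext t
      exact e.right_inv (hR (hlm t))
    rw [h3] at h2
    have h4 : HasDerivAt l (deriv Real.smoothTransition t • (e z - e y)) t :=
      (((Real.smoothTransition.contDiff (n := 1)).differentiable one_ne_zero t).hasDerivAt.smul_const
        (e z - e y)).const_add (e y)
    exact h2.unique h4
  have hmono : ∀ t, 0 ≤ deriv Real.smoothTransition t := fun t =>
    Real.smoothTransition.monotone.deriv_nonneg
  unfold curveLength
  simp only
  have e1 : ∀ t, Real.sqrt (quadForm g (γ t) (deriv γ t))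
      = deriv Real.smoothTransition t * dist (e y) (e z) := by
    intro t
    rw [he.sqrt_quadForm (hγm t), hd t, norm_smul, Real.norm_eq_abs, abs_of_nonneg (hmono t),
      dist_comm, dist_eq_norm]
  simp only [e1]
  have e2 : ∫ t in (0 : ℝ)..1, deriv Real.smoothTransition t
      = Real.smoothTransition 1 - Real.smoothTransition 0 :=
    intervalIntegral.integral_deriv_eq_sub
      (fun t _ => (Real.smoothTransition.contDiff (n := 1)).differentiable one_ne_zero t)
      (((Real.smoothTransition.contDiff (n := 1)).continuous_deriv le_rfl).intervalIntegrable _ _)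
  rw [intervalIntegral.integral_mul_const, e2]
  simp [Real.smoothTransition.zero, Real.smoothTransition.one]

/-- **The distance of a flat metric is locally Euclidean.** -/
theorem IsFlatChart.riemDist_eq (h : IsRiemannianOn g U) (he : IsFlatChart U g e)
    {c : 𝔼} {R : ℝ} (hR : closedBall c (3 * R) ⊆ e.target)
    {y z : 𝔼} (hy : y ∈ e.source) (hz : z ∈ e.source) (hyR : dist (e y) c < R)
    (hzR : dist (e z) c < R) : riemDist g U y z = dist (e y) (e z) := by
  have hR0 : 0 < R := lt_of_le_of_lt dist_nonneg hyR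
  have hball : ball c R ⊆ e.target :=
    ((ball_subset_ball (by linarith)).trans ball_subset_closedBall).trans hR
  obtain ⟨γ, hγ⟩ := he.exists_path hball hy hz hyR hzR
  have hlb : ∀ γ : AdmissiblePath U y z, dist (e y) (e z) ≤ curveLength g γ.1 := fun γ =>
    he.dist_le_curveLength h hR hy hyR hzR γ
  have : Nonempty (AdmissiblePath U y z) := ⟨γ⟩
  refine le_antisymm ?_ (le_ciInf hlb)
  rw [← hγ]
  exact ciInf_le ⟨dist (e y) (e z), by rintro _ ⟨γ, rfl⟩; exact hlb γ⟩ γ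

end

end Crest.Agent.R249.Flat676
end

-- ▼ part R249/Flat5_676

/-!
# R249, leaf D2-FLATLOC, part 5: final forms

* `exists_isometric_ball` : a metric space whose distance is, near `z` and in a coordinate system
  `e`, the Riemannian distance of a flat metric has a ball around `z` isometric to a Euclidean ball;
* `exists_isometric_ball_of_sec`, `exists_isometric_ball_of_ricci` : flatness in the form
  `secNumer = 0`, resp. `ricci = 0` and `secNumer ≥ 0`.
-/

set_option autoImplicit false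
set_option maxSynthPendingDepth 3

open Set Filter Topology Metric MeasureTheory
open scoped ContDiff
open Crest.Agent.R244 Crest.Agent.R244.CF
open Crest.GeometryTopology.CoordMetric Crest.GeometryTopology.ChartCurvature

namespace Crest.Agent.R249.Flat676

noncomputable section

variable {n : ℕ}

local notation "𝔼" => EuclideanSpace ℝ (Fin n)

variable {U : Set (EuclideanSpace ℝ (Fin n))} {g : MetricField n}

/-- the distance of a flat metric is Euclidean near every point, in a flat chart -/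
theorem exists_riemDist_eq (h : IsRiemannianOn g U)
    (hR : ∀ x ∈ U, ∀ u v w, curv (Gam g) x u v w = 0) {x0 : 𝔼} (hx0 : x0 ∈ U) :
    ∃ e : OpenPartialHomeomorph (EuclideanSpace ℝ (Fin n)) (EuclideanSpace ℝ (Fin n)),
      IsFlatChart U g e ∧ x0 ∈ e.source ∧
      ∀ y ∈ e.source, ∀ z ∈ e.source, riemDist g U y z = dist (e y) (e z) := by
  obtain ⟨e, he, hx0e⟩ := exists_isFlatChart h hR hx0
  obtain ⟨R0, hR0, hball⟩ := Metric.nhds_basis_closedBall.mem_iff.1
    (e.open_target.mem_nhds (e.map_source hx0e))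
  have hR3 : 0 < R0 / 3 := by positivity
  have hcb : closedBall (e x0) (3 * (R0 / 3)) ⊆ e.target := by
    have : 3 * (R0 / 3) = R0 := by ring
    rw [this]
    exact hball
  set O : Set 𝔼 := e.source ∩ e ⁻¹' ball (e x0) (R0 / 3) with hO
  have hOo : IsOpen O := e.isOpen_inter_preimage isOpen_ball
  have hsrc : (e.restrOpen O hOo).source = O := by
    rw [e.restrOpen_source]
    exact inter_eq_right.2 inter_subset_left
  refine ⟨e.restrOpen O hOo, ⟨?_, ?_, ?_, ?_⟩, ?_, ?_⟩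
  · rw [hsrc]
    exact inter_subset_left.trans he.source_subset
  · rw [hsrc]
    exact he.smooth.mono inter_subset_left
  · exact he.smooth_symm.mono (by
      intro p hp
      exact hp.1)
  · intro x hx
    rw [hsrc] at hx
    exact he.isom x hx.1
  · rw [hsrc]
    exact ⟨hx0e, by simp [hR3]⟩
  · intro y hy z hz
    rw [hsrc] at hy hz
    exact he.riemDist_eq h hcb hy.1 hz.1 hy.2 hz.2

/-- **A metric space with a flat coordinate system is locally Euclidean.** -/
theorem exists_isometric_ball {X : Type*} [MetricSpace X] (h : IsRiemannianOn g U)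
    (hR : ∀ x ∈ U, ∀ u v w, curv (Gam g) x u v w = 0)
    (e : OpenPartialHomeomorph X (EuclideanSpace ℝ (Fin n))) {z : X} (hz : z ∈ e.source)
    (hzU : e z ∈ U) {ρ : ℝ} (hρ : 0 < ρ)
    (hd : ∀ x ∈ ball z ρ, ∀ y ∈ ball z ρ, dist x y = riemDist g U (e x) (e y)) :
    ∃ r > 0, ∃ f : X → EuclideanSpace ℝ (Fin n),
      (∀ x ∈ ball z r, ∀ y ∈ ball z r, dist (f x) (f y) = dist x y) ∧
      f '' ball z r = ball (f z) r := by
  obtain ⟨c, hc, hzc, hcd⟩ := exists_riemDist_eq h hR hzU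
  set F := e.trans c with hF
  have hFz : z ∈ F.source := by
    rw [hF, OpenPartialHomeomorph.trans_source]
    exact ⟨hz, hzc⟩
  obtain ⟨r1, hr1, hb1⟩ := Metric.isOpen_iff.1 F.open_source z hFz
  set r2 := min r1 ρ with hr2
  have hr2p : 0 < r2 := lt_min hr1 hρ
  have hb2 : ball z r2 ⊆ F.source := (ball_subset_ball (min_le_left _ _)).trans hb1
  have hiso : ∀ x ∈ ball z r2, ∀ y ∈ ball z r2, dist (F x) (F y) = dist x y := by
    intro x hx y hy
    have hxs := hb2 hx
    have hys := hb2 hy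
    rw [hF, OpenPartialHomeomorph.trans_source] at hxs hys
    rw [hd x (ball_subset_ball (min_le_right _ _) hx) y (ball_subset_ball (min_le_right _ _) hy),
      hcd _ hxs.2 _ hys.2]
    rfl
  have hop : IsOpen (F '' ball z r2) := F.isOpen_image_of_subset_source isOpen_ball hb2
  obtain ⟨r3, hr3, hb3⟩ := Metric.isOpen_iff.1 hop (F z) ⟨z, mem_ball_self hr2p, rfl⟩
  refine ⟨min r2 r3, lt_min hr2p hr3, F, ?_, ?_⟩
  · intro x hx y hy
    exact hiso x (ball_subset_ball (min_le_left _ _) hx) y (ball_subset_ball (min_le_left _ _) hy)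
  · apply Subset.antisymm
    · rintro _ ⟨x, hx, rfl⟩
      rw [mem_ball, hiso x (ball_subset_ball (min_le_left _ _) hx) z (mem_ball_self hr2p)]
      exact hx
    · intro p hp
      obtain ⟨x, hx, rfl⟩ := hb3 (ball_subset_ball (min_le_right _ _) hp)
      refine ⟨x, ?_, rfl⟩
      rw [mem_ball, hiso x hx z (mem_ball_self hr2p)] at hp
      exact hp


theorem exists_isometric_ball_of_ricci {X : Type*} [MetricSpace X] (h : IsRiemannianOn g U)
    (hric : ∀ x ∈ U, ∀ i j, ricci g x i j = 0) (hsec : ∀ x ∈ U, ∀ u v, 0 ≤ secNumer g x u v)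
    (e : OpenPartialHomeomorph X (EuclideanSpace ℝ (Fin n))) {z : X} (hz : z ∈ e.source)
    (hzU : e z ∈ U) {ρ : ℝ} (hρ : 0 < ρ)
    (hd : ∀ x ∈ ball z ρ, ∀ y ∈ ball z ρ, dist x y = riemDist g U (e x) (e y)) :
    ∃ r > 0, ∃ f : X → EuclideanSpace ℝ (Fin n),
      (∀ x ∈ ball z r, ∀ y ∈ ball z r, dist (f x) (f y) = dist x y) ∧
      f '' ball z r = ball (f z) r :=
  exists_isometric_ball h (fun x hx => curv_eq_zero_of_ricci h hx (hric x hx) (hsec x hx)) e hz hzU
    hρ hd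

end

end Crest.Agent.R249.Flat676
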