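import Mathlib

-- ▼ part R249/FrA_129
section

/-!
Frame calculus over a differential ring (row 249, helper129).

`S` is a commutative ℝ-algebra (germs of smooth functions), `D k` derivations (an orthonormal
frame `e_k`), `w k i j = ⟨∇_{e_k} e_i, e_j⟩`.
-/

set_option autoImplicit false

namespace Crest.Agent.R249.Fr129

open Finset

/-- An orthonormal frame with its Levi-Civita connection, over a commutative ring of functions. -/
structure Frame (n : ℕ) (S : Type*) [CommRing S] [Algebra ℝ S] where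
  /-- derivative in the direction of the `k`-th frame vector -/
  D : Fin n → Derivation ℝ S S
  /-- `w k i j = ⟨∇_{e_k} e_i, e_j⟩` -/
  w : Fin n → Fin n → Fin n → S
  anti : ∀ k i j, w k i j = - w k j i
  tors : ∀ k l f, D k (D l f) - D l (D k f) = ∑ m, (w k l m - w l k m) * D m f
  indep : ∀ c : Fin n → S, (∀ f, ∑ m, c m * D m f = 0) → ∀ m, c m = 0

namespace Frame

variable {n : ℕ} {S : Type*} [CommRing S] [Algebra ℝ S] (F : Frame n S)

/-- torsion coefficients: `[e_k, e_l] = ∑ T k l m e_m` -/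
def T (k l m : Fin n) : S := F.w k l m - F.w l k m

lemma T_anti (k l m : Fin n) : F.T k l m = - F.T l k m := by simp [T]

lemma tors' (k l : Fin n) (f : S) :
    F.D k (F.D l f) = F.D l (F.D k f) + ∑ m, F.T k l m * F.D m f := by
  have := F.tors k l f
  simp only [T]
  rw [← this]; ring

lemma D_sum (k : Fin n) {ι : Type*} (s : Finset ι) (f : ι → S) :
    F.D k (∑ i ∈ s, f i) = ∑ i ∈ s, F.D k (f i) := map_sum _ _ _

lemma D_mul (k : Fin n) (f g : S) : F.D k (f * g) = F.D k f * g + f * F.D k g := by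
  rw [Derivation.leibniz]; simp only [smul_eq_mul]; ring

/-- Jacobi identity for the frame. -/
lemma jacobi (j k l m : Fin n) :
    F.D j (F.T k l m) + F.D k (F.T l j m) + F.D l (F.T j k m)
      + ∑ p, (F.T k l p * F.T j p m + F.T l j p * F.T k p m + F.T j k p * F.T l p m) = 0 := by
  have key : ∀ f, ∑ m, (F.D j (F.T k l m) + F.D k (F.T l j m) + F.D l (F.T j k m)
      + ∑ p, (F.T k l p * F.T j p m + F.T l j p * F.T k p m + F.T j k p * F.T l p m)) * F.D m f
        = 0 := by
    intro f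
    -- [D_j,[D_k,D_l]] f + cyc = 0
    have h : ∀ j k l : Fin n, F.D j (∑ m, F.T k l m * F.D m f) - ∑ m, F.T k l m * F.D m (F.D j f)
        = ∑ m, (F.D j (F.T k l m) + ∑ p, F.T k l p * F.T j p m) * F.D m f := by
      intro j k l
      rw [D_sum]
      have h1 : ∀ m, F.D j (F.T k l m * F.D m f) = F.D j (F.T k l m) * F.D m f
          + F.T k l m * F.D m (F.D j f) + ∑ p, F.T k l m * (F.T j m p * F.D p f) := by
        intro m
        rw [D_mul, tors' F j m f, mul_add, mul_sum]; ring
      simp_rw [h1, sum_add_distrib, add_mul, sum_add_distrib, sum_mul]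
      rw [sum_comm (f := fun m p => F.T k l m * (F.T j m p * F.D p f))]
      have : ∀ p m : Fin n, F.T k l m * (F.T j m p * F.D p f) = F.T k l m * F.T j m p * F.D p f := by
        intros; ring
      simp_rw [this]
      ring
    have hc : ∀ k l : Fin n, ∑ m, F.T k l m * F.D m f = F.D k (F.D l f) - F.D l (F.D k f) := by
      intro k l; rw [tors' F k l f]; ring
    have hc2 : ∀ j k l : Fin n, ∑ m, F.T k l m * F.D m (F.D j f)
        = F.D k (F.D l (F.D j f)) - F.D l (F.D k (F.D j f)) := by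
      intro j k l; rw [tors' F k l (F.D j f)]; ring
    have e : ∑ m, (F.D j (F.T k l m) + F.D k (F.T l j m) + F.D l (F.T j k m)
      + ∑ p, (F.T k l p * F.T j p m + F.T l j p * F.T k p m + F.T j k p * F.T l p m)) * F.D m f
      = ∑ m, (F.D j (F.T k l m) + ∑ p, F.T k l p * F.T j p m) * F.D m f
        + ∑ m, (F.D k (F.T l j m) + ∑ p, F.T l j p * F.T k p m) * F.D m f
        + ∑ m, (F.D l (F.T j k m) + ∑ p, F.T j k p * F.T l p m) * F.D m f := by
      rw [← sum_add_distrib, ← sum_add_distrib]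
      refine sum_congr rfl fun m _ => ?_
      rw [sum_add_distrib, sum_add_distrib]; ring
    rw [e, ← h, ← h, ← h, hc, hc, hc, hc2, hc2, hc2, map_sub, map_sub, map_sub]
    ring
  exact F.indep _ key m

/-- Riemann tensor `R i j k l = ⟨R(e_i,e_j) e_k, e_l⟩`. -/
def Rm (i j k l : Fin n) : S :=
  F.D i (F.w j k l) - F.D j (F.w i k l) + ∑ m, (F.w j k m * F.w i m l - F.w i k m * F.w j m l)
    - ∑ m, F.T i j m * F.w m k l

lemma Rm_anti12 (i j k l : Fin n) : F.Rm i j k l = - F.Rm j i k l := by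
  have h1 : ∑ m, F.T i j m * F.w m k l = - ∑ m, F.T j i m * F.w m k l := by
    rw [← sum_neg_distrib]; exact sum_congr rfl fun m _ => by rw [F.T_anti i j m]; ring
  have h2 : ∑ m, (F.w j k m * F.w i m l - F.w i k m * F.w j m l)
      = - ∑ m, (F.w i k m * F.w j m l - F.w j k m * F.w i m l) := by
    rw [← sum_neg_distrib]; exact sum_congr rfl fun m _ => by ring
  rw [Rm, Rm, h1, h2]; ring

lemma Rm_anti34 (i j k l : Fin n) : F.Rm i j k l = - F.Rm i j l k := by
  have h1 : ∑ m, F.T i j m * F.w m k l = - ∑ m, F.T i j m * F.w m l k := by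
    rw [← sum_neg_distrib]; exact sum_congr rfl fun m _ => by rw [F.anti m k l]; ring
  have h2 : ∑ m, (F.w j k m * F.w i m l - F.w i k m * F.w j m l)
      = - ∑ m, (F.w j l m * F.w i m k - F.w i l m * F.w j m k) := by
    rw [← sum_neg_distrib]
    exact sum_congr rfl fun m _ => by
      rw [F.anti j k m, F.anti i m l, F.anti i k m, F.anti j m l]; ring
  rw [Rm, Rm, h1, h2, F.anti j k l, F.anti i k l, map_neg, map_neg]; ring

/-- First Bianchi identity. -/
lemma bianchi1 (i j k l : Fin n) : F.Rm i j k l + F.Rm j k i l + F.Rm k i j l = 0 := by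
  have hJ := F.jacobi i j k l
  simp only [Rm]
  have hT : ∀ a b c : Fin n, F.D a (F.T b c l) = F.D a (F.w b c l) - F.D a (F.w c b l) := by
    intro a b c; rw [T, map_sub]
  rw [hT, hT, hT] at hJ
  have : ∑ m, (F.w j k m * F.w i m l - F.w i k m * F.w j m l)
      + ∑ m, (F.w k i m * F.w j m l - F.w j i m * F.w k m l)
      + ∑ m, (F.w i j m * F.w k m l - F.w k j m * F.w i m l)
      - ∑ m, F.T i j m * F.w m k l - ∑ m, F.T j k m * F.w m i l - ∑ m, F.T k i m * F.w m j l
      = ∑ p, (F.T j k p * F.T i p l + F.T k i p * F.T j p l + F.T i j p * F.T k p l) := by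
    rw [← sum_add_distrib, ← sum_add_distrib, ← sum_sub_distrib, ← sum_sub_distrib,
      ← sum_sub_distrib]
    refine sum_congr rfl fun m _ => ?_
    simp only [T]; ring
  linear_combination hJ + this

lemma eq_zero_of_two {x : S} (h : 2 * x = 0) : x = 0 := by
  have : x = (algebraMap ℝ S (1/2)) * (2 * x) := by
    have h2 : (algebraMap ℝ S (1/2)) * 2 = 1 := by
      have : (2 : S) = algebraMap ℝ S 2 := (map_ofNat (algebraMap ℝ S) 2).symm
      rw [this, ← map_mul]; norm_num
    rw [← mul_assoc, h2, one_mul]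
  rw [this, h, mul_zero]

lemma eq_of_two {x y : S} (h : 2 * x = 2 * y) : x = y := by
  have : x - y = 0 := eq_zero_of_two (by rw [mul_sub, h, sub_self])
  exact sub_eq_zero.mp this

/-- Pair symmetry. -/
lemma Rm_pair (i j k l : Fin n) : F.Rm i j k l = F.Rm k l i j := by
  apply eq_of_two
  have h1 := F.bianchi1 i j k l
  have h2 := F.bianchi1 j k l i
  have h3 := F.bianchi1 k l i j
  have h4 := F.bianchi1 l i j k
  have e1 := F.Rm_anti34 j k l i
  have e2 := F.Rm_anti34 k l j i
  have e3 := F.Rm_anti12 l j k i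
  have e4 : F.Rm l i k j = F.Rm i l j k := by rw [F.Rm_anti12 l i k j, F.Rm_anti34 i l k j, neg_neg]
  have e5 : F.Rm i k l j = F.Rm k i j l := by rw [F.Rm_anti12 i k l j, F.Rm_anti34 k i l j, neg_neg]
  have e6 := F.Rm_anti12 l i j k
  have e7 := F.Rm_anti34 i j l k
  have e8 := F.Rm_anti34 j l i k
  linear_combination h1 + h2 - h3 - h4 - e1 - e2 - e3 + e4 + e5 + e6 + e7 + e8

end Frame

end Crest.Agent.R249.Fr129
end

-- ▼ part R249/FrB_129
section

/-!
Vector bundles with connection over a frame ring: covariant derivatives, curvature, Ricci identity,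
second Bianchi identity. (row 249, helper129)
-/

set_option autoImplicit false

namespace Crest.Agent.R249.Fr129

open Finset Matrix

namespace Frame

variable {n : ℕ} {S : Type*} [CommRing S] [Algebra ℝ S] (F : Frame n S)
variable {ι : Type*} [Fintype ι] [DecidableEq ι]

/-- Covariant derivative `∇_{e_k} u` of a section `u : ι → S`, connection matrices `a k`. -/
def cov (a : Fin n → Matrix ι ι S) (k : Fin n) (u : ι → S) : ι → S :=
  fun i => F.D k (u i) + ∑ j, a k i j * u j

/-- Curvature matrices of the connection `a`. -/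
def curv (a : Fin n → Matrix ι ι S) (k l : Fin n) : Matrix ι ι S := fun i j =>
  F.D k (a l i j) - F.D l (a k i j) + ∑ p, (a k i p * a l p j - a l i p * a k p j)
    - ∑ m, F.T k l m * a m i j

/-- Second covariant derivative `∇²_{e_k,e_l} u`. -/
def hess (a : Fin n → Matrix ι ι S) (k l : Fin n) (u : ι → S) : ι → S :=
  fun i => F.cov a k (F.cov a l u) i - ∑ m, F.w k l m * F.cov a m u i

/-- Rough Laplacian. -/
def lap (a : Fin n → Matrix ι ι S) (u : ι → S) : ι → S := fun i => ∑ k, F.hess a k k u i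

/-- Covariant derivative of an endomorphism valued function. -/
def covE (a : Fin n → Matrix ι ι S) (k : Fin n) (M : Matrix ι ι S) : Matrix ι ι S := fun i j =>
  F.D k (M i j) + ∑ p, (a k i p * M p j - M i p * a k p j)

variable (a : Fin n → Matrix ι ι S)

omit [DecidableEq ι] in
lemma curv_anti (k l : Fin n) (i j : ι) : F.curv a k l i j = - F.curv a l k i j := by
  have h1 : ∑ m, F.T k l m * a m i j = - ∑ m, F.T l k m * a m i j := by
    rw [← sum_neg_distrib]; exact sum_congr rfl fun m _ => by rw [F.T_anti k l m]; ring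
  have h2 : ∑ p, (a k i p * a l p j - a l i p * a k p j)
      = - ∑ p, (a l i p * a k p j - a k i p * a l p j) := by
    rw [← sum_neg_distrib]; exact sum_congr rfl fun m _ => by ring
  rw [curv, curv, h1, h2]; ring

omit [DecidableEq ι] in
lemma cov_add (k : Fin n) (u v : ι → S) : F.cov a k (u + v) = F.cov a k u + F.cov a k v := by
  funext i; simp only [cov, Pi.add_apply, map_add, mul_add, sum_add_distrib]; ring

omit [DecidableEq ι] in
lemma cov_neg (k : Fin n) (u : ι → S) : F.cov a k (-u) = -F.cov a k u := by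
  funext i; simp only [cov, Pi.neg_apply, map_neg, mul_neg, sum_neg_distrib]; ring

omit [DecidableEq ι] in
lemma cov_sub (k : Fin n) (u v : ι → S) : F.cov a k (u - v) = F.cov a k u - F.cov a k v := by
  rw [sub_eq_add_neg, cov_add, cov_neg, sub_eq_add_neg]

omit [DecidableEq ι] in
lemma cov_smul (k : Fin n) (f : S) (u : ι → S) :
    F.cov a k (f • u) = F.D k f • u + f • F.cov a k u := by
  funext i; simp only [cov, Pi.add_apply, Pi.smul_apply, smul_eq_mul, D_mul, mul_add, mul_sum]
  have : ∀ j, a k i j * (f * u j) = f * (a k i j * u j) := by intro j; ring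
  simp_rw [this]; ring

omit [DecidableEq ι] in
lemma cov_sum (k : Fin n) {κ : Type*} (s : Finset κ) (u : κ → ι → S) :
    F.cov a k (∑ x ∈ s, u x) = ∑ x ∈ s, F.cov a k (u x) := by
  classical
  induction s using Finset.induction_on with
  | empty =>
      simp only [sum_empty]
      funext i; simp [cov]
  | insert x s hx ih => rw [sum_insert hx, cov_add, ih, sum_insert hx]

omit [DecidableEq ι] in
/-- Commutator of covariant derivatives. -/
lemma cov_comm (k l : Fin n) (u : ι → S) :
    F.cov a k (F.cov a l u) = F.cov a l (F.cov a k u) + F.curv a k l *ᵥ u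
      + ∑ m, F.T k l m • F.cov a m u := by
  funext i
  simp only [cov, curv, Pi.add_apply, Matrix.mulVec, dotProduct, Finset.sum_apply, Pi.smul_apply,
    smul_eq_mul]
  have e1 : ∀ k l : Fin n, F.D k (F.D l (u i) + ∑ j, a l i j * u j)
      + ∑ j, a k i j * (F.D l (u j) + ∑ p, a l j p * u p)
      = F.D k (F.D l (u i)) + ∑ j, (F.D k (a l i j) * u j + a l i j * F.D k (u j)
        + a k i j * F.D l (u j) + (∑ p, a k i p * a l p j) * u j) := by
    intro k l
    rw [map_add, D_sum]
    simp_rw [D_mul, mul_add, sum_add_distrib, mul_sum, sum_mul]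
    rw [sum_comm (f := fun j p => a k i j * (a l j p * u p))]
    have : ∀ p j, a k i j * (a l j p * u p) = a k i j * a l j p * u p := by intros; ring
    simp_rw [this]; ring
  rw [e1, e1, tors' F k l (u i)]
  have e2 : ∑ j, (F.D k (a l i j) - F.D l (a k i j) + ∑ p, (a k i p * a l p j - a l i p * a k p j)
      - ∑ m, F.T k l m * a m i j) * u j
      = ∑ j, (F.D k (a l i j) * u j - F.D l (a k i j) * u j + (∑ p, a k i p * a l p j) * u j
        - (∑ p, a l i p * a k p j) * u j) - ∑ m, F.T k l m * ∑ j, a m i j * u j := by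
    have hA : ∑ m, F.T k l m * ∑ j, a m i j * u j = ∑ j, (∑ m, F.T k l m * a m i j) * u j := by
      simp_rw [mul_sum, sum_mul]
      rw [sum_comm]
      exact sum_congr rfl fun j _ => sum_congr rfl fun m _ => by ring
    rw [hA, ← sum_sub_distrib]
    refine sum_congr rfl fun j _ => ?_
    rw [sum_sub_distrib]; ring
  have e3 : ∑ m, F.T k l m * (F.D m (u i) + ∑ j, a m i j * u j)
      = ∑ m, F.T k l m * F.D m (u i) + ∑ m, F.T k l m * ∑ j, a m i j * u j := by
    simp_rw [mul_add, sum_add_distrib]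
  rw [e2, e3]
  simp only [sum_add_distrib, sum_sub_distrib]
  ring

omit [DecidableEq ι] in
/-- Ricci identity. -/
lemma hess_comm (k l : Fin n) (u : ι → S) :
    F.hess a k l u = F.hess a l k u + F.curv a k l *ᵥ u := by
  funext i
  have h := congrFun (F.cov_comm a k l u) i
  simp only [Pi.add_apply, Finset.sum_apply, Pi.smul_apply, smul_eq_mul] at h
  simp only [hess, Pi.add_apply]
  rw [h]
  have : ∑ m, F.T k l m * F.cov a m u i = ∑ m, F.w k l m * F.cov a m u i
      - ∑ m, F.w l k m * F.cov a m u i := by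
    rw [← sum_sub_distrib]; exact sum_congr rfl fun m _ => by rw [T]; ring
  rw [this]; ring

omit [DecidableEq ι] in
lemma cov_mulVec (k : Fin n) (M : Matrix ι ι S) (u : ι → S) :
    F.cov a k (M *ᵥ u) = F.covE a k M *ᵥ u + M *ᵥ F.cov a k u := by
  funext i
  simp only [cov, covE, Pi.add_apply, Matrix.mulVec, dotProduct]
  rw [D_sum]
  simp_rw [D_mul, add_mul, mul_add, sum_add_distrib, sum_mul, mul_sum, sub_mul, sum_sub_distrib]
  rw [sum_comm (f := fun j p => a k i j * (M j p * u p)),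
    sum_comm (f := fun j p => M i j * (a k j p * u p))]
  have h1 : ∀ p j, a k i j * (M j p * u p) = a k i j * M j p * u p := by intros; ring
  have h2 : ∀ p j, M i j * (a k j p * u p) = M i j * a k j p * u p := by intros; ring
  simp_rw [h1, h2]; ring

/-- Second Bianchi identity for the connection `a`. -/
theorem bianchi2 (j k l : Fin n) :
    (F.covE a j (F.curv a k l) - ∑ m, F.w j k m • F.curv a m l - ∑ m, F.w j l m • F.curv a k m)
    + (F.covE a k (F.curv a l j) - ∑ m, F.w k l m • F.curv a m j - ∑ m, F.w k j m • F.curv a l m)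
    + (F.covE a l (F.curv a j k) - ∑ m, F.w l j m • F.curv a m k - ∑ m, F.w l k m • F.curv a j m)
    = 0 := by
  have anti : ∀ k l, F.curv a k l = - F.curv a l k := by
    intro k l; ext i j; exact F.curv_anti a k l i j
  have key : ∀ u : ι → S,
      (F.covE a j (F.curv a k l) + F.covE a k (F.curv a l j) + F.covE a l (F.curv a j k)
        + ∑ m, (F.T k l m • F.curv a j m + F.T l j m • F.curv a k m + F.T j k m • F.curv a l m))
        *ᵥ u = 0 := by
    intro u
    have h : ∀ j k l : Fin n, F.cov a j (F.cov a k (F.cov a l u) - F.cov a l (F.cov a k u))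
        - (F.cov a k (F.cov a l (F.cov a j u)) - F.cov a l (F.cov a k (F.cov a j u)))
        = (F.covE a j (F.curv a k l)) *ᵥ u
          + ∑ m, (F.D j (F.T k l m) + ∑ p, F.T k l p * F.T j p m) • F.cov a m u
          + (∑ m, F.T k l m • F.curv a j m) *ᵥ u := by
      intro j k l
      have e1 : F.cov a k (F.cov a l u) - F.cov a l (F.cov a k u)
          = F.curv a k l *ᵥ u + ∑ m, F.T k l m • F.cov a m u := by
        rw [F.cov_comm a k l u]; abel
      have e2 : F.cov a k (F.cov a l (F.cov a j u)) - F.cov a l (F.cov a k (F.cov a j u))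
          = F.curv a k l *ᵥ F.cov a j u + ∑ m, F.T k l m • F.cov a m (F.cov a j u) := by
        rw [F.cov_comm a k l (F.cov a j u)]; abel
      have e3 : ∑ m, F.T k l m • F.cov a j (F.cov a m u)
          = ∑ m, F.T k l m • F.cov a m (F.cov a j u) + (∑ m, F.T k l m • F.curv a j m) *ᵥ u
            + ∑ m, (∑ p, F.T k l p * F.T j p m) • F.cov a m u := by
        have h3 : ∀ m, F.T k l m • F.cov a j (F.cov a m u)
            = F.T k l m • F.cov a m (F.cov a j u) + (F.T k l m • F.curv a j m) *ᵥ u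
              + ∑ p, (F.T k l m * F.T j m p) • F.cov a p u := by
          intro m
          rw [F.cov_comm a j m u, smul_add, smul_add, Matrix.smul_mulVec, smul_sum]
          simp_rw [smul_smul]
        simp_rw [h3, sum_add_distrib]
        rw [sum_comm (f := fun m p => (F.T k l m * F.T j m p) • F.cov a p u)]
        simp_rw [← sum_smul]
        rw [Matrix.sum_mulVec]
      rw [e1, e2, cov_add, cov_mulVec, cov_sum]
      simp_rw [cov_smul, sum_add_distrib, e3, add_smul, sum_add_distrib]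
      abel
    have hs := F.jacobi j k l
    have tot : (F.covE a j (F.curv a k l) + F.covE a k (F.curv a l j) + F.covE a l (F.curv a j k)
        + ∑ m, (F.T k l m • F.curv a j m + F.T l j m • F.curv a k m + F.T j k m • F.curv a l m))
        *ᵥ u
        = (F.cov a j (F.cov a k (F.cov a l u) - F.cov a l (F.cov a k u))
        - (F.cov a k (F.cov a l (F.cov a j u)) - F.cov a l (F.cov a k (F.cov a j u))))
        + (F.cov a k (F.cov a l (F.cov a j u) - F.cov a j (F.cov a l u))
        - (F.cov a l (F.cov a j (F.cov a k u)) - F.cov a j (F.cov a l (F.cov a k u))))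
        + (F.cov a l (F.cov a j (F.cov a k u) - F.cov a k (F.cov a j u))
        - (F.cov a j (F.cov a k (F.cov a l u)) - F.cov a k (F.cov a j (F.cov a l u))))
        - ∑ m, (F.D j (F.T k l m) + F.D k (F.T l j m) + F.D l (F.T j k m)
      + ∑ p, (F.T k l p * F.T j p m + F.T l j p * F.T k p m + F.T j k p * F.T l p m))
          • F.cov a m u := by
      rw [h, h, h]
      simp only [sum_add_distrib, add_smul, Matrix.add_mulVec]
      abel
    rw [tot]
    simp_rw [hs, cov_sub]
    simp only [zero_smul, sum_const_zero]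
    abel
  have key' : F.covE a j (F.curv a k l) + F.covE a k (F.curv a l j) + F.covE a l (F.curv a j k)
        + ∑ m, (F.T k l m • F.curv a j m + F.T l j m • F.curv a k m + F.T j k m • F.curv a l m)
        = 0 := by
    ext p q
    have := congrFun (key (Pi.single q 1)) p
    simpa using this
  rw [← key']
  have e : ∑ m, (F.T k l m • F.curv a j m + F.T l j m • F.curv a k m + F.T j k m • F.curv a l m)
      = - ∑ m, F.w j k m • F.curv a m l - ∑ m, F.w j l m • F.curv a k m
        - ∑ m, F.w k l m • F.curv a m j - ∑ m, F.w k j m • F.curv a l m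
        - ∑ m, F.w l j m • F.curv a m k - ∑ m, F.w l k m • F.curv a j m := by
    rw [← sum_neg_distrib, ← sum_sub_distrib, ← sum_sub_distrib, ← sum_sub_distrib,
      ← sum_sub_distrib, ← sum_sub_distrib]
    refine sum_congr rfl fun m _ => ?_
    rw [anti m l, anti m j, anti m k]
    simp only [T]
    module
  rw [e]; abel

/-- Connection matrices of the tangent bundle: `(∇_k v)_j = D_k v_j + ∑ w k i j v_i`. -/
def tan (k : Fin n) : Matrix (Fin n) (Fin n) S := fun j i => F.w k i j

lemma curv_tan (k l i j : Fin n) : F.curv F.tan k l j i = F.Rm k l i j := by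
  simp only [curv, Rm, tan]
  have : ∀ p, F.w k p j * F.w l i p - F.w l p j * F.w k i p
      = F.w l i p * F.w k p j - F.w k i p * F.w l p j := by intro p; ring
  simp_rw [this]

end Frame

end Crest.Agent.R249.Fr129
end

-- ▼ part R249/FrC_129
section

/-!
Metric connections, functions (Laplacian, gradient), tensor products of bundles with connection.
(row 249, helper129)
-/

set_option autoImplicit false

namespace Crest.Agent.R249.Fr129

open Finset Matrix

namespace Frame

variable {n : ℕ} {S : Type*} [CommRing S] [Algebra ℝ S] (F : Frame n S)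

/-- Hessian of a function: `∇²f(e_k,e_l)`. -/
def hess0 (k l : Fin n) (f : S) : S := F.D k (F.D l f) - ∑ m, F.w k l m * F.D m f

/-- Laplacian of a function. -/
def lap0 (f : S) : S := ∑ k, F.hess0 k k f

/-- `⟨∇f, ∇g⟩`. -/
def gam (f g : S) : S := ∑ k, F.D k f * F.D k g

lemma hess0_symm (k l : Fin n) (f : S) : F.hess0 k l f = F.hess0 l k f := by
  rw [hess0, hess0, tors' F k l f]
  have : ∑ m, F.T k l m * F.D m f = ∑ m, F.w k l m * F.D m f - ∑ m, F.w l k m * F.D m f := by
    rw [← sum_sub_distrib]; exact sum_congr rfl fun m _ => by rw [T]; ring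
  rw [this]; ring

lemma hess0_add (k l : Fin n) (f g : S) : F.hess0 k l (f + g) = F.hess0 k l f + F.hess0 k l g := by
  simp only [hess0, map_add, mul_add, sum_add_distrib]; ring

lemma lap0_add (f g : S) : F.lap0 (f + g) = F.lap0 f + F.lap0 g := by
  simp only [lap0, hess0_add, sum_add_distrib]

lemma hess0_mul (k l : Fin n) (f g : S) : F.hess0 k l (f * g) =
    F.hess0 k l f * g + F.D k f * F.D l g + F.D l f * F.D k g + f * F.hess0 k l g := by
  simp only [hess0, D_mul, map_add, mul_add, sum_add_distrib, sub_mul, mul_sub, mul_sum, sum_mul]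
  have h1 : ∀ m, F.w k l m * (F.D m f * g) = F.w k l m * F.D m f * g := by intros; ring
  have h2 : ∀ m, F.w k l m * (f * F.D m g) = f * (F.w k l m * F.D m g) := by intros; ring
  simp_rw [h1, h2]; ring

lemma lap0_mul (f g : S) : F.lap0 (f * g) = F.lap0 f * g + 2 * F.gam f g + f * F.lap0 g := by
  simp only [lap0, hess0_mul, sum_add_distrib, gam, sum_mul, mul_sum]
  rw [← sum_add_distrib, ← sum_add_distrib, ← sum_add_distrib, ← sum_add_distrib,
    ← sum_add_distrib]
  exact sum_congr rfl fun k _ => by ring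

variable {ι κ : Type*} [Fintype ι] [Fintype κ]

/-- The connection is metric. -/
def Skew (a : Fin n → Matrix ι ι S) : Prop := ∀ k i j, a k i j = - a k j i

lemma D_dot {a : Fin n → Matrix ι ι S} (ha : Skew a) (k : Fin n) (u v : ι → S) :
    F.D k (∑ i, u i * v i) = ∑ i, F.cov a k u i * v i + ∑ i, u i * F.cov a k v i := by
  rw [D_sum, ← sum_add_distrib]
  simp only [cov, D_mul]
  have : ∑ i, ((∑ j, a k i j * u j) * v i + u i * ∑ j, a k i j * v j) = 0 := by
    simp_rw [sum_add_distrib, sum_mul, mul_sum]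
    rw [sum_comm (f := fun i j => u i * (a k i j * v j)), ← sum_add_distrib]
    refine sum_eq_zero fun i _ => ?_
    rw [← sum_add_distrib]
    refine sum_eq_zero fun j _ => ?_
    rw [ha k j i]; ring
  rw [← add_zero (∑ i, (F.D k (u i) * v i + u i * F.D k (v i))), ← this, ← sum_add_distrib]
  exact sum_congr rfl fun i _ => by ring

lemma curv_skew {a : Fin n → Matrix ι ι S} (ha : Skew a) (k l : Fin n) (i j : ι) :
    F.curv a k l i j = - F.curv a k l j i := by
  have h1 : ∑ m, F.T k l m * a m i j = - ∑ m, F.T k l m * a m j i := by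
    rw [← sum_neg_distrib]; exact sum_congr rfl fun m _ => by rw [ha m i j]; ring
  have h2 : ∑ p, (a k i p * a l p j - a l i p * a k p j)
      = - ∑ p, (a k j p * a l p i - a l j p * a k p i) := by
    rw [← sum_neg_distrib]; exact sum_congr rfl fun p _ => by
      rw [ha k i p, ha l p j, ha l i p, ha k p j]; ring
  rw [curv, curv, h1, h2, ha l i j, ha k i j, map_neg, map_neg]; ring

lemma hess0_dot {a : Fin n → Matrix ι ι S} (ha : Skew a) (k l : Fin n) (u v : ι → S) :
    F.hess0 k l (∑ i, u i * v i) = ∑ i, F.hess a k l u i * v i + ∑ i, F.cov a k u i * F.cov a l v i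
      + ∑ i, F.cov a l u i * F.cov a k v i + ∑ i, u i * F.hess a k l v i := by
  rw [hess0, F.D_dot ha l, map_add, F.D_dot ha k, F.D_dot ha k]
  simp_rw [F.D_dot ha, mul_add, sum_add_distrib, hess, sub_mul, mul_sub, sum_sub_distrib]
  have h1 : ∑ m, F.w k l m * ∑ i, F.cov a m u i * v i = ∑ i, (∑ m, F.w k l m * F.cov a m u i) * v i := by
    simp_rw [mul_sum, sum_mul]; rw [sum_comm]
    exact sum_congr rfl fun i _ => sum_congr rfl fun m _ => by ring
  have h2 : ∑ m, F.w k l m * ∑ i, u i * F.cov a m v i = ∑ i, u i * ∑ m, F.w k l m * F.cov a m v i := by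
    simp_rw [mul_sum]; rw [sum_comm]
    exact sum_congr rfl fun i _ => sum_congr rfl fun m _ => by ring
  rw [h1, h2]; ring

/-- Bochner/Leibniz formula for the Laplacian of `⟨u,v⟩`. -/
lemma lap0_dot {a : Fin n → Matrix ι ι S} (ha : Skew a) (u v : ι → S) :
    F.lap0 (∑ i, u i * v i) = ∑ i, F.lap a u i * v i + 2 * ∑ k, ∑ i, F.cov a k u i * F.cov a k v i
      + ∑ i, u i * F.lap a v i := by
  simp only [lap0, F.hess0_dot ha, sum_add_distrib, lap, sum_mul, mul_sum]
  rw [sum_comm (f := fun k i => F.hess a k k u i * v i),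
    sum_comm (f := fun k i => u i * F.hess a k k v i)]
  simp_rw [two_mul, sum_add_distrib]; ring

/-- Tensor product connection. -/
def tens (a : Fin n → Matrix ι ι S) (b : Fin n → Matrix κ κ S) [DecidableEq ι] [DecidableEq κ]
    (k : Fin n) : Matrix (ι × κ) (ι × κ) S :=
  fun x y => (if x.2 = y.2 then a k x.1 y.1 else 0) + (if x.1 = y.1 then b k x.2 y.2 else 0)

section tens

variable [DecidableEq ι] [DecidableEq κ] (a : Fin n → Matrix ι ι S) (b : Fin n → Matrix κ κ S)

omit [CommRing S] [Algebra ℝ S] in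
lemma sum_tens_aux [CommRing S] (A : Matrix ι ι S) (B : Matrix κ κ S) (x : ι × κ) (u : ι × κ → S) :
    ∑ y : ι × κ, ((if x.2 = y.2 then A x.1 y.1 else 0) + (if x.1 = y.1 then B x.2 y.2 else 0)) * u y
      = ∑ i, A x.1 i * u (i, x.2) + ∑ j, B x.2 j * u (x.1, j) := by
  simp_rw [add_mul, sum_add_distrib, ite_mul, zero_mul]
  congr 1
  · rw [Fintype.sum_prod_type]
    refine sum_congr rfl fun i _ => ?_
    simp
  · rw [Fintype.sum_prod_type_right]
    refine sum_congr rfl fun j _ => ?_
    simp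

lemma cov_tens (k : Fin n) (u : ι × κ → S) (x : ι × κ) :
    F.cov (tens a b) k u x = F.D k (u x) + ∑ i, a k x.1 i * u (i, x.2)
      + ∑ j, b k x.2 j * u (x.1, j) := by
  rw [cov]; simp only [tens]; rw [sum_tens_aux]; ring

lemma curv_tens (k l : Fin n) (x y : ι × κ) :
    F.curv (tens a b) k l x y = (if x.2 = y.2 then F.curv a k l x.1 y.1 else 0)
      + (if x.1 = y.1 then F.curv b k l x.2 y.2 else 0) := by
  obtain ⟨x1, x2⟩ := x
  obtain ⟨y1, y2⟩ := y
  simp only [curv]
  have h : ∀ k l : Fin n, ∑ p : ι × κ, tens a b k (x1, x2) p * tens a b l p (y1, y2)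
      = (if x2 = y2 then ∑ i, a k x1 i * a l i y1 else 0)
        + (if x1 = y1 then ∑ j, b k x2 j * b l j y2 else 0)
        + a k x1 y1 * b l x2 y2 + a l x1 y1 * b k x2 y2 := by
    intro k l
    simp only [tens]
    rw [sum_tens_aux (a k) (b k) (x1, x2)
      (fun p => (if p.2 = y2 then a l p.1 y1 else 0) + (if p.1 = y1 then b l p.2 y2 else 0))]
    simp only [mul_add, sum_add_distrib, mul_ite, mul_zero, sum_ite_eq', mem_univ, if_true]
    by_cases h1 : x1 = y1 <;> by_cases h2 : x2 = y2 <;> simp [h1, h2] <;> ring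
  simp_rw [sum_sub_distrib, h]
  by_cases h1 : x1 = y1 <;> by_cases h2 : x2 = y2 <;>
    simp [h1, h2, tens, mul_add, sum_add_distrib] <;> ring

/-- Curvature of a tensor product acting on a section. -/
lemma curv_tens_mulVec (k l : Fin n) (u : ι × κ → S) (x : ι × κ) :
    (F.curv (tens a b) k l *ᵥ u) x = ∑ i, F.curv a k l x.1 i * u (i, x.2)
      + ∑ j, F.curv b k l x.2 j * u (x.1, j) := by
  simp only [Matrix.mulVec, dotProduct, curv_tens]
  exact sum_tens_aux (F.curv a k l) (F.curv b k l) x u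

lemma tens_skew {a : Fin n → Matrix ι ι S} {b : Fin n → Matrix κ κ S} (ha : Skew a) (hb : Skew b) :
    Skew (tens a b) := by
  intro k x y
  simp only [tens, ha k x.1 y.1, hb k x.2 y.2, eq_comm (a := x.1), eq_comm (a := x.2)]
  split_ifs <;> ring

end tens

end Frame

end Crest.Agent.R249.Fr129
end

-- ▼ part R249/FrD_129

/-!
Dimension four: the bundle `Λ⁺`, its `so(3)`-connection and curvature, the self-dual block of the
curvature operator. (row 249, helper129)

Basis of `Λ⁺`: `ω₀ = e01 + e23`, `ω₁ = e02 - e13`, `ω₂ = e03 + e12`.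
-/

set_option autoImplicit false

namespace Crest.Agent.R249.Fr129

open Finset Matrix

/-- Matrix of `u ↦ p × u`. -/
def cr {S : Type*} [CommRing S] (p : Fin 3 → S) : Matrix (Fin 3) (Fin 3) S :=
  !![0, -p 2, p 1; p 2, 0, -p 0; -p 1, p 0, 0]

lemma cr_inj {S : Type*} [CommRing S] {p q : Fin 3 → S} (h : cr p = cr q) : p = q := by
  have h0 := congrFun (congrFun h 2) 1
  have h1 := congrFun (congrFun h 0) 2
  have h2 := congrFun (congrFun h 1) 0
  simp [cr] at h0 h1 h2
  funext i; fin_cases i <;> simp [h0, h1, h2]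

lemma cr_skew {S : Type*} [CommRing S] (p : Fin 3 → S) (i j : Fin 3) :
    cr p i j = - cr p j i := by
  fin_cases i <;> fin_cases j <;> simp [cr]

namespace Frame

variable {S : Type*} [CommRing S] [Algebra ℝ S] (F : Frame 4 S)

lemma w_self {n : ℕ} (F : Frame n S) (k i : Fin n) : F.w k i i = 0 :=
  eq_zero_of_two (by have := F.anti k i i; linear_combination this)

lemma Rm_self34 {n : ℕ} (F : Frame n S) (i j k : Fin n) : F.Rm i j k k = 0 :=
  eq_zero_of_two (by have := F.Rm_anti34 i j k k; linear_combination this)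

lemma Rm_self12 {n : ℕ} (F : Frame n S) (i k l : Fin n) : F.Rm i i k l = 0 :=
  eq_zero_of_two (by have := F.Rm_anti12 i i k l; linear_combination this)

lemma w10 (k : Fin 4) : F.w k 1 0 = - F.w k 0 1 := F.anti k 1 0
lemma w20 (k : Fin 4) : F.w k 2 0 = - F.w k 0 2 := F.anti k 2 0
lemma w30 (k : Fin 4) : F.w k 3 0 = - F.w k 0 3 := F.anti k 3 0
lemma w21 (k : Fin 4) : F.w k 2 1 = - F.w k 1 2 := F.anti k 2 1
lemma w31 (k : Fin 4) : F.w k 3 1 = - F.w k 1 3 := F.anti k 3 1
lemma w32 (k : Fin 4) : F.w k 3 2 = - F.w k 2 3 := F.anti k 3 2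

lemma R10 (i j : Fin 4) : F.Rm i j 1 0 = - F.Rm i j 0 1 := F.Rm_anti34 i j 1 0
lemma R20 (i j : Fin 4) : F.Rm i j 2 0 = - F.Rm i j 0 2 := F.Rm_anti34 i j 2 0
lemma R30 (i j : Fin 4) : F.Rm i j 3 0 = - F.Rm i j 0 3 := F.Rm_anti34 i j 3 0
lemma R21 (i j : Fin 4) : F.Rm i j 2 1 = - F.Rm i j 1 2 := F.Rm_anti34 i j 2 1
lemma R31 (i j : Fin 4) : F.Rm i j 3 1 = - F.Rm i j 1 3 := F.Rm_anti34 i j 3 1
lemma R32 (i j : Fin 4) : F.Rm i j 3 2 = - F.Rm i j 2 3 := F.Rm_anti34 i j 3 2
lemma L10 (i j : Fin 4) : F.Rm 1 0 i j = - F.Rm 0 1 i j := F.Rm_anti12 1 0 i j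
lemma L20 (i j : Fin 4) : F.Rm 2 0 i j = - F.Rm 0 2 i j := F.Rm_anti12 2 0 i j
lemma L30 (i j : Fin 4) : F.Rm 3 0 i j = - F.Rm 0 3 i j := F.Rm_anti12 3 0 i j
lemma L21 (i j : Fin 4) : F.Rm 2 1 i j = - F.Rm 1 2 i j := F.Rm_anti12 2 1 i j
lemma L31 (i j : Fin 4) : F.Rm 3 1 i j = - F.Rm 1 3 i j := F.Rm_anti12 3 1 i j
lemma L32 (i j : Fin 4) : F.Rm 3 2 i j = - F.Rm 2 3 i j := F.Rm_anti12 3 2 i j

/-- Components of the connection on `Λ⁺`. -/
def pp (k : Fin 4) : Fin 3 → S :=
  ![F.w k 0 1 + F.w k 2 3, F.w k 0 2 - F.w k 1 3, F.w k 0 3 + F.w k 1 2]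

/-- The connection of `Λ⁺`. -/
def sdc (k : Fin 4) : Matrix (Fin 3) (Fin 3) S := cr (F.pp k)

/-- Components of the curvature of `Λ⁺`. -/
def PP (k l : Fin 4) : Fin 3 → S :=
  ![F.Rm k l 0 1 + F.Rm k l 2 3, F.Rm k l 0 2 - F.Rm k l 1 3, F.Rm k l 0 3 + F.Rm k l 1 2]

lemma sdc_skew : Skew F.sdc := fun _ i j => cr_skew _ i j

lemma curv_sdc (k l : Fin 4) : F.curv F.sdc k l = cr (F.PP k l) := by
  ext i j
  fin_cases i <;> fin_cases j <;>
    simp [curv, sdc, cr, pp, PP, Rm, Fin.sum_univ_four, Fin.sum_univ_three, w_self, w10, w20,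
      w21, w31, w32, map_add, map_sub, map_neg] <;> ring

lemma PP_anti (k l : Fin 4) (c : Fin 3) : F.PP k l c = - F.PP l k c := by
  fin_cases c <;> simp [PP, F.Rm_anti12 k l] <;> ring

/-- Ricci tensor in the frame. -/
def Ric {n : ℕ} (F : Frame n S) (j k : Fin n) : S := ∑ i, F.Rm i j k i

/-- Einstein condition with constant `c`. -/
def Einstein {n : ℕ} (F : Frame n S) (c : S) : Prop := ∀ j k, F.Ric j k = if j = k then c else 0

/-- one half -/
noncomputable def half : S := algebraMap ℝ S (1 / 2)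

lemma two_half : (2 : S) * half = 1 := by
  have : (2 : S) = algebraMap ℝ S 2 := (map_ofNat (algebraMap ℝ S) 2).symm
  rw [half, this, ← map_mul]; norm_num

/-- The `Λ⁺`-block of the curvature operator. -/
noncomputable def AA (c d : Fin 3) : S :=
  - half * (![F.PP 0 1 c + F.PP 2 3 c, F.PP 0 2 c - F.PP 1 3 c, F.PP 0 3 c + F.PP 1 2 c] d)

/-- The mixed block `Λ⁺ → Λ⁻`. -/
noncomputable def BB (c d : Fin 3) : S :=
  - half * (![F.PP 0 1 c - F.PP 2 3 c, F.PP 0 2 c + F.PP 1 3 c, F.PP 0 3 c - F.PP 1 2 c] d)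

lemma AA_symm (c d : Fin 3) : F.AA c d = F.AA d c := by
  have hp := F.Rm_pair
  fin_cases c <;> fin_cases d <;> simp [AA, PP]
  · rw [hp 0 1 0 2, hp 0 1 1 3, hp 2 3 0 2, hp 2 3 1 3]; ring
  · rw [hp 0 1 0 3, hp 0 1 1 2, hp 2 3 0 3, hp 2 3 1 2]; ring
  · rw [hp 0 2 0 1, hp 0 2 2 3, hp 1 3 0 1, hp 1 3 2 3]; ring
  · rw [hp 0 2 0 3, hp 0 2 1 2, hp 1 3 0 3, hp 1 3 1 2]; ring
  · rw [hp 0 3 0 1, hp 0 3 2 3, hp 1 2 0 1, hp 1 2 2 3]; ring
  · rw [hp 0 3 0 2, hp 0 3 1 3, hp 1 2 0 2, hp 1 2 1 3]; ring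

/-- Einstein: the curvature of `Λ⁺` is self-dual. -/
lemma PP_sd {c : S} (hE : F.Einstein c) (i : Fin 3) :
    F.PP 2 3 i = F.PP 0 1 i ∧ F.PP 1 3 i = - F.PP 0 2 i ∧ F.PP 1 2 i = F.PP 0 3 i := by
  have h00 := hE 0 0
  have h11 := hE 1 1
  have h22 := hE 2 2
  have h33 := hE 3 3
  have h01 := hE 0 1
  have h02 := hE 0 2
  have h03 := hE 0 3
  have h12 := hE 1 2
  have h13 := hE 1 3
  have h23 := hE 2 3
  simp [Ric, Fin.sum_univ_four, Rm_self12, R10, R20, R30, R21, R31, R32, L10, L20, L30,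
    L21, L31, L32, Rm_self34] at h00 h11 h22 h33 h01 h02 h03 h12 h13 h23
  have hp := F.Rm_pair
  have k1 : F.Rm 2 3 2 3 = F.Rm 0 1 0 1 := by
    apply eq_of_two
    linear_combination h00 + h11 - h22 - h33
  have k2 : F.Rm 1 3 1 3 = F.Rm 0 2 0 2 := by
    apply eq_of_two
    linear_combination h00 - h11 + h22 - h33
  have k3 : F.Rm 1 2 1 2 = F.Rm 0 3 0 3 := by
    apply eq_of_two
    linear_combination h00 - h11 - h22 + h33
  refine ⟨?_, ?_, ?_⟩ <;> fin_cases i <;> simp [PP]
  · rw [hp 2 3 0 1, k1]; ring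
  · rw [hp 2 3 0 2, hp 2 3 1 3]; linear_combination h12 + h03
  · rw [hp 2 3 0 3, hp 2 3 1 2]; linear_combination h13 - h02
  · rw [hp 1 3 0 1, hp 0 2 0 1]; linear_combination h03 - h12
  · rw [hp 1 3 0 2, k2]
  · rw [hp 1 3 0 3, hp 1 3 1 2]; linear_combination -h01 - h23
  · rw [hp 1 2 0 1, hp 0 3 0 1]; linear_combination h02 + h13
  · rw [hp 1 2 0 2, hp 0 3 0 2]; linear_combination -h01 + h23
  · rw [hp 1 2 0 3, k3]; ring

/-- Einstein: `A` in terms of `P_{0,·}`. -/
lemma PP_eq {c : S} (hE : F.Einstein c) (i : Fin 3) :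
    F.PP 0 1 i = - F.AA i 0 ∧ F.PP 2 3 i = - F.AA i 0 ∧ F.PP 0 2 i = - F.AA i 1 ∧
    F.PP 1 3 i = F.AA i 1 ∧ F.PP 0 3 i = - F.AA i 2 ∧ F.PP 1 2 i = - F.AA i 2 := by
  obtain ⟨h1, h2, h3⟩ := F.PP_sd hE i
  have hh := two_half (S := S)
  rw [h1, h2, h3]
  simp only [AA, h1, h2, h3, Matrix.cons_val_zero, Matrix.cons_val_one, Matrix.cons_val]
  refine ⟨?_, ?_, ?_, ?_, ?_, ?_⟩
  · linear_combination -F.PP 0 1 i * hh
  · linear_combination -F.PP 0 1 i * hh
  · linear_combination -F.PP 0 2 i * hh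
  · linear_combination F.PP 0 2 i * hh
  · linear_combination -F.PP 0 3 i * hh
  · linear_combination -F.PP 0 3 i * hh

/-- trace of the `Λ⁺` block -/
lemma AA_trace {c : S} (hE : F.Einstein c) : F.AA 0 0 + F.AA 1 1 + F.AA 2 2 = c := by
  obtain ⟨h1, -, -, -, -, -⟩ := F.PP_eq hE 0
  obtain ⟨-, -, h2, -, -, -⟩ := F.PP_eq hE 1
  obtain ⟨-, -, -, -, h3, -⟩ := F.PP_eq hE 2
  have h00 := hE 0 0
  simp [Ric, Fin.sum_univ_four, Rm_self12, L10, L20, L30] at h00
  have hb := F.bianchi1 0 1 2 3
  simp [PP] at h1 h2 h3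
  rw [F.Rm_anti12 2 0 1 3] at hb
  rw [F.Rm_pair 0 3 1 2] at h3
  linear_combination h1 + h2 + h3 + h00 - hb

end Frame

end Crest.Agent.R249.Fr129
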