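import Mathlib
import Crest.Agent.R249.Kil1_805
import Crest.Agent.R249.End_805
import Crest.Agent.R249.FrH_129
import Crest.Agent.R249.Ga_129
import Crest.Agent.R249.SgD_129
import Crest.Agent.R249.Vf1_281
import Crest.Agent.R249.FrmD_285

-- ▼ part R249/Kil2_805
section

/-!
Row 249, part C3 (helper805): linear algebra for case (I).
`dim_le_four`: C3.6 of BP-C3.
-/

set_option autoImplicit false

namespace Crest.Agent.R249.Kil2_805

open Matrix

/-- `hat b x = x × b`. -/
def hat (b : Fin 3 → ℝ) : Matrix (Fin 3) (Fin 3) ℝ :=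
  !![0, b 2, -b 1; -b 2, 0, b 0; b 1, -b 0, 0]



lemma hat_mulVec (b x : Fin 3 → ℝ) :
    hat b *ᵥ x = ![x 1 * b 2 - x 2 * b 1, x 2 * b 0 - x 0 * b 2, x 0 * b 1 - x 1 * b 0] := by
  ext i; fin_cases i <;> simp [hat, Matrix.mulVec, dotProduct, Fin.sum_univ_three] <;> ring

/-- `x × b = 0`, `b ≠ 0` → `x ∈ ℝ b`. -/
lemma exists_smul {b x : Fin 3 → ℝ} (hb : b ≠ 0) (h : hat b *ᵥ x = 0) : ∃ μ : ℝ, x = μ • b := by
  have hpos : 0 < b 0 ^ 2 + b 1 ^ 2 + b 2 ^ 2 := by
    rcases (by positivity : 0 ≤ b 0 ^ 2 + b 1 ^ 2 + b 2 ^ 2).lt_or_eq with h | h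
    · exact h
    · exfalso; apply hb
      ext i; fin_cases i <;> simp <;> nlinarith [sq_nonneg (b 0), sq_nonneg (b 1), sq_nonneg (b 2)]
  rw [hat_mulVec] at h
  have h0 := congrFun h 0
  have h1 := congrFun h 1
  have h2 := congrFun h 2
  simp at h0 h1 h2
  refine ⟨(x 0 * b 0 + x 1 * b 1 + x 2 * b 2) / (b 0 ^ 2 + b 1 ^ 2 + b 2 ^ 2), ?_⟩
  ext i
  simp only [Pi.smul_apply, smul_eq_mul]
  rw [div_mul_eq_mul_div, eq_div_iff hpos.ne']
  fin_cases i <;> simp
  · linear_combination b 2 * h1 * (-1) + b 1 * h2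
  · linear_combination b 2 * h0 - b 0 * h2
  · linear_combination (-b 1) * h0 + b 0 * h1

/-- Two skew matrices commuting with a non scalar matrix are proportional. -/
lemma cross_eq_zero {a : Matrix (Fin 3) (Fin 3) ℝ} (ha : ∀ s : ℝ, a ≠ s • (1 : Matrix (Fin 3) (Fin 3) ℝ))
    {b c : Fin 3 → ℝ} (hb : hat b * a = a * hat b) (hc : hat c * a = a * hat c) :
    hat b *ᵥ c = 0 := by
  by_contra hne
  have hb0 : b ≠ 0 := by
    rintro rfl; apply hne; rw [hat_mulVec]; ext i; fin_cases i <;> simp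
  have hc0 : c ≠ 0 := by
    rintro rfl; apply hne; rw [hat_mulVec]; ext i; fin_cases i <;> simp
  have self0 : ∀ b : Fin 3 → ℝ, hat b *ᵥ b = 0 := by
    intro b; rw [hat_mulVec]; ext i; fin_cases i <;> simp <;> ring
  obtain ⟨μ, hμ⟩ : ∃ μ : ℝ, a *ᵥ b = μ • b := exists_smul hb0 (by
    rw [Matrix.mulVec_mulVec, hb, ← Matrix.mulVec_mulVec, self0, Matrix.mulVec_zero])
  obtain ⟨ν, hν⟩ : ∃ μ : ℝ, a *ᵥ c = μ • c := exists_smul hc0 (by
    rw [Matrix.mulVec_mulVec, hc, ← Matrix.mulVec_mulVec, self0, Matrix.mulVec_zero])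
  set w := hat b *ᵥ c with hw
  have hw' : hat c *ᵥ b = - w := by
    rw [hw, hat_mulVec, hat_mulVec]; ext i; fin_cases i <;> simp <;> ring
  have h1 : a *ᵥ w = ν • w := by
    rw [hw, Matrix.mulVec_mulVec, ← hb, ← Matrix.mulVec_mulVec, hν, Matrix.mulVec_smul]
  have h2 : a *ᵥ w = μ • w := by
    have : a *ᵥ (-w) = μ • (-w) := by
      rw [← hw', Matrix.mulVec_mulVec, ← hc, ← Matrix.mulVec_mulVec, hμ, Matrix.mulVec_smul]
    rw [Matrix.mulVec_neg, smul_neg] at this
    exact neg_injective this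
  have hμν : μ = ν := by
    have : (μ - ν) • w = 0 := by rw [sub_smul, ← h1, ← h2, sub_self]
    rcases smul_eq_zero.mp this with h | h
    · linarith
    · exact absurd h hne
  subst hμν
  -- the matrix with columns b, c, w
  set P : Matrix (Fin 3) (Fin 3) ℝ := (!![b 0, c 0, w 0; b 1, c 1, w 1; b 2, c 2, w 2]) with hP
  have hcol : ∀ M : Matrix (Fin 3) (Fin 3) ℝ, M *ᵥ b = 0 → M *ᵥ c = 0 → M *ᵥ w = 0 → M * P = 0 := by
    intro M hb hc hw
    ext i j
    have e1 := congrFun hb i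
    have e2 := congrFun hc i
    have e3 := congrFun hw i
    simp only [Matrix.mulVec, dotProduct, Fin.sum_univ_three, Pi.zero_apply] at e1 e2 e3
    rw [Matrix.mul_apply, Fin.sum_univ_three]
    fin_cases j <;> simp [hP] <;> assumption
  have hdet : P.det ≠ 0 := by
    have e : P.det = -(w 0 ^ 2 + w 1 ^ 2 + w 2 ^ 2) := by
      have e0 : w 0 = c 1 * b 2 - c 2 * b 1 := by rw [hw, hat_mulVec]; simp
      have e1 : w 1 = c 2 * b 0 - c 0 * b 2 := by rw [hw, hat_mulVec]; simp
      have e2 : w 2 = c 0 * b 1 - c 1 * b 0 := by rw [hw, hat_mulVec]; simp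
      rw [hP, Matrix.det_fin_three]
      simp
      rw [e0, e1, e2]; ring
    rw [e]
    intro h
    apply hne
    ext i; fin_cases i <;> simp <;> nlinarith [sq_nonneg (w 0), sq_nonneg (w 1), sq_nonneg (w 2)]
  have h0 : (a - μ • (1 : Matrix (Fin 3) (Fin 3) ℝ)) * P = 0 := by
    apply hcol
    · rw [Matrix.sub_mulVec, hμ, Matrix.smul_mulVec, Matrix.one_mulVec, sub_self]
    · rw [Matrix.sub_mulVec, hν, Matrix.smul_mulVec, Matrix.one_mulVec, sub_self]
    · rw [Matrix.sub_mulVec, h2, Matrix.smul_mulVec, Matrix.one_mulVec, sub_self]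
  have hinv : P * P⁻¹ = 1 := Matrix.mul_nonsing_inv P (isUnit_iff_ne_zero.mpr hdet)
  have : a - μ • (1 : Matrix (Fin 3) (Fin 3) ℝ) = 0 := by
    calc a - μ • (1 : Matrix (Fin 3) (Fin 3) ℝ)
        = (a - μ • (1 : Matrix (Fin 3) (Fin 3) ℝ)) * P * P⁻¹ := by
          rw [Matrix.mul_assoc, hinv, Matrix.mul_one]
      _ = 0 := by rw [h0, Matrix.zero_mul]
  exact ha μ (sub_eq_zero.mp this)

/-- C3.6. -/
theorem dim_le_four {K : Type*} [AddCommGroup K] [Module ℝ K]
    (v : K →ₗ[ℝ] (Fin 4 → ℝ)) (β γ : K →ₗ[ℝ] (Fin 3 → ℝ))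
    (inj : ∀ k, v k = 0 → β k = 0 → γ k = 0 → k = 0)
    {g : Fin 4 → ℝ} (hg : g ≠ 0) (hv : ∀ k, g ⬝ᵥ v k = 0)
    {a : Matrix (Fin 3) (Fin 3) ℝ} (ha : ∀ s : ℝ, a ≠ s • (1 : Matrix (Fin 3) (Fin 3) ℝ))
    (hβ : ∀ k, v k = 0 → hat (β k) * a = a * hat (β k))
    (hγ : ∀ k, v k = 0 → β k = 0 → γ k = 0) :
    Module.finrank ℝ K ≤ 4 := by
  classical
  -- finite dimensional
  let Φ : K →ₗ[ℝ] (Fin 4 → ℝ) × (Fin 3 → ℝ) × (Fin 3 → ℝ) := v.prod (β.prod γ)
  have hΦ : Function.Injective Φ := by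
    rw [← LinearMap.ker_eq_bot, LinearMap.ker_eq_bot']
    intro k hk
    have h1 : v k = 0 := congrArg Prod.fst hk
    have h2 : (β.prod γ) k = 0 := congrArg Prod.snd hk
    exact inj k h1 (congrArg Prod.fst h2) (congrArg Prod.snd h2)
  have : FiniteDimensional ℝ K := FiniteDimensional.of_injective Φ hΦ
  -- kernel of v
  have hN : Module.finrank ℝ (LinearMap.ker v) ≤ 1 := by
    by_cases hz : ∀ n : LinearMap.ker v, n = 0
    · have : Subsingleton (LinearMap.ker v) := ⟨fun x y => by rw [hz x, hz y]⟩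
      rw [Module.finrank_zero_of_subsingleton]; norm_num
    · push Not at hz
      obtain ⟨n0, hn0⟩ := hz
      have hb0 : β n0 ≠ 0 := by
        intro h
        apply hn0
        exact Subtype.ext (inj n0 n0.2 h (hγ n0 n0.2 h))
      refine finrank_le_one n0 fun n => ?_
      obtain ⟨c, hc⟩ := exists_smul hb0 (cross_eq_zero ha (hβ n0 n0.2) (hβ n n.2))
      refine ⟨c, Subtype.ext ?_⟩
      have hv0 : v (c • (n0 : K) - n) = 0 := by
        rw [map_sub, map_smul, n0.2, n.2]; simp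
      have hβ0 : β (c • (n0 : K) - n) = 0 := by
        rw [map_sub, map_smul, hc]; simp
      exact sub_eq_zero.mp (inj _ hv0 hβ0 (hγ _ hv0 hβ0))
  -- range of v
  have hR : Module.finrank ℝ (LinearMap.range v) ≤ 3 := by
    have hle : LinearMap.range v ≤ LinearMap.ker (Matrix.mulVecLin (Matrix.of ![g])) := by
      rintro _ ⟨k, rfl⟩
      rw [LinearMap.mem_ker]
      ext i
      fin_cases i
      simpa [Matrix.mulVec] using hv k
    have h1 := Submodule.finrank_mono hle
    have h2 := LinearMap.finrank_range_add_finrank_ker (Matrix.mulVecLin (Matrix.of ![g]))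
    have h3 : 0 < Module.finrank ℝ (LinearMap.range (Matrix.mulVecLin (Matrix.of ![g]))) := by
      rw [Module.finrank_pos_iff]
      obtain ⟨i, hi⟩ := Function.ne_iff.mp hg
      refine ⟨⟨⟨_, LinearMap.mem_range_self _ (Pi.single i 1)⟩, 0, ?_⟩⟩
      intro h
      have := congrFun (congrArg Subtype.val h) 0
      simp [Matrix.mulVec, dotProduct, Pi.single_apply] at this
      exact hi this
    have h4 : Module.finrank ℝ (Fin 4 → ℝ) = 4 := by simp
    omega
  have := LinearMap.finrank_range_add_finrank_ker v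
  omega

end Crest.Agent.R249.Kil2_805
end

-- ▼ part R249/Kg1_285
section

/-!
# R249, C3-GLOB (helper285), part 1: algebra over the frame ring

`f2 = tr A²`, `f3 = tr A³`, their derivatives and Laplacians, derivative along Killing fields;
the point end game `ev_NN_zero`; `ev_D_zero` : a five-dimensional space of Killing fields.
-/

set_option autoImplicit false
set_option linter.unusedSectionVars false

noncomputable section

namespace Crest.Agent.R249.Kg1_285

open Finset Matrix Crest.Agent.R249.Fr129 Crest.Agent.R249.Fr129.Frame Crest.Agent.R249.Kil1_805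

variable {S : Type*} [CommRing S] [Algebra ℝ S] (F : Frame 4 S)

/-- entrywise derivative. -/
def dD {n : ℕ} (F : Frame n S) (k : Fin n) {ι κ : Type*} (M : Matrix ι κ S) : Matrix ι κ S :=
  fun i j => F.D k (M i j)

section gen

variable {n : ℕ} (G : Frame n S) {ι : Type*} [Fintype ι] [DecidableEq ι]
  (a : Fin n → Matrix ι ι S)

theorem covE_eq (k : Fin n) (M : Matrix ι ι S) :
    G.covE a k M = dD G k M + (a k * M - M * a k) := by
  ext i j
  simp only [covE, dD, Matrix.add_apply, Matrix.sub_apply, Matrix.mul_apply, sum_sub_distrib]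

theorem dD_mul (k : Fin n) (M N : Matrix ι ι S) :
    dD G k (M * N) = dD G k M * N + M * dD G k N := by
  ext i j
  simp only [dD, Matrix.mul_apply, Matrix.add_apply, map_sum, D_mul]
  rw [← sum_add_distrib]

theorem covE_mul (k : Fin n) (M N : Matrix ι ι S) :
    G.covE a k (M * N) = G.covE a k M * N + M * G.covE a k N := by
  rw [covE_eq, covE_eq, covE_eq, dD_mul, Matrix.add_mul, Matrix.mul_add, Matrix.sub_mul,
    Matrix.mul_sub]
  simp only [Matrix.mul_assoc]
  abel

theorem covE_add (k : Fin n) (M N : Matrix ι ι S) :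
    G.covE a k (M + N) = G.covE a k M + G.covE a k N := by
  ext i j
  simp only [covE, Matrix.add_apply, map_add, mul_add, add_mul, sum_add_distrib, sum_sub_distrib]
  ring

theorem covE_smul (k : Fin n) (x : S) (M : Matrix ι ι S) :
    G.covE a k (x • M) = G.D k x • M + x • G.covE a k M := by
  ext i j
  simp only [covE, Matrix.add_apply, Matrix.smul_apply, smul_eq_mul, D_mul, mul_add, mul_sum]
  rw [add_assoc]
  congr 2
  exact sum_congr rfl fun p _ => by ring

theorem covE_one (k : Fin n) : G.covE a k (1 : Matrix ι ι S) = 0 := by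
  rw [covE_eq, Matrix.mul_one, Matrix.one_mul, sub_self, add_zero]
  ext i j
  simp only [dD, Matrix.one_apply, Matrix.zero_apply]
  split_ifs
  · exact Derivation.map_one_eq_zero _
  · exact map_zero _

theorem D_trace (k : Fin n) (M : Matrix ι ι S) : G.D k M.trace = (G.covE a k M).trace := by
  rw [covE_eq, Matrix.trace_add, Matrix.trace_sub, Matrix.trace_mul_comm (a k) M, sub_self,
    add_zero]
  simp only [Matrix.trace, Matrix.diag, dD, map_sum]

end gen

/-- the block `A` as a matrix. -/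
def Am : Matrix (Fin 3) (Fin 3) S := Matrix.of F.AA

/-- `∇_k A` as a matrix. -/
def Nm (k : Fin 4) : Matrix (Fin 3) (Fin 3) S := Matrix.of (F.NN k)

/-- `∇²_{k,l} A` as a matrix. -/
def Hm (k l : Fin 4) : Matrix (Fin 3) (Fin 3) S := Matrix.of (F.HH k l)

/-- `ΔA` as a matrix. -/
def Lm : Matrix (Fin 3) (Fin 3) S := Matrix.of F.LL

theorem Am_T : (Am F)ᵀ = Am F := by
  ext i j; exact F.AA_symm j i

theorem Nm_T (k : Fin 4) : (Nm F k)ᵀ = Nm F k := by
  ext i j; exact F.NN_symm k j i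

theorem covE_Am (k : Fin 4) : F.covE F.sdc k (Am F) = Nm F k := by
  ext c d
  simp only [covE, Am, Nm, Matrix.of_apply]
  rw [F.NN_eq, sum_sub_distrib]
  have h : ∑ p, F.AA c p * F.sdc k p d = - ∑ j, F.sdc k d j * F.AA c j := by
    rw [← sum_neg_distrib]
    refine sum_congr rfl fun p _ => ?_
    rw [F.sdc_skew k d p]; ring
  rw [h]; ring

theorem covE_Nm (m i : Fin 4) :
    F.covE F.sdc m (Nm F i) = Hm F m i + ∑ j, F.w m i j • Nm F j := by
  ext c d
  have h := F.HH_eq m i c d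
  simp only [covE, Hm, Nm, Matrix.of_apply, Matrix.add_apply, Matrix.sum_apply,
    Matrix.smul_apply, smul_eq_mul, Fin.sum_univ_three, Fin.sum_univ_four]
  rw [h, F.sdc_skew m 0 d, F.sdc_skew m 1 d, F.sdc_skew m 2 d]
  ring

/-- `tr A²`. -/
def f2 : S := (Am F * Am F).trace

/-- `tr A³`. -/
def f3 : S := (Am F * Am F * Am F).trace

theorem tr3 (X Y Z : Matrix (Fin 3) (Fin 3) S) : (X * Y * Z).trace = (Y * Z * X).trace := by
  rw [Matrix.mul_assoc, Matrix.trace_mul_comm]

theorem D_f2 (k : Fin 4) : F.D k (f2 F) = 2 * (Am F * Nm F k).trace := by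
  rw [f2, D_trace F F.sdc, covE_mul, covE_Am, Matrix.trace_add,
    Matrix.trace_mul_comm (Nm F k) (Am F)]
  ring

theorem D_f3 (k : Fin 4) : F.D k (f3 F) = 3 * (Am F * Am F * Nm F k).trace := by
  rw [f3, D_trace F F.sdc, covE_mul, covE_mul, covE_Am, Matrix.add_mul, Matrix.trace_add,
    Matrix.trace_add]
  have h1 : (Nm F k * Am F * Am F).trace = (Am F * Am F * Nm F k).trace := tr3 _ _ _
  have h2 : (Am F * Nm F k * Am F).trace = (Am F * Am F * Nm F k).trace := (tr3 _ _ _).symm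
  rw [h1, h2]; ring

theorem trace_sum_smul {n : ℕ} (w : Fin n → S) (X : Matrix (Fin 3) (Fin 3) S)
    (N : Fin n → Matrix (Fin 3) (Fin 3) S) :
    (X * ∑ j, w j • N j).trace = ∑ j, w j * (X * N j).trace := by
  rw [Matrix.mul_sum, Matrix.trace_sum]
  refine sum_congr rfl fun j _ => ?_
  rw [Matrix.mul_smul, Matrix.trace_smul, smul_eq_mul]

theorem Lm_eq : Lm F = ∑ k, Hm F k k := by
  ext c d
  rw [Matrix.sum_apply, Fin.sum_univ_four]
  exact F.LL_eq c d

theorem lap_f2 : F.lap0 (f2 F) =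
    2 * (Am F * Lm F).trace + 2 * ∑ k, (Nm F k * Nm F k).trace := by
  have h : ∀ k, F.hess0 k k (f2 F) =
      2 * (Am F * Hm F k k).trace + 2 * (Nm F k * Nm F k).trace := by
    intro k
    have e2 : F.D k (2 : S) = 0 := by
      have h2 : (2 : S) = algebraMap ℝ S 2 := (map_ofNat (algebraMap ℝ S) 2).symm
      rw [h2, Derivation.map_algebraMap]
    rw [hess0, D_f2, D_mul, e2, zero_mul, zero_add, D_trace F F.sdc, covE_mul, covE_Am, covE_Nm,
      Matrix.trace_add, Matrix.mul_add, Matrix.trace_add, trace_sum_smul]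
    simp only [D_f2]
    have e3 : ∑ m, F.w k k m * (2 * (Am F * Nm F m).trace) =
        2 * ∑ m, F.w k k m * (Am F * Nm F m).trace := by
      rw [mul_sum]; exact sum_congr rfl fun m _ => by ring
    rw [e3]; ring
  rw [lap0]
  simp only [h]
  rw [sum_add_distrib, ← mul_sum, ← mul_sum, Lm_eq, Matrix.mul_sum, Matrix.trace_sum]

theorem lap_f3 : F.lap0 (f3 F) =
    3 * (Am F * Am F * Lm F).trace + 6 * ∑ k, (Am F * Nm F k * Nm F k).trace := by
  have h : ∀ k, F.hess0 k k (f3 F) =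
      3 * (Am F * Am F * Hm F k k).trace + 6 * (Am F * Nm F k * Nm F k).trace := by
    intro k
    have e2 : F.D k (3 : S) = 0 := by
      have h2 : (3 : S) = algebraMap ℝ S 3 := (map_ofNat (algebraMap ℝ S) 3).symm
      rw [h2, Derivation.map_algebraMap]
    rw [hess0, D_f3, D_mul, e2, zero_mul, zero_add, D_trace F F.sdc, covE_mul, covE_mul, covE_Am,
      covE_Nm, Matrix.add_mul, Matrix.trace_add, Matrix.trace_add, Matrix.mul_add,
      Matrix.trace_add, trace_sum_smul]
    simp only [D_f3]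
    have e3 : ∑ m, F.w k k m * (3 * (Am F * Am F * Nm F m).trace) =
        3 * ∑ m, F.w k k m * (Am F * Am F * Nm F m).trace := by
      rw [mul_sum]; exact sum_congr rfl fun m _ => by ring
    have e4 : (Nm F k * Am F * Nm F k).trace = (Am F * Nm F k * Nm F k).trace := tr3 _ _ _
    rw [e3, e4]; ring
  rw [lap0]
  simp only [h]
  rw [sum_add_distrib, ← mul_sum, ← mul_sum, Lm_eq, Matrix.mul_sum, Matrix.trace_sum]

theorem Am_trace {lam : S} (hE : F.Einstein lam) : (Am F).trace = lam := by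
  rw [Matrix.trace_fin_three]; exact F.AA_trace hE

theorem Nm_trace {lam : S} (hE : F.Einstein lam) (k : Fin 4) : (Nm F k).trace = 0 := by
  rw [Matrix.trace_fin_three]; exact F.NN_trace0 hE k

theorem Lm_formula {lam : S} (hE : F.Einstein lam) :
    Lm F = (6 * (Am F).trace) • Am F - (6 : S) • (Am F * Am F)
      - (2 * ((Am F).trace ^ 2 - (Am F * Am F).trace)) • (1 : Matrix (Fin 3) (Fin 3) S) := by
  ext c e
  have h := F.LL_formula hE c e
  have s10 : F.AA 1 0 = F.AA 0 1 := F.AA_symm 1 0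
  have s20 : F.AA 2 0 = F.AA 0 2 := F.AA_symm 2 0
  have s21 : F.AA 2 1 = F.AA 1 2 := F.AA_symm 2 1
  have t2 : (Am F * Am F).trace = F.AA 0 0 ^ 2 + F.AA 1 1 ^ 2
        + F.AA 2 2 ^ 2 + 2 * F.AA 0 1 ^ 2 + 2 * F.AA 0 2 ^ 2 + 2 * F.AA 1 2 ^ 2 := by
    rw [Matrix.trace_fin_three]
    simp only [Matrix.mul_apply, Fin.sum_univ_three, Am, Matrix.of_apply, s10, s20, s21]
    ring
  rw [t2, Matrix.trace_fin_three]
  simp only [Matrix.sub_apply, Matrix.smul_apply, smul_eq_mul, Matrix.one_apply, Matrix.mul_apply,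
    Fin.sum_univ_three, Lm, Am, Matrix.of_apply]
  rw [h]
  split_ifs <;> ring

/-! ### derivative along Killing fields -/

theorem V_Nm {lam : S} (hE : F.Einstein lam) {V : Fin 4 → S} (hV : Kill F V) :
    ∑ i, V i • Nm F i = cr (pV F V) * Am F - Am F * cr (pV F V) := by
  ext c d
  have h := V_NN F hE hV c d
  simp only [Matrix.sum_apply, Matrix.smul_apply, smul_eq_mul, Nm, Am, Matrix.of_apply,
    Matrix.sub_apply, Matrix.mul_apply]
  rw [h, sub_eq_add_neg, ← sum_neg_distrib]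
  congr 1
  refine sum_congr rfl fun a _ => ?_
  rw [cr_skew _ d a]; ring

theorem V_f2 {lam : S} (hE : F.Einstein lam) {V : Fin 4 → S} (hV : Kill F V) :
    ∑ i, V i * F.D i (f2 F) = 0 := by
  have h : ∑ i, V i * F.D i (f2 F) = 2 * (Am F * ∑ i, V i • Nm F i).trace := by
    rw [trace_sum_smul, mul_sum]
    exact sum_congr rfl fun i _ => by rw [D_f2]; ring
  rw [h, V_Nm F hE hV, Matrix.mul_sub, Matrix.trace_sub, ← Matrix.mul_assoc, ← Matrix.mul_assoc,
    tr3 (Am F) (Am F) (cr (pV F V)), sub_self, mul_zero]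

theorem V_f3 {lam : S} (hE : F.Einstein lam) {V : Fin 4 → S} (hV : Kill F V) :
    ∑ i, V i * F.D i (f3 F) = 0 := by
  have h : ∑ i, V i * F.D i (f3 F) = 3 * (Am F * Am F * ∑ i, V i • Nm F i).trace := by
    rw [trace_sum_smul, mul_sum]
    exact sum_congr rfl fun i _ => by rw [D_f3]; ring
  have h2 : (Am F * Am F * (cr (pV F V) * Am F)).trace =
      (Am F * Am F * (Am F * cr (pV F V))).trace := by
    rw [← Matrix.mul_assoc, Matrix.trace_mul_comm]
    simp only [Matrix.mul_assoc]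
  rw [h, V_Nm F hE hV, Matrix.mul_sub, Matrix.trace_sub, h2, sub_self, mul_zero]

/-! ### the Clifford triple and the Bianchi constraint -/

theorem cliff : End_805.Cliff (Ga129.II (S := ℝ)) := by
  refine ⟨fun a => ?_, fun a => ?_, fun a b hab => ?_⟩
  · ext i j
    rw [Matrix.transpose_apply, Matrix.neg_apply]
    exact Ga129.Sk_II a j i
  · ext i j
    fin_cases a <;> fin_cases i <;> fin_cases j <;>
      simp [Ga129.II, Matrix.mul_apply, Fin.sum_univ_four]
  · ext i j
    fin_cases a <;> fin_cases b <;> first | exact absurd rfl hab | skip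
    all_goals
      fin_cases i <;> fin_cases j <;>
        simp [Ga129.II, Matrix.mul_apply, Fin.sum_univ_four]

theorem bianchi {lam : S} (hE : F.Einstein lam) (φ : S →ₐ[ℝ] ℝ) (i : Fin 3) :
    ∑ j, Ga129.II (S := ℝ) j *ᵥ (fun l => φ (F.NN l i j)) = 0 := by
  have z0 := congrArg φ (F.z0 hE i)
  have z1 := congrArg φ (F.z1 hE i)
  have z2 := congrArg φ (F.z2 hE i)
  have z3 := congrArg φ (F.z3 hE i)
  simp only [map_add, map_sub, map_zero] at z0 z1 z2 z3
  funext m
  rw [Finset.sum_apply, Fin.sum_univ_three]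
  fin_cases m <;>
    simp only [Matrix.mulVec, dotProduct, Fin.sum_univ_four, Ga129.II, Pi.zero_apply] <;> simp
  · linear_combination z0
  · linear_combination -z1
  · linear_combination -z2
  · linear_combination -z3

end Crest.Agent.R249.Kg1_285
end
end

-- ▼ part R249/Kg2_285
section

/-!
# R249, C3-GLOB (helper285), part 2: the two pointwise theorems

`ev_D_zero` : a five-dimensional space of Killing fields forces `d tr A² = d tr A³ = 0` at the
point; `ev_NN_zero` : the end game; `six_tr_PP` : traces of `((A-x)(A-y))²`.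
-/

set_option autoImplicit false
set_option linter.unusedSectionVars false

noncomputable section

namespace Crest.Agent.R249.Kg2_285

open Finset Matrix Crest.Agent.R249.Fr129 Crest.Agent.R249.Fr129.Frame Crest.Agent.R249.Kil1_805
  Crest.Agent.R249.Kg1_285

variable {S : Type*} [CommRing S] [Algebra ℝ S] (F : Frame 4 S) (φ : S →ₐ[ℝ] ℝ)

section dim

variable {K : Type*} [AddCommGroup K] [Module ℝ K] (V : K →ₗ[ℝ] (Fin 4 → S))

/-- components of the vector at the point. -/
def vE : K →ₗ[ℝ] (Fin 4 → ℝ) :=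
  LinearMap.pi fun i => φ.toLinearMap ∘ₗ LinearMap.proj i ∘ₗ V


/-- `∇V` as a linear map. -/
def BL (a b : Fin 4) : K →ₗ[ℝ] ℝ where
  toFun k := φ (BV F (V k) a b)
  map_add' x y := by
    have h : V (x + y) = V x + V y := map_add V x y
    rw [BV, BV, BV, h, cov_add, Pi.add_apply, map_add]
  map_smul' r x := by
    have h : V (r • x) = (algebraMap ℝ S r) • V x := by
      rw [map_smul]
      funext i
      rw [Pi.smul_apply, Pi.smul_apply, Algebra.smul_def, smul_eq_mul]
    rw [BV, BV, h, cov_smul, Derivation.map_algebraMap, zero_smul, zero_add, Pi.smul_apply,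
      smul_eq_mul, map_mul, AlgHom.commutes, RingHom.id_apply, smul_eq_mul]
    rfl

theorem BL_apply (a b : Fin 4) (k : K) : BL F φ V a b k = φ (BV F (V k) a b) := rfl

/-- self-dual part. -/
def betaL : K →ₗ[ℝ] (Fin 3 → ℝ) :=
  LinearMap.pi ![BL F φ V 0 1 + BL F φ V 2 3, BL F φ V 0 2 - BL F φ V 1 3,
    BL F φ V 0 3 + BL F φ V 1 2]

/-- anti-self-dual part. -/
def gammaL : K →ₗ[ℝ] (Fin 3 → ℝ) :=
  LinearMap.pi ![BL F φ V 0 1 - BL F φ V 2 3, BL F φ V 0 2 + BL F φ V 1 3,
    BL F φ V 0 3 - BL F φ V 1 2]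

theorem betaL_apply (k : K) (c : Fin 3) : betaL F φ V k c = φ (pV F (V k) c) := by
  fin_cases c <;> simp [betaL, pV, BL_apply]

theorem hat_eq (b : Fin 3 → ℝ) : Kil2_805.hat b = - cr b := by
  ext i j
  fin_cases i <;> fin_cases j <;> simp [Kil2_805.hat, cr]

theorem map_cr (p : Fin 3 → S) : (cr p).map φ = cr (fun c => φ (p c)) := by
  ext i j
  fin_cases i <;> fin_cases j <;> simp [cr]

theorem ev_trace (X : Matrix (Fin 3) (Fin 3) S) : φ X.trace = (X.map φ).trace := by
  simp [Matrix.trace, map_sum]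

theorem map_mul3 (X Y : Matrix (Fin 3) (Fin 3) S) : (X * Y).map φ = X.map φ * Y.map φ :=
  Matrix.map_mul

/-- **C3.6/C3.7**: five independent Killing fields. -/
theorem g_zero {lam : S} (hE : F.Einstein lam) (hK : ∀ k, Kill F (V k))
    (inj : ∀ k, (∀ i, φ (V k i) = 0) → (∀ i j, φ (BV F (V k) i j) = 0) → k = 0)
    (h5 : 5 ≤ Module.finrank ℝ K) {f : S} (hf : ∀ k, ∑ i, V k i * F.D i f = 0)
    (hs : ∀ s : ℝ, (Am F).map φ = s • (1 : Matrix (Fin 3) (Fin 3) ℝ) → ∀ i, φ (F.D i f) = 0) :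
    ∀ i, φ (F.D i f) = 0 := by
  by_contra hne
  have hg : (fun i => φ (F.D i f)) ≠ 0 := fun h => hne fun i => congrFun h i
  have ha : ∀ s : ℝ, (Am F).map φ ≠ s • (1 : Matrix (Fin 3) (Fin 3) ℝ) :=
    fun s h => hne (hs s h)
  have sk : ∀ k a b, φ (BV F (V k) a b) = - φ (BV F (V k) b a) := by
    intro k a b
    rw [hK k a b, map_neg]
  have dg : ∀ k a, φ (BV F (V k) a a) = 0 := by
    intro k a
    have := sk k a a
    linarith
  have b0 : ∀ k, betaL F φ V k 0 = φ (BV F (V k) 0 1) + φ (BV F (V k) 2 3) := fun k => rfl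
  have b1 : ∀ k, betaL F φ V k 1 = φ (BV F (V k) 0 2) - φ (BV F (V k) 1 3) := fun k => rfl
  have b2 : ∀ k, betaL F φ V k 2 = φ (BV F (V k) 0 3) + φ (BV F (V k) 1 2) := fun k => rfl
  have c0 : ∀ k, gammaL F φ V k 0 = φ (BV F (V k) 0 1) - φ (BV F (V k) 2 3) := fun k => rfl
  have c1 : ∀ k, gammaL F φ V k 1 = φ (BV F (V k) 0 2) + φ (BV F (V k) 1 3) := fun k => rfl
  have c2 : ∀ k, gammaL F φ V k 2 = φ (BV F (V k) 0 3) - φ (BV F (V k) 1 2) := fun k => rfl
  have hle := Kil2_805.dim_le_four (vE φ V) (betaL F φ V) (gammaL F φ V) (fun k h1 h2 h3 => ?_)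
    hg (fun k => ?_) ha (fun k hk => ?_) (fun k hk hb => ?_)
  · omega
  · -- injectivity
    refine inj k (fun i => congrFun h1 i) ?_
    have e0 := congrFun h2 0
    have e1 := congrFun h2 1
    have e2 := congrFun h2 2
    have e3 := congrFun h3 0
    have e4 := congrFun h3 1
    have e5 := congrFun h3 2
    rw [b0] at e0; rw [b1] at e1; rw [b2] at e2
    rw [c0] at e3; rw [c1] at e4; rw [c2] at e5
    simp only [Pi.zero_apply] at e0 e1 e2 e3 e4 e5
    have f01 : φ (BV F (V k) 0 1) = 0 := by linarith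
    have f23 : φ (BV F (V k) 2 3) = 0 := by linarith
    have f02 : φ (BV F (V k) 0 2) = 0 := by linarith
    have f13 : φ (BV F (V k) 1 3) = 0 := by linarith
    have f03 : φ (BV F (V k) 0 3) = 0 := by linarith
    have f12 : φ (BV F (V k) 1 2) = 0 := by linarith
    intro i j
    fin_cases i <;> fin_cases j
    · exact dg k 0
    · exact f01
    · exact f02
    · exact f03
    · change φ (BV F (V k) 1 0) = 0
      rw [sk, f01, neg_zero]
    · exact dg k 1
    · exact f12
    · exact f13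
    · change φ (BV F (V k) 2 0) = 0
      rw [sk, f02, neg_zero]
    · change φ (BV F (V k) 2 1) = 0
      rw [sk, f12, neg_zero]
    · exact dg k 2
    · exact f23
    · change φ (BV F (V k) 3 0) = 0
      rw [sk, f03, neg_zero]
    · change φ (BV F (V k) 3 1) = 0
      rw [sk, f13, neg_zero]
    · change φ (BV F (V k) 3 2) = 0
      rw [sk, f23, neg_zero]
    · exact dg k 3
  · -- V f = 0
    have h := congrArg φ (hf k)
    rw [map_sum, map_zero] at h
    rw [dotProduct, ← h]
    refine sum_congr rfl fun i _ => ?_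
    rw [map_mul, mul_comm]; rfl
  · -- the stabiliser
    have h := V_Nm F hE (hK k)
    have h2 : (∑ i, V k i • Nm F i).map φ =
        (cr (pV F (V k)) * Am F - Am F * cr (pV F (V k))).map φ := by rw [h]
    have h3 : (∑ i, V k i • Nm F i).map φ = 0 := by
      ext c d
      rw [Matrix.map_apply, Matrix.sum_apply, map_sum, Matrix.zero_apply]
      refine sum_eq_zero fun i _ => ?_
      rw [Matrix.smul_apply, smul_eq_mul, map_mul]
      have : φ (V k i) = 0 := congrFun hk i
      rw [this, zero_mul]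
    have h4 : (cr (pV F (V k)) * Am F - Am F * cr (pV F (V k))).map φ =
        (cr (pV F (V k))).map φ * (Am F).map φ - (Am F).map φ * (cr (pV F (V k))).map φ := by
      rw [← map_mul3, ← map_mul3]
      ext c d
      simp only [Matrix.map_apply, Matrix.sub_apply, map_sub]
    rw [h3, h4, map_cr] at h2
    have h5 : (fun c => φ (pV F (V k) c)) = betaL F φ V k := by
      funext c; rw [betaL_apply]
    rw [h5] at h2
    rw [hat_eq, Matrix.neg_mul, Matrix.mul_neg, neg_inj]
    exact (sub_eq_zero.1 h2.symm)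
  · -- the gradient
    have hD : ∀ a, ∑ i, φ (BV F (V k) a i) * φ (F.D i f) = 0 := by
      intro a
      have h := congrArg (F.D a) (hf k)
      rw [map_sum, map_zero] at h
      have h2 := congrArg φ h
      rw [map_sum, map_zero] at h2
      rw [← h2]
      refine sum_congr rfl fun i _ => ?_
      rw [D_mul, map_add, map_mul, map_mul, BV_eq, map_add, map_sum]
      have hz : ∀ i, φ (V k i) = 0 := fun i => congrFun hk i
      simp only [map_mul, hz, mul_zero, sum_const_zero, add_zero, zero_mul]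
    have e0 := congrFun hb 0
    have e1 := congrFun hb 1
    have e2 := congrFun hb 2
    rw [b0] at e0; rw [b1] at e1; rw [b2] at e2
    simp only [Pi.zero_apply] at e0 e1 e2
    have q0 := hD 0
    have q1 := hD 1
    have q2 := hD 2
    have q3 := hD 3
    simp only [Fin.sum_univ_four, dg, sk k 1 0, sk k 2 0, sk k 3 0, sk k 2 1, sk k 3 1,
      sk k 3 2] at q0 q1 q2 q3
    have f23 : φ (BV F (V k) 2 3) = - φ (BV F (V k) 0 1) := by linarith
    have f13 : φ (BV F (V k) 1 3) = φ (BV F (V k) 0 2) := by linarith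
    have f12 : φ (BV F (V k) 1 2) = - φ (BV F (V k) 0 3) := by linarith
    rw [f12, f13] at q1
    rw [f12, f23] at q2
    rw [f13, f23] at q3
    obtain ⟨i, hi⟩ := Function.ne_iff.1 hg
    have hpos : 0 < φ (F.D 0 f) ^ 2 + φ (F.D 1 f) ^ 2 + φ (F.D 2 f) ^ 2 + φ (F.D 3 f) ^ 2 := by
      have hi' : 0 < φ (F.D i f) ^ 2 := by
        have : φ (F.D i f) ≠ 0 := hi
        positivity
      fin_cases i
      · have : 0 < φ (F.D 0 f) ^ 2 := hi'
        positivity
      · have : 0 < φ (F.D 1 f) ^ 2 := hi'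
        positivity
      · have : 0 < φ (F.D 2 f) ^ 2 := hi'
        positivity
      · have : 0 < φ (F.D 3 f) ^ 2 := hi'
        positivity
    generalize hA : φ (BV F (V k) 0 1) = A at *
    generalize hB : φ (BV F (V k) 0 2) = B at *
    generalize hC : φ (BV F (V k) 0 3) = C at *
    generalize φ (F.D 0 f) = g0 at *
    generalize φ (F.D 1 f) = g1 at *
    generalize φ (F.D 2 f) = g2 at *
    generalize φ (F.D 3 f) = g3 at *
    have key : (A ^ 2 + B ^ 2 + C ^ 2) * (g0 ^ 2 + g1 ^ 2 + g2 ^ 2 + g3 ^ 2) = 0 := by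
      linear_combination (A * g1 + B * g2 + C * g3) * q0 + (-A * g0 + B * g3 - C * g2) * q1
        + (-B * g0 + C * g1 - A * g3) * q2 + (-C * g0 - B * g1 + A * g2) * q3
    have h0 : A ^ 2 + B ^ 2 + C ^ 2 = 0 := by
      rcases mul_eq_zero.1 key with h | h
      · exact h
      · exact absurd h hpos.ne'
    have hA0 : A = 0 := by nlinarith [sq_nonneg A, sq_nonneg B, sq_nonneg C]
    have hB0 : B = 0 := by nlinarith [sq_nonneg A, sq_nonneg B, sq_nonneg C]
    have hC0 : C = 0 := by nlinarith [sq_nonneg A, sq_nonneg B, sq_nonneg C]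
    funext c
    fin_cases c
    · change gammaL F φ V k 0 = 0
      rw [c0, hA, f23, hA0]; norm_num
    · change gammaL F φ V k 1 = 0
      rw [c1, hB, f13, hB0]; norm_num
    · change gammaL F φ V k 2 = 0
      rw [c2, hC, f12, hC0]; norm_num

/-- the derivatives of `tr A²` and `tr A³` vanish at the point. -/
theorem ev_D_zero {lam : S} (hE : F.Einstein lam) (hK : ∀ k, Kill F (V k))
    (inj : ∀ k, (∀ i, φ (V k i) = 0) → (∀ i j, φ (BV F (V k) i j) = 0) → k = 0)
    (h5 : 5 ≤ Module.finrank ℝ K) :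
    (∀ i, φ (F.D i (f2 F)) = 0) ∧ ∀ i, φ (F.D i (f3 F)) = 0 := by
  have htr : ∀ i, ((Nm F i).map φ).trace = 0 := by
    intro i
    rw [← ev_trace, Nm_trace F hE, map_zero]
  refine ⟨g_zero F φ V hE hK inj h5 (fun k => V_f2 F hE (hK k)) ?_,
    g_zero F φ V hE hK inj h5 (fun k => V_f3 F hE (hK k)) ?_⟩
  · intro s hs i
    rw [D_f2, map_mul, ev_trace, map_mul3, hs, Matrix.smul_mul, Matrix.one_mul,
      Matrix.trace_smul, htr, smul_zero, mul_zero]
  · intro s hs i
    rw [D_f3, map_mul, ev_trace, map_mul3, map_mul3, hs, Matrix.smul_mul, Matrix.one_mul,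
      Matrix.smul_mul, Matrix.smul_mul, Matrix.one_mul,
      Matrix.trace_smul, Matrix.trace_smul, htr, smul_zero, smul_zero, mul_zero]

end dim

/-- `(A - x)(A - y)`. -/
def Pm (x y : S) : Matrix (Fin 3) (Fin 3) S :=
  (Am F - x • (1 : Matrix (Fin 3) (Fin 3) S)) * (Am F - y • (1 : Matrix (Fin 3) (Fin 3) S))

/-- Cayley–Hamilton: `6 tr A⁴`. -/
theorem p4 (X : Matrix (Fin 3) (Fin 3) S) : 6 * (X * X * (X * X)).trace =
    6 * X.trace * (X * X * X).trace - 3 * (X.trace ^ 2 - (X * X).trace) * (X * X).trace +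
      (X.trace ^ 3 - 3 * X.trace * (X * X).trace + 2 * (X * X * X).trace) * X.trace := by
  simp only [Matrix.trace_fin_three, Matrix.mul_apply, Fin.sum_univ_three]
  ring

/-- the trace of the square of `(A-x)(A-y)`. -/
theorem six_tr_PP (x y : S) : 6 * (Pm F x y * Pm F x y).trace =
    (6 * (Am F).trace * f3 F - 3 * ((Am F).trace ^ 2 - f2 F) * f2 F +
      ((Am F).trace ^ 3 - 3 * (Am F).trace * f2 F + 2 * f3 F) * (Am F).trace)
      - 12 * (x + y) * f3 F + 6 * ((x + y) ^ 2 + 2 * (x * y)) * f2 F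
      - 12 * (x * y) * (x + y) * (Am F).trace + 18 * (x * y) ^ 2 := by
  have h1 : Pm F x y = Am F * Am F - (x + y) • Am F +
      (x * y) • (1 : Matrix (Fin 3) (Fin 3) S) := by
    rw [Pm, Matrix.sub_mul, Matrix.mul_sub, Matrix.mul_sub, Matrix.smul_mul, Matrix.smul_mul,
      Matrix.one_mul, Matrix.mul_smul, Matrix.mul_one, Matrix.one_mul, smul_smul, add_smul]
    abel
  have h2 : Pm F x y * Pm F x y = Am F * Am F * (Am F * Am F)
      - (2 * (x + y)) • (Am F * Am F * Am F) + ((x + y) ^ 2 + 2 * (x * y)) • (Am F * Am F)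
      - (2 * (x * y) * (x + y)) • Am F + ((x * y) ^ 2) • (1 : Matrix (Fin 3) (Fin 3) S) := by
    rw [h1]
    simp only [Matrix.add_mul, Matrix.mul_add, Matrix.sub_mul, Matrix.mul_sub, Matrix.smul_mul,
      Matrix.mul_smul, Matrix.one_mul, Matrix.mul_one, smul_smul, smul_sub, smul_add,
      Matrix.mul_assoc]
    module
  have h3 : ((1 : Matrix (Fin 3) (Fin 3) S)).trace = 3 := by
    rw [Matrix.trace_one]; simp
  rw [h2, Matrix.trace_add, Matrix.trace_sub, Matrix.trace_add, Matrix.trace_sub,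
    Matrix.trace_smul, Matrix.trace_smul, Matrix.trace_smul, Matrix.trace_smul, h3]
  simp only [smul_eq_mul]
  have h4 := p4 (Am F)
  simp only [f2, f3]
  linear_combination h4

theorem PP_trace (x y : S) :
    (Pm F x y * Pm F x y).trace = ∑ c, ∑ d, Pm F x y c d * Pm F x y c d := by
  have hT : (Pm F x y)ᵀ = Pm F x y := by
    have hA := Am_T F
    have h1 : ∀ z : S, (Am F - z • (1 : Matrix (Fin 3) (Fin 3) S))ᵀ =
        Am F - z • (1 : Matrix (Fin 3) (Fin 3) S) := by
      intro z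
      rw [Matrix.transpose_sub, Matrix.transpose_smul, Matrix.transpose_one, hA]
    rw [Pm, Matrix.transpose_mul, h1, h1]
    simp only [Matrix.sub_mul, Matrix.mul_sub, Matrix.smul_mul, Matrix.mul_smul, Matrix.one_mul,
      Matrix.mul_one]
    module
  rw [Matrix.trace]
  refine sum_congr rfl fun c _ => ?_
  rw [Matrix.diag_apply, Matrix.mul_apply]
  refine sum_congr rfl fun d _ => ?_
  congr 1
  exact (congrFun (congrFun hT d) c).symm

/-- **the end game at a point.** -/
theorem ev_NN_zero {lam : ℝ} (hlam : 0 < lam) (hE : F.Einstein (algebraMap ℝ S lam))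
    (h2 : ∀ k, F.D k (f2 F) = 0) (h3 : ∀ k, F.D k (f3 F) = 0)
    (hP : ∀ x y : ℝ, (Pm F (algebraMap ℝ S x) (algebraMap ℝ S y)).map φ = 0 →
      Pm F (algebraMap ℝ S x) (algebraMap ℝ S y) = 0) (k : Fin 4) (c d : Fin 3) :
    φ (F.NN k c d) = 0 := by
  have l2 : F.lap0 (f2 F) = 0 := by
    simp only [lap0, hess0, h2, map_zero, mul_zero, sum_const_zero, sub_zero]
  have l3 : F.lap0 (f3 F) = 0 := by
    simp only [lap0, hess0, h3, map_zero, mul_zero, sum_const_zero, sub_zero]
  rw [lap_f2] at l2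
  rw [lap_f3] at l3
  have e2 : φ (2 : S) = 2 := map_ofNat φ 2
  have e3 : φ (3 : S) = 3 := map_ofNat φ 3
  have e6 : φ (6 : S) = 6 := map_ofNat φ 6
  have hsub : ∀ z : ℝ, (Am F - (algebraMap ℝ S z) • (1 : Matrix (Fin 3) (Fin 3) S)).map φ =
      (Am F).map φ - z • (1 : Matrix (Fin 3) (Fin 3) ℝ) := by
    intro z
    ext i j
    simp only [Matrix.map_apply, Matrix.sub_apply, Matrix.smul_apply, smul_eq_mul, map_sub,
      map_mul, AlgHom.commutes, Matrix.one_apply]
    split_ifs <;> simp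
  have key := End_805.endgame cliff (A := (Am F).map φ) (T := fun k => (Nm F k).map φ) ?_ ?_ ?_ ?_
    ?_ ?_ ?_ (L := (Lm F).map φ) ?_ ?_ ?_ ?_
  · have h := congrFun (congrFun (key k) c) d
    exact h
  · rw [← Matrix.transpose_map, Am_T]
  · intro k
    rw [← Matrix.transpose_map, Nm_T]
  · rw [← ev_trace, Am_trace F hE, AlgHom.commutes]
    exact hlam
  · intro i
    exact bianchi F hE φ i
  · intro k
    rw [← ev_trace, Nm_trace F hE, map_zero]
  · intro k
    have h := congrArg φ (h2 k)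
    rw [D_f2, map_mul, map_zero, e2, ev_trace, map_mul3] at h
    linarith
  · intro k
    have h := congrArg φ (h3 k)
    rw [D_f3, map_mul, map_zero, e3, ev_trace, map_mul3, map_mul3] at h
    linarith
  · rw [Lm_formula F hE]
    ext i j
    simp only [Matrix.map_apply, Matrix.sub_apply, Matrix.smul_apply, smul_eq_mul, map_sub,
      map_mul, map_pow, ev_trace, map_mul3, e6, e2, Matrix.mul_apply, map_sum, Matrix.one_apply]
    split_ifs <;> simp
  · have h := congrArg φ l2
    rw [map_add, map_mul, map_mul, map_zero, map_sum, e2, ev_trace, map_mul3] at h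
    simp only [ev_trace, map_mul3] at h
    linarith
  · have h := congrArg φ l3
    rw [map_add, map_mul, map_mul, map_zero, map_sum, e3, e6, ev_trace, map_mul3, map_mul3] at h
    simp only [ev_trace, map_mul3] at h
    linarith
  · intro x y hxy k
    have h0 : (Pm F (algebraMap ℝ S x) (algebraMap ℝ S y)).map φ = 0 := by
      rw [Pm, map_mul3, hsub, hsub]
      exact hxy
    have h1 := hP x y h0
    have h2 : F.covE F.sdc k (Pm F (algebraMap ℝ S x) (algebraMap ℝ S y)) =
        Nm F k * (Am F - (algebraMap ℝ S y) • (1 : Matrix (Fin 3) (Fin 3) S)) +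
        (Am F - (algebraMap ℝ S x) • (1 : Matrix (Fin 3) (Fin 3) S)) * Nm F k := by
      have hc : ∀ z : ℝ, F.covE F.sdc k (Am F - (algebraMap ℝ S z) •
          (1 : Matrix (Fin 3) (Fin 3) S)) = Nm F k := by
        intro z
        have e : Am F - (algebraMap ℝ S z) • (1 : Matrix (Fin 3) (Fin 3) S) =
            Am F + (algebraMap ℝ S (-z)) • (1 : Matrix (Fin 3) (Fin 3) S) := by
          rw [map_neg, neg_smul, sub_eq_add_neg]
        rw [e, covE_add, covE_smul, covE_one, Derivation.map_algebraMap, covE_Am, zero_smul,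
          smul_zero, add_zero, add_zero]
      rw [Pm, covE_mul, hc, hc]
    have h3 : F.covE F.sdc k (0 : Matrix (Fin 3) (Fin 3) S) = 0 := by
      ext i j
      simp [covE]
    rw [h1, h3] at h2
    have h4 : (0 : Matrix (Fin 3) (Fin 3) S).map φ =
        (Nm F k * (Am F - (algebraMap ℝ S y) • (1 : Matrix (Fin 3) (Fin 3) S)) +
        (Am F - (algebraMap ℝ S x) • (1 : Matrix (Fin 3) (Fin 3) S)) * Nm F k).map φ := by
      rw [← h2]
    have h5 : ∀ X Y : Matrix (Fin 3) (Fin 3) S, (X + Y).map φ = X.map φ + Y.map φ := by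
      intro X Y; ext i j; simp
    rw [h5, map_mul3, map_mul3, hsub, hsub] at h4
    rw [← h4]
    ext i j; simp

end Crest.Agent.R249.Kg2_285
end
end

-- ▼ part R249/Kg3_285

/-!
# R249, C3-GLOB (helper285), part 3: unique continuation for Killing fields

`uc_ball` (Gronwall), `uc_germ` (a closed linear first order system of germs), `vc` (components of
a vector field in an orthonormal frame germ), `kill_uc` (a Killing field on a connected manifold
which vanishes to first order at a point is zero; any dimension, no completeness).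
-/

set_option autoImplicit false
set_option maxSynthPendingDepth 3
set_option linter.unusedSectionVars false

open Filter Topology Set Bundle
open scoped ContDiff Manifold
open Crest.GeometryTopology.CoordMetric Crest.GeometryTopology.ChartCurvature
  Crest.GeometryTopology.PointedLimit
open Crest.Agent.R202.Tens Crest.Agent.R247.Bo84 Crest.Agent.R249.FrmB_285
open Crest.Agent.R249.Fr129 Crest.Agent.R249.Sg129 Crest.Agent.R249.Vf281
  Crest.Agent.R249.Kil1_805

noncomputable section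

namespace Crest.Agent.R249.Kg3_285

/-! ### Gronwall -/

theorem uc_ball {E G : Type*} [NormedAddCommGroup E] [NormedSpace ℝ E] [NormedAddCommGroup G]
    [NormedSpace ℝ G] {f : E → G} {s : Set E} (hs : Convex ℝ s) {C : ℝ}
    (hd : ∀ y ∈ s, DifferentiableAt ℝ f y) (hC : ∀ y ∈ s, ‖fderiv ℝ f y‖ ≤ C * ‖f y‖)
    {a b : E} (ha : a ∈ s) (hb : b ∈ s) (h0 : f a = 0) : f b = 0 := by
  set γ : ℝ → E := fun t => a + t • (b - a) with hγ
  have hmem : ∀ t ∈ Icc (0:ℝ) 1, γ t ∈ s := by
    intro t ht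
    have h1 := hs.add_smul_sub_mem ha hb ht
    exact h1
  have hγd : ∀ t, HasDerivAt γ (b - a) t := by
    intro t
    have h1 : HasDerivAt (fun t : ℝ => t • (b - a)) ((1:ℝ) • (b - a)) t :=
      (hasDerivAt_id t).smul_const (b - a)
    rw [one_smul] at h1
    exact h1.const_add a
  have hφ : ∀ t ∈ Icc (0:ℝ) 1, HasDerivAt (fun t => f (γ t)) (fderiv ℝ f (γ t) (b - a)) t :=
    fun t ht => (hd _ (hmem t ht)).hasFDerivAt.comp_hasDerivAt t (hγd t)
  have hg := norm_le_gronwallBound_of_norm_deriv_right_le (f := fun t => f (γ t))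
    (f' := fun t => fderiv ℝ f (γ t) (b - a)) (δ := 0) (K := C * ‖b - a‖) (ε := 0)
    (a := 0) (b := 1)
    (fun t ht => (hφ t ht).continuousAt.continuousWithinAt)
    (fun t ht => (hφ t ⟨ht.1, ht.2.le⟩).hasDerivWithinAt)
    (by simp [hγ, h0]) (fun t ht => by
      have h1 := hC _ (hmem t ⟨ht.1, ht.2.le⟩)
      calc ‖fderiv ℝ f (γ t) (b - a)‖ ≤ ‖fderiv ℝ f (γ t)‖ * ‖b - a‖ :=
            ContinuousLinearMap.le_opNorm _ _
        _ ≤ (C * ‖f (γ t)‖) * ‖b - a‖ := by gcongr
        _ = C * ‖b - a‖ * ‖f (γ t)‖ + 0 := by ring)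
    1 (by simp)
  rw [gronwallBound_ε0_δ0] at hg
  have h1 : γ 1 = b := by simp [hγ]
  have h2 : ‖f (γ 1)‖ = 0 := le_antisymm hg (norm_nonneg _)
  rw [h1] at h2
  exact norm_eq_zero.1 h2

section germ

variable {n : ℕ}

local notation "𝔼" => EuclideanSpace ℝ (Fin n)

variable {x : EuclideanSpace ℝ (Fin n)}

/-- a closed linear system of germs has unique continuation on a small ball. -/
theorem uc_germ {ι : Type*} [Fintype ι] {u : ι → 𝔼 → ℝ} (hu : ∀ b, ContDiffAt ℝ ∞ (u b) x)
    (hI : ∀ a b, pd a (germ (u b) (hu b)) ∈ Ideal.span (Set.range fun c => germ (u c) (hu c))) :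
    ∃ r > 0, ∀ y₁ ∈ Metric.ball x r, (∀ c, u c y₁ = 0) → ∀ y ∈ Metric.ball x r, ∀ c, u c y = 0 := by
  have h1 : ∀ a b, ∃ C : ι → SG x, ∑ c, C c * germ (u c) (hu c) = pd a (germ (u b) (hu b)) :=
    fun a b => Ideal.mem_span_range_iff_exists_fun.1 (hI a b)
  choose C hC using h1
  choose Cf hCf hCg using fun a b c => exists_germ (C a b c)
  have h2 : ∀ a b, ∀ᶠ y in 𝓝 x, pderiv a (u b) y = ∑ c, Cf a b c y * u c y := by
    intro a b
    have h := hC a b
    simp only [← hCg, germ_mul] at h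
    rw [germ_sum, pd_germ] at h
    exact (germ_eq_iff.1 h).symm
  set B : ℝ := ∑ a, ∑ b, ∑ c, (|Cf a b c x| + 1) with hB
  have hB0 : 0 ≤ B := by positivity
  have hBle : ∀ a b c, |Cf a b c x| + 1 ≤ B := by
    intro a b c
    calc |Cf a b c x| + 1 ≤ ∑ c, (|Cf a b c x| + 1) :=
          Finset.single_le_sum (f := fun c => |Cf a b c x| + 1) (fun _ _ => by positivity)
            (Finset.mem_univ c)
      _ ≤ ∑ b, ∑ c, (|Cf a b c x| + 1) :=
          Finset.single_le_sum (f := fun b => ∑ c, (|Cf a b c x| + 1))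
            (fun _ _ => by positivity) (Finset.mem_univ b)
      _ ≤ B := Finset.single_le_sum (f := fun a => ∑ b, ∑ c, (|Cf a b c x| + 1))
            (fun _ _ => by positivity) (Finset.mem_univ a)
  have h3 : ∀ a b c, ∀ᶠ y in 𝓝 x, |Cf a b c y| ≤ B := by
    intro a b c
    have hc : ContinuousAt (fun y => |Cf a b c y|) x := (hCf a b c).continuousAt.abs
    have : ∀ᶠ y in 𝓝 x, |Cf a b c y| < |Cf a b c x| + 1 :=
      hc.eventually_lt_const (lt_add_one _)
    filter_upwards [this] with y hy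
    exact hy.le.trans (hBle a b c)
  have h4 : ∀ᶠ y in 𝓝 x, ∀ b, DifferentiableAt ℝ (u b) y :=
    eventually_all.2 fun b => ev_diff (hu b)
  have h5 : ∀ᶠ y in 𝓝 x, (∀ b, DifferentiableAt ℝ (u b) y) ∧
      (∀ a b, pderiv a (u b) y = ∑ c, Cf a b c y * u c y) ∧ ∀ a b c, |Cf a b c y| ≤ B := by
    refine h4.and ((eventually_all.2 fun a => eventually_all.2 fun b => h2 a b).and ?_)
    exact eventually_all.2 fun a => eventually_all.2 fun b => eventually_all.2 fun c => h3 a b c
  obtain ⟨r, hr, hball⟩ := Metric.eventually_nhds_iff_ball.1 h5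
  refine ⟨r, hr, fun y₁ hy₁ hz y hy c => ?_⟩
  set f : 𝔼 → (ι → ℝ) := fun y b => u b y with hf
  have hfd : ∀ y ∈ Metric.ball x r, DifferentiableAt ℝ f y := fun y hy =>
    differentiableAt_pi.2 fun b => (hball y hy).1 b
  have hfC : ∀ y ∈ Metric.ball x r,
      ‖fderiv ℝ f y‖ ≤ (n * (Fintype.card ι * B)) * ‖f y‖ := by
    intro y hy
    obtain ⟨hd, hp, hb⟩ := hball y hy
    refine ContinuousLinearMap.opNorm_le_bound _ (by positivity) fun v => ?_
    refine (pi_norm_le_iff_of_nonneg (by positivity)).2 fun b => ?_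
    have e1 : fderiv ℝ f y v b = fderiv ℝ (u b) y v := by
      have : fderiv ℝ f y = ContinuousLinearMap.pi fun b => fderiv ℝ (u b) y :=
        fderiv_pi fun b => hd b
      rw [this]; rfl
    rw [e1, fderiv_eq_sum, Real.norm_eq_abs]
    have e2 : ∀ a, |v a * pderiv a (u b) y| ≤ ‖v‖ * (Fintype.card ι * B * ‖f y‖) := by
      intro a
      rw [abs_mul]
      have e3 : |v a| ≤ ‖v‖ := by
        have := EuclideanSpace.norm_eq v
        have h6 : |v a| ^ 2 ≤ ‖v‖ ^ 2 := by
          rw [EuclideanSpace.norm_sq_eq]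
          have := Finset.single_le_sum (f := fun i => ‖v i‖ ^ 2) (fun i _ => sq_nonneg _)
            (Finset.mem_univ a)
          simpa [Real.norm_eq_abs] using this
        exact abs_le_of_sq_le_sq' h6 (norm_nonneg v) |>.2 |> fun h => by
          simpa using h
      have e4 : |pderiv a (u b) y| ≤ Fintype.card ι * B * ‖f y‖ := by
        rw [hp a b]
        calc |∑ c, Cf a b c y * u c y| ≤ ∑ c, |Cf a b c y * u c y| :=
              Finset.abs_sum_le_sum_abs _ _
          _ ≤ ∑ _c : ι, B * ‖f y‖ := by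
              refine Finset.sum_le_sum fun c _ => ?_
              rw [abs_mul]
              have : |u c y| ≤ ‖f y‖ := by
                have := norm_le_pi_norm (f y) c
                simpa [Real.norm_eq_abs, hf] using this
              exact mul_le_mul (hb a b c) this (abs_nonneg _) hB0
          _ = Fintype.card ι * B * ‖f y‖ := by
              rw [Finset.sum_const, Finset.card_univ, nsmul_eq_mul]; ring
      exact mul_le_mul e3 e4 (abs_nonneg _) (norm_nonneg v)
    calc |∑ a, v a * pderiv a (u b) y| ≤ ∑ a, |v a * pderiv a (u b) y| :=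
          Finset.abs_sum_le_sum_abs _ _
      _ ≤ ∑ _a : Fin n, ‖v‖ * (Fintype.card ι * B * ‖f y‖) :=
          Finset.sum_le_sum fun a _ => e2 a
      _ = (n * (Fintype.card ι * B)) * ‖f y‖ * ‖v‖ := by
          rw [Finset.sum_const, Finset.card_univ, nsmul_eq_mul, Fintype.card_fin]; ring
  have h6 : f y = 0 := uc_ball (convex_ball x r) hfd hfC hy₁ hy (funext fun c => hz c)
  exact congrFun h6 c

variable {g : MetricField n} {U : Set (EuclideanSpace ℝ (Fin n))}
  {e : Fin n → EuclideanSpace ℝ (Fin n) → EuclideanSpace ℝ (Fin n)}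

/-- coordinate derivatives from frame derivatives. -/
theorem pd_of_frame (h : ONF g U x e) (a : Fin n) (φ : SG x) :
    pd a φ = ∑ i, (h.mf.E.transpose * h.mf.g) i a * h.frameOf.D i φ := by
  have h1 : ∀ i, h.frameOf.D i φ = ∑ k, h.mf.E k i * pd k φ := fun i => MF.frame_D _ i φ
  simp only [h1, Finset.mul_sum]
  rw [Finset.sum_comm]
  have h2 : ∀ k, ∑ i, (h.mf.E.transpose * h.mf.g) i a * (h.mf.E k i * pd k φ) =
      (if k = a then 1 else 0) * pd k φ := by
    intro k
    have h3 := congrFun (congrFun h.mf.E_Et_g k) a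
    rw [Matrix.mul_apply, Matrix.one_apply] at h3
    rw [← h3, Finset.sum_mul]
    exact Finset.sum_congr rfl fun i _ => by ring
  simp only [h2, ite_mul, one_mul, zero_mul, Finset.sum_ite_eq', Finset.mem_univ, if_true]

/-- the prolonged system of a vector field. -/
def pro {S : Type*} [CommRing S] [Algebra ℝ S] (F : Frame n S) (V : Fin n → S) :
    Fin n ⊕ Fin n × Fin n → S :=
  Sum.elim V fun q => BV F V q.1 q.2

/-- the prolonged system of a Killing field is closed. -/
theorem pro_mem {S : Type*} [CommRing S] [Algebra ℝ S] (F : Frame n S) {V : Fin n → S}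
    (hV : Kill F V) (k : Fin n) (b : Fin n ⊕ Fin n × Fin n) :
    F.D k (pro F V b) ∈ Ideal.span (Set.range (pro F V)) := by
  have hv : ∀ i, V i ∈ Ideal.span (Set.range (pro F V)) := fun i =>
    Ideal.subset_span ⟨Sum.inl i, rfl⟩
  have hb : ∀ i j, BV F V i j ∈ Ideal.span (Set.range (pro F V)) := fun i j =>
    Ideal.subset_span ⟨Sum.inr (i, j), rfl⟩
  rcases b with j | ⟨l, j⟩
  · have h : F.D k (V j) = BV F V k j - ∑ i, F.w k i j * V i := by
      change _ = (F.D k (V j) + ∑ i, F.w k i j * V i) - _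
      ring
    change F.D k (V j) ∈ _
    rw [h]
    exact sub_mem (hb k j) (sum_mem fun i _ => Ideal.mul_mem_left _ _ (hv i))
  · have h : F.D k (BV F V l j) = - ∑ i, F.Rm l j i k * V i - ∑ i, F.w k i j * BV F V l i
        + ∑ m, F.w k l m * BV F V m j := by
      rw [← DB_killing F hV, DB]
      ring
    change F.D k (BV F V l j) ∈ _
    rw [h]
    refine add_mem (sub_mem (neg_mem (sum_mem fun i _ => Ideal.mul_mem_left _ _ (hv i)))
      (sum_mem fun i _ => Ideal.mul_mem_left _ _ (hb l i)))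
      (sum_mem fun m _ => Ideal.mul_mem_left _ _ (hb m j))

/-- components of a vector field along the frame. -/
def cf (g : MetricField n) (e : Fin n → EuclideanSpace ℝ (Fin n) → EuclideanSpace ℝ (Fin n))
    (X : EuclideanSpace ℝ (Fin n) → EuclideanSpace ℝ (Fin n)) (i : Fin n)
    (y : EuclideanSpace ℝ (Fin n)) : ℝ :=
  bil (g y) (X y) (e i y)

theorem cd_cf (h : ONF g U x e) {X : 𝔼 → 𝔼} (hX : ContDiffAt ℝ ∞ X x) (i : Fin n) :
    ContDiffAt ℝ ∞ (cf g e X i) x := h.cd_bil hX (h.smooth i)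

/-- the components of a vector field as germs. -/
def vcg (h : ONF g U x e) {X : 𝔼 → 𝔼} (hX : ContDiffAt ℝ ∞ X x) (i : Fin n) : SG x :=
  germ (cf g e X i) (cd_cf h hX i)

/-- the covariant derivative as a function. -/
def bf (g : MetricField n) (e : Fin n → EuclideanSpace ℝ (Fin n) → EuclideanSpace ℝ (Fin n))
    (X : EuclideanSpace ℝ (Fin n) → EuclideanSpace ℝ (Fin n)) (k j : Fin n)
    (y : EuclideanSpace ℝ (Fin n)) : ℝ :=
  fderiv ℝ (cf g e X j) y (e k y) +
    ∑ i, bil (g y) (cov g (e i) y (e k y)) (e j y) * cf g e X i y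

theorem cd_bf (h : ONF g U x e) {X : 𝔼 → 𝔼} (hX : ContDiffAt ℝ ∞ X x) (k j : Fin n) :
    ContDiffAt ℝ ∞ (bf g e X k j) x :=
  (h.cd_D (cd_cf h hX j) k).add (ContDiffAt.sum fun i _ =>
    (h.cd_bil (h.cd_cov i k) (h.smooth j)).mul (cd_cf h hX i))

theorem bf_germ (h : ONF g U x e) {X : 𝔼 → 𝔼} (hX : ContDiffAt ℝ ∞ X x) (k j : Fin n) :
    BV h.frameOf (vcg h hX) k j = germ (bf g e X k j) (cd_bf h hX k j) := by
  change h.frameOf.D k (vcg h hX j) + ∑ i, h.frameOf.w k i j * vcg h hX i = _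
  simp only [vcg, h.D_germ, h.w_germ, germ_mul]
  rw [germ_sum, germ_add]
  exact germ_eq (Eventually.of_forall fun y => rfl)

/-- the prolonged system as functions. -/
def pf (g : MetricField n) (e : Fin n → EuclideanSpace ℝ (Fin n) → EuclideanSpace ℝ (Fin n))
    (X : EuclideanSpace ℝ (Fin n) → EuclideanSpace ℝ (Fin n)) :
    Fin n ⊕ Fin n × Fin n → EuclideanSpace ℝ (Fin n) → ℝ :=
  Sum.elim (cf g e X) fun q => bf g e X q.1 q.2

theorem cd_pf (h : ONF g U x e) {X : 𝔼 → 𝔼} (hX : ContDiffAt ℝ ∞ X x)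
    (b : Fin n ⊕ Fin n × Fin n) : ContDiffAt ℝ ∞ (pf g e X b) x := by
  rcases b with i | ⟨k, j⟩
  · exact cd_cf h hX i
  · exact cd_bf h hX k j

theorem pro_germ (h : ONF g U x e) {X : 𝔼 → 𝔼} (hX : ContDiffAt ℝ ∞ X x)
    (b : Fin n ⊕ Fin n × Fin n) :
    pro h.frameOf (vcg h hX) b = germ (pf g e X b) (cd_pf h hX b) := by
  rcases b with i | ⟨k, j⟩
  · rfl
  · exact bf_germ h hX k j

theorem eq_zero_of_cf {y : 𝔼} (hg : IsRiemannianOn g U) (hy : y ∈ U)
    (ho : ∀ i j, bil (g y) (e i y) (e j y) = if i = j then 1 else 0) {X : 𝔼 → 𝔼}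
    (h0 : ∀ i, cf g e X i y = 0) : X y = 0 := by
  have hF : IsFrame (g y) (fun i => e i y) := Sg129.isFrame_of_orth ho
  rw [hF.expand hg hy (X y)]
  refine Finset.sum_eq_zero fun i _ => ?_
  have : bil (g y) (X y) (e i y) = 0 := h0 i
  rw [this, zero_smul]

/-- **local unique continuation for Killing fields.** -/
theorem kill_local (h : ONF g U x e) {X : 𝔼 → 𝔼} (hX : ContDiffAt ℝ ∞ X x)
    (hK : Kill h.frameOf (vcg h hX)) :
    ∃ r > 0, Metric.ball x r ⊆ U ∧ ∀ y₁ ∈ Metric.ball x r, (∀ i, cf g e X i y₁ = 0) →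
      (∀ k j, bf g e X k j y₁ = 0) → ∀ y ∈ Metric.ball x r, X y = 0 := by
  obtain ⟨r₁, hr₁, h1⟩ := uc_germ (fun b => cd_pf h hX b) (by
    intro a b
    have e1 : (fun c => germ (pf g e X c) (cd_pf h hX c)) = pro h.frameOf (vcg h hX) :=
      funext fun c => (pro_germ h hX c).symm
    rw [e1, ← pro_germ h hX b, pd_of_frame h]
    exact sum_mem fun i _ => Ideal.mul_mem_left _ _ (pro_mem h.frameOf hK i b))
  obtain ⟨r₂, hr₂, h2⟩ := Metric.eventually_nhds_iff_ball.1
    ((eventually_mem h.riem h.mem).and h.orth)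
  refine ⟨min r₁ r₂, lt_min hr₁ hr₂, fun y hy => ?_, fun y₁ hy₁ hc hb y hy => ?_⟩
  · exact (h2 y (Metric.ball_subset_ball (min_le_right _ _) hy)).1
  · have h3 := h1 y₁ (Metric.ball_subset_ball (min_le_left _ _) hy₁) (by
      rintro (i | ⟨k, j⟩)
      · exact hc i
      · exact hb k j) y (Metric.ball_subset_ball (min_le_left _ _) hy)
    have h4 := h2 y (Metric.ball_subset_ball (min_le_right _ _) hy)
    exact eq_zero_of_cf h.riem h4.1 h4.2 fun i => h3 (Sum.inl i)

theorem cf_zero_of_eventually {y : 𝔼} {X : 𝔼 → 𝔼} (h : ∀ᶠ z in 𝓝 y, X z = 0) :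
    (∀ i, cf g e X i y = 0) ∧ ∀ k j, bf g e X k j y = 0 := by
  have h1 : ∀ i, cf g e X i =ᶠ[𝓝 y] fun _ => 0 := by
    intro i
    filter_upwards [h] with z hz
    simp only [cf, hz, map_zero, _root_.zero_apply]
  have h2 : ∀ i, cf g e X i y = 0 := fun i => (h1 i).self_of_nhds
  refine ⟨h2, fun k j => ?_⟩
  rw [bf, (h1 j).fderiv_eq, fderiv_fun_const]
  simp [h2]

end germ

section mfd

variable {n : ℕ} {M : Type*} [TopologicalSpace M] [ChartedSpace (EuclideanSpace ℝ (Fin n)) M]
  [IsManifold 𝓘(ℝ, EuclideanSpace ℝ (Fin n)) ∞ M]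
  [RiemannianBundle (fun x : M => TangentSpace 𝓘(ℝ, EuclideanSpace ℝ (Fin n)) x)]
  [IsContMDiffRiemannianBundle 𝓘(ℝ, EuclideanSpace ℝ (Fin n)) ∞ (EuclideanSpace ℝ (Fin n))
      (fun x : M => TangentSpace 𝓘(ℝ, EuclideanSpace ℝ (Fin n)) x)]

local notation "𝔼" => EuclideanSpace ℝ (Fin n)
local notation "𝓘E" => 𝓘(ℝ, EuclideanSpace ℝ (Fin n))

/-- the components of a vector field on `M` in an orthonormal frame germ at `p`. -/
def vc {p : M} {e : Fin n → 𝔼 → 𝔼}
    (h : ONF (chartMetric n M p) (chartAt 𝔼 p).target (chartCentre n M p) e)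
    {X : (q : M) → TangentSpace 𝓘E q} (hX : VSm n ∞ X p) (i : Fin n) : SG (chartCentre n M p) :=
  vcg h (X := vCh n p X) hX i

variable {X : (q : M) → TangentSpace 𝓘(ℝ, EuclideanSpace ℝ (Fin n)) q}

theorem eq_zero_of_vCh {p q : M} (hq : q ∈ (chartAt 𝔼 p).source)
    (h : vCh n p X (chartAt 𝔼 p q) = 0) : X q = 0 := by
  have h1 := dSy_vCh (X := X) ((chartAt 𝔼 p).map_source hq)
  rw [h, map_zero, (chartAt 𝔼 p).left_inv hq] at h1
  exact h1.symm

theorem vCh_eq_zero {p : M} {y : 𝔼} (h : X ((chartAt 𝔼 p).symm y) = 0) : vCh n p X y = 0 := by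
  rw [vCh, h]
  exact map_zero _

/-- **unique continuation for Killing fields.** -/
theorem kill_uc [PreconnectedSpace M] (hX : ∀ q, VSm n ∞ X q)
    (hK : ∀ q, ∃ e : Fin n → 𝔼 → 𝔼,
      ∃ h : ONF (chartMetric n M q) (chartAt 𝔼 q).target (chartCentre n M q) e,
        Kill h.frameOf (vc h (hX q)))
    {p : M} {e : Fin n → 𝔼 → 𝔼}
    (h : ONF (chartMetric n M p) (chartAt 𝔼 p).target (chartCentre n M p) e)
    (hKp : Kill h.frameOf (vc h (hX p))) (hv : ∀ i, ev (vc h (hX p) i) = 0)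
    (hb : ∀ k j, ev (BV h.frameOf (vc h (hX p)) k j) = 0) (q : M) : X q = 0 := by
  set Z : Set M := {q | ∀ᶠ q' in 𝓝 q, X q' = 0} with hZ
  have hopen : IsOpen Z := isOpen_setOfPred_eventually_nhds
  have hnhd : ∀ (q : M) (r : ℝ), 0 < r → ∀ᶠ q' in 𝓝 q, q' ∈ (chartAt 𝔼 q).source ∧
      chartAt 𝔼 q q' ∈ Metric.ball (chartCentre n M q) r := by
    intro q r hr
    have h1 : ContinuousAt (chartAt 𝔼 q) q :=
      (chartAt 𝔼 q).continuousAt (mem_chart_source 𝔼 q)
    have h2 : ∀ᶠ q' in 𝓝 q, q' ∈ (chartAt 𝔼 q).source :=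
      (chartAt 𝔼 q).open_source.mem_nhds (mem_chart_source 𝔼 q)
    exact h2.and (h1.eventually (Metric.ball_mem_nhds _ hr))
  have hclosed : IsClosed Z := by
    refine isClosed_of_closure_subset fun q hq => ?_
    obtain ⟨e, h, hKq⟩ := hK q
    obtain ⟨r, hr, -, h1⟩ := kill_local h (X := vCh n q X) (hX q) hKq
    obtain ⟨q', ⟨hs, hbq⟩, hq'⟩ := mem_closure_iff_nhds.1 hq _ (hnhd q r hr)
    have h2 : ∀ᶠ z in 𝓝 (chartAt 𝔼 q q'), vCh n q X z = 0 := by
      have hc : ContinuousAt (chartAt 𝔼 q).symm (chartAt 𝔼 q q') :=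
        (chartAt 𝔼 q).continuousAt_symm ((chartAt 𝔼 q).map_source hs)
      have h3 : ∀ᶠ q'' in 𝓝 ((chartAt 𝔼 q).symm (chartAt 𝔼 q q')), X q'' = 0 := by
        rw [(chartAt 𝔼 q).left_inv hs]
        exact hq'
      filter_upwards [hc.eventually h3] with z hz using vCh_eq_zero hz
    obtain ⟨h4, h5⟩ := cf_zero_of_eventually (g := chartMetric n M q) (e := e) h2
    have h6 := h1 _ hbq h4 h5
    filter_upwards [hnhd q r hr] with q'' hq''
    exact eq_zero_of_vCh hq''.1 (h6 _ hq''.2)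
  have hp : p ∈ Z := by
    obtain ⟨r, hr, -, h1⟩ := kill_local h (X := vCh n p X) (hX p) hKp
    have h6 := h1 _ (Metric.mem_ball_self hr) (fun i => hv i) (fun k j => by
      have h7 := hb k j
      change ev (BV h.frameOf (vcg h (X := vCh n p X) (hX p)) k j) = 0 at h7
      rw [bf_germ, ev_germ] at h7
      exact h7)
    filter_upwards [hnhd p r hr] with q'' hq''
    exact eq_zero_of_vCh hq''.1 (h6 _ hq''.2)
  have huniv : Z = univ := IsClopen.eq_univ ⟨hclosed, hopen⟩ ⟨p, hp⟩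
  have hq : q ∈ Z := by rw [huniv]; trivial
  exact hq.self_of_nhds

end mfd

end Crest.Agent.R249.Kg3_285
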