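import Crest.Agent.R249.OriD_285
import Crest.Agent.R249.FrmD_285
import Crest.Agent.R249.B2Iso_474
import Crest.Agent.R249.Asm1_49
import Crest.Agent.R249.Trw_285

-- ▼ part R249/OriR_285
section

/-!
# R249, leaf ORI-REV (helper285): the reversed orientation

`exists_reversed` : a compact connected oriented Riemannian manifold is covered, locally
isometrically and orientation reversingly, by a compact connected oriented Riemannian manifold of
the lowest universe (the component of the orientation double cover with the other orientation).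
-/

set_option autoImplicit false
set_option maxSynthPendingDepth 3
set_option linter.unusedSectionVars false
set_option linter.style.haveILetI false

open Bundle Set Filter Topology Bornology
open scoped ContDiff Manifold
open Crest.GeometryTopology.CoordMetric Crest.GeometryTopology.ChartCurvature
open Crest.Agent.R244.Man Crest.Agent.R247.Bo84 Crest.Agent.R202.Tens
open Crest.Agent.R249.OriA_285 Crest.Agent.R249.OriB_285 Crest.Agent.R249.OriC_285
open Crest.Agent.R249.Mk_285 Crest.Agent.R249.Loc1_285 Crest.Agent.R249.Loc2_285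
open Crest.Agent.R249.OriD_285

noncomputable section

namespace Crest.Agent.R249.OriR_285

variable {n : ℕ} {M : Type*} [TopologicalSpace M]
  [ChartedSpace (EuclideanSpace ℝ (Fin n)) M]

local notation "𝔼" => EuclideanSpace ℝ (Fin n)
local notation "𝓘E" => 𝓘(ℝ, EuclideanSpace ℝ (Fin n))

section

variable [NeZero n] [IsManifold 𝓘(ℝ, EuclideanSpace ℝ (Fin n)) ∞ M]
  {ι : Type} {c : ι → M} {a₀ : ι × Bool} {z₀ : Up (n := n) c a₀}

/-- on an oriented manifold the sign of a chart of the double cover is a function of the point. -/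
theorem sign_eq (hO : Oriented n M) {a b : ι × Bool} {z w : 𝔼} (hz : z ∈ Up c a)
    (hw : w ∈ Up c b) (h : (glue c a₀ z₀).F a z = (glue c a₀ z₀).F b w) : a.2 = b.2 := by
  rw [Glue.F_eq_F _ hz hw, glue_r hz hw] at h
  have h1 := (O_iff c hz hw h.1).1 h.2
  have h2 : 0 < dJ (c a.1) (c b.1) (R n a.2 z) := hO _ _ _ (mem_tdom c hz hw h.1)
  have h3 : 0 < sg a.2 * sg b.2 := (pos_iff_pos_of_mul_pos h1).2 h2
  rcases a with ⟨i, s⟩
  rcases b with ⟨j, t⟩
  cases s <;> cases t <;> simp_all <;> linarith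

theorem component_sign (hO : Oriented n M) {m : (glue c a₀ z₀).M}
    (hm : m ∈ connectedComponent ((glue c a₀ z₀).proj (glue c a₀ z₀).base))
    {b : ι × Bool} {w : 𝔼} (hw : w ∈ Up c b) (h : (glue c a₀ z₀).F b w = m) : b.2 = a₀.2 := by
  -- the points of sign `s`
  let B : Bool → Set (glue c a₀ z₀).M := fun s =>
    ⋃ i : ι, (glue c a₀ z₀).F (i, s) '' (Up c (i, s))
  have hBo : ∀ s, IsOpen (B s) := fun s =>
    isOpen_iUnion fun i => (glue c a₀ z₀).isOpen_image_F (isOpen_Up c (i, s)) Subset.rfl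
  have hmem : ∀ m : (glue c a₀ z₀).M, ∀ s, m ∈ B s ↔ ¬ m ∈ B (!s) := by
    intro m s
    obtain ⟨a, z, hz, rfl⟩ := (glue c a₀ z₀).exists_F m
    have h1 : ∀ t, (glue c a₀ z₀).F a z ∈ B t ↔ t = a.2 := by
      intro t
      constructor
      · intro ht
        obtain ⟨i, y, hy, h⟩ := mem_iUnion.1 ht
        exact sign_eq (c := c) (a₀ := a₀) (z₀ := z₀) hO (a := (i, t)) (b := a) hy hz h
      · rintro rfl
        exact mem_iUnion.2 ⟨a.1, z, hz, rfl⟩
    rw [h1, h1]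
    cases s <;> cases a.2 <;> simp
  have hBc : IsClopen (B a₀.2) := by
    refine ⟨?_, hBo _⟩
    rw [← isOpen_compl_iff]
    have : (B a₀.2)ᶜ = B (!a₀.2) := by
      ext m
      rw [mem_compl_iff, hmem m (!a₀.2), Bool.not_not]
    rw [this]
    exact hBo _
  have h0 : (glue c a₀ z₀).proj (glue c a₀ z₀).base ∈ B a₀.2 := by
    refine mem_iUnion.2 ⟨a₀.1, z₀, z₀.2, ?_⟩
    rw [(glue c a₀ z₀).F_of_mem z₀.2]
    rfl
  have h1 : m ∈ B a₀.2 := hBc.connectedComponent_subset h0 hm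
  obtain ⟨i, y, hy, h2⟩ := mem_iUnion.1 h1
  exact (sign_eq (c := c) (a₀ := a₀) (z₀ := z₀) hO (a := (i, a₀.2)) (b := b) hy hw
    (h2.trans h.symm)).symm

variable {hC : IsOpen (connectedComponent ((glue c a₀ z₀).proj (glue c a₀ z₀).base))}
  {hm₀ : (glue c a₀ z₀).proj (glue c a₀ z₀).base ∈
    connectedComponent ((glue c a₀ z₀).proj (glue c a₀ z₀).base)}

theorem idx_sign (hO : Oriented n M) (x : (sub (glue c a₀ z₀) _ hC _ hm₀).M) :
    ((sub (glue c a₀ z₀) _ hC _ hm₀).idx x).2 = a₀.2 := by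
  have h1 := (sub (glue c a₀ z₀) _ hC _ hm₀).pt_mem x
  exact component_sign hO h1.2 h1.1 rfl

/-- the derivative of the projection in charts. -/
theorem det_lmap (hO : Oriented n M) (x : (sub (glue c a₀ z₀) _ hC _ hm₀).M) :
    0 < sg a₀.2 * LinearMap.det (fderiv ℝ
      (lmap n (prS c a₀ z₀ _ hC _ hm₀) x (prS c a₀ z₀ _ hC _ hm₀ x)) (chartAt 𝔼 x x) :
        𝔼 →ₗ[ℝ] 𝔼) := by
  set ϖ := prS c a₀ z₀ _ hC _ hm₀ with hϖ
  have hs := idx_sign hO x
  set a := (sub (glue c a₀ z₀) _ hC _ hm₀).idx x with ha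
  -- the expression of `ϖ` in the charts
  have h1 : ∀ᶠ y in 𝓝 (chartAt 𝔼 x x), lmap n ϖ x (ϖ x) y =
      R247.Bo84.trans (c a.1) (ϖ x) (R n a.2 y) := by
    have h2 := prS_eventuallyEq (c := c) (a₀ := a₀) (z₀ := z₀) (hC := hC) (hm₀ := hm₀) x
    have h3 : Tendsto (chartAt 𝔼 x).symm (𝓝 (chartAt 𝔼 x x)) (𝓝 x) := by
      have := (chartAt 𝔼 x).symm.continuousAt (x := chartAt 𝔼 x x) (mem_chart_target 𝔼 x)
      rw [ContinuousAt, (chartAt 𝔼 x).left_inv (mem_chart_source 𝔼 x)] at this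
      exact this
    filter_upwards [h3.eventually h2,
      (chartAt 𝔼 x).open_target.mem_nhds (mem_chart_target 𝔼 x)] with y hy hyt
    rw [lmap, hϖ, hy, (chartAt 𝔼 x).right_inv hyt]
    rfl
  have hmem : R n a.2 (chartAt 𝔼 x x) ∈ tdom (n := n) (c a.1) (ϖ x) := by
    refine ⟨R_chart_mem x, ?_⟩
    have h4 : ϖ x = (chartAt 𝔼 (c a.1)).symm (R n a.2 (chartAt 𝔼 x x)) :=
      (prS_eventuallyEq (c := c) (a₀ := a₀) (z₀ := z₀) (hC := hC) (hm₀ := hm₀) x).self_of_nhds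
    change (chartAt 𝔼 (c a.1)).symm (R n a.2 (chartAt 𝔼 x x)) ∈ (chartAt 𝔼 (ϖ x)).source
    rw [← h4]
    exact mem_chart_source 𝔼 _
  have h5 : HasFDerivAt (R247.Bo84.trans (c a.1) (ϖ x))
      (fderiv ℝ (R247.Bo84.trans (c a.1) (ϖ x)) (R n a.2 (chartAt 𝔼 x x)))
      (R n a.2 (chartAt 𝔼 x x)) :=
    (((contDiffOn_trans _ _).contDiffAt ((isOpen_tdom _ _).mem_nhds hmem)).differentiableAt
      (by simp)).hasFDerivAt
  have h6 := h5.comp (chartAt 𝔼 x x) (R n a.2).hasFDerivAt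
  have h7 : fderiv ℝ (lmap n ϖ x (ϖ x)) (chartAt 𝔼 x x) =
      (fderiv ℝ (R247.Bo84.trans (c a.1) (ϖ x)) (R n a.2 (chartAt 𝔼 x x))).comp (R n a.2) := by
    have h8 : lmap n ϖ x (ϖ x) =ᶠ[𝓝 (chartAt 𝔼 x x)]
        (R247.Bo84.trans (c a.1) (ϖ x) ∘ R n a.2) := h1
    rw [h8.fderiv_eq, h6.fderiv]
  rw [h7]
  change 0 < sg a₀.2 * LinearMap.det
    ((fderiv ℝ (R247.Bo84.trans (c a.1) (ϖ x)) (R n a.2 (chartAt 𝔼 x x)) : 𝔼 →ₗ[ℝ] 𝔼) ∘ₗ
      (R n a.2 : 𝔼 →ₗ[ℝ] 𝔼))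
  rw [LinearMap.det_comp, det_R, hs]
  have h9 := hO _ _ _ hmem
  rw [hs] at h9
  have h10 := sg_mul_self a₀.2
  have h11 : ∀ d : ℝ, sg a₀.2 * (d * sg a₀.2) = d * (sg a₀.2 * sg a₀.2) := fun d => by ring
  rw [h11, h10, mul_one]
  exact h9

end

section Metric

variable [NeZero n] [IsManifold 𝓘(ℝ, EuclideanSpace ℝ (Fin n)) ∞ M]
  [RiemannianBundle (fun x : M => TangentSpace 𝓘(ℝ, EuclideanSpace ℝ (Fin n)) x)]
  [IsContMDiffRiemannianBundle 𝓘(ℝ, EuclideanSpace ℝ (Fin n)) ∞ (EuclideanSpace ℝ (Fin n))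
      (fun x : M => TangentSpace 𝓘(ℝ, EuclideanSpace ℝ (Fin n)) x)]

/-- **the manifold with the reversed orientation.** -/
theorem exists_reversed [T2Space M] [CompactSpace M] [ConnectedSpace M] (hO : Oriented n M) :
    ∃ (G : Geo n) (ϖ : G.S → M), CompactSpace G.S ∧ Oriented n G.S ∧
      Function.Surjective ϖ ∧ LocIso n ϖ ∧
      ∀ x : G.S, LinearMap.det (fderiv ℝ (lmap n ϖ x (ϖ x)) (chartCentre n G.S x) :
        EuclideanSpace ℝ (Fin n) →ₗ[ℝ] EuclideanSpace ℝ (Fin n)) < 0 := by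
  obtain ⟨k, c, K, hK, hKt, hc⟩ := exists_finite_cover n M
  obtain ⟨p⟩ : Nonempty M := inferInstance
  obtain ⟨i₀, y₀, hy₀, -⟩ := hc p
  let z₀ : Up (n := n) c (i₀, true) := ⟨R n true y₀, by
    change R n true (R n true y₀) ∈ (chartAt 𝔼 (c i₀)).target
    rw [R_R]; exact hKt i₀ hy₀⟩
  haveI : T2Space (glue c (i₀, true) z₀).M := t2Space_glue
  haveI : CompactSpace (glue c (i₀, true) z₀).M := compactSpace_glue K hK hKt hc
  haveI : LocallyConnectedSpace (glue c (i₀, true) z₀).M := ChartedSpace.locallyConnectedSpace 𝔼 _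
  let m₀ : (glue c (i₀, true) z₀).M := (glue c (i₀, true) z₀).proj (glue c (i₀, true) z₀).base
  let C : Set (glue c (i₀, true) z₀).M := connectedComponent m₀
  have hC : IsOpen C := isOpen_connectedComponent
  have hm₀ : m₀ ∈ C := mem_connectedComponent
  have hCc : IsCompact C := isClosed_connectedComponent.isCompact
  haveI : T2Space (sub (glue c (i₀, true) z₀) C hC m₀ hm₀).M := t2Space_sub
  haveI : CompactSpace (sub (glue c (i₀, true) z₀) C hC m₀ hm₀).M := compactSpace_sub hCc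
  haveI : ConnectedSpace (sub (glue c (i₀, true) z₀) C hC m₀ hm₀).M :=
    connectedSpace_sub isConnected_connectedComponent
  let G : Geo n :=
    { X := (sub (glue c (i₀, true) z₀) C hC m₀ hm₀).M
      top := inferInstance
      t3 := inferInstance
      conn := inferInstance
      chs := inferInstance
      mfd := inferInstance
      g := (subMetric (mdat c)).toMetric }
  refine ⟨G, prS c (i₀, true) z₀ C hC m₀ hm₀, ?_, ?_, ?_, ?_, ?_⟩
  · exact (inferInstance : CompactSpace (sub (glue c (i₀, true) z₀) C hC m₀ hm₀).M)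
  · exact oriented_sub
  · have h1 : range (prS c (i₀, true) z₀ C hC m₀ hm₀) =
        pr c (i₀, true) z₀ '' C := by
      have h0 : prS c (i₀, true) z₀ C hC m₀ hm₀ =
        pr c (i₀, true) z₀ ∘ subMap (glue c (i₀, true) z₀) C hC m₀ hm₀ := rfl
      rw [h0, range_comp, range_subMap]
    have h2 : IsOpen (pr c (i₀, true) z₀ '' C) := isOpenMap_pr C hC
    have h3 : IsClosed (pr c (i₀, true) z₀ '' C) := (hCc.image continuous_pr).isClosed
    have h4 : pr c (i₀, true) z₀ '' C = univ :=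
      IsClopen.eq_univ ⟨h3, h2⟩ ⟨_, ⟨m₀, hm₀, rfl⟩⟩
    exact range_eq_univ.1 (h1.trans h4)
  · exact locIso_prS
  · intro x
    have h := det_lmap (c := c) (a₀ := (i₀, true)) (z₀ := z₀) (hC := hC) (hm₀ := hm₀) hO x
    rw [sg_true, neg_one_mul, neg_pos] at h
    exact h

end Metric

end Crest.Agent.R249.OriR_285
end
end

-- ▼ part R249/OriS_285
section

/-!
# R249, leaf ORI-REV (helper285), part 2: transport of invariants and of `Mod`

`mInv_locIso` (orientation preserving), `mInv_rev` (orientation reversing), `parCurv_push`,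
`frame_push`, `mod_push`.
-/

set_option autoImplicit false
set_option maxSynthPendingDepth 3
set_option linter.unusedSectionVars false

open Bundle Set Filter Topology Bornology
open scoped ContDiff Manifold
open Crest.GeometryTopology.CoordMetric Crest.GeometryTopology.ChartCurvature
open Crest.Agent.R247.Bo84 Crest.Agent.R202.Tens
open Crest.Agent.R249.Loc1_285 Crest.Agent.R249.OriD_285 Crest.Agent.R249.OriR_285
open Crest.Agent.R249.FrmB_285 Crest.Agent.R249.FrmC_285 Crest.Agent.R249.FrmD_285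

noncomputable section

namespace Crest.Agent.R249.OriS_285

variable {n : ℕ}

local notation "𝔼" => EuclideanSpace ℝ (Fin n)
local notation "𝓘E" => 𝓘(ℝ, EuclideanSpace ℝ (Fin n))

section Inv

variable {N M : Type*}
  [TopologicalSpace N] [ChartedSpace (EuclideanSpace ℝ (Fin n)) N]
  [IsManifold 𝓘(ℝ, EuclideanSpace ℝ (Fin n)) ∞ N]
  [RiemannianBundle (fun x : N => TangentSpace 𝓘(ℝ, EuclideanSpace ℝ (Fin n)) x)]
  [IsContMDiffRiemannianBundle 𝓘(ℝ, EuclideanSpace ℝ (Fin n)) ∞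
      (EuclideanSpace ℝ (Fin n)) (fun x : N => TangentSpace 𝓘(ℝ, EuclideanSpace ℝ (Fin n)) x)]
  [TopologicalSpace M] [ChartedSpace (EuclideanSpace ℝ (Fin n)) M]
  [IsManifold 𝓘(ℝ, EuclideanSpace ℝ (Fin n)) ∞ M]
  [RiemannianBundle (fun x : M => TangentSpace 𝓘(ℝ, EuclideanSpace ℝ (Fin n)) x)]
  [IsContMDiffRiemannianBundle 𝓘(ℝ, EuclideanSpace ℝ (Fin n)) ∞
      (EuclideanSpace ℝ (Fin n)) (fun x : M => TangentSpace 𝓘(ℝ, EuclideanSpace ℝ (Fin n)) x)]
  {ϖ : N → M} {Φ : (Fin n → Fin n → Fin n → Fin n → ℝ) → ℝ}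


/-- an orientation reversing local isometry. -/
theorem mInv_rev (h : LocIso n ϖ) (hΦ : Inv Φ) {D : Matrix (Fin n) (Fin n) ℝ}
    (hD : D * D.transpose = 1) (hdet : D.det < 0) (x : N)
    (hp : LinearMap.det (fderiv ℝ (lmap n ϖ x (ϖ x)) (chartCentre n N x) : 𝔼 →ₗ[ℝ] 𝔼) < 0) :
    mInv Φ x = mInv (fun R => Φ (act D R)) (ϖ x) := by
  have hP := h.pull x (ϖ x)
  have hc := h.centre_mem x
  have h1 := orth_pull hP hc (bas_orth (n := n) x)
  have h2 := Rc_pull hP hc (bas (n := n) x)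
  rw [h.lmap_centre] at h1 h2
  rw [mInv, mInv, ← h2, ← Rc_change]
  refine hΦ.eq_of_mul_pos (isRiemannianOn_chartMetric (n := n) (ϖ x)) (centre_mem (ϖ x))
    (orth_change (bas_orth (ϖ x)) hD) h1 ?_
  rw [det_map, det_change]
  exact mul_pos_of_neg_of_neg (mul_neg_of_neg_of_pos hdet (bas_det (ϖ x)))
    (mul_neg_of_neg_of_pos hp (bas_det x))

end Inv

section Mod

open Crest.Agent.R244.CF (LocIsoAt)
open Crest.Agent.R226.ChartMet842 (gm Gm isLC_gm gm_apply)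
open Crest.Agent.R249.B2Defs_474

variable {N M : Type*} [MetricSpace N] [ChartedSpace (EuclideanSpace ℝ (Fin n)) N]
  [IsManifold 𝓘(ℝ, EuclideanSpace ℝ (Fin n)) ∞ N]
  [RiemannianBundle (fun x : N => TangentSpace 𝓘(ℝ, EuclideanSpace ℝ (Fin n)) x)]
  [IsContMDiffRiemannianBundle 𝓘(ℝ, EuclideanSpace ℝ (Fin n)) ∞
      (EuclideanSpace ℝ (Fin n)) (fun x : N => TangentSpace 𝓘(ℝ, EuclideanSpace ℝ (Fin n)) x)]
  [MetricSpace M] [ChartedSpace (EuclideanSpace ℝ (Fin n)) M]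
  [IsManifold 𝓘(ℝ, EuclideanSpace ℝ (Fin n)) ∞ M]
  [RiemannianBundle (fun x : M => TangentSpace 𝓘(ℝ, EuclideanSpace ℝ (Fin n)) x)]
  [IsContMDiffRiemannianBundle 𝓘(ℝ, EuclideanSpace ℝ (Fin n)) ∞
      (EuclideanSpace ℝ (Fin n)) (fun x : M => TangentSpace 𝓘(ℝ, EuclideanSpace ℝ (Fin n)) x)]
  {ϖ : N → M}

theorem gm_eq_bil (p : M) (y u v : 𝔼) : gm p y u v = bil (chartMetric n M p y) u v := by
  rw [gm_apply, bil_chartMetric]
  rfl

/-- a local isometry is a local isometry in the sense of `R244.CF`. -/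
theorem locIsoAt (h : LocIso n ϖ) (x : N) :
    LocIsoAt (chartAt 𝔼 x).target (gm x) (chartAt 𝔼 (ϖ x)).target (gm (ϖ x))
      (lmap n ϖ x (ϖ x)) (chartAt 𝔼 x x) := by
  have hP := h.pull x (ϖ x)
  have hc : chartAt 𝔼 x x ∈ ldom n ϖ x (ϖ x) := h.centre_mem x
  refine ⟨mem_chart_target 𝔼 x, hP.maps _ hc, ?_, ?_, ?_⟩
  · filter_upwards [hP.isOpen.mem_nhds hc] with y hy using hP.contDiffAt hy
  · filter_upwards [hP.isOpen.mem_nhds hc] with y hy using hP.surj hy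
  · filter_upwards [hP.isOpen.mem_nhds hc] with y hy u v
    rw [gm_eq_bil, gm_eq_bil, hP.bil_eq hy]

theorem lmap_chartAt (h : LocIso n ϖ) (x : N) :
    lmap n ϖ x (ϖ x) (chartAt 𝔼 x x) = chartAt 𝔼 (ϖ x) (ϖ x) := h.lmap_centre x

/-- parallel curvature goes down. -/
theorem parCurv_push (h : LocIso n ϖ) (hs : Function.Surjective ϖ) (hN : ParCurv n N) :
    ParCurv n M := by
  intro p W X Y Z
  obtain ⟨x, rfl⟩ := hs p
  have hL := locIsoAt h x
  have hsur : Function.Surjective (fderiv ℝ (lmap n ϖ x (ϖ x)) (chartAt 𝔼 x x)) :=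
    hL.surj.self_of_nhds
  obtain ⟨W, rfl⟩ := hsur W
  obtain ⟨X, rfl⟩ := hsur X
  obtain ⟨Y, rfl⟩ := hsur Y
  obtain ⟨Z, rfl⟩ := hsur Z
  have h1 := B2Iso_474.nab_transform hL (isLC_gm x) (isLC_gm (ϖ x)) W X Y Z
  rw [lmap_chartAt h] at h1
  rw [← h1, hN x, map_zero]

/-- frames go down. -/
theorem frame_push (h : LocIso n ϖ) {R0 : 𝔼 → 𝔼 → 𝔼 → 𝔼} (x : N) (F : Frame n R0 x) :
    Nonempty (Frame n R0 (ϖ x)) := by
  have hL := locIsoAt h x
  refine ⟨⟨(fderiv ℝ (lmap n ϖ x (ϖ x)) (chartAt 𝔼 x x)).comp F.I, ?_, ?_⟩⟩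
  · intro u v
    rw [← F.iso u v]
    have h1 := hL.iso.self_of_nhds (F.I u) (F.I v)
    rw [lmap_chartAt h] at h1
    exact h1.symm
  · intro u v w
    have h1 := hL.curv (isLC_gm x) (isLC_gm (ϖ x)) (F.I u) (F.I v) (F.I w)
    rw [lmap_chartAt h, F.curv_eq] at h1
    exact h1.symm

end Mod

/-- `Mod` goes down along a surjective local isometry. -/
theorem mod_push {R0 : EuclideanSpace ℝ (Fin 4) → EuclideanSpace ℝ (Fin 4) →
      EuclideanSpace ℝ (Fin 4) → EuclideanSpace ℝ (Fin 4)} {N M : Type}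
    [MetricSpace N] [ChartedSpace (EuclideanSpace ℝ (Fin 4)) N]
    [IsManifold 𝓘(ℝ, EuclideanSpace ℝ (Fin 4)) ∞ N]
    [RiemannianBundle (fun x : N => TangentSpace 𝓘(ℝ, EuclideanSpace ℝ (Fin 4)) x)]
    [IsContMDiffRiemannianBundle 𝓘(ℝ, EuclideanSpace ℝ (Fin 4)) ∞
      (EuclideanSpace ℝ (Fin 4)) (fun x : N => TangentSpace 𝓘(ℝ, EuclideanSpace ℝ (Fin 4)) x)]
    [MetricSpace M] [ChartedSpace (EuclideanSpace ℝ (Fin 4)) M]
    [IsManifold 𝓘(ℝ, EuclideanSpace ℝ (Fin 4)) ∞ M]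
    [RiemannianBundle (fun x : M => TangentSpace 𝓘(ℝ, EuclideanSpace ℝ (Fin 4)) x)]
    [IsContMDiffRiemannianBundle 𝓘(ℝ, EuclideanSpace ℝ (Fin 4)) ∞
      (EuclideanSpace ℝ (Fin 4)) (fun x : M => TangentSpace 𝓘(ℝ, EuclideanSpace ℝ (Fin 4)) x)]
    {ϖ : N → M} (h : LocIso 4 ϖ) (hs : Function.Surjective ϖ) (hN : Asm49.Mod R0 N) :
    Asm49.Mod R0 M := by
  refine ⟨parCurv_push h hs hN.1, fun p => ?_⟩
  obtain ⟨x, rfl⟩ := hs p
  obtain ⟨F⟩ := hN.2 x
  exact frame_push h x F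

end Crest.Agent.R249.OriS_285
end
end

-- ▼ part R249/Trx_285

/-!
# R249, T-RW (helper285), part 2: the constraint, assembly of `BC`

`cons_of` : `√|W⁺|² + √|W⁻|² ≤ 2 lam √(2/3)`; `bc_of` : `Asm49.BC` from T-III and T-I (only for
`|W⁻| = 0`; the case `|W⁺| = 0` is obtained by reversing the orientation).
-/

set_option autoImplicit false
set_option maxSynthPendingDepth 3

open Filter Topology Set Bundle
open scoped ContDiff Manifold
open Crest.GeometryTopology.CoordMetric Crest.GeometryTopology.ChartCurvature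
  Crest.GeometryTopology.PointedLimit
open Crest.Agent.R202.Tens Crest.Agent.R247.Bo84 Crest.Agent.R249.FrmB_285
open Crest.Agent.R249.FrmC_285 Crest.Agent.R249.FrmD_285 Crest.Agent.R249.OriD_285
open Crest.Agent.R249.Fr129 Crest.Agent.R249.Sg129 Crest.Agent.R249.Top49
open Crest.Agent.R249.Trw_285 Crest.Agent.R249.OriR_285 Crest.Agent.R249.OriS_285
open Crest.Agent.R249.Loc1_285 Crest.Agent.R249.Mk_285

noncomputable section

namespace Crest.Agent.R249.Trx_285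

local notation "𝔼" => EuclideanSpace ℝ (Fin 4)
local notation "𝓘E" => 𝓘(ℝ, EuclideanSpace ℝ (Fin 4))

section

variable {lam : ℝ} {Φ Ψ : T4 → ℝ}
variable {M : Type*} [TopologicalSpace M] [ChartedSpace (EuclideanSpace ℝ (Fin 4)) M]
  [IsManifold 𝓘(ℝ, EuclideanSpace ℝ (Fin 4)) ∞ M]
  [RiemannianBundle (fun x : M => TangentSpace 𝓘(ℝ, EuclideanSpace ℝ (Fin 4)) x)]
  [IsContMDiffRiemannianBundle 𝓘(ℝ, EuclideanSpace ℝ (Fin 4)) ∞ (EuclideanSpace ℝ (Fin 4))
      (fun x : M => TangentSpace 𝓘(ℝ, EuclideanSpace ℝ (Fin 4)) x)]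

/-- **the constraint.** -/
theorem cons_of (hO : Oriented 4 M) (hE : IsEinsteinWith 4 M lam)
    (hK : HasNonnegSectionalCurvature 4 M) (hΦ : QF lam false Φ) (hΨ : QF lam true Ψ) (p : M) :
    Real.sqrt (mInv Φ p) + Real.sqrt (mInv Ψ p) ≤ 2 * lam * Real.sqrt (2 / 3) := by
  obtain ⟨e, h, hpos⟩ := exists_onf (n := 4) p (centre_mem (n := 4) p)
  have hF : h.frameOf.Einstein (algebraMap ℝ (SG _) lam) := by
    refine h.einstein ?_
    filter_upwards [(chartAt 𝔼 p).open_target.mem_nhds (centre_mem (n := 4) p)] with y hy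
    exact fun i j => einstein_chart hE p hy i j
  obtain ⟨h1, -, -⟩ := dict hO hΦ p h hpos
  obtain ⟨h2, -, -⟩ := dict hO hΨ p h hpos
  have h3 := Frame.pinch_pt h.frameOf ev hF fun a b => h.nonneg (hK p) a b
  change ev (h.frameOf.qq (algebraMap ℝ (SG _) lam)) = _ at h1
  change ev (h.frameOf.flip.qq (algebraMap ℝ (SG _) lam)) = _ at h2
  rw [h1, h2] at h3
  refine h3.trans (le_of_eq ?_)
  have h4 : Real.sqrt (2 / 3) = Real.sqrt 6 / 3 := by
    rw [show (2:ℝ) / 3 = 6 / 3 ^ 2 by norm_num, Real.sqrt_div (by norm_num),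
      Real.sqrt_sq (by norm_num)]
  rw [h4]; ring

end

/-- the reflection `e_3 ↦ - e_3`. -/
def D4 : Matrix (Fin 4) (Fin 4) ℝ := Matrix.diagonal ![1, 1, 1, -1]

theorem D4_mul : D4 * D4.transpose = 1 := by
  rw [D4, Matrix.diagonal_transpose, Matrix.diagonal_mul_diagonal, ← Matrix.diagonal_one]
  congr 1
  funext i
  fin_cases i <;> simp

theorem D4_det : D4.det < 0 := by
  rw [D4, Matrix.det_diagonal, Fin.prod_univ_four]
  simp

theorem act_D4 (R : T4) (i j k l : Fin 4) :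
    act D4 R i j k l = (![1, 1, 1, -1] : Fin 4 → ℝ) i * (![1, 1, 1, -1] : Fin 4 → ℝ) j *
      (![1, 1, 1, -1] : Fin 4 → ℝ) k * (![1, 1, 1, -1] : Fin 4 → ℝ) l * R i j k l := by
  have h : ∀ (i : Fin 4) (f : Fin 4 → ℝ), ∑ a, D4 i a * f a = (![1, 1, 1, -1] : Fin 4 → ℝ) i * f i := by
    intro i f
    rw [Finset.sum_eq_single i]
    · rw [D4, Matrix.diagonal_apply_eq]
    · intro b _ hb
      rw [D4, Matrix.diagonal_apply_ne _ hb.symm, zero_mul]
    · simp
  simp only [act]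
  have e1 : ∀ a b c, ∑ d, D4 i a * D4 j b * D4 k c * D4 l d * R a b c d =
      D4 i a * (D4 j b * (D4 k c * ((![1, 1, 1, -1] : Fin 4 → ℝ) l * R a b c l))) := by
    intro a b c
    rw [← h l, Finset.mul_sum, Finset.mul_sum, Finset.mul_sum]
    exact Finset.sum_congr rfl fun d _ => by ring
  simp only [e1, ← Finset.mul_sum, h]
  ring

theorem act_D4_D4 (R : T4) : act D4 (act D4 R) = R := by
  funext i j k l
  rw [act_D4, act_D4]
  have h : ∀ i : Fin 4, (![1, 1, 1, -1] : Fin 4 → ℝ) i * (![1, 1, 1, -1] : Fin 4 → ℝ) i = 1 := by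
    intro i; fin_cases i <;> simp
  have hi := h i
  have hj := h j
  have hk := h k
  have hl := h l
  generalize (![1, 1, 1, -1] : Fin 4 → ℝ) i = a at *
  generalize (![1, 1, 1, -1] : Fin 4 → ℝ) j = b at *
  generalize (![1, 1, 1, -1] : Fin 4 → ℝ) k = c at *
  generalize (![1, 1, 1, -1] : Fin 4 → ℝ) l = d at *
  calc a * b * c * d * (a * b * c * d * R i j k l) =
      (a * a) * (b * b) * (c * c) * (d * d) * R i j k l := by ring
    _ = R i j k l := by rw [hi, hj, hk, hl]; ring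

section BC

local notation "E4" => EuclideanSpace ℝ (Fin 4)

variable (Q : ℝ → T4 → ℝ)

/-- `|W⁻|²` from `|W⁺|²`. -/
def Qm (c : ℝ) (R : T4) : ℝ := Q c (act D4 R)

/-- T-III. -/
def TIII (RP : ℝ → E4 → E4 → E4 → E4) : Prop :=
  ∀ (N : Type) [MetricSpace N] [ChartedSpace (EuclideanSpace ℝ (Fin 4)) N]
    [IsManifold 𝓘(ℝ, EuclideanSpace ℝ (Fin 4)) ∞ N] [CompactSpace N] [ConnectedSpace N]
    [RiemannianBundle (fun x : N => TangentSpace 𝓘(ℝ, EuclideanSpace ℝ (Fin 4)) x)]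
    [IsContMDiffRiemannianBundle 𝓘(ℝ, EuclideanSpace ℝ (Fin 4)) ∞ (EuclideanSpace ℝ (Fin 4))
      (fun x : N => TangentSpace 𝓘(ℝ, EuclideanSpace ℝ (Fin 4)) x)]
    [IsRiemannianManifold 𝓘(ℝ, EuclideanSpace ℝ (Fin 4)) N],
    Oriented 4 N → ∀ c : ℝ, 0 < c → IsEinsteinWith 4 N c → HasNonnegSectionalCurvature 4 N →
      (∀ x : N, mInv (Q c) x = 2 / 3 * c ^ 2 ∧ mInv (Qm Q c) x = 2 / 3 * c ^ 2) →
      Asm49.Mod (RP c) N

/-- T-I. -/
def TI (RS RC : ℝ → E4 → E4 → E4 → E4) : Prop :=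
  ∀ (N : Type) [MetricSpace N] [ChartedSpace (EuclideanSpace ℝ (Fin 4)) N]
    [IsManifold 𝓘(ℝ, EuclideanSpace ℝ (Fin 4)) ∞ N] [CompactSpace N] [ConnectedSpace N]
    [RiemannianBundle (fun x : N => TangentSpace 𝓘(ℝ, EuclideanSpace ℝ (Fin 4)) x)]
    [IsContMDiffRiemannianBundle 𝓘(ℝ, EuclideanSpace ℝ (Fin 4)) ∞ (EuclideanSpace ℝ (Fin 4))
      (fun x : N => TangentSpace 𝓘(ℝ, EuclideanSpace ℝ (Fin 4)) x)]
    [IsRiemannianManifold 𝓘(ℝ, EuclideanSpace ℝ (Fin 4)) N],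
    Oriented 4 N → ∀ c : ℝ, 0 < c → IsEinsteinWith 4 N c → HasNonnegSectionalCurvature 4 N →
      (∀ x : N, mInv (Qm Q c) x = 0) → Asm49.Mod (RS c) N ∨ Asm49.Mod (RC c) N

/-- **assembly of `BC`.** -/
theorem bc_of {Q : ℝ → T4 → ℝ} (hp : ∀ c, QF c false (Q c)) (hm : ∀ c, QF c true (Qm Q c))
    {RS RC RP : ℝ → E4 → E4 → E4 → E4} (h3 : TIII Q RP) (h1 : TI Q RS RC) :
    Asm49.BC RS RC RP := by
  intro N _ _ _ _ _ _ _ _ hO c hc hE hK
  refine ⟨mInv (Q c), mInv (Qm Q c), ?_⟩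
  refine
  { hp := stHyp_of hO hE (hp c)
    hm := stHyp_of hO hE (hm c)
    cons := cons_of hO hE hK (hp c) (hm c)
    caseIII := h3 N hO c hc hE hK
    caseI := h1 N hO c hc hE hK
    caseI' := ?_ }
  intro h0
  obtain ⟨G, ϖ, hcp, hOG, hs, hL, hrev⟩ := exists_reversed hO
  have hq : ∀ x : G.S, mInv (Qm Q c) x = 0 := by
    intro x
    rw [mInv_rev hL (hm c).inv D4_mul D4_det x (hrev x)]
    have h2 : (fun R => Qm Q c (act D4 R)) = Q c := by
      funext R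
      rw [Qm, act_D4_D4]
    rw [h2]
    exact h0 (ϖ x)
  rcases h1 G.S hOG c hc (hL.einstein hE) (hL.nonnegSec hK) hq with h | h
  · exact Or.inl (mod_push hL hs h)
  · exact Or.inr (mod_push hL hs h)

end BC

end Crest.Agent.R249.Trx_285
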