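import Crest.Agent.R249.OriD_285
import Crest.Agent.R249.Alg1_104
import Crest.Agent.R249.D1Def_104
import Crest.Agent.R249.SgD_129
import Crest.Agent.R249.Ga_129
import Crest.Agent.R249.C2j_198
import Crest.Agent.R249.Idx7_789
import Crest.Agent.R249.Tz3_805
import Crest.Agent.R249.DicC_129
import Crest.Agent.R249.DenP_714
import Crest.Agent.R249.TofM_352
import Crest.Agent.R249.Vol_285
import Crest.Agent.R249.HKEnd_286
import Crest.Agent.R249.End_805
import Crest.Agent.R249.FrH_129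
import Crest.Agent.R249.Trx_285
import Crest.Agent.R249.Kg4_285

-- ▼ part R249/Idx2_789
section

/-!
# R249, IDX (helper789), part 2: reduction of `IdxStmt` to oriented manifolds

* `isometry_of_bij` : a bijective local isometry (`LocIso`) is an isometry;
* `injective_of_sc` : a surjective local isometry of a connected closed manifold onto a simply connected
  one is injective;
* `IdxOr`, `idxStmt_of_or` : `IdxStmt` from its oriented version.
-/

set_option autoImplicit false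
set_option maxSynthPendingDepth 3
set_option linter.unusedSectionVars false

open Bundle Set Filter Topology Bornology MeasureTheory Manifold
open scoped ContDiff Manifold ENNReal
open Crest.GeometryTopology.CoordMetric Crest.GeometryTopology.ChartCurvature
open Crest.Agent.R247.Bo84 Crest.Agent.R202.Tens
open Crest.Agent.R249.Loc1_285 Crest.Agent.R249.Loc2_285 Crest.Agent.R249.OriD_285
open Crest.Agent.R249.Mk_285 Crest.Agent.R249.D1Def104

noncomputable section

namespace Crest.Agent.R249.Idx789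

section iso

variable {n : ℕ}

local notation "𝔼" => EuclideanSpace ℝ (Fin n)
local notation "𝓘E" => 𝓘(ℝ, EuclideanSpace ℝ (Fin n))

variable {N M : Type*}
  [MetricSpace N] [ChartedSpace (EuclideanSpace ℝ (Fin n)) N]
  [IsManifold 𝓘(ℝ, EuclideanSpace ℝ (Fin n)) ∞ N]
  [RiemannianBundle (fun x : N => TangentSpace 𝓘(ℝ, EuclideanSpace ℝ (Fin n)) x)]
  [IsContMDiffRiemannianBundle 𝓘(ℝ, EuclideanSpace ℝ (Fin n)) ∞
      (EuclideanSpace ℝ (Fin n)) (fun x : N => TangentSpace 𝓘(ℝ, EuclideanSpace ℝ (Fin n)) x)]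
  [IsRiemannianManifold 𝓘(ℝ, EuclideanSpace ℝ (Fin n)) N]
  [MetricSpace M] [ChartedSpace (EuclideanSpace ℝ (Fin n)) M]
  [IsManifold 𝓘(ℝ, EuclideanSpace ℝ (Fin n)) ∞ M]
  [RiemannianBundle (fun x : M => TangentSpace 𝓘(ℝ, EuclideanSpace ℝ (Fin n)) x)]
  [IsContMDiffRiemannianBundle 𝓘(ℝ, EuclideanSpace ℝ (Fin n)) ∞
      (EuclideanSpace ℝ (Fin n)) (fun x : M => TangentSpace 𝓘(ℝ, EuclideanSpace ℝ (Fin n)) x)]
  [IsRiemannianManifold 𝓘(ℝ, EuclideanSpace ℝ (Fin n)) M]
  {ϖ : N → M}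

theorem edist_ge (h : LocIso n ϖ) (hb : Function.Bijective ϖ) (x y : N) :
    edist x y ≤ edist (ϖ x) (ϖ y) := by
  obtain ⟨σ, hl, hr⟩ := Function.bijective_iff_has_inverse.1 hb
  have hσ : ContMDiff 𝓘E 𝓘E 1 σ := by
    intro m
    obtain ⟨W, τ, hW, hxW, hτ, hτr, -⟩ := exists_localInverse h (σ m)
    rw [hr m] at hxW
    have h1 : ContMDiffAt 𝓘E 𝓘E 1 τ m := hτ.contMDiffAt (hW.mem_nhds hxW)
    refine h1.congr_of_eventuallyEq ?_
    filter_upwards [hW.mem_nhds hxW] with m' hm'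
    apply hb.1
    rw [hr m', hτr m' hm']
  rw [IsRiemannianManifold.out (I := 𝓘E) x y, IsRiemannianManifold.out (I := 𝓘E) (ϖ x) (ϖ y)]
  refine le_of_forall_gt fun r hr0 => ?_
  obtain ⟨γ, h0, h1, h2, h3⟩ := exists_lt_of_riemannianEDist_lt hr0
  refine lt_of_le_of_lt ?_ h3
  have h4 : ϖ ∘ (σ ∘ γ) = γ := by
    funext t
    exact hr (γ t)
  have h5 : ContMDiffOn 𝓘(ℝ, ℝ) 𝓘E 1 (σ ∘ γ) (Icc 0 1) := hσ.comp_contMDiffOn h2
  have h6 := pathELength_comp h (h5.mdifferentiableOn one_ne_zero)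
  rw [h4] at h6
  rw [h6]
  refine riemannianEDist_le_pathELength h5 ?_ ?_ zero_le_one
  · simp [h0, hl x]
  · simp [h1, hl y]

/-- **a bijective local isometry is an isometry** -/
theorem isometry_of_bij (h : LocIso n ϖ) (hb : Function.Bijective ϖ) : Isometry ϖ := fun x y =>
  le_antisymm (edist_le h x y) (edist_ge h hb x y)

theorem isLocalHomeomorph (h : LocIso n ϖ) : IsLocalHomeomorph ϖ := by
  refine IsLocalHomeomorph.mk ϖ fun x => ?_
  obtain ⟨W, σ, hW, hxW, hσ, hr, hl⟩ := exists_localInverse h x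
  obtain ⟨V, hV, hVo, hxV⟩ := eventually_nhds_iff.1 hl
  let V' : Set N := V ∩ ϖ ⁻¹' W
  have hV'o : IsOpen V' := hVo.inter (hW.preimage h.continuous)
  let W' : Set M := W ∩ σ ⁻¹' V'
  have hW'o : IsOpen W' := hσ.continuousOn.isOpen_inter_preimage hW hV'o
  refine ⟨{ toFun := ϖ
            invFun := σ
            source := V'
            target := W'
            map_source' := ?_
            map_target' := fun m hm => hm.2
            left_inv' := fun y hy => hV y hy.1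
            right_inv' := fun m hm => hr m hm.1
            open_source := hV'o
            open_target := hW'o
            continuousOn_toFun := h.continuous.continuousOn
            continuousOn_invFun := hσ.continuousOn.mono inter_subset_left }, ⟨hxV, hxW⟩, ?_⟩
  · intro y hy
    refine ⟨hy.2, ?_⟩
    rw [mem_preimage, hV y hy.1]
    exact hy
  · exact fun y _ => rfl

/-- a surjective local isometry of a closed connected manifold onto a simply connected manifold is
injective. -/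
theorem injective_of_sc [CompactSpace N] [ConnectedSpace N] [SimplyConnectedSpace M]
    (h : LocIso n ϖ) : Function.Injective ϖ := by
  have hc : IsCoveringMap ϖ := isLocalHomeomorph_iff_isCoveringMap.1 (isLocalHomeomorph h)
  have : LocallyPathConnectedSpace M := ChartedSpace.locallyPathConnectedSpace 𝔼 M
  obtain ⟨x₀⟩ : Nonempty N := inferInstance
  obtain ⟨s, ⟨hs0, hs1⟩, -⟩ := hc.existsUnique_continuousMap_lifts (ContinuousMap.id M) (ϖ x₀) x₀
    rfl
  have h1 : (fun y => s (ϖ y)) = fun y => y := by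
    refine hc.eq_of_comp_eq (s.continuous.comp h.continuous) continuous_id ?_ x₀ hs0
    funext y
    exact congrFun hs1 (ϖ y)
  intro a b hab
  have h2 := congrFun h1 a
  have h3 := congrFun h1 b
  have h4 : s (ϖ a) = a := h2
  have h5 : s (ϖ b) = b := h3
  rw [← h4, hab, h5]

end iso

/-- the oriented version of `IdxStmt` -/
def IdxOr : Prop :=
  ∃ C : ℝ, 0 < C ∧
    ∀ (M : Type) [MetricSpace M] [ChartedSpace (EuclideanSpace ℝ (Fin 4)) M]
      [IsManifold 𝓘(ℝ, EuclideanSpace ℝ (Fin 4)) ∞ M] [CompactSpace M] [SimplyConnectedSpace M]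
      [RiemannianBundle (fun x : M => TangentSpace 𝓘(ℝ, EuclideanSpace ℝ (Fin 4)) x)]
      [IsContMDiffRiemannianBundle 𝓘(ℝ, EuclideanSpace ℝ (Fin 4)) ∞ (EuclideanSpace ℝ (Fin 4))
        (fun x : M => TangentSpace 𝓘(ℝ, EuclideanSpace ℝ (Fin 4)) x)]
      [IsRiemannianManifold 𝓘(ℝ, EuclideanSpace ℝ (Fin 4)) M]
      [MeasurableSpace M] [BorelSpace M] (B : M → ℝ), Oriented 4 M → Continuous B →
      (∀ p : M, ∀ u v w z : EuclideanSpace ℝ (Fin 4),
        |Alg1_104.Rm (chartMetric 4 M p) (chartCentre 4 M p) u v w z| ≤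
          B p * Real.sqrt (bil (chartMetric 4 M p (chartCentre 4 M p)) u u) *
            Real.sqrt (bil (chartMetric 4 M p (chartCentre 4 M p)) v v) *
            Real.sqrt (bil (chartMetric 4 M p (chartCentre 4 M p)) w w) *
            Real.sqrt (bil (chartMetric 4 M p (chartCentre 4 M p)) z z)) →
        1 ≤ ENNReal.ofReal C * ∫⁻ p, ENNReal.ofReal (B p ^ 2) ∂(μHE[4] : Measure M)

/-- **reduction to oriented manifolds** -/
theorem idxStmt_of_or (hO : IdxOr) : IdxStmt := by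
  obtain ⟨C, hC, H⟩ := hO
  refine ⟨C, hC, ?_⟩
  intro M i1 i2 i3 i4 i5 i6 i7 i8 i9 i10 B hB hbd
  obtain ⟨G, ϖ, hcp, hor, hs, hl⟩ := exists_oriented_cover 4 M
  have hinj : Function.Injective ϖ := injective_of_sc hl
  have hbij : Function.Bijective ϖ := ⟨hinj, hs⟩
  have hiso : Isometry ϖ := isometry_of_bij hl hbij
  let e : G.S ≃ᵢ M := IsometryEquiv.mk' ϖ (Function.surjInv hs) (Function.surjInv_eq hs) hiso
  have : SimplyConnectedSpace G.S := e.toHomeomorph.toHomotopyEquiv.simplyConnectedSpace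
  let : MeasurableSpace G.S := borel G.S
  have : BorelSpace G.S := ⟨rfl⟩
  have h2 := H G.S (fun x => B (ϖ x)) hor (hB.comp hl.continuous) ?_
  · have h3 : MeasurePreserving e (μHE[4] : Measure G.S) (μHE[4] : Measure M) :=
      e.measurePreserving_euclideanHausdorffMeasure 4
    have h4 : ∫⁻ p, ENNReal.ofReal (B p ^ 2) ∂(μHE[4] : Measure M) =
        ∫⁻ x, ENNReal.ofReal (B (ϖ x) ^ 2) ∂(μHE[4] : Measure G.S) := by
      have h5 : Measurable fun p => ENNReal.ofReal (B p ^ 2) :=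
        (hB.pow 2).measurable.ennreal_ofReal
      exact (h3.lintegral_comp h5).symm
    rw [h4]
    exact h2
  · intro x u v w z
    have hp := hl.pull x (ϖ x)
    have hx := hl.centre_mem x
    have hc := hl.lmap_centre x
    have hR : Alg1_104.Rm (chartMetric 4 G.S x) (chartCentre 4 G.S x) u v w z =
        Alg1_104.Rm (chartMetric 4 M (ϖ x)) (chartCentre 4 M (ϖ x))
          (fderiv ℝ (lmap 4 ϖ x (ϖ x)) (chartCentre 4 G.S x) u)
          (fderiv ℝ (lmap 4 ϖ x (ϖ x)) (chartCentre 4 G.S x) v)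
          (fderiv ℝ (lmap 4 ϖ x (ϖ x)) (chartCentre 4 G.S x) w)
          (fderiv ℝ (lmap 4 ϖ x (ϖ x)) (chartCentre 4 G.S x) z) := by
      rw [Alg1_104.Rm, hp.bil_eq hx, hp.curv_eq hx, hc, Alg1_104.Rm]
    have hbil : ∀ u, bil (chartMetric 4 G.S x (chartCentre 4 G.S x)) u u =
        bil (chartMetric 4 M (ϖ x) (chartCentre 4 M (ϖ x)))
          (fderiv ℝ (lmap 4 ϖ x (ϖ x)) (chartCentre 4 G.S x) u)
          (fderiv ℝ (lmap 4 ϖ x (ϖ x)) (chartCentre 4 G.S x) u) := fun u => by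
      rw [hp.bil_eq hx, hc]
    rw [hR, hbil u, hbil v, hbil w, hbil z]
    have h6 := hbd (ϖ x) (fderiv ℝ (lmap 4 ϖ x (ϖ x)) (chartCentre 4 G.S x) u)
          (fderiv ℝ (lmap 4 ϖ x (ϖ x)) (chartCentre 4 G.S x) v)
          (fderiv ℝ (lmap 4 ϖ x (ϖ x)) (chartCentre 4 G.S x) w)
          (fderiv ℝ (lmap 4 ϖ x (ϖ x)) (chartCentre 4 G.S x) z)
    simp only [quadForm_eq] at h6
    refine le_trans (le_of_eq ?_) h6
    congr 1
    rw [Alg1_104.Rm, bil_apply]
    refine Finset.sum_congr rfl fun l _ => Finset.sum_congr rfl fun m _ => ?_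
    rw [curv_apply fun k i j => differentiableAt_christoffel
      (isRiemannianOn_chartMetric (n := 4) (ϖ x)) (centre_mem (ϖ x)) k i j]

end Crest.Agent.R249.Idx789
end
end

-- ▼ part R249/SgE_129
section

/-!
Pointwise curvature components in a frame, change of frame, and `qq` of `frameOf` as germs of
explicit functions. (row 249, helper129)
-/

set_option autoImplicit false
set_option linter.unusedSectionVars false

open scoped ContDiff Topology
open Filter Set Finset Matrix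
open Crest.GeometryTopology.CoordMetric Crest.GeometryTopology.ChartCurvature
open Crest.Agent.R202.Tens Crest.Agent.R247.Bo84
open Crest.Agent.R249.Fr129 Crest.Agent.R249.Ga129

noncomputable section

namespace Crest.Agent.R249.Sg129

variable {n : ℕ}

local notation "𝔼" => EuclideanSpace ℝ (Fin n)

/-- curvature components of the vectors `ξ i` at `y` -/
def Rf (g : MetricField n) (y : EuclideanSpace ℝ (Fin n)) (ξ : Fin n → EuclideanSpace ℝ (Fin n))
    (i j k l : Fin n) : ℝ :=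
  bil (g y) (curv (Gam g) y (ξ i) (ξ j) (ξ k)) (ξ l)

variable {g : MetricField n} {U : Set (EuclideanSpace ℝ (Fin n))}
  {x y : EuclideanSpace ℝ (Fin n)}





lemma ONF.ev_Rf {e : Fin n → 𝔼 → 𝔼} (h : ONF g U x e) (i j k l : Fin n) :
    ev (h.frameOf.Rm i j k l) = Rf g x (fun i => e i x) i j k l := h.ev_Rm i j k l




namespace ONF

variable {g : MetricField 4} {U : Set (EuclideanSpace ℝ (Fin 4))} {x : EuclideanSpace ℝ (Fin 4)}
  {e : Fin 4 → EuclideanSpace ℝ (Fin 4) → EuclideanSpace ℝ (Fin 4)}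

variable (h : ONF g U x e)
include h

lemma ev_Rm_fun : (fun i j k l => ev (h.frameOf.Rm i j k l)) = Rf g x (fun i => e i x) := by
  funext i j k l
  exact h.ev_Rf i j k l


/-- the germ is an `ONF` at all nearby points -/
lemma ev_qq (lam : ℝ) : ev (h.frameOf.qq (algebraMap ℝ (SG x) lam))
    = qqa lam (Rf g x (fun i => e i x)) := by
  rw [qq_eq, map_qqa, h.ev_Rm_fun, AlgHom.commutes]
  rfl









end ONF

end Crest.Agent.R249.Sg129
end
end

-- ▼ part R249/Idx3_789
section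

/-!
# R249, IDX (helper789), part 3: the index density of the untwisted complex is bounded by `|Rm|²`

For a `Frame 4 S`, `ε : S →ₐ[ℝ] ℝ` and `|ε (Rm i j k l)| ≤ b`:
`|ε tr Q₀²|, |ε tr Q₁²| ≤ 1024 b²`, `|ε tO e0|, |ε tO tan| ≤ 1024 b²`.
-/

set_option autoImplicit false
set_option linter.unusedSectionVars false

open Finset Matrix
open Crest.Agent.R249.Fr129 Crest.Agent.R249.C2_198

noncomputable section

namespace Crest.Agent.R249.Idx789

theorem abs_sum_le_card {ι : Type*} [Fintype ι] {f : ι → ℝ} {c : ℝ} (h : ∀ i, |f i| ≤ c) :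
    |∑ i, f i| ≤ Fintype.card ι * c := by
  refine (Finset.abs_sum_le_sum_abs _ _).trans ?_
  refine (Finset.sum_le_card_nsmul _ _ c fun i _ => h i).trans ?_
  simp

section bounds

variable {S : Type*} [CommRing S] [Algebra ℝ S] (F : Frame 4 S) (ε : S →ₐ[ℝ] ℝ) {b : ℝ}

theorem abs_trace_mul_le {κ : Type*} [Fintype κ] (A B : Matrix κ κ S) {c d : ℝ}
    (hc : 0 ≤ c) (hA : ∀ i j, |ε (A i j)| ≤ c) (hB : ∀ i j, |ε (B i j)| ≤ d) :
    |ε (A * B).trace| ≤ Fintype.card κ * (Fintype.card κ * (c * d)) := by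
  rw [Matrix.trace, map_sum]
  refine abs_sum_le_card fun i => ?_
  rw [Matrix.diag_apply, Matrix.mul_apply, map_sum]
  refine abs_sum_le_card fun j => ?_
  rw [map_mul, abs_mul]
  exact mul_le_mul (hA i j) (hB j i) (abs_nonneg _) hc

theorem map_half : ε (Frame.half : S) = 1 / 2 := by
  have h : ε (2 * (Frame.half : S)) = 1 := by rw [Frame.two_half, map_one]
  rw [map_mul, map_ofNat] at h
  linarith

variable (hb : ∀ i j k l, |ε (F.Rm i j k l)| ≤ b)
include hb

theorem b_nonneg : 0 ≤ b := (abs_nonneg _).trans (hb 0 0 0 0)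

theorem EE_le (k l : Fin 4) (c : Fin 3) : |ε (EE F k l c)| ≤ 2 * b := by
  fin_cases c <;> simp only [EE, Fin.zero_eta, Fin.mk_one, Fin.reduceFinMk, Matrix.cons_val_zero,
    Matrix.cons_val_one, Matrix.cons_val, map_add, map_sub, map_neg]
  · have h1 := abs_le.1 (hb k l 0 1)
    have h2 := abs_le.1 (hb k l 2 3)
    exact abs_le.2 ⟨by linarith, by linarith⟩
  · have h1 := abs_le.1 (hb k l 0 2)
    have h2 := abs_le.1 (hb k l 1 3)
    exact abs_le.2 ⟨by linarith, by linarith⟩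
  · have h1 := abs_le.1 (hb k l 0 3)
    have h2 := abs_le.1 (hb k l 1 2)
    exact abs_le.2 ⟨by linarith, by linarith⟩

theorem CC_le (c d : Fin 3) : |ε (CC F c d)| ≤ 2 * b := by
  rw [CC, map_mul, map_half, abs_mul]
  have key : |ε (![EE F 0 1 c - EE F 2 3 c, EE F 0 2 c + EE F 1 3 c,
      EE F 0 3 c - EE F 1 2 c] d)| ≤ 4 * b := by
    have h := fun k l => abs_le.1 (EE_le F ε hb k l c)
    fin_cases d <;> simp only [Fin.zero_eta, Fin.mk_one, Fin.reduceFinMk, Matrix.cons_val_zero,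
      Matrix.cons_val_one, Matrix.cons_val, map_add, map_sub]
    · have h1 := h 0 1
      have h2 := h 2 3
      exact abs_le.2 ⟨by linarith, by linarith⟩
    · have h1 := h 0 2
      have h2 := h 1 3
      exact abs_le.2 ⟨by linarith, by linarith⟩
    · have h1 := h 0 3
      have h2 := h 1 2
      exact abs_le.2 ⟨by linarith, by linarith⟩
  rw [abs_of_nonneg (by norm_num : (0:ℝ) ≤ 1 / 2)]
  linarith

theorem Q0_le (i j : Fin 4) : |ε (Q F (e0 F) (cK S) i j)| ≤ 8 * b := by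
  have h0 := b_nonneg F ε hb
  have h1 : ∀ c d, 2 * |ε (CC F c d)| ≤ 8 * b := fun c d => by
    have := CC_le F ε hb c d
    linarith
  have h2 : ∀ c d c' d', 2 * |ε (CC F c d) + ε (CC F c' d')| ≤ 8 * b := fun c d c' d' => by
    have h3 := CC_le F ε hb c d
    have h4 := CC_le F ε hb c' d'
    have h5 := abs_add_le (ε (CC F c d)) (ε (CC F c' d'))
    linarith
  rw [Q0_val]
  fin_cases i <;> fin_cases j <;>
    simp [map_add, map_mul, map_neg, map_ofNat, -neg_mul] <;>
    first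
      | exact h0
      | exact h1 _ _
      | exact h2 _ _ _ _

theorem Q1_le (i j : Fin 4) : |ε (Q F F.tan (fun i => (cK S i)ᵀ) i j)| ≤ 4 * b := by
  rw [Q1_val]
  change |ε (∑ m, F.Rm m i j m)| ≤ 4 * b
  rw [map_sum]
  have h1 := abs_sum_le_card (f := fun m => ε (F.Rm m i j m)) (fun m => hb m i j m)
  simpa using h1

theorem curvE_le (k l i j : Fin 4) : |ε (F.curv (e0 F) k l i j)| ≤ 2 * b := by
  have h0 := b_nonneg F ε hb
  rw [curv_e0]
  have h := fun c => EE_le F ε hb k l c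
  fin_cases i <;> fin_cases j <;>
    simp [cr4, map_neg] <;>
    first
      | exact h0
      | exact h _

theorem curvT_le (k l i j : Fin 4) : |ε (F.curv F.tan k l i j)| ≤ 2 * b := by
  have h0 := b_nonneg F ε hb
  rw [F.curv_tan k l j i]
  exact (hb k l j i).trans (by linarith)

theorem tO_le {a : Fin 4 → Matrix (Fin 4) (Fin 4) S}
    (ha : ∀ k l i j, |ε (F.curv a k l i j)| ≤ 2 * b) : |ε (tO F a)| ≤ 1024 * b ^ 2 := by
  have h0 := b_nonneg F ε hb
  rw [tO, map_sum]
  have h1 : |∑ i, ε (∑ j, (F.curv a i j * F.curv a i j).trace)| ≤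
      Fintype.card (Fin 4) * (Fintype.card (Fin 4) * (Fintype.card (Fin 4) *
        (Fintype.card (Fin 4) * ((2 * b) * (2 * b))))) := by
    refine abs_sum_le_card fun i => ?_
    rw [map_sum]
    refine abs_sum_le_card fun j => ?_
    exact abs_trace_mul_le ε _ _ (by linarith) (ha i j) (ha i j)
  refine h1.trans (le_of_eq ?_)
  simp only [Fintype.card_fin]
  push_cast
  ring

/-- **the density of the untwisted complex is `O(|Rm|²)`** -/
theorem dens_le :
    |1 / (32 * Real.pi ^ 2) * ε (Q F (e0 F) (cK S) * Q F (e0 F) (cK S)).trace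
        + 1 / (192 * Real.pi ^ 2) * ε (tO F (e0 F))
      - (1 / (32 * Real.pi ^ 2) *
          ε (Q F F.tan (fun i => (cK S i)ᵀ) * Q F F.tan (fun i => (cK S i)ᵀ)).trace
        + 1 / (192 * Real.pi ^ 2) * ε (tO F F.tan))| ≤ 6 * b ^ 2 := by
  have h0 := b_nonneg F ε hb
  have e1 := abs_trace_mul_le ε _ _ (by linarith) (Q0_le F ε hb) (Q0_le F ε hb)
  have e2 := abs_trace_mul_le ε _ _ (by linarith) (Q1_le F ε hb) (Q1_le F ε hb)
  have e3 := tO_le F ε hb (curvE_le F ε hb)
  have e4 := tO_le F ε hb (curvT_le F ε hb)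
  simp only [Fintype.card_fin] at e1 e2
  push_cast at e1 e2
  set x1 := ε (Q F (e0 F) (cK S) * Q F (e0 F) (cK S)).trace
  set x2 := ε (Q F F.tan (fun i => (cK S i)ᵀ) * Q F F.tan (fun i => (cK S i)ᵀ)).trace
  set x3 := ε (tO F (e0 F))
  set x4 := ε (tO F F.tan)
  have hpi : (9:ℝ) ≤ Real.pi ^ 2 := by nlinarith [Real.pi_gt_three]
  have k1 : 1 / (32 * Real.pi ^ 2) ≤ 1 / 288 := by
    apply one_div_le_one_div_of_le <;> linarith
  have k2 : 1 / (192 * Real.pi ^ 2) ≤ 1 / 1728 := by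
    apply one_div_le_one_div_of_le <;> linarith
  have k1' : 0 ≤ 1 / (32 * Real.pi ^ 2) := by positivity
  have k2' : 0 ≤ 1 / (192 * Real.pi ^ 2) := by positivity
  have m1 : |x1 - x2| ≤ 1280 * b ^ 2 := by
    refine (abs_sub _ _).trans ?_
    nlinarith
  have m2 : |x3 - x4| ≤ 2048 * b ^ 2 := by
    refine (abs_sub _ _).trans ?_
    linarith
  have e : 1 / (32 * Real.pi ^ 2) * x1 + 1 / (192 * Real.pi ^ 2) * x3
      - (1 / (32 * Real.pi ^ 2) * x2 + 1 / (192 * Real.pi ^ 2) * x4)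
      = 1 / (32 * Real.pi ^ 2) * (x1 - x2) + 1 / (192 * Real.pi ^ 2) * (x3 - x4) := by ring
  rw [e]
  refine (abs_add_le _ _).trans ?_
  rw [abs_mul, abs_mul, abs_of_nonneg k1', abs_of_nonneg k2']
  have n1 : 1 / (32 * Real.pi ^ 2) * |x1 - x2| ≤ 1 / 288 * (1280 * b ^ 2) :=
    mul_le_mul k1 m1 (abs_nonneg _) (by norm_num)
  have n2 : 1 / (192 * Real.pi ^ 2) * |x3 - x4| ≤ 1 / 1728 * (2048 * b ^ 2) :=
    mul_le_mul k2 m2 (abs_nonneg _) (by norm_num)
  nlinarith [sq_nonneg b]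

end bounds

open Crest.GeometryTopology.CoordMetric Crest.Agent.R202.Tens Crest.Agent.R249.Sg129 in
/-- the curvature components in an orthonormal frame, from the bound of the curvature form -/
theorem ONF_Rm_le {n : ℕ} {g : MetricField n} {U : Set (EuclideanSpace ℝ (Fin n))}
    {x : EuclideanSpace ℝ (Fin n)} {e : Fin n → EuclideanSpace ℝ (Fin n) → EuclideanSpace ℝ (Fin n)}
    (h : ONF g U x e) {B : ℝ}
    (hB : ∀ u v w z : EuclideanSpace ℝ (Fin n), |Alg1_104.Rm g x u v w z| ≤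
      B * Real.sqrt (bil (g x) u u) * Real.sqrt (bil (g x) v v) *
        Real.sqrt (bil (g x) w w) * Real.sqrt (bil (g x) z z)) (i j k l : Fin n) :
    |ev (h.frameOf.Rm i j k l)| ≤ B := by
  have h1 := h.orth.self_of_nhds
  have h2 := hB (e i x) (e j x) (e k x) (e l x)
  rw [h1 i i, h1 j j, h1 k k, h1 l l] at h2
  simp only [if_true, Real.sqrt_one, mul_one] at h2
  rw [h.ev_Rf]
  exact h2

end Crest.Agent.R249.Idx789
end
end

-- ▼ part R249/Idx8_789
section

/-!
# R249, IDX (helper789), part 8: the potential of the tangent bundle is the Ricci tensor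
-/

set_option autoImplicit false
set_option maxSynthPendingDepth 3
set_option linter.unusedSectionVars false

open Filter Topology Set Bundle Manifold Matrix
open scoped ContDiff
open Crest.GeometryTopology.CoordMetric Crest.GeometryTopology.ChartCurvature
  Crest.GeometryTopology.PointedLimit
open Crest.Agent.R202.Tens Crest.Agent.R247.Bo84 Crest.Agent.R249.FrmB_285 Crest.Agent.R249.Vf281
  Crest.Agent.R249.Tz1_805 Crest.Agent.R249.Tz2_805 Crest.Agent.R249.Tz805
open Crest.Agent.R249.Fr129 Crest.Agent.R249.C2_198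
open Crest.Agent.R249.Sg129 (ONF SG ev ev_germ)

noncomputable section

namespace Crest.Agent.R249.Idx789

theorem sum4 {n : ℕ} (r E : Fin n → Fin n → ℝ) (x y : Fin n → ℝ) :
    ∑ j, ∑ k, x j * (∑ b, ∑ c, r c b * E j b * E k c) * y k =
      ∑ c, ∑ b, r c b * (∑ k, y k * E k c) * (∑ j, x j * E j b) := by
  calc ∑ j, ∑ k, x j * (∑ b, ∑ c, r c b * E j b * E k c) * y k
      = ∑ j, ∑ k, ∑ c, ∑ b, r c b * (y k * E k c) * (x j * E j b) := by
        refine Finset.sum_congr rfl fun j _ => Finset.sum_congr rfl fun k _ => ?_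
        rw [Finset.sum_comm (s := Finset.univ) (t := Finset.univ)
          (f := fun c b => r c b * (y k * E k c) * (x j * E j b)),
          Finset.mul_sum, Finset.sum_mul]
        refine Finset.sum_congr rfl fun b _ => ?_
        rw [Finset.mul_sum, Finset.sum_mul]
        exact Finset.sum_congr rfl fun c _ => by ring
    _ = ∑ c, ∑ b, ∑ j, ∑ k, r c b * (y k * E k c) * (x j * E j b) := by
        have e1 : ∀ j, ∑ k, ∑ c, ∑ b, r c b * (y k * E k c) * (x j * E j b) =
            ∑ c, ∑ b, ∑ k, r c b * (y k * E k c) * (x j * E j b) := by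
          intro j
          rw [Finset.sum_comm]
          exact Finset.sum_congr rfl fun c _ => Finset.sum_comm
        rw [Finset.sum_congr rfl fun j _ => e1 j, Finset.sum_comm]
        exact Finset.sum_congr rfl fun c _ => Finset.sum_comm
    _ = _ := by
        refine Finset.sum_congr rfl fun c _ => Finset.sum_congr rfl fun b _ => ?_
        rw [Finset.mul_sum]
        refine Finset.sum_congr rfl fun j _ => ?_
        rw [Finset.mul_sum, Finset.sum_mul]

/-- the two potentials have the same trace, for every metric -/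
theorem trQ {S : Type*} [CommRing S] [Algebra ℝ S] (F : Frame 4 S) :
    (Q F (e0 F) (cK S)).trace = (Q F F.tan (fun i => (cK S i)ᵀ)).trace := by
  have h := CC_trace4 F
  rw [Q0_val, Q1_val]
  have h2 : (RicM F).trace = ∑ i, F.Ric i i := rfl
  rw [h2, ← h, Matrix.trace]
  simp only [Fin.sum_univ_four, Matrix.diag_apply]
  simp
  ring

section ric

variable {n : ℕ} {M : Type*} [TopologicalSpace M] [ChartedSpace (EuclideanSpace ℝ (Fin n)) M]
  [IsManifold 𝓘(ℝ, EuclideanSpace ℝ (Fin n)) ∞ M]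
  [RiemannianBundle (fun x : M => TangentSpace 𝓘(ℝ, EuclideanSpace ℝ (Fin n)) x)]
  [IsContMDiffRiemannianBundle 𝓘(ℝ, EuclideanSpace ℝ (Fin n)) ∞ (EuclideanSpace ℝ (Fin n))
      (fun x : M => TangentSpace 𝓘(ℝ, EuclideanSpace ℝ (Fin n)) x)]

local notation "𝔼" => EuclideanSpace ℝ (Fin n)
local notation "𝓘E" => 𝓘(ℝ, EuclideanSpace ℝ (Fin n))

variable {z : M} {e : Fin n → EuclideanSpace ℝ (Fin n) → EuclideanSpace ℝ (Fin n)}
  (h : ONF (chartMetric n M z) (chartAt (EuclideanSpace ℝ (Fin n)) z).target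
      (chartCentre n M z) e)
  {X Y : (p : M) → TangentSpace 𝓘(ℝ, EuclideanSpace ℝ (Fin n)) p}

include h in
theorem dCh_eq (hX : ∀ q, VSm n ∞ X q) (b : Fin n) :
    dCh z z (X z) b = ∑ k, ev (vg z e X k) * e k (chartCentre n M z) b := by
  have h1 := eq_sum_ev_vg h hX
  have h2 : dCh z z (X z) = ∑ k, ev (vg z e X k) • e k (chartCentre n M z) := by
    have h3 := congrArg (dCh z z) h1
    rw [h3]
    have h4 := map_sum (dCh z z) (fun k => (ev (vg z e X k) • h.bv k : 𝔼)) Finset.univ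
    refine h4.trans (Finset.sum_congr rfl fun k _ => ?_)
    exact (map_smul (dCh z z) (ev (vg z e X k)) (h.bv k : 𝔼)).trans
      (congrArg (fun v : 𝔼 => ev (vg z e X k) • v) (h.dCh_bv k))
  rw [h2, WithLp.ofLp_sum, Finset.sum_apply]
  rfl

/-- the Ricci form in a frame -/
theorem ric_fields (hX : ∀ q, VSm n ∞ X q) (hY : ∀ q, VSm n ∞ Y q) :
    ∑ j, ∑ k, ev (vg z e X j) * ev (h.frameOf.Ric j k) * ev (vg z e Y k) =
      mRic n z (Y z) (X z) := by
  rw [mRic]
  simp only [dCh_eq h hX, dCh_eq h hY, h.Ric_germ, ev_germ]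
  exact sum4 (fun c b => ricci (chartMetric n M z) (chartCentre n M z) c b)
    (fun j b => e j (chartCentre n M z) b) _ _

variable {κ : Type} [Fintype κ] (s : PF n M κ)

/-- a potential with germ `J Ric Jᵀ` is the Ricci form -/
theorem pot_ric {q : κ → κ → M → ℝ} (hsm : ∀ x y, ContMDiff 𝓘E 𝓘(ℝ, ℝ) ∞ (q x y))
    {R : Matrix (Fin n) (Fin n) (SG (chartCentre n M z))} (hR : ∀ j k, R j k = h.frameOf.Ric j k)
    (hg : (Matrix.of fun x y => fg z (q x y)) = tanJ s z e * R * (tanJ s z e)ᵀ) (x y : κ) :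
    q x y z = mRic n z (s.s y z) (s.s x z) := by
  have h1 := congrFun (congrFun hg x) y
  have h2 := congrArg ev h1
  rw [Matrix.of_apply, ev_fg (hsm x y)] at h2
  rw [h2, ← ric_fields h (s.sm x) (s.sm y), Matrix.mul_apply, map_sum, Finset.sum_comm]
  refine Finset.sum_congr rfl fun k _ => ?_
  rw [map_mul, Matrix.mul_apply, map_sum, Finset.sum_mul]
  refine Finset.sum_congr rfl fun j _ => ?_
  rw [map_mul, hR]
  rfl

end ric

end Crest.Agent.R249.Idx789
end
end

-- ▼ part R249/Idx9_789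
section

/-!
# R249, IDX (helper789), part 9: assembly of `IdxStmt`

`GRP s vol` : the Clifford pair of `D : ℝ ⊕ Λ⁻ → T` for the volume form `vol` (805);
`idxOr_of` : `WeakStmt` and the existence of the pairs give `IdxOr`.
-/

set_option autoImplicit false
set_option maxSynthPendingDepth 3
set_option linter.unusedSectionVars false

open Filter Topology Set Bundle Manifold Matrix MeasureTheory
open scoped ContDiff ENNReal NNReal
open Crest.GeometryTopology.CoordMetric Crest.GeometryTopology.ChartCurvature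
  Crest.GeometryTopology.PointedLimit
open Crest.Agent.R202.Tens Crest.Agent.R247.Bo84 Crest.Agent.R249.FrmB_285 Crest.Agent.R249.Vf281
  Crest.Agent.R249.Tz1_805 Crest.Agent.R249.Tz2_805 Crest.Agent.R249.Tz805
open Crest.Agent.R249.Fr129 Crest.Agent.R249.C2_198
open Crest.Agent.R249.Sg129 (ONF SG ev ev_germ)
open Crest.Agent.R249.Tv57 Crest.Agent.R249.HK9_714 Crest.Agent.R249.OriD_285
open Crest.Agent.R249.Vol_285 Crest.Agent.R249.D1Def104

noncomputable section

namespace Crest.Agent.R249.Idx789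

section grp

variable {M : Type*} [TopologicalSpace M] [ChartedSpace (EuclideanSpace ℝ (Fin 4)) M]
  [IsManifold 𝓘(ℝ, EuclideanSpace ℝ (Fin 4)) ∞ M]
  [RiemannianBundle (fun x : M => TangentSpace 𝓘(ℝ, EuclideanSpace ℝ (Fin 4)) x)]
  [IsContMDiffRiemannianBundle 𝓘(ℝ, EuclideanSpace ℝ (Fin 4)) ∞ (EuclideanSpace ℝ (Fin 4))
      (fun x : M => TangentSpace 𝓘(ℝ, EuclideanSpace ℝ (Fin 4)) x)]

variable {κ : Type} [Fintype κ]

/-- the Clifford pair of `D : ℝ ⊕ Λ⁻ → T` -/
structure GRP (s : PF 4 M κ)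
    (vol : (z : M) → (Fin 4 → TangentSpace 𝓘(ℝ, EuclideanSpace ℝ (Fin 4)) z) → ℝ) where
  P : CPair 4 M κ (Option (κ × κ)) κ
  hs : P.s = s
  hD1 : P.D1 = tanB s
  hcc : P.cc = ccR s vol
  hp0 : ∀ z, P.D0.p none none z = 1
  hp1 : ∀ y z, P.D0.p (some y) none z = 0
  hW0 : ∀ x z, P.D0.W x none z = 0
  cl : ∀ (z : M) (e : Fin 4 → EuclideanSpace ℝ (Fin 4) → EuclideanSpace ℝ (Fin 4))
    (h : ONF (chartMetric 4 M z) (chartAt (EuclideanSpace ℝ (Fin 4)) z).target
      (chartCentre 4 M z) e), VolAt vol z e →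
    ∃ j0, CLoc P.D0 P.D1 P.cc h (e0 h.frameOf) h.frameOf.tan (cK _) j0 (tanJ s z e)

end grp

section closed

variable {M : Type} [MetricSpace M] [ChartedSpace (EuclideanSpace ℝ (Fin 4)) M]
  [IsManifold (𝓡 4) ∞ M]
  [RiemannianBundle (fun p : M => TangentSpace (𝓡 4) p)]
  [IsContMDiffRiemannianBundle (𝓡 4) ∞ (EuclideanSpace ℝ (Fin 4)) (fun p : M => TangentSpace (𝓡 4) p)]
  [IsRiemannianManifold (𝓡 4) M] [MeasurableSpace M] [BorelSpace M]
  [SecondCountableTopology M] [Nonempty M]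

variable {κ : Type} [Fintype κ] {s : PF 4 M κ}
  {vol vol' : (z : M) → (Fin 4 → TangentSpace 𝓘(ℝ, EuclideanSpace ℝ (Fin 4)) z) → ℝ}
  (G : GRP s vol) {T : ToF 4 M} {D0 : Dat 4 M (Option (κ × κ))} {D1 : Dat 4 M κ}
  (W : WD T G.P D0 D1)

namespace GRP

include W

theorem rank (hv : IsVol vol) (z : M) : ∑ a, D0.p a a z = 4 ∧ ∑ a, D1.p a a z = 4 := by
  obtain ⟨e, h, hve⟩ := hv z
  obtain ⟨j0, C⟩ := G.cl z e h hve
  have h0 := W.rank0 C
  have h1 := W.rank1 C
  simp only [Fintype.card_fin] at h0 h1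
  exact ⟨by exact_mod_cast h0, by exact_mod_cast h1⟩

theorem tr (hv : IsVol vol) (z : M) : ∑ a, ∑ b, D0.Q a b z * D0.p a b z =
    ∑ a, ∑ b, D1.Q a b z * D1.p a b z := by
  obtain ⟨e, h, hve⟩ := hv z
  obtain ⟨j0, C⟩ := G.cl z e h hve
  rw [W.tr0 C, W.tr1 C, trQ]

/-- the density is bounded by `6 |Rm|²` -/
theorem dn_le (hv : IsVol vol) (z : M) {b : ℝ}
    (hb : ∀ u v w y : EuclideanSpace ℝ (Fin 4),
        |Alg1_104.Rm (chartMetric 4 M z) (chartCentre 4 M z) u v w y| ≤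
          b * Real.sqrt (bil (chartMetric 4 M z (chartCentre 4 M z)) u u) *
            Real.sqrt (bil (chartMetric 4 M z (chartCentre 4 M z)) v v) *
            Real.sqrt (bil (chartMetric 4 M z (chartCentre 4 M z)) w w) *
            Real.sqrt (bil (chartMetric 4 M z (chartCentre 4 M z)) y y)) :
    |dn D0 z - dn D1 z| ≤ 6 * b ^ 2 := by
  obtain ⟨e, h, hve⟩ := hv z
  obtain ⟨j0, C⟩ := G.cl z e h hve
  rw [W.dn0 C, W.dn1 C]
  exact dens_le h.frameOf ev (ONF_Rm_le h hb)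

/-- the potential of the tangent bundle is the Ricci form -/
theorem pot (hv : IsVol vol) (a b : κ) (z : M) : D1.Q a b z = mRic 4 z (s.s b z) (s.s a z) := by
  obtain ⟨e, h, hve⟩ := hv z
  obtain ⟨j0, C⟩ := G.cl z e h hve
  refine pot_ric h s D1.smQ (R := Q h.frameOf h.frameOf.tan fun i => (cK _ i)ᵀ) (fun j k => ?_)
    (W.germ1 C) a b
  rw [Q1_val]
  rfl

theorem sec1 {w : κ → M → ℝ} (hs : D1.Sec w) (a : κ) (z : M) :
    ∑ b, tanP s a b z * w b z = w a z := by
  have h1 := hs a z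
  rw [W.p1, G.hD1] at h1
  exact h1

theorem sec1' {w : κ → M → ℝ} (hs : ∀ a z, ∑ b, tanP s a b z * w b z = w a z) : D1.Sec w := by
  intro a z
  rw [W.p1, G.hD1]
  exact hs a z

end GRP

/-- **`ker B = 0`** on a closed simply connected manifold -/
theorem kerB_eq_zero [CompactSpace M] [SimplyConnectedSpace M] (G : GRP s vol) (G' : GRP s vol')
    (hv : IsVol vol) (hv' : IsVol vol') (hvv : ∀ z X, vol' z X = - vol z X)
    {T : ToF 4 M} {D0 D0' : Dat 4 M (Option (κ × κ))} {D1 D1' : Dat 4 M κ}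
    (W : WD T G.P D0 D1) (W' : WD T G'.P D0' D1') (R : DPair D0 D1) (R' : DPair D0' D1')
    (hR : R.B = opB G.P.D1 G.P.cc) (hR' : R'.B = opB G'.P.D1 G'.P.cc)
    (w : κ → M → ℝ) (hw : SmV (n := 4) w) (hs : D1.Sec w) (h0 : ∀ y z, R.B w y z = 0)
    (a : κ) (z : M) : w a z = 0 := by
  have hs1 := G.sec1 W hs
  have hs' : D1'.Sec w := G'.sec1' W' hs1
  have hX : ∀ a b z, D1.X a b z = D1'.X a b z := by
    intro a b z
    rw [W.X1, W'.X1, G.hD1, G'.hD1]
  have hQ : ∀ a b z, D1.Q a b z = D1'.Q a b z := by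
    intro a b z
    rw [G.pot W hv, G'.pot W' hv']
  have h1 := opB_other R R' hX hQ hw hs hs' h0
  rw [hR, G.hcc] at h0
  rw [hR', G'.hcc] at h1
  refine eq_zero_of_opB s hvv (D := G.P.D1) (D' := G'.P.D1) ?_ ?_ hw hs1 h0 h1 a z
  · intro a b z
    rw [G.hD1]
    rfl
  · intro a b z
    rw [G'.hD1]
    rfl

/-- the constant section -/
def cst (κ : Type) (M : Type) (x : Option (κ × κ)) (_ : M) : ℝ :=
  match x with
  | none => 1
  | some _ => 0

theorem sm_cst : SmV (n := 4) (cst κ M) := by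
  intro a
  have : cst κ M a = fun _ => cst κ M a (Classical.arbitrary M) := by
    funext z
    cases a <;> rfl
  rw [this]
  exact contMDiff_const

theorem sum_cst {f : Option (κ × κ) → ℝ} (z : M) : ∑ b, f b * cst κ M b z = f none := by
  rw [Fintype.sum_option]
  simp [cst]

theorem GRP.sec_cst (W : WD T G.P D0 D1) : D0.Sec (cst κ M) := by
  intro a z
  rw [sum_cst z, W.p0]
  cases a with
  | none => exact G.hp0 z
  | some y => exact G.hp1 y z

theorem GRP.A_cst (x : κ) (z : M) : opA G.P.D0 G.P.cc (cst κ M) x z = 0 := by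
  rw [opA]
  refine Finset.sum_eq_zero fun y _ => ?_
  have h1 : G.P.D0.cv (cst κ M) y z = 0 := by
    rw [Bun.cv]
    have e1 : mgrad 4 (cst κ M y) z = 0 := by
      have : cst κ M y = fun _ => cst κ M y z := by
        funext q
        cases y <;> rfl
      rw [this]
      exact mgrad_const _
    have e2 : ∑ b, cst κ M b z • G.P.D0.W y b z = 0 := by
      rw [Fintype.sum_option]
      simp [cst, G.hW0]
    rw [e1, e2, add_zero]
  rw [h1, inner_zero_left]

/-- the index inequality -/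
theorem idx_le [CompactSpace M] [SimplyConnectedSpace M] (G : GRP s vol) (G' : GRP s vol')
    (hv : IsVol vol) (hv' : IsVol vol') (hvv : ∀ z X, vol' z X = - vol z X)
    {T : ToF 4 M} {D0 D0' : Dat 4 M (Option (κ × κ))} {D1 D1' : Dat 4 M κ}
    (W : WD T G.P D0 D1) (W' : WD T G'.P D0' D1') (R : DPair D0 D1) (R' : DPair D0' D1')
    (hA : R.A = opA G.P.D0 G.P.cc) (hR : R.B = opB G.P.D1 G.P.cc)
    (hR' : R'.B = opB G'.P.D1 G'.P.cc) {B : M → ℝ} (hB : Continuous B)
    (hb : ∀ z : M, ∀ u v w y : EuclideanSpace ℝ (Fin 4),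
        |Alg1_104.Rm (chartMetric 4 M z) (chartCentre 4 M z) u v w y| ≤
          B z * Real.sqrt (bil (chartMetric 4 M z (chartCentre 4 M z)) u u) *
            Real.sqrt (bil (chartMetric 4 M z (chartCentre 4 M z)) v v) *
            Real.sqrt (bil (chartMetric 4 M z (chartCentre 4 M z)) w w) *
            Real.sqrt (bil (chartMetric 4 M z (chartCentre 4 M z)) y y)) :
    1 ≤ ENNReal.ofReal 6 * ∫⁻ p, ENNReal.ofReal (B p ^ 2) ∂(μHE[4] : Measure M) := by
  have := Crest.Agent.R247.Ms322.isLocallyFiniteMeasure 4 M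
  have z0 : M := Classical.arbitrary M
  have hr0 := G.rank W hv
  obtain ⟨d0, d1, K0, K1, hi, hE⟩ := index_D HK286.chartStmt R
    (W.exists_ne0 z0 (by rw [(hr0 z0).1]; norm_num))
    (by
      obtain ⟨a, -, ha⟩ := Finset.exists_ne_zero_of_sum_ne_zero
        (show ∑ a, D1.p a a z0 ≠ 0 by rw [(hr0 z0).2]; norm_num)
      exact ⟨z0, a, ha⟩)
    (fun z => by rw [(hr0 z).1, (hr0 z).2]) (fun z => G.tr W hv z)
  have hd1 : d1 = 0 := kerD_zero K1 fun w hw hs h0 =>
    kerB_eq_zero G G' hv hv' hvv W W' R R' hR hR' w hw hs h0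
  have hd0 : 1 ≤ d0 := by
    refine kerD_pos K0 (u := cst κ M) sm_cst (G.sec_cst W) (fun y z => ?_) (a := none) (z := z0) ?_
    · rw [hA]
      exact G.A_cst y z
    · exact one_ne_zero
  have hd : (1:ℝ) ≤ ∫ z, (dn D0 z - dn D1 z) ∂(μHE[4] : Measure M) := by
    rw [← hE, hd1]
    have : (1:ℝ) ≤ d0 := by exact_mod_cast hd0
    simpa using this
  have hBi : Integrable (fun z => B z ^ 2) (μHE[4] : Measure M) :=
    (hB.pow 2).integrable_of_hasCompactSupport (HasCompactSupport.of_compactSpace _)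
  have h2 : (1:ℝ) ≤ 6 * ∫ z, B z ^ 2 ∂(μHE[4] : Measure M) := by
    refine hd.trans ?_
    rw [← integral_const_mul]
    exact integral_mono hi (hBi.const_mul 6) fun z => (le_abs_self _).trans
      (G.dn_le W hv z (hb z))
  rw [← ofReal_integral_eq_lintegral_ofReal hBi (Eventually.of_forall fun z => sq_nonneg _),
    ← ENNReal.ofReal_mul (by norm_num), ← ENNReal.ofReal_one]
  exact ENNReal.ofReal_le_ofReal h2

end closed

/-- existence of the pair (805) -/
def GRPStmt : Prop :=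
  ∀ (M : Type) [MetricSpace M] [ChartedSpace (EuclideanSpace ℝ (Fin 4)) M]
    [IsManifold 𝓘(ℝ, EuclideanSpace ℝ (Fin 4)) ∞ M] [CompactSpace M] [SimplyConnectedSpace M]
    [RiemannianBundle (fun x : M => TangentSpace 𝓘(ℝ, EuclideanSpace ℝ (Fin 4)) x)]
    [IsContMDiffRiemannianBundle 𝓘(ℝ, EuclideanSpace ℝ (Fin 4)) ∞ (EuclideanSpace ℝ (Fin 4))
      (fun x : M => TangentSpace 𝓘(ℝ, EuclideanSpace ℝ (Fin 4)) x)]
    [IsRiemannianManifold 𝓘(ℝ, EuclideanSpace ℝ (Fin 4)) M]
    (κ : Type) [Fintype κ] (s : PF 4 M κ)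
    (vol : (z : M) → (Fin 4 → TangentSpace 𝓘(ℝ, EuclideanSpace ℝ (Fin 4)) z) → ℝ),
    IsVol vol → Nonempty (GRP s vol)

/-- **`IdxStmt` from `WeakStmt` and the pairs** -/
theorem idxOr_of (hW : ∀ (M : Type) [MetricSpace M] [ChartedSpace (EuclideanSpace ℝ (Fin 4)) M]
    [IsManifold (𝓡 4) ∞ M] [RiemannianBundle (fun p : M => TangentSpace (𝓡 4) p)]
    [IsContMDiffRiemannianBundle (𝓡 4) ∞ (EuclideanSpace ℝ (Fin 4))
      (fun p : M => TangentSpace (𝓡 4) p)]
    [IsRiemannianManifold (𝓡 4) M] [MeasurableSpace M] [BorelSpace M]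
    [SecondCountableTopology M] [Nonempty M] [CompactSpace M], WeakStmt 4 M)
    (hG : GRPStmt) : IdxOr := by
  refine ⟨6, by norm_num, ?_⟩
  intro M i1 i2 i3 i4 i5 i6 i7 i8 i9 i10 B hO hB hb
  have : Nonempty M := inferInstance
  have : SecondCountableTopology M := inferInstance
  obtain ⟨m, ⟨s⟩⟩ := exists_PF (n := 4) (M := M)
  obtain ⟨G⟩ := hG M (Fin m × Fin 4) s vol4 (isVol_vol4 hO)
  obtain ⟨G'⟩ := hG M (Fin m × Fin 4) s (fun q v => - vol4 q v) (isVol_neg hO)
  obtain ⟨D0, D1, R, a1, a2, a3, a4, a5, a6, a7, a8⟩ := hW M (Tof352.tof 4 M) _ _ _ G.P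
  obtain ⟨D0', D1', R', b1, b2, b3, b4, b5, b6, b7, b8⟩ := hW M (Tof352.tof 4 M) _ _ _ G'.P
  exact idx_le G G' (isVol_vol4 hO) (isVol_neg hO) (fun _ _ => rfl)
    ⟨a1, a2, a3, a4, a5, a6⟩ ⟨b1, b2, b3, b4, b5, b6⟩ R R' a7 a8 b8 hB hb

theorem idxStmt_of (hW : ∀ (M : Type) [MetricSpace M] [ChartedSpace (EuclideanSpace ℝ (Fin 4)) M]
    [IsManifold (𝓡 4) ∞ M] [RiemannianBundle (fun p : M => TangentSpace (𝓡 4) p)]
    [IsContMDiffRiemannianBundle (𝓡 4) ∞ (EuclideanSpace ℝ (Fin 4))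
      (fun p : M => TangentSpace (𝓡 4) p)]
    [IsRiemannianManifold (𝓡 4) M] [MeasurableSpace M] [BorelSpace M]
    [SecondCountableTopology M] [Nonempty M] [CompactSpace M], WeakStmt 4 M)
    (hG : GRPStmt) : IdxStmt := idxStmt_of_or (idxOr_of hW hG)

end Crest.Agent.R249.Idx789
end
private theorem rz_30ee1e3cf7 : type_of% @_root_.Crest.Agent.R249.Idx789.cst.eq_1 := @_root_.Crest.Agent.R249.Idx789.cst.eq_1 -- L158
end

-- ▼ part R249/Kend_493
section

/-!
Row 249, part C3.8 / C3.9 (helper493): if `tr A²` and `tr A³` have zero derivative (as germs) in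
an Einstein frame with `lam > 0`, then `∇A = 0` (`NN = 0` as germs).
-/

set_option autoImplicit false
set_option linter.unusedSimpArgs false
set_option linter.unusedSectionVars false

namespace Crest.Agent.R249.Kend_493

open Finset Matrix Crest.Agent.R249.Fr129 Crest.Agent.R249.Fr129.Frame

section ring

variable {S : Type*} [CommRing S] [Algebra ℝ S] (F : Frame 4 S)

/-- covariant derivative of a section of `Λ⁺ ⊗ Λ⁺` -/
def cm (k : Fin 4) (M : Matrix (Fin 3) (Fin 3) S) : Matrix (Fin 3) (Fin 3) S :=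
  M.map (F.D k) + F.sdc k * M - M * F.sdc k

lemma map_mul' (k : Fin 4) (M N : Matrix (Fin 3) (Fin 3) S) :
    (M * N).map (F.D k) = M.map (F.D k) * N + M * N.map (F.D k) := by
  ext i j
  simp only [Matrix.map_apply, Matrix.mul_apply, Matrix.add_apply, map_sum, D_mul, sum_add_distrib]

lemma cm_mul (k : Fin 4) (M N : Matrix (Fin 3) (Fin 3) S) :
    cm F k (M * N) = cm F k M * N + M * cm F k N := by
  rw [cm, cm, cm, map_mul']
  noncomm_ring





lemma D_trace (k : Fin 4) (M : Matrix (Fin 3) (Fin 3) S) :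
    F.D k M.trace = (cm F k M).trace := by
  rw [cm, Matrix.trace_sub, Matrix.trace_add, Matrix.trace_mul_comm M]
  simp [Matrix.trace, map_sum]

/-- the curvature block as a matrix -/
noncomputable def AM : Matrix (Fin 3) (Fin 3) S := Matrix.of F.AA
/-- its covariant derivative -/
noncomputable def TM (k : Fin 4) : Matrix (Fin 3) (Fin 3) S := Matrix.of (F.NN k)
/-- its Laplacian -/
noncomputable def LM : Matrix (Fin 3) (Fin 3) S := Matrix.of F.LL


lemma cm_AM (k : Fin 4) : cm F k (AM F) = TM F k := by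
  ext c d
  change F.D k (F.AA c d) + (F.sdc k * AM F) c d - (AM F * F.sdc k) c d = F.NN k c d
  rw [F.NN_eq, Matrix.mul_apply, Matrix.mul_apply]
  have : ∑ j, F.sdc k d j * F.AA c j = - ∑ j, AM F c j * F.sdc k j d := by
    rw [← sum_neg_distrib]
    refine sum_congr rfl fun j _ => ?_
    rw [F.sdc_skew k d j]; change - F.sdc k j d * F.AA c j = -(F.AA c j * F.sdc k j d); ring
  rw [this]
  change _ + ∑ j, F.sdc k c j * F.AA j d - _ = _
  ring

lemma cm_TM (k i : Fin 4) : cm F k (TM F i) = Matrix.of (F.HH k i) + ∑ m, F.w k i m • TM F m := by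
  ext c d
  rw [Matrix.add_apply, Matrix.sum_apply]
  change F.D k (F.NN i c d) + (F.sdc k * TM F i) c d - (TM F i * F.sdc k) c d
    = F.HH k i c d + ∑ m, F.w k i m * F.NN m c d
  rw [F.HH_eq, Matrix.mul_apply, Matrix.mul_apply, Fin.sum_univ_three, Fin.sum_univ_three,
    Fin.sum_univ_four]
  have e := fun j => F.sdc_skew k j d
  change F.D k (F.NN i c d) + (F.sdc k c 0 * F.NN i 0 d + F.sdc k c 1 * F.NN i 1 d
    + F.sdc k c 2 * F.NN i 2 d) - (F.NN i c 0 * F.sdc k 0 d + F.NN i c 1 * F.sdc k 1 d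
    + F.NN i c 2 * F.sdc k 2 d) = _
  rw [e 0, e 1, e 2]
  ring

lemma LM_eq : LM F = ∑ k, (cm F k (TM F k) - ∑ m, F.w k k m • TM F m) := by
  have : ∀ k, cm F k (TM F k) - ∑ m, F.w k k m • TM F m = Matrix.of (F.HH k k) := by
    intro k; rw [cm_TM]; abel
  simp only [this]
  ext c d
  rw [Matrix.sum_apply, Fin.sum_univ_four]
  exact F.LL_eq c d

variable {F}




/-- derivative of `tr A²` -/
lemma D_p2 (k : Fin 4) : F.D k (AM F * AM F).trace = 2 * (AM F * TM F k).trace := by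
  rw [D_trace, cm_mul, cm_AM, Matrix.trace_add, Matrix.trace_mul_comm (TM F k)]; ring

/-- derivative of `tr A³` -/
lemma D_p3 (k : Fin 4) : F.D k (AM F * AM F * AM F).trace = 3 * (AM F * AM F * TM F k).trace := by
  rw [D_trace, cm_mul, cm_mul, cm_AM, Matrix.trace_add, Matrix.add_mul, Matrix.trace_add]
  have h1 : (TM F k * AM F * AM F).trace = (AM F * AM F * TM F k).trace := by
    rw [Matrix.mul_assoc, Matrix.trace_mul_comm]
  have h2 : (AM F * TM F k * AM F).trace = (AM F * AM F * TM F k).trace := by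
    rw [Matrix.trace_mul_comm, ← Matrix.mul_assoc]
  rw [h1, h2]; ring

lemma eq_zero_of_three {y : S} (h : 3 * y = 0) : y = 0 := by
  have h3 := three_third (S := S)
  calc y = (3 * third) * y := by rw [h3, one_mul]
    _ = third * (3 * y) := by ring
    _ = 0 := by rw [h, mul_zero]

section
variable (h2 : ∀ k, F.D k (AM F * AM F).trace = 0)
include h2

lemma q2 (k : Fin 4) : (AM F * TM F k).trace = 0 :=
  eq_zero_of_two (by rw [← D_p2]; exact h2 k)

/-- `tr(A L) + ∑ tr(T_k T_k) = 0`. -/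
lemma e3 : (AM F * LM F).trace + ∑ k, (TM F k * TM F k).trace = 0 := by
  rw [LM_eq, Matrix.mul_sum, Matrix.trace_sum, ← sum_add_distrib]
  refine sum_eq_zero fun k _ => ?_
  have h := congrArg (F.D k) (q2 h2 k)
  rw [D_trace, cm_mul, cm_AM, Matrix.trace_add, map_zero] at h
  rw [Matrix.mul_sub, Matrix.trace_sub, Matrix.mul_sum, Matrix.trace_sum]
  have : ∑ m, (AM F * F.w k k m • TM F m).trace = 0 := by
    refine sum_eq_zero fun m _ => ?_
    rw [Matrix.mul_smul, Matrix.trace_smul, q2 h2, smul_zero]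
  rw [this, sub_zero, add_comm]
  exact h

end

section
variable (h3 : ∀ k, F.D k (AM F * AM F * AM F).trace = 0)
include h3

lemma q3 (k : Fin 4) : (AM F * AM F * TM F k).trace = 0 :=
  eq_zero_of_three (by rw [← D_p3]; exact h3 k)

/-- `tr(A² L) + 2 ∑ tr(A T_k T_k) = 0`. -/
lemma e4 : (AM F * AM F * LM F).trace + 2 * ∑ k, (AM F * TM F k * TM F k).trace = 0 := by
  rw [LM_eq, Matrix.mul_sum, Matrix.trace_sum, mul_sum, ← sum_add_distrib]
  refine sum_eq_zero fun k _ => ?_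
  have h := congrArg (F.D k) (q3 h3 k)
  rw [D_trace, cm_mul, cm_mul, cm_AM, Matrix.add_mul, Matrix.trace_add, Matrix.trace_add,
    map_zero] at h
  rw [Matrix.mul_sub, Matrix.trace_sub, Matrix.mul_sum, Matrix.trace_sum]
  have : ∑ m, (AM F * AM F * F.w k k m • TM F m).trace = 0 := by
    refine sum_eq_zero fun m _ => ?_
    rw [Matrix.mul_smul, Matrix.trace_smul, q3 h3, smul_zero]
  rw [this, sub_zero]
  have h1 : (TM F k * AM F * TM F k).trace = (AM F * TM F k * TM F k).trace := by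
    rw [Matrix.mul_assoc, Matrix.trace_mul_comm]
  rw [h1] at h
  linear_combination h

end


/-! ### Clifford triple -/



variable {lam : S}



end ring

section germs

open scoped ContDiff Topology
open Filter Set
open Crest.GeometryTopology.CoordMetric Crest.GeometryTopology.ChartCurvature
open Crest.Agent.R202.Tens Crest.Agent.R247.Bo84 Crest.Agent.R249.Sg129

local notation "E4" => EuclideanSpace ℝ (Fin 4)

variable {x : EuclideanSpace ℝ (Fin 4)}

/-- a sum of squares of germs vanishes only if every germ vanishes -/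
lemma sg_sq {ι : Type*} [Fintype ι] (f : ι → SG x) (h : ∑ i, f i * f i = 0) (i : ι) : f i = 0 := by
  choose φ hφ e using fun i => exists_germ (f i)
  have h1 : germ (fun y => ∑ i, φ i y * φ i y)
      (ContDiffAt.sum fun i _ => (hφ i).mul (hφ i)) = germ (fun _ => 0) contDiffAt_const := by
    rw [← germ_sum Finset.univ (f := fun i y => φ i y * φ i y) (fun i => (hφ i).mul (hφ i)),
      germ_zero, ← h]
    exact Finset.sum_congr rfl fun i _ => by rw [← germ_mul (hφ i) (hφ i), e]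
  rw [← e i, ← germ_zero]
  refine germ_eq ?_
  filter_upwards [germ_eq_iff.1 h1] with y hy
  have := (Finset.sum_eq_zero_iff_of_nonneg (fun i _ => mul_self_nonneg (φ i y))).1 hy i
    (Finset.mem_univ i)
  exact mul_self_eq_zero.1 this


variable {g : MetricField 4} {U : Set (EuclideanSpace ℝ (Fin 4))}
  {e : Fin 4 → EuclideanSpace ℝ (Fin 4) → EuclideanSpace ℝ (Fin 4)}



end germs

end Crest.Agent.R249.Kend_493
end

-- ▼ part R249/Idx10_789

/-!
# R249, COUNT (helper789): `dim ker D ≥ 7` for the complex twisted by `Λ⁻`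

`count_of` : closed oriented Einstein `M⁴`, `lam > 0`, `sec ≥ 0`, `W⁻ = 0`.
-/

set_option autoImplicit false
set_option maxSynthPendingDepth 3
set_option linter.unusedSectionVars false

open Filter Topology Set Bundle Manifold Matrix MeasureTheory
open scoped ContDiff ENNReal NNReal
open Crest.GeometryTopology.CoordMetric Crest.GeometryTopology.ChartCurvature
  Crest.GeometryTopology.PointedLimit
open Crest.Agent.R202.Tens Crest.Agent.R247.Bo84 Crest.Agent.R249.FrmB_285 Crest.Agent.R249.Vf281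
  Crest.Agent.R249.Tz1_805 Crest.Agent.R249.Tz2_805 Crest.Agent.R249.Tz805
open Crest.Agent.R249.Fr129 Crest.Agent.R249.C2_198
open Crest.Agent.R249.Sg129 (ONF SG ev ev_germ)
open Crest.Agent.R249.Tv57 Crest.Agent.R249.HK9_714 Crest.Agent.R249.OriD_285
open Crest.Agent.R249.Vol_285 Crest.Agent.R249.D1Def104
open Crest.Agent.R249.FrmC_285 Crest.Agent.R249.FrmD_285 Crest.Agent.R249.Trw_285

noncomputable section

namespace Crest.Agent.R249.Idx789

section ring

variable {S : Type*} [CommRing S] [Algebra ℝ S] (F : Frame 4 S) (ε : S →ₐ[ℝ] ℝ)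

theorem three_map (S : Type*) [CommRing S] [Algebra ℝ S] (lam : ℝ) :
    (3 : S) * algebraMap ℝ S (lam / 3) = algebraMap ℝ S lam := by
  have : (3 : S) = algebraMap ℝ S 3 := (map_ofNat (algebraMap ℝ S) 3).symm
  rw [this, ← map_mul]
  congr 1
  ring

theorem third_map (S : Type*) [CommRing S] [Algebra ℝ S] (lam : ℝ) :
    (Frame.third : S) * algebraMap ℝ S lam = algebraMap ℝ S (lam / 3) := by
  rw [Frame.third, ← map_mul]
  congr 1
  ring

/-- `|A|² = |W⁺|² + lam²/3` -/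
theorem ev_AA2 {lam : ℝ} (hE : F.Einstein (algebraMap ℝ S lam)) :
    ε (AA2 F) = ε (F.qq (algebraMap ℝ S lam)) + lam ^ 2 / 3 := by
  have h1 := (F.Wr_sym0 ε hE).tr
  have h2 : ε (AA2 F) = ∑ c, ∑ d, ε (F.AA c d) ^ 2 := by
    simp only [AA2, map_sum, map_pow]
  rw [F.ev_qq ε, h2]
  simp only [F.AA_eq_W ε hE, FrM129.nsq, Fin.sum_univ_three, Fin.isValue,
    reduceIte, Fin.reduceEq, add_zero, zero_ne_one, one_ne_zero]
  linear_combination (2 * lam / 3) * h1

theorem CC2_scal {c : S} (hC : CScal F c) : CC2 F = 3 * c ^ 2 := by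
  simp only [CC2, hC _ _, Fin.sum_univ_three]
  simp
  ring

/-- the pinching: `|W⁺|² ≤ 24 (lam/3)²` when `W⁻ = 0` -/
theorem qq_le {lam : ℝ} (hE : F.Einstein (algebraMap ℝ S lam))
    (hK : ∀ x y : Fin 4 → ℝ,
      0 ≤ ∑ i, ∑ j, ∑ k, ∑ l, ε (F.Rm i j k l) * x i * y j * y k * x l)
    (h0 : ε (F.flip.qq (algebraMap ℝ S lam)) = 0) :
    ε (F.qq (algebraMap ℝ S lam)) ≤ 24 * (lam / 3) ^ 2 := by
  have h1 := F.pinch_pt ε hE hK
  rw [h0, Real.sqrt_zero, add_zero] at h1
  have h2 : 0 ≤ ε (F.qq (algebraMap ℝ S lam)) := by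
    rw [F.ev_qq ε]
    exact FrM129.nsq_nonneg _
  have h3 : (Real.sqrt 6 * (2 * lam / 3)) ^ 2 = 24 * (lam / 3) ^ 2 := by
    rw [mul_pow, Real.sq_sqrt (by norm_num)]; ring
  rw [← h3, ← Real.sq_sqrt h2]
  exact pow_le_pow_left₀ (Real.sqrt_nonneg _) h1 2

/-- the density of the untwisted complex -/
theorem densR {c : ℝ} (hE : F.Einstein (3 * algebraMap ℝ S c)) (hC : CScal F (algebraMap ℝ S c)) :
    1 / (32 * Real.pi ^ 2) * ε (Q F (e0 F) (cK S) * Q F (e0 F) (cK S)).trace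
        + 1 / (192 * Real.pi ^ 2) * ε (tO F (e0 F))
      - (1 / (32 * Real.pi ^ 2) *
          ε (Q F F.tan (fun i => (cK S i)ᵀ) * Q F F.tan (fun i => (cK S i)ᵀ)).trace
        + 1 / (192 * Real.pi ^ 2) * ε (tO F F.tan)) =
      12 * c ^ 2 / (32 * Real.pi ^ 2) + 4 * (ε (AA2 F) - 3 * c ^ 2) / (192 * Real.pi ^ 2) := by
  have h1 := congrArg ε (strQ_R hE hC).2
  have h2 := congrArg ε (strO_R F hE)
  rw [map_sub] at h1 h2
  rw [CC2_scal F hC] at h2
  simp only [map_mul, map_pow, map_ofNat, map_sub, AlgHom.commutes, Algebra.algebraMap_self,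
    RingHom.id_apply] at h1 h2
  linear_combination (1 / (32 * Real.pi ^ 2)) * h1 + (1 / (192 * Real.pi ^ 2)) * h2

/-- the density of the twisted complex -/
theorem densL {c : ℝ} (hE : F.Einstein (3 * algebraMap ℝ S c)) (hC : CScal F (algebraMap ℝ S c)) :
    1 / (32 * Real.pi ^ 2) * ε (Q F (Frame.tens (e0 F) (asc F)) (tw (cK S))
          * Q F (Frame.tens (e0 F) (asc F)) (tw (cK S))).trace
        + 1 / (192 * Real.pi ^ 2) * ε (tO F (Frame.tens (e0 F) (asc F)))
      - (1 / (32 * Real.pi ^ 2) *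
          ε (Q F (Frame.tens F.tan (asc F)) (fun i => (tw (ι := Fin 3) (cK S) i)ᵀ)
            * Q F (Frame.tens F.tan (asc F)) (fun i => (tw (ι := Fin 3) (cK S) i)ᵀ)).trace
        + 1 / (192 * Real.pi ^ 2) * ε (tO F (Frame.tens F.tan (asc F)))) =
      132 * c ^ 2 / (32 * Real.pi ^ 2) + 12 * (ε (AA2 F) - 3 * c ^ 2) / (192 * Real.pi ^ 2) := by
  have h1 := congrArg ε (strQ_L hE hC).2
  have h2 := congrArg ε (strO_L F hE)
  rw [map_sub] at h1 h2
  rw [CC2_scal F hC] at h2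
  simp only [map_mul, map_pow, map_ofNat, map_sub, AlgHom.commutes, Algebra.algebraMap_self,
    RingHom.id_apply] at h1 h2
  linear_combination (1 / (32 * Real.pi ^ 2)) * h1 + (1 / (192 * Real.pi ^ 2)) * h2

end ring

/-- `|W|² = 0` as a germ: `W = 0` -/
theorem WW_zero {x : EuclideanSpace ℝ (Fin 4)} (F : Frame 4 (SG x)) (l : SG x)
    (h0 : F.qq l = 0) (c d : Fin 3) : F.WW l c d = 0 := by
  have h3 : ∑ i : Fin 3 × Fin 3, F.WW l i.1 i.2 * F.WW l i.1 i.2 = 0 := by
    rw [Fintype.sum_prod_type]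
    exact h0
  exact Kend_493.sg_sq (fun i : Fin 3 × Fin 3 => F.WW l i.1 i.2) h3 (c, d)

section grp

variable {M : Type*} [TopologicalSpace M] [ChartedSpace (EuclideanSpace ℝ (Fin 4)) M]
  [IsManifold 𝓘(ℝ, EuclideanSpace ℝ (Fin 4)) ∞ M]
  [RiemannianBundle (fun x : M => TangentSpace 𝓘(ℝ, EuclideanSpace ℝ (Fin 4)) x)]
  [IsContMDiffRiemannianBundle 𝓘(ℝ, EuclideanSpace ℝ (Fin 4)) ∞ (EuclideanSpace ℝ (Fin 4))
      (fun x : M => TangentSpace 𝓘(ℝ, EuclideanSpace ℝ (Fin 4)) x)]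

variable {κ : Type} [Fintype κ]

/-- the Clifford pair of `D : (ℝ ⊕ Λ⁻) ⊗ Λ⁻ → T ⊗ Λ⁻` -/
structure GLP (κ : Type) [Fintype κ]
    (vol : (z : M) → (Fin 4 → TangentSpace 𝓘(ℝ, EuclideanSpace ℝ (Fin 4)) z) → ℝ) where
  P : CPair 4 M κ (Option (κ × κ) × (κ × κ)) (κ × (κ × κ))
  cl : ∀ (z : M) (e : Fin 4 → EuclideanSpace ℝ (Fin 4) → EuclideanSpace ℝ (Fin 4))
    (h : ONF (chartMetric 4 M z) (chartAt (EuclideanSpace ℝ (Fin 4)) z).target
      (chartCentre 4 M z) e), VolAt vol z e →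
    ∃ j0 j1, CLoc P.D0 P.D1 P.cc h (Frame.tens (e0 h.frameOf) (asc h.frameOf))
      (Frame.tens h.frameOf.tan (asc h.frameOf)) (tw (cK _)) j0 j1

/-- the frame data at a point of a positive Einstein manifold with `sec ≥ 0`, `W⁻ = 0` -/
theorem exists_pt (hO : Oriented 4 M) {lam : ℝ} (hE : IsEinsteinWith 4 M lam)
    (hK : HasNonnegSectionalCurvature 4 M) {Ψ : T4 → ℝ} (hΨ : QF lam true Ψ)
    (hq : ∀ x : M, mInv Ψ x = 0) (z : M) :
    ∃ e, ∃ h : ONF (chartMetric 4 M z) (chartAt (EuclideanSpace ℝ (Fin 4)) z).target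
      (chartCentre 4 M z) e, VolAt vol4 z e ∧
      h.frameOf.Einstein (3 * algebraMap ℝ _ (lam / 3)) ∧
      CScal h.frameOf (algebraMap ℝ _ (lam / 3)) ∧
      ev (AA2 h.frameOf) ≤ 27 * (lam / 3) ^ 2 := by
  obtain ⟨e, h, hpos⟩ := exists_onf (n := 4) z (centre_mem (n := 4) z)
  have hF : h.frameOf.Einstein (algebraMap ℝ (SG _) lam) := by
    refine h.einstein ?_
    filter_upwards [(chartAt _ z).open_target.mem_nhds (centre_mem (n := 4) z)] with y hy
    exact fun i j => einstein_chart hE z hy i j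
  have e3 := three_map (SG (chartCentre 4 M z)) lam
  have h0 : h.frameOf.flip.qq (algebraMap ℝ (SG _) lam) = 0 := by
    have h1 := hΨ.eq h (Kg4_285.cd_Phi hΨ.smooth h)
    rw [Kg4_285.germ_const hO hΨ.inv hΨ.smooth h hpos hq, map_zero] at h1
    exact h1
  have h2 := WW_zero h.frameOf.flip _ h0
  have h4 := cscal_of_WW h.frameOf h2
  rw [third_map] at h4
  refine ⟨e, h, volAt_vol4 hO hpos, by rw [e3]; exact hF, h4, ?_⟩
  have h5 := qq_le h.frameOf ev hF (fun a b => h.nonneg (hK z) a b) (by rw [h0, map_zero])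
  rw [ev_AA2 h.frameOf ev hF]
  linarith

end grp

section closed

variable {M : Type} [MetricSpace M] [ChartedSpace (EuclideanSpace ℝ (Fin 4)) M]
  [IsManifold (𝓡 4) ∞ M]
  [RiemannianBundle (fun p : M => TangentSpace (𝓡 4) p)]
  [IsContMDiffRiemannianBundle (𝓡 4) ∞ (EuclideanSpace ℝ (Fin 4)) (fun p : M => TangentSpace (𝓡 4) p)]
  [IsRiemannianManifold (𝓡 4) M] [MeasurableSpace M] [BorelSpace M]
  [SecondCountableTopology M] [Nonempty M]

variable {κ : Type} [Fintype κ] {s : PF 4 M κ}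
  {vol : (z : M) → (Fin 4 → TangentSpace 𝓘(ℝ, EuclideanSpace ℝ (Fin 4)) z) → ℝ}
  {T : ToF 4 M}
  {z : M} {e : Fin 4 → EuclideanSpace ℝ (Fin 4) → EuclideanSpace ℝ (Fin 4)}
  (h : ONF (chartMetric 4 M z) (chartAt (EuclideanSpace ℝ (Fin 4)) z).target
      (chartCentre 4 M z) e)

section R

variable {D0 : Dat 4 M (Option (κ × κ))} {D1 : Dat 4 M κ} (G : GRP s vol) (W : WD T G.P D0 D1)
include W

theorem GRP.dn_eq (hve : VolAt vol z e) {c : ℝ}
    (hE : h.frameOf.Einstein (3 * algebraMap ℝ _ c)) (hC : CScal h.frameOf (algebraMap ℝ _ c)) :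
    dn D0 z - dn D1 z =
      12 * c ^ 2 / (32 * Real.pi ^ 2) + 4 * (ev (AA2 h.frameOf) - 3 * c ^ 2) / (192 * Real.pi ^ 2) := by
  obtain ⟨j0, C⟩ := G.cl z e h hve
  rw [W.dn0 C, W.dn1 C]
  exact densR h.frameOf ev hE hC

/-- the potential of the tangent bundle of an Einstein manifold -/
theorem GRP.pot_ein (hve : VolAt vol z e) {lam : ℝ}
    (hE : h.frameOf.Einstein (algebraMap ℝ _ lam)) (a b : κ) :
    D1.Q a b z = lam * D1.p a b z := by
  obtain ⟨j0, C⟩ := G.cl z e h hve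
  have h1 := W.germ1 C
  rw [Q1_ein hE, Matrix.mul_smul, Matrix.mul_one, Matrix.smul_mul, C.l1.jjt] at h1
  have h2 := congrArg ev (congrFun (congrFun h1 a) b)
  rw [Matrix.smul_apply, Matrix.of_apply, Matrix.of_apply, smul_eq_mul, map_mul,
    AlgHom.commutes, Tz805.ev_fg (D1.smQ a b), Tz805.ev_fg (G.P.D1.smp a b)] at h2
  rw [h2, W.p1]
  rfl

end R

section L

variable {E0 : Dat 4 M (Option (κ × κ) × (κ × κ))} {E1 : Dat 4 M (κ × (κ × κ))} (L : GLP κ vol)
  (W : WD T L.P E0 E1)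
include W

theorem GLP.dn_eq (hve : VolAt vol z e) {c : ℝ}
    (hE : h.frameOf.Einstein (3 * algebraMap ℝ _ c)) (hC : CScal h.frameOf (algebraMap ℝ _ c)) :
    dn E0 z - dn E1 z =
      132 * c ^ 2 / (32 * Real.pi ^ 2) +
        12 * (ev (AA2 h.frameOf) - 3 * c ^ 2) / (192 * Real.pi ^ 2) := by
  obtain ⟨j0, j1, C⟩ := L.cl z e h hve
  rw [W.dn0 C, W.dn1 C]
  exact densL h.frameOf ev hE hC

include h in
theorem GLP.rank (hve : VolAt vol z e) : ∑ a, E0.p a a z = 12 ∧ ∑ a, E1.p a a z = 12 := by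
  obtain ⟨j0, j1, C⟩ := L.cl z e h hve
  have h0 := W.rank0 C
  have h1 := W.rank1 C
  simp only [Fintype.card_prod, Fintype.card_fin] at h0 h1
  constructor
  · rw [h0]; norm_num
  · rw [h1]; norm_num

theorem GLP.tr (hve : VolAt vol z e) {c : ℝ}
    (hE : h.frameOf.Einstein (3 * algebraMap ℝ _ c)) (hC : CScal h.frameOf (algebraMap ℝ _ c)) :
    ∑ a, ∑ b, E0.Q a b z * E0.p a b z = ∑ a, ∑ b, E1.Q a b z * E1.p a b z := by
  obtain ⟨j0, j1, C⟩ := L.cl z e h hve
  rw [W.tr0 C, W.tr1 C, (strQ_L hE hC).1]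

end L

/-- **COUNT**: `7 ≤ dim ker D` for `G = Λ⁻` -/
theorem count_of [CompactSpace M] [ConnectedSpace M] (hO : Oriented 4 M) {lam : ℝ}
    (hlam : 0 < lam) (hE : IsEinsteinWith 4 M lam) (hK : HasNonnegSectionalCurvature 4 M)
    {Ψ : T4 → ℝ} (hΨ : QF lam true Ψ) (hq : ∀ x : M, mInv Ψ x = 0)
    (G : GRP s (vol4 (M := M))) (L : GLP κ (vol4 (M := M)))
    {D0 : Dat 4 M (Option (κ × κ))} {D1 : Dat 4 M κ} (W : WD T G.P D0 D1) (R : DPair D0 D1)
    (hA : R.A = opA G.P.D0 G.P.cc)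
    {E0 : Dat 4 M (Option (κ × κ) × (κ × κ))} {E1 : Dat 4 M (κ × (κ × κ))}
    (WL : WD T L.P E0 E1) (RL : DPair E0 E1) :
    ∃ N, 7 ≤ N ∧ Nonempty (KerD E0 RL.A N) := by
  have := Crest.Agent.R247.Ms322.isLocallyFiniteMeasure 4 M
  have z0 : M := Classical.arbitrary M
  have hv := isVol_vol4 hO
  have key := exists_pt hO hE hK hΨ hq
  have hr0 := G.rank W hv
  obtain ⟨d0, d1, K0, K1, hi, hEq⟩ := index_D HK286.chartStmt R
    (W.exists_ne0 z0 (by rw [(hr0 z0).1]; norm_num))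
    (by
      obtain ⟨a, -, ha⟩ := Finset.exists_ne_zero_of_sum_ne_zero
        (show ∑ a, D1.p a a z0 ≠ 0 by rw [(hr0 z0).2]; norm_num)
      exact ⟨z0, a, ha⟩)
    (fun z => by rw [(hr0 z).1, (hr0 z).2]) (fun z => G.tr W hv z)
  have hQ : ∀ a b z, D1.Q a b z = lam * D1.p a b z := by
    intro a b z
    obtain ⟨e, h, hve, hF, -, -⟩ := key z
    rw [three_map] at hF
    exact G.pot_ein h W hve hF a b
  have hd1 : d1 = 0 := kerD_zero K1 fun w hw hs h0 => ker_pos R hlam hQ hw hs h0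
  have hd0 : 1 ≤ d0 := by
    refine kerD_pos K0 (u := cst κ M) sm_cst (G.sec_cst W) (fun y z => ?_) (a := none) (z := z0) ?_
    · rw [hA]
      exact G.A_cst y z
    · exact one_ne_zero
  have hrL : ∀ z, ∑ a, E0.p a a z = 12 ∧ ∑ a, E1.p a a z = 12 := by
    intro z
    obtain ⟨e, h, hve, -⟩ := key z
    exact L.rank h WL hve
  obtain ⟨e0, e1, KL0, KL1, hiL, hEqL⟩ := index_D HK286.chartStmt RL
    (WL.exists_ne0 z0 (by rw [(hrL z0).1]; norm_num))
    (by
      obtain ⟨a, -, ha⟩ := Finset.exists_ne_zero_of_sum_ne_zero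
        (show ∑ a, E1.p a a z0 ≠ 0 by rw [(hrL z0).2]; norm_num)
      exact ⟨z0, a, ha⟩)
    (fun z => by rw [(hrL z).1, (hrL z).2]) (fun z => by
      obtain ⟨e, h, hve, hF, hC, -⟩ := key z
      exact L.tr h WL hve hF hC)
  refine ⟨e0, ?_, ⟨KL0⟩⟩
  have hpi : 0 < Real.pi ^ 2 := by positivity
  refine count (v := (lam / 3) ^ 2 / (16 * Real.pi ^ 2)) hi
    (fL := fun z => dn E0 z - dn E1 z) ?_ ?_ hd0 ?_ hEqL
  · intro z
    obtain ⟨e, h, hve, hF, hC, -⟩ := key z
    rw [L.dn_eq h WL hve hF hC, G.dn_eq h W hve hF hC]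
    field_simp
    ring
  · intro z
    obtain ⟨e, h, hve, hF, hC, hA2⟩ := key z
    rw [G.dn_eq h W hve hF hC]
    have e1 : 14 * ((lam / 3) ^ 2 / (16 * Real.pi ^ 2)) -
        (12 * (lam / 3) ^ 2 / (32 * Real.pi ^ 2) +
          4 * (ev (AA2 h.frameOf) - 3 * (lam / 3) ^ 2) / (192 * Real.pi ^ 2)) =
        4 * (27 * (lam / 3) ^ 2 - ev (AA2 h.frameOf)) / (192 * Real.pi ^ 2) := by
      field_simp
      ring
    have e2 : 0 ≤ 4 * (27 * (lam / 3) ^ 2 - ev (AA2 h.frameOf)) / (192 * Real.pi ^ 2) := by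
      apply div_nonneg <;> nlinarith
    linarith
  · rw [← hEq, hd1]
    simp

end closed

end Crest.Agent.R249.Idx789
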