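import Crest.Agent.R249.Idx10_789
import Crest.Agent.R249.Tz6_805
import Crest.Agent.R249.WkD_352

/-!
# R249, IDX/COUNT (helper789), part 11: **`IdxStmt`**, and `7 ≤ dim ker` for 805's pairs
-/

set_option autoImplicit false
set_option maxSynthPendingDepth 3
set_option linter.unusedSectionVars false

open Filter Topology Set Bundle Manifold Matrix MeasureTheory
open scoped ContDiff ENNReal NNReal
open Crest.GeometryTopology.CoordMetric Crest.GeometryTopology.ChartCurvature
  Crest.GeometryTopology.PointedLimit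
open Crest.Agent.R202.Tens Crest.Agent.R247.Bo84 Crest.Agent.R249.FrmB_285 Crest.Agent.R249.Vf281
  Crest.Agent.R249.Tz1_805 Crest.Agent.R249.Tz2_805 Crest.Agent.R249.Tz805
open Crest.Agent.R249.Fr129 Crest.Agent.R249.C2_198
open Crest.Agent.R249.Sg129 (ONF SG ev ev_germ)
open Crest.Agent.R249.Tv57 Crest.Agent.R249.HK9_714 Crest.Agent.R249.OriD_285
open Crest.Agent.R249.Vol_285 Crest.Agent.R249.D1Def104 Crest.Agent.R249.Tt286
open Crest.Agent.R249.FrmC_285 Crest.Agent.R249.FrmD_285 Crest.Agent.R249.Trw_285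

noncomputable section

namespace Crest.Agent.R249.Idx789

section grp

variable {M : Type*} [TopologicalSpace M] [ChartedSpace (EuclideanSpace ℝ (Fin 4)) M]
  [IsManifold 𝓘(ℝ, EuclideanSpace ℝ (Fin 4)) ∞ M]
  [RiemannianBundle (fun x : M => TangentSpace 𝓘(ℝ, EuclideanSpace ℝ (Fin 4)) x)]
  [IsContMDiffRiemannianBundle 𝓘(ℝ, EuclideanSpace ℝ (Fin 4)) ∞ (EuclideanSpace ℝ (Fin 4))
      (fun x : M => TangentSpace 𝓘(ℝ, EuclideanSpace ℝ (Fin 4)) x)]

variable {κ : Type} [Fintype κ] (s : PF 4 M κ)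
  {vol : (z : M) → (Fin 4 → TangentSpace 𝓘(ℝ, EuclideanSpace ℝ (Fin 4)) z) → ℝ} (hv : IsVol vol)

/-- 805's pair for `G = ℝ` -/
def grp : GRP s vol where
  P := pairR s hv
  hs := rfl
  hD1 := rfl
  hcc := rfl
  hp0 z := by
    change (bopt (lamB s hv)).p none none z = 1
    simp
  hp1 y z := by
    change (bopt (lamB s hv)).p (some y) none z = 0
    simp
  hW0 x z := by
    change (bopt (lamB s hv)).W x none z = 0
    simp
  cl z e h hz := ⟨_, cloc_R s hv h hz⟩


end grp

theorem grpStmt : GRPStmt := by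
  intro M _ _ _ _ _ _ _ _ κ _ s vol hv
  exact ⟨grp s hv⟩

/-- **`IdxStmt`** -/
theorem idxStmt : IdxStmt := idxStmt_of (fun _ => Wk352.weakStmt) grpStmt

end Crest.Agent.R249.Idx789
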