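import Crest.Agent.R249.Vf2_281
import Crest.Agent.R249.Grn5_324
import Crest.Agent.R275.ZC1_352
import Mathlib.MeasureTheory.Integral.CurveIntegral.Poincare
import Crest.Agent.R249.DicB_129
import Crest.Agent.R249.Vf4_281
import Crest.Agent.R249.TzM_805

-- ▼ part R249/Idx4_789
section

/-!
# R249, IDX (helper789), part 4: `b₁ = 0` for tangent vector fields

* `exists_prim_field` : a smooth vector field with symmetric `∇Y` on a simply connected manifold is a
  gradient;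
* `field_eq_zero` : if moreover `M` is closed and `div Y = 0`, then `Y = 0`.
-/

set_option autoImplicit false
set_option maxSynthPendingDepth 3
set_option linter.unusedSectionVars false

open Bundle Set MeasureTheory Manifold Filter Metric
open scoped ContDiff Topology
open Crest.GeometryTopology.CoordMetric Crest.GeometryTopology.ChartCurvature
  Crest.GeometryTopology.PointedLimit
open Crest.Agent.R202.Tens Crest.Agent.R247.Bo84 Crest.Agent.R249.Vf281
open Crest.Agent.R275.ZC352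

noncomputable section

namespace Crest.Agent.R249.Idx789

section prim

variable {n : ℕ} {M : Type} [TopologicalSpace M] [ChartedSpace (EuclideanSpace ℝ (Fin n)) M]
  [IsManifold 𝓘(ℝ, EuclideanSpace ℝ (Fin n)) ∞ M]
  [RiemannianBundle (fun x : M => TangentSpace 𝓘(ℝ, EuclideanSpace ℝ (Fin n)) x)]
  [IsContMDiffRiemannianBundle 𝓘(ℝ, EuclideanSpace ℝ (Fin n)) ∞ (EuclideanSpace ℝ (Fin n))
      (fun x : M => TangentSpace 𝓘(ℝ, EuclideanSpace ℝ (Fin n)) x)]

local notation "𝔼" => EuclideanSpace ℝ (Fin n)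
local notation "𝓘E" => 𝓘(ℝ, EuclideanSpace ℝ (Fin n))

/-- the one-form of a vector field in the chart at `x₀` -/
def omf (x₀ : M) (Y : (p : M) → TangentSpace 𝓘(ℝ, EuclideanSpace ℝ (Fin n)) p)
    (b : EuclideanSpace ℝ (Fin n)) : EuclideanSpace ℝ (Fin n) →L[ℝ] ℝ :=
  bil (chartMetric n M x₀ b) (vCh n x₀ Y b)

variable {Y : (p : M) → TangentSpace 𝓘(ℝ, EuclideanSpace ℝ (Fin n)) p}

theorem contDiffAt_Gf' {g : MetricField n} {U : Set 𝔼} (hg : IsRiemannianOn g U) {x : 𝔼}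
    (hx : x ∈ U) : ContDiffAt ℝ ∞ (fun y => bil (g y)) x := by
  have h : ContDiffOn ℝ ∞ (fun y => bil (g y)) U := by
    have : ContDiffOn ℝ ∞ (fun y => ∑ i, ∑ j, g y i j • eij i j) U :=
      ContDiffOn.sum fun i _ => ContDiffOn.sum fun j _ =>
        (hg.contDiffOn i j).smul contDiffOn_const
    exact this
  exact h.contDiffAt (hg.isOpen.mem_nhds hx)

theorem contDiffOn_omf (x₀ : M) (hY : ∀ z, VSm n ∞ Y z) :
    ContDiffOn ℝ ∞ (omf x₀ Y) (chartAt 𝔼 x₀).target := by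
  intro b hb
  have hg := isRiemannianOn_chartMetric (n := n) x₀
  have h1 : ContDiffAt ℝ ∞ (vCh n x₀ Y) b := VSm.chart le_rfl hb (hY _)
  have h2 : ContDiffAt ℝ ∞ (fun b => bil (chartMetric n M x₀ b)) b := contDiffAt_Gf' hg hb
  exact (h2.clm_apply h1).contDiffWithinAt

theorem fderiv_omf (x₀ : M) (hY : ∀ z, VSm n ∞ Y z) {b : 𝔼} (hb : b ∈ (chartAt 𝔼 x₀).target)
    (v w : 𝔼) : fderiv ℝ (omf x₀ Y) b v w =
      bil (chartMetric n M x₀ b) (cov (chartMetric n M x₀) (vCh n x₀ Y) b v) w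
        + bil (chartMetric n M x₀ b) (vCh n x₀ Y b) (Gam (chartMetric n M x₀) b v w) := by
  have hg := isRiemannianOn_chartMetric (n := n) x₀
  have h1 : DifferentiableAt ℝ (vCh n x₀ Y) b :=
    (VSm.chart le_rfl hb (hY _)).differentiableAt (by simp)
  have h3 : DifferentiableAt ℝ (omf x₀ Y) b :=
    ((contDiffOn_omf x₀ hY).contDiffAt ((chartAt 𝔼 x₀).open_target.mem_nhds hb)).differentiableAt
      (by simp)
  have h2 := fderiv_bil hg hb h1 (differentiableAt_const w) v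
  have h4 : fderiv ℝ (fun y => (omf x₀ Y y) w) b v = fderiv ℝ (omf x₀ Y) b v w := by
    rw [fderiv_clm_apply h3 (differentiableAt_const w)]
    simp
  have h5 : cov (chartMetric n M x₀) (fun _ => w) b v = Gam (chartMetric n M x₀) b v w := by
    rw [cov_apply, fderiv_fun_const]
    simp
  rw [h5] at h2
  rw [← h4]
  exact h2

theorem omf_symm (x₀ : M) (hY : ∀ z, VSm n ∞ Y z)
    (hc : ∀ (z : M) (v w : TangentSpace 𝓘E z),
      (inner ℝ (mCov n Y z v) w : ℝ) = inner ℝ (mCov n Y z w) v)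
    {b : 𝔼} (hb : b ∈ (chartAt 𝔼 x₀).target) (v w : 𝔼) :
    fderiv ℝ (omf x₀ Y) b v w = fderiv ℝ (omf x₀ Y) b w v := by
  have hg := isRiemannianOn_chartMetric (n := n) x₀
  rw [fderiv_omf x₀ hY hb, fderiv_omf x₀ hY hb, Gam_symm hg hb w v]
  congr 1
  have h1 := hc ((chartAt 𝔼 x₀).symm b) (dSy x₀ b v) (dSy x₀ b w)
  have hY1 : VSm n 1 Y ((chartAt 𝔼 x₀).symm b) := (hY _).of_le (by simp)
  rw [mCov_chart hb hY1, mCov_chart hb hY1, ← bil_chartMetric, ← bil_chartMetric] at h1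
  exact h1

/-- local primitive -/
theorem exists_locf (x₀ : M) (hY : ∀ z, VSm n ∞ Y z)
    (hc : ∀ (z : M) (v w : TangentSpace 𝓘E z),
      (inner ℝ (mCov n Y z v) w : ℝ) = inner ℝ (mCov n Y z w) v) :
    ∃ (r : ℝ) (F : 𝔼 → ℝ), 0 < r ∧ ball (chartAt 𝔼 x₀ x₀) r ⊆ (chartAt 𝔼 x₀).target ∧
      ∀ b ∈ ball (chartAt 𝔼 x₀ x₀) r, HasFDerivAt F (omf x₀ Y b) b := by
  obtain ⟨r, hr, hsub⟩ := Metric.isOpen_iff.1 (chartAt 𝔼 x₀).open_target _
    ((chartAt 𝔼 x₀).map_source (mem_chart_source 𝔼 x₀))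
  have hd : DifferentiableOn ℝ (omf x₀ Y) (ball (chartAt 𝔼 x₀ x₀) r) := fun z hz =>
    (((contDiffOn_omf x₀ hY).contDiffAt
      ((chartAt 𝔼 x₀).open_target.mem_nhds (hsub hz))).differentiableAt
        (by simp)).differentiableWithinAt
  obtain ⟨F, hF⟩ := (convex_ball (chartAt 𝔼 x₀ x₀) r).exists_forall_hasFDerivAt_of_fderiv_symmetric
    (𝕜 := ℝ) isOpen_ball hd (fun z hz v w => omf_symm x₀ hY hc (hsub hz) v w)
  exact ⟨r, F, hr, hsub, hF⟩

theorem smooth_of_hasFDerivAt_omf (x₀ : M) (hY : ∀ z, VSm n ∞ Y z) {F : 𝔼 → ℝ} {U : Set 𝔼}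
    (hU : IsOpen U) (hUt : U ⊆ (chartAt 𝔼 x₀).target)
    (hF : ∀ b ∈ U, HasFDerivAt F (omf x₀ Y b) b) : ContDiffOn ℝ ∞ F U := by
  rw [contDiffOn_infty_iff_fderiv_of_isOpen hU]
  refine ⟨fun b hb => (hF b hb).differentiableAt.differentiableWithinAt, ?_⟩
  exact ((contDiffOn_omf x₀ hY).mono hUt).congr fun b hb => (hF b hb).fderiv

theorem mgrad_prim (x₀ : M) {F : 𝔼 → ℝ} {z : M} (hz : z ∈ (chartAt 𝔼 x₀).source)
    (hF : HasFDerivAt F (omf x₀ Y (chartAt 𝔼 x₀ z)) (chartAt 𝔼 x₀ z)) :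
    mgrad n (fun y => F (chartAt 𝔼 x₀ y)) z = Y z := by
  have hb := (chartAt 𝔼 x₀).map_source hz
  have hg := isRiemannianOn_chartMetric (n := n) x₀
  have h1 : inCh n x₀ (fun y => F (chartAt 𝔼 x₀ y)) =ᶠ[𝓝 (chartAt 𝔼 x₀ z)] F := by
    filter_upwards [(chartAt 𝔼 x₀).open_target.mem_nhds hb] with b hb'
    rw [inCh, (chartAt 𝔼 x₀).right_inv hb']
  have h2 : grad (chartMetric n M x₀) (inCh n x₀ (fun y => F (chartAt 𝔼 x₀ y)))
      (chartAt 𝔼 x₀ z) = vCh n x₀ Y (chartAt 𝔼 x₀ z) := by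
    have key : ∀ w, bil (chartMetric n M x₀ (chartAt 𝔼 x₀ z))
        (grad (chartMetric n M x₀) (inCh n x₀ (fun y => F (chartAt 𝔼 x₀ y))) (chartAt 𝔼 x₀ z)
          - vCh n x₀ Y (chartAt 𝔼 x₀ z)) w = 0 := by
      intro w
      rw [map_sub, sub_apply, bil_grad hg hb, h1.fderiv_eq, hF.fderiv]
      exact sub_self _
    by_contra hne
    exact (bil_pos hg hb (sub_ne_zero.2 hne)).ne' (key _)
  have h3 := mgrad_chart (n := n) (f := fun y => F (chartAt 𝔼 x₀ y)) hb
  rw [(chartAt 𝔼 x₀).left_inv hz] at h3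
  rw [h3, h2, dSy_vCh hb, (chartAt 𝔼 x₀).left_inv hz]

theorem mfderiv_zero_of_mgrad {f : M → ℝ} {p : M} (h : mgrad n f p = 0)
    (v : TangentSpace 𝓘E p) : (mfderiv 𝓘E 𝓘(ℝ, ℝ) f p v : ℝ) = (0:ℝ) := by
  rw [← inner_mgrad, h, inner_zero_left]

/-- a function with vanishing gradient near `z` is constant near `z` -/
theorem const_of_mgrad {f : M → ℝ} {z : M}
    (hf : ∀ᶠ y in 𝓝 z, MDifferentiableAt 𝓘E 𝓘(ℝ, ℝ) f y ∧ mgrad n f y = 0) :
    ∀ᶠ y in 𝓝 z, f y = f z := by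
  have hz := mem_chart_source 𝔼 z
  have hat := (chartAt 𝔼 z).map_source hz
  have h1 : ∀ᶠ b in 𝓝 (chartAt 𝔼 z z), b ∈ (chartAt 𝔼 z).target ∧
      MDifferentiableAt 𝓘E 𝓘(ℝ, ℝ) f ((chartAt 𝔼 z).symm b) ∧
      mgrad n f ((chartAt 𝔼 z).symm b) = 0 := by
    have hc : ContinuousAt (chartAt 𝔼 z).symm (chartAt 𝔼 z z) :=
      (chartAt 𝔼 z).continuousAt_symm hat
    have h2 := hc.eventually (p := fun y => MDifferentiableAt 𝓘E 𝓘(ℝ, ℝ) f y ∧
      mgrad n f y = 0) (by rw [(chartAt 𝔼 z).left_inv hz]; exact hf)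
    filter_upwards [h2, (chartAt 𝔼 z).open_target.mem_nhds hat] with b hb hb'
    exact ⟨hb', hb⟩
  obtain ⟨r, hr, hball⟩ := Metric.eventually_nhds_iff_ball.1 h1
  have hd : ∀ b ∈ ball (chartAt 𝔼 z z) r, DifferentiableAt ℝ (inCh n z f) b := by
    intro b hb
    obtain ⟨hbt, hm, -⟩ := hball b hb
    have h3 : MDifferentiableAt 𝓘E 𝓘E (chartAt 𝔼 z).symm b :=
      (mdifferentiable_chart (I := 𝓘E) z).mdifferentiableAt_symm hbt
    exact (hm.comp b h3).differentiableAt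
  have h0 : ∀ b ∈ ball (chartAt 𝔼 z z) r, fderiv ℝ (inCh n z f) b = 0 := by
    intro b hb
    obtain ⟨hbt, -, hG⟩ := hball b hb
    ext v
    exact (fderiv_inCh hbt v).trans (mfderiv_zero_of_mgrad hG _)
  have hcst : ∀ b ∈ ball (chartAt 𝔼 z z) r, inCh n z f b = inCh n z f (chartAt 𝔼 z z) := by
    intro b hb
    refine (convex_ball (chartAt 𝔼 z z) r).is_const_of_fderivWithin_eq_zero (𝕜 := ℝ)
      (fun w hw => (hd w hw).differentiableWithinAt) ?_ hb (mem_ball_self hr)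
    intro w hw
    rw [fderivWithin_of_isOpen isOpen_ball hw]
    exact h0 w hw
  have h5 : ∀ᶠ y in 𝓝 z, chartAt 𝔼 z y ∈ ball (chartAt 𝔼 z z) r :=
    ((chartAt 𝔼 z).continuousAt hz).eventually (ball_mem_nhds _ hr)
  filter_upwards [h5, (chartAt 𝔼 z).open_source.mem_nhds hz] with y hy hy'
  have h6 := hcst _ hy
  rwa [inCh, inCh, (chartAt 𝔼 z).left_inv hy', (chartAt 𝔼 z).left_inv hz] at h6

/-- **fields with symmetric covariant derivative on a simply connected manifold are gradients.** -/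
theorem exists_prim_field [SimplyConnectedSpace M] (hY : ∀ z, VSm n ∞ Y z)
    (hc : ∀ (z : M) (v w : TangentSpace 𝓘E z),
      (inner ℝ (mCov n Y z v) w : ℝ) = inner ℝ (mCov n Y z w) v) :
    ∃ f : M → ℝ, ContMDiff 𝓘E 𝓘(ℝ, ℝ) ∞ f ∧ ∀ z, mgrad n f z = Y z := by
  choose r F hr hsub hF using fun x₀ : M => exists_locf (n := n) x₀ hY hc
  let U : M → Set M := fun i => (chartAt 𝔼 i).source ∩ chartAt 𝔼 i ⁻¹' ball (chartAt 𝔼 i i) (r i)
  have hU : ∀ i, IsOpen (U i) := fun i =>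
    (chartAt 𝔼 i).isOpen_inter_preimage isOpen_ball
  have hUi : ∀ i, i ∈ U i := fun i => ⟨mem_chart_source 𝔼 i, mem_ball_self (hr i)⟩
  have hsm : ∀ i, ∀ z ∈ U i, ContMDiffAt 𝓘E 𝓘(ℝ, ℝ) ∞ (fun y => F i (chartAt 𝔼 i y)) z := by
    intro i z hz
    have h1 : ContDiffAt ℝ ∞ (F i) (chartAt 𝔼 i z) :=
      (smooth_of_hasFDerivAt_omf i hY isOpen_ball (hsub i) (hF i)).contDiffAt
        (isOpen_ball.mem_nhds hz.2)
    have h2 : ContMDiffAt 𝓘E 𝓘E ∞ (chartAt 𝔼 i) z :=
      (contMDiffOn_chart (I := 𝓘E) (x := i)).contMDiffAt ((chartAt 𝔼 i).open_source.mem_nhds hz.1)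
    exact h1.contMDiffAt.comp z h2
  have hGr : ∀ i, ∀ z ∈ U i, mgrad n (fun y => F i (chartAt 𝔼 i y)) z = Y z := fun i z hz =>
    mgrad_prim i hz.1 (hF i _ hz.2)
  have hloc : ∀ i j, ∀ z ∈ U i, z ∈ U j → ∀ᶠ w in 𝓝 z,
      F i (chartAt 𝔼 i w) - F j (chartAt 𝔼 j w) = F i (chartAt 𝔼 i z) - F j (chartAt 𝔼 j z) := by
    intro i j z hi hj
    refine const_of_mgrad (n := n) (f := fun w => F i (chartAt 𝔼 i w) - F j (chartAt 𝔼 j w)) ?_
    filter_upwards [(hU i).mem_nhds hi, (hU j).mem_nhds hj] with y hy hy'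
    have h1 := (hsm i y hy).mdifferentiableAt (by simp)
    have h2 := (hsm j y hy').mdifferentiableAt (by simp)
    refine ⟨h1.sub h2, ?_⟩
    symm
    refine mgrad_unique fun v => ?_
    have h3 := mfderiv_sub (I := 𝓘E) h1 h2
    have h4 := congrArg (fun L => L v) h3
    refine Eq.trans ?_ h4.symm
    have h5 := inner_mgrad (n := n) (fun y => F i (chartAt 𝔼 i y)) y v
    have h6 := inner_mgrad (n := n) (fun y => F j (chartAt 𝔼 j y)) y v
    rw [hGr i y hy] at h5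
    rw [hGr j y hy'] at h6
    rw [inner_zero_left]
    have h7 : (mfderiv 𝓘E 𝓘(ℝ, ℝ) (fun y => F i (chartAt 𝔼 i y)) y v : ℝ) =
      (mfderiv 𝓘E 𝓘(ℝ, ℝ) (fun y => F j (chartAt 𝔼 j y)) y v : ℝ) := h5.symm.trans h6
    exact (sub_eq_zero.2 h7).symm
  have : LocallyPathConnectedSpace M := ChartedSpace.locallyPathConnectedSpace 𝔼 M
  let P : LPS M ℝ :=
    { ι := M
      U := U
      isOpen := hU
      cover := fun y => ⟨y, hUi y⟩
      h := fun i x => F i (chartAt 𝔼 i x)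
      loc := hloc }
  obtain ⟨p0⟩ : Nonempty M := inferInstance
  obtain ⟨f, -, hf⟩ := P.exists_isPrim p0 (0 : ℝ)
  have hfe : ∀ z, ∀ᶠ w in 𝓝 z, f w = f z - F z (chartAt 𝔼 z z) + F z (chartAt 𝔼 z w) := by
    intro z
    filter_upwards [hf z z (hUi z)] with w hw
    have hw' : f w - f z = F z (chartAt 𝔼 z w) - F z (chartAt 𝔼 z z) := hw
    linarith
  refine ⟨f, fun z => ?_, fun z => ?_⟩
  · exact (contMDiffAt_const.add (hsm z z (hUi z))).congr_of_eventuallyEq (hfe z)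
  · symm
    refine mgrad_unique fun v => ?_
    have h1 : f =ᶠ[𝓝 z] fun w => f z - F z (chartAt 𝔼 z z) + F z (chartAt 𝔼 z w) := hfe z
    rw [h1.mfderiv_eq]
    have h2 := mfderiv_add (I := 𝓘E)
      (mdifferentiableAt_const (I := 𝓘E) (I' := 𝓘(ℝ, ℝ)) (c := f z - F z (chartAt 𝔼 z z)) (x := z))
      ((hsm z z (hUi z)).mdifferentiableAt (by simp))
    have h4 := congrArg (fun L => L v) h2
    refine Eq.trans ?_ h4.symm
    have h5 := inner_mgrad (n := n) (fun y => F z (chartAt 𝔼 z y)) z v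
    rw [hGr z z (hUi z)] at h5
    have h7 : (mfderiv 𝓘E 𝓘(ℝ, ℝ) (fun _ : M => f z - F z (chartAt 𝔼 z z)) z v : ℝ) = (0:ℝ) := by
      rw [mfderiv_const]; rfl
    have key : ∀ a b c : ℝ, a = 0 → b = c → c = a + b := by
      intro a b c h1 h2
      rw [h1, h2, zero_add]
    exact key _ _ _ h7 h5.symm

end prim

section closed

variable {n : ℕ} {M : Type} [MetricSpace M] [ChartedSpace (EuclideanSpace ℝ (Fin n)) M]
  [IsManifold (𝓡 n) ∞ M]
  [RiemannianBundle (fun p : M => TangentSpace (𝓡 n) p)]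
  [IsContMDiffRiemannianBundle (𝓡 n) ∞ (EuclideanSpace ℝ (Fin n)) (fun p : M => TangentSpace (𝓡 n) p)]
  [IsRiemannianManifold (𝓡 n) M]

/-- **`b₁ = 0`**: a closed and coclosed field on a closed simply connected manifold vanishes -/
theorem field_eq_zero [CompactSpace M] [SimplyConnectedSpace M]
    {Y : (p : M) → TangentSpace (𝓡 n) p} (hY : ∀ z, VSm n ∞ Y z)
    (hc : ∀ (z : M) (v w : TangentSpace (𝓡 n) z),
      (inner ℝ (mCov n Y z v) w : ℝ) = inner ℝ (mCov n Y z w) v)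
    (hd : ∀ z, mDiv n Y z = 0) (z : M) : Y z = 0 := by
  obtain ⟨f, hf, hfY⟩ := exists_prim_field hY hc
  borelize M
  have h1 : ∀ p, mLap n f p = 0 := by
    intro p
    rw [← mDiv_mgrad, ← hd p]
    exact mDiv_congr (Eventually.of_forall hfY)
  have h2 := Grn324.const_of_mLap_zero (n := n) hf h1
  have h3 : f = fun _ => f z := funext fun p => h2 p z
  rw [← hfY z]
  symm
  refine mgrad_unique fun v => ?_
  rw [h3, mfderiv_const, inner_zero_left]
  rfl

end closed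

end Crest.Agent.R249.Idx789
end
end

-- ▼ part R249/Idx5_789

/-!
# R249, IDX (helper789), part 5: sections of the tangent bundle as vector fields

For a Parseval frame `s` and a section `w` (`w_A = ∑_B ⟨s_A, s_B⟩ w_B`), the field `Y = ∑_B w_B s_B`
satisfies `⟨Y, s_A⟩ = w_A`, `⟨(∇ w)_A, v⟩ = ⟨∇_v Y, s_A⟩` (connection form `tanW s`).
-/

set_option autoImplicit false
set_option maxSynthPendingDepth 3
set_option linter.unusedSectionVars false

open Bundle Set MeasureTheory Manifold Filter Metric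
open scoped ContDiff Topology
open Crest.GeometryTopology.CoordMetric Crest.GeometryTopology.ChartCurvature
  Crest.GeometryTopology.PointedLimit
open Crest.Agent.R202.Tens Crest.Agent.R247.Bo84 Crest.Agent.R249.Vf281
open Crest.Agent.R249.Tz2_805 Crest.Agent.R249.Tz805

noncomputable section

namespace Crest.Agent.R249.Idx789

section field

variable {n : ℕ} {M : Type*} [TopologicalSpace M] [ChartedSpace (EuclideanSpace ℝ (Fin n)) M]
  [IsManifold 𝓘(ℝ, EuclideanSpace ℝ (Fin n)) ∞ M]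
  [RiemannianBundle (fun x : M => TangentSpace 𝓘(ℝ, EuclideanSpace ℝ (Fin n)) x)]
  [IsContMDiffRiemannianBundle 𝓘(ℝ, EuclideanSpace ℝ (Fin n)) ∞ (EuclideanSpace ℝ (Fin n))
      (fun x : M => TangentSpace 𝓘(ℝ, EuclideanSpace ℝ (Fin n)) x)]

local notation "𝔼" => EuclideanSpace ℝ (Fin n)
local notation "𝓘E" => 𝓘(ℝ, EuclideanSpace ℝ (Fin n))

/-- `v ↦ ∇_v X` is linear -/
def mCovL (X : (p : M) → TangentSpace 𝓘(ℝ, EuclideanSpace ℝ (Fin n)) p) (p : M) :
    TangentSpace 𝓘(ℝ, EuclideanSpace ℝ (Fin n)) p →ₗ[ℝ]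
      TangentSpace 𝓘(ℝ, EuclideanSpace ℝ (Fin n)) p :=
  (((dSy p (chartCentre n M p) : EuclideanSpace ℝ (Fin n) →L[ℝ] EuclideanSpace ℝ (Fin n)).comp
    ((cov (chartMetric n M p) (vCh n p X) (chartCentre n M p)).comp
      (dCh p p : EuclideanSpace ℝ (Fin n) →L[ℝ] EuclideanSpace ℝ (Fin n)))) :
    EuclideanSpace ℝ (Fin n) →ₗ[ℝ] EuclideanSpace ℝ (Fin n))

lemma mCovL_apply (X : (p : M) → TangentSpace 𝓘E p) (p : M) (v : TangentSpace 𝓘E p) :
    mCovL X p v = mCov n X p v := rfl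

variable {κ : Type} [Fintype κ] (s : PF n M κ)

lemma pars_inner (z : M) (v w : TangentSpace 𝓘E z) :
    ∑ A, (inner ℝ (s.s A z) v : ℝ) * inner ℝ (s.s A z) w = inner ℝ v w := by
  conv_rhs => rw [← s.pars z v, sum_inner]
  exact Finset.sum_congr rfl fun A _ => (real_inner_smul_left _ _ _).symm

/-- the trace of a linear map in a Parseval frame -/
theorem sum_pars (z : M) {e : Fin n → TangentSpace 𝓘E z}
    (he : ∀ a b, inner ℝ (e a) (e b) = if a = b then (1:ℝ) else 0)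
    (L : TangentSpace 𝓘E z →ₗ[ℝ] TangentSpace 𝓘E z) :
    ∑ A, (inner ℝ (L (s.s A z)) (s.s A z) : ℝ) = ∑ k, inner ℝ (L (e k)) (e k) := by
  have h1 : ∀ A, (inner ℝ (L (s.s A z)) (s.s A z) : ℝ) =
      ∑ k, (inner ℝ (s.s A z) (e k) : ℝ) * inner ℝ (s.s A z) (L (e k)) := by
    intro A
    have h2 : L (s.s A z) = ∑ k, (inner ℝ (s.s A z) (e k) : ℝ) • L (e k) := by
      conv_lhs => rw [mgrad_frame he (s.s A z)]
      rw [map_sum]
      exact Finset.sum_congr rfl fun k _ => map_smul _ _ _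
    rw [h2, sum_inner]
    refine Finset.sum_congr rfl fun k _ => ?_
    rw [real_inner_smul_left, real_inner_comm (L (e k))]
  simp only [h1]
  rw [Finset.sum_comm]
  refine Finset.sum_congr rfl fun k _ => ?_
  rw [pars_inner s z (e k) (L (e k)), real_inner_comm]

/-- the field of a section -/
def fieldOf (w : κ → M → ℝ) (z : M) : TangentSpace 𝓘(ℝ, EuclideanSpace ℝ (Fin n)) z :=
  ∑ B, w B z • s.s B z

variable {w : κ → M → ℝ}

lemma VSm_fieldOf (hw : SmU (n := n) w) (z : M) : VSm n ∞ (fieldOf s w) z :=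
  VSm.sum Finset.univ fun B _ => VSm.smul le_rfl (hw B z) (s.sm B z)

lemma inner_fieldOf (hs : ∀ a z, ∑ b, tanP s a b z * w b z = w a z) (A : κ) (z : M) :
    inner ℝ (s.s A z) (fieldOf s w z) = w A z := by
  rw [fieldOf, inner_sum, ← hs A z]
  refine Finset.sum_congr rfl fun B _ => ?_
  rw [real_inner_smul_right, tanP]; ring

/-! ### derivatives of functions -/

lemma dM_mul' {f g : M → ℝ} {p : M} (hf : MDifferentiableAt 𝓘E 𝓘(ℝ, ℝ) f p)
    (hg : MDifferentiableAt 𝓘E 𝓘(ℝ, ℝ) g p) (v : TangentSpace 𝓘E p) :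
    dM n (fun q => f q * g q) p v = f p * dM n g p v + g p * dM n f p v := by
  rw [← inner_mgrad', mgrad_mul hf hg, inner_add_left, real_inner_smul_left, real_inner_smul_left,
    inner_mgrad', inner_mgrad']

lemma mdiff_sum {ι : Type*} (t : Finset ι) {f : ι → M → ℝ} {p : M}
    (hf : ∀ i, MDifferentiableAt 𝓘E 𝓘(ℝ, ℝ) (f i) p) :
    MDifferentiableAt 𝓘E 𝓘(ℝ, ℝ) (fun q => ∑ i ∈ t, f i q) p := by
  classical
  induction t using Finset.induction_on with
  | empty => simpa using mdifferentiableAt_const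
  | insert a t ha ih =>
    simp only [Finset.sum_insert ha]
    exact (hf a).add ih

lemma dM_sum' {ι : Type*} (t : Finset ι) {f : ι → M → ℝ} {p : M}
    (hf : ∀ i, MDifferentiableAt 𝓘E 𝓘(ℝ, ℝ) (f i) p) (v : TangentSpace 𝓘E p) :
    dM n (fun q => ∑ i ∈ t, f i q) p v = ∑ i ∈ t, dM n (f i) p v := by
  classical
  induction t using Finset.induction_on with
  | empty =>
    simp only [Finset.sum_empty]
    rw [← inner_mgrad', mgrad_const, inner_zero_left]
  | insert a t ha ih =>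
    simp only [Finset.sum_insert ha]
    rw [← inner_mgrad', mgrad_add (hf a) (mdiff_sum t hf), inner_add_left, inner_mgrad',
      inner_mgrad', ih]

lemma mdiff_inner {X Z : (p : M) → TangentSpace 𝓘E p} (hX : ∀ z, VSm n ∞ X z)
    (hZ : ∀ z, VSm n ∞ Z z) (p : M) :
    MDifferentiableAt 𝓘E 𝓘(ℝ, ℝ) (fun q => (inner ℝ (X q) (Z q) : ℝ)) p :=
  (Crest.Agent.R249.Sg129.contMDiff_inner hX hZ p).mdifferentiableAt (by simp)

/-- derivative of the Parseval identity -/
theorem pars_deriv {X Z : (p : M) → TangentSpace 𝓘E p} (hX : ∀ z, VSm n ∞ X z)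
    (hZ : ∀ z, VSm n ∞ Z z) (z : M) (v : TangentSpace 𝓘E z) :
    ∑ B, ((inner ℝ (X z) (mCov n (s.s B) z v) : ℝ) * inner ℝ (s.s B z) (Z z)
      + (inner ℝ (X z) (s.s B z) : ℝ) * inner ℝ (mCov n (s.s B) z v) (Z z)) = 0 := by
  have h1 : ∀ Y : (p : M) → TangentSpace 𝓘E p, (∀ z, VSm n ∞ Y z) → VSm n 1 Y z :=
    fun Y hY => (hY z).of_le (by simp)
  have e : (fun q => (inner ℝ (X q) (Z q) : ℝ)) =
      fun q => ∑ B, (inner ℝ (X q) (s.s B q) : ℝ) * inner ℝ (s.s B q) (Z q) := by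
    funext q
    rw [← pars_inner s q]
    exact Finset.sum_congr rfl fun B _ => by rw [real_inner_comm (X q)]
  have e1 := mfderiv_inner (h1 X hX) (h1 Z hZ) v
  have hm : ∀ B, MDifferentiableAt 𝓘E 𝓘(ℝ, ℝ)
      (fun q => (inner ℝ (X q) (s.s B q) : ℝ) * inner ℝ (s.s B q) (Z q)) z := fun B =>
    (mdiff_inner hX (s.sm B) z).mul (mdiff_inner (s.sm B) hZ z)
  rw [e, dM_sum' _ hm] at e1
  have e2 : ∀ B, dM n (fun q => (inner ℝ (X q) (s.s B q) : ℝ) * inner ℝ (s.s B q) (Z q)) z v =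
      ((inner ℝ (X z) (mCov n (s.s B) z v) : ℝ) * inner ℝ (s.s B z) (Z z)
        + (inner ℝ (X z) (s.s B z) : ℝ) * inner ℝ (mCov n (s.s B) z v) (Z z))
      + ((inner ℝ (mCov n X z v) (s.s B z) : ℝ) * inner ℝ (s.s B z) (Z z)
        + (inner ℝ (X z) (s.s B z) : ℝ) * inner ℝ (s.s B z) (mCov n Z z v)) := by
    intro B
    rw [dM_mul' (mdiff_inner hX (s.sm B) z) (mdiff_inner (s.sm B) hZ z),
      mfderiv_inner (h1 _ hX) (h1 _ (s.sm B)), mfderiv_inner (h1 _ (s.sm B)) (h1 _ hZ)]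
    ring
  simp only [e2, Finset.sum_add_distrib] at e1
  have e3 : ∑ B, (inner ℝ (mCov n X z v) (s.s B z) : ℝ) * inner ℝ (s.s B z) (Z z) =
      inner ℝ (mCov n X z v) (Z z) := by
    rw [← pars_inner s z]
    exact Finset.sum_congr rfl fun B _ => by rw [real_inner_comm (mCov n X z v)]
  have e4 : ∑ B, (inner ℝ (X z) (s.s B z) : ℝ) * inner ℝ (s.s B z) (mCov n Z z v) =
      inner ℝ (X z) (mCov n Z z v) := by
    rw [← pars_inner s z]
    exact Finset.sum_congr rfl fun B _ => by rw [real_inner_comm (X z)]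
  rw [e3, e4] at e1
  rw [Finset.sum_add_distrib]
  linarith

/-- **the connection of the tangent bundle is the Levi-Civita connection** -/
theorem inner_cv {D : Bun n M κ} (hD : ∀ a b z, D.W a b z = tanW s a b z)
    (hw : SmU (n := n) w) (hs : ∀ a z, ∑ b, tanP s a b z * w b z = w a z) (A : κ) (z : M)
    (v : TangentSpace 𝓘E z) :
    (inner ℝ (D.cv w A z) v : ℝ) = inner ℝ (mCov n (fieldOf s w) z v) (s.s A z) := by
  classical
  have hY := VSm_fieldOf s hw
  have h1 : ∀ Y : (p : M) → TangentSpace 𝓘E p, (∀ z, VSm n ∞ Y z) → VSm n 1 Y z :=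
    fun Y hY => (hY z).of_le (by simp)
  -- the derivative of `w_A`
  have e0 : dM n (w A) z v = inner ℝ (mCov n (fieldOf s w) z v) (s.s A z)
      + inner ℝ (fieldOf s w z) (mCov n (s.s A) z v) := by
    have e : w A = fun q => (inner ℝ (fieldOf s w q) (s.s A q) : ℝ) := by
      funext q
      rw [real_inner_comm, inner_fieldOf s hs]
    conv_lhs => rw [e]
    exact mfderiv_inner (h1 _ hY) (h1 _ (s.sm A)) v
  -- the connection form
  have e1 : ∀ B, (inner ℝ (D.W A B z) v : ℝ) = inner ℝ (mCov n (s.s B) z v) (s.s A z)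
      - ∑ C, ((if A = C then 1 else 0) - tanP s A C z) *
        (inner ℝ (mCov n (s.s C) z v) (s.s B z) + inner ℝ (s.s C z) (mCov n (s.s B) z v)) := by
    intro B
    rw [hD, tanW, inner_sub_left, sum_inner, sum_inner]
    congr 1
    · have h2 : mCov n (s.s B) z v = ∑ C, (inner ℝ (s.s C z) v : ℝ) • mCov n (s.s B) z (s.s C z) := by
        conv_lhs => rw [← mCovL_apply, ← s.pars z v, map_sum]
        exact Finset.sum_congr rfl fun C _ => by rw [map_smul, mCovL_apply]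
      rw [h2, sum_inner]
      refine Finset.sum_congr rfl fun C _ => ?_
      rw [real_inner_smul_left, real_inner_smul_left]; ring
    · refine Finset.sum_congr rfl fun C _ => ?_
      rw [real_inner_smul_left, inner_mgrad']
      congr 1
      exact mfderiv_inner (h1 _ (s.sm C)) (h1 _ (s.sm B)) v
  have e2 : (inner ℝ (D.cv w A z) v : ℝ) = dM n (w A) z v + ∑ B, w B z * inner ℝ (D.W A B z) v := by
    rw [Bun.cv, inner_add_left, inner_mgrad', sum_inner]
    congr 1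
    exact Finset.sum_congr rfl fun B _ => real_inner_smul_left _ _ _
  -- sums
  have hYe : ∀ x : TangentSpace 𝓘E z, ∑ B, w B z * inner ℝ x (s.s B z) =
      (inner ℝ x (fieldOf s w z) : ℝ) := by
    intro x
    rw [fieldOf, inner_sum]
    exact Finset.sum_congr rfl fun B _ => (real_inner_smul_right _ _ _).symm
  set G : TangentSpace 𝓘E z := ∑ B, w B z • mCov n (s.s B) z v with hG
  have hGe : ∀ x : TangentSpace 𝓘E z, ∑ B, w B z * inner ℝ x (mCov n (s.s B) z v) =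
      (inner ℝ x G : ℝ) := by
    intro x
    rw [hG, inner_sum]
    exact Finset.sum_congr rfl fun B _ => (real_inner_smul_right _ _ _).symm
  have e3 : ∑ B, w B z * inner ℝ (D.W A B z) v = (inner ℝ (s.s A z) G : ℝ)
      - ∑ C, ((if A = C then 1 else 0) - tanP s A C z) *
        (inner ℝ (mCov n (s.s C) z v) (fieldOf s w z) + inner ℝ (s.s C z) G) := by
    simp only [e1, mul_sub, Finset.sum_sub_distrib, Finset.mul_sum]
    congr 1
    · rw [← hGe]
      exact Finset.sum_congr rfl fun B _ => by rw [real_inner_comm]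
    · rw [Finset.sum_comm]
      refine Finset.sum_congr rfl fun C _ => ?_
      rw [← hYe, ← hGe, ← Finset.sum_add_distrib, Finset.mul_sum]
      exact Finset.sum_congr rfl fun B _ => by ring
  have e4 : ∑ C, ((if A = C then 1 else 0) - tanP s A C z) *
        (inner ℝ (mCov n (s.s C) z v) (fieldOf s w z) + inner ℝ (s.s C z) G)
      = (inner ℝ (mCov n (s.s A) z v) (fieldOf s w z) + inner ℝ (s.s A z) G) := by
    simp only [sub_mul, Finset.sum_sub_distrib, ite_mul, one_mul, zero_mul, Finset.sum_ite_eq,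
      Finset.mem_univ, if_true]
    have e5 := pars_deriv s (s.sm A) hY z v
    have e6 : ∑ B, tanP s A B z * (inner ℝ (mCov n (s.s B) z v) (fieldOf s w z)
        + inner ℝ (s.s B z) G) = 0 := by
      rw [← e5]
      have e7 : ∑ B, tanP s A B z * inner ℝ (s.s B z) G =
          ∑ B, (inner ℝ (s.s A z) (mCov n (s.s B) z v) : ℝ) * inner ℝ (s.s B z) (fieldOf s w z) := by
        have e8 : ∑ B, tanP s A B z * inner ℝ (s.s B z) G = (inner ℝ (s.s A z) G : ℝ) := by
          rw [← pars_inner s z]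
          exact Finset.sum_congr rfl fun B _ => by rw [tanP, real_inner_comm (s.s A z)]
        rw [e8, ← hGe]
        refine Finset.sum_congr rfl fun B _ => ?_
        rw [inner_fieldOf s hs]; ring
      simp only [mul_add, Finset.sum_add_distrib]
      rw [e7, add_comm]
      rfl
    rw [e6, sub_zero]
  rw [e2, e0, e3, e4, real_inner_comm (mCov n (s.s A) z v)]
  ring

end field

end Crest.Agent.R249.Idx789
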