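import Crest.Agent.R249.Ker57a_57
import Crest.Agent.R249.Kil1_805
import Crest.Agent.R249.C2j_198
import Crest.Agent.R249.DenP_714
import Crest.Agent.R249.Wk2_198
import Crest.Agent.R249.DicC_129
import Crest.Agent.R249.Kg4_285
import Crest.Agent.R249.DicB_129
import Crest.Agent.R249.Tz0_805
import Crest.Agent.R249.Tz3_805
import Crest.Agent.R249.Idx10_789
import Crest.Agent.R249.Tz6_805
import Crest.Agent.R249.WkD_352
import Crest.Agent.R249.TofM_352

-- ▼ part R249/Ker57b_57
section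

/-!
# R249 part C, [KER] 2 (helper57): counting.

`kerSub R` = smooth sections killed by `R.A`; `kerSub2 R c` = those with `Q u = -2c u`;
`ker_count : N ≤ finrank (kerSub2 R c) + 1`.
-/

set_option autoImplicit false
set_option linter.unusedSectionVars false
set_option maxSynthPendingDepth 3
open scoped ContDiff ENNReal NNReal Topology Manifold Bundle RealInnerProductSpace
open MeasureTheory Set Filter Metric Bundle

noncomputable section
namespace Crest.Agent.R249.Ker57

open Crest.Agent.R247.Dir593 Crest.Agent.R247.Ms322 Crest.Agent.R247.Frd657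
open Crest.Agent.R249.Tv57 Crest.Agent.R249.Tz805

variable {n : ℕ} {M : Type*} [MetricSpace M] [ChartedSpace (EuclideanSpace ℝ (Fin n)) M]
  [IsManifold (𝓡 n) ∞ M]
  [RiemannianBundle (fun p : M => TangentSpace (𝓡 n) p)]
  [IsContMDiffRiemannianBundle (𝓡 n) ∞ (EuclideanSpace ℝ (Fin n)) (fun p : M => TangentSpace (𝓡 n) p)]
  [IsRiemannianManifold (𝓡 n) M] [MeasurableSpace M] [BorelSpace M]
  [SecondCountableTopology M] [Nonempty M]

local notation "𝔼" => EuclideanSpace ℝ (Fin n)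

section parallel
variable {κ : Type} [Fintype κ]

/-- the norm of a section is constant along parallel sections -/
theorem parallel_zero [PreconnectedSpace M] (D : Dat n M κ) {v : κ → M → ℝ} (hv : SmV (n := n) v)
    (h : ∀ a z, D.cv v a z = 0) {z0 : M} (h0 : ∀ a, v a z0 = 0) (a : κ) (z : M) : v a z = 0 := by
  set f : M → ℝ := fun z => ∑ a, v a z * v a z with hf
  have hfs : ContMDiff (𝓡 n) 𝓘(ℝ, ℝ) ∞ f := contMDiff_finsetSum fun a _ => (hv a).mul (hv a)
  have hG : ∀ z, Gr (n := n) f z = 0 := by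
    intro z
    rw [hf, Gr_sum' (f := fun a y => v a y * v a y) Finset.univ (fun a _ => (hv a).mul (hv a)) z]
    have e1 : ∀ a, Gr (n := n) (v a) z = - ∑ b, v b z • D.X a b z := by
      intro a
      exact eq_neg_of_add_eq_zero_left (h a z)
    have e2 : ∀ a, Gr (n := n) (fun y => v a y * v a y) z =
        -(2:ℝ) • ∑ b, (v a z * v b z) • D.X a b z := by
      intro a
      rw [Gr_mul (md (hv a) z) (md (hv a) z), e1]
      simp only [smul_neg, Finset.smul_sum, smul_smul]
      rw [← neg_add, ← Finset.sum_add_distrib, ← Finset.sum_neg_distrib]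
      refine Finset.sum_congr rfl fun b _ => ?_
      module
    simp only [e2, ← Finset.smul_sum]
    have e3 : ∑ a, ∑ b, (v a z * v b z) • D.X a b z = 0 := by
      set x := ∑ a, ∑ b, (v a z * v b z) • D.X a b z with hx
      have e4 : x = - x := by
        rw [hx]
        conv_lhs => rw [Finset.sum_comm]
        rw [← Finset.sum_neg_distrib]
        refine Finset.sum_congr rfl fun b _ => ?_
        rw [← Finset.sum_neg_distrib]
        refine Finset.sum_congr rfl fun a _ => ?_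
        rw [D.skew a b z, smul_neg, mul_comm]
      have h2 : x + x = 0 := by
        nth_rewrite 1 [e4]
        exact neg_add_cancel _
      have h3 : (2:ℝ) • x = 0 := by rw [two_smul]; exact h2
      exact (smul_eq_zero.1 h3).resolve_left two_ne_zero
    rw [e3, smul_zero]
  have hc := Crest.Agent.R249.Grn324.const_of_mGam_zero (n := n) (hfs.of_le (by simp)) (fun p => by
    rw [← inner_Gr_eq_mGam, hG p, inner_zero_left]) z z0
  have h1 : f z0 = 0 := by
    simp only [hf, h0, mul_zero, Finset.sum_const_zero]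
  rw [h1] at hc
  have h4 := (Finset.sum_eq_zero_iff_of_nonneg fun a _ => mul_self_nonneg _).1 hc a
    (Finset.mem_univ a)
  exact mul_self_eq_zero.1 h4

end parallel

variable {κ κ' : Type} [Fintype κ] [Fintype κ'] {D0 : Dat n M κ} {D1 : Dat n M κ'}

/-- smooth sections killed by `A` -/
def kerSub (R : DPair D0 D1) : Submodule ℝ (κ → M → ℝ) where
  carrier := {u | SmV (n := n) u ∧ D0.Sec u ∧ ∀ b z, R.A u b z = 0}
  zero_mem' := by
    have h0 : SmV (n := n) (0 : κ → M → ℝ) := fun a => contMDiff_const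
    refine ⟨h0, fun a z => by simp, fun b z => ?_⟩
    have := R.linA 0 0 0 0 h0 h0
    have e : (fun x z => (0:ℝ) * (0 : κ → M → ℝ) x z + 0 * (0 : κ → M → ℝ) x z) = 0 := by
      funext x z; simp
    rw [e] at this
    rw [this]
    simp
  add_mem' := by
    rintro u v ⟨hu, hus, hA⟩ ⟨hv, hvs, hB⟩
    refine ⟨fun a => (hu a).add (hv a), fun a z => ?_, fun b z => ?_⟩
    · simp only [Pi.add_apply, mul_add, Finset.sum_add_distrib, hus a z, hvs a z]
    · have := R.linA 1 1 u v hu hv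
      have e : (fun x z => (1:ℝ) * u x z + 1 * v x z) = u + v := by
        funext x z; simp
      rw [e] at this
      rw [this]
      simp [hA, hB]
  smul_mem' := by
    rintro c u ⟨hu, hus, hA⟩
    refine ⟨fun a => contMDiff_const.mul (hu a), fun a z => ?_, fun b z => ?_⟩
    · simp only [Pi.smul_apply, smul_eq_mul]
      rw [← hus a z, Finset.mul_sum]
      exact Finset.sum_congr rfl fun b _ => by ring
    · have := R.linA c 0 u u hu hu
      have e : (fun x z => c * u x z + 0 * u x z) = c • u := by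
        funext x z; simp
      rw [e] at this
      rw [this]
      simp [hA]


/-- the twistor part of the kernel -/
def kerSub2 (R : DPair D0 D1) (c : ℝ) : Submodule ℝ (κ → M → ℝ) where
  carrier := {u | u ∈ kerSub R ∧ ∀ a z, tq D0 u a z = -(2 * c) * u a z}
  zero_mem' := ⟨(kerSub R).zero_mem, fun a z => by simp [tq]⟩
  add_mem' := by
    rintro u v ⟨hu, hu'⟩ ⟨hv, hv'⟩
    refine ⟨(kerSub R).add_mem hu hv, fun a z => ?_⟩
    have e : tq D0 (u + v) a z = tq D0 u a z + tq D0 v a z := by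
      simp only [tq, Pi.add_apply, mul_add, Finset.sum_add_distrib]
    rw [e, hu', hv', Pi.add_apply, Pi.add_apply]
    ring
  smul_mem' := by
    rintro t u ⟨hu, hu'⟩
    refine ⟨(kerSub R).smul_mem t hu, fun a z => ?_⟩
    have e : tq D0 (t • u) a z = t * tq D0 u a z := by
      simp only [tq, Pi.smul_apply, smul_eq_mul, Finset.mul_sum]
      exact Finset.sum_congr rfl fun b _ => by ring
    rw [e, hu', Pi.smul_apply, Pi.smul_apply, smul_eq_mul]
    ring


lemma kerSub2_le (R : DPair D0 D1) (c : ℝ) : kerSub2 R c ≤ kerSub R := fun _ h => h.1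

/-- the basis of the kernel -/
def kerBasis {R : DPair D0 D1} {N : ℕ} (K : KerD D0 R.A N) : Module.Basis (Fin N) ℝ (kerSub R) := by
  have hmem : ∀ i, K.u i ∈ kerSub R := fun i => ⟨K.smooth i, K.sec i, K.ker i⟩
  refine Module.Basis.mk (v := fun i => (⟨K.u i, hmem i⟩ : kerSub R)) ?_ ?_
  · exact LinearIndependent.of_comp (kerSub R).subtype K.li
  · rintro ⟨v, hv⟩ -
    have e : (⟨v, hv⟩ : kerSub R) = ∑ i, ip n v (K.u i) • (⟨K.u i, hmem i⟩ : kerSub R) := by
      apply Subtype.ext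
      funext a z
      simp only [Submodule.coe_sum, Submodule.coe_smul, Finset.sum_apply, Pi.smul_apply, smul_eq_mul]
      exact K.span v hv.1 hv.2.1 hv.2.2 a z
    rw [e]
    exact Submodule.sum_mem _ fun i _ => Submodule.smul_mem _ _ (Submodule.subset_span ⟨i, rfl⟩)

lemma finite_kerSub {R : DPair D0 D1} {N : ℕ} (K : KerD D0 R.A N) : Module.Finite ℝ (kerSub R) :=
  Module.Finite.of_basis (kerBasis K)

lemma finrank_kerSub {R : DPair D0 D1} {N : ℕ} (K : KerD D0 R.A N) :
    Module.finrank ℝ (kerSub R) = N := by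
  rw [Module.finrank_eq_card_basis (kerBasis K), Fintype.card_fin]

/-- the space of possible values of `(Q + 2c) u` at `z` -/
def W0 (D : Dat n M κ) (z : M) : Submodule ℝ (κ → ℝ) where
  carrier := {y | (∀ a, ∑ b, D.Q a b z * y b = 0) ∧ ∀ a, ∑ b, D.p a b z * y b = y a}
  zero_mem' := ⟨fun a => by simp, fun a => by simp⟩
  add_mem' := by
    rintro u v ⟨h1, h2⟩ ⟨h3, h4⟩
    refine ⟨fun a => ?_, fun a => ?_⟩
    · simp only [Pi.add_apply, mul_add, Finset.sum_add_distrib, h1 a, h3 a, add_zero]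
    · simp only [Pi.add_apply, mul_add, Finset.sum_add_distrib, h2 a, h4 a]
  smul_mem' := by
    rintro c u ⟨h1, h2⟩
    refine ⟨fun a => ?_, fun a => ?_⟩
    · simp only [Pi.smul_apply, smul_eq_mul]
      have : ∑ b, D.Q a b z * (c * u b) = c * ∑ b, D.Q a b z * u b := by
        rw [Finset.mul_sum]
        exact Finset.sum_congr rfl fun b _ => by ring
      rw [this, h1, mul_zero]
    · simp only [Pi.smul_apply, smul_eq_mul]
      have : ∑ b, D.p a b z * (c * u b) = c * ∑ b, D.p a b z * u b := by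
        rw [Finset.mul_sum]
        exact Finset.sum_congr rfl fun b _ => by ring
      rw [this, h2]

/-- value of `(Q + 2c) u` at `z0` -/
def evL (R : DPair D0 D1) (c : ℝ) (z0 : M) : kerSub R →ₗ[ℝ] (κ → ℝ) where
  toFun u a := u0s D0 c (u : κ → M → ℝ) a z0
  map_add' u v := by
    funext a
    simp only [u0s, tq, Submodule.coe_add, Pi.add_apply, mul_add, Finset.sum_add_distrib]
    ring
  map_smul' t u := by
    funext a
    simp only [u0s, tq, Submodule.coe_smul, Pi.smul_apply, smul_eq_mul, RingHom.id_apply]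
    have : ∑ b, D0.Q a b z0 * (t * (u : κ → M → ℝ) b z0) =
        t * ∑ b, D0.Q a b z0 * (u : κ → M → ℝ) b z0 := by
      rw [Finset.mul_sum]
      exact Finset.sum_congr rfl fun b _ => by ring
    rw [this]
    ring

variable [CompactSpace M] [PreconnectedSpace M] [IsFiniteMeasureOnCompacts (μHE[n] : Measure M)]

lemma ker_split' {R : DPair D0 D1} {c : ℝ} (hP : PolyPot D0 c) (hc : 0 < c) {u : κ → M → ℝ}
    (hu : u ∈ kerSub R) : (∀ a z, rs D0 c u a z = 0) ∧ ∀ a z, D0.cv (u0s D0 c u) a z = 0 := by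
  refine ker_split hP hc hu.1 hu.2.1 fun v hv hs => ?_
  rw [← R.w0 u v hu.1 hv hu.2.1 hs]
  simp only [hu.2.2, zero_mul, Finset.sum_const_zero, integral_zero]

/-- **counting** -/
theorem ker_count {R : DPair D0 D1} {c : ℝ} (hP : PolyPot D0 c) (hc : 0 < c) {N : ℕ}
    (K : KerD D0 R.A N) (z0 : M) (hdim : Module.finrank ℝ (W0 D0 z0) ≤ 1) :
    N ≤ Module.finrank ℝ (kerSub2 R c) + 1 := by
  have hfin := finite_kerSub K
  have hfin2 : Module.Finite ℝ (kerSub2 R c) := Submodule.finiteDimensional_of_le (kerSub2_le R c)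
  have h1 := (evL R c z0).finrank_range_add_finrank_ker
  rw [finrank_kerSub K] at h1
  have h2 : LinearMap.range (evL R c z0) ≤ W0 D0 z0 := by
    rintro _ ⟨⟨u, hu⟩, rfl⟩
    have hs := (ker_split' hP hc hu).1
    refine ⟨fun a => ?_, fun a => ?_⟩
    · have h3 := hs a z0
      rw [rs] at h3
      have e : ∑ b, D0.Q a b z0 * (evL R c z0 ⟨u, hu⟩) b =
          1 * tq D0 (tq D0 u) a z0 + 2 * c * tq D0 u a z0 := by
        simp only [evL, LinearMap.coe_mk, AddHom.coe_mk, u0s, tq, mul_add, Finset.sum_add_distrib,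
          one_mul]
        congr 1
        rw [Finset.mul_sum]
        exact Finset.sum_congr rfl fun b _ => by ring
      rw [e, h3]
    · exact (sec_add D0 (sec_tq hP) hu.2.1 1 (2 * c)) a z0
  have h3 : Module.finrank ℝ (LinearMap.range (evL R c z0)) ≤ 1 :=
    (Submodule.finrank_mono h2).trans hdim
  have h4 : (LinearMap.ker (evL R c z0)).map (kerSub R).subtype ≤ kerSub2 R c := by
    rintro _ ⟨⟨u, hu⟩, hk, rfl⟩
    refine ⟨hu, ?_⟩
    have hcv := (ker_split' hP hc hu).2
    have hsm : SmV (n := n) (u0s D0 c u) := smV_add (smV_tq D0 hu.1) hu.1 _ _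
    have hz := parallel_zero D0 hsm hcv (z0 := z0) (fun a => congrFun (LinearMap.mem_ker.1 hk) a)
    intro a z
    have h5 := hz a z
    rw [u0s] at h5
    simp only [Submodule.subtype_apply]
    linarith
  have h5 : Module.finrank ℝ (LinearMap.ker (evL R c z0)) ≤ Module.finrank ℝ (kerSub2 R c) := by
    rw [← Submodule.finrank_map_subtype_eq]
    exact Submodule.finrank_mono h4
  omega

end Crest.Agent.R249.Ker57
end
end

-- ▼ part R249/Kil4_805
section

/-!
Row 249, part C3 (helper805): twistor sections of `Λ⁺` when the `Λ⁺` block is a constant multiple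
of the identity (C3.4 of BP-C3): the associated vector field is Killing.
-/

set_option autoImplicit false
set_option linter.unusedSimpArgs false
set_option linter.unusedSectionVars false

namespace Crest.Agent.R249.Kil4_805

open Finset Matrix Crest.Agent.R249.Fr129 Crest.Agent.R249.Fr129.Frame Crest.Agent.R249.Kil1_805

/-- `jV V a = J_a V`, the three self-dual complex structures applied to a vector. -/
def jV {S : Type*} [CommRing S] (V : Fin 4 → S) (a : Fin 3) (l : Fin 4) : S :=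
  (![![-V 1, V 0, -V 3, V 2], ![-V 2, V 3, V 0, -V 1], ![-V 3, -V 2, V 1, V 0]] : Fin 3 → Fin 4 → S) a l

variable {S : Type*} [CommRing S] [Algebra ℝ S] (F : Frame 4 S)


/-- The complex structures are parallel. -/
lemma jV_par (V : Fin 4 → S) (k l : Fin 4) (b : Fin 3) :
    F.cov F.sdc k (fun b => jV V b l) b - ∑ m, F.w k l m * jV V b m
      = jV (BV F V k) b l := by
  fin_cases b <;> fin_cases l <;>
    simp [cov, jV, BV_eq, sdc, cr, pp, Fin.sum_univ_four, Fin.sum_univ_three, w_self, w10, w20, w30,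
      w21, w31, w32] <;> ring

/-- The twistor equation for a section `σ` of `Λ⁺`: `∇_k σ_b = -(J_b V)_k`. -/
def Twist (σ : Fin 3 → S) (V : Fin 4 → S) : Prop := ∀ k b, F.cov F.sdc k σ b = - jV V b k

lemma hess_twist {σ : Fin 3 → S} {V : Fin 4 → S} (h : Twist F σ V) (k l : Fin 4) (b : Fin 3) :
    F.hess F.sdc k l σ b = - jV (BV F V k) b l := by
  have h0 : F.cov F.sdc l σ = - (fun b => jV V b l) := by
    funext b; rw [h l b]; rfl
  rw [hess, h0, F.cov_neg, ← jV_par]
  simp only [h _ _, Pi.neg_apply, mul_neg, sum_neg_distrib]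
  ring

lemma twist_eq {σ : Fin 3 → S} {V : Fin 4 → S} (h : Twist F σ V) (k l : Fin 4) (b : Fin 3) :
    - jV (BV F V k) b l + jV (BV F V l) b k = (cr (F.PP k l) *ᵥ σ) b := by
  have := congrFun (F.hess_comm F.sdc k l σ) b
  rw [Pi.add_apply, hess_twist F h, hess_twist F h, F.curv_sdc] at this
  linear_combination this

/-- C3.4: if `A = κ I` then the vector field of a twistor section is Killing and `p = -κ σ`. -/
theorem twist_killing {lam : S} (hE : F.Einstein lam) {κ : S}
    (hA : ∀ c d, F.AA c d = if c = d then κ else 0) {σ : Fin 3 → S} {V : Fin 4 → S}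
    (h : Twist F σ V) : Kill F V ∧ ∀ c, pV F V c = - κ * σ c := by
  have e := twist_eq F h
  have E01 := e 0 1
  have E02 := e 0 2
  have E03 := e 0 3
  have E12 := e 1 2
  have E13 := e 1 3
  have E23 := e 2 3
  have E010 := E01 0
  have E011 := E01 1
  have E012 := E01 2
  have E020 := E02 0
  have E021 := E02 1
  have E022 := E02 2
  have E030 := E03 0
  have E031 := E03 1
  have E032 := E03 2
  have E120 := E12 0
  have E121 := E12 1
  have E122 := E12 2
  have E130 := E13 0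
  have E131 := E13 1
  have E132 := E13 2
  have E230 := E23 0
  have E231 := E23 1
  have E232 := E23 2
  simp [jV, Matrix.mulVec, dotProduct, Fin.sum_univ_three, cr, F.P01 hE, F.P23 hE, F.P02 hE,
    F.P13 hE, F.P03 hE, F.P12 hE, hA] at E010 E011 E012 E020 E021 E022 E030 E031 E032 E120 E121 E122 E130 E131 E132 E230 E231 E232
  constructor
  · intro k j
    fin_cases k <;> fin_cases j <;> simp only [Fin.zero_eta, Fin.mk_one, Fin.reduceFinMk]
    · linear_combination -E010 - E021 + E122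
    · linear_combination E031 - E132
    · linear_combination E012 + E120
    · linear_combination E130 - E011
    · linear_combination E031 - E132
    · linear_combination -E010 - E122 + E021
    · linear_combination -E020 - E011
    · linear_combination -E030 - E012
    · linear_combination E012 + E120
    · linear_combination -E020 - E011
    · linear_combination -E021 - E122 + E010
    · linear_combination -E031 - E022
    · linear_combination E130 - E011
    · linear_combination -E030 - E012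
    · linear_combination -E031 - E022
    · linear_combination -2 * E032 + E010 + E021 - E122
  · intro c
    fin_cases c <;> simp [pV]
    · linear_combination -E022
    · linear_combination E012
    · linear_combination -E011

end Crest.Agent.R249.Kil4_805
end

-- ▼ part R249/Ker57c_57
section

/-!
# R249 part C, [KER] 3 (helper57): the Killing field of a twistor section of `Λ⁻` (mirror image of
`Kil4_805`), over a frame ring.
-/

set_option autoImplicit false
set_option linter.unusedSimpArgs false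
set_option linter.unusedSectionVars false

namespace Crest.Agent.R249.Ker57

open Finset Matrix Crest.Agent.R249.Fr129 Crest.Agent.R249.Fr129.Frame Crest.Agent.R249.Kil1_805
  Crest.Agent.R249.C2_198

/-- `kV V a = K_a V`, the three anti-self-dual complex structures applied to a vector. -/
def kV {S : Type*} [CommRing S] (V : Fin 4 → S) (a : Fin 3) (l : Fin 4) : S :=
  (![![V 1, -V 0, -V 3, V 2], ![V 2, V 3, -V 0, -V 1], ![V 3, -V 2, V 1, -V 0]] : Fin 3 → Fin 4 → S) a l

variable {S : Type*} [CommRing S] [Algebra ℝ S] (F : Frame 4 S)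

lemma kV_eq (V : Fin 4 → S) (a : Fin 3) (k : Fin 4) : kV V a k = ∑ l, K S a k l * V l := by
  fin_cases a <;> fin_cases k <;> simp [kV, K, Fin.sum_univ_four]

/-- The complex structures are parallel. -/
lemma kV_par (V : Fin 4 → S) (k l : Fin 4) (b : Fin 3) :
    F.cov (asc F) k (fun b => kV V b l) b - ∑ m, F.w k l m * kV V b m
      = kV (BV F V k) b l := by
  fin_cases b <;> fin_cases l <;>
    simp [cov, kV, BV_eq, asc, cr, eta, Fin.sum_univ_four, Fin.sum_univ_three, w_self, w10, w20, w30,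
      w21, w31, w32] <;> ring

/-- The twistor equation for a section `σ` of `Λ⁻`: `∇_k σ_b = -(K_b V)_k`. -/
def TwistM (σ : Fin 3 → S) (V : Fin 4 → S) : Prop := ∀ k b, F.cov (asc F) k σ b = - kV V b k

lemma hess_twist {σ : Fin 3 → S} {V : Fin 4 → S} (h : TwistM F σ V) (k l : Fin 4) (b : Fin 3) :
    F.hess (asc F) k l σ b = - kV (BV F V k) b l := by
  have h0 : F.cov (asc F) l σ = - (fun b => kV V b l) := by
    funext b; rw [h l b]; rfl
  rw [hess, h0, F.cov_neg, ← kV_par]
  simp only [h _ _, Pi.neg_apply, mul_neg, sum_neg_distrib]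
  ring

lemma twist_eq {σ : Fin 3 → S} {V : Fin 4 → S} (h : TwistM F σ V) (k l : Fin 4) (b : Fin 3) :
    - kV (BV F V k) b l + kV (BV F V l) b k = (cr (EE F k l) *ᵥ σ) b := by
  have := congrFun (F.hess_comm (asc F) k l σ) b
  rw [Pi.add_apply, hess_twist F h, hess_twist F h, curv_asc] at this
  linear_combination this

/-- if `C = κ I` then the vector field of a twistor section is Killing, and `κ σ` is determined by
its first derivatives. -/
theorem twist_killing {lam : S} (hE : F.Einstein lam) {κ : S}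
    (hC : ∀ c d, CC F c d = if c = d then κ else 0) {σ : Fin 3 → S} {V : Fin 4 → S}
    (h : TwistM F σ V) : Kill F V ∧ ((∀ k j, BV F V k j = 0) → ∀ c, κ * σ c = 0) := by
  have e := twist_eq F h
  have E01 := e 0 1
  have E02 := e 0 2
  have E03 := e 0 3
  have E12 := e 1 2
  have E13 := e 1 3
  have E23 := e 2 3
  have E010 := E01 0
  have E011 := E01 1
  have E012 := E01 2
  have E020 := E02 0
  have E021 := E02 1
  have E022 := E02 2
  have E030 := E03 0
  have E031 := E03 1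
  have E032 := E03 2
  have E120 := E12 0
  have E121 := E12 1
  have E122 := E12 2
  have E130 := E13 0
  have E131 := E13 1
  have E132 := E13 2
  have E230 := E23 0
  have E231 := E23 1
  have E232 := E23 2
  obtain ⟨a1, a2, a3, a4, a5, a6⟩ := EE_eq F hE 0
  obtain ⟨b1, b2, b3, b4, b5, b6⟩ := EE_eq F hE 1
  obtain ⟨c1, c2, c3, c4, c5, c6⟩ := EE_eq F hE 2
  simp [kV, Matrix.mulVec, dotProduct, Fin.sum_univ_three, cr, a1, a2, a3, a4, a5, a6, b1, b2, b3,
    b4, b5, b6, c1, c2, c3, c4, c5, c6, hC] at E010 E011 E012 E020 E021 E022 E030 E031 E032 E120 E121 E122 E130 E131 E132 E230 E231 E232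
  constructor
  · intro k j
    fin_cases k <;> fin_cases j <;> simp only [Fin.zero_eta, Fin.mk_one, Fin.reduceFinMk]
    · linear_combination E010 + E021 + E122
    · linear_combination E031 + E132
    · linear_combination E012 - E120
    · linear_combination -E130 - E011
    · linear_combination E031 + E132
    · linear_combination E010 - E122 - E021
    · linear_combination E020 + E011
    · linear_combination E030 + E012
    · linear_combination E012 - E120
    · linear_combination E020 + E011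
    · linear_combination E021 - E122 - E010
    · linear_combination E031 + E022
    · linear_combination -E130 - E011
    · linear_combination E030 + E012
    · linear_combination E031 + E022
    · linear_combination 2 * E032 - E010 - E021 - E122
  · intro hB c
    simp only [hB] at E011 E012 E022
    fin_cases c <;> simp only [Fin.zero_eta, Fin.mk_one, Fin.reduceFinMk]
    · linear_combination E022
    · linear_combination -E012
    · linear_combination E011

/-- from 198's twistor equation -/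
theorem twistM_of {σ : Fin 3 → S}
    (h : dir F (Frame.tens (e0 F) (asc F)) (tw (cK S)) (emb σ) = 0) :
    TwistM F σ (fun j => Frame.third * V3 F σ j) := by
  intro k b
  have h1 := twistor h k b
  have h3 : (3 : S) * Frame.third = 1 := Frame.three_third
  rw [kV_eq]
  have e : ∑ l, K S b k l * (Frame.third * V3 F σ l) = Frame.third * ∑ l, K S b k l * V3 F σ l := by
    rw [mul_sum]; exact sum_congr rfl fun l _ => by ring
  rw [e]
  linear_combination Frame.third * h1 - F.cov (asc F) k σ b * h3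

end Crest.Agent.R249.Ker57
end

-- ▼ part R249/Ker57d_57
section

/-!
# R249 part C, [KER] 4 (helper57): from germs to `PolyPot`.
-/

set_option autoImplicit false
set_option linter.unusedSectionVars false
set_option linter.unusedSimpArgs false
set_option maxSynthPendingDepth 3

open Filter Topology Set Bundle Manifold Matrix MeasureTheory
open scoped ContDiff ENNReal NNReal
open Crest.GeometryTopology.CoordMetric Crest.GeometryTopology.ChartCurvature
  Crest.GeometryTopology.PointedLimit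
open Crest.Agent.R202.Tens Crest.Agent.R247.Bo84 Crest.Agent.R249.Vf281
  Crest.Agent.R249.Tz1_805 Crest.Agent.R249.Tz2_805
open Crest.Agent.R249.Fr129 Crest.Agent.R249.C2_198
open Crest.Agent.R247.Ms322 Crest.Agent.R247.Dir593 Crest.Agent.R247.Frd657
open Crest.Agent.R249.Tv57
open Crest.Agent.R249.Sg129 hiding fg fg_add fg_sub fg_mul fg_const fg_sum ev_fg contMDiff_inner
  VSm_mCov
open Crest.Agent.R249.Tz805 Crest.Agent.R249.Wk198

noncomputable section

namespace Crest.Agent.R249.Ker57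

/-! ### algebra of `J (c N) Jᵀ` -/

section alg

abbrev I12 := Fin 4 × Fin 3

lemma NN_pow4 (S : Type*) [CommRing S] : NN S * NN S * NN S * NN S =
    (8:S) • (NN S * NN S * NN S) - (4:S) • (NN S * NN S) - (48:S) • NN S := by
  have h := NN_poly S
  have e : NN S * (NN S - 4) * ((NN S + 2) * (NN S - 6)) =
      NN S * NN S * NN S * NN S - 8 * (NN S * NN S * NN S) + 4 * (NN S * NN S) + 48 * NN S := by
    noncomm_ring
  rw [e] at h
  have e1 : ∀ (k : ℕ) [k.AtLeastTwo] (X : Matrix I12 I12 S),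
      (OfNat.ofNat k : Matrix I12 I12 S) * X = (OfNat.ofNat k : S) • X := by
    intro k _ X
    have : (OfNat.ofNat k : Matrix I12 I12 S) = (OfNat.ofNat k : S) • (1 : Matrix I12 I12 S) := by
      ext x y
      by_cases hxy : x = y
      · subst hxy
        simp only [Matrix.ofNat_apply, Matrix.smul_apply, Matrix.one_apply_eq, smul_eq_mul, mul_one,
          if_true]
        rfl
      · simp [Matrix.one_apply, hxy, Matrix.ofNat_apply]
    rw [this, Matrix.smul_mul, Matrix.one_mul]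
  rw [e1 8, e1 4, e1 48] at h
  have h2 := eq_neg_of_add_eq_zero_left h
  rw [eq_sub_iff_add_eq, eq_sub_iff_add_eq, ← sub_eq_zero, ← h]
  abel

variable {κ : Type} [Fintype κ] {J : Matrix κ I12 ℝ} (hJ : Jᵀ * J = 1)
include hJ

lemma JJ_mul (A B : Matrix I12 I12 ℝ) : (J * A * Jᵀ) * (J * B * Jᵀ) = J * (A * B) * Jᵀ := by
  have : (J * A * Jᵀ) * (J * B * Jᵀ) = J * A * (Jᵀ * J) * B * Jᵀ := by
    simp only [Matrix.mul_assoc]
  rw [this, hJ, Matrix.mul_one, Matrix.mul_assoc J A B]

theorem polyAt_of {c : ℝ} {Q : κ → κ → ℝ} (hQ : Matrix.of Q = J * (c • NN ℝ) * Jᵀ) :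
    PolyAt Q c := by
  set T : Matrix κ κ ℝ := Matrix.of Q with hT
  have h2 : T * T = (c ^ 2) • (J * (NN ℝ * NN ℝ) * Jᵀ) := by
    rw [hQ, JJ_mul hJ, Matrix.smul_mul, Matrix.mul_smul, Matrix.mul_smul, Matrix.mul_smul,
      Matrix.smul_mul, Matrix.smul_mul, smul_smul, sq]
  have h3 : T * T * T = (c ^ 3) • (J * (NN ℝ * NN ℝ * NN ℝ) * Jᵀ) := by
    rw [h2, hQ, Matrix.smul_mul, JJ_mul hJ, Matrix.mul_smul, Matrix.mul_smul, Matrix.smul_mul,
      smul_smul]
    rfl
  have h4 : T * T * T * T = (c ^ 4) • (J * (NN ℝ * NN ℝ * NN ℝ * NN ℝ) * Jᵀ) := by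
    rw [h3, hQ, Matrix.smul_mul, JJ_mul hJ, Matrix.mul_smul, Matrix.mul_smul, Matrix.smul_mul,
      smul_smul]
    rfl
  have h1 : T = c • (J * NN ℝ * Jᵀ) := by
    rw [hQ, Matrix.mul_smul, Matrix.smul_mul]
  have key : T * T * T * T = (8 * c) • (T * T * T) - (4 * c ^ 2) • (T * T) - (48 * c ^ 3) • T := by
    rw [h4, h3, h2, h1, NN_pow4, Matrix.mul_sub, Matrix.mul_sub, Matrix.sub_mul, Matrix.sub_mul]
    simp only [Matrix.mul_smul, Matrix.smul_mul, smul_sub, smul_smul]
    congr 1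
    · congr 1
      · congr 1; ring
      · congr 1; ring
    · congr 1; ring
  intro a b
  have k := congrFun (congrFun key a) b
  rw [Matrix.sub_apply, Matrix.sub_apply, Matrix.smul_apply, Matrix.smul_apply, Matrix.smul_apply,
    smul_eq_mul, smul_eq_mul, smul_eq_mul] at k
  have a2 : ∀ a b, (T * T) a b = ∑ x, Q a x * Q x b := fun a b => rfl
  have a3 : ∀ a b, (T * T * T) a b = ∑ x, ∑ y, Q a x * Q x y * Q y b := by
    intro a b
    rw [Matrix.mul_assoc, Matrix.mul_apply]
    refine Finset.sum_congr rfl fun x _ => ?_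
    rw [a2, Finset.mul_sum]
    exact Finset.sum_congr rfl fun y _ => by rw [mul_assoc]; rfl
  have a4 : (T * T * T * T) a b = ∑ x, ∑ y, ∑ s, Q a x * Q x y * Q y s * Q s b := by
    rw [Matrix.mul_assoc, Matrix.mul_assoc, ← Matrix.mul_assoc T T T, Matrix.mul_apply]
    refine Finset.sum_congr rfl fun x _ => ?_
    rw [a3, Finset.mul_sum]
    refine Finset.sum_congr rfl fun y _ => ?_
    rw [Finset.mul_sum]
    exact Finset.sum_congr rfl fun s _ => by
      change Q a x * _ = _
      ring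
  rw [a4, a3, a2] at k
  exact k

/-- on the kernel of `Q` -/
theorem ker_pt {c : ℝ} (hc : c ≠ 0) {Q p : κ → κ → ℝ} (hQ : Matrix.of Q = J * (c • NN ℝ) * Jᵀ)
    (hp : Matrix.of p = J * Jᵀ) {y : κ → ℝ} (h1 : ∀ a, ∑ b, Q a b * y b = 0)
    (h2 : ∀ a, ∑ b, p a b * y b = y a) : y = (1 / 3 * embdT (Jᵀ *ᵥ y)) • (J *ᵥ embd (1:ℝ)) := by
  set v := Jᵀ *ᵥ y with hv
  have e1 : J *ᵥ v = y := by
    rw [hv, Matrix.mulVec_mulVec, ← hp]
    funext a
    exact h2 a
  have e2 : NN ℝ *ᵥ v = 0 := by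
    have h3 : (Matrix.of Q) *ᵥ y = 0 := funext h1
    rw [hQ, ← Matrix.mulVec_mulVec, ← hv, ← Matrix.mulVec_mulVec] at h3
    have h4 : Jᵀ *ᵥ (J *ᵥ ((c • NN ℝ) *ᵥ v)) = 0 := by rw [h3, Matrix.mulVec_zero]
    rw [Matrix.mulVec_mulVec, hJ, Matrix.one_mulVec, Matrix.smul_mulVec] at h4
    exact (smul_eq_zero.1 h4).resolve_left hc
  have e3 : (3:ℝ) • v = embd (embdT v) := eig_0 e2
  have e4 : embd (embdT v) = embdT v • embd (1:ℝ) := by
    rw [← dZ_vec, ← dZ_vec]
    funext x
    rw [Pi.smul_apply, smul_eq_mul]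
    ring
  have e5 : v = (1 / 3 * embdT v) • embd (1:ℝ) := by
    rw [e4] at e3
    rw [mul_smul, ← e3, smul_smul]
    norm_num
  conv_lhs => rw [← e1, e5]
  rw [Matrix.mulVec_smul]

end alg

/-! ### the germ of the potential is parallel -/

section germ

variable {n : ℕ} {M : Type*} [TopologicalSpace M] [ChartedSpace (EuclideanSpace ℝ (Fin n)) M]
  [IsManifold 𝓘(ℝ, EuclideanSpace ℝ (Fin n)) ∞ M]
  [RiemannianBundle (fun x : M => TangentSpace 𝓘(ℝ, EuclideanSpace ℝ (Fin n)) x)]
  [IsContMDiffRiemannianBundle 𝓘(ℝ, EuclideanSpace ℝ (Fin n)) ∞ (EuclideanSpace ℝ (Fin n))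
      (fun x : M => TangentSpace 𝓘(ℝ, EuclideanSpace ℝ (Fin n)) x)]

local notation "𝓘E" => 𝓘(ℝ, EuclideanSpace ℝ (Fin n))

variable {κ : Type} [Fintype κ] {ι : Type} [Fintype ι] [DecidableEq ι] {D : Bun n M κ} {z : M}
  {e : Fin n → EuclideanSpace ℝ (Fin n) → EuclideanSpace ℝ (Fin n)}
  {h : ONF (chartMetric n M z) (chartAt (EuclideanSpace ℝ (Fin n)) z).target (chartCentre n M z) e}
  {a : Fin n → Matrix ι ι (SG (chartCentre n M z))} {j : Matrix κ ι (SG (chartCentre n M z))}

lemma om_t (D : Bun n M κ) (h : ONF (chartMetric n M z) (chartAt (EuclideanSpace ℝ (Fin n)) z).target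
    (chartCentre n M z) e) (k : Fin n) :
    (Matrix.of fun x y => vg z e (D.W x y) k)ᵀ = - (Matrix.of fun x y => vg z e (D.W x y) k) := by
  ext x y
  have e1 : D.W y x = fun q => - D.W x y q := funext fun q => D.skew y x q
  have h1 : vg z e (D.W y x) k = - vg z e (D.W x y) k := by
    rw [e1]; exact h.vg_neg (D.smW x y) k
  simpa using h1

/-- `j N jᵀ` is parallel -/
lemma par_germ (L : LF D h a j) {N : Matrix ι ι (SG (chartCentre n M z))}
    (hN : ∀ k x y, h.frameOf.D k (N x y) = 0) (hc : ∀ k, a k * N = N * a k) (k : Fin n) :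
    dM (h.frameOf.D k) (j * N * jᵀ) + (Matrix.of fun x y => vg z e (D.W x y) k) * (j * N * jᵀ)
      - (j * N * jᵀ) * (Matrix.of fun x y => vg z e (D.W x y) k) = 0 := by
  have hsk := om_t D h k
  have hj : dM (h.frameOf.D k) j = j * a k - (Matrix.of fun x y => vg z e (D.W x y) k) * j :=
    eq_sub_of_add_eq (L.dj k)
  set om : Matrix κ κ (SG (chartCentre n M z)) := Matrix.of fun x y => vg z e (D.W x y) k with hom
  have hdN : dM (h.frameOf.D k) N = 0 := by ext x y; exact hN k x y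
  have hat : (a k)ᵀ = - a k := by ext x y; exact lf_skew L k y x
  have hjt : dM (h.frameOf.D k) jᵀ = jᵀ * om - a k * jᵀ := by
    rw [dM_transpose, hj, Matrix.transpose_sub, Matrix.transpose_mul, Matrix.transpose_mul, hat, hsk,
      Matrix.mul_neg, Matrix.neg_mul]
    abel
  rw [dM_mul, dM_mul, hdN, hj, hjt]
  have e1 : j * a k * N * jᵀ = j * N * a k * jᵀ := by
    rw [Matrix.mul_assoc j (a k) N, hc k, ← Matrix.mul_assoc j N (a k)]
  simp only [Matrix.sub_mul, Matrix.mul_sub, Matrix.mul_zero, add_zero]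
  have e2 : j * N * (a k * jᵀ) = j * N * a k * jᵀ := (Matrix.mul_assoc _ _ _).symm
  have e3 : om * (j * N * jᵀ) = om * j * N * jᵀ := by simp only [Matrix.mul_assoc]
  have e4 : j * N * (jᵀ * om) = j * N * jᵀ * om := (Matrix.mul_assoc _ _ _).symm
  rw [e1, e2, e3, e4]
  abel

/-- the potential is parallel at `z` -/
lemma par_pt (L : LF D h a j) {N : Matrix ι ι (SG (chartCentre n M z))}
    (hN : ∀ k x y, h.frameOf.D k (N x y) = 0) (hc : ∀ k, a k * N = N * a k)
    {Q : κ → κ → M → ℝ} (hQ : ∀ x y, ContMDiff 𝓘E 𝓘(ℝ, ℝ) ∞ (Q x y))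
    (hg : (Matrix.of fun y y' => fg (n := n) z (Q y y')) = j * N * jᵀ) (x y : κ) :
    mgrad n (Q x y) z + ∑ w, (Q w y z • D.W x w z - Q x w z • D.W w y z) = 0 := by
  have s1 : ∀ q, VSm n ∞ (mgrad n (Q x y)) q := fun q => VSm_mgrad (hQ x y q) (by simp) le_rfl
  have s2 : ∀ w q, VSm n ∞ (fun q => Q w y q • D.W x w q) q := fun w q =>
    VSm.smul le_rfl (hQ w y).contMDiffAt (D.smW x w q)
  have s3 : ∀ w q, VSm n ∞ (fun q => Q x w q • D.W w y q) q := fun w q =>
    VSm.smul le_rfl (hQ x w).contMDiffAt (D.smW w y q)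
  have s4 : ∀ w q, VSm n ∞ (fun q => Q w y q • D.W x w q - Q x w q • D.W w y q) q := fun w q => by
    have := (s2 w q).add (s3 w q).neg
    simpa only [sub_eq_add_neg] using this
  have s5 : ∀ q, VSm n ∞ (fun q => ∑ w, (Q w y q • D.W x w q - Q x w q • D.W w y q)) q := fun q =>
    VSm.sum _ fun w _ => s4 w q
  have s6 : ∀ q, VSm n ∞ (fun q => mgrad n (Q x y) q +
      ∑ w, (Q w y q • D.W x w q - Q x w q • D.W w y q)) q := fun q => (s1 q).add (s5 q)
  have e1 := eq_sum_ev_vg h s6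
  have e2 : ∀ k, vg z e (fun q => mgrad n (Q x y) q +
      ∑ w, (Q w y q • D.W x w q - Q x w q • D.W w y q)) k = 0 := by
    intro k
    rw [vg_add h s1 s5, vg_mgrad h (hQ x y), vg_sum h _ s4]
    have e3 : ∀ w, vg z e (fun q => Q w y q • D.W x w q - Q x w q • D.W w y q) k =
        vg z e (D.W x w) k * fg z (Q w y) - fg z (Q x w) * vg z e (D.W w y) k := by
      intro w
      rw [vg_sub h (s2 w) (s3 w), vg_smul h (hQ w y) (D.smW x w), vg_smul h (hQ x w) (D.smW w y),
        mul_comm (fg z (Q w y))]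
    simp only [e3, Finset.sum_sub_distrib]
    have e4 := congrFun (congrFun (par_germ L hN hc k) x) y
    rw [← hg] at e4
    rw [Matrix.sub_apply, Matrix.add_apply, Matrix.mul_apply, Matrix.mul_apply] at e4
    rw [← add_sub_assoc]
    exact e4
  simp only [e2, map_zero, zero_smul, Finset.sum_const_zero] at e1
  exact e1

end germ

end Crest.Agent.R249.Ker57
end
end

-- ▼ part R249/Kg5_285
section

/-!
# R249, C3-GLOB (helper285), part 5: adapters

`IsKill`, `Kill5` (as frozen in post #2563), `kill_of_isKill`, `tI_of_kill5`;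
`vc_eq_vg` : my `vc` is 805's `Tz805.vg` and 129's `ONF.vg` for smooth fields.
-/

set_option autoImplicit false
set_option maxSynthPendingDepth 3
set_option linter.unusedSectionVars false

open Filter Topology Set Bundle
open scoped ContDiff Manifold
open Crest.GeometryTopology.CoordMetric Crest.GeometryTopology.ChartCurvature
  Crest.GeometryTopology.PointedLimit
open Crest.Agent.R202.Tens Crest.Agent.R247.Bo84 Crest.Agent.R249.FrmB_285
open Crest.Agent.R249.FrmC_285 Crest.Agent.R249.FrmD_285 Crest.Agent.R249.OriD_285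
open Crest.Agent.R249.Fr129 Crest.Agent.R249.Sg129 Crest.Agent.R249.Vf281
  Crest.Agent.R249.Kil1_805 Crest.Agent.R249.Kg3_285 Crest.Agent.R249.Kg4_285
  Crest.Agent.R249.Trw_285 Crest.Agent.R249.Trx_285 Crest.Agent.R249.Qr_285

noncomputable section

namespace Crest.Agent.R249.Kg5_285

section gen

variable {n : ℕ} {M : Type*} [TopologicalSpace M] [ChartedSpace (EuclideanSpace ℝ (Fin n)) M]
  [IsManifold 𝓘(ℝ, EuclideanSpace ℝ (Fin n)) ∞ M]
  [RiemannianBundle (fun x : M => TangentSpace 𝓘(ℝ, EuclideanSpace ℝ (Fin n)) x)]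
  [IsContMDiffRiemannianBundle 𝓘(ℝ, EuclideanSpace ℝ (Fin n)) ∞ (EuclideanSpace ℝ (Fin n))
      (fun x : M => TangentSpace 𝓘(ℝ, EuclideanSpace ℝ (Fin n)) x)]

local notation "𝔼" => EuclideanSpace ℝ (Fin n)
local notation "𝓘E" => 𝓘(ℝ, EuclideanSpace ℝ (Fin n))


variable {z : M} {e : Fin n → EuclideanSpace ℝ (Fin n) → EuclideanSpace ℝ (Fin n)}
  {X : (q : M) → TangentSpace 𝓘(ℝ, EuclideanSpace ℝ (Fin n)) q}


theorem vc_eq_vg (h : ONF (chartMetric n M z) (chartAt 𝔼 z).target (chartCentre n M z) e)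
    (hX : VSm n ∞ X z) : vc h hX = Tz805.vg z e X := by
  funext i
  have h1 : ContDiffAt ℝ ∞ (fun y => bil (chartMetric n M z y) (vCh n z X y) (e i y))
    (chartCentre n M z) := h.cd_bil hX (h.smooth i)
  exact (dif_pos h1).symm


end gen

local notation "𝔼" => EuclideanSpace ℝ (Fin 4)
local notation "𝓘E" => 𝓘(ℝ, EuclideanSpace ℝ (Fin 4))

section four

variable (N : Type*) [TopologicalSpace N] [ChartedSpace (EuclideanSpace ℝ (Fin 4)) N]
  [IsManifold 𝓘(ℝ, EuclideanSpace ℝ (Fin 4)) ∞ N]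
  [RiemannianBundle (fun x : N => TangentSpace 𝓘(ℝ, EuclideanSpace ℝ (Fin 4)) x)]
  [IsContMDiffRiemannianBundle 𝓘(ℝ, EuclideanSpace ℝ (Fin 4)) ∞ (EuclideanSpace ℝ (Fin 4))
      (fun x : N => TangentSpace 𝓘(ℝ, EuclideanSpace ℝ (Fin 4)) x)]


end four

variable {N : Type*} [TopologicalSpace N] [ChartedSpace (EuclideanSpace ℝ (Fin 4)) N]
  [IsManifold 𝓘(ℝ, EuclideanSpace ℝ (Fin 4)) ∞ N]
  [RiemannianBundle (fun x : N => TangentSpace 𝓘(ℝ, EuclideanSpace ℝ (Fin 4)) x)]
  [IsContMDiffRiemannianBundle 𝓘(ℝ, EuclideanSpace ℝ (Fin 4)) ∞ (EuclideanSpace ℝ (Fin 4))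
      (fun x : N => TangentSpace 𝓘(ℝ, EuclideanSpace ℝ (Fin 4)) x)]







end Crest.Agent.R249.Kg5_285
end
end

-- ▼ part R249/Ker57e_57
section

/-!
# R249 part C, [KER] 5 (helper57): the Killing fields of `ker A` for `G = Λ⁻`.
-/

set_option autoImplicit false
set_option linter.unusedSectionVars false
set_option linter.unusedSimpArgs false
set_option maxSynthPendingDepth 3

open Filter Topology Set Bundle Manifold Matrix MeasureTheory
open scoped ContDiff ENNReal NNReal
open Crest.GeometryTopology.CoordMetric Crest.GeometryTopology.ChartCurvature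
  Crest.GeometryTopology.PointedLimit
open Crest.Agent.R202.Tens Crest.Agent.R247.Bo84 Crest.Agent.R249.Vf281
  Crest.Agent.R249.Tz1_805 Crest.Agent.R249.Tz2_805
open Crest.Agent.R249.Fr129 Crest.Agent.R249.C2_198
open Crest.Agent.R247.Ms322 Crest.Agent.R247.Dir593 Crest.Agent.R247.Frd657
open Crest.Agent.R249.Tv57
open Crest.Agent.R249.Sg129 hiding fg fg_add fg_sub fg_mul fg_const fg_sum ev_fg contMDiff_inner
  VSm_mCov fg_zero
open Crest.Agent.R249.Tz805 Crest.Agent.R249.Wk198 Crest.Agent.R249.Kil1_805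

noncomputable section

namespace Crest.Agent.R249.Ker57

/-! ### ring computation -/

section ring
variable {S : Type*} [CommRing S] [Algebra ℝ S]

lemma dot_iso {κ ι : Type*} [Fintype κ] [Fintype ι] [DecidableEq ι] {j : Matrix κ ι S}
    (hj : jᵀ * j = 1) (u v : ι → S) : (j *ᵥ u) ⬝ᵥ (j *ᵥ v) = u ⬝ᵥ v := by
  rw [Matrix.dotProduct_mulVec, ← Matrix.mulVec_transpose, Matrix.mulVec_mulVec, hj,
    Matrix.one_mulVec]

lemma vf_ring {κ μ : Type*} [Fintype κ] [Fintype μ] {jT : Matrix κ (Fin 4) S}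
    {jL : Matrix μ (Fin 3) S} (hT : jTᵀ * jT = 1) (hL : jLᵀ * jL = 1) (X : Fin 4 → Fin 3 → S)
    (k : Fin 4) :
    ∑ A, (∑ y, ∑ i, (∑ b, jL y b * (2 * X i b)) *
      (∑ l, ∑ b, jT A l * K S b l i * jL y b)) * jT A k = 2 * ∑ a, ∑ i, K S a k i * X i a := by
  have e1 : ∀ A, (∑ y, ∑ i, (∑ b, jL y b * (2 * X i b)) *
      (∑ l, ∑ b, jT A l * K S b l i * jL y b)) = ∑ i, ∑ b, (2 * X i b) * ∑ l, jT A l * K S b l i := by
    intro A
    rw [Finset.sum_comm]
    refine Finset.sum_congr rfl fun i _ => ?_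
    have h1 := dot_iso hL (fun b => 2 * X i b) (fun b => ∑ l, jT A l * K S b l i)
    simp only [dotProduct, Matrix.mulVec] at h1
    rw [← h1]
    refine Finset.sum_congr rfl fun y _ => ?_
    congr 1
    rw [Finset.sum_comm]
    refine Finset.sum_congr rfl fun b _ => ?_
    rw [Finset.mul_sum]
    exact Finset.sum_congr rfl fun l _ => by ring
  have e2 : ∀ l, ∑ A, jT A l * jT A k = if l = k then 1 else 0 := by
    intro l
    have := congrFun (congrFun hT l) k
    rw [Matrix.mul_apply, Matrix.one_apply] at this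
    exact this
  have e4 : ∀ A, (∑ i, ∑ b, (2 * X i b) * ∑ l, jT A l * K S b l i) * jT A k =
      ∑ i, ∑ b, ∑ l, 2 * X i b * K S b l i * (jT A l * jT A k) := by
    intro A
    rw [Finset.sum_mul]
    refine Finset.sum_congr rfl fun i _ => ?_
    rw [Finset.sum_mul]
    refine Finset.sum_congr rfl fun b _ => ?_
    rw [Finset.mul_sum, Finset.sum_mul]
    exact Finset.sum_congr rfl fun l _ => by ring
  have e5 : ∑ A, ∑ i, ∑ b, ∑ l, 2 * X i b * K S b l i * (jT A l * jT A k) =
      ∑ i, ∑ b, ∑ l, 2 * X i b * K S b l i * ∑ A, jT A l * jT A k := by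
    rw [Finset.sum_comm]
    refine Finset.sum_congr rfl fun i _ => ?_
    rw [Finset.sum_comm]
    refine Finset.sum_congr rfl fun b _ => ?_
    rw [Finset.sum_comm]
    exact Finset.sum_congr rfl fun l _ => by rw [Finset.mul_sum]
  simp only [e1, e4]
  rw [e5]
  simp only [e2, mul_ite, mul_one, mul_zero, Finset.sum_ite_eq', Finset.mem_univ, if_true]
  rw [Finset.sum_comm, Finset.mul_sum]
  refine Finset.sum_congr rfl fun b _ => ?_
  rw [Finset.mul_sum]
  exact Finset.sum_congr rfl fun i _ => by ring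

lemma emb_smul (r : S) (σ : Fin 3 → S) : emb (r • σ) = r • emb σ := by
  funext ⟨a, b⟩
  fin_cases a <;> fin_cases b <;> simp [emb] <;> ring

lemma emb_zero : emb (0 : Fin 3 → S) = 0 := by
  funext ⟨a, b⟩
  fin_cases a <;> fin_cases b <;> simp [emb]

/-- an eigenvector is a twistor vector -/
lemma eq_emb {u : Fin 4 × Fin 3 → S} (h : NN S *ᵥ u = (-2 : S) • u) :
    u = emb (algebraMap ℝ S (1 / 6) • embT u) := by
  have h6 := eig_m2 h
  rw [emb_smul, ← h6, smul_smul]
  have : algebraMap ℝ S (1 / 6) * 6 = 1 := by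
    have e : (6 : S) = algebraMap ℝ S 6 := (map_ofNat (algebraMap ℝ S) 6).symm
    rw [e, ← map_mul]; norm_num
  rw [this, one_smul]

end ring

/-! ### local data -/

section loc

variable {M : Type*} [TopologicalSpace M] [ChartedSpace (EuclideanSpace ℝ (Fin 4)) M]
  [IsManifold 𝓘(ℝ, EuclideanSpace ℝ (Fin 4)) ∞ M]
  [RiemannianBundle (fun x : M => TangentSpace 𝓘(ℝ, EuclideanSpace ℝ (Fin 4)) x)]
  [IsContMDiffRiemannianBundle 𝓘(ℝ, EuclideanSpace ℝ (Fin 4)) ∞ (EuclideanSpace ℝ (Fin 4))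
      (fun x : M => TangentSpace 𝓘(ℝ, EuclideanSpace ℝ (Fin 4)) x)]

local notation "𝓘E" => 𝓘(ℝ, EuclideanSpace ℝ (Fin 4))

variable {κ : Type} [Fintype κ]

/-- Local data at `z` of the pair `G = Λ⁻`. -/
structure KerLoc (s : PF 4 M κ)
    (vol : (z : M) → (Fin 4 → TangentSpace 𝓘(ℝ, EuclideanSpace ℝ (Fin 4)) z) → ℝ)
    (D0 : Bun 4 M (Option (κ × κ) × (κ × κ))) (D1 : Bun 4 M (κ × (κ × κ))) {z : M}
    {e : Fin 4 → EuclideanSpace ℝ (Fin 4) → EuclideanSpace ℝ (Fin 4)}
    (h : ONF (chartMetric 4 M z) (chartAt (EuclideanSpace ℝ (Fin 4)) z).target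
      (chartCentre 4 M z) e)
    (jL : Matrix (κ × κ) (Fin 3) (SG (chartCentre 4 M z)))
    (j0 : Matrix (Option (κ × κ) × (κ × κ)) (Fin 4 × Fin 3) (SG (chartCentre 4 M z)))
    (j1 : Matrix (κ × (κ × κ)) (Fin 4 × Fin 3) (SG (chartCentre 4 M z))) : Prop where
  jtj : jLᵀ * jL = 1
  sym : ∀ A y k, vg z e (ccR s vol A (some y)) k =
    ∑ l, ∑ b, tanJ s z e A l * K _ b l k * jL y b
  none_ : ∀ y a b, j0 (none, y) (a, b) = if a = 0 then jL y b else 0
  cl : CLoc D0 D1 (ccT (ccR s vol) (lamP s vol)) h (Frame.tens (e0 h.frameOf) (asc h.frameOf))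
    (Frame.tens h.frameOf.tan (asc h.frameOf)) (tw (cK _)) j0 j1

/-- the vector field of a section -/
def VF (s : PF 4 M κ)
    (vol : (z : M) → (Fin 4 → TangentSpace 𝓘(ℝ, EuclideanSpace ℝ (Fin 4)) z) → ℝ)
    (D0 : Bun 4 M (Option (κ × κ) × (κ × κ))) (u : Option (κ × κ) × (κ × κ) → M → ℝ) (z : M) :
    TangentSpace 𝓘(ℝ, EuclideanSpace ℝ (Fin 4)) z :=
  (1 / 6 : ℝ) • ∑ A, (∑ y, (inner ℝ (D0.cv u (none, y) z) (ccR s vol A (some y) z) : ℝ)) • s.s A z

variable {s : PF 4 M κ}
  {vol : (z : M) → (Fin 4 → TangentSpace 𝓘(ℝ, EuclideanSpace ℝ (Fin 4)) z) → ℝ}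
  {D0 : Bun 4 M (Option (κ × κ) × (κ × κ))} {D1 : Bun 4 M (κ × (κ × κ))}
  (smR : ∀ A y q, VSm 4 ∞ (ccR s vol A (some y)) q)

section VFs
variable {u : Option (κ × κ) × (κ × κ) → M → ℝ} (hu : SmU (n := 4) u)
include smR hu

lemma sm_co (A : κ) : ContMDiff 𝓘E 𝓘(ℝ, ℝ) ∞
    (fun z => ∑ y, (inner ℝ (D0.cv u (none, y) z) (ccR s vol A (some y) z) : ℝ)) :=
  ContMDiff.sum fun y _ => Dic805.contMDiff_inner (VSm_cv D0 hu (none, y)) (smR A y)

lemma VSm_VF (z : M) : VSm 4 ∞ (VF s vol D0 u) z := by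
  have h1 : VSm 4 ∞ (fun z => ∑ A, (∑ y, (inner ℝ (D0.cv u (none, y) z)
      (ccR s vol A (some y) z) : ℝ)) • s.s A z) z :=
    VSm.sum _ fun A _ => VSm.smul le_rfl (sm_co (D0 := D0) smR hu A).contMDiffAt (s.sm A z)
  exact VSm.smul (f := fun _ => (1 / 6 : ℝ)) le_rfl contMDiffAt_const h1

end VFs

variable {z : M} {e : Fin 4 → EuclideanSpace ℝ (Fin 4) → EuclideanSpace ℝ (Fin 4)}
  {h : ONF (chartMetric 4 M z) (chartAt (EuclideanSpace ℝ (Fin 4)) z).target
      (chartCentre 4 M z) e}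
  {jL : Matrix (κ × κ) (Fin 3) (SG (chartCentre 4 M z))}
  {j0 : Matrix (Option (κ × κ) × (κ × κ)) (Fin 4 × Fin 3) (SG (chartCentre 4 M z))}
  {j1 : Matrix (κ × (κ × κ)) (Fin 4 × Fin 3) (SG (chartCentre 4 M z))}
  (L : KerLoc s vol D0 D1 h jL j0 j1)
include L smR

/-- components of the vector field of a section -/
theorem vg_VF {u : Option (κ × κ) × (κ × κ) → M → ℝ} (hu : SmU (n := 4) u) (hs : D0.Sec u)
    {σ : Fin 3 → SG (chartCentre 4 M z)} (hσ : j0ᵀ *ᵥ fv z u = emb σ) (k : Fin 4) :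
    vg z e (VF s vol D0 u) k = Frame.third * V3 h.frameOf σ k := by
  have s1 := fun A => sm_co (D0 := D0) smR hu A
  have s2 : ∀ A q, VSm 4 ∞ (fun z => (∑ y, (inner ℝ (D0.cv u (none, y) z)
      (ccR s vol A (some y) z) : ℝ)) • s.s A z) q := fun A q =>
    VSm.smul le_rfl (s1 A).contMDiffAt (s.sm A q)
  have s3 : ∀ q, VSm 4 ∞ (fun z => ∑ A, (∑ y, (inner ℝ (D0.cv u (none, y) z)
      (ccR s vol A (some y) z) : ℝ)) • s.s A z) q := fun q => VSm.sum _ fun A _ => s2 A q
  have e0 : vg z e (VF s vol D0 u) k = (1 / 6 : ℝ) • vg z e (fun z => ∑ A,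
      (∑ y, (inner ℝ (D0.cv u (none, y) z) (ccR s vol A (some y) z) : ℝ)) • s.s A z) k :=
    vg_csmul h (1 / 6) s3 k
  have e1 : ∀ y i, vg z e (D0.cv u (none, y)) i =
      ∑ b, jL y b * (2 * h.frameOf.cov (asc h.frameOf) i σ b) := by
    intro y i
    rw [lf_cv L.cl.l0 hu hs, hσ, cov_emb, Matrix.mulVec, dotProduct, Fintype.sum_prod_type]
    simp only [L.none_, ite_mul, zero_mul]
    rw [Finset.sum_comm]
    refine Finset.sum_congr rfl fun b _ => ?_
    rw [Finset.sum_ite_eq', if_pos (Finset.mem_univ _)]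
    congr 1
    fin_cases b <;> simp [emb]
  have e2 : ∀ A, fg z (fun z => ∑ y, (inner ℝ (D0.cv u (none, y) z)
      (ccR s vol A (some y) z) : ℝ)) = ∑ y, ∑ i,
        (∑ b, jL y b * (2 * h.frameOf.cov (asc h.frameOf) i σ b)) *
        (∑ l, ∑ b, tanJ s z e A l * K _ b l i * jL y b) := by
    intro A
    rw [fg_sum (n := 4) (z := z) Finset.univ
      (F := fun y z => (inner ℝ (D0.cv u (none, y) z) (ccR s vol A (some y) z) : ℝ))
      (fun y => Dic805.contMDiff_inner (VSm_cv D0 hu (none, y)) (smR A y))]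
    refine Finset.sum_congr rfl fun y _ => ?_
    rw [fg_inner h (VSm_cv D0 hu (none, y)) (smR A y)]
    exact Finset.sum_congr rfl fun i _ => by rw [e1, L.sym]
  have e3 : vg z e (fun z => ∑ A,
      (∑ y, (inner ℝ (D0.cv u (none, y) z) (ccR s vol A (some y) z) : ℝ)) • s.s A z) k =
      2 * V3 h.frameOf σ k := by
    rw [vg_sum h _ s2]
    have e4 := vf_ring (tanJ_jtj s h) L.jtj (fun i b => h.frameOf.cov (asc h.frameOf) i σ b) k
    rw [V3, ← e4]
    refine Finset.sum_congr rfl fun A _ => ?_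
    rw [vg_smul h (s1 A) (s.sm A), e2]
    rfl
  rw [e0, e3, Frame.third, Algebra.smul_def]
  have e5 : algebraMap ℝ (SG (chartCentre 4 M z)) (1 / 6) * 2 = algebraMap ℝ _ (1 / 3) := by
    have e : (2 : SG (chartCentre 4 M z)) = algebraMap ℝ _ 2 :=
      (map_ofNat (algebraMap ℝ (SG (chartCentre 4 M z))) 2).symm
    rw [e, ← map_mul]; norm_num
  rw [← mul_assoc, e5]

end loc

end Crest.Agent.R249.Ker57
end
end

-- ▼ part R249/Ker57f_57
section

/-!
# R249 part C, [KER] 6 (helper57): assembly.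
-/

set_option autoImplicit false
set_option linter.unusedSectionVars false
set_option linter.unusedSimpArgs false
set_option maxSynthPendingDepth 3

open Filter Topology Set Bundle Manifold Matrix MeasureTheory
open scoped ContDiff ENNReal NNReal
open Crest.GeometryTopology.CoordMetric Crest.GeometryTopology.ChartCurvature
  Crest.GeometryTopology.PointedLimit
open Crest.Agent.R202.Tens Crest.Agent.R247.Bo84 Crest.Agent.R249.Vf281
  Crest.Agent.R249.Tz1_805 Crest.Agent.R249.Tz2_805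
open Crest.Agent.R249.Fr129 Crest.Agent.R249.C2_198
open Crest.Agent.R247.Ms322 Crest.Agent.R247.Dir593 Crest.Agent.R247.Frd657
open Crest.Agent.R249.Tv57
open Crest.Agent.R249.Sg129 hiding fg fg_add fg_sub fg_mul fg_const fg_sum ev_fg contMDiff_inner
  VSm_mCov fg_zero
open Crest.Agent.R249.Tz805 Crest.Agent.R249.Wk198 Crest.Agent.R249.Kil1_805
open Crest.Agent.R249.HK9_714 (WD)

noncomputable section

namespace Crest.Agent.R249.Ker57

variable {M : Type*} [MetricSpace M] [ChartedSpace (EuclideanSpace ℝ (Fin 4)) M]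
  [IsManifold (𝓡 4) ∞ M]
  [RiemannianBundle (fun p : M => TangentSpace (𝓡 4) p)]
  [IsContMDiffRiemannianBundle (𝓡 4) ∞ (EuclideanSpace ℝ (Fin 4)) (fun p : M => TangentSpace (𝓡 4) p)]
  [IsRiemannianManifold (𝓡 4) M] [MeasurableSpace M] [BorelSpace M]
  [SecondCountableTopology M] [Nonempty M]

/-- matrices of values -/
def evm {z : M} {α β : Type*} (A : Matrix α β (SG (chartCentre 4 M z))) : Matrix α β ℝ :=
  A.map (ev : SG (chartCentre 4 M z) →ₐ[ℝ] ℝ)

section evm
variable {z : M} {α β γ : Type*} [Fintype β]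

lemma evm_mul (A : Matrix α β (SG (chartCentre 4 M z))) (B : Matrix β γ (SG (chartCentre 4 M z))) :
    evm (A * B) = evm A * evm B := by
  ext i k
  simp [evm, Matrix.mul_apply]

lemma evm_t (A : Matrix α β (SG (chartCentre 4 M z))) : evm Aᵀ = (evm A)ᵀ := rfl

lemma evm_one [DecidableEq α] : evm (1 : Matrix α α (SG (chartCentre 4 M z))) = 1 := by
  ext i k
  by_cases hik : i = k
  · subst hik; simp [evm]
  · simp [evm, Matrix.one_apply, hik]

lemma evm_NN (c : ℝ) : evm (algebraMap ℝ (SG (chartCentre 4 M z)) c • NN (SG (chartCentre 4 M z))) =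
    c • NN ℝ := by
  ext i k
  have e1 : NN (SG (chartCentre 4 M z)) i k = ((NZ i k : ℤ) : SG (chartCentre 4 M z)) := rfl
  have e2 : NN ℝ i k = ((NZ i k : ℤ) : ℝ) := rfl
  rw [Matrix.smul_apply, e2, evm, Matrix.map_apply, Matrix.smul_apply, e1, smul_eq_mul, map_mul,
    map_intCast, smul_eq_mul]
  congr 1

end evm

variable {κ : Type} [Fintype κ] {T : ToF 4 M}
  {P : CPair 4 M κ (Option (κ × κ) × (κ × κ)) (κ × (κ × κ))}
  {D0 : Dat 4 M (Option (κ × κ) × (κ × κ))} {D1 : Dat 4 M (κ × (κ × κ))}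
  {vol : (z : M) → (Fin 4 → TangentSpace (𝓡 4) z) → ℝ}

/-- everything needed at a point -/
structure KerPt (P : CPair 4 M κ (Option (κ × κ) × (κ × κ)) (κ × (κ × κ)))
    (vol : (z : M) → (Fin 4 → TangentSpace (𝓡 4) z) → ℝ) (c : ℝ) {z : M}
    {e : Fin 4 → EuclideanSpace ℝ (Fin 4) → EuclideanSpace ℝ (Fin 4)}
    (h : ONF (chartMetric 4 M z) (chartAt (EuclideanSpace ℝ (Fin 4)) z).target
      (chartCentre 4 M z) e) : Prop where
  ein : ∃ lam, h.frameOf.Einstein lam
  csc : CScal h.frameOf (algebraMap ℝ _ c)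
  loc : ∃ jL j0 j1, KerLoc P.s vol P.D0 P.D1 h jL j0 j1

section pt

variable (W : WD T P D0 D1) (hcc : P.cc = ccT (ccR P.s vol) (lamP P.s vol)) {c : ℝ}
  {z : M} {e : Fin 4 → EuclideanSpace ℝ (Fin 4) → EuclideanSpace ℝ (Fin 4)}
  {h : ONF (chartMetric 4 M z) (chartAt (EuclideanSpace ℝ (Fin 4)) z).target
      (chartCentre 4 M z) e}
  {jL : Matrix (κ × κ) (Fin 3) (SG (chartCentre 4 M z))}
  {j0 : Matrix (Option (κ × κ) × (κ × κ)) (Fin 4 × Fin 3) (SG (chartCentre 4 M z))}
  {j1 : Matrix (κ × (κ × κ)) (Fin 4 × Fin 3) (SG (chartCentre 4 M z))}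
  (L : KerLoc P.s vol P.D0 P.D1 h jL j0 j1) (hC : CScal h.frameOf (algebraMap ℝ _ c))
include W hcc L hC

lemma germQ : (Matrix.of fun y y' => fg (n := 4) z (D0.Q y y')) =
    j0 * (algebraMap ℝ (SG (chartCentre 4 M z)) c • NN (SG (chartCentre 4 M z))) * j0ᵀ := by
  have hc' : CLoc P.D0 P.D1 P.cc h (Frame.tens (e0 h.frameOf) (asc h.frameOf))
    (Frame.tens h.frameOf.tan (asc h.frameOf)) (tw (cK _)) j0 j1 := by
    rw [hcc]; exact L.cl
  rw [W.germ0 hc', Q0_twist hC]

lemma valJ : (evm j0)ᵀ * evm j0 = 1 := by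
  rw [← evm_t, ← evm_mul, L.cl.l0.jtj, evm_one]

lemma valQ : (Matrix.of fun y y' => D0.Q y y' z) = evm j0 * (c • NN ℝ) * (evm j0)ᵀ := by
  rw [← evm_NN (M := M) (z := z) c, ← evm_t, ← evm_mul, ← evm_mul, ← germQ W hcc L hC]
  ext y y'
  exact (Tz805.ev_fg (n := 4) (M := M) (z := z) (D0.smQ y y')).symm

lemma valp : (Matrix.of fun y y' => D0.p y y' z) = evm j0 * (evm j0)ᵀ := by
  rw [← evm_t, ← evm_mul, L.cl.l0.jjt, W.p0]
  ext y y'
  exact (Tz805.ev_fg (n := 4) (M := M) (z := z) (P.D0.smp y y')).symm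

end pt

section glob

variable (W : WD T P D0 D1) (hcc : P.cc = ccT (ccR P.s vol) (lamP P.s vol)) {c : ℝ}
  (hloc : ∀ z, ∃ e, ∃ h : ONF (chartMetric 4 M z) (chartAt (EuclideanSpace ℝ (Fin 4)) z).target
      (chartCentre 4 M z) e, KerPt P vol c h)
include W hcc hloc

theorem polyPot : PolyPot D0 c where
  qp a b z := by
    obtain ⟨e, h, hp⟩ := hloc z
    obtain ⟨jL, j0, j1, L⟩ := hp.loc
    have h1 := valJ W hcc L hp.csc
    have h2 := valQ W hcc L hp.csc
    have h3 := valp W hcc L hp.csc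
    have h4 : (Matrix.of fun y y' => D0.Q y y' z) * (Matrix.of fun y y' => D0.p y y' z) =
        Matrix.of fun y y' => D0.Q y y' z := by
      rw [h2, h3]
      have : evm j0 * (c • NN ℝ) * (evm j0)ᵀ * (evm j0 * (evm j0)ᵀ) =
          evm j0 * (c • NN ℝ) * ((evm j0)ᵀ * evm j0) * (evm j0)ᵀ := by
        simp only [Matrix.mul_assoc]
      rw [this, h1, Matrix.mul_one]
    have h5 := congrFun (congrFun h4 a) b
    rw [Matrix.mul_apply] at h5
    exact h5
  par a b z := by
    obtain ⟨e, h, hp⟩ := hloc z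
    obtain ⟨jL, j0, j1, L⟩ := hp.loc
    have hN : ∀ k x y, h.frameOf.D k ((algebraMap ℝ (SG (chartCentre 4 M z)) c •
        NN (SG (chartCentre 4 M z))) x y) = 0 := by
      intro k x y
      have e1 : NN (SG (chartCentre 4 M z)) x y = ((NZ x y : ℤ) : SG (chartCentre 4 M z)) := rfl
      rw [Matrix.smul_apply, e1, smul_eq_mul, Derivation.leibniz, D_intCast,
        Derivation.map_algebraMap, smul_zero, smul_zero, add_zero]
    have hcm : ∀ k, Frame.tens (e0 h.frameOf) (asc h.frameOf) k *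
        (algebraMap ℝ (SG (chartCentre 4 M z)) c • NN (SG (chartCentre 4 M z))) =
        (algebraMap ℝ (SG (chartCentre 4 M z)) c • NN (SG (chartCentre 4 M z))) *
          Frame.tens (e0 h.frameOf) (asc h.frameOf) k := by
      intro k
      rw [Matrix.mul_smul, Matrix.smul_mul, NN_comm]
    have h1 := par_pt (n := 4) L.cl.l0 hN hcm (Q := D0.Q) D0.smQ (germQ W hcc L hp.csc) a b
    have h2 := congrArg (T.toF z) h1
    rw [map_add, map_sum, T.grad _ _ (D0.smQ a b), map_zero] at h2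
    simp only [map_sub, map_smul, ← W.X0] at h2
    exact h2
  poly z := by
    obtain ⟨e, h, hp⟩ := hloc z
    obtain ⟨jL, j0, j1, L⟩ := hp.loc
    exact polyAt_of (valJ W hcc L hp.csc) (valQ W hcc L hp.csc)

theorem finrank_W0 (hc : c ≠ 0) (z : M) : Module.finrank ℝ (W0 D0 z) ≤ 1 := by
  obtain ⟨e, h, hp⟩ := hloc z
  obtain ⟨jL, j0, j1, L⟩ := hp.loc
  have h1 : W0 D0 z ≤ Submodule.span ℝ {evm j0 *ᵥ embd (1:ℝ)} := by
    rintro y ⟨hy1, hy2⟩
    have := ker_pt (valJ W hcc L hp.csc) hc (valQ W hcc L hp.csc) (valp W hcc L hp.csc) hy1 hy2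
    rw [this]
    exact Submodule.smul_mem _ _ (Submodule.mem_span_singleton_self _)
  exact (Submodule.finrank_mono h1).trans ((finrank_span_le_card _).trans (by simp))

/-- **counting** -/
theorem count [CompactSpace M] [PreconnectedSpace M] [IsFiniteMeasureOnCompacts (μHE[4] : Measure M)]
    (hc : 0 < c) {R : DPair D0 D1} {N : ℕ} (K : KerD D0 R.A N) :
    N ≤ Module.finrank ℝ (kerSub2 R c) + 1 := by
  obtain ⟨z0⟩ := (inferInstance : Nonempty M)
  exact ker_count (polyPot W hcc hloc) hc K z0 (finrank_W0 W hcc hloc hc.ne' z0)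

end glob

/-! ### twistor sections -/

section tw

variable (W : WD T P D0 D1) (hcc : P.cc = ccT (ccR P.s vol) (lamP P.s vol)) {c : ℝ} (hc : c ≠ 0)
  {R : DPair D0 D1} (hR : R.A = opA P.D0 P.cc)
include W hcc hc hR

/-- the local form of a twistor section -/
theorem exists_sigma {u : Option (κ × κ) × (κ × κ) → M → ℝ} (hu : u ∈ kerSub2 R c) {z : M}
    {e : Fin 4 → EuclideanSpace ℝ (Fin 4) → EuclideanSpace ℝ (Fin 4)}
    {h : ONF (chartMetric 4 M z) (chartAt (EuclideanSpace ℝ (Fin 4)) z).target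
      (chartCentre 4 M z) e}
    {jL : Matrix (κ × κ) (Fin 3) (SG (chartCentre 4 M z))}
    {j0 : Matrix (Option (κ × κ) × (κ × κ)) (Fin 4 × Fin 3) (SG (chartCentre 4 M z))}
    {j1 : Matrix (κ × (κ × κ)) (Fin 4 × Fin 3) (SG (chartCentre 4 M z))}
    (L : KerLoc P.s vol P.D0 P.D1 h jL j0 j1) (hC : CScal h.frameOf (algebraMap ℝ _ c)) :
    ∃ σ : Fin 3 → SG (chartCentre 4 M z), j0ᵀ *ᵥ fv z u = emb σ ∧
      TwistM h.frameOf σ (fun j => Frame.third * V3 h.frameOf σ j) := by
  obtain ⟨⟨hu1, hu2, hu3⟩, hu4⟩ := hu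
  have hs : P.D0.Sec u := by
    intro a q
    rw [← W.p0]
    exact hu2 a q
  have hsec := lf_sec L.cl.l0 hu1 hs
  set v := j0ᵀ *ᵥ fv z u with hv
  set c' : SG (chartCentre 4 M z) := algebraMap ℝ _ c with hc'
  -- the eigenvalue equation
  have e1 : (Matrix.of fun y y' => fg (n := 4) z (D0.Q y y')) *ᵥ fv z u = (-(2 * c')) • fv z u := by
    funext a
    have f1 : (fun q => ∑ b, D0.Q a b q * u b q) = fun q => (-(2 * c)) * u a q := funext fun q => hu4 a q
    have f2 : fg (n := 4) z (fun q => ∑ b, D0.Q a b q * u b q) = fg z (fun q => (-(2 * c)) * u a q) := by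
      rw [f1]
    rw [fg_sum (n := 4) (z := z) Finset.univ (F := fun b q => D0.Q a b q * u b q)
      (fun b => (D0.smQ a b).mul (hu1 b)), fg_cmul (n := 4) (z := z) _ (hu1 a)] at f2
    rw [Pi.smul_apply, smul_eq_mul, Matrix.mulVec, dotProduct]
    have f3 : ∀ b, fg (n := 4) z (fun q => D0.Q a b q * u b q) = fg z (D0.Q a b) * fg z (u b) :=
      fun b => fg_mul (D0.smQ a b) (hu1 b)
    simp only [f3] at f2
    refine Eq.trans ?_ (f2.trans ?_)
    · rfl
    · rw [Algebra.smul_def, map_neg, map_mul, map_ofNat]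
      rfl
  have e2 : (c' • NN (SG (chartCentre 4 M z))) *ᵥ v = (-(2 * c')) • v := by
    have f1 := congrArg (fun w => j0ᵀ *ᵥ w) e1
    simp only [germQ W hcc L hC, ← Matrix.mulVec_mulVec, Matrix.mulVec_smul] at f1
    rw [← hv] at f1
    simp only [Matrix.mulVec_mulVec] at f1
    rw [← Matrix.mul_assoc, L.cl.l0.jtj, Matrix.one_mul] at f1
    exact f1
  have e3 : NN (SG (chartCentre 4 M z)) *ᵥ v = (-2 : SG (chartCentre 4 M z)) • v := by
    have f1 : algebraMap ℝ (SG (chartCentre 4 M z)) c⁻¹ * c' = 1 := by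
      rw [hc', ← map_mul, inv_mul_cancel₀ hc, map_one]
    have f2 := congrArg (fun w => algebraMap ℝ (SG (chartCentre 4 M z)) c⁻¹ • w) e2
    simp only [Matrix.smul_mulVec, smul_smul, f1, one_smul] at f2
    rw [f2]
    congr 1
    linear_combination -2 * f1
  refine ⟨_, eq_emb e3, twistM_of h.frameOf ?_⟩
  rw [← eq_emb e3]
  -- the operator
  have hc'' : CLoc P.D0 P.D1 P.cc h (Frame.tens (e0 h.frameOf) (asc h.frameOf))
    (Frame.tens h.frameOf.tan (asc h.frameOf)) (tw (cK _)) j0 j1 := by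
    rw [hcc]; exact L.cl
  have e4 := cl_opA hc'' P.smc hu1 hs
  have e5 : fv (n := 4) z (opA P.D0 P.cc u) = 0 := by
    funext x
    have : opA P.D0 P.cc u x = fun _ => (0:ℝ) := by
      funext q
      rw [← hR]
      exact hu3 x q
    change fg (n := 4) z (opA P.D0 P.cc u x) = 0
    rw [this]
    exact Tz805.fg_zero (n := 4) (M := M) z
  rw [e5] at e4
  have e6 := congrArg (fun w => j1ᵀ *ᵥ w) e4
  simp only [Matrix.mulVec_zero, Matrix.mulVec_mulVec, L.cl.l1.jtj, Matrix.one_mulVec] at e6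
  exact e6.symm

end tw

/-! ### assembly -/

section final

variable [CompactSpace M] [PreconnectedSpace M] [IsFiniteMeasureOnCompacts (μHE[4] : Measure M)]

/-- the Killing field of a twistor section, linear -/
def VL {R : DPair D0 D1} (P : CPair 4 M κ (Option (κ × κ) × (κ × κ)) (κ × (κ × κ)))
    (vol : (z : M) → (Fin 4 → TangentSpace (𝓡 4) z) → ℝ) (c : ℝ) :
    kerSub2 R c →ₗ[ℝ] ((z : M) → TangentSpace (𝓡 4) z) where
  toFun u := VF P.s vol P.D0 (u : Option (κ × κ) × (κ × κ) → M → ℝ)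
  map_add' u v := by
    have hu : ∀ a, ContMDiff (𝓡 4) 𝓘(ℝ, ℝ) ∞ ((u : Option (κ × κ) × (κ × κ) → M → ℝ) a) := u.2.1.1
    have hv : ∀ a, ContMDiff (𝓡 4) 𝓘(ℝ, ℝ) ∞ ((v : Option (κ × κ) × (κ × κ) → M → ℝ) a) := v.2.1.1
    funext z
    have h1 : ∀ a, P.D0.cv ((u + v : kerSub2 R c) : Option (κ × κ) × (κ × κ) → M → ℝ) a z =
        P.D0.cv (u : Option (κ × κ) × (κ × κ) → M → ℝ) a z +
          P.D0.cv (v : Option (κ × κ) × (κ × κ) → M → ℝ) a z := by
      intro a
      rw [Bun.cv, Bun.cv, Bun.cv]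
      have e1 : mgrad 4 ((((u + v : kerSub2 R c) : Option (κ × κ) × (κ × κ) → M → ℝ)) a) z =
          mgrad 4 ((u : Option (κ × κ) × (κ × κ) → M → ℝ) a) z +
            mgrad 4 ((v : Option (κ × κ) × (κ × κ) → M → ℝ) a) z :=
        mgrad_add ((hu a).mdifferentiable (by simp) z) ((hv a).mdifferentiable (by simp) z)
      rw [e1]
      have e2 : ∀ b, (((u + v : kerSub2 R c) : Option (κ × κ) × (κ × κ) → M → ℝ)) b z =
          (u : Option (κ × κ) × (κ × κ) → M → ℝ) b z +
            (v : Option (κ × κ) × (κ × κ) → M → ℝ) b z := fun b => rfl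
      simp only [e2, add_smul, Finset.sum_add_distrib]
      abel
    simp only [VF, h1, inner_add_left, Finset.sum_add_distrib, add_smul, smul_add, Pi.add_apply]
  map_smul' t u := by
    have hu : ∀ a, ContMDiff (𝓡 4) 𝓘(ℝ, ℝ) ∞ ((u : Option (κ × κ) × (κ × κ) → M → ℝ) a) := u.2.1.1
    funext z
    have h1 : ∀ a, P.D0.cv ((t • u : kerSub2 R c) : Option (κ × κ) × (κ × κ) → M → ℝ) a z =
        t • P.D0.cv (u : Option (κ × κ) × (κ × κ) → M → ℝ) a z := by
      intro a
      rw [Bun.cv, Bun.cv]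
      have e1 : mgrad 4 ((((t • u : kerSub2 R c) : Option (κ × κ) × (κ × κ) → M → ℝ)) a) z =
          t • mgrad 4 ((u : Option (κ × κ) × (κ × κ) → M → ℝ) a) z := by
        have e3 : ((((t • u : kerSub2 R c) : Option (κ × κ) × (κ × κ) → M → ℝ)) a) =
          fun q => t * (u : Option (κ × κ) × (κ × κ) → M → ℝ) a q := rfl
        rw [e3, mgrad_mul (f := fun _ => t) mdifferentiableAt_const
          ((hu a).mdifferentiable (by simp) z), mgrad_const, smul_zero, add_zero]
      rw [e1]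
      have e2 : ∀ b, (((t • u : kerSub2 R c) : Option (κ × κ) × (κ × κ) → M → ℝ)) b z =
          t * (u : Option (κ × κ) × (κ × κ) → M → ℝ) b z := fun b => rfl
      simp only [e2, smul_add, Finset.smul_sum, mul_smul]
    simp only [VF, h1, real_inner_smul_left, ← Finset.mul_sum, mul_smul, ← Finset.smul_sum,
      RingHom.id_apply, Pi.smul_apply]
    rw [smul_comm]

variable {c : ℝ} {R : DPair D0 D1}

omit [CompactSpace M] [PreconnectedSpace M] [IsFiniteMeasureOnCompacts (μHE[4] : Measure M)] in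
/-- the Killing fields, one point -/
theorem kill_pt (W : WD T P D0 D1) (hcc : P.cc = ccT (ccR P.s vol) (lamP P.s vol)) (hc : c ≠ 0)
    (hR : R.A = opA P.D0 P.cc) (smR : ∀ A y q, VSm 4 ∞ (ccR P.s vol A (some y)) q)
    {z : M} {e : Fin 4 → EuclideanSpace ℝ (Fin 4) → EuclideanSpace ℝ (Fin 4)}
    {h : ONF (chartMetric 4 M z) (chartAt (EuclideanSpace ℝ (Fin 4)) z).target
      (chartCentre 4 M z) e} (hp : KerPt P vol c h)
    {u : Option (κ × κ) × (κ × κ) → M → ℝ} (hu : u ∈ kerSub2 R c) :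
    Kill h.frameOf (vg z e (VF P.s vol P.D0 u)) ∧
      ((∀ k, vg z e (VF P.s vol P.D0 u) k = 0) → ∀ a, u a z = 0) := by
  obtain ⟨jL, j0, j1, L⟩ := hp.loc
  obtain ⟨lam, hE⟩ := hp.ein
  obtain ⟨σ, h1, h2⟩ := exists_sigma W hcc hc hR hu L hp.csc
  have hs : P.D0.Sec u := by
    intro a q
    rw [← W.p0]
    exact hu.1.2.1 a q
  have h3 : vg z e (VF P.s vol P.D0 u) = fun j => Frame.third * V3 h.frameOf σ j :=
    funext fun k => vg_VF smR L hu.1.1 hs h1 k
  have h4 := twist_killing h.frameOf hE (κ := algebraMap ℝ _ c) hp.csc h2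
  refine ⟨by rw [h3]; exact h4.1, fun h0 a => ?_⟩
  have h5 : (fun j => Frame.third * V3 h.frameOf σ j) = 0 := by
    rw [← h3]; funext k; exact h0 k
  have h6 : ∀ k j, BV h.frameOf (fun j => Frame.third * V3 h.frameOf σ j) k j = 0 := by
    intro k j
    rw [h5]
    simp [BV, Frame.cov]
  have h7 : σ = 0 := by
    funext b
    have h8 := h4.2 h6 b
    have f1 : algebraMap ℝ (SG (chartCentre 4 M z)) c⁻¹ * algebraMap ℝ _ c = 1 := by
      rw [← map_mul, inv_mul_cancel₀ hc, map_one]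
    have h9 := congrArg (fun w => algebraMap ℝ (SG (chartCentre 4 M z)) c⁻¹ * w) h8
    simp only [← mul_assoc, f1, one_mul, mul_zero] at h9
    exact h9
  have h8 := lf_sec L.cl.l0 hu.1.1 hs
  rw [h1, h7, emb_zero, Matrix.mulVec_zero] at h8
  have h9 := congrFun h8 a
  have h10 : fg (n := 4) z (u a) = 0 := h9.symm
  have h11 := Tz805.ev_fg (n := 4) (M := M) (z := z) (hu.1.1 a)
  rw [h10, map_zero] at h11
  exact h11.symm

/-- **[KER]**: the kernel of `A` for `G = Λ⁻` gives Killing fields. -/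
theorem kill_of_ker (W : WD T P D0 D1) (hcc : P.cc = ccT (ccR P.s vol) (lamP P.s vol)) (hc : 0 < c)
    (hR : R.A = opA P.D0 P.cc) (smR : ∀ A y q, VSm 4 ∞ (ccR P.s vol A (some y)) q)
    (Pos : (z : M) → (Fin 4 → EuclideanSpace ℝ (Fin 4) → EuclideanSpace ℝ (Fin 4)) → Prop)
    (hloc : ∀ z, ∃ e, ∃ h : ONF (chartMetric 4 M z) (chartAt (EuclideanSpace ℝ (Fin 4)) z).target
      (chartCentre 4 M z) e, Pos z e ∧ KerPt P vol c h)
    {N : ℕ} (hN : 6 ≤ N) (K : KerD D0 R.A N) :
    ∃ (V : kerSub2 R c →ₗ[ℝ] ((z : M) → TangentSpace (𝓡 4) z)) (hsm : ∀ k q, VSm 4 ∞ (V k) q),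
      Function.Injective V ∧ 5 ≤ Module.finrank ℝ (kerSub2 R c) ∧
      ∀ q, ∃ (e : Fin 4 → EuclideanSpace ℝ (Fin 4) → EuclideanSpace ℝ (Fin 4))
        (h : ONF (chartMetric 4 M q) (chartAt (EuclideanSpace ℝ (Fin 4)) q).target
          (chartCentre 4 M q) e), Pos q e ∧ ∀ k, Kill h.frameOf (Kg3_285.vc h (hsm k q)) := by
  have hloc' : ∀ z, ∃ e, ∃ h : ONF (chartMetric 4 M z)
      (chartAt (EuclideanSpace ℝ (Fin 4)) z).target (chartCentre 4 M z) e, KerPt P vol c h := by
    intro z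
    obtain ⟨e, h, -, hp⟩ := hloc z
    exact ⟨e, h, hp⟩
  have hsm : ∀ (k : kerSub2 R c) q, VSm 4 ∞ (VL (R := R) P vol c k) q := fun k q =>
    VSm_VF smR k.2.1.1 q
  refine ⟨VL P vol c, hsm, ?_, ?_, ?_⟩
  · rw [← LinearMap.ker_eq_bot, LinearMap.ker_eq_bot']
    intro k hk
    apply Subtype.ext
    funext a z
    obtain ⟨e, h, hp⟩ := hloc' z
    refine (kill_pt W hcc hc.ne' hR smR hp k.2).2 (fun i => ?_) a
    have : VF P.s vol P.D0 (k : Option (κ × κ) × (κ × κ) → M → ℝ) = fun _ => 0 := hk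
    rw [this]
    exact vg_zero h i
  · have := count W hcc hloc' hc K
    omega
  · intro q
    obtain ⟨e, h, hpos, hp⟩ := hloc q
    refine ⟨e, h, hpos, fun k => ?_⟩
    rw [Kg5_285.vc_eq_vg]
    exact (kill_pt W hcc hc.ne' hR smR hp k.2).1

end final

end Crest.Agent.R249.Ker57
end
end

-- ▼ part R249/Ker57g_57

/-!
# R249 part C, [KER] 7 (helper57): `KillStmt` and T-I.
-/

set_option autoImplicit false
set_option linter.unusedSectionVars false
set_option linter.unusedSimpArgs false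
set_option maxSynthPendingDepth 3

open Filter Topology Set Bundle Manifold Matrix MeasureTheory
open scoped ContDiff ENNReal NNReal
open Crest.GeometryTopology.CoordMetric Crest.GeometryTopology.ChartCurvature
  Crest.GeometryTopology.PointedLimit
open Crest.Agent.R202.Tens Crest.Agent.R247.Bo84 Crest.Agent.R249.FrmB_285 Crest.Agent.R249.Vf281
  Crest.Agent.R249.Tz1_805 Crest.Agent.R249.Tz2_805 Crest.Agent.R249.Tz805
open Crest.Agent.R249.Fr129 Crest.Agent.R249.C2_198
open Crest.Agent.R249.Sg129 (ONF SG ev ev_germ)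
open Crest.Agent.R249.Tv57 Crest.Agent.R249.HK9_714 Crest.Agent.R249.OriD_285
open Crest.Agent.R249.Vol_285 Crest.Agent.R249.D1Def104
open Crest.Agent.R249.FrmC_285 Crest.Agent.R249.FrmD_285 Crest.Agent.R249.Trw_285
open Crest.Agent.R249.Idx789

noncomputable section

namespace Crest.Agent.R249.Ker57

section pt

variable {M : Type*} [TopologicalSpace M] [ChartedSpace (EuclideanSpace ℝ (Fin 4)) M]
  [IsManifold 𝓘(ℝ, EuclideanSpace ℝ (Fin 4)) ∞ M]
  [RiemannianBundle (fun x : M => TangentSpace 𝓘(ℝ, EuclideanSpace ℝ (Fin 4)) x)]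
  [IsContMDiffRiemannianBundle 𝓘(ℝ, EuclideanSpace ℝ (Fin 4)) ∞ (EuclideanSpace ℝ (Fin 4))
      (fun x : M => TangentSpace 𝓘(ℝ, EuclideanSpace ℝ (Fin 4)) x)]

/-- frame data at a point of an Einstein manifold with `W⁻ = 0` -/
theorem exists_pos_pt (hO : Oriented 4 M) {lam : ℝ} (hE : IsEinsteinWith 4 M lam)
    {Ψ : T4 → ℝ} (hΨ : QF lam true Ψ)
    (hq : ∀ x : M, mInv Ψ x = 0) (z : M) :
    ∃ e, ∃ h : ONF (chartMetric 4 M z) (chartAt (EuclideanSpace ℝ (Fin 4)) z).target
      (chartCentre 4 M z) e,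
      (∀ᶠ w in 𝓝 (chartCentre 4 M z), Orth (chartMetric 4 M z w) (fun i => e i w) ∧
            0 < (mat fun i => e i w).det) ∧ VolAt vol4 z e ∧
      h.frameOf.Einstein (algebraMap ℝ _ lam) ∧
      CScal h.frameOf (algebraMap ℝ _ (lam / 3)) := by
  obtain ⟨e, h, hpos⟩ := exists_onf (n := 4) z (centre_mem (n := 4) z)
  have hF : h.frameOf.Einstein (algebraMap ℝ (SG _) lam) := by
    refine h.einstein ?_
    filter_upwards [(chartAt _ z).open_target.mem_nhds (centre_mem (n := 4) z)] with y hy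
    exact fun i j => einstein_chart hE z hy i j
  have h0 : h.frameOf.flip.qq (algebraMap ℝ (SG _) lam) = 0 := by
    have h1 := hΨ.eq h (Kg4_285.cd_Phi hΨ.smooth h)
    rw [Kg4_285.germ_const hO hΨ.inv hΨ.smooth h hpos hq, map_zero] at h1
    exact h1
  have h2 := WW_zero h.frameOf.flip _ h0
  have h4 := cscal_of_WW h.frameOf h2
  rw [third_map] at h4
  exact ⟨e, h, hpos, volAt_vol4 hO hpos, hF, h4⟩

variable {vol : (z : M) → (Fin 4 → TangentSpace 𝓘(ℝ, EuclideanSpace ℝ (Fin 4)) z) → ℝ}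
variable {κ : Type} [Fintype κ] (s : PF 4 M κ) (hv : IsVol vol)
  {z : M} {e : Fin 4 → EuclideanSpace ℝ (Fin 4) → EuclideanSpace ℝ (Fin 4)}
  (h : ONF (chartMetric 4 M z) (chartAt (EuclideanSpace ℝ (Fin 4)) z).target
      (chartCentre 4 M z) e)

theorem kerLoc_pairL (hz : VolAt vol z e) :
    KerLoc s vol (pairL s hv).D0 (pairL s hv).D1 h (lamJ s z e)
      (Matrix.kroneckerMap (· * ·) (Tt286.jopt (lamJ s z e)) (lamJ s z e))
      (Matrix.kroneckerMap (· * ·) (tanJ s z e) (lamJ s z e)) where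
  jtj := lamJ_jtj s h
  sym := vg_ccR_some s hv h hz
  none_ y a b := frameL_none s y a b
  cl := cloc_L s hv h hz

end pt

section closed

variable {M : Type} [MetricSpace M] [ChartedSpace (EuclideanSpace ℝ (Fin 4)) M]
  [IsManifold (𝓡 4) ∞ M]
  [RiemannianBundle (fun p : M => TangentSpace (𝓡 4) p)]
  [IsContMDiffRiemannianBundle (𝓡 4) ∞ (EuclideanSpace ℝ (Fin 4)) (fun p : M => TangentSpace (𝓡 4) p)]
  [IsRiemannianManifold (𝓡 4) M] [MeasurableSpace M] [BorelSpace M]
  [SecondCountableTopology M] [Nonempty M]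

variable {κ : Type} [Fintype κ]

/-- the record of 789 for `G = ℝ` -/
def grp (s : PF 4 M κ) {vol : (z : M) → (Fin 4 → TangentSpace (𝓡 4) z) → ℝ} (hv : IsVol vol) :
    GRP s vol where
  P := pairR s hv
  hs := rfl
  hD1 := rfl
  hcc := rfl
  hp0 _ := rfl
  hp1 _ _ := rfl
  hW0 x z := Tt286.bopt_W_n' _ x z
  cl _ _ h hz := ⟨_, cloc_R s hv h hz⟩

/-- the record of 789 for `G = Λ⁻` -/
def glp (s : PF 4 M κ) {vol : (z : M) → (Fin 4 → TangentSpace (𝓡 4) z) → ℝ} (hv : IsVol vol) :
    GLP κ vol where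
  P := pairL s hv
  cl _ _ h hz := ⟨_, _, cloc_L s hv h hz⟩

end closed

/-- **the Killing fields** -/
theorem killStmt : Kg4_285.KillStmt := by
  intro N _ _ _ _ _ _ _ _ hO c hc hE hK hq
  let _ : MeasurableSpace N := borel N
  have _ : BorelSpace N := ⟨rfl⟩
  have _ : Nonempty N := inferInstance
  have _ := Crest.Agent.R247.Ms322.isLocallyFiniteMeasure 4 N
  obtain ⟨m, ⟨s⟩⟩ := exists_PF (n := 4) (M := N)
  have hv : IsVol (vol4 (M := N)) := isVol_vol4 hO
  let T : ToF 4 N := Tof352.tof 4 N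
  let PR := pairR s hv
  let PL := pairL s hv
  have WR : WD T PR (Wk352.dat0 T PR) (Wk352.dat0 T (Wk352.swapP PR)) :=
    ⟨fun _ _ _ => rfl, rfl, rfl, fun _ _ _ => rfl, rfl, rfl⟩
  have WL : WD T PL (Wk352.dat0 T PL) (Wk352.dat0 T (Wk352.swapP PL)) :=
    ⟨fun _ _ _ => rfl, rfl, rfl, fun _ _ _ => rfl, rfl, rfl⟩
  obtain ⟨d, hd, ⟨K⟩⟩ := count_of hO hc hE hK (Qr_285.qfm c) hq (grp s hv) (glp s hv) WR
    (Wk352.dpair T PR) rfl WL (Wk352.dpair T PL)
  obtain ⟨V, hsm, hV, h5, hk⟩ := kill_of_ker (c := c / 3) (vol := vol4 (M := N)) WL rfl (by positivity)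
    (R := Wk352.dpair T PL) rfl (fun A y q => smc_ccR s hv A (some y) q)
    (fun z e => ∀ᶠ w in 𝓝 (chartCentre 4 N z), Orth (chartMetric 4 N z w) (fun i => e i w) ∧
            0 < (mat fun i => e i w).det) (fun z => by
      obtain ⟨e, h, hpos, hve, hF, hC⟩ := exists_pos_pt hO hE (Qr_285.qfm c) hq z
      exact ⟨e, h, hpos, ⟨_, hF⟩, hC, ⟨_, _, _, kerLoc_pairL s hv h hve⟩⟩)
    (by omega) K
  exact ⟨_, _, _, V, hsm, hV, h5, hk⟩

/-- **T-I** -/
theorem tI : Trx_285.TI Qr_285.Qp B2Fin_474.RS B2Fin_474.RC := Kg4_285.tI_of_killing killStmt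

end Crest.Agent.R249.Ker57
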