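import Crest.Agent.R249.Ker3_254
import Mathlib.Analysis.SpecialFunctions.Pow.NNReal

-- ▼ part R249/Ker4_254
section

/-!
# Kernel checker for polynomial inequalities, part 4: three variables

Digit `P = ((t (n1+1) + i) (n2+1) + j) (n3+1) + k` is the coefficient of
`a1^i b1^(n1-i) a2^j b2^(n2-j) a3^k b3^(n3-k)` in block `t`.
-/

set_option autoImplicit false

namespace Crest.Agent.R249.Ker254

/-- six numbers: a point in homogeneous coordinates -/
structure Pt where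
  a1 : ℝ
  b1 : ℝ
  a2 : ℝ
  b2 : ℝ
  a3 : ℝ
  b3 : ℝ

structure Pt.Nonneg (x : Pt) : Prop where
  a1 : 0 ≤ x.a1
  b1 : 0 ≤ x.b1
  a2 : 0 ≤ x.a2
  b2 : 0 ≤ x.b2
  a3 : 0 ≤ x.a3
  b3 : 0 ≤ x.b3

/-- the monomial of digit `P` -/
noncomputable def mon (n1 n2 n3 : ℕ) (x : Pt) (P : ℕ) : ℝ :=
  (x.a1 ^ J ((n2 + 1) * (n3 + 1)) n1 P * x.b1 ^ (n1 - J ((n2 + 1) * (n3 + 1)) n1 P)) *
  ((x.a2 ^ J (n3 + 1) n2 P * x.b2 ^ (n2 - J (n3 + 1) n2 P)) *
  (x.a3 ^ J 1 n3 P * x.b3 ^ (n3 - J 1 n3 P)))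

/-- weight of digit `P`: block weight times monomial -/
noncomputable def wt (n1 n2 n3 : ℕ) (lam : ℕ → ℝ) (x : Pt) (P : ℕ) : ℝ :=
  lam (P / ((n1 + 1) * ((n2 + 1) * (n3 + 1)))) * mon n1 n2 n3 x P

theorem mon_nonneg {n1 n2 n3 : ℕ} {x : Pt} (hx : x.Nonneg) (P : ℕ) : 0 ≤ mon n1 n2 n3 x P := by
  have := hx.a1; have := hx.b1; have := hx.a2; have := hx.b2; have := hx.a3; have := hx.b3
  unfold mon; positivity

/-! ### index arithmetic -/

theorem mid_div {A B h j l : ℕ} (hl : l < B) (hj : j < A) : ((h * A + j) * B + l) / (A * B) = h := by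
  have hB : 0 < B := by omega
  have hA : 0 < A := by omega
  rw [mul_comm A B, ← Nat.div_div_eq_div_mul]
  have e1 : ((h * A + j) * B + l) / B = h * A + j := by
    rw [show (h * A + j) * B + l = l + B * (h * A + j) by ring, Nat.add_mul_div_left _ _ hB,
      Nat.div_eq_of_lt hl, zero_add]
  rw [e1, show h * A + j = j + A * h by ring, Nat.add_mul_div_left _ _ hA, Nat.div_eq_of_lt hj,
    zero_add]

theorem inner_J {σ n C l : ℕ} (hσ : 0 < σ) (c : ℕ) (hC : C = (n + 1) * σ) :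
    J σ n (c * C + l) = J σ n l := by
  unfold J
  subst hC
  rw [show c * ((n + 1) * σ) + l = l + σ * ((n + 1) * c) by ring, Nat.add_mul_div_left _ _ hσ,
    Nat.add_mul_mod_self_left]

theorem outer_div {A B h j l C : ℕ} (hl : l < B) (hj : j < A) :
    ((h * A + j) * B + l) / (C * (A * B)) = h / C := by
  rw [mul_comm C, ← Nat.div_div_eq_div_mul, mid_div hl hj]

section
variable (n1 n2 n3 : ℕ) (lam : ℕ → ℝ)

theorem wt_var1 (x : Pt) (a b : ℝ) {h j l : ℕ} (hj : j ≤ n1) (hl : l < (n2 + 1) * (n3 + 1)) :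
    wt n1 n2 n3 lam {x with a1 := a, b1 := b} ((h * (n1 + 1) + j) * ((n2 + 1) * (n3 + 1)) + l)
      = (lam h * ((x.a2 ^ J (n3 + 1) n2 l * x.b2 ^ (n2 - J (n3 + 1) n2 l)) *
          (x.a3 ^ J 1 n3 l * x.b3 ^ (n3 - J 1 n3 l)))) * (a ^ j * b ^ (n1 - j)) := by
  unfold wt mon
  rw [J_eq hl hj, mid_div hl (Nat.lt_succ_of_le hj),
    inner_J (σ := n3 + 1) (n := n2) (Nat.succ_pos _) _ rfl]
  have : J 1 n3 ((h * (n1 + 1) + j) * ((n2 + 1) * (n3 + 1)) + l) = J 1 n3 l := by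
    rw [show (h * (n1 + 1) + j) * ((n2 + 1) * (n3 + 1)) = ((h * (n1 + 1) + j) * (n2 + 1)) * (n3 + 1)
      by ring]
    exact inner_J (σ := 1) (n := n3) one_pos _ (by ring)
  rw [this]
  ring

theorem wt_var2 (x : Pt) (a b : ℝ) {h j l : ℕ} (hj : j ≤ n2) (hl : l < n3 + 1) :
    wt n1 n2 n3 lam {x with a2 := a, b2 := b} ((h * (n2 + 1) + j) * (n3 + 1) + l)
      = (lam (h / (n1 + 1)) * ((x.a1 ^ (h % (n1 + 1)) * x.b1 ^ (n1 - h % (n1 + 1))) *
          (x.a3 ^ J 1 n3 l * x.b3 ^ (n3 - J 1 n3 l)))) * (a ^ j * b ^ (n2 - j)) := by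
  unfold wt mon
  have e1 : J ((n2 + 1) * (n3 + 1)) n1 ((h * (n2 + 1) + j) * (n3 + 1) + l) = h % (n1 + 1) := by
    unfold J; rw [mid_div hl (Nat.lt_succ_of_le hj)]
  have e3 : J 1 n3 ((h * (n2 + 1) + j) * (n3 + 1) + l) = J 1 n3 l :=
    inner_J (σ := 1) (n := n3) one_pos _ (by ring)
  rw [e1, e3, J_eq hl hj, outer_div hl (Nat.lt_succ_of_le hj)]
  ring

theorem wt_var3 (x : Pt) (a b : ℝ) {h j l : ℕ} (hj : j ≤ n3) (hl : l < 1) :
    wt n1 n2 n3 lam {x with a3 := a, b3 := b} ((h * (n3 + 1) + j) * 1 + l)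
      = (lam (h / ((n1 + 1) * (n2 + 1))) *
        ((x.a1 ^ ((h / (n2 + 1)) % (n1 + 1)) * x.b1 ^ (n1 - (h / (n2 + 1)) % (n1 + 1))) *
          (x.a2 ^ (h % (n2 + 1)) * x.b2 ^ (n2 - h % (n2 + 1))))) * (a ^ j * b ^ (n3 - j)) := by
  have hl0 : l = 0 := by omega
  subst hl0
  unfold wt mon
  have e1 : J ((n2 + 1) * (n3 + 1)) n1 ((h * (n3 + 1) + j) * 1 + 0) = (h / (n2 + 1)) % (n1 + 1) := by
    unfold J
    have := outer_div (A := n3 + 1) (B := 1) (C := n2 + 1) (h := h) (j := j) (l := 0) one_pos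
      (Nat.lt_succ_of_le hj)
    rw [mul_one] at this ⊢
    rw [show (n2 + 1) * (n3 + 1) = (n2 + 1) * ((n3 + 1) * 1) by ring]
    rw [← this]
  have e2 : J (n3 + 1) n2 ((h * (n3 + 1) + j) * 1 + 0) = h % (n2 + 1) := by
    unfold J
    have := mid_div (A := n3 + 1) (B := 1) (h := h) (j := j) (l := 0) one_pos
      (Nat.lt_succ_of_le hj)
    rw [mul_one, mul_one] at this
    rw [mul_one, this]
  have e0 : ((h * (n3 + 1) + j) * 1 + 0) / ((n1 + 1) * ((n2 + 1) * (n3 + 1)))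
      = h / ((n1 + 1) * (n2 + 1)) := by
    have := outer_div (A := n3 + 1) (B := 1) (C := (n1 + 1) * (n2 + 1)) (h := h) (j := j)
      (l := 0) one_pos (Nat.lt_succ_of_le hj)
    rw [← this]
    congr 1; ring
  rw [e0, e1, e2, J_eq one_pos hj]
  ring

end

end Crest.Agent.R249.Ker254
end

-- ▼ part R249/Ker5_254
section

/-!
# Kernel checker for polynomial inequalities, part 5: the checker

Blocks `0..5` of the packed number hold the entries `a b c d e f` of a symmetric matrix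
`[[a, b, c], [b, d, e], [c, e, f]]`, block `6` holds the common offset.
-/

set_option autoImplicit false

namespace Crest.Agent.R249.Ker254

/-- signed packed vector `P - Q`, all digits at most `b` -/
structure SV where
  P : ℕ
  Q : ℕ
  b : ℕ

namespace SV

def add (x y : SV) : SV := ⟨Nat.add x.P y.P, Nat.add x.Q y.Q, Nat.add x.b y.b⟩
def sub (x y : SV) : SV := ⟨Nat.add x.P y.Q, Nat.add x.Q y.P, Nat.add x.b y.b⟩
def smul (g : ℤ) (x : SV) : SV :=
  match g with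
  | Int.ofNat k => ⟨Nat.mul k x.P, Nat.mul k x.Q, Nat.mul k x.b⟩
  | Int.negSucc k =>
    frc (Nat.succ k) fun k' => ⟨Nat.mul k' x.Q, Nat.mul k' x.P, Nat.mul k' x.b⟩

/-- force the evaluation -/
def force {α : Type} (x : SV) (k : SV → α) : α :=
  frc x.P fun P => frc x.Q fun Q => frc x.b fun b => k ⟨P, Q, b⟩

@[simp] theorem force_eq {α : Type} (x : SV) (k : SV → α) : force x k = k x := by
  simp [force]

/-- coefficientwise nonnegativity; `W = 2 ^ w`, `H` = digits `2 ^ w` -/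
def nn (W H : ℕ) (x : SV) : Bool :=
  (Nat.ble (Nat.succ x.b) W) && Nat.beq (Nat.land (Nat.sub (Nat.add x.P H) x.Q) H) H

/-- semantics -/
structure Is (w m : ℕ) (x : SV) (r : ℕ → ℤ) : Prop where
  ex : ∃ F G : ℕ → ℕ, Rep (w + 1) m x.b F x.P ∧ Rep (w + 1) m x.b G x.Q ∧
    ∀ p, r p = (F p : ℤ) - G p

variable {w m : ℕ} {x y : SV} {r s : ℕ → ℤ}

theorem Is.add (hx : Is w m x r) (hy : Is w m y s) : Is w m (x.add y) (fun p => r p + s p) := by
  obtain ⟨F, G, hF, hG, h⟩ := hx.ex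
  obtain ⟨F', G', hF', hG', h'⟩ := hy.ex
  exact ⟨_, _, hF.add hF', hG.add hG', fun p => by simp only [h, h']; push_cast; ring⟩

theorem Is.sub (hx : Is w m x r) (hy : Is w m y s) : Is w m (x.sub y) (fun p => r p - s p) := by
  obtain ⟨F, G, hF, hG, h⟩ := hx.ex
  obtain ⟨F', G', hF', hG', h'⟩ := hy.ex
  exact ⟨_, _, hF.add hG', hG.add hF', fun p => by simp only [h, h']; push_cast; ring⟩

theorem Is.smul (g : ℤ) (hx : Is w m x r) : Is w m (x.smul g) (fun p => g * r p) := by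
  obtain ⟨F, G, hF, hG, h⟩ := hx.ex
  cases g with
  | ofNat k =>
    exact ⟨_, _, hF.smul k, hG.smul k, fun p => by
      simp only [h, Int.ofNat_eq_natCast]; push_cast; ring⟩
  | negSucc k =>
    simp only [SV.smul, frc_eq]
    exact ⟨_, _, hG.smul (Nat.succ k), hF.smul (Nat.succ k), fun p => by
      simp only [h]; rw [Int.negSucc_eq]; push_cast; ring⟩

theorem Is.nonneg (hx : Is w m x r) {W H : ℕ} (hW : W = 2 ^ w)
    (hH : H = pk (w + 1) (fun _ => 2 ^ w) m) (h : nn W H x = true) : ∀ p, 0 ≤ r p := by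
  obtain ⟨F, G, hF, hG, hr⟩ := hx.ex
  unfold nn at h
  rw [Bool.and_eq_true] at h
  obtain ⟨h1, h2⟩ := h
  have h1' : x.b < 2 ^ w := by
    have : Nat.succ x.b ≤ W := Nat.le_of_ble_eq_true h1
    rw [hW] at this; exact this
  have h2' : Nat.land (Nat.sub (Nat.add x.P H) x.Q) H = H := Nat.eq_of_beq_eq_true h2
  intro p
  have := Rep.le_of_check hF hG h1' h1' hH h2' p
  rw [hr]; omega

end SV

/-- environment: all derived numbers -/
structure Env where
  w : ℕ
  n1 : ℕ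
  n2 : ℕ
  n3 : ℕ
  s1 : ℕ
  s2 : ℕ
  s3 : ℕ
  M1 : ℕ
  M2 : ℕ
  M3 : ℕ
  Sb : ℕ
  Mb : ℕ
  W : ℕ
  H : ℕ
  W1 : ℕ

/-- number of digits of one block -/
abbrev Env.m0 (E : Env) : ℕ := (E.n1 + 1) * ((E.n2 + 1) * (E.n3 + 1))

structure Env.Ok (E : Env) : Prop where
  s1 : E.s1 = (E.w + 1) * ((E.n2 + 1) * (E.n3 + 1))
  s2 : E.s2 = (E.w + 1) * (E.n3 + 1)
  s3 : E.s3 = (E.w + 1) * 1
  M1 : E.M1 = mkMask ((E.w + 1) * ((E.n2 + 1) * (E.n3 + 1))) E.n1 7
  M2 : E.M2 = mkMask ((E.w + 1) * (E.n3 + 1)) E.n2 (7 * (E.n1 + 1))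
  M3 : E.M3 = mkMask ((E.w + 1) * 1) E.n3 (7 * ((E.n1 + 1) * (E.n2 + 1)))
  Sb : E.Sb = (E.w + 1) * E.m0
  Mb : E.Mb = 2 ^ ((E.w + 1) * E.m0) - 1
  W : E.W = 2 ^ E.w
  H : E.H = pk (E.w + 1) (fun _ => 2 ^ E.w) E.m0
  W1 : E.W1 = 2 ^ (E.w + 1)

/-- subdivision trees -/
inductive Tree
  | lf (g11 g12 g22 g13 g23 g33 : ℤ)
  | nd (v α β : ℕ) (l r : Tree)

/-- the leaf check: `G^T M G` is coefficientwise diagonally dominant, `G` upper triangular -/
def lfOk (W H : ℕ) (g11 g12 g22 g13 g23 g33 : ℤ) (a b c d e f : SV) : Bool :=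
  (SV.smul g11 a).force fun ga =>
  ((SV.smul g12 a).add (SV.smul g22 b)).force fun k12 =>
  (((SV.smul g13 a).add (SV.smul g23 b)).add (SV.smul g33 c)).force fun k13 =>
  ((SV.smul g12 b).add (SV.smul g22 d)).force fun k22 =>
  (((SV.smul g13 b).add (SV.smul g23 d)).add (SV.smul g33 e)).force fun k23 =>
  (((SV.smul g13 c).add (SV.smul g23 e)).add (SV.smul g33 f)).force fun k33 =>
  (SV.smul g11 ga).force fun m11 =>
  (SV.smul g11 k12).force fun m12 =>
  (SV.smul g11 k13).force fun m13 =>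
  ((SV.smul g12 k12).add (SV.smul g22 k22)).force fun m22 =>
  ((SV.smul g12 k13).add (SV.smul g22 k23)).force fun m23 =>
  (((SV.smul g13 k13).add (SV.smul g23 k23)).add (SV.smul g33 k33)).force fun m33 =>
  (m12.add m13).force fun q1 =>
  (m12.sub m13).force fun q2 =>
  (m12.add m23).force fun q3 =>
  (m12.sub m23).force fun q4 =>
  (m13.add m23).force fun q5 =>
  (m13.sub m23).force fun q6 =>
  (m11.add q1).nn W H && (m11.sub q1).nn W H && (m11.add q2).nn W H && (m11.sub q2).nn W H &&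
  (m22.add q3).nn W H && (m22.sub q3).nn W H && (m22.add q4).nn W H && (m22.sub q4).nn W H &&
  (m33.add q5).nn W H && (m33.sub q5).nn W H && (m33.add q6).nn W H && (m33.sub q6).nn W H

def posI : ℤ → Bool
  | Int.ofNat (Nat.succ _) => true
  | _ => false

theorem posI_iff {g : ℤ} (h : posI g = true) : 0 < g := by
  match g, h with
  | Int.ofNat (Nat.succ k), _ => exact Int.natCast_pos.2 (Nat.succ_pos k)

/-- blocks of `N` -/
def blk (Sb Mb N t : ℕ) : ℕ := Nat.land (Nat.shiftRight N (Nat.mul Sb t)) Mb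

def chkLeaf (E : Env) (g11 g12 g22 g13 g23 g33 : ℤ) (b N : ℕ) : Bool :=
  posI g11 && posI g22 && posI g33 && Nat.ble (Nat.succ b) E.W1 &&
  (frc (blk E.Sb E.Mb N 6) fun o =>
   frc (blk E.Sb E.Mb N 0) fun x0 => frc (blk E.Sb E.Mb N 1) fun x1 =>
   frc (blk E.Sb E.Mb N 2) fun x2 => frc (blk E.Sb E.Mb N 3) fun x3 =>
   frc (blk E.Sb E.Mb N 4) fun x4 => frc (blk E.Sb E.Mb N 5) fun x5 =>
   lfOk E.W E.H g11 g12 g22 g13 g23 g33 ⟨x0, o, b⟩ ⟨x1, o, b⟩ ⟨x2, o, b⟩ ⟨x3, o, b⟩ ⟨x4, o, b⟩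
     ⟨x5, o, b⟩)

/-- `left`/`right` in variable `v` (0, 1, 2) -/
def stL (E : Env) (v α β N : ℕ) : ℕ :=
  match v with
  | 0 => left E.s1 E.n1 α β N E.M1
  | 1 => left E.s2 E.n2 α β N E.M2
  | _ => left E.s3 E.n3 α β N E.M3

def stR (E : Env) (v α β N : ℕ) : ℕ :=
  match v with
  | 0 => right E.s1 E.n1 α β N E.M1
  | 1 => right E.s2 E.n2 α β N E.M2
  | _ => right E.s3 E.n3 α β N E.M3

def bdL (E : Env) (v α β b : ℕ) : ℕ :=
  match v with
  | 0 => bndL α β b E.n1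
  | 1 => bndL α β b E.n2
  | _ => bndL α β b E.n3

def chk (E : Env) : Tree → ℕ → ℕ → Bool
  | .lf g11 g12 g22 g13 g23 g33, b, N => chkLeaf E g11 g12 g22 g13 g23 g33 b N
  | .nd v α β l r, b, N =>
    Nat.ble 1 α && Nat.ble 1 β && Nat.ble (Nat.succ b) E.W1 &&
    (frc (bdL E v α β b) fun bL => frc (stL E v α β N) fun NL => chk E l bL NL) &&
    (frc (bdL E v β α b) fun bR => frc (stR E v α β N) fun NR => chk E r bR NR)

/-! ### quadratic forms -/

theorem abs_cross (x u v : ℝ) : -(|x| * (u ^ 2 + v ^ 2)) ≤ 2 * x * u * v := by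
  have h : |x * (2 * u * v)| ≤ |x| * (u ^ 2 + v ^ 2) := by
    rw [abs_mul]
    refine mul_le_mul_of_nonneg_left ?_ (abs_nonneg x)
    exact abs_le.2 ⟨by nlinarith [sq_nonneg (u + v)], by nlinarith [sq_nonneg (u - v)]⟩
  have h2 := neg_abs_le (x * (2 * u * v))
  have h3 : x * (2 * u * v) = 2 * x * u * v := by ring
  rw [h3] at h h2
  linarith

/-- diagonally dominant symmetric matrices are positive semidefinite -/
theorem dd_psd {p q r x y z : ℝ} (h1 : |x| + |y| ≤ p) (h2 : |x| + |z| ≤ q) (h3 : |y| + |z| ≤ r)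
    (u v s : ℝ) :
    0 ≤ p * u ^ 2 + 2 * x * u * v + 2 * y * u * s + q * v ^ 2 + 2 * z * v * s + r * s ^ 2 := by
  have a1 := abs_cross x u v
  have a2 := abs_cross y u s
  have a3 := abs_cross z v s
  nlinarith [mul_nonneg (sub_nonneg.2 h1) (sq_nonneg u), mul_nonneg (sub_nonneg.2 h2) (sq_nonneg v),
    mul_nonneg (sub_nonneg.2 h3) (sq_nonneg s)]

/-- the form `a u² + 2 b u v + 2 c u s + d v² + 2 e v s + f s²` -/
def qf (a b c d e f u v s : ℝ) : ℝ :=
  a * u ^ 2 + 2 * b * u * v + 2 * c * u * s + d * v ^ 2 + 2 * e * v * s + f * s ^ 2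

/-- the leaf criterion on integers -/
theorem psd_of_dd {g11 g12 g22 g13 g23 g33 a b c d e f : ℤ} (h11 : 0 < g11) (h22 : 0 < g22)
    (h33 : 0 < g33) {m11 m12 m13 m22 m23 m33 : ℤ}
    (e11 : m11 = g11 * (g11 * a)) (e12 : m12 = g11 * (g12 * a + g22 * b))
    (e13 : m13 = g11 * (g13 * a + g23 * b + g33 * c))
    (e22 : m22 = g12 * (g12 * a + g22 * b) + g22 * (g12 * b + g22 * d))
    (e23 : m23 = g12 * (g13 * a + g23 * b + g33 * c) + g22 * (g13 * b + g23 * d + g33 * e))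
    (e33 : m33 = g13 * (g13 * a + g23 * b + g33 * c) + g23 * (g13 * b + g23 * d + g33 * e)
      + g33 * (g13 * c + g23 * e + g33 * f))
    (h1 : |m12| + |m13| ≤ m11) (h2 : |m12| + |m23| ≤ m22) (h3 : |m13| + |m23| ≤ m33)
    (u v s : ℝ) : 0 ≤ qf a b c d e f u v s := by
  have k11 : (0 : ℝ) < g11 := by exact_mod_cast h11
  have k22 : (0 : ℝ) < g22 := by exact_mod_cast h22
  have k33 : (0 : ℝ) < g33 := by exact_mod_cast h33
  have H1 : |(m12 : ℝ)| + |(m13 : ℝ)| ≤ m11 := by exact_mod_cast h1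
  have H2 : |(m12 : ℝ)| + |(m23 : ℝ)| ≤ m22 := by exact_mod_cast h2
  have H3 : |(m13 : ℝ)| + |(m23 : ℝ)| ≤ m33 := by exact_mod_cast h3
  obtain ⟨s', hs'⟩ : ∃ s' : ℝ, s = g33 * s' := ⟨s / g33, by field_simp⟩
  obtain ⟨v', hv'⟩ : ∃ v' : ℝ, v = g22 * v' + g23 * s' := ⟨(v - g23 * s') / g22, by field_simp; ring⟩
  obtain ⟨u', hu'⟩ : ∃ u' : ℝ, u = g11 * u' + g12 * v' + g13 * s' :=
    ⟨(u - g12 * v' - g13 * s') / g11, by field_simp; ring⟩
  have := dd_psd H1 H2 H3 u' v' s'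
  have key : qf a b c d e f u v s
      = m11 * u' ^ 2 + 2 * m12 * u' * v' + 2 * m13 * u' * s' + m22 * v' ^ 2
        + 2 * m23 * v' * s' + m33 * s' ^ 2 := by
    unfold qf
    rw [hu', hv', hs', e11, e12, e13, e22, e23, e33]
    push_cast
    ring
  rw [key]; exact this

theorem abs_add_le_of_four {p x y : ℤ} (h1 : 0 ≤ p + (x + y)) (h2 : 0 ≤ p - (x + y))
    (h3 : 0 ≤ p + (x - y)) (h4 : 0 ≤ p - (x - y)) : |x| + |y| ≤ p := by
  rcases abs_cases x with ⟨hx, _⟩ | ⟨hx, _⟩ <;> rcases abs_cases y with ⟨hy, _⟩ | ⟨hy, _⟩ <;>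
    rw [hx, hy] <;> omega

/-- soundness of the leaf check -/
theorem lfOk_sound {w m W H : ℕ} (hW : W = 2 ^ w) (hH : H = pk (w + 1) (fun _ => 2 ^ w) m)
    {g11 g12 g22 g13 g23 g33 : ℤ} {a b c d e f : SV} {ra rb rc rd re rf : ℕ → ℤ}
    (h11 : 0 < g11) (h22 : 0 < g22) (h33 : 0 < g33)
    (ha : a.Is w m ra) (hb : b.Is w m rb) (hc : c.Is w m rc) (hd : d.Is w m rd)
    (he : e.Is w m re) (hf : f.Is w m rf)
    (h : lfOk W H g11 g12 g22 g13 g23 g33 a b c d e f = true) (p : ℕ) (u v s : ℝ) :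
    0 ≤ qf (ra p) (rb p) (rc p) (rd p) (re p) (rf p) u v s := by
  unfold lfOk at h
  simp only [SV.force_eq, Bool.and_eq_true] at h
  have i12 := (ha.smul g12).add (hb.smul g22)
  have i13 := ((ha.smul g13).add (hb.smul g23)).add (hc.smul g33)
  have i22 := (hb.smul g12).add (hd.smul g22)
  have i23 := ((hb.smul g13).add (hd.smul g23)).add (he.smul g33)
  have i33 := ((hc.smul g13).add (he.smul g23)).add (hf.smul g33)
  have m11 := (ha.smul g11).smul g11
  have m12 := i12.smul g11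
  have m13 := i13.smul g11
  have m22 := (i12.smul g12).add (i22.smul g22)
  have m23 := (i13.smul g12).add (i23.smul g22)
  have m33 := ((i13.smul g13).add (i23.smul g23)).add (i33.smul g33)
  obtain ⟨⟨⟨⟨⟨⟨⟨⟨⟨⟨⟨c1, c2⟩, c3⟩, c4⟩, c5⟩, c6⟩, c7⟩, c8⟩, c9⟩, c10⟩, c11⟩, c12⟩ := h
  have d1 := (m11.add (m12.add m13)).nonneg hW hH c1 p
  have d2 := (m11.sub (m12.add m13)).nonneg hW hH c2 p
  have d3 := (m11.add (m12.sub m13)).nonneg hW hH c3 p
  have d4 := (m11.sub (m12.sub m13)).nonneg hW hH c4 p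
  have d5 := (m22.add (m12.add m23)).nonneg hW hH c5 p
  have d6 := (m22.sub (m12.add m23)).nonneg hW hH c6 p
  have d7 := (m22.add (m12.sub m23)).nonneg hW hH c7 p
  have d8 := (m22.sub (m12.sub m23)).nonneg hW hH c8 p
  have d9 := (m33.add (m13.add m23)).nonneg hW hH c9 p
  have d10 := (m33.sub (m13.add m23)).nonneg hW hH c10 p
  have d11 := (m33.add (m13.sub m23)).nonneg hW hH c11 p
  have d12 := (m33.sub (m13.sub m23)).nonneg hW hH c12 p
  exact psd_of_dd h11 h22 h33 rfl rfl rfl rfl rfl rfl (abs_add_le_of_four d1 d2 d3 d4)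
    (abs_add_le_of_four d5 d6 d7 d8) (abs_add_le_of_four d9 d10 d11 d12) u v s

end Crest.Agent.R249.Ker254
private theorem rz_19a8e342d0 : type_of% @_root_.Crest.Agent.R249.Ker254.SV.smul.eq_1 := @_root_.Crest.Agent.R249.Ker254.SV.smul.eq_1 -- L24
private theorem rz_2e5a704b73 : type_of% @_root_.Crest.Agent.R249.Ker254.chk.eq_def := @_root_.Crest.Agent.R249.Ker254.chk.eq_def -- L187
private theorem rz_0eee9c966d : type_of% @_root_.Crest.Agent.R249.Ker254.chk.eq_1 := @_root_.Crest.Agent.R249.Ker254.chk.eq_1 -- L187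
end

-- ▼ part R249/Ker6_254
section

/-!
# Kernel checker for polynomial inequalities, part 6: soundness of the tree check
-/

set_option autoImplicit false

namespace Crest.Agent.R249.Ker254

/-- value of the digit vector `D` with block weights `lam` at the point `x` -/
noncomputable def val (E : Env) (D : ℕ → ℕ) (lam : ℕ → ℝ) (x : Pt) : ℝ :=
  ∑ P ∈ Finset.range (7 * E.m0), (D P : ℝ) * wt E.n1 E.n2 E.n3 lam x P

/-- replace the coordinates of variable `v` -/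
def Pt.set (x : Pt) (v : ℕ) (a b : ℝ) : Pt :=
  match v with
  | 0 => { x with a1 := a, b1 := b }
  | 1 => { x with a2 := a, b2 := b }
  | _ => { x with a3 := a, b3 := b }

def Pt.ga (x : Pt) (v : ℕ) : ℝ :=
  match v with
  | 0 => x.a1
  | 1 => x.a2
  | _ => x.a3

def Pt.gb (x : Pt) (v : ℕ) : ℝ :=
  match v with
  | 0 => x.b1
  | 1 => x.b2
  | _ => x.b3

theorem Pt.set_self (x : Pt) (v : ℕ) : x.set v (x.ga v) (x.gb v) = x := by
  match v with
  | 0 => rfl
  | 1 => rfl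
  | (_ + 2) => rfl


theorem Pt.Nonneg.set {x : Pt} (hx : x.Nonneg) (v : ℕ) {a b : ℝ} (ha : 0 ≤ a) (hb : 0 ≤ b) :
    (x.set v a b).Nonneg := by
  match v with
  | 0 => exact ⟨ha, hb, hx.a2, hx.b2, hx.a3, hx.b3⟩
  | 1 => exact ⟨hx.a1, hx.b1, ha, hb, hx.a3, hx.b3⟩
  | (_ + 2) => exact ⟨hx.a1, hx.b1, hx.a2, hx.b2, ha, hb⟩

theorem Pt.Nonneg.ga {x : Pt} (hx : x.Nonneg) (v : ℕ) : 0 ≤ x.ga v := by
  match v with
  | 0 => exact hx.a1
  | 1 => exact hx.a2
  | (_ + 2) => exact hx.a3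

theorem Pt.Nonneg.gb {x : Pt} (hx : x.Nonneg) (v : ℕ) : 0 ≤ x.gb v := by
  match v with
  | 0 => exact hx.b1
  | 1 => exact hx.b2
  | (_ + 2) => exact hx.b3

theorem Env.eq1 (E : Env) : 7 * (E.n1 + 1) * ((E.n2 + 1) * (E.n3 + 1)) = 7 * E.m0 := by
  unfold Env.m0; ring
theorem Env.eq2 (E : Env) : 7 * (E.n1 + 1) * (E.n2 + 1) * (E.n3 + 1) = 7 * E.m0 := by
  unfold Env.m0; ring
theorem Env.eq3 (E : Env) : 7 * ((E.n1 + 1) * (E.n2 + 1)) * (E.n3 + 1) * 1 = 7 * E.m0 := by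
  unfold Env.m0; ring

theorem stL_sound {E : Env} (hE : E.Ok) (v α β : ℕ) {b : ℕ} {D : ℕ → ℕ} {N : ℕ}
    (hD : Rep (E.w + 1) (7 * E.m0) b D N) (hb : b < 2 ^ (E.w + 1)) :
    ∃ D', Rep (E.w + 1) (7 * E.m0) (bdL E v α β b) D' (stL E v α β N) ∧
      ∀ (lam : ℕ → ℝ) (x : Pt) (a b : ℝ),
        val E D' lam (x.set v a b) = val E D lam (x.set v (α * a) (β * (a + b))) := by
  match v with
  | 0 =>
    have hM := hE.M1.trans (mkMask_eq (w := E.w + 1) (n := E.n1) (σ := (E.n2 + 1) * (E.n3 + 1))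
      (Nat.mul_pos (Nat.succ_pos _) (Nat.succ_pos _)) 7)
    rw [← E.eq1] at hD
    refine ⟨accL ((E.n2 + 1) * (E.n3 + 1)) E.n1 7 α β D E.n1, ?_, fun lam x a b => ?_⟩
    · have h := left_rep (α := α) (β := β) hD hb hM
      rw [← hE.s1, E.eq1] at h
      exact h
    · unfold val
      rw [← E.eq1]
      exact accL_eval (H := 7) (n := E.n1) D a b _ _
        (fun h l => (lam h * ((x.a2 ^ J (E.n3 + 1) E.n2 l * x.b2 ^ (E.n2 - J (E.n3 + 1) E.n2 l)) *
          (x.a3 ^ J 1 E.n3 l * x.b3 ^ (E.n3 - J 1 E.n3 l)))))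
        (fun h j l _ hj hl => wt_var1 _ _ _ lam x a b hj hl)
        (fun h j l _ hj hl => wt_var1 _ _ _ lam x (α * a) (β * (a + b)) hj hl)
  | 1 =>
    have hM := hE.M2.trans (mkMask_eq (w := E.w + 1) (n := E.n2) (Nat.succ_pos _) (7 * (E.n1 + 1)))
    rw [← E.eq2] at hD
    refine ⟨accL (E.n3 + 1) E.n2 (7 * (E.n1 + 1)) α β D E.n2, ?_, fun lam x a b => ?_⟩
    · have h := left_rep (α := α) (β := β) hD hb hM
      rw [← hE.s2, E.eq2] at h
      exact h
    · unfold val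
      rw [← E.eq2]
      exact accL_eval (H := 7 * (E.n1 + 1)) (n := E.n2) D a b _ _
        (fun h l => (lam (h / (E.n1 + 1)) *
          ((x.a1 ^ (h % (E.n1 + 1)) * x.b1 ^ (E.n1 - h % (E.n1 + 1))) *
          (x.a3 ^ J 1 E.n3 l * x.b3 ^ (E.n3 - J 1 E.n3 l)))))
        (fun h j l _ hj hl => wt_var2 _ _ _ lam x a b hj hl)
        (fun h j l _ hj hl => wt_var2 _ _ _ lam x (α * a) (β * (a + b)) hj hl)
  | (_ + 2) =>
    have hM := hE.M3.trans (mkMask_eq (w := E.w + 1) (n := E.n3) one_pos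
      (7 * ((E.n1 + 1) * (E.n2 + 1))))
    rw [← E.eq3] at hD
    refine ⟨accL 1 E.n3 (7 * ((E.n1 + 1) * (E.n2 + 1))) α β D E.n3, ?_, fun lam x a b => ?_⟩
    · have h := left_rep (α := α) (β := β) hD hb hM
      rw [← hE.s3, E.eq3] at h
      exact h
    · unfold val
      rw [← E.eq3]
      exact accL_eval (H := 7 * ((E.n1 + 1) * (E.n2 + 1))) (n := E.n3) D a b _ _
        (fun h _ => (lam (h / ((E.n1 + 1) * (E.n2 + 1))) *
          ((x.a1 ^ ((h / (E.n2 + 1)) % (E.n1 + 1)) *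
            x.b1 ^ (E.n1 - (h / (E.n2 + 1)) % (E.n1 + 1))) *
          (x.a2 ^ (h % (E.n2 + 1)) * x.b2 ^ (E.n2 - h % (E.n2 + 1))))))
        (fun h j l _ hj hl => wt_var3 _ _ _ lam x a b hj hl)
        (fun h j l _ hj hl => wt_var3 _ _ _ lam x (α * a) (β * (a + b)) hj hl)

theorem stR_sound {E : Env} (hE : E.Ok) (v α β : ℕ) {b : ℕ} {D : ℕ → ℕ} {N : ℕ}
    (hD : Rep (E.w + 1) (7 * E.m0) b D N) (hb : b < 2 ^ (E.w + 1)) :
    ∃ D', Rep (E.w + 1) (7 * E.m0) (bdL E v β α b) D' (stR E v α β N) ∧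
      ∀ (lam : ℕ → ℝ) (x : Pt) (a b : ℝ),
        val E D' lam (x.set v a b) = val E D lam (x.set v (α * (a + b)) (β * b)) := by
  match v with
  | 0 =>
    have hM := hE.M1.trans (mkMask_eq (w := E.w + 1) (n := E.n1) (σ := (E.n2 + 1) * (E.n3 + 1))
      (Nat.mul_pos (Nat.succ_pos _) (Nat.succ_pos _)) 7)
    rw [← E.eq1] at hD
    refine ⟨accR ((E.n2 + 1) * (E.n3 + 1)) E.n1 7 α β D E.n1, ?_, fun lam x a b => ?_⟩
    · have h := right_rep (α := α) (β := β) hD hb hM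
      rw [← hE.s1, E.eq1] at h
      exact h
    · unfold val
      rw [← E.eq1]
      exact accR_eval (H := 7) (n := E.n1) D a b _ _
        (fun h l => (lam h * ((x.a2 ^ J (E.n3 + 1) E.n2 l * x.b2 ^ (E.n2 - J (E.n3 + 1) E.n2 l)) *
          (x.a3 ^ J 1 E.n3 l * x.b3 ^ (E.n3 - J 1 E.n3 l)))))
        (fun h j l _ hj hl => wt_var1 _ _ _ lam x a b hj hl)
        (fun h j l _ hj hl => wt_var1 _ _ _ lam x (α * (a + b)) (β * b) hj hl)
  | 1 =>
    have hM := hE.M2.trans (mkMask_eq (w := E.w + 1) (n := E.n2) (Nat.succ_pos _) (7 * (E.n1 + 1)))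
    rw [← E.eq2] at hD
    refine ⟨accR (E.n3 + 1) E.n2 (7 * (E.n1 + 1)) α β D E.n2, ?_, fun lam x a b => ?_⟩
    · have h := right_rep (α := α) (β := β) hD hb hM
      rw [← hE.s2, E.eq2] at h
      exact h
    · unfold val
      rw [← E.eq2]
      exact accR_eval (H := 7 * (E.n1 + 1)) (n := E.n2) D a b _ _
        (fun h l => (lam (h / (E.n1 + 1)) *
          ((x.a1 ^ (h % (E.n1 + 1)) * x.b1 ^ (E.n1 - h % (E.n1 + 1))) *
          (x.a3 ^ J 1 E.n3 l * x.b3 ^ (E.n3 - J 1 E.n3 l)))))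
        (fun h j l _ hj hl => wt_var2 _ _ _ lam x a b hj hl)
        (fun h j l _ hj hl => wt_var2 _ _ _ lam x (α * (a + b)) (β * b) hj hl)
  | (_ + 2) =>
    have hM := hE.M3.trans (mkMask_eq (w := E.w + 1) (n := E.n3) one_pos
      (7 * ((E.n1 + 1) * (E.n2 + 1))))
    rw [← E.eq3] at hD
    refine ⟨accR 1 E.n3 (7 * ((E.n1 + 1) * (E.n2 + 1))) α β D E.n3, ?_, fun lam x a b => ?_⟩
    · have h := right_rep (α := α) (β := β) hD hb hM
      rw [← hE.s3, E.eq3] at h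
      exact h
    · unfold val
      rw [← E.eq3]
      exact accR_eval (H := 7 * ((E.n1 + 1) * (E.n2 + 1))) (n := E.n3) D a b _ _
        (fun h _ => (lam (h / ((E.n1 + 1) * (E.n2 + 1))) *
          ((x.a1 ^ ((h / (E.n2 + 1)) % (E.n1 + 1)) *
            x.b1 ^ (E.n1 - (h / (E.n2 + 1)) % (E.n1 + 1))) *
          (x.a2 ^ (h % (E.n2 + 1)) * x.b2 ^ (E.n2 - h % (E.n2 + 1))))))
        (fun h j l _ hj hl => wt_var3 _ _ _ lam x a b hj hl)
        (fun h j l _ hj hl => wt_var3 _ _ _ lam x (α * (a + b)) (β * b) hj hl)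

/-! ### leaves -/

theorem blk_rep {E : Env} (hE : E.Ok) {b : ℕ} {D : ℕ → ℕ} {N : ℕ}
    (hD : Rep (E.w + 1) (7 * E.m0) b D N) (hb : b < 2 ^ (E.w + 1)) {t : ℕ} :
    Rep (E.w + 1) E.m0 b (fun p => if p < E.m0 then D (t * E.m0 + p) else 0)
      (blk E.Sb E.Mb N t) := by
  have h1 := hD.shr (t * E.m0) hb
  refine ⟨?_, fun p hp => by show (if p < E.m0 then _ else 0) = 0; rw [if_neg (by omega)],
    fun p => ?_⟩
  · show N >>> (E.Sb * t) &&& E.Mb = _
    have e1 : E.Sb * t = (E.w + 1) * (t * E.m0) := by rw [hE.Sb]; ring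
    have e2 : N >>> ((E.w + 1) * (t * E.m0)) = pk (E.w + 1) (fun p => D (t * E.m0 + p)) (7 * E.m0) :=
      h1.eq
    rw [e1, e2, hE.Mb, Nat.and_two_pow_sub_one_eq_mod]
    rw [show 7 * E.m0 = E.m0 + 6 * E.m0 by ring, pk_append, Nat.add_mul_mod_self_left,
      Nat.mod_eq_of_lt (pk_lt _ _ fun p _ => (hD.bd _).trans_lt hb)]
    apply pk_congr
    intro p hp
    rw [if_pos hp]
  · show (if p < E.m0 then D (t * E.m0 + p) else 0) ≤ b
    split_ifs
    · exact hD.bd _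
    · exact Nat.zero_le _

/-- block weights: entry `t` minus the offset block -/
noncomputable def lamt (t : ℕ) : ℕ → ℝ := fun h => if h = t then 1 else if h = 6 then -1 else 0

theorem mon_period {n1 n2 n3 : ℕ} (x : Pt) (h p : ℕ) :
    mon n1 n2 n3 x (h * ((n1 + 1) * ((n2 + 1) * (n3 + 1))) + p) = mon n1 n2 n3 x p := by
  unfold mon
  have e1 : J ((n2 + 1) * (n3 + 1)) n1 (h * ((n1 + 1) * ((n2 + 1) * (n3 + 1))) + p)
      = J ((n2 + 1) * (n3 + 1)) n1 p :=
    inner_J (Nat.mul_pos (Nat.succ_pos _) (Nat.succ_pos _)) h rfl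
  have e2 : J (n3 + 1) n2 (h * ((n1 + 1) * ((n2 + 1) * (n3 + 1))) + p) = J (n3 + 1) n2 p := by
    rw [show h * ((n1 + 1) * ((n2 + 1) * (n3 + 1))) = (h * (n1 + 1)) * ((n2 + 1) * (n3 + 1)) by ring]
    exact inner_J (Nat.succ_pos _) _ rfl
  have e3 : J 1 n3 (h * ((n1 + 1) * ((n2 + 1) * (n3 + 1))) + p) = J 1 n3 p := by
    rw [show h * ((n1 + 1) * ((n2 + 1) * (n3 + 1))) = (h * (n1 + 1) * (n2 + 1)) * (n3 + 1) by ring]
    exact inner_J one_pos _ (by ring)
  rw [e1, e2, e3]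

theorem val_lamt (E : Env) (D : ℕ → ℕ) (x : Pt) {t : ℕ} (ht : t < 6) :
    val E D (lamt t) x = ∑ p ∈ Finset.range E.m0,
      ((((if p < E.m0 then D (t * E.m0 + p) else 0 : ℕ) : ℤ)
        - ((if p < E.m0 then D (6 * E.m0 + p) else 0 : ℕ) : ℤ) : ℤ) : ℝ)
        * mon E.n1 E.n2 E.n3 x p := by
  have hm0 : 0 < E.m0 := by unfold Env.m0; positivity
  unfold val
  rw [sum_range_mul, Finset.sum_comm]
  refine Finset.sum_congr rfl fun p hp => ?_
  have hp' := Finset.mem_range.1 hp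
  have key : ∀ h, (D (h * E.m0 + p) : ℝ) * wt E.n1 E.n2 E.n3 (lamt t) x (h * E.m0 + p)
      = lamt t h * ((D (h * E.m0 + p) : ℝ) * mon E.n1 E.n2 E.n3 x p) := by
    intro h
    unfold wt
    rw [mon_period x h p]
    have : (h * E.m0 + p) / ((E.n1 + 1) * ((E.n2 + 1) * (E.n3 + 1))) = h := by
      rw [show h * E.m0 + p = p + E.m0 * h by ring, Nat.add_mul_div_left _ _ hm0,
        Nat.div_eq_of_lt hp', zero_add]
    rw [this]; ring
  simp only [key, if_pos hp']
  have : t = 0 ∨ t = 1 ∨ t = 2 ∨ t = 3 ∨ t = 4 ∨ t = 5 := by omega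
  rcases this with rfl | rfl | rfl | rfl | rfl | rfl <;>
    simp [Finset.sum_range_succ, lamt] <;> ring

theorem chkLeaf_sound {E : Env} (hE : E.Ok) {g11 g12 g22 g13 g23 g33 : ℤ} {b N : ℕ} {D : ℕ → ℕ}
    (hD : Rep (E.w + 1) (7 * E.m0) b D N)
    (h : chkLeaf E g11 g12 g22 g13 g23 g33 b N = true) (x : Pt) (hx : x.Nonneg) (u v s : ℝ) :
    0 ≤ qf (val E D (lamt 0) x) (val E D (lamt 1) x) (val E D (lamt 2) x) (val E D (lamt 3) x)
      (val E D (lamt 4) x) (val E D (lamt 5) x) u v s := by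
  unfold chkLeaf at h
  simp only [frc_eq, Bool.and_eq_true] at h
  obtain ⟨⟨⟨⟨h11, h22⟩, h33⟩, hb⟩, h⟩ := h
  have hb' : b < 2 ^ (E.w + 1) := by
    have := Nat.le_of_ble_eq_true hb
    rw [hE.W1] at this; exact this
  have o := blk_rep hE hD hb' (t := 6)
  have is : ∀ t, SV.Is E.w E.m0 ⟨blk E.Sb E.Mb N t, blk E.Sb E.Mb N 6, b⟩
      (fun p => ((if p < E.m0 then D (t * E.m0 + p) else 0 : ℕ) : ℤ)
        - ((if p < E.m0 then D (6 * E.m0 + p) else 0 : ℕ) : ℤ)) := fun t =>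
    ⟨_, _, blk_rep hE hD hb' (t := t), o, fun p => rfl⟩
  have key := lfOk_sound hE.W hE.H (posI_iff h11) (posI_iff h22) (posI_iff h33)
    (is 0) (is 1) (is 2) (is 3) (is 4) (is 5) h
  rw [val_lamt E D x (show 0 < 6 by norm_num), val_lamt E D x (show 1 < 6 by norm_num),
    val_lamt E D x (show 2 < 6 by norm_num), val_lamt E D x (show 3 < 6 by norm_num),
    val_lamt E D x (show 4 < 6 by norm_num), val_lamt E D x (show 5 < 6 by norm_num)]
  unfold qf
  simp only [Finset.sum_mul, Finset.mul_sum, ← Finset.sum_add_distrib]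
  refine Finset.sum_nonneg fun p _ => ?_
  have h1 := mul_nonneg (mon_nonneg (n1 := E.n1) (n2 := E.n2) (n3 := E.n3) hx p) (key p u v s)
  unfold qf at h1
  refine le_of_le_of_eq h1 ?_
  ring


end Crest.Agent.R249.Ker254
end

-- ▼ part R249/Ker7_254
section

/-!
# Kernel checker for polynomial inequalities, part 7: lists of coefficients, main theorem
-/

set_option autoImplicit false

namespace Crest.Agent.R249.Ker254

/-- polynomials in 3 variables: coefficient of `x^i y^j z^k` at `[i][j][k]` -/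
abbrev P3 := List (List (List ℤ))

noncomputable def ev1 (z : ℝ) : List ℤ → ℝ
  | [] => 0
  | c :: cs => c + z * ev1 z cs

noncomputable def ev2 (y z : ℝ) : List (List ℤ) → ℝ
  | [] => 0
  | p :: ps => ev1 z p + y * ev2 y z ps

noncomputable def ev3 (x y z : ℝ) : P3 → ℝ
  | [] => 0
  | p :: ps => ev2 y z p + x * ev3 x y z ps

/-! ## packing lists -/

/-- `n` digits of `s` bits, from a list, padded by `e` -/
def packG {α : Type} (s : ℕ) (f : α → ℕ) (e : α) : ℕ → List α → ℕ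
  | 0, _ => 0
  | n + 1, [] => Nat.add (f e) (Nat.shiftLeft (packG s f e n []) s)
  | n + 1, a :: as => Nat.add (f a) (Nat.shiftLeft (packG s f e n as) s)

theorem packG_eq {α : Type} (w m : ℕ) (f : α → ℕ) (e : α) (g : α → ℕ → ℕ)
    (hf : ∀ a, f a = pk w (g a) m) (n : ℕ) (l : List α) :
    packG (w * m) f e n l = pk w (fun P => g (l.getD (P / m) e) (P % m)) (n * m) := by
  rcases Nat.eq_zero_or_pos m with hm | hm
  · subst hm
    have : ∀ a, f a = 0 := fun a => by rw [hf]; simp [pk]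
    have h2 : ∀ n (l : List α), packG (w * 0) f e n l = 0 := by
      intro n
      induction n with
      | zero => intro l; rfl
      | succ n ih =>
        intro l
        cases l with
        | nil =>
          show f e + (packG (w * 0) f e n []) <<< (w * 0) = 0
          rw [this, ih]; simp
        | cons a as =>
          show f a + (packG (w * 0) f e n as) <<< (w * 0) = 0
          rw [this, ih]; simp
    rw [h2]; simp [pk]
  induction n generalizing l with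
  | zero => simp [packG, pk_zero]
  | succ n ih =>
    have e1 : (n + 1) * m = m + n * m := by ring
    cases l with
    | nil =>
      show f e + (packG (w * m) f e n []) <<< (w * m) = _
      rw [ih, hf, e1, pk_append, Nat.shiftLeft_eq, mul_comm _ (2 ^ (w * m))]
      congr 1
      · apply pk_congr; intro p hp
        rw [Nat.div_eq_of_lt hp, Nat.mod_eq_of_lt hp]; rfl
      · congr 1
        apply pk_congr; intro p _
        rw [Nat.add_mod_left]
        simp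
    | cons a as =>
      show f a + (packG (w * m) f e n as) <<< (w * m) = _
      rw [ih, hf, e1, pk_append, Nat.shiftLeft_eq, mul_comm _ (2 ^ (w * m))]
      congr 1
      · apply pk_congr; intro p hp
        rw [Nat.div_eq_of_lt hp, Nat.mod_eq_of_lt hp]; rfl
      · congr 1
        apply pk_congr; intro p _
        rw [Nat.add_mod_left, show m + p = p + m * 1 by ring, Nat.add_mul_div_left _ _ hm]
        rfl

/-- digit of an integer coefficient -/
def toD (off : ℕ) : ℤ → ℕ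
  | Int.ofNat k => Nat.add off k
  | Int.negSucc k => Nat.sub off (Nat.succ k)

theorem toD_eq {off : ℕ} {c : ℤ} (h : c.natAbs ≤ off) : (toD off c : ℤ) = c + off := by
  cases c with
  | ofNat k => show ((off + k : ℕ) : ℤ) = _; push_cast; rw [Int.ofNat_eq_natCast]; ring
  | negSucc k =>
    show ((off - (k + 1) : ℕ) : ℤ) = _
    have : k + 1 ≤ off := h
    rw [Int.negSucc_eq]; push_cast [this]; ring

theorem toD_le {off : ℕ} {c : ℤ} (h : c.natAbs ≤ off) : toD off c ≤ 2 * off := by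
  cases c with
  | ofNat k => show off + k ≤ _; have : k ≤ off := h; omega
  | negSucc k => show off - (k + 1) ≤ _; omega

/-- the packed number of seven blocks (blocks beyond the list are zero, i.e. `off`) -/
def build (w1 n1 n2 n3 off : ℕ) (bl : List P3) : ℕ :=
  packG (w1 * ((n1 + 1) * ((n2 + 1) * (n3 + 1))))
    (packG (w1 * ((n2 + 1) * (n3 + 1)))
      (packG (w1 * (n3 + 1))
        (packG (w1 * 1) (toD off) 0 (n3 + 1)) [] (n2 + 1)) [] (n1 + 1)) [] 7 bl

/-- coefficient of a block list -/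
def cf (bl : List P3) (t i j k : ℕ) : ℤ :=
  (((bl.getD t []).getD i []).getD j []).getD k 0

def digD (n1 n2 n3 off : ℕ) (bl : List P3) (P : ℕ) : ℕ :=
  toD off (cf bl (P / ((n1 + 1) * ((n2 + 1) * (n3 + 1))))
    (P % ((n1 + 1) * ((n2 + 1) * (n3 + 1))) / ((n2 + 1) * (n3 + 1)))
    (P % ((n1 + 1) * ((n2 + 1) * (n3 + 1))) % ((n2 + 1) * (n3 + 1)) / (n3 + 1))
    (P % ((n1 + 1) * ((n2 + 1) * (n3 + 1))) % ((n2 + 1) * (n3 + 1)) % (n3 + 1)))

theorem build_eq (w1 n1 n2 n3 off : ℕ) (bl : List P3) :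
    build w1 n1 n2 n3 off bl
      = pk w1 (digD n1 n2 n3 off bl) (7 * ((n1 + 1) * ((n2 + 1) * (n3 + 1)))) := by
  unfold build
  have h0 : ∀ c : ℤ, toD off c = pk w1 (fun _ => toD off c) 1 := by
    intro c; simp [pk]
  have h1 : ∀ l : List ℤ, packG (w1 * 1) (toD off) 0 (n3 + 1) l
      = pk w1 (fun P => toD off (l.getD P 0)) (n3 + 1) := by
    intro l
    rw [packG_eq w1 1 (toD off) 0 _ h0, mul_one]
    apply pk_congr; intro p _
    simp
  have h2 : ∀ l : List (List ℤ), packG (w1 * (n3 + 1))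
        (packG (w1 * 1) (toD off) 0 (n3 + 1)) [] (n2 + 1) l
      = pk w1 (fun P => toD off ((l.getD (P / (n3 + 1)) []).getD (P % (n3 + 1)) 0))
        ((n2 + 1) * (n3 + 1)) := by
    intro l
    rw [packG_eq w1 (n3 + 1) _ [] _ h1]
  have h3 : ∀ l : P3, packG (w1 * ((n2 + 1) * (n3 + 1)))
      (packG (w1 * (n3 + 1))
        (packG (w1 * 1) (toD off) 0 (n3 + 1)) [] (n2 + 1)) [] (n1 + 1) l
      = pk w1 (fun P => toD off (((l.getD (P / ((n2 + 1) * (n3 + 1))) []).getD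
          (P % ((n2 + 1) * (n3 + 1)) / (n3 + 1)) []).getD
          (P % ((n2 + 1) * (n3 + 1)) % (n3 + 1)) 0))
        ((n1 + 1) * ((n2 + 1) * (n3 + 1))) := by
    intro l
    rw [packG_eq w1 ((n2 + 1) * (n3 + 1)) _ [] _ h2]
  rw [packG_eq w1 ((n1 + 1) * ((n2 + 1) * (n3 + 1))) _ [] _ h3]
  rfl

/-! ## shape check -/

def fits1 (n3 off : ℕ) : ℕ → List ℤ → Bool
  | _, [] => true
  | 0, _ :: _ => false
  | n + 1, c :: cs => Nat.ble (Int.natAbs c) off && fits1 n3 off n cs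

def fits2 (n3 off : ℕ) : ℕ → List (List ℤ) → Bool
  | _, [] => true
  | 0, _ :: _ => false
  | n + 1, p :: ps => fits1 n3 off (n3 + 1) p && fits2 n3 off n ps

def fits3 (n2 n3 off : ℕ) : ℕ → P3 → Bool
  | _, [] => true
  | 0, _ :: _ => false
  | n + 1, p :: ps => fits2 n3 off (n2 + 1) p && fits3 n2 n3 off n ps

def fits4 (n1 n2 n3 off : ℕ) : ℕ → List P3 → Bool
  | _, [] => true
  | 0, _ :: _ => false
  | n + 1, p :: ps => fits3 n2 n3 off (n1 + 1) p && fits4 n1 n2 n3 off n ps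

theorem fits1_sound {n3 off : ℕ} : ∀ {n : ℕ} {l : List ℤ}, fits1 n3 off n l = true →
    (∀ k, (l.getD k 0).natAbs ≤ off) ∧
    ∀ z : ℝ, ev1 z l = ∑ k ∈ Finset.range n, (l.getD k 0 : ℝ) * z ^ k := by
  intro n
  induction n with
  | zero =>
    intro l h
    cases l with
    | nil => exact ⟨fun k => by simp, fun z => by simp [ev1]⟩
    | cons c cs => simp [fits1] at h
  | succ n ih =>
    intro l h
    cases l with
    | nil => exact ⟨fun k => by simp, fun z => by simp [ev1]⟩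
    | cons c cs =>
      simp only [fits1, Bool.and_eq_true] at h
      obtain ⟨h1, h2⟩ := h
      obtain ⟨i1, i2⟩ := ih h2
      refine ⟨fun k => ?_, fun z => ?_⟩
      · cases k with
        | zero => simpa using Nat.le_of_ble_eq_true h1
        | succ k => simpa using i1 k
      · rw [ev1, i2, Finset.sum_range_succ']
        simp only [List.getD_cons_succ, List.getD_cons_zero, pow_zero, mul_one]
        rw [Finset.mul_sum, add_comm]
        congr 1
        refine Finset.sum_congr rfl fun k _ => ?_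
        rw [pow_succ]; ring

theorem fits2_sound {n3 off : ℕ} : ∀ {n : ℕ} {l : List (List ℤ)}, fits2 n3 off n l = true →
    (∀ j k, ((l.getD j []).getD k 0).natAbs ≤ off) ∧
    ∀ y z : ℝ, ev2 y z l = ∑ j ∈ Finset.range n, ∑ k ∈ Finset.range (n3 + 1),
      ((l.getD j []).getD k 0 : ℝ) * (y ^ j * z ^ k) := by
  intro n
  induction n with
  | zero =>
    intro l h
    cases l with
    | nil => exact ⟨fun j k => by simp, fun y z => by simp [ev2]⟩
    | cons c cs => simp [fits2] at h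
  | succ n ih =>
    intro l h
    cases l with
    | nil => exact ⟨fun j k => by simp, fun y z => by simp [ev2]⟩
    | cons c cs =>
      simp only [fits2, Bool.and_eq_true] at h
      obtain ⟨h1, h2⟩ := h
      obtain ⟨i1, i2⟩ := ih h2
      obtain ⟨j1, j2⟩ := fits1_sound h1
      refine ⟨fun j k => ?_, fun y z => ?_⟩
      · cases j with
        | zero => simpa using j1 k
        | succ j => simpa using i1 j k
      · rw [ev2, i2, j2, Finset.sum_range_succ' _ n]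
        simp only [List.getD_cons_succ, List.getD_cons_zero, pow_zero, one_mul]
        rw [Finset.mul_sum, add_comm]
        congr 1
        refine Finset.sum_congr rfl fun j _ => ?_
        rw [Finset.mul_sum]
        refine Finset.sum_congr rfl fun k _ => ?_
        rw [pow_succ]; ring

theorem fits3_sound {n2 n3 off : ℕ} : ∀ {n : ℕ} {l : P3}, fits3 n2 n3 off n l = true →
    (∀ i j k, (((l.getD i []).getD j []).getD k 0).natAbs ≤ off) ∧
    ∀ x y z : ℝ, ev3 x y z l = ∑ i ∈ Finset.range n, ∑ j ∈ Finset.range (n2 + 1),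
      ∑ k ∈ Finset.range (n3 + 1),
      (((l.getD i []).getD j []).getD k 0 : ℝ) * (x ^ i * (y ^ j * z ^ k)) := by
  intro n
  induction n with
  | zero =>
    intro l h
    cases l with
    | nil => exact ⟨fun i j k => by simp, fun x y z => by simp [ev3]⟩
    | cons c cs => simp [fits3] at h
  | succ n ih =>
    intro l h
    cases l with
    | nil => exact ⟨fun i j k => by simp, fun x y z => by simp [ev3]⟩
    | cons c cs =>
      simp only [fits3, Bool.and_eq_true] at h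
      obtain ⟨h1, h2⟩ := h
      obtain ⟨i1, i2⟩ := ih h2
      obtain ⟨j1, j2⟩ := fits2_sound h1
      refine ⟨fun i j k => ?_, fun x y z => ?_⟩
      · cases i with
        | zero => simpa using j1 j k
        | succ i => simpa using i1 i j k
      · rw [ev3, i2, j2, Finset.sum_range_succ' _ n]
        simp only [List.getD_cons_succ, List.getD_cons_zero, pow_zero, one_mul]
        rw [Finset.mul_sum, add_comm]
        congr 1
        refine Finset.sum_congr rfl fun i _ => ?_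
        rw [Finset.mul_sum]
        refine Finset.sum_congr rfl fun j _ => ?_
        rw [Finset.mul_sum]
        refine Finset.sum_congr rfl fun k _ => ?_
        rw [pow_succ]; ring

theorem fits4_sound {n1 n2 n3 off : ℕ} : ∀ {n : ℕ} {l : List P3}, fits4 n1 n2 n3 off n l = true →
    (∀ t, fits3 n2 n3 off (n1 + 1) (l.getD t []) = true) := by
  intro n
  induction n with
  | zero =>
    intro l h t
    cases l with
    | nil => simp [fits3]
    | cons c cs => simp [fits4] at h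
  | succ n ih =>
    intro l h t
    cases l with
    | nil => simp [fits3]
    | cons c cs =>
      simp only [fits4, Bool.and_eq_true] at h
      cases t with
      | zero => simpa using h.1
      | succ t => simpa using ih h.2 t

end Crest.Agent.R249.Ker254
private theorem rz_4d26d21ead : type_of% @_root_.Crest.Agent.R249.Ker254.ev1.eq_def := @_root_.Crest.Agent.R249.Ker254.ev1.eq_def -- L14
private theorem rz_3e39096715 : type_of% @_root_.Crest.Agent.R249.Ker254.ev1.eq_1 := @_root_.Crest.Agent.R249.Ker254.ev1.eq_1 -- L14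
private theorem rz_7d08c277ec : type_of% @_root_.Crest.Agent.R249.Ker254.ev2.eq_def := @_root_.Crest.Agent.R249.Ker254.ev2.eq_def -- L18
private theorem rz_cae16f1d21 : type_of% @_root_.Crest.Agent.R249.Ker254.ev2.eq_1 := @_root_.Crest.Agent.R249.Ker254.ev2.eq_1 -- L18
private theorem rz_0c7b079bfe : type_of% @_root_.Crest.Agent.R249.Ker254.ev3.eq_def := @_root_.Crest.Agent.R249.Ker254.ev3.eq_def -- L22
private theorem rz_bb7a2d82b3 : type_of% @_root_.Crest.Agent.R249.Ker254.ev3.eq_1 := @_root_.Crest.Agent.R249.Ker254.ev3.eq_1 -- L22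
private theorem rz_ccacb43903 : type_of% @_root_.Crest.Agent.R249.Ker254.fits1.eq_def := @_root_.Crest.Agent.R249.Ker254.fits1.eq_def -- L147
private theorem rz_467d765080 : type_of% @_root_.Crest.Agent.R249.Ker254.fits1.eq_1 := @_root_.Crest.Agent.R249.Ker254.fits1.eq_1 -- L147
private theorem rz_e331d5052d : type_of% @_root_.Crest.Agent.R249.Ker254.fits2.eq_def := @_root_.Crest.Agent.R249.Ker254.fits2.eq_def -- L152
private theorem rz_5e7df5d8a1 : type_of% @_root_.Crest.Agent.R249.Ker254.fits2.eq_1 := @_root_.Crest.Agent.R249.Ker254.fits2.eq_1 -- L152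
private theorem rz_b3f93c5476 : type_of% @_root_.Crest.Agent.R249.Ker254.fits3.eq_def := @_root_.Crest.Agent.R249.Ker254.fits3.eq_def -- L157
private theorem rz_cdb2d51f52 : type_of% @_root_.Crest.Agent.R249.Ker254.fits3.eq_1 := @_root_.Crest.Agent.R249.Ker254.fits3.eq_1 -- L157
private theorem rz_26a63aa398 : type_of% @_root_.Crest.Agent.R249.Ker254.fits4.eq_def := @_root_.Crest.Agent.R249.Ker254.fits4.eq_def -- L162
private theorem rz_7086400899 : type_of% @_root_.Crest.Agent.R249.Ker254.fits4.eq_1 := @_root_.Crest.Agent.R249.Ker254.fits4.eq_1 -- L162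
private theorem rz_78fd2fa06f : type_of% @_root_.Crest.Agent.R249.Ker254.packG.eq_def := @_root_.Crest.Agent.R249.Ker254.packG.eq_def -- L29
private theorem rz_ab47aa0e63 : type_of% @_root_.Crest.Agent.R249.Ker254.packG.eq_1 := @_root_.Crest.Agent.R249.Ker254.packG.eq_1 -- L29
end

-- ▼ part R249/Ker8_254

/-!
# Kernel checker for polynomial inequalities, part 8: main theorem
-/

set_option autoImplicit false

namespace Crest.Agent.R249.Ker254

/-- the digit `2 ^ w` repeated -/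
def mkH (w1 W : ℕ) : ℕ → ℕ
  | 0 => 0
  | n + 1 => Nat.add (Nat.shiftLeft (mkH w1 W n) w1) W

theorem mkH_eq (w1 W n : ℕ) : mkH w1 W n = pk w1 (fun _ => W) n := by
  induction n with
  | zero => simp [mkH, pk_zero]
  | succ n ih =>
    show (mkH w1 W n) <<< w1 + W = _
    rw [ih, show n + 1 = 1 + n by ring, pk_append, Nat.shiftLeft_eq, mul_one]
    have : pk w1 (fun _ => W) 1 = W := by simp [pk]
    rw [this]; ring

/-- run `k` with a fully evaluated environment -/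
def withEnv (w n1 n2 n3 : ℕ) (k : Env → Bool) : Bool :=
  frc (Nat.succ w) fun w1 =>
  frc (Nat.succ n3) fun d3 =>
  frc (Nat.mul (Nat.succ n2) d3) fun d2 =>
  frc (Nat.mul (Nat.succ n1) d2) fun m0 =>
  frc (Nat.mul w1 d2) fun s1 =>
  frc (Nat.mul w1 d3) fun s2 =>
  frc (Nat.mul w1 1) fun s3 =>
  frc (mkMask s1 n1 7) fun M1 =>
  frc (mkMask s2 n2 (Nat.mul 7 (Nat.succ n1))) fun M2 =>
  frc (mkMask s3 n3 (Nat.mul 7 (Nat.mul (Nat.succ n1) (Nat.succ n2)))) fun M3 =>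
  frc (Nat.mul w1 m0) fun Sb =>
  frc (Nat.sub (Nat.pow 2 Sb) 1) fun Mb =>
  frc (Nat.pow 2 w) fun W =>
  frc (mkH w1 W m0) fun H =>
  frc (Nat.pow 2 w1) fun W1 =>
  k ⟨w, n1, n2, n3, s1, s2, s3, M1, M2, M3, Sb, Mb, W, H, W1⟩

theorem withEnv_eq (w n1 n2 n3 : ℕ) (k : Env → Bool) :
    ∃ E : Env, E.Ok ∧ E.w = w ∧ E.n1 = n1 ∧ E.n2 = n2 ∧ E.n3 = n3 ∧ withEnv w n1 n2 n3 k = k E := by
  unfold withEnv
  simp only [frc_eq]
  refine ⟨_, ?_, rfl, rfl, rfl, rfl, rfl⟩
  refine ⟨rfl, rfl, rfl, rfl, rfl, rfl, rfl, rfl, rfl, ?_, rfl⟩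
  exact mkH_eq _ _ _

/-- restrict variable `v` to `[0, 1]` if the flag is set -/
def cut (E : Env) (v : ℕ) (fl : Bool) (b N : ℕ) (k : ℕ → ℕ → Bool) : Bool :=
  match fl with
  | false => k b N
  | true => Nat.ble (Nat.succ b) E.W1 &&
      frc (bdL E v 1 1 b) fun b' => frc (stL E v 1 1 N) fun N' => k b' N'

/-- the whole check -/
def run (w n1 n2 n3 off : ℕ) (f1 f2 f3 : Bool) (T : Tree) (bl : List P3) : Bool :=
  fits4 n1 n2 n3 off 6 bl &&
  withEnv w n1 n2 n3 fun E =>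
    frc (build (Nat.succ w) n1 n2 n3 off bl) fun N0 =>
    frc (Nat.mul 2 off) fun b0 =>
    cut E 0 f1 b0 N0 fun b1 N1 => cut E 1 f2 b1 N1 fun b2 N2 => cut E 2 f3 b2 N2 fun b3 N3 =>
    chk E T b3 N3

theorem val_build {E : Env} {off : ℕ} {a b c d e f : P3}
    (hf : fits4 E.n1 E.n2 E.n3 off 6 [a, b, c, d, e, f] = true) (x y z : ℝ) {t : ℕ} (ht : t < 6)
    {D : ℕ → ℕ} (hD : ∀ P, P < 7 * E.m0 → D P = digD E.n1 E.n2 E.n3 off [a, b, c, d, e, f] P) :
    val E D (lamt t) ⟨x, 1, y, 1, z, 1⟩ = ev3 x y z ([a, b, c, d, e, f].getD t []) := by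
  rw [val_lamt E D _ ht]
  obtain ⟨q1, q2⟩ := fits3_sound (fits4_sound hf t)
  rw [q2, show E.m0 = (E.n1 + 1) * ((E.n2 + 1) * (E.n3 + 1)) from rfl, sum_range_mul]
  refine Finset.sum_congr rfl fun i hi => ?_
  rw [sum_range_mul]
  refine Finset.sum_congr rfl fun j hj => Finset.sum_congr rfl fun k hk => ?_
  have hi' : i < E.n1 + 1 := Finset.mem_range.1 hi
  have hj' : j < E.n2 + 1 := Finset.mem_range.1 hj
  have hk' : k < E.n3 + 1 := Finset.mem_range.1 hk
  have hl : j * (E.n3 + 1) + k < (E.n2 + 1) * (E.n3 + 1) := by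
    have := idx_lt (σ := 1) (n := E.n3) (H := E.n2 + 1) (l := 0) hj' (Nat.le_of_lt_succ hk') one_pos
    simpa using this
  have hp : i * ((E.n2 + 1) * (E.n3 + 1)) + (j * (E.n3 + 1) + k)
      < (E.n1 + 1) * ((E.n2 + 1) * (E.n3 + 1)) := by
    have := idx_lt (σ := (E.n2 + 1) * (E.n3 + 1)) (n := E.n1) (H := 1) (h := 0) one_pos
      (Nat.le_of_lt_succ hi') hl
    simpa using this
  have hm0 : 0 < (E.n1 + 1) * ((E.n2 + 1) * (E.n3 + 1)) := by positivity
  have hs1 : 0 < (E.n2 + 1) * (E.n3 + 1) := by positivity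
  have hdig : ∀ t', t' < 7 → D (t' * ((E.n1 + 1) * ((E.n2 + 1) * (E.n3 + 1)))
        + (i * ((E.n2 + 1) * (E.n3 + 1)) + (j * (E.n3 + 1) + k)))
      = toD off (cf [a, b, c, d, e, f] t' i j k) := by
    intro t' ht'
    rw [hD]
    · unfold digD
      have e1 : (t' * ((E.n1 + 1) * ((E.n2 + 1) * (E.n3 + 1)))
          + (i * ((E.n2 + 1) * (E.n3 + 1)) + (j * (E.n3 + 1) + k)))
          / ((E.n1 + 1) * ((E.n2 + 1) * (E.n3 + 1))) = t' := by
        rw [mul_comm t', add_comm, Nat.add_mul_div_left _ _ hm0, Nat.div_eq_of_lt hp, zero_add]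
      have e2 : (t' * ((E.n1 + 1) * ((E.n2 + 1) * (E.n3 + 1)))
          + (i * ((E.n2 + 1) * (E.n3 + 1)) + (j * (E.n3 + 1) + k)))
          % ((E.n1 + 1) * ((E.n2 + 1) * (E.n3 + 1)))
          = i * ((E.n2 + 1) * (E.n3 + 1)) + (j * (E.n3 + 1) + k) := by
        rw [mul_comm t', add_comm, Nat.add_mul_mod_self_left, Nat.mod_eq_of_lt hp]
      rw [e1, e2]
      have e3 : (i * ((E.n2 + 1) * (E.n3 + 1)) + (j * (E.n3 + 1) + k))
          / ((E.n2 + 1) * (E.n3 + 1)) = i := by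
        rw [mul_comm i, add_comm, Nat.add_mul_div_left _ _ hs1, Nat.div_eq_of_lt hl, zero_add]
      have e4 : (i * ((E.n2 + 1) * (E.n3 + 1)) + (j * (E.n3 + 1) + k))
          % ((E.n2 + 1) * (E.n3 + 1)) = j * (E.n3 + 1) + k := by
        rw [mul_comm i, add_comm, Nat.add_mul_mod_self_left, Nat.mod_eq_of_lt hl]
      rw [e3, e4]
      have e5 : (j * (E.n3 + 1) + k) / (E.n3 + 1) = j := by
        rw [mul_comm j, add_comm, Nat.add_mul_div_left _ _ (Nat.succ_pos _),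
          Nat.div_eq_of_lt hk', zero_add]
      have e6 : (j * (E.n3 + 1) + k) % (E.n3 + 1) = k := by
        rw [mul_comm j, add_comm, Nat.add_mul_mod_self_left, Nat.mod_eq_of_lt hk']
      rw [e5, e6]
    · have := idx_lt (σ := (E.n1 + 1) * ((E.n2 + 1) * (E.n3 + 1))) (n := 6) (H := 1) (h := 0)
        (j := t') one_pos (by omega) hp
      have h7 : 7 * E.m0 = 1 * (6 + 1) * ((E.n1 + 1) * ((E.n2 + 1) * (E.n3 + 1))) := by
        unfold Env.m0; ring
      rw [h7]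
      simpa using this
  rw [if_pos hp, if_pos hp, hdig t (by omega), hdig 6 (by omega)]
  have hc6 : cf [a, b, c, d, e, f] 6 i j k = 0 := by simp [cf]
  have hct : (cf [a, b, c, d, e, f] t i j k).natAbs ≤ off := q1 i j k
  rw [toD_eq hct, hc6, toD_eq (off := off) (c := 0) (by simp)]
  have hmon : mon E.n1 E.n2 E.n3 ⟨x, 1, y, 1, z, 1⟩
      (i * ((E.n2 + 1) * (E.n3 + 1)) + (j * (E.n3 + 1) + k)) = x ^ i * (y ^ j * z ^ k) := by
    unfold mon
    have j1 : J ((E.n2 + 1) * (E.n3 + 1)) E.n1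
        (i * ((E.n2 + 1) * (E.n3 + 1)) + (j * (E.n3 + 1) + k)) = i := by
      have := J_eq (σ := (E.n2 + 1) * (E.n3 + 1)) (n := E.n1) (h := 0) hl (Nat.le_of_lt_succ hi')
      simpa using this
    have j2 : J (E.n3 + 1) E.n2
        (i * ((E.n2 + 1) * (E.n3 + 1)) + (j * (E.n3 + 1) + k)) = j := by
      rw [inner_J (Nat.succ_pos _) i rfl]
      have := J_eq (σ := E.n3 + 1) (n := E.n2) (h := 0) hk' (Nat.le_of_lt_succ hj')
      simpa using this
    have j3 : J 1 E.n3 (i * ((E.n2 + 1) * (E.n3 + 1)) + (j * (E.n3 + 1) + k)) = k := by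
      have := J_eq (σ := 1) (n := E.n3) (h := i * (E.n2 + 1) + j) (l := 0) one_pos
        (Nat.le_of_lt_succ hk')
      rw [show i * ((E.n2 + 1) * (E.n3 + 1)) + (j * (E.n3 + 1) + k)
        = ((i * (E.n2 + 1) + j) * (E.n3 + 1) + k) * 1 + 0 by ring]
      exact this
    rw [j1, j2, j3]; simp
  rw [hmon]
  unfold cf
  push_cast
  ring



end Crest.Agent.R249.Ker254
private theorem rz_b860aa6091 : type_of% @_root_.Crest.Agent.R249.Ker254.cut.eq_1 := @_root_.Crest.Agent.R249.Ker254.cut.eq_1 -- L53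
private theorem rz_d995bdd819 : type_of% @_root_.Crest.Agent.R249.Ker254.mkH.eq_def := @_root_.Crest.Agent.R249.Ker254.mkH.eq_def -- L12
private theorem rz_63ff69045e : type_of% @_root_.Crest.Agent.R249.Ker254.mkH.eq_1 := @_root_.Crest.Agent.R249.Ker254.mkH.eq_1 -- L12
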