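import Mathlib

-- ▼ part R249/Lim0_621
section

/-!
# Row 249, part A2 (BP-A2 section 9): the limit passage, finite dimensional part

`Jet E H` : values of `φ, ψ`, their gradients `p, q` and Hessians `P, Q` at a point.
`shift` : a jet in the contact zone `|κ| ≤ ε` is close to a jet with `κ = 0`, `dκ = 0` whose
multipliers lie in the simplex `3φ²m + 3ψ²m' ≤ E⁺ + c₀`.
Formalism independent.
-/

set_option autoImplicit false

namespace Crest.Agent.R249.Lim621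

/-- a two-jet of the pair `(φ, ψ)` -/
structure Jet (E H : Type*) where
  f : ℝ
  g : ℝ
  p : E
  q : E
  P : H
  Q : H

variable {E H : Type*} [NormedAddCommGroup E] [InnerProductSpace ℝ E]
  [NormedAddCommGroup H] [NormedSpace ℝ H]

namespace Jet

/-- `x + y` -/
def s (j : Jet E H) : ℝ := j.f ^ 3 + j.g ^ 3

/-- `κ = 2 - x - y` -/
def kap (j : Jet E H) : ℝ := 2 - (j.f ^ 3 + j.g ^ 3)

/-- `dκ` -/
def L (j : Jet E H) : E := (-3 : ℝ) • (j.f ^ 2 • j.p + j.g ^ 2 • j.q)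

/-- `E = (x-y)² - 6 (φ |dφ|² + ψ |dψ|²)` -/
def Ee (j : Jet E H) : ℝ :=
  (j.f ^ 3 - j.g ^ 3) ^ 2 - 6 * (j.f * ‖j.p‖ ^ 2 + j.g * ‖j.q‖ ^ 2)

/-- the weight (of degree two) -/
def W (j : Jet E H) : ℝ := 1 + ‖j.p‖ ^ 2 + ‖j.q‖ ^ 2 + ‖j.P‖ + ‖j.Q‖

/-- `X = ψ dφ - φ dψ` -/
def Xv (j : Jet E H) : E := j.g • j.p - j.f • j.q

theorem one_le_W (j : Jet E H) : 1 ≤ j.W := by
  unfold W
  have h1 := sq_nonneg ‖j.p‖
  have h2 := sq_nonneg ‖j.q‖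
  have h3 := norm_nonneg j.P
  have h4 := norm_nonneg j.Q
  linarith

theorem W_nonneg (j : Jet E H) : 0 ≤ j.W := le_trans zero_le_one j.one_le_W

end Jet

/-- the jets `j'` obtained from `j` by `(φ, ψ, X) ↦ (λφ, λψ, λX)` and arbitrary changes of `dκ` and
of the Hessians. -/
def Rel (ε : ℝ) (j j' : Jet E H) : Prop :=
  ∃ lam : ℝ, 0 < lam ∧ |lam - 1| ≤ ε ∧ j'.f = lam * j.f ∧ j'.g = lam * j.g ∧
    j'.Xv = lam • j.Xv

/-- the modulus of continuity of weight four -/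
noncomputable def Mod (ε : ℝ) (j j' : Jet E H) : ℝ :=
  ε * (j.W + j'.W) ^ 2
      + (‖j.p - j'.p‖ + ‖j.q - j'.q‖) * ((j.W + j'.W) * Real.sqrt (j.W + j'.W))
      + (‖j.P - j'.P‖ + ‖j.Q - j'.Q‖) * (j.W + j'.W)


/-- the error function: `θ Z² + θ⁻³ (‖L‖⁴ + e² + r² + r'²)` -/
noncomputable def Er (θ Z l e r r' : ℝ) : ℝ :=
  θ * Z ^ 2 + (θ ^ 3)⁻¹ * (l ^ 4 + e ^ 2 + r ^ 2 + r' ^ 2)

section young

theorem young4 {θ a b : ℝ} (hθ : 0 < θ) (ha : 0 ≤ a) (hb : 0 ≤ b) :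
    a * b ^ 3 ≤ θ * b ^ 4 + (θ ^ 3)⁻¹ * a ^ 4 := by
  rcases le_total a (θ * b) with h | h
  · have h1 : a * b ^ 3 ≤ θ * b * b ^ 3 := mul_le_mul_of_nonneg_right h (by positivity)
    have h2 : 0 ≤ (θ ^ 3)⁻¹ * a ^ 4 := by positivity
    nlinarith
  · have h1 : b ≤ a / θ := by rw [le_div_iff₀ hθ]; linarith
    have h2 : b ^ 3 ≤ (a / θ) ^ 3 := pow_le_pow_left₀ hb h1 3
    have h3 : a * b ^ 3 ≤ a * (a / θ) ^ 3 := mul_le_mul_of_nonneg_left h2 ha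
    have h4 : a * (a / θ) ^ 3 = (θ ^ 3)⁻¹ * a ^ 4 := by
      field_simp
    have h5 : 0 ≤ θ * b ^ 4 := by positivity
    linarith

theorem young2 {θ a b : ℝ} (hθ : 0 < θ) (hθ1 : θ ≤ 1) (ha : 0 ≤ a) (hb : 0 ≤ b) :
    a * b ≤ θ * b ^ 2 + (θ ^ 3)⁻¹ * a ^ 2 := by
  have hinv : θ⁻¹ ≤ (θ ^ 3)⁻¹ := by
    apply inv_anti₀ (by positivity)
    nlinarith [sq_nonneg θ, mul_nonneg (mul_nonneg hθ.le hθ.le) hθ.le, pow_le_one₀ hθ.le hθ1 (n := 2)]
  rcases le_total a (θ * b) with h | h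
  · have h1 : a * b ≤ θ * b * b := mul_le_mul_of_nonneg_right h hb
    have h2 : 0 ≤ (θ ^ 3)⁻¹ * a ^ 2 := by positivity
    nlinarith
  · have h1 : b ≤ θ⁻¹ * a := by
      rw [inv_mul_eq_div, le_div_iff₀ hθ]; linarith
    have h3 : a * b ≤ a * (θ⁻¹ * a) := mul_le_mul_of_nonneg_left h1 ha
    have h4 : a * (θ⁻¹ * a) ≤ (θ ^ 3)⁻¹ * a ^ 2 := by
      have : a * (θ⁻¹ * a) = θ⁻¹ * a ^ 2 := by ring
      rw [this]
      exact mul_le_mul_of_nonneg_right hinv (by positivity)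
    have h5 : 0 ≤ θ * b ^ 2 := by positivity
    linarith

end young

end Crest.Agent.R249.Lim621
end

-- ▼ part R249/Lim1_621
section

/-!
# Row 249, part A2 (BP-A2 section 9): shifting a jet of the contact zone

`zone` : a jet with `|κ| ≤ ε` and multipliers near the simplex is close to an exact contact jet.
-/

set_option autoImplicit false

namespace Crest.Agent.R249.Lim621

variable {E H : Type*} [NormedAddCommGroup E] [InnerProductSpace ℝ E]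
  [NormedAddCommGroup H] [NormedSpace ℝ H]

/-! ## real inequalities -/

theorem exists_cuberoot {a : ℝ} (ha : 0 < a) : ∃ l : ℝ, 0 < l ∧ l ^ 3 = a := by
  refine ⟨a ^ ((1 : ℝ) / 3), Real.rpow_pos_of_pos ha _, ?_⟩
  rw [← Real.rpow_natCast, ← Real.rpow_mul ha.le]
  norm_num

/-- bounds for `l = (2/s)^{1/3}` -/
theorem lam_bounds {s l ε : ℝ} (hε : 0 ≤ ε) (hε1 : ε ≤ 1 / 2) (hs : |2 - s| ≤ ε) (hl : 0 < l)
    (hl3 : l ^ 3 = 2 / s) :
    3 / 2 ≤ s ∧ s ≤ 5 / 2 ∧ 9 / 10 ≤ l ∧ l ≤ 112 / 100 ∧ |l - 1| ≤ 2 / 3 * ε ∧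
      |l ^ 3 - 1| ≤ 2 / 3 * ε := by
  have h1 := (abs_le.mp hs).1
  have h2 := (abs_le.mp hs).2
  have hs1 : 3 / 2 ≤ s := by linarith
  have hs2 : s ≤ 5 / 2 := by linarith
  have hs0 : 0 < s := by linarith
  have h3 : l ^ 3 - 1 = (2 - s) / s := by rw [hl3]; field_simp
  have h4 : |l ^ 3 - 1| ≤ 2 / 3 * ε := by
    rw [h3, abs_div, abs_of_pos hs0, div_le_iff₀ hs0]
    nlinarith
  have h5 : l ^ 3 - 1 = (l - 1) * (l ^ 2 + l + 1) := by ring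
  have h6 : |l - 1| ≤ |l ^ 3 - 1| := by
    rw [h5, abs_mul]
    have : 1 ≤ |l ^ 2 + l + 1| := by
      rw [abs_of_pos (by positivity)]; nlinarith
    nlinarith [abs_nonneg (l - 1)]
  have h7 := abs_le.mp h4
  have h8 : |l - 1| ≤ 2 / 3 * ε := le_trans h6 h4
  refine ⟨hs1, hs2, ?_, ?_, h8, h4⟩
  · have h9 : 4 / 5 ≤ l ^ 3 := by
      rw [hl3, le_div_iff₀ hs0]; linarith
    by_contra hcon
    rw [not_le] at hcon
    have : l ^ 3 < (9 / 10) ^ 3 := by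
      apply pow_lt_pow_left₀ hcon hl.le (by norm_num)
    norm_num at this
    linarith
  · have h9 : l ^ 3 ≤ 4 / 3 := by
      rw [hl3, div_le_iff₀ hs0]; linarith
    by_contra hcon
    rw [not_le] at hcon
    have : (112 / 100 : ℝ) ^ 3 < l ^ 3 := by
      apply pow_lt_pow_left₀ hcon (by norm_num) (by norm_num)
    norm_num at this
    linarith

/-- upper bound for `φ` -/
theorem f_le {f g : ℝ} (hf : 0 < f) (hg : 0 < g) (h : f ^ 3 + g ^ 3 ≤ 5 / 2) : f ≤ 3 / 2 := by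
  by_contra hcon
  rw [not_le] at hcon
  have h1 : (3 / 2 : ℝ) ^ 3 < f ^ 3 := pow_lt_pow_left₀ hcon (by norm_num) (by norm_num)
  have h2 : 0 < g ^ 3 := by positivity
  norm_num at h1
  linarith

/-- the scaled multiplier -/
theorem exists_theta {S T : ℝ} (hS : 0 ≤ S) (hT : 0 ≤ T) :
    ∃ θ : ℝ, 0 ≤ θ ∧ θ ≤ 1 ∧ θ * S ≤ T ∧ (1 - θ) * S ≤ max (S - T) 0 := by
  rcases le_or_gt S T with h | h
  · exact ⟨1, zero_le_one, le_rfl, by linarith, by simp⟩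
  · have hS0 : 0 < S := lt_of_le_of_lt hT h
    refine ⟨T / S, div_nonneg hT hS, ?_, ?_, ?_⟩
    · rw [div_le_one hS0]; exact h.le
    · rw [div_mul_cancel₀ _ hS0.ne']
    · have : (1 - T / S) * S = S - T := by field_simp
      rw [this]; exact le_max_left _ _

/-! ## the shifted jet -/

/-- the shifted jet -/
noncomputable def shift (one : H) (j : Jet E H) (lam α α' : ℝ) : Jet E H where
  f := lam * j.f
  g := lam * j.g
  p := j.p + (j.f / (3 * j.s)) • j.L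
  q := j.q + (j.g / (3 * j.s)) • j.L
  P := j.P + α • one
  Q := j.Q + α' • one

theorem shift_contact (one : H) (j : Jet E H) (lam α α' : ℝ) (hs : j.s ≠ 0) :
    (shift one j lam α α').f ^ 2 • (shift one j lam α α').p +
      (shift one j lam α α').g ^ 2 • (shift one j lam α α').q = 0 := by
  have h3 : (3 : ℝ) * j.s ≠ 0 := by positivity
  have key : ((lam * j.f) ^ 2 * (j.f / (3 * j.s)) + (lam * j.g) ^ 2 * (j.g / (3 * j.s)))
      = lam ^ 2 * (1 / 3) := by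
    have : j.f ^ 3 + j.g ^ 3 = j.s := rfl
    field_simp
    rw [← this]
  show (lam * j.f) ^ 2 • (j.p + (j.f / (3 * j.s)) • j.L) +
      (lam * j.g) ^ 2 • (j.q + (j.g / (3 * j.s)) • j.L) = 0
  have : (lam * j.f) ^ 2 • (j.p + (j.f / (3 * j.s)) • j.L) +
      (lam * j.g) ^ 2 • (j.q + (j.g / (3 * j.s)) • j.L)
      = (lam * j.f) ^ 2 • j.p + (lam * j.g) ^ 2 • j.q +
        ((lam * j.f) ^ 2 * (j.f / (3 * j.s)) + (lam * j.g) ^ 2 * (j.g / (3 * j.s))) • j.L := by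
    module
  rw [this, key, Jet.L]
  module

theorem shift_Xv (one : H) (j : Jet E H) (lam α α' : ℝ) :
    (shift one j lam α α').Xv = lam • j.Xv := by
  show (lam * j.g) • (j.p + (j.f / (3 * j.s)) • j.L) -
      (lam * j.f) • (j.q + (j.g / (3 * j.s)) • j.L) = lam • (j.g • j.p - j.f • j.q)
  module

theorem shift_kap (one : H) (j : Jet E H) (lam α α' : ℝ) (hl : lam ^ 3 = 2 / j.s)
    (hs : j.s ≠ 0) : (shift one j lam α α').kap = 0 := by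
  show 2 - ((lam * j.f) ^ 3 + (lam * j.g) ^ 3) = 0
  have : (lam * j.f) ^ 3 + (lam * j.g) ^ 3 = lam ^ 3 * j.s := by
    unfold Jet.s; ring
  rw [this, hl]
  field_simp
  ring

theorem norm_L_le (j : Jet E H) (hf0 : 0 ≤ j.f) (hf : j.f ≤ 3 / 2) (hg0 : 0 ≤ j.g)
    (hg : j.g ≤ 3 / 2) : ‖j.L‖ ≤ 7 * (‖j.p‖ + ‖j.q‖) := by
  unfold Jet.L
  rw [norm_smul]
  have h1 : ‖j.f ^ 2 • j.p + j.g ^ 2 • j.q‖ ≤ j.f ^ 2 * ‖j.p‖ + j.g ^ 2 * ‖j.q‖ := by
    refine (norm_add_le _ _).trans ?_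
    rw [norm_smul, norm_smul, Real.norm_of_nonneg (sq_nonneg _), Real.norm_of_nonneg (sq_nonneg _)]
  have h2 : j.f ^ 2 ≤ 9 / 4 := by nlinarith
  have h3 : j.g ^ 2 ≤ 9 / 4 := by nlinarith
  have h4 := norm_nonneg j.p
  have h5 := norm_nonneg j.q
  have h6 : ‖(-3 : ℝ)‖ = 3 := by norm_num
  rw [h6]
  nlinarith

theorem norms_le_sqrtW (j : Jet E H) : ‖j.p‖ + ‖j.q‖ ≤ 2 * Real.sqrt j.W := by
  have h0 := j.W_nonneg
  have h1 : ‖j.p‖ ^ 2 + ‖j.q‖ ^ 2 ≤ j.W := by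
    unfold Jet.W
    have := norm_nonneg j.P
    have := norm_nonneg j.Q
    linarith
  have h2 : Real.sqrt j.W ^ 2 = j.W := Real.sq_sqrt h0
  have h3 : (‖j.p‖ + ‖j.q‖) ^ 2 ≤ (2 * Real.sqrt j.W) ^ 2 := by
    nlinarith [sq_nonneg (‖j.p‖ - ‖j.q‖)]
  exact abs_le_of_sq_le_sq' h3 (by positivity) |>.2

theorem part_bound {f lam a a' l w ε : ℝ} (hf0 : 0 ≤ f) (hf : f ≤ 3 / 2) (hε : 0 ≤ ε)
    (hlam : |lam - 1| ≤ 2 / 3 * ε) (ha : 0 ≤ a) (ha' : 0 ≤ a') (hl : 0 ≤ l)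
    (haa : |a - a'| ≤ l / 3) (h1 : a ≤ 2 * w) (h2 : a' ≤ 8 * w) :
    |f * a ^ 2 - lam * f * a' ^ 2| ≤ 5 * l * w + 64 * ε * w ^ 2 := by
  have hw : 0 ≤ w := by linarith
  have e1 : f * a ^ 2 - lam * f * a' ^ 2 = f * ((a - a') * (a + a')) - f * ((lam - 1) * a' ^ 2) := by
    ring
  have e2 : |f * ((a - a') * (a + a'))| ≤ 3 / 2 * (l / 3 * (10 * w)) := by
    rw [abs_mul, abs_mul, abs_of_nonneg hf0, abs_of_nonneg (by linarith : 0 ≤ a + a')]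
    apply mul_le_mul hf _ (by positivity) (by norm_num)
    apply mul_le_mul haa (by linarith) (by linarith) (by positivity)
  have e3 : |f * ((lam - 1) * a' ^ 2)| ≤ 3 / 2 * (2 / 3 * ε * (64 * w ^ 2)) := by
    rw [abs_mul, abs_mul, abs_of_nonneg hf0, abs_of_nonneg (sq_nonneg a')]
    apply mul_le_mul hf _ (by positivity) (by norm_num)
    apply mul_le_mul hlam _ (by positivity) (by positivity)
    nlinarith
  rw [e1]
  refine (abs_sub _ _).trans ?_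
  nlinarith

theorem tri_bound (a b c : ℝ) : |a - 6 * b - 6 * c| ≤ |a| + 6 * |b| + 6 * |c| := by
  have h1 := abs_sub (a - 6 * b) (6 * c)
  have h2 := abs_sub a (6 * b)
  rw [abs_mul] at h1 h2
  rw [abs_of_pos (by norm_num : (0 : ℝ) < 6)] at h1 h2
  linarith

theorem Ee_shift (one : H) (j : Jet E H) (lam α α' ε : ℝ) (hf0 : 0 < j.f) (hg0 : 0 < j.g)
    (hε : 0 ≤ ε) (hε1 : ε ≤ 1 / 2) (hk : |j.kap| ≤ ε) (hl0 : 0 < lam) (hl : lam ^ 3 = 2 / j.s) :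
    |j.Ee - (shift one j lam α α').Ee| ≤ 60 * ‖j.L‖ * Real.sqrt j.W + 800 * ε * j.W ∧
    ‖(shift one j lam α α').p‖ ≤ 8 * Real.sqrt j.W ∧
    ‖(shift one j lam α α').q‖ ≤ 8 * Real.sqrt j.W ∧
    ‖j.p - (shift one j lam α α').p‖ ≤ ‖j.L‖ / 3 ∧
    ‖j.q - (shift one j lam α α').q‖ ≤ ‖j.L‖ / 3 ∧
    ‖j.L‖ ≤ 14 * Real.sqrt j.W := by
  obtain ⟨hs1, hs2, hla, hlb, hl1, hl2⟩ := lam_bounds (s := j.s) hε hε1 hk hl0 hl
  have hf : j.f ≤ 3 / 2 := f_le hf0 hg0 hs2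
  have hg : j.g ≤ 3 / 2 := f_le hg0 hf0 (by rw [add_comm]; exact hs2)
  have hL := norm_L_le j hf0.le hf hg0.le hg
  have hw := norms_le_sqrtW j
  have hp0 := norm_nonneg j.p
  have hq0 := norm_nonneg j.q
  have hL0 := norm_nonneg j.L
  have hs0 : 0 < j.s := by linarith
  have hcf : |j.f / (3 * j.s)| ≤ 1 / 3 := by
    rw [abs_of_pos (by positivity), div_le_iff₀ (by positivity)]; linarith
  have hcg : |j.g / (3 * j.s)| ≤ 1 / 3 := by
    rw [abs_of_pos (by positivity), div_le_iff₀ (by positivity)]; linarith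
  have hdp : ‖j.p - (shift one j lam α α').p‖ ≤ ‖j.L‖ / 3 := by
    show ‖j.p - (j.p + (j.f / (3 * j.s)) • j.L)‖ ≤ ‖j.L‖ / 3
    rw [sub_add_cancel_left, norm_neg, norm_smul, Real.norm_eq_abs]
    nlinarith
  have hdq : ‖j.q - (shift one j lam α α').q‖ ≤ ‖j.L‖ / 3 := by
    show ‖j.q - (j.q + (j.g / (3 * j.s)) • j.L)‖ ≤ ‖j.L‖ / 3
    rw [sub_add_cancel_left, norm_neg, norm_smul, Real.norm_eq_abs]
    nlinarith
  have hdp' : |‖j.p‖ - ‖(shift one j lam α α').p‖| ≤ ‖j.L‖ / 3 :=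
    (abs_norm_sub_norm_le _ _).trans hdp
  have hdq' : |‖j.q‖ - ‖(shift one j lam α α').q‖| ≤ ‖j.L‖ / 3 :=
    (abs_norm_sub_norm_le _ _).trans hdq
  have hLw : ‖j.L‖ ≤ 14 * Real.sqrt j.W := by linarith
  have hp1 : ‖j.p‖ ≤ 2 * Real.sqrt j.W := by linarith
  have hq1 : ‖j.q‖ ≤ 2 * Real.sqrt j.W := by linarith
  have hp2 : ‖(shift one j lam α α').p‖ ≤ 8 * Real.sqrt j.W := by
    have := (abs_le.mp hdp').1
    have := Real.sqrt_nonneg j.W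
    linarith
  have hq2 : ‖(shift one j lam α α').q‖ ≤ 8 * Real.sqrt j.W := by
    have := (abs_le.mp hdq').1
    have := Real.sqrt_nonneg j.W
    linarith
  refine ⟨?_, hp2, hq2, hdp, hdq, hLw⟩
  have b1 := part_bound hf0.le hf hε hl1 hp0 (norm_nonneg _) hL0 hdp' hp1 hp2
  have b2 := part_bound hg0.le hg hε hl1 hq0 (norm_nonneg _) hL0 hdq' hq1 hq2
  have hsq : Real.sqrt j.W ^ 2 = j.W := Real.sq_sqrt j.W_nonneg
  rw [hsq] at b1 b2
  have e1 : (shift one j lam α α').Ee = (lam ^ 3) ^ 2 * (j.f ^ 3 - j.g ^ 3) ^ 2 -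
      6 * (lam * j.f * ‖(shift one j lam α α').p‖ ^ 2
        + lam * j.g * ‖(shift one j lam α α').q‖ ^ 2) := by
    show ((lam * j.f) ^ 3 - (lam * j.g) ^ 3) ^ 2 - 6 * (lam * j.f * _ ^ 2 + lam * j.g * _ ^ 2) = _
    ring
  have e2 : j.Ee - (shift one j lam α α').Ee =
      -((lam ^ 3 - 1) * (lam ^ 3 + 1) * (j.f ^ 3 - j.g ^ 3) ^ 2)
      - 6 * (j.f * ‖j.p‖ ^ 2 - lam * j.f * ‖(shift one j lam α α').p‖ ^ 2)
      - 6 * (j.g * ‖j.q‖ ^ 2 - lam * j.g * ‖(shift one j lam α α').q‖ ^ 2) := by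
    rw [e1]; unfold Jet.Ee; ring
  have hx : 0 < j.f ^ 3 := by positivity
  have hy : 0 < j.g ^ 3 := by positivity
  have hxy : j.f ^ 3 + j.g ^ 3 ≤ 5 / 2 := hs2
  have e3 : (j.f ^ 3 - j.g ^ 3) ^ 2 ≤ 25 / 4 := by
    have h1 : j.f ^ 3 - j.g ^ 3 ≤ 5 / 2 := by linarith
    have h2 : -(5 / 2) ≤ j.f ^ 3 - j.g ^ 3 := by linarith
    have h3 := sq_le_sq' h2 h1
    norm_num at h3
    linarith
  have e4 : |-((lam ^ 3 - 1) * (lam ^ 3 + 1) * (j.f ^ 3 - j.g ^ 3) ^ 2)| ≤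
      2 / 3 * ε * (7 / 3) * (25 / 4) := by
    have h43 : lam ^ 3 ≤ 4 / 3 := by
      rw [hl, div_le_iff₀ hs0]; linarith
    have h40 : 0 < lam ^ 3 := by positivity
    rw [abs_neg, abs_mul, abs_mul, abs_of_nonneg (sq_nonneg (j.f ^ 3 - j.g ^ 3)),
      abs_of_pos (by linarith : 0 < lam ^ 3 + 1)]
    apply mul_le_mul _ e3 (sq_nonneg _) (by positivity)
    apply mul_le_mul hl2 (by linarith) (by linarith) (by positivity)
  have hW1 := j.one_le_W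
  have e5 : ε ≤ ε * j.W := le_mul_of_one_le_right hε hW1
  rw [e2]
  refine (tri_bound _ _ _).trans ?_
  linarith

end Crest.Agent.R249.Lim621
end

-- ▼ part R249/Lim2_621
section

/-!
# Row 249, part A2 (BP-A2 section 9): the contact zone lemma
-/

set_option autoImplicit false

namespace Crest.Agent.R249.Lim621

variable {E H : Type*} [NormedAddCommGroup E] [InnerProductSpace ℝ E]
  [NormedAddCommGroup H] [NormedSpace ℝ H]

/-- one multiplier -/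
theorem mult_bound {b f lam m S T ΔE c0 e ε θ : ℝ} (hb : 0 < b) (hbf : b ≤ f)
    (hm : 0 ≤ m) (hmS : 3 * f ^ 2 * m ≤ S) (hε : 0 ≤ ε) (hε1 : ε ≤ 1 / 2)
    (hla : 9 / 10 ≤ lam) (hlb : lam ≤ 112 / 100) (hl1 : |lam - 1| ≤ 2 / 3 * ε)
    (hθ0 : 0 ≤ θ) (hθ1 : θ ≤ 1) (hθS : (1 - θ) * S ≤ max (S - T) 0)
    (hST : S - T ≤ ΔE + e) (hΔ : 0 ≤ ΔE) (he : 0 ≤ e) (hc0 : 0 ≤ c0) (hS : S ≤ 7 + c0 + e) :
    |m - θ * m / lam ^ 2| ≤ (3 * b ^ 2)⁻¹ * (ΔE + 14 * ε + 2 * c0 * ε + 2 * e) := by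
  have hb2 : 0 < 3 * b ^ 2 := by positivity
  have hlam : 0 < lam := by linarith
  have hf2 : b ^ 2 ≤ f ^ 2 := by nlinarith
  have hmS' : 3 * b ^ 2 * m ≤ S := by nlinarith
  have hS0 : 0 ≤ S := le_trans (by positivity) hmS'
  have hm1 : m ≤ (3 * b ^ 2)⁻¹ * S := by
    rw [inv_mul_eq_div, le_div_iff₀ hb2]; linarith
  have e1 : m - θ * m / lam ^ 2 = m * (1 - θ) + θ * m * ((lam - 1) * ((lam + 1) / lam ^ 2)) := by
    field_simp
    ring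
  have e2 : |m * (1 - θ)| ≤ (3 * b ^ 2)⁻¹ * (ΔE + e) := by
    rw [abs_of_nonneg (mul_nonneg hm (by linarith))]
    have h1 : (1 - θ) * S ≤ ΔE + e := hθS.trans (max_le hST (by linarith))
    calc m * (1 - θ) ≤ ((3 * b ^ 2)⁻¹ * S) * (1 - θ) :=
          mul_le_mul_of_nonneg_right hm1 (by linarith)
      _ = (3 * b ^ 2)⁻¹ * ((1 - θ) * S) := by ring
      _ ≤ (3 * b ^ 2)⁻¹ * (ΔE + e) := mul_le_mul_of_nonneg_left h1 (by positivity)
  have e3 : (lam + 1) / lam ^ 2 ≤ 3 := by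
    rw [div_le_iff₀ (by positivity)]; nlinarith
  have e4 : |θ * m * ((lam - 1) * ((lam + 1) / lam ^ 2))| ≤
      (3 * b ^ 2)⁻¹ * (7 + c0 + e) * (2 * ε) := by
    rw [abs_mul, abs_mul (lam - 1), abs_of_nonneg (mul_nonneg hθ0 hm),
      abs_of_pos (by positivity : 0 < (lam + 1) / lam ^ 2)]
    have h1 : θ * m ≤ (3 * b ^ 2)⁻¹ * (7 + c0 + e) := by
      calc θ * m ≤ 1 * m := mul_le_mul_of_nonneg_right hθ1 hm
        _ = m := one_mul m
        _ ≤ (3 * b ^ 2)⁻¹ * S := hm1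
        _ ≤ _ := mul_le_mul_of_nonneg_left hS (by positivity)
    apply mul_le_mul h1 _ (by positivity) (by positivity)
    calc |lam - 1| * ((lam + 1) / lam ^ 2) ≤ (2 / 3 * ε) * 3 :=
          mul_le_mul hl1 e3 (by positivity) (by positivity)
      _ = 2 * ε := by ring
  rw [e1]
  refine (abs_add_le _ _).trans ?_
  have e5 : e * (2 * ε) ≤ e := by nlinarith
  have e6 : (3 * b ^ 2)⁻¹ * (7 + c0 + e) * (2 * ε) ≤
      (3 * b ^ 2)⁻¹ * (14 * ε + 2 * c0 * ε + e) := by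
    rw [mul_assoc]
    apply mul_le_mul_of_nonneg_left _ (by positivity)
    nlinarith
  calc _ ≤ (3 * b ^ 2)⁻¹ * (ΔE + e) + (3 * b ^ 2)⁻¹ * (14 * ε + 2 * c0 * ε + e) :=
        add_le_add e2 (e4.trans e6)
    _ = _ := by ring

theorem aux1 {a f ε : ℝ} (ha : 0 ≤ a) (h : a ≤ 2 / 3 * ε) (hf0 : 0 ≤ f) (hf : f ≤ 3 / 2)
    (hε : 0 ≤ ε) : a * f ≤ ε := by
  nlinarith

theorem aux2 {b lam f : ℝ} (hb : 0 < b) (hla : 9 / 10 ≤ lam) (hlb : lam ≤ 112 / 100)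
    (hbf : b ≤ f) (hf : f ≤ 3 / 2) : b / 2 ≤ lam * f ∧ lam * f ≤ 2 := by
  constructor <;> nlinarith

theorem aux3 {K D r r' a a' : ℝ} (hK : 1 ≤ K) (hr : 0 ≤ r) (hr' : 0 ≤ r')
    (ha : a ≤ K * D + r) (ha' : a' ≤ K * D + r') : a + a' ≤ 2 * K * (D + r + r') := by
  nlinarith

theorem aux4 {K n : ℝ} (hK : 0 ≤ K) (hn : 0 ≤ n) : 2 * K * n ≤ 131 + 30 * K * (n + 1) := by
  have := mul_nonneg hK hn
  nlinarith

theorem aux5 {ε W l e r r' : ℝ} (hε : ε ≤ 1 / 2) (hW : 0 ≤ W) (hl : l ≤ 14 * W) (he : 0 ≤ e)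
    (hr : 0 ≤ r) (hr' : 0 ≤ r') : ε * W + l + e + r + r' ≤ 15 * (W + e + r + r') := by
  have : ε * W ≤ W := by nlinarith
  linarith

/-- The contact zone lemma. -/
theorem zone (tr : H →L[ℝ] ℝ) (one : H) (h1 : tr one = 1) (F : ℝ → ℝ) (b CF c0 : ℝ)
    (hb : 0 < b) (hCF : 0 ≤ CF) (hc0 : 0 ≤ c0)
    (hF : ∀ u v, b / 2 ≤ u → u ≤ 2 → b / 2 ≤ v → v ≤ 2 → |F u - F v| ≤ CF * |u - v|) :
    ∃ K : ℝ, 0 < K ∧ ∀ (j : Jet E H) (m m' r r' e ε : ℝ), b ≤ j.f → b ≤ j.g → 0 ≤ ε →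
      ε ≤ 1 / 2 → |j.kap| ≤ ε → tr j.P = F j.f + m + r → tr j.Q = F j.g + m' + r' →
      0 ≤ m → 0 ≤ m' → 0 ≤ e →
      3 * j.f ^ 2 * m + 3 * j.g ^ 2 * m' ≤ max j.Ee 0 + c0 + e →
      ∃ (j' : Jet E H) (m1 m1' : ℝ), b / 2 ≤ j'.f ∧ j'.f ≤ 2 ∧ b / 2 ≤ j'.g ∧ j'.g ≤ 2 ∧
        j.f ≤ 2 ∧ j.g ≤ 2 ∧
        j'.kap = 0 ∧ j'.f ^ 2 • j'.p + j'.g ^ 2 • j'.q = 0 ∧
        tr j'.P = F j'.f + m1 ∧ tr j'.Q = F j'.g + m1' ∧ 0 ≤ m1 ∧ 0 ≤ m1' ∧
        3 * j'.f ^ 2 * m1 + 3 * j'.g ^ 2 * m1' ≤ max j'.Ee 0 + c0 ∧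
        (∃ α α' : ℝ, j'.P = j.P + α • one ∧ j'.Q = j.Q + α' • one) ∧
        Rel ε j j' ∧
        ‖j.p - j'.p‖ + ‖j.q - j'.q‖ ≤ ‖j.L‖ ∧
        ‖j.P - j'.P‖ + ‖j.Q - j'.Q‖ ≤
          K * (ε * j.W + ‖j.L‖ * Real.sqrt j.W + e + |r| + |r'|) ∧
        j.W + j'.W ≤ K * (j.W + e + |r| + |r'|) := by
  obtain ⟨K1, hK1⟩ : ∃ K1, K1 = CF + (3 * b ^ 2)⁻¹ * (900 + 2 * c0) + 1 := ⟨_, rfl⟩
  have hib : 0 ≤ (3 * b ^ 2)⁻¹ := by positivity
  have hK1pos : 0 < K1 := by rw [hK1]; positivity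
  have hn0 := norm_nonneg one
  refine ⟨131 + 30 * K1 * (‖one‖ + 1), by positivity, ?_⟩
  intro j m m' r r' e ε hbf hbg hε hε1 hk htP htQ hm hm' he hS
  have hf0 : 0 < j.f := lt_of_lt_of_le hb hbf
  have hg0 : 0 < j.g := lt_of_lt_of_le hb hbg
  have hs0 : 0 < j.s := by unfold Jet.s; positivity
  obtain ⟨lam, hlam, hl3⟩ := exists_cuberoot (a := 2 / j.s) (by positivity)
  obtain ⟨hs1, hs2, hla, hlb, hl1, hl2⟩ := lam_bounds (s := j.s) hε hε1 hk hlam hl3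
  have hf : j.f ≤ 3 / 2 := f_le hf0 hg0 hs2
  have hg : j.g ≤ 3 / 2 := f_le hg0 hf0 (by rw [add_comm]; exact hs2)
  -- the multipliers
  have hΔ := (Ee_shift one j lam 0 0 ε hf0 hg0 hε hε1 hk hlam hl3).1
  obtain ⟨E', hE'⟩ : ∃ E', E' = (shift one j lam 0 0).Ee := ⟨_, rfl⟩
  rw [← hE'] at hΔ
  have hS0 : 0 ≤ 3 * j.f ^ 2 * m + 3 * j.g ^ 2 * m' := by positivity
  have hT0 : 0 ≤ max E' 0 + c0 := by positivity
  obtain ⟨θ, hθ0, hθ1, hθT, hθS⟩ := exists_theta hS0 hT0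
  have hST : (3 * j.f ^ 2 * m + 3 * j.g ^ 2 * m') - (max E' 0 + c0) ≤ |j.Ee - E'| + e := by
    have h2 : max j.Ee 0 ≤ max E' 0 + |j.Ee - E'| := by
      apply max_le
      · have := le_abs_self (j.Ee - E')
        have := le_max_left E' 0
        linarith
      · have := abs_nonneg (j.Ee - E')
        have := le_max_right E' 0
        linarith
    linarith
  have hE7 : max j.Ee 0 ≤ 7 := by
    apply max_le _ (by norm_num)
    have hx : 0 < j.f ^ 3 := by positivity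
    have hy : 0 < j.g ^ 3 := by positivity
    have hxy : j.f ^ 3 + j.g ^ 3 ≤ 5 / 2 := hs2
    have h1 : j.f ^ 3 - j.g ^ 3 ≤ 5 / 2 := by linarith
    have h2 : -(5 / 2) ≤ j.f ^ 3 - j.g ^ 3 := by linarith
    have h3 := sq_le_sq' h2 h1
    have h4 : 0 ≤ j.f * ‖j.p‖ ^ 2 + j.g * ‖j.q‖ ^ 2 := by positivity
    unfold Jet.Ee
    norm_num at h3
    linarith
  have hS7 : 3 * j.f ^ 2 * m + 3 * j.g ^ 2 * m' ≤ 7 + c0 + e := by linarith
  have hΔ0 := abs_nonneg (j.Ee - E')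
  have hm1 := mult_bound (T := max E' 0 + c0) hb hbf hm (by
      have : 0 ≤ 3 * j.g ^ 2 * m' := by positivity
      linarith : 3 * j.f ^ 2 * m ≤ 3 * j.f ^ 2 * m + 3 * j.g ^ 2 * m') hε hε1 hla hlb hl1
      hθ0 hθ1 hθS hST hΔ0 he hc0 hS7
  have hm2 := mult_bound (T := max E' 0 + c0) hb hbg hm' (by
      have : 0 ≤ 3 * j.f ^ 2 * m := by positivity
      linarith : 3 * j.g ^ 2 * m' ≤ 3 * j.f ^ 2 * m + 3 * j.g ^ 2 * m') hε hε1 hla hlb hl1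
      hθ0 hθ1 hθS hST hΔ0 he hc0 hS7
  have hW1 := j.one_le_W
  have hW0 := j.W_nonneg
  have hεW : ε ≤ ε * j.W := le_mul_of_one_le_right hε hW1
  have hLs : 0 ≤ ‖j.L‖ * Real.sqrt j.W := by positivity
  have hεW0 : 0 ≤ ε * j.W := by positivity
  have hc0W : c0 * ε ≤ c0 * (ε * j.W) := mul_le_mul_of_nonneg_left hεW hc0
  -- bound for the multipliers
  have hmm : ∀ t : ℝ, |t| ≤ (3 * b ^ 2)⁻¹ * (|j.Ee - E'| + 14 * ε + 2 * c0 * ε + 2 * e) →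
      |t| ≤ (3 * b ^ 2)⁻¹ * (900 + 2 * c0) * (ε * j.W + ‖j.L‖ * Real.sqrt j.W + e) := by
    intro t ht
    refine ht.trans ?_
    have hrw : (3 * b ^ 2)⁻¹ * (900 + 2 * c0) * (ε * j.W + ‖j.L‖ * Real.sqrt j.W + e) =
      (3 * b ^ 2)⁻¹ * ((900 + 2 * c0) * (ε * j.W + ‖j.L‖ * Real.sqrt j.W + e)) := by ring
    rw [hrw]
    apply mul_le_mul_of_nonneg_left _ hib
    have : (900 + 2 * c0) * (ε * j.W + ‖j.L‖ * Real.sqrt j.W + e) =
      900 * (ε * j.W) + 900 * (‖j.L‖ * Real.sqrt j.W) + 900 * e + 2 * (c0 * (ε * j.W)) +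
        2 * (c0 * (‖j.L‖ * Real.sqrt j.W)) + 2 * (c0 * e) := by ring
    rw [this]
    have h3 : 0 ≤ c0 * (‖j.L‖ * Real.sqrt j.W) := by positivity
    have h4 : 0 ≤ c0 * e := by positivity
    have h5 : |j.Ee - E'| ≤ 60 * (‖j.L‖ * Real.sqrt j.W) + 800 * (ε * j.W) := by
      linarith
    linarith
  have hm1' := hmm _ hm1
  have hm2' := hmm _ hm2
  have hdf : |lam * j.f - j.f| ≤ ε := by
    have : lam * j.f - j.f = (lam - 1) * j.f := by ring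
    rw [this, abs_mul, abs_of_pos hf0]
    exact aux1 (abs_nonneg _) hl1 hf0.le hf hε
  have hdg : |lam * j.g - j.g| ≤ ε := by
    have : lam * j.g - j.g = (lam - 1) * j.g := by ring
    rw [this, abs_mul, abs_of_pos hg0]
    exact aux1 (abs_nonneg _) hl1 hg0.le hg hε
  obtain ⟨hlf2, hlf3⟩ := aux2 hb hla hlb hbf hf
  obtain ⟨hlg2, hlg3⟩ := aux2 hb hla hlb hbg hg
  have hFf : |F (lam * j.f) - F j.f| ≤ CF * ε :=
    (hF _ _ hlf2 hlf3 (by linarith) (by linarith)).trans (mul_le_mul_of_nonneg_left hdf hCF)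
  have hFg : |F (lam * j.g) - F j.g| ≤ CF * ε :=
    (hF _ _ hlg2 hlg3 (by linarith) (by linarith)).trans (mul_le_mul_of_nonneg_left hdg hCF)
  obtain ⟨α, hα⟩ : ∃ α, α = F (lam * j.f) - F j.f - (m - θ * m / lam ^ 2) - r := ⟨_, rfl⟩
  obtain ⟨α', hα'⟩ : ∃ α', α' = F (lam * j.g) - F j.g - (m' - θ * m' / lam ^ 2) - r' := ⟨_, rfl⟩
  have hCε : CF * ε ≤ CF * (ε * j.W + ‖j.L‖ * Real.sqrt j.W + e) :=
    mul_le_mul_of_nonneg_left (by linarith) hCF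
  have hαb : |α| ≤ K1 * (ε * j.W + ‖j.L‖ * Real.sqrt j.W + e) + |r| := by
    have h3 : |α| ≤ |F (lam * j.f) - F j.f| + |m - θ * m / lam ^ 2| + |r| := by
      rw [hα]
      refine (abs_sub _ _).trans (add_le_add_left ((abs_sub _ _)) _)
    have h4 : 0 ≤ ε * j.W + ‖j.L‖ * Real.sqrt j.W + e := by positivity
    rw [hK1]
    linarith
  have hαb' : |α'| ≤ K1 * (ε * j.W + ‖j.L‖ * Real.sqrt j.W + e) + |r'| := by
    have h3 : |α'| ≤ |F (lam * j.g) - F j.g| + |m' - θ * m' / lam ^ 2| + |r'| := by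
      rw [hα']
      refine (abs_sub _ _).trans (add_le_add_left ((abs_sub _ _)) _)
    have h4 : 0 ≤ ε * j.W + ‖j.L‖ * Real.sqrt j.W + e := by positivity
    rw [hK1]
    linarith
  obtain ⟨-, hp8, hq8, hdp, hdq, hL14⟩ := Ee_shift one j lam α α' ε hf0 hg0 hε hε1 hk hlam hl3
  have hK11 : 1 ≤ K1 := by
    rw [hK1]
    have : 0 ≤ (3 * b ^ 2)⁻¹ * (900 + 2 * c0) := by positivity
    linarith
  have hsum : |α| + |α'| ≤ 2 * K1 * (ε * j.W + ‖j.L‖ * Real.sqrt j.W + e + |r| + |r'|) :=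
    aux3 hK11 (abs_nonneg r) (abs_nonneg r') hαb hαb'
  have hD0 : 0 ≤ ε * j.W + ‖j.L‖ * Real.sqrt j.W + e + |r| + |r'| := by positivity
  have hsq : Real.sqrt j.W * Real.sqrt j.W = j.W := Real.mul_self_sqrt hW0
  have hLW : ‖j.L‖ * Real.sqrt j.W ≤ 14 * j.W := by
    calc ‖j.L‖ * Real.sqrt j.W ≤ 14 * Real.sqrt j.W * Real.sqrt j.W :=
          mul_le_mul_of_nonneg_right hL14 (Real.sqrt_nonneg _)
      _ = 14 * j.W := by rw [mul_assoc, hsq]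
  refine ⟨shift one j lam α α', θ * m / lam ^ 2, θ * m' / lam ^ 2, hlf2, hlf3, hlg2, hlg3,
    by linarith, by linarith,
    shift_kap one j lam α α' hl3 hs0.ne', shift_contact one j lam α α' hs0.ne', ?_, ?_,
    by positivity, by positivity, ?_, ⟨α, α', rfl, rfl⟩, ?_, ?_, ?_, ?_⟩
  · show tr (j.P + α • one) = F (lam * j.f) + θ * m / lam ^ 2
    rw [map_add, map_smul, h1, htP, hα, smul_eq_mul]
    ring
  · show tr (j.Q + α' • one) = F (lam * j.g) + θ * m' / lam ^ 2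
    rw [map_add, map_smul, h1, htQ, hα', smul_eq_mul]
    ring
  · have hEe : (shift one j lam α α').Ee = E' := by
      rw [hE']; rfl
    rw [hEe]
    show 3 * (lam * j.f) ^ 2 * (θ * m / lam ^ 2) + 3 * (lam * j.g) ^ 2 * (θ * m' / lam ^ 2) ≤ _
    have : 3 * (lam * j.f) ^ 2 * (θ * m / lam ^ 2) + 3 * (lam * j.g) ^ 2 * (θ * m' / lam ^ 2)
        = θ * (3 * j.f ^ 2 * m + 3 * j.g ^ 2 * m') := by
      field_simp
    rw [this]
    exact hθT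
  · exact ⟨lam, hlam, hl1.trans (by linarith), rfl, rfl, shift_Xv one j lam α α'⟩
  · have := norm_nonneg j.L
    linarith
  · show ‖j.P - (j.P + α • one)‖ + ‖j.Q - (j.Q + α' • one)‖ ≤ _
    rw [sub_add_cancel_left, sub_add_cancel_left, norm_neg, norm_neg, norm_smul, norm_smul,
      Real.norm_eq_abs, Real.norm_eq_abs, ← add_mul]
    calc (|α| + |α'|) * ‖one‖ ≤
        (2 * K1 * (ε * j.W + ‖j.L‖ * Real.sqrt j.W + e + |r| + |r'|)) * ‖one‖ :=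
          mul_le_mul_of_nonneg_right hsum hn0
      _ = (2 * K1 * ‖one‖) * (ε * j.W + ‖j.L‖ * Real.sqrt j.W + e + |r| + |r'|) := by ring
      _ ≤ _ := by
          apply mul_le_mul_of_nonneg_right _ hD0
          exact aux4 hK1pos.le hn0
  · have hP' : ‖j.P + α • one‖ ≤ ‖j.P‖ + |α| * ‖one‖ := by
      refine (norm_add_le _ _).trans ?_
      rw [norm_smul, Real.norm_eq_abs]
    have hQ' : ‖j.Q + α' • one‖ ≤ ‖j.Q‖ + |α'| * ‖one‖ := by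
      refine (norm_add_le _ _).trans ?_
      rw [norm_smul, Real.norm_eq_abs]
    have hp2 : ‖(shift one j lam α α').p‖ ^ 2 ≤ 64 * j.W := by
      calc ‖(shift one j lam α α').p‖ ^ 2 ≤ (8 * Real.sqrt j.W) ^ 2 :=
            pow_le_pow_left₀ (norm_nonneg _) hp8 2
        _ = 64 * (Real.sqrt j.W * Real.sqrt j.W) := by ring
        _ = 64 * j.W := by rw [hsq]
    have hq2 : ‖(shift one j lam α α').q‖ ^ 2 ≤ 64 * j.W := by
      calc ‖(shift one j lam α α').q‖ ^ 2 ≤ (8 * Real.sqrt j.W) ^ 2 :=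
            pow_le_pow_left₀ (norm_nonneg _) hq8 2
        _ = 64 * (Real.sqrt j.W * Real.sqrt j.W) := by ring
        _ = 64 * j.W := by rw [hsq]
    have hPQ : ‖j.P‖ + ‖j.Q‖ ≤ j.W := by
      unfold Jet.W
      have := sq_nonneg ‖j.p‖
      have := sq_nonneg ‖j.q‖
      linarith
    have hW' : (shift one j lam α α').W ≤ 130 * j.W + (|α| + |α'|) * ‖one‖ := by
      show 1 + ‖(shift one j lam α α').p‖ ^ 2 + ‖(shift one j lam α α').q‖ ^ 2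
        + ‖j.P + α • one‖ + ‖j.Q + α' • one‖ ≤ _
      linarith
    have hsum2 : (|α| + |α'|) * ‖one‖ ≤ 30 * K1 * ‖one‖ * (j.W + e + |r| + |r'|) := by
      calc (|α| + |α'|) * ‖one‖ ≤
          (2 * K1 * (ε * j.W + ‖j.L‖ * Real.sqrt j.W + e + |r| + |r'|)) * ‖one‖ :=
            mul_le_mul_of_nonneg_right hsum hn0
        _ ≤ (2 * K1 * (15 * (j.W + e + |r| + |r'|))) * ‖one‖ := by
            apply mul_le_mul_of_nonneg_right _ hn0
            apply mul_le_mul_of_nonneg_left _ (by positivity)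
            exact aux5 hε1 hW0 hLW he (abs_nonneg r) (abs_nonneg r')
        _ = _ := by ring
    have hZ : 0 ≤ e + |r| + |r'| := by positivity
    have : (131 + 30 * K1 * (‖one‖ + 1)) * (j.W + e + |r| + |r'|) =
        131 * j.W + 131 * (e + |r| + |r'|) + 30 * K1 * ‖one‖ * (j.W + e + |r| + |r'|)
          + 30 * K1 * (j.W + e + |r| + |r'|) := by ring
    rw [this]
    have h9 : 0 ≤ 30 * K1 * (j.W + e + |r| + |r'|) := by positivity
    linarith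

end Crest.Agent.R249.Lim621
end

-- ▼ part R249/Lim3_621

/-!
# Row 249, part A2 (BP-A2 section 9): the pointwise inequality for approximate jets
-/

set_option autoImplicit false

namespace Crest.Agent.R249.Lim621

variable {E H : Type*} [NormedAddCommGroup E] [InnerProductSpace ℝ E]
  [NormedAddCommGroup H] [NormedSpace ℝ H]


theorem young3 {θ l Z : ℝ} (hθ : 0 < θ) (hl : 0 ≤ l) (hZ : 0 ≤ Z) :
    l * (Z * Real.sqrt Z) ≤ θ * Z ^ 2 + (θ ^ 3)⁻¹ * l ^ 4 := by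
  have h := young4 hθ hl (Real.sqrt_nonneg Z)
  have h1 : Real.sqrt Z ^ 3 = Z * Real.sqrt Z := by
    have : Real.sqrt Z ^ 3 = Real.sqrt Z ^ 2 * Real.sqrt Z := by ring
    rw [this, Real.sq_sqrt hZ]
  have h2 : Real.sqrt Z ^ 4 = Z ^ 2 := by
    have : Real.sqrt Z ^ 4 = (Real.sqrt Z ^ 2) ^ 2 := by ring
    rw [this, Real.sq_sqrt hZ]
  rwa [h1, h2] at h

/-- the bound for the three terms of `Lip` -/
theorem three_terms {K Z V l d ε θ e r r' w : ℝ} (hK : 1 ≤ K) (hZ : 0 ≤ Z) (hθ : 0 < θ)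
    (hθ1 : θ ≤ 1) (hε : 0 ≤ ε) (hεθ : ε ≤ θ)
    (hl : 0 ≤ l) (hd0 : 0 ≤ d) (he : 0 ≤ e) (hw : 0 ≤ w) (hwZ : w ≤ Z)
    (hV0 : 0 ≤ V) (hV : V ≤ K * Z)
    (hd : d ≤ K * (ε * w + l * Real.sqrt w + e + |r| + |r'|)) :
    ε * V ^ 2 + l * (V * Real.sqrt V) + d * V ≤ 8 * K ^ 2 * Er θ Z l e r r' := by
  have hK0 : 0 ≤ K := by linarith
  have hKZ : 0 ≤ K * Z := by positivity
  have hEr1 : θ * Z ^ 2 ≤ Er θ Z l e r r' := by
    unfold Er
    have : 0 ≤ (θ ^ 3)⁻¹ * (l ^ 4 + e ^ 2 + r ^ 2 + r' ^ 2) := by positivity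
    linarith
  have hEr0 : 0 ≤ Er θ Z l e r r' := le_trans (by positivity) hEr1
  -- first term
  have t1 : ε * V ^ 2 ≤ 2 * K ^ 2 * Er θ Z l e r r' := by
    calc ε * V ^ 2 ≤ (2 * θ) * (K * Z) ^ 2 := by
          apply mul_le_mul (by linarith) (pow_le_pow_left₀ hV0 hV 2) (by positivity) (by positivity)
      _ = 2 * K ^ 2 * (θ * Z ^ 2) := by ring
      _ ≤ _ := mul_le_mul_of_nonneg_left hEr1 (by positivity)
  -- second term
  have t2 : l * (V * Real.sqrt V) ≤ K ^ 2 * Er θ Z l e r r' := by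
    have s1 : Real.sqrt V ≤ K * Real.sqrt Z := by
      rw [Real.sqrt_le_left (by positivity)]
      rw [mul_pow, Real.sq_sqrt hZ]
      nlinarith
    have s2 : V * Real.sqrt V ≤ (K * Z) * (K * Real.sqrt Z) :=
      mul_le_mul hV s1 (Real.sqrt_nonneg _) hKZ
    calc l * (V * Real.sqrt V) ≤ l * ((K * Z) * (K * Real.sqrt Z)) :=
          mul_le_mul_of_nonneg_left s2 hl
      _ = K ^ 2 * (l * (Z * Real.sqrt Z)) := by ring
      _ ≤ K ^ 2 * (θ * Z ^ 2 + (θ ^ 3)⁻¹ * l ^ 4) :=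
          mul_le_mul_of_nonneg_left (young3 hθ hl hZ) (by positivity)
      _ ≤ _ := by
          apply mul_le_mul_of_nonneg_left _ (by positivity)
          unfold Er
          have : 0 ≤ (θ ^ 3)⁻¹ * (e ^ 2 + r ^ 2 + r' ^ 2) := by positivity
          linarith
  -- third term
  have t3 : d * V ≤ 5 * K ^ 2 * Er θ Z l e r r' := by
    have y1 := young3 hθ hl hZ
    have y2 := young2 hθ hθ1 he hZ
    have y3 := young2 hθ hθ1 (abs_nonneg r) hZ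
    have y4 := young2 hθ hθ1 (abs_nonneg r') hZ
    rw [sq_abs] at y3 y4
    have s1 : Real.sqrt w ≤ Real.sqrt Z := Real.sqrt_le_sqrt hwZ
    have s2 : (ε * w + l * Real.sqrt w + e + |r| + |r'|) * Z ≤
        5 * Er θ Z l e r r' := by
      have z1 : ε * w * Z ≤ θ * Z ^ 2 := by
        calc ε * w * Z ≤ θ * Z * Z := by
              apply mul_le_mul_of_nonneg_right _ hZ
              exact mul_le_mul hεθ hwZ hw hθ.le
          _ = _ := by ring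
      have z2 : l * Real.sqrt w * Z ≤ l * (Z * Real.sqrt Z) := by
        calc l * Real.sqrt w * Z = l * (Z * Real.sqrt w) := by ring
          _ ≤ _ := mul_le_mul_of_nonneg_left (mul_le_mul_of_nonneg_left s1 hZ) hl
      unfold Er
      have q1 : 0 ≤ (θ ^ 3)⁻¹ * l ^ 4 := by positivity
      have q2 : 0 ≤ (θ ^ 3)⁻¹ * e ^ 2 := by positivity
      have q3 : 0 ≤ (θ ^ 3)⁻¹ * r ^ 2 := by positivity
      have q4 : 0 ≤ (θ ^ 3)⁻¹ * r' ^ 2 := by positivity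
      have q5 : 0 ≤ θ * Z ^ 2 := by positivity
      linarith
    calc d * V ≤ (K * (ε * w + l * Real.sqrt w + e + |r| + |r'|)) * (K * Z) :=
          mul_le_mul hd hV hV0 (by positivity)
      _ = K ^ 2 * ((ε * w + l * Real.sqrt w + e + |r| + |r'|) * Z) := by ring
      _ ≤ K ^ 2 * (5 * Er θ Z l e r r') := mul_le_mul_of_nonneg_left s2 (by positivity)
      _ = _ := by ring
  linarith


end Crest.Agent.R249.Lim621
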