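import Crest.Agent.R249.Lim3_621
import Crest.Agent.R249.PenH_806

-- ▼ part R249/LimG0_621
section

/-!
# Row 249, part A2 v3: the limit passage for a general obstacle `k`, nonlinearity `F` and gauge `N`

finite dimensional part, file 0: data, shift, first estimates.
-/

set_option autoImplicit false
set_option linter.unusedVariables false

namespace Crest.Agent.R249.LimG621

open Crest.Agent.R249.Lim621

/-- constraint data: the defining function `k` with its derivatives, and the gauge `N` -/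
structure KD (E : Type*) where
  k : ℝ → ℝ → ℝ
  kf : ℝ → ℝ → ℝ
  kg : ℝ → ℝ → ℝ
  kff : ℝ → ℝ → ℝ
  kfg : ℝ → ℝ → ℝ
  kgg : ℝ → ℝ → ℝ
  N : ℝ → ℝ → E → E → ℝ

variable {E H : Type*} [NormedAddCommGroup E] [InnerProductSpace ℝ E]
  [NormedAddCommGroup H] [NormedSpace ℝ H]



/-- bounded and Lipschitz on the box -/
def LB (lo u B : ℝ) (h : ℝ → ℝ → ℝ) : Prop :=
  ∀ f g, lo ≤ f → f ≤ u → lo ≤ g → g ≤ u → |h f g| ≤ B ∧
    ∀ f' g', lo ≤ f' → f' ≤ u → lo ≤ g' → g' ≤ u → |h f g - h f' g'| ≤ B * (|f - f'| + |g - g'|)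

/-- the hypotheses on the constraint data, all constants are `B` -/
structure KOK (D : KD E) (F : ℝ → ℝ) (o lo0 lo u0 u B ε0 : ℝ) : Prop where
  B1 : 1 ≤ B
  ε00 : 0 < ε0
  ε01 : ε0 ≤ 1
  εB : B * ε0 ≤ 1 / 2
  olo : o ≤ lo
  lolo : lo ≤ lo0
  uu : u0 ≤ u
  ouB : u - o ≤ B
  hF : LB lo u B (fun f _ => F f)
  hkf : LB lo u B D.kf
  hkg : LB lo u B D.kg
  hkff : LB lo u B D.kff
  hkfg : LB lo u B D.kfg
  hkgg : LB lo u B D.kgg
  negf : ∀ f g, lo ≤ f → f ≤ u → lo ≤ g → g ≤ u → |D.k f g| ≤ ε0 → 1 ≤ B * (-D.kf f g)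
  negg : ∀ f g, lo ≤ f → f ≤ u → lo ≤ g → g ≤ u → |D.k f g| ≤ ε0 → 1 ≤ B * (-D.kg f g)
  rad : ∀ f g, lo ≤ f → f ≤ u → lo ≤ g → g ≤ u → D.k f g = 0 →
    1 ≤ B * (-((f - o) * D.kf f g + (g - o) * D.kg f g))
  ray : ∀ f g ε, lo0 ≤ f → f ≤ u0 → lo0 ≤ g → g ≤ u0 → |D.k f g| ≤ ε → ε ≤ ε0 →
    ∃ lam : ℝ, 0 < lam ∧ |lam - 1| ≤ B * ε ∧ D.k (o + lam * (f - o)) (o + lam * (g - o)) = 0 ∧
      lo ≤ o + lam * (f - o) ∧ o + lam * (f - o) ≤ u ∧ lo ≤ o + lam * (g - o) ∧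
      o + lam * (g - o) ≤ u
  N0 : ∀ f g p q, 0 ≤ D.N f g p q
  N1 : ∀ f g p q θ, 0 ≤ θ → D.N f g (θ • p) (θ • q) = θ ^ 2 * D.N f g p q
  N2 : ∀ f g f' g' p q p' q', lo ≤ f → f ≤ u → lo ≤ g → g ≤ u →
    lo ≤ f' → f' ≤ u → lo ≤ g' → g' ≤ u → |D.N f g p q - D.N f' g' p' q'| ≤
      B * ((|f - f'| + |g - g'|) * (‖p‖ ^ 2 + ‖q‖ ^ 2) +
        (‖p - p'‖ + ‖q - q'‖) * (‖p‖ + ‖q‖ + ‖p'‖ + ‖q'‖))
  N3 : ∀ f g p q, lo ≤ f → f ≤ u → lo ≤ g → g ≤ u → 1 ≤ D.N f g p q →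
    ‖p‖ ^ 2 + ‖q‖ ^ 2 ≤ B * D.N f g p q







/-! ### norms -/

theorem norm_le_w (j : Jet E H) : ‖j.p‖ ≤ Real.sqrt j.W ∧ ‖j.q‖ ≤ Real.sqrt j.W ∧
    1 ≤ Real.sqrt j.W ∧ Real.sqrt j.W ^ 2 = j.W := by
  have h1 := norm_nonneg j.P
  have h2 := norm_nonneg j.Q
  have h3 := sq_nonneg ‖j.p‖
  have h4 := sq_nonneg ‖j.q‖
  refine ⟨?_, ?_, ?_, Real.sq_sqrt j.W_nonneg⟩
  · apply Real.le_sqrt_of_sq_le
    unfold Jet.W; linarith
  · apply Real.le_sqrt_of_sq_le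
    unfold Jet.W; linarith
  · apply Real.le_sqrt_of_sq_le
    have := j.one_le_W
    simpa using this

/-! ### the tangential shift -/



end Crest.Agent.R249.LimG621
namespace Crest.Agent.R249.LimG621.KD
end Crest.Agent.R249.LimG621.KD
end

-- ▼ part R249/LimG1_621
section

/-!
# Row 249, part A2 v3: the limit passage, general case; file 1: the estimates of the shift
-/

set_option autoImplicit false
set_option linter.unusedVariables false
set_option linter.unusedSectionVars false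

namespace Crest.Agent.R249.LimG621

open Crest.Agent.R249.Lim621

variable {E H : Type*} [NormedAddCommGroup E] [InnerProductSpace ℝ E]
  [NormedAddCommGroup H] [NormedSpace ℝ H]

theorem ab_diff {a b a' b' A B' δa δb : ℝ} (ha : |a| ≤ A) (hb' : |b'| ≤ B') (h1 : |a - a'| ≤ δa)
    (h2 : |b - b'| ≤ δb) : |a * b - a' * b'| ≤ A * δb + δa * B' := by
  have e : a * b - a' * b' = a * (b - b') + (a - a') * b' := by ring
  rw [e]
  refine (abs_add_le _ _).trans ?_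
  rw [abs_mul, abs_mul]
  have h3 : 0 ≤ A := (abs_nonneg _).trans ha
  have h4 : 0 ≤ δa := (abs_nonneg _).trans h1
  exact add_le_add (mul_le_mul ha h2 (abs_nonneg _) h3) (mul_le_mul h1 hb' (abs_nonneg _) h4)



theorem le_sq_self {B : ℝ} (hB : 1 ≤ B) : B ≤ B ^ 2 := by nlinarith






/-- one multiplier -/
theorem mult_boundG {B a a' m S θ T ΔE e dF Y : ℝ} (hB : 1 ≤ B) (ha : 1 ≤ B * a)
    (ha' : 1 ≤ B * a') (haa : |a - a'| ≤ B * dF) (hdF : 0 ≤ dF) (hm : 0 ≤ m) (hmS : a * m ≤ S)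
    (hθ0 : 0 ≤ θ) (hθ1 : θ ≤ 1) (hθS : (1 - θ) * S ≤ max (S - T) 0) (hST : S - T ≤ ΔE + e)
    (hΔ : 0 ≤ ΔE) (he : 0 ≤ e) (hS : S ≤ Y) :
    |m - θ * m * (a / a')| ≤ B * (ΔE + e) + B ^ 3 * dF * Y := by
  have hB0 : 0 < B := by linarith
  have hapos : 0 < a := by
    by_contra h
    rw [not_lt] at h
    have : B * a ≤ 0 := mul_nonpos_of_nonneg_of_nonpos hB0.le h
    linarith
  have hapos' : 0 < a' := by
    by_contra h
    rw [not_lt] at h
    have : B * a' ≤ 0 := mul_nonpos_of_nonneg_of_nonpos hB0.le h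
    linarith
  have hS0 : 0 ≤ S := le_trans (by positivity) hmS
  have hmB : m ≤ B * S := by
    calc m = 1 * m := (one_mul m).symm
      _ ≤ (B * a) * m := mul_le_mul_of_nonneg_right ha hm
      _ = B * (a * m) := by ring
      _ ≤ B * S := mul_le_mul_of_nonneg_left hmS hB0.le
  have hinv : a'⁻¹ ≤ B := by
    rw [inv_le_iff_one_le_mul₀ hapos']
    exact ha'
  have e1 : m - θ * m * (a / a') = m * (1 - θ) + θ * m * ((a' - a) * a'⁻¹) := by
    field_simp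
    ring
  have e2 : |m * (1 - θ)| ≤ B * (ΔE + e) := by
    rw [abs_of_nonneg (mul_nonneg hm (by linarith))]
    have h1 : (1 - θ) * S ≤ ΔE + e := hθS.trans (max_le hST (by linarith))
    calc m * (1 - θ) ≤ (B * S) * (1 - θ) := mul_le_mul_of_nonneg_right hmB (by linarith)
      _ = B * ((1 - θ) * S) := by ring
      _ ≤ B * (ΔE + e) := mul_le_mul_of_nonneg_left h1 hB0.le
  have e3 : |θ * m * ((a' - a) * a'⁻¹)| ≤ B ^ 3 * dF * Y := by
    rw [abs_mul, abs_mul (a' - a), abs_of_nonneg (mul_nonneg hθ0 hm),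
      abs_of_pos (by positivity : 0 < a'⁻¹), abs_sub_comm a' a]
    have h1 : θ * m ≤ B * Y := by
      calc θ * m ≤ 1 * m := mul_le_mul_of_nonneg_right hθ1 hm
        _ = m := one_mul m
        _ ≤ B * S := hmB
        _ ≤ B * Y := mul_le_mul_of_nonneg_left hS hB0.le
    have hY : 0 ≤ Y := hS0.trans hS
    calc θ * m * (|a - a'| * a'⁻¹) ≤ (B * Y) * ((B * dF) * B) := by
          apply mul_le_mul h1 _ (by positivity) (by positivity)
          exact mul_le_mul haa hinv (by positivity) (by positivity)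
      _ = _ := by ring
  rw [e1]
  exact (abs_add_le _ _).trans (add_le_add e2 e3)

end Crest.Agent.R249.LimG621
end

-- ▼ part R249/LimE0_621
section

/-!
# Row 249, part A2 v3: the limit passage for the obstacles `Ob` of helper806 and fields of the
class `V = A dη + B dm + W J_η` (shift which keeps `dφ - dψ`).

File 0: relation, Lipschitz condition, points of `{k = 0}`.
-/

set_option autoImplicit false
set_option linter.unusedVariables false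
set_option linter.unusedSectionVars false

open Set Filter Topology
open scoped ContDiff

namespace Crest.Agent.R249.LimE621

open Crest.Agent.R249.Lim621 Crest.Agent.R249.LimG621 Crest.Agent.R249.PenH_806

variable {E H : Type*} [NormedAddCommGroup E] [InnerProductSpace ℝ E]
  [NormedAddCommGroup H] [NormedSpace ℝ H]

/-- the compared jets: same `dφ - dψ`, close values. -/
def RelE (ε : ℝ) (j j' : Jet E H) : Prop :=
  j'.p - j'.q = j.p - j.q ∧ |j.f - j'.f| ≤ ε ∧ |j.g - j'.g| ≤ ε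


section Ob

variable {g B : ℝ} (O : Ob g B)


theorem hasDeriv_Γ (η : ℝ) : HasDerivAt O.Γ (deriv O.Γ η) η :=
  ((O.smooth.differentiable (by simp)) η).hasDerivAt

/-- `Γ` is `(1/2 - c)`-Lipschitz -/
theorem Γ_lip {a b : ℝ} (ha : |a| ≤ B - g) (hb : |b| ≤ B - g) :
    |O.Γ a - O.Γ b| ≤ (1 / 2 - O.c) * |a - b| := by
  have hconv : Convex ℝ (Icc (-(B - g)) (B - g)) := convex_Icc _ _
  have h := hconv.norm_image_sub_le_of_norm_hasDerivWithin_le (f := O.Γ) (f' := deriv O.Γ)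
    (C := 1 / 2 - O.c) (x := b) (y := a)
    (fun x hx => (hasDeriv_Γ O x).hasDerivWithinAt)
    (fun x hx => by
      rw [Real.norm_eq_abs]
      exact O.slope x (abs_le.mpr hx)) (abs_le.mp hb) (abs_le.mp ha)
  simpa [Real.norm_eq_abs] using h

/-- monotonicity of `k` along rays from `(g, g)` -/
theorem k_ray {f h lam lam' : ℝ} (hf : 0 ≤ f) (hh : 0 ≤ h) (hlam : 0 ≤ lam) (hll : lam ≤ lam')
    (h1 : lam' * f ≤ B - g) (h2 : lam' * h ≤ B - g) :
    O.k (g + lam' * f) (g + lam' * h) ≤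
      O.k (g + lam * f) (g + lam * h) - O.c * (lam' - lam) * (f + h) := by
  have hl' : 0 ≤ lam' := hlam.trans hll
  have e1 : |lam' * f - lam' * h| ≤ B - g := by
    rw [abs_le]
    have := mul_nonneg hl' hf
    have := mul_nonneg hl' hh
    constructor <;> linarith
  have h3 : lam * f ≤ lam' * f := mul_le_mul_of_nonneg_right hll hf
  have h4 : lam * h ≤ lam' * h := mul_le_mul_of_nonneg_right hll hh
  have e2 : |lam * f - lam * h| ≤ B - g := by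
    rw [abs_le]
    have := mul_nonneg hlam hf
    have := mul_nonneg hlam hh
    constructor <;> linarith
  have h5 := Γ_lip O e1 e2
  have e3 : (lam' * f - lam' * h) - (lam * f - lam * h) = (lam' - lam) * (f - h) := by ring
  rw [e3, abs_mul, abs_of_nonneg (sub_nonneg.2 hll)] at h5
  have h6 : |f - h| ≤ f + h := by
    rw [abs_le]; constructor <;> linarith
  have h7 : 0 ≤ 1 / 2 - O.c := by
    have hBg : 0 < B - g := by linarith [O.g_lt]
    exact (abs_nonneg _).trans (O.slope 0 (by rw [abs_zero]; exact hBg.le))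
  have h8 : (1 / 2 - O.c) * ((lam' - lam) * |f - h|) ≤
      (1 / 2 - O.c) * ((lam' - lam) * (f + h)) := by
    apply mul_le_mul_of_nonneg_left _ h7
    exact mul_le_mul_of_nonneg_left h6 (sub_nonneg.2 hll)
  have h9 := (abs_le.mp h5).2
  unfold Ob.k
  have e4 : g + lam' * f - (g + lam' * h) = lam' * f - lam' * h := by ring
  have e5 : g + lam * f - (g + lam * h) = lam * f - lam * h := by ring
  rw [e4, e5]
  nlinarith

/-- lower bound of `φ + ψ - 2g` in the contact zone -/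
theorem sum_ge {f h ε : ℝ} (hf : g ≤ f) (hfB : f ≤ B) (hh : g ≤ h) (hhB : h ≤ B)
    (hk : O.k f h ≤ ε) : O.Γ 0 - g - ε ≤ (f - g) + (h - g) := by
  have hBg : 0 < B - g := by linarith [O.g_lt]
  have h1 := Γ_lip O (a := f - h) (b := 0) (by rw [abs_le]; constructor <;> linarith)
    (by rw [abs_zero]; exact hBg.le)
  have h2 : |f - h - 0| ≤ (f - g) + (h - g) := by
    rw [sub_zero, abs_le]; constructor <;> linarith
  have h7 : 0 ≤ 1 / 2 - O.c := (abs_nonneg _).trans (O.slope 0 (by rw [abs_zero]; exact hBg.le))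
  have h3 := (abs_le.mp h1).1
  have h4 := mul_le_mul_of_nonneg_left h2 h7
  have h5 := mul_nonneg O.c_pos.le (by linarith : 0 ≤ (f - g) + (h - g))
  unfold Ob.k at hk
  linarith

/-- **points of the contact curve.** -/
theorem exists_contact (hΓ : g < O.Γ 0) : ∃ ε0 K : ℝ, 0 < ε0 ∧ 0 < K ∧ ∀ f h ε : ℝ, g ≤ f → f ≤ B →
    g ≤ h → h ≤ B → |O.k f h| ≤ ε → ε ≤ ε0 → ∃ f' h' : ℝ, g ≤ f' ∧ f' ≤ B ∧ g ≤ h' ∧ h' ≤ B ∧
      O.k f' h' = 0 ∧ |f - f'| ≤ K * ε ∧ |h - h'| ≤ K * ε := by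
  have hBg : 0 < B - g := by linarith [O.g_lt]
  have hc := O.c_pos
  obtain ⟨κ, hκ⟩ : ∃ κ, κ = (B + g) / 2 - O.Γ (B - g) := ⟨_, rfl⟩
  have hκ0 : 0 < κ := by rw [hκ]; linarith [O.corner]
  obtain ⟨s, hs⟩ : ∃ s, s = (O.Γ 0 - g) / 2 := ⟨_, rfl⟩
  have hs0 : 0 < s := by rw [hs]; linarith
  -- the upper bound `f ≤ B - κ/2` in the zone
  have hup : ∀ f h ε, g ≤ f → f ≤ B → g ≤ h → h ≤ B → |O.k f h| ≤ ε → ε ≤ κ / 2 →
      f ≤ B - κ / 2 ∧ h ≤ B - κ / 2 := by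
    intro f h ε hf hfB hh hhB hk hε
    have h7 : 0 ≤ 1 / 2 - O.c := (abs_nonneg _).trans (O.slope 0 (by rw [abs_zero]; exact hBg.le))
    have hk1 := (abs_le.mp hk).1
    unfold Ob.k at hk1
    have key : ∀ a b : ℝ, g ≤ a → a ≤ B → g ≤ b → b ≤ B → -ε ≤ O.Γ (a - b) - (a + b) / 2 →
        a ≤ B - κ / 2 := by
      intro a b ha haB hb hbB hab
      have h1 := Γ_lip O (a := a - b) (b := B - g) (by rw [abs_le]; constructor <;> linarith)
        (by rw [abs_of_pos hBg])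
      have e1 : |a - b - (B - g)| = (B - a) + (b - g) := by
        rw [abs_of_nonpos (by linarith)]; ring
      rw [e1] at h1
      have h2 := (abs_le.mp h1).2
      have h3 := mul_nonneg hc.le (by linarith : 0 ≤ (B - a) + (b - g))
      rw [hκ] at hε ⊢
      linarith
    refine ⟨key f h hf hfB hh hhB hk1, key h f hh hhB hf hfB ?_⟩
    have : O.Γ (h - f) = O.Γ (f - h) := by rw [← O.even (f - h)]; congr 1; ring
    rw [this, add_comm h f]
    exact hk1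
  -- the parameters
  obtain ⟨K, hK⟩ : ∃ K, K = (O.c * s)⁻¹ * (B - g) := ⟨_, rfl⟩
  have hcs : 0 < O.c * s := by positivity
  have hK0 : 0 < K := by rw [hK]; positivity
  refine ⟨min (min (κ / 2) s) (min (O.c * s) (κ / 2 / K)), K, by positivity, hK0, ?_⟩
  intro f h ε hf hfB hh hhB hk hε
  have hε1 : ε ≤ κ / 2 := hε.trans ((min_le_left _ _).trans (min_le_left _ _))
  have hε2 : ε ≤ s := hε.trans ((min_le_left _ _).trans (min_le_right _ _))
  have hε3 : ε ≤ O.c * s := hε.trans ((min_le_right _ _).trans (min_le_left _ _))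
  have hε4 : ε ≤ κ / 2 / K := hε.trans ((min_le_right _ _).trans (min_le_right _ _))
  have hε0 : 0 ≤ ε := (abs_nonneg _).trans hk
  obtain ⟨hfu, hhu⟩ := hup f h ε hf hfB hh hhB hk hε1
  obtain ⟨hk1, hk2⟩ := abs_le.mp hk
  have hsum : s ≤ (f - g) + (h - g) := by
    have := sum_ge O hf hfB hh hhB hk2
    rw [hs] at hε2 ⊢
    linarith
  -- the interval of `lam`
  obtain ⟨τ, hτ⟩ : ∃ τ, τ = (O.c * s)⁻¹ * ε := ⟨_, rfl⟩
  have hτ0 : 0 ≤ τ := by rw [hτ]; positivity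
  have hτ1 : τ ≤ 1 := by
    rw [hτ, inv_mul_le_iff₀ hcs]; linarith
  have hτε : ε = τ * (O.c * s) := by
    rw [hτ]; field_simp
  have hτK : τ * (B - g) = K * ε := by rw [hτ, hK]; ring
  have hKε : K * ε ≤ κ / 2 := by
    have := (le_div_iff₀ hK0).1 hε4
    linarith
  have hf0 : 0 ≤ f - g := by linarith
  have hh0 : 0 ≤ h - g := by linarith
  have hbd : ∀ x : ℝ, 0 ≤ x → x ≤ B - g - κ / 2 → (1 + τ) * x ≤ B - g := by
    intro x hx0 hx
    have : τ * x ≤ τ * (B - g) := mul_le_mul_of_nonneg_left (by linarith) hτ0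
    nlinarith
  have hb1 := hbd (f - g) hf0 (by linarith)
  have hb2 := hbd (h - g) hh0 (by linarith)
  have hcτ : ε ≤ O.c * τ * ((f - g) + (h - g)) := by
    calc ε = O.c * τ * s := by rw [hτε]; ring
      _ ≤ _ := mul_le_mul_of_nonneg_left hsum (by positivity)
  have hfe : g + 1 * (f - g) = f := by ring
  have hhe : g + 1 * (h - g) = h := by ring
  have hlow : 0 ≤ O.k (g + (1 - τ) * (f - g)) (g + (1 - τ) * (h - g)) := by
    have h1 := k_ray O hf0 hh0 (by linarith : 0 ≤ 1 - τ) (by linarith : 1 - τ ≤ 1)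
      (by linarith) (by linarith)
    rw [hfe, hhe] at h1
    have e : O.c * (1 - (1 - τ)) * (f - g + (h - g)) = O.c * τ * ((f - g) + (h - g)) := by ring
    rw [e] at h1
    linarith
  have hhigh : O.k (g + (1 + τ) * (f - g)) (g + (1 + τ) * (h - g)) ≤ 0 := by
    have h1 := k_ray O hf0 hh0 (by linarith : (0:ℝ) ≤ 1) (by linarith : 1 ≤ 1 + τ) hb1 hb2
    rw [hfe, hhe] at h1
    have e : O.c * (1 + τ - 1) * (f - g + (h - g)) = O.c * τ * ((f - g) + (h - g)) := by ring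
    rw [e] at h1
    linarith
  have hcont : ContinuousOn (fun lam => O.k (g + lam * (f - g)) (g + lam * (h - g)))
      (Icc (1 - τ) (1 + τ)) := by
    have : Continuous (fun lam => O.k (g + lam * (f - g)) (g + lam * (h - g))) := by
      unfold Ob.k
      exact (O.smooth.continuous.comp (by fun_prop)).sub (by fun_prop)
    exact this.continuousOn
  have hivt := intermediate_value_Icc' (by linarith : 1 - τ ≤ 1 + τ) hcont
  obtain ⟨lam, hlam, hz⟩ := hivt ⟨hhigh, hlow⟩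
  have hz' : O.k (g + lam * (f - g)) (g + lam * (h - g)) = 0 := hz
  have hlam0 : 0 ≤ lam := by linarith [hlam.1]
  have hdist : ∀ x : ℝ, 0 ≤ x → x ≤ B - g → |(g + x) - (g + lam * x)| ≤ K * ε := by
    intro x hx0 hx
    have e : (g + x) - (g + lam * x) = (1 - lam) * x := by ring
    rw [e, abs_mul, abs_of_nonneg hx0, ← hτK]
    have h1 : |1 - lam| ≤ τ := by
      rw [abs_le]; constructor <;> linarith [hlam.1, hlam.2]
    exact mul_le_mul h1 hx hx0 hτ0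
  have hd1 := hdist (f - g) hf0 (by linarith)
  have hd2 := hdist (h - g) hh0 (by linarith)
  have hle : ∀ x : ℝ, 0 ≤ x → (1 + τ) * x ≤ B - g → g + lam * x ≤ B := by
    intro x hx0 hx
    have : lam * x ≤ (1 + τ) * x := mul_le_mul_of_nonneg_right hlam.2 hx0
    linarith
  refine ⟨g + lam * (f - g), g + lam * (h - g), ?_, hle _ hf0 hb1, ?_, hle _ hh0 hb2, hz', ?_, ?_⟩
  · have := mul_nonneg hlam0 hf0
    linarith
  · have := mul_nonneg hlam0 hh0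
    linarith
  · have e : g + (f - g) = f := by ring
    rw [e] at hd1; exact hd1
  · have e : g + (h - g) = h := by ring
    rw [e] at hd2; exact hd2

end Ob

end Crest.Agent.R249.LimE621
end

-- ▼ part R249/LimE1_621
section

/-!
# Row 249, part A2 v3: the limit passage for `Ob`, file 1: the contact zone lemma
-/

set_option autoImplicit false
set_option linter.unusedVariables false
set_option linter.unusedSectionVars false

open Set Filter Topology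
open scoped ContDiff

namespace Crest.Agent.R249.LimE621

open Crest.Agent.R249.Lim621 Crest.Agent.R249.LimG621 Crest.Agent.R249.PenH_806

variable {E H : Type*} [NormedAddCommGroup E] [InnerProductSpace ℝ E]
  [NormedAddCommGroup H] [NormedSpace ℝ H]

variable {g B : ℝ}

/-- the bounds for `Γ` and `F` -/
structure Bds (O : Ob g B) (F : ℝ → ℝ) (A : ℝ) : Prop where
  one : 1 ≤ A
  c : 1 ≤ A * O.c
  G1 : ∀ a b, |a| ≤ B - g → |b| ≤ B - g → |deriv O.Γ a - deriv O.Γ b| ≤ A * |a - b|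
  G2b : ∀ a, |a| ≤ B - g → |deriv (deriv O.Γ) a| ≤ A
  G2 : ∀ a b, |a| ≤ B - g → |b| ≤ B - g →
    |deriv (deriv O.Γ) a - deriv (deriv O.Γ) b| ≤ A * |a - b|
  Fb : ∀ u, g ≤ u → u ≤ B → |F u| ≤ A
  F : ∀ u v, g ≤ u → u ≤ B → g ≤ v → v ≤ B → |F u - F v| ≤ A * |u - v|

theorem lip_of_contDiff {h : ℝ → ℝ} (hh : ContDiff ℝ ∞ h) (R : ℝ) : ∃ A : ℝ, 0 ≤ A ∧
    (∀ a, |a| ≤ R → |h a| ≤ A) ∧ ∀ a b, |a| ≤ R → |b| ≤ R → |h a - h b| ≤ A * |a - b| := by
  have hd : Continuous (deriv h) := hh.continuous_deriv (by simp)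
  obtain ⟨A1, hA1⟩ := (isCompact_Icc (a := -R) (b := R)).exists_bound_of_continuousOn
    hh.continuous.continuousOn
  obtain ⟨A2, hA2⟩ := (isCompact_Icc (a := -R) (b := R)).exists_bound_of_continuousOn
    hd.continuousOn
  refine ⟨max (max A1 A2) 0, le_max_right _ _, ?_, ?_⟩
  · intro a ha
    have := hA1 a (abs_le.mp ha)
    rw [Real.norm_eq_abs] at this
    exact this.trans ((le_max_left _ _).trans (le_max_left _ _))
  · intro a b ha hb
    have h := (convex_Icc (-R) R).norm_image_sub_le_of_norm_hasDerivWithin_le (f := h)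
      (f' := deriv h) (C := max (max A1 A2) 0) (x := b) (y := a)
      (fun x hx => ((hh.differentiable (by simp)) x).hasDerivAt.hasDerivWithinAt)
      (fun x hx => (hA2 x hx).trans ((le_max_right _ _).trans (le_max_left _ _)))
      (abs_le.mp hb) (abs_le.mp ha)
    simpa [Real.norm_eq_abs] using h

theorem contDiff_deriv {h : ℝ → ℝ} (hh : ContDiff ℝ ∞ h) : ContDiff ℝ ∞ (deriv h) := by
  have := contDiff_infty_iff_deriv.1 hh
  exact this.2

/-- existence of the bounds -/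
theorem exists_bds (O : Ob g B) {F : ℝ → ℝ} {CF : ℝ} (hFb : ∀ u, g ≤ u → u ≤ B → |F u| ≤ CF)
    (hF : ∀ u v, g ≤ u → u ≤ B → g ≤ v → v ≤ B → |F u - F v| ≤ CF * |u - v|) :
    ∃ A, Bds O F A := by
  obtain ⟨A1, h10, h11, h12⟩ := lip_of_contDiff (contDiff_deriv O.smooth) (B - g)
  obtain ⟨A2, h20, h21, h22⟩ := lip_of_contDiff (contDiff_deriv (contDiff_deriv O.smooth)) (B - g)
  have hc := O.c_pos
  have hCF : 0 ≤ CF := (abs_nonneg _).trans (hFb g le_rfl O.g_lt.le)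
  obtain ⟨A, hA⟩ : ∃ A, A = 1 + O.c⁻¹ + A1 + A2 + CF := ⟨_, rfl⟩
  have hci : 0 < O.c⁻¹ := by positivity
  have k1 : A1 ≤ A := by rw [hA]; linarith
  have k2 : A2 ≤ A := by rw [hA]; linarith
  have k3 : CF ≤ A := by rw [hA]; linarith
  have k4 : O.c⁻¹ ≤ A := by rw [hA]; linarith
  have k5 : 1 ≤ A := by rw [hA]; linarith
  refine ⟨A, k5, ?_, ?_, ?_, ?_, ?_, ?_⟩
  · calc (1 : ℝ) = O.c⁻¹ * O.c := by rw [inv_mul_cancel₀ hc.ne']
      _ ≤ A * O.c := mul_le_mul_of_nonneg_right k4 hc.le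
  · intro a b ha hb
    exact (h12 a b ha hb).trans (mul_le_mul_of_nonneg_right k1 (abs_nonneg _))
  · intro a ha
    exact (h21 a ha).trans k2
  · intro a b ha hb
    exact (h22 a b ha hb).trans (mul_le_mul_of_nonneg_right k2 (abs_nonneg _))
  · intro u hu huB
    exact (hFb u hu huB).trans k3
  · intro u v hu huB hv hvB
    exact (hF u v hu huB hv hvB).trans (mul_le_mul_of_nonneg_right k3 (abs_nonneg _))

/-- `dk` -/
noncomputable def LvE (O : Ob g B) (j : Jet E H) : E := O.k1 j.f j.g • j.p + O.k2 j.f j.g • j.q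

/-- `E_k` -/
noncomputable def EkE (O : Ob g B) (F : ℝ → ℝ) (j : Jet E H) : ℝ :=
  O.E F j.f j.g (‖j.p - j.q‖ ^ 2)

theorem k1_bounds (O : Ob g B) {f h : ℝ} (hfh : |f - h| ≤ B - g) :
    |O.k1 f h| ≤ 1 ∧ |O.k2 f h| ≤ 1 ∧ O.c ≤ -O.k1 f h ∧ O.c ≤ -O.k2 f h := by
  have hs := abs_le.mp (O.slope _ hfh)
  have hc := O.c_pos
  unfold Ob.k1 Ob.k2
  refine ⟨?_, ?_, ?_, ?_⟩
  · rw [abs_le]; constructor <;> linarith
  · rw [abs_le]; constructor <;> linarith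
  · linarith
  · linarith

theorem Ek_diffE {O : Ob g B} {F : ℝ → ℝ} {A : ℝ} (hA : Bds O F A) {f h f' h' P w d : ℝ}
    (hf : g ≤ f) (hfu : f ≤ B) (hh : g ≤ h) (hhu : h ≤ B)
    (hf' : g ≤ f') (hfu' : f' ≤ B) (hh' : g ≤ h') (hhu' : h' ≤ B)
    (hdf : |f - f'| ≤ d) (hdh : |h - h'| ≤ d) (hw : 1 ≤ w) (hP0 : 0 ≤ P) (hP : P ≤ 4 * w ^ 2) :
    |O.E F f h P - O.E F f' h' P| ≤ 14 * A ^ 2 * d * w ^ 2 ∧ |O.E F f h P| ≤ 6 * A * w ^ 2 := by
  have hA1 := hA.one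
  have hA0 : 0 ≤ A := by linarith
  have hd0 : 0 ≤ d := (abs_nonneg _).trans hdf
  have hfh : |f - h| ≤ B - g := by rw [abs_le]; constructor <;> linarith
  have hfh' : |f' - h'| ≤ B - g := by rw [abs_le]; constructor <;> linarith
  have hηd : |(f - h) - (f' - h')| ≤ 2 * d := by
    have e : (f - h) - (f' - h') = (f - f') - (h - h') := by ring
    rw [e]
    exact (abs_sub _ _).trans (by linarith)
  obtain ⟨a1, a2, a3, a4⟩ := k1_bounds O hfh
  have hG : |deriv O.Γ (f - h) - deriv O.Γ (f' - h')| ≤ A * (2 * d) :=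
    (hA.G1 _ _ hfh hfh').trans (mul_le_mul_of_nonneg_left hηd hA0)
  have b1 : |O.k1 f h - O.k1 f' h'| ≤ A * (2 * d) := by
    have e : O.k1 f h - O.k1 f' h' = deriv O.Γ (f - h) - deriv O.Γ (f' - h') := by
      unfold Ob.k1; ring
    rw [e]; exact hG
  have b2 : |O.k2 f h - O.k2 f' h'| ≤ A * (2 * d) := by
    have e : O.k2 f h - O.k2 f' h' = -(deriv O.Γ (f - h) - deriv O.Γ (f' - h')) := by
      unfold Ob.k2; ring
    rw [e, abs_neg]; exact hG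
  have F1 := hA.Fb f' hf' hfu'
  have F2 := hA.Fb h' hh' hhu'
  have F3 : |F f - F f'| ≤ A * d :=
    (hA.F f f' hf hfu hf' hfu').trans (mul_le_mul_of_nonneg_left hdf hA0)
  have F4 : |F h - F h'| ≤ A * d :=
    (hA.F h h' hh hhu hh' hhu').trans (mul_le_mul_of_nonneg_left hdh hA0)
  have t1 := ab_diff a1 F1 b1 F3
  have t2 := ab_diff a2 F2 b2 F4
  have t3 : |deriv (deriv O.Γ) (f - h) * P - deriv (deriv O.Γ) (f' - h') * P| ≤
      A * (2 * d) * (4 * w ^ 2) := by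
    rw [← sub_mul, abs_mul, abs_of_nonneg hP0]
    have h5 : |deriv (deriv O.Γ) (f - h) - deriv (deriv O.Γ) (f' - h')| ≤ A * (2 * d) :=
      (hA.G2 _ _ hfh hfh').trans (mul_le_mul_of_nonneg_left hηd hA0)
    exact mul_le_mul h5 hP hP0 (by positivity)
  have hw2 : 1 ≤ w ^ 2 := one_le_pow₀ hw
  constructor
  · have e : O.E F f h P - O.E F f' h' P = (O.k1 f h * F f - O.k1 f' h' * F f') +
        (O.k2 f h * F h - O.k2 f' h' * F h') +
        (deriv (deriv O.Γ) (f - h) * P - deriv (deriv O.Γ) (f' - h') * P) := by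
      unfold Ob.E; ring
    have h1 : |O.E F f h P - O.E F f' h' P| ≤ (1 * (A * d) + A * (2 * d) * A) +
        (1 * (A * d) + A * (2 * d) * A) + A * (2 * d) * (4 * w ^ 2) := by
      rw [e]
      exact (abs_add_le _ _).trans (add_le_add ((abs_add_le _ _).trans (add_le_add t1 t2)) t3)
    refine h1.trans ?_
    have hAA := le_sq_self hA1
    have k1 : A * d ≤ A ^ 2 * d * w ^ 2 := by
      calc A * d ≤ A ^ 2 * d := mul_le_mul_of_nonneg_right hAA hd0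
        _ ≤ A ^ 2 * d * w ^ 2 := le_mul_of_one_le_right (by positivity) hw2
    have k2 : A * (2 * d) * A ≤ 2 * (A ^ 2 * d * w ^ 2) := by
      have : A * (2 * d) * A = 2 * (A ^ 2 * d) := by ring
      rw [this]
      exact mul_le_mul_of_nonneg_left (le_mul_of_one_le_right (by positivity) hw2) (by norm_num)
    have k3 : A * (2 * d) * (4 * w ^ 2) ≤ 8 * (A ^ 2 * d * w ^ 2) := by
      calc A * (2 * d) * (4 * w ^ 2) = 8 * (A * (d * w ^ 2)) := by ring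
        _ ≤ 8 * (A ^ 2 * (d * w ^ 2)) := by
            apply mul_le_mul_of_nonneg_left _ (by norm_num)
            exact mul_le_mul_of_nonneg_right hAA (by positivity)
        _ = _ := by ring
    linarith
  · have F1 := hA.Fb f hf hfu
    have F2 := hA.Fb h hh hhu
    have c1 : |O.k1 f h * F f| ≤ 1 * A := by
      rw [abs_mul]; exact mul_le_mul a1 F1 (abs_nonneg _) zero_le_one
    have c2 : |O.k2 f h * F h| ≤ 1 * A := by
      rw [abs_mul]; exact mul_le_mul a2 F2 (abs_nonneg _) zero_le_one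
    have c3 : |deriv (deriv O.Γ) (f - h) * P| ≤ A * (4 * w ^ 2) := by
      rw [abs_mul, abs_of_nonneg hP0]
      exact mul_le_mul (hA.G2b _ hfh) hP hP0 hA0
    have h1 : |O.E F f h P| ≤ 1 * A + 1 * A + A * (4 * w ^ 2) := by
      unfold Ob.E
      exact (abs_add_le _ _).trans (add_le_add ((abs_add_le _ _).trans (add_le_add c1 c2)) c3)
    have k1 : A ≤ A * w ^ 2 := le_mul_of_one_le_right hA0 hw2
    linarith

theorem alphaE {A K0 c0 ε w e dm ΔE dF r al : ℝ} (hA : 1 ≤ A) (hK0 : 0 ≤ K0) (hc0 : 0 ≤ c0)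
    (hε0 : 0 ≤ ε) (hε1 : ε ≤ 1) (hw : 1 ≤ w) (he : 0 ≤ e) (hr : 0 ≤ r)
    (hE : ΔE ≤ 14 * A ^ 2 * (K0 * ε) * w ^ 2)
    (hdm : dm ≤ A * (ΔE + e) + A ^ 3 * (2 * (K0 * ε)) * (6 * A * w ^ 2 + c0 + e))
    (hdF : dF ≤ A * (K0 * ε)) (h : al ≤ dF + dm + r) :
    al ≤ (A * K0 + 14 * A ^ 3 * K0 + 12 * A ^ 4 * K0 + 2 * A ^ 3 * K0 * c0 + A + 2 * A ^ 3 * K0
      + 1) * (ε * w ^ 2 + e + r) := by
  have hA0 : 0 ≤ A := by linarith
  have hw2 : 1 ≤ w ^ 2 := one_le_pow₀ hw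
  have hεw : ε ≤ ε * w ^ 2 := le_mul_of_one_le_right hε0 hw2
  have h1 : A * (ΔE + e) ≤ 14 * A ^ 3 * K0 * (ε * w ^ 2) + A * e := by
    calc A * (ΔE + e) ≤ A * (14 * A ^ 2 * (K0 * ε) * w ^ 2 + e) :=
          mul_le_mul_of_nonneg_left (by linarith) hA0
      _ = _ := by ring
  have h2 : A ^ 3 * (2 * (K0 * ε)) * (6 * A * w ^ 2 + c0 + e) =
      12 * A ^ 4 * K0 * (ε * w ^ 2) + 2 * A ^ 3 * K0 * c0 * ε + 2 * A ^ 3 * K0 * (ε * e) := by ring
  have h3 : 2 * A ^ 3 * K0 * c0 * ε ≤ 2 * A ^ 3 * K0 * c0 * (ε * w ^ 2) :=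
    mul_le_mul_of_nonneg_left hεw (by positivity)
  have h4 : 2 * A ^ 3 * K0 * (ε * e) ≤ 2 * A ^ 3 * K0 * e :=
    mul_le_mul_of_nonneg_left (mul_le_of_le_one_left he hε1) (by positivity)
  have h5 : A * (K0 * ε) ≤ A * K0 * (ε * w ^ 2) := by
    calc A * (K0 * ε) = A * K0 * ε := by ring
      _ ≤ _ := mul_le_mul_of_nonneg_left hεw (by positivity)
  have e1 : (A * K0 + 14 * A ^ 3 * K0 + 12 * A ^ 4 * K0 + 2 * A ^ 3 * K0 * c0 + A + 2 * A ^ 3 * K0
      + 1) * (ε * w ^ 2 + e + r) = A * K0 * (ε * w ^ 2) + 14 * A ^ 3 * K0 * (ε * w ^ 2) +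
      12 * A ^ 4 * K0 * (ε * w ^ 2) + 2 * A ^ 3 * K0 * c0 * (ε * w ^ 2) + A * e +
      2 * A ^ 3 * K0 * e + r +
      ((A + 2 * A ^ 3 * K0 + 1) * (ε * w ^ 2) +
       (A * K0 + 14 * A ^ 3 * K0 + 12 * A ^ 4 * K0 + 2 * A ^ 3 * K0 * c0 + 1) * e +
       (A * K0 + 14 * A ^ 3 * K0 + 12 * A ^ 4 * K0 + 2 * A ^ 3 * K0 * c0 + A + 2 * A ^ 3 * K0)
        * r) := by ring
  rw [e1]
  have h6 : 0 ≤ (A + 2 * A ^ 3 * K0 + 1) * (ε * w ^ 2) +
       (A * K0 + 14 * A ^ 3 * K0 + 12 * A ^ 4 * K0 + 2 * A ^ 3 * K0 * c0 + 1) * e +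
       (A * K0 + 14 * A ^ 3 * K0 + 12 * A ^ 4 * K0 + 2 * A ^ 3 * K0 * c0 + A + 2 * A ^ 3 * K0)
        * r := by positivity
  linarith

/-- the constant -/
noncomputable def CE (A K0 c0 : ℝ) : ℝ :=
  A * K0 + 14 * A ^ 3 * K0 + 12 * A ^ 4 * K0 + 2 * A ^ 3 * K0 * c0 + A + 2 * A ^ 3 * K0 + 1

theorem fracE {a b a' b' ϑ m m' : ℝ} (ha : a' ≠ 0) (hb : b' ≠ 0) :
    a' * (ϑ * m * (a / a')) + b' * (ϑ * m' * (b / b')) = ϑ * (a * m + b * m') := by
  field_simp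

set_option maxHeartbeats 1000000 in
/-- **the contact zone lemma** -/
theorem zoneE (tr : H →L[ℝ] ℝ) (one : H) (h1 : tr one = 1) (O : Ob g B) (hΓ : g < O.Γ 0)
    {F : ℝ → ℝ} {A c0 : ℝ} (hA : Bds O F A) (hc0 : 0 ≤ c0) :
    ∃ ε0 K : ℝ, 0 < ε0 ∧ 1 ≤ K ∧ ∀ (j : Jet E H) (m m' r r' e ε : ℝ),
      g ≤ j.f → j.f ≤ B → g ≤ j.g → j.g ≤ B → 0 ≤ ε → ε ≤ ε0 → |O.k j.f j.g| ≤ ε →
      tr j.P = F j.f + m + r → tr j.Q = F j.g + m' + r' → 0 ≤ m → 0 ≤ m' → 0 ≤ e →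
      -O.k1 j.f j.g * m + -O.k2 j.f j.g * m' ≤ max (EkE O F j) 0 + c0 + e →
      ∃ (j' : Jet E H) (m1 m1' : ℝ), g ≤ j'.f ∧ j'.f ≤ B ∧ g ≤ j'.g ∧ j'.g ≤ B ∧
        O.k j'.f j'.g = 0 ∧ LvE O j' = 0 ∧
        tr j'.P = F j'.f + m1 ∧ tr j'.Q = F j'.g + m1' ∧ 0 ≤ m1 ∧ 0 ≤ m1' ∧
        -O.k1 j'.f j'.g * m1 + -O.k2 j'.f j'.g * m1' ≤ max (EkE O F j') 0 + c0 ∧
        (∃ α α' : ℝ, j'.P = j.P + α • one ∧ j'.Q = j.Q + α' • one) ∧
        RelE (K * ε) j j' ∧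
        ‖j.p - j'.p‖ + ‖j.q - j'.q‖ ≤ K * (‖LvE O j‖ + ε * Real.sqrt j.W) ∧
        ‖j.P - j'.P‖ + ‖j.Q - j'.Q‖ ≤ K * (ε * j.W + e + |r| + |r'|) ∧
        j.W + j'.W ≤ K * (j.W + e + |r| + |r'|) := by
  obtain ⟨ε1, K0, hε1, hK0, hcon⟩ := exists_contact O hΓ
  have hA1 := hA.one
  have hA0 : 0 ≤ A := by linarith
  have hn0 := norm_nonneg one
  have hCE : 0 ≤ CE A K0 c0 := by unfold CE; positivity
  obtain ⟨K, hK⟩ : ∃ K, K = 1 + K0 + 2 + 8 * A * K0 + 2 * CE A K0 c0 * ‖one‖ + 10 := ⟨_, rfl⟩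
  refine ⟨min ε1 1, K, lt_min hε1 one_pos, ?_, ?_⟩
  · rw [hK]
    have : 0 ≤ K0 + 8 * A * K0 + 2 * CE A K0 c0 * ‖one‖ := by positivity
    linarith
  intro j m m' r r' e ε hf hfu hh hhu hε hεε hk htP htQ hm hm' he hS
  have hε11 : ε ≤ 1 := hεε.trans (min_le_right _ _)
  obtain ⟨f', h', hf', hfu', hh', hhu', hk0, hdf, hdh⟩ := hcon j.f j.g ε hf hfu hh hhu hk
    (hεε.trans (min_le_left _ _))
  obtain ⟨hpw, hqw, hw1, hww⟩ := norm_le_w j
  obtain ⟨w, hw⟩ : ∃ w, w = Real.sqrt j.W := ⟨_, rfl⟩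
  rw [← hw] at hpw hqw hw1 hww ⊢
  have hw0 : 0 ≤ w := by linarith
  have hw2 : 1 ≤ w ^ 2 := one_le_pow₀ hw1
  obtain ⟨u, hu⟩ : ∃ u, u = j.p - j.q := ⟨_, rfl⟩
  have hun : ‖u‖ ≤ 2 * w := by rw [hu]; exact (norm_sub_le _ _).trans (by linarith)
  have hfh : |j.f - j.g| ≤ B - g := by rw [abs_le]; constructor <;> linarith
  have hfh' : |f' - h'| ≤ B - g := by rw [abs_le]; constructor <;> linarith
  obtain ⟨a1, a2, a3, a4⟩ := k1_bounds O hfh
  obtain ⟨b1, b2, b3, b4⟩ := k1_bounds O hfh'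
  obtain ⟨s, hs⟩ : ∃ s, s = deriv O.Γ (f' - h') := ⟨_, rfl⟩
  have hs1 : |s| ≤ 1 / 2 := by
    rw [hs]; exact (O.slope _ hfh').trans (by linarith [O.c_pos])
  have hηd : |(j.f - j.g) - (f' - h')| ≤ 2 * (K0 * ε) := by
    have e : (j.f - j.g) - (f' - h') = (j.f - f') - (j.g - h') := by ring
    rw [e]
    exact (abs_sub _ _).trans (by linarith)
  have hG : |deriv O.Γ (j.f - j.g) - s| ≤ A * (2 * (K0 * ε)) := by
    rw [hs]
    exact (hA.G1 _ _ hfh hfh').trans (mul_le_mul_of_nonneg_left hηd hA0)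
  -- the new gradients
  obtain ⟨p', hp'⟩ : ∃ p' : E, p' = s • u + (1 / 2 : ℝ) • u := ⟨_, rfl⟩
  obtain ⟨q', hq'⟩ : ∃ q' : E, q' = s • u - (1 / 2 : ℝ) • u := ⟨_, rfl⟩
  have hpq' : p' - q' = u := by rw [hp', hq']; module
  have hLv : LvE O j = (deriv O.Γ (j.f - j.g)) • u - (1 / 2 : ℝ) • (j.p + j.q) := by
    unfold LvE Ob.k1 Ob.k2
    rw [hu]; module
  have hpd : j.p - p' = -LvE O j + (deriv O.Γ (j.f - j.g) - s) • u := by
    rw [hLv, hp', hu]; module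
  have hqd : j.q - q' = -LvE O j + (deriv O.Γ (j.f - j.g) - s) • u := by
    rw [hLv, hq', hu]; module
  have hdn : ‖-LvE O j + (deriv O.Γ (j.f - j.g) - s) • u‖ ≤ ‖LvE O j‖ + 4 * A * K0 * (ε * w) := by
    refine (norm_add_le _ _).trans ?_
    rw [norm_neg, norm_smul, Real.norm_eq_abs]
    have : |deriv O.Γ (j.f - j.g) - s| * ‖u‖ ≤ A * (2 * (K0 * ε)) * (2 * w) :=
      mul_le_mul hG hun (norm_nonneg _) (by positivity)
    linarith
  have hp'n : ‖p'‖ ≤ 2 * w := by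
    have e : p' = (s + 1 / 2) • u := by rw [hp']; module
    rw [e, norm_smul, Real.norm_eq_abs]
    have h2 : |s + 1 / 2| ≤ 1 := by
      have := abs_le.mp hs1
      rw [abs_le]; constructor <;> linarith
    calc |s + 1 / 2| * ‖u‖ ≤ 1 * (2 * w) := mul_le_mul h2 hun (norm_nonneg _) zero_le_one
      _ = _ := one_mul _
  have hq'n : ‖q'‖ ≤ 2 * w := by
    have e : q' = (s - 1 / 2) • u := by rw [hq']; module
    rw [e, norm_smul, Real.norm_eq_abs]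
    have h2 : |s - 1 / 2| ≤ 1 := by
      have := abs_le.mp hs1
      rw [abs_le]; constructor <;> linarith
    calc |s - 1 / 2| * ‖u‖ ≤ 1 * (2 * w) := mul_le_mul h2 hun (norm_nonneg _) zero_le_one
      _ = _ := one_mul _
  -- `E_k`
  have hP4 : ‖u‖ ^ 2 ≤ 4 * w ^ 2 := by
    calc ‖u‖ ^ 2 ≤ (2 * w) ^ 2 := pow_le_pow_left₀ (norm_nonneg _) hun 2
      _ = _ := by ring
  obtain ⟨hE1, hEb⟩ := Ek_diffE hA hf hfu hh hhu hf' hfu' hh' hhu' hdf hdh hw1 (sq_nonneg ‖u‖) hP4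
  obtain ⟨E0, hE0⟩ : ∃ E0, E0 = O.E F j.f j.g (‖u‖ ^ 2) := ⟨_, rfl⟩
  obtain ⟨E1, hE1'⟩ : ∃ E1, E1 = O.E F f' h' (‖u‖ ^ 2) := ⟨_, rfl⟩
  have hS' : -O.k1 j.f j.g * m + -O.k2 j.f j.g * m' ≤ max E0 0 + c0 + e := by
    rw [hE0, hu]; exact hS
  rw [← hE0] at hE1 hEb
  rw [← hE1'] at hE1
  -- the multipliers
  have hcA := hA.c
  have pc := O.c_pos
  have pa : 0 < -O.k1 j.f j.g := by linarith
  have pb : 0 < -O.k2 j.f j.g := by linarith
  have pa' : 0 < -O.k1 f' h' := by linarith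
  have pb' : 0 < -O.k2 f' h' := by linarith
  have hge : ∀ x, O.c ≤ x → 1 ≤ A * x := fun x hx =>
    hcA.trans (mul_le_mul_of_nonneg_left hx hA0)
  have haa : |-O.k1 j.f j.g - -O.k1 f' h'| ≤ A * (2 * (K0 * ε)) := by
    have e : -O.k1 j.f j.g - -O.k1 f' h' = -(deriv O.Γ (j.f - j.g) - s) := by
      rw [hs]; unfold Ob.k1; ring
    rw [e, abs_neg]; exact hG
  have hbb : |-O.k2 j.f j.g - -O.k2 f' h'| ≤ A * (2 * (K0 * ε)) := by
    have e : -O.k2 j.f j.g - -O.k2 f' h' = deriv O.Γ (j.f - j.g) - s := by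
      rw [hs]; unfold Ob.k2; ring
    rw [e]; exact hG
  have hS0 : 0 ≤ -O.k1 j.f j.g * m + -O.k2 j.f j.g * m' := by positivity
  have hT0 : 0 ≤ max E1 0 + c0 := by positivity
  obtain ⟨ϑ, hϑ0, hϑ1, hϑT, hϑS⟩ := exists_theta hS0 hT0
  have hST : (-O.k1 j.f j.g * m + -O.k2 j.f j.g * m') - (max E1 0 + c0) ≤ |E0 - E1| + e := by
    have h2 : max E0 0 ≤ max E1 0 + |E0 - E1| := by
      apply max_le
      · have := le_abs_self (E0 - E1)
        have := le_max_left E1 0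
        linarith
      · have := abs_nonneg (E0 - E1)
        have := le_max_right E1 0
        linarith
    linarith
  have hSY : -O.k1 j.f j.g * m + -O.k2 j.f j.g * m' ≤ 6 * A * w ^ 2 + c0 + e := by
    have : max E0 0 ≤ 6 * A * w ^ 2 := max_le ((le_abs_self _).trans hEb) (by positivity)
    linarith
  have hΔ0 := abs_nonneg (E0 - E1)
  have hm1 := mult_boundG hA1 (hge _ a3) (hge _ b3) haa (by positivity) hm (by
      have : 0 ≤ -O.k2 j.f j.g * m' := by positivity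
      linarith : -O.k1 j.f j.g * m ≤ -O.k1 j.f j.g * m + -O.k2 j.f j.g * m') hϑ0 hϑ1 hϑS hST hΔ0
      he hSY
  have hm2 := mult_boundG hA1 (hge _ a4) (hge _ b4) hbb (by positivity) hm' (by
      have : 0 ≤ -O.k1 j.f j.g * m := by positivity
      linarith : -O.k2 j.f j.g * m' ≤ -O.k1 j.f j.g * m + -O.k2 j.f j.g * m') hϑ0 hϑ1 hϑS hST hΔ0
      he hSY
  obtain ⟨n1, hn1⟩ : ∃ n1, n1 = ϑ * m * (-O.k1 j.f j.g / -O.k1 f' h') := ⟨_, rfl⟩
  obtain ⟨n2, hn2⟩ : ∃ n2, n2 = ϑ * m' * (-O.k2 j.f j.g / -O.k2 f' h') := ⟨_, rfl⟩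
  rw [← hn1] at hm1
  rw [← hn2] at hm2
  -- traces
  have hFf : |F f' - F j.f| ≤ A * (K0 * ε) := by
    rw [abs_sub_comm]
    exact (hA.F _ _ hf hfu hf' hfu').trans (mul_le_mul_of_nonneg_left hdf hA0)
  have hFh : |F h' - F j.g| ≤ A * (K0 * ε) := by
    rw [abs_sub_comm]
    exact (hA.F _ _ hh hhu hh' hhu').trans (mul_le_mul_of_nonneg_left hdh hA0)
  obtain ⟨α, hα⟩ : ∃ α, α = F f' - F j.f - (m - n1) - r := ⟨_, rfl⟩
  obtain ⟨α', hα'⟩ : ∃ α', α' = F h' - F j.g - (m' - n2) - r' := ⟨_, rfl⟩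
  have hαt : |α| ≤ |F f' - F j.f| + |m - n1| + |r| := by
    rw [hα]; exact (abs_sub _ _).trans (add_le_add_left (abs_sub _ _) _)
  have hαt' : |α'| ≤ |F h' - F j.g| + |m' - n2| + |r'| := by
    rw [hα']; exact (abs_sub _ _).trans (add_le_add_left (abs_sub _ _) _)
  have hr0 := abs_nonneg r
  have hr0' := abs_nonneg r'
  have ha1 : |α| ≤ CE A K0 c0 * (ε * w ^ 2 + e + |r|) :=
    alphaE hA1 hK0.le hc0 hε hε11 hw1 he hr0 hE1 hm1 hFf hαt
  have ha2 : |α'| ≤ CE A K0 c0 * (ε * w ^ 2 + e + |r'|) :=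
    alphaE hA1 hK0.le hc0 hε hε11 hw1 he hr0' hE1 hm2 hFh hαt'
  have hsum : (|α| + |α'|) * ‖one‖ ≤ 2 * CE A K0 c0 * ‖one‖ * (ε * w ^ 2 + e + |r| + |r'|) := by
    have h3 : CE A K0 c0 * (ε * w ^ 2 + e + |r|) ≤ CE A K0 c0 * (ε * w ^ 2 + e + |r| + |r'|) :=
      mul_le_mul_of_nonneg_left (by linarith) hCE
    have h4 : CE A K0 c0 * (ε * w ^ 2 + e + |r'|) ≤ CE A K0 c0 * (ε * w ^ 2 + e + |r| + |r'|) :=
      mul_le_mul_of_nonneg_left (by linarith) hCE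
    calc (|α| + |α'|) * ‖one‖ ≤ (2 * CE A K0 c0 * (ε * w ^ 2 + e + |r| + |r'|)) * ‖one‖ :=
          mul_le_mul_of_nonneg_right (by linarith) hn0
      _ = _ := by ring
  have hAK : 0 ≤ A * K0 := by positivity
  have hCn : 0 ≤ CE A K0 c0 * ‖one‖ := by positivity
  have hKa : 2 + 8 * A * K0 ≤ K := by rw [hK]; linarith
  have hKb : 2 * CE A K0 c0 * ‖one‖ ≤ K := by rw [hK]; linarith
  have hKc : 10 + 2 * CE A K0 c0 * ‖one‖ ≤ K := by rw [hK]; linarith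
  have hKd : K0 ≤ K := by rw [hK]; linarith
  refine ⟨⟨f', h', p', q', j.P + α • one, j.Q + α' • one⟩, n1, n2, hf', hfu', hh', hhu', hk0, ?_,
    ?_, ?_, ?_, ?_, ?_, ⟨α, α', rfl, rfl⟩, ⟨?_, ?_, ?_⟩, ?_, ?_, ?_⟩
  · show O.k1 f' h' • p' + O.k2 f' h' • q' = 0
    unfold Ob.k1 Ob.k2
    rw [← hs, hp', hq']
    module
  · show tr (j.P + α • one) = F f' + n1
    rw [map_add, map_smul, h1, htP, hα, smul_eq_mul]
    ring
  · show tr (j.Q + α' • one) = F h' + n2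
    rw [map_add, map_smul, h1, htQ, hα', smul_eq_mul]
    ring
  · rw [hn1]; positivity
  · rw [hn2]; positivity
  · show -O.k1 f' h' * n1 + -O.k2 f' h' * n2 ≤ max (O.E F f' h' (‖p' - q'‖ ^ 2)) 0 + c0
    rw [hpq', ← hE1']
    have e1 : -O.k1 f' h' * n1 + -O.k2 f' h' * n2 =
        ϑ * (-O.k1 j.f j.g * m + -O.k2 j.f j.g * m') := by
      rw [hn1, hn2]
      exact fracE pa'.ne' pb'.ne'
    rw [e1]
    exact hϑT
  · show p' - q' = j.p - j.q
    rw [hpq', hu]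
  · exact hdf.trans (mul_le_mul_of_nonneg_right hKd hε)
  · exact hdh.trans (mul_le_mul_of_nonneg_right hKd hε)
  · show ‖j.p - p'‖ + ‖j.q - q'‖ ≤ _
    rw [hpd, hqd]
    have h5 : (2 + 8 * A * K0) * (‖LvE O j‖ + ε * w) ≤ K * (‖LvE O j‖ + ε * w) :=
      mul_le_mul_of_nonneg_right hKa (by positivity)
    have h6 : 0 ≤ 8 * A * K0 * ‖LvE O j‖ := by positivity
    have h7 : 0 ≤ 2 * (ε * w) := by positivity
    have h8 : (2 + 8 * A * K0) * (‖LvE O j‖ + ε * w) = 2 * ‖LvE O j‖ + 8 * A * K0 * (ε * w) +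
      8 * A * K0 * ‖LvE O j‖ + 2 * (ε * w) := by ring
    linarith
  · show ‖j.P - (j.P + α • one)‖ + ‖j.Q - (j.Q + α' • one)‖ ≤ _
    rw [sub_add_cancel_left, sub_add_cancel_left, norm_neg, norm_neg, norm_smul, norm_smul,
      Real.norm_eq_abs, Real.norm_eq_abs, ← add_mul]
    rw [hww] at hsum
    have : 0 ≤ ε * j.W + e + |r| + |r'| := by
      have := j.W_nonneg
      positivity
    exact hsum.trans (mul_le_mul_of_nonneg_right hKb this)
  · show j.W + (1 + ‖p'‖ ^ 2 + ‖q'‖ ^ 2 + ‖j.P + α • one‖ + ‖j.Q + α' • one‖) ≤ _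
    have hP' : ‖j.P + α • one‖ ≤ ‖j.P‖ + |α| * ‖one‖ := by
      refine (norm_add_le _ _).trans ?_
      rw [norm_smul, Real.norm_eq_abs]
    have hQ' : ‖j.Q + α' • one‖ ≤ ‖j.Q‖ + |α'| * ‖one‖ := by
      refine (norm_add_le _ _).trans ?_
      rw [norm_smul, Real.norm_eq_abs]
    have hpsq : ‖p'‖ ^ 2 ≤ 4 * w ^ 2 := by
      calc ‖p'‖ ^ 2 ≤ (2 * w) ^ 2 := pow_le_pow_left₀ (norm_nonneg _) hp'n 2
        _ = _ := by ring
    have hqsq : ‖q'‖ ^ 2 ≤ 4 * w ^ 2 := by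
      calc ‖q'‖ ^ 2 ≤ (2 * w) ^ 2 := pow_le_pow_left₀ (norm_nonneg _) hq'n 2
        _ = _ := by ring
    have hWd : j.W = 1 + ‖j.p‖ ^ 2 + ‖j.q‖ ^ 2 + ‖j.P‖ + ‖j.Q‖ := rfl
    have h5 := sq_nonneg ‖j.p‖
    have h6 := sq_nonneg ‖j.q‖
    have h7 : 1 + ‖j.P‖ + ‖j.Q‖ ≤ w ^ 2 := by rw [hww, hWd]; linarith
    have hsum2 : (|α| + |α'|) * ‖one‖ ≤ 2 * CE A K0 c0 * ‖one‖ * (w ^ 2 + e + |r| + |r'|) := by
      refine hsum.trans ?_
      apply mul_le_mul_of_nonneg_left _ (by positivity)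
      have : ε * w ^ 2 ≤ w ^ 2 := mul_le_of_le_one_left (sq_nonneg w) hε11
      linarith
    rw [← hww]
    have h8 : (10 + 2 * CE A K0 c0 * ‖one‖) * (w ^ 2 + e + |r| + |r'|) ≤
        K * (w ^ 2 + e + |r| + |r'|) := mul_le_mul_of_nonneg_right hKc (by positivity)
    have h9 : 0 ≤ 10 * (e + |r| + |r'|) := by positivity
    linarith

end Crest.Agent.R249.LimE621
end

-- ▼ part R249/LimE2_621

/-!
# Row 249, part A2 v3: the limit passage for `Ob`, file 2: the pointwise inequality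
-/

set_option autoImplicit false
set_option linter.unusedVariables false
set_option linter.unusedSectionVars false

open Set Filter Topology
open scoped ContDiff

namespace Crest.Agent.R249.LimE621

open Crest.Agent.R249.Lim621 Crest.Agent.R249.LimG621 Crest.Agent.R249.PenH_806

variable {E H : Type*} [NormedAddCommGroup E] [InnerProductSpace ℝ E]
  [NormedAddCommGroup H] [NormedSpace ℝ H]

variable {g B : ℝ}

/-- The certificate inequality for exact jets. -/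
def CertE (tr : H →L[ℝ] ℝ) (Sy : Submodule ℝ H) (O : Ob g B) (F : ℝ → ℝ) (c0 : ℝ)
    (I Om R : Jet E H → ℝ) : Prop :=
  ∀ (j : Jet E H) (m m' : ℝ), g ≤ j.f → j.f ≤ B → g ≤ j.g → j.g ≤ B → j.P ∈ Sy → j.Q ∈ Sy →
    0 ≤ O.k j.f j.g → tr j.P = F j.f + m → tr j.Q = F j.g + m' →
    ((m = 0 ∧ m' = 0) ∨ (O.k j.f j.g = 0 ∧ LvE O j = 0 ∧ 0 ≤ m ∧ 0 ≤ m' ∧
      -O.k1 j.f j.g * m + -O.k2 j.f j.g * m' ≤ max (EkE O F j) 0 + c0)) →
    Om j ≤ I j + R j

theorem mod_le {K ε l d w V : ℝ} {j j' : Jet E H} (hK : 1 ≤ K) (hε : 0 ≤ ε)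
    (hl : 0 ≤ l) (hw0 : 0 ≤ w) (hwV : w ≤ V) (hV : j.W + j'.W = V) (hVn : 0 ≤ V)
    (hdp : ‖j.p - j'.p‖ + ‖j.q - j'.q‖ ≤ K * (l + ε * Real.sqrt w))
    (hd : ‖j.P - j'.P‖ + ‖j.Q - j'.Q‖ = d) (hd0 : 0 ≤ d) :
    Lim621.Mod (K * ε) j j' ≤ 2 * K * (ε * V ^ 2 + l * (V * Real.sqrt V) + d * V) := by
  have hK0 : 0 ≤ K := by linarith
  unfold Lim621.Mod
  rw [hV, hd]
  have hs := Real.sqrt_nonneg V
  have hsw := Real.sqrt_nonneg w
  have hss : Real.sqrt w ≤ Real.sqrt V := Real.sqrt_le_sqrt hwV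
  have hVV : Real.sqrt V * Real.sqrt V = V := Real.mul_self_sqrt hVn
  have h1 : (‖j.p - j'.p‖ + ‖j.q - j'.q‖) * (V * Real.sqrt V) ≤
      K * (l * (V * Real.sqrt V)) + K * (ε * V ^ 2) := by
    calc (‖j.p - j'.p‖ + ‖j.q - j'.q‖) * (V * Real.sqrt V) ≤
        (K * (l + ε * Real.sqrt V)) * (V * Real.sqrt V) := by
          apply mul_le_mul_of_nonneg_right _ (by positivity)
          refine hdp.trans (mul_le_mul_of_nonneg_left ?_ hK0)
          have := mul_le_mul_of_nonneg_left hss hε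
          linarith
      _ = K * (l * (V * Real.sqrt V)) + K * (ε * (V * (Real.sqrt V * Real.sqrt V))) := by ring
      _ = _ := by rw [hVV]; ring
  have h2 : 0 ≤ K * (l * (V * Real.sqrt V)) := by positivity
  have h3 : d * V ≤ 2 * K * (d * V) := by
    have : 0 ≤ d * V := by positivity
    nlinarith
  linarith


end Crest.Agent.R249.LimE621
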