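import Crest.Agent.R249.LimE2_621
import Crest.Agent.R249.Lim4_621
import Crest.Agent.R249.IntA_780
import Crest.Agent.R249.PenH_806
import Crest.Agent.R249.PenI_806

-- ▼ part R249/LimF2_621
section

/-!
# Row 249, part A2 v3: the limit passage for `Ob`, domain restricted version, file 2
-/

set_option autoImplicit false
set_option linter.unusedVariables false
set_option linter.unusedSectionVars false

open Set Filter Topology
open scoped ContDiff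

namespace Crest.Agent.R249.LimF621

open Crest.Agent.R249.Lim621 Crest.Agent.R249.LimG621 Crest.Agent.R249.LimE621
  Crest.Agent.R249.PenH_806

variable {E H : Type*} [NormedAddCommGroup E] [InnerProductSpace ℝ E]
  [NormedAddCommGroup H] [NormedSpace ℝ H]

variable {g B : ℝ}

/-- weight four Lipschitz condition for base points in `D`, pairs in relation `RelE`. -/
def LipD (D : Set (ℝ × ℝ)) (C : ℝ) (I : Jet E H → ℝ) : Prop :=
  ∀ (ε : ℝ) (j j' : Jet E H), 0 ≤ ε → ε ≤ 1 → (j.f, j.g) ∈ D → (j'.f, j'.g) ∈ D → RelE ε j j' →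
    |I j - I j'| ≤ C * Lim621.Mod ε j j'

/-- the domain `{k ≥ -ε₂}` -/
def DomO (O : Ob g B) (ε2 : ℝ) : Set (ℝ × ℝ) :=
  {p | g ≤ p.1 ∧ p.1 ≤ B ∧ g ≤ p.2 ∧ p.2 ≤ B ∧ -ε2 ≤ O.k p.1 p.2}

/-- **The pointwise inequality.** -/
theorem pointwiseF (tr : H →L[ℝ] ℝ) (Sy : Submodule ℝ H) (one : H) (h1 : tr one = 1)
    (hone : one ∈ Sy) (O : Ob g B) (hΓ : g < O.Γ 0) {F : ℝ → ℝ} {A c0 CI CO CR : ℝ}
    (hA : Bds O F A) (hc0 : 0 ≤ c0) {ε2 : ℝ} (hε2 : 0 < ε2)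
    (I Om R : Jet E H → ℝ) (hI : LipD (DomO O ε2) CI I) (hO : LipD (DomO O ε2) CO Om)
    (hR : LipD (DomO O ε2) CR R) (hCI : 0 ≤ CI) (hCO : 0 ≤ CO) (hCR : 0 ≤ CR)
    (hC : CertE tr Sy O F c0 I Om R) :
    ∃ K ε1 : ℝ, 0 < K ∧ 0 < ε1 ∧ ∀ (θ : ℝ), 0 < θ → θ ≤ 1 →
      ∀ (j : Jet E H) (m m' r r' e ε l : ℝ), g ≤ j.f → j.f ≤ B → g ≤ j.g → j.g ≤ B →
      j.P ∈ Sy → j.Q ∈ Sy → 0 ≤ ε → ε ≤ ε1 → ε ≤ θ → -ε ≤ O.k j.f j.g →
      tr j.P = F j.f + m + r → tr j.Q = F j.g + m' + r' →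
      0 ≤ m → 0 ≤ m' → 0 ≤ e → 0 ≤ l →
      (ε < O.k j.f j.g → m = 0 ∧ m' = 0) → (O.k j.f j.g ≤ ε → ‖LvE O j‖ ≤ l) →
      (O.k j.f j.g ≤ ε → -O.k1 j.f j.g * m + -O.k2 j.f j.g * m' ≤
        max (EkE O F j) 0 + c0 + e) →
      Om j ≤ I j + R j + K * Er θ (j.W + e + |r| + |r'|) l e r r' := by
  obtain ⟨ε0, K, hε0, hK1, hK⟩ := zoneE (E := E) tr one h1 O hΓ hA hc0
  obtain ⟨K', hK'⟩ : ∃ K', K' = K + 2 + ‖one‖ := ⟨_, rfl⟩
  have hn0 := norm_nonneg one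
  have hK'1 : 1 ≤ K' := by rw [hK']; linarith
  have hKK' : K ≤ K' := by rw [hK']; linarith
  have hK0 : 0 < K := by linarith
  have hK'0 : 0 < K' := by linarith
  refine ⟨16 * K' ^ 3 * (CI + CO + CR) + 1, min (min ε0 ε2) K'⁻¹, by positivity,
    lt_min (lt_min hε0 hε2) (by positivity), ?_⟩
  intro θ hθ hθ1 j m m' r r' e ε l hf hfu hh hhu hPS hQS hε hεε hεθ hk htP htQ hm hm' he hl hoff
    hL hS
  have hεε0 : ε ≤ ε0 := hεε.trans ((min_le_left _ _).trans (min_le_left _ _))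
  have hεε2 : ε ≤ ε2 := hεε.trans ((min_le_left _ _).trans (min_le_right _ _))
  have hjD : (j.f, j.g) ∈ DomO O ε2 := ⟨hf, hfu, hh, hhu, by show -ε2 ≤ O.k j.f j.g; linarith⟩
  have hεK : K' * ε ≤ 1 := by
    have : ε ≤ K'⁻¹ := hεε.trans (min_le_right _ _)
    calc K' * ε ≤ K' * K'⁻¹ := mul_le_mul_of_nonneg_left this hK'0.le
      _ = 1 := mul_inv_cancel₀ hK'0.ne'
  have hW0 := j.W_nonneg
  have hW1 := j.one_le_W
  obtain ⟨Z, hZ⟩ : ∃ Z, Z = j.W + e + |r| + |r'| := ⟨_, rfl⟩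
  have har := abs_nonneg r
  have har' := abs_nonneg r'
  have hZ0 : 0 ≤ Z := by rw [hZ]; positivity
  have hWZ : j.W ≤ Z := by rw [hZ]; linarith
  rw [← hZ]
  have hEr0 : 0 ≤ Er θ Z l e r r' := by unfold Er; positivity
  have hlw0 : 0 ≤ l * Real.sqrt j.W := by positivity
  -- the common conclusion
  have concl : ∀ j' : Jet E H, (j'.f, j'.g) ∈ DomO O ε2 → RelE (K' * ε) j j' →
      ‖j.p - j'.p‖ + ‖j.q - j'.q‖ ≤ K' * (l + ε * Real.sqrt j.W) →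
      ‖j.P - j'.P‖ + ‖j.Q - j'.Q‖ ≤ K' * (ε * j.W + e + |r| + |r'|) →
      j.W + j'.W ≤ K' * Z → Om j' ≤ I j' + R j' →
      Om j ≤ I j + R j + (16 * K' ^ 3 * (CI + CO + CR) + 1) * Er θ Z l e r r' := by
    intro j' hj'D hrel hdp hdP hWW hcert
    have hV0 : 0 ≤ j.W + j'.W := add_nonneg hW0 j'.W_nonneg
    have hd' : ‖j.P - j'.P‖ + ‖j.Q - j'.Q‖ ≤
        K' * (ε * j.W + l * Real.sqrt j.W + e + |r| + |r'|) :=
      hdP.trans (mul_le_mul_of_nonneg_left (by linarith) hK'0.le)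
    have h3 := three_terms hK'1 hZ0 hθ hθ1 hε hεθ hl (by positivity) he hW0
      hWZ hV0 hWW hd'
    have h4 := mod_le (j := j) (j' := j') hK'1 hε hl hW0
      (by have := j'.W_nonneg; linarith : j.W ≤ j.W + j'.W) rfl hV0 hdp rfl (by positivity)
    have hX : Lim621.Mod (K' * ε) j j' ≤ 16 * K' ^ 3 * Er θ Z l e r r' := by
      refine h4.trans ?_
      calc 2 * K' * (ε * (j.W + j'.W) ^ 2 + l * ((j.W + j'.W) * Real.sqrt (j.W + j'.W)) +
            (‖j.P - j'.P‖ + ‖j.Q - j'.Q‖) * (j.W + j'.W)) ≤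
          2 * K' * (8 * K' ^ 2 * Er θ Z l e r r') := mul_le_mul_of_nonneg_left h3 (by positivity)
        _ = _ := by ring
    have hε' : 0 ≤ K' * ε := by positivity
    have eI := (hI _ j j' hε' hεK hjD hj'D hrel).trans
      (mul_le_mul_of_nonneg_left hX hCI)
    have eO := (hO _ j j' hε' hεK hjD hj'D hrel).trans
      (mul_le_mul_of_nonneg_left hX hCO)
    have eR := (hR _ j j' hε' hεK hjD hj'D hrel).trans
      (mul_le_mul_of_nonneg_left hX hCR)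
    have eI' := (abs_le.mp eI).1
    have eO' := (abs_le.mp eO).2
    have eR' := (abs_le.mp eR).1
    linarith
  rcases le_or_gt (O.k j.f j.g) ε with hz | hz
  · -- contact zone
    obtain ⟨j', m1, m1', a1, a2, a3, a4, a7, a8, a9, a10, a11, a12, a13, ⟨α, α', a14, a15⟩,
      ⟨a16, a16', a16''⟩, a17, a18, a19⟩ := hK j m m' r r' e ε hf hfu hh hhu hε hεε0
        (abs_le.mpr ⟨hk, hz⟩) htP htQ hm hm' he (hS hz)
    have hc := hC j' m1 m1' a1 a2 a3 a4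
      (by rw [a14]; exact Sy.add_mem hPS (Sy.smul_mem _ hone))
      (by rw [a15]; exact Sy.add_mem hQS (Sy.smul_mem _ hone)) a7.ge a9 a10
      (Or.inr ⟨a7, a8, a11, a12, a13⟩)
    have hKε : K * ε ≤ K' * ε := mul_le_mul_of_nonneg_right hKK' hε
    refine concl j' ⟨a1, a2, a3, a4, by show -ε2 ≤ O.k j'.f j'.g; rw [a7]; linarith⟩
      ⟨a16, a16'.trans hKε, a16''.trans hKε⟩ ?_ ?_ ?_ hc
    · refine a17.trans ?_
      have hLl := hL hz
      have h5 : 0 ≤ ε * Real.sqrt j.W := by positivity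
      exact mul_le_mul hKK' (by linarith) (by positivity) hK'0.le
    · refine a18.trans (mul_le_mul_of_nonneg_right hKK' (by positivity))
    · refine a19.trans ?_
      rw [hZ]
      exact mul_le_mul_of_nonneg_right hKK' (by positivity)
  · -- off the contact zone
    obtain ⟨hm0, hm0'⟩ := hoff hz
    have hc := hC ⟨j.f, j.g, j.p, j.q, j.P + (-r) • one, j.Q + (-r') • one⟩ 0 0 hf hfu hh hhu
      (Sy.add_mem hPS (Sy.smul_mem _ hone)) (Sy.add_mem hQS (Sy.smul_mem _ hone))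
      (hε.trans hz.le)
      (by simp only [map_add, map_smul, h1, htP, hm0, smul_eq_mul]; ring)
      (by simp only [map_add, map_smul, h1, htQ, hm0', smul_eq_mul]; ring)
      (Or.inl ⟨rfl, rfl⟩)
    have hPn : ‖j.P - (j.P + (-r) • one)‖ = |r| * ‖one‖ := by
      rw [sub_add_cancel_left, norm_neg, norm_smul, Real.norm_eq_abs, abs_neg]
    have hQn : ‖j.Q - (j.Q + (-r') • one)‖ = |r'| * ‖one‖ := by
      rw [sub_add_cancel_left, norm_neg, norm_smul, Real.norm_eq_abs, abs_neg]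
    refine concl ⟨j.f, j.g, j.p, j.q, j.P + (-r) • one, j.Q + (-r') • one⟩ hjD
      ⟨rfl, ?_, ?_⟩ ?_ ?_ ?_ hc
    · show |j.f - j.f| ≤ K' * ε
      rw [sub_self, abs_zero]; positivity
    · show |j.g - j.g| ≤ K' * ε
      rw [sub_self, abs_zero]; positivity
    · show ‖j.p - j.p‖ + ‖j.q - j.q‖ ≤ _
      simp only [sub_self, norm_zero, add_zero]
      positivity
    · show ‖j.P - (j.P + (-r) • one)‖ + ‖j.Q - (j.Q + (-r') • one)‖ ≤ _
      rw [hPn, hQn, ← add_mul]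
      have hnK : ‖one‖ ≤ K' := by rw [hK']; linarith
      have h5 : 0 ≤ ε * j.W := by positivity
      calc (|r| + |r'|) * ‖one‖ ≤ (|r| + |r'|) * K' := mul_le_mul_of_nonneg_left hnK (by positivity)
        _ = K' * (|r| + |r'|) := by ring
        _ ≤ _ := mul_le_mul_of_nonneg_left (by linarith) (by linarith)
    · show j.W + (1 + ‖j.p‖ ^ 2 + ‖j.q‖ ^ 2 + ‖j.P + (-r) • one‖ + ‖j.Q + (-r') • one‖) ≤ K' * Z
      have hP' : ‖j.P + (-r) • one‖ ≤ ‖j.P‖ + |r| * ‖one‖ := by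
        refine (norm_add_le _ _).trans ?_
        rw [norm_smul, Real.norm_eq_abs, abs_neg]
      have hQ' : ‖j.Q + (-r') • one‖ ≤ ‖j.Q‖ + |r'| * ‖one‖ := by
        refine (norm_add_le _ _).trans ?_
        rw [norm_smul, Real.norm_eq_abs, abs_neg]
      have hWd : j.W = 1 + ‖j.p‖ ^ 2 + ‖j.q‖ ^ 2 + ‖j.P‖ + ‖j.Q‖ := rfl
      have h7 : (|r| + |r'|) * ‖one‖ ≤ Z * ‖one‖ := by
        apply mul_le_mul_of_nonneg_right _ hn0
        rw [hZ]; linarith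
      have h8 : K' * Z = K * Z + 2 * Z + Z * ‖one‖ := by rw [hK']; ring
      have h9 : 0 ≤ K * Z := by positivity
      rw [h8]
      linarith

end Crest.Agent.R249.LimF621
end

-- ▼ part R249/LimE3_621
section

/-!
# Row 249, part A2 v3: the limit passage for `Ob`, file 3: integration over `C : Calc X μ`
-/

set_option autoImplicit false
set_option linter.unusedVariables false
set_option linter.unusedSectionVars false

open MeasureTheory Set Filter Topology Matrix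
open scoped ContDiff

noncomputable section

namespace Crest.Agent.R249.LimE621

open Crest.Agent.R249.Lim621 Crest.Agent.R249.LimG621 Crest.Agent.R249.PenH_806
open Calc_806 Calc_806.Calc

attribute [local instance] Matrix.frobeniusNormedAddCommGroup Matrix.frobeniusNormedSpace

variable {X : Type*} [TopologicalSpace X] [CompactSpace X] [MeasurableSpace X]
  [OpensMeasurableSpace X] {μ : Measure X} [IsFiniteMeasure μ]

variable {g B : ℝ}

/-- `k (φ, ψ)` -/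
def kO (O : Ob g B) (φ ψ : X → ℝ) (x : X) : ℝ := O.k (φ x) (ψ x)

theorem sm_kO {C : Calc X μ} (O : Ob g B) {φ ψ : X → ℝ} (hφ : C.Sm φ) (hψ : C.Sm ψ) :
    C.Sm (kO O φ ψ) := by
  have h1 : C.Sm (fun x => O.Γ (φ x - ψ x)) :=
    sm_comp1 isOpen_univ O.smooth.contDiffOn (sm_sub hφ hψ) (fun _ => mem_univ _)
  have h2 : C.Sm (fun x => (1 / 2 : ℝ) * (φ x + ψ x)) := sm_smul _ (sm_add hφ hψ)
  have h3 := sm_sub h1 h2
  have e : kO O φ ψ = fun x => O.Γ (φ x - ψ x) - (1 / 2 : ℝ) * (φ x + ψ x) := by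
    funext x; unfold kO Ob.k; ring
  rw [e]
  exact h3

theorem D_kO {C : Calc X μ} (O : Ob g B) {φ ψ : X → ℝ} (hφ : C.Sm φ) (hψ : C.Sm ψ) (x : X) :
    C.D (kO O φ ψ) x = O.k1 (φ x) (ψ x) • C.D φ x + O.k2 (φ x) (ψ x) • C.D ψ x := by
  have h1 : C.Sm (fun x => O.Γ (φ x - ψ x)) :=
    sm_comp1 isOpen_univ O.smooth.contDiffOn (sm_sub hφ hψ) (fun _ => mem_univ _)
  have h2 : C.Sm (fun x => (1 / 2 : ℝ) * (φ x + ψ x)) := sm_smul _ (sm_add hφ hψ)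
  have e : kO O φ ψ = fun x => O.Γ (φ x - ψ x) - (1 / 2 : ℝ) * (φ x + ψ x) := by
    funext x; unfold kO Ob.k; ring
  have d1 := D_comp1 (C := C) isOpen_univ O.smooth.contDiffOn (sm_sub hφ hψ)
    (fun _ => mem_univ _) x
  have d2 := D_sub hφ hψ x
  have d3 := D_smul (C := C) (1 / 2 : ℝ) (sm_add hφ hψ) x
  have d4 := D_add hφ hψ x
  rw [e, D_sub h1 h2 x, d1, d2, d3, d4]
  unfold Ob.k1 Ob.k2
  module

theorem norm_LvE_jt {C : Calc X μ} (O : Ob g B) {φ ψ : X → ℝ} (hφ : C.Sm φ) (hψ : C.Sm ψ)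
    (θ : X → ℝ) (x : X) : ‖LvE O (jt C φ ψ θ x)‖ ^ 2 = C.G (kO O φ ψ) (kO O φ ψ) x := by
  have h1 : LvE O (jt C φ ψ θ x) = WithLp.toLp 2 (C.D (kO O φ ψ) x) := by
    rw [D_kO O hφ hψ]
    rfl
  rw [h1]
  exact norm_sq_toLp _

/-- **what the penalised pair has to satisfy** -/
structure BdE (C : Calc X μ) (O : Ob g B) (c0 A δ : ℝ) (F : ℝ → ℝ)
    (φ ψ m m' r r' er : X → ℝ) (ε : ℝ) : Prop where
  sφ : C.Sm φ
  sψ : C.Sm ψ
  φmem : ∀ x, φ x ∈ Icc g B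
  ψmem : ∀ x, ψ x ∈ Icc g B
  ε0 : 0 ≤ ε
  εδ : ε ≤ δ
  kap : ∀ x, -ε ≤ kO O φ ψ x
  eqφ : ∀ x, C.L φ x = F (φ x) + m x + r x
  eqψ : ∀ x, C.L ψ x = F (ψ x) + m' x + r' x
  m0 : ∀ x, 0 ≤ m x
  m0' : ∀ x, 0 ≤ m' x
  off : ∀ x, ε < kO O φ ψ x → m x = 0 ∧ m' x = 0
  er0 : ∀ x, 0 ≤ er x
  simplex : ∀ x, kO O φ ψ x ≤ ε → -O.k1 (φ x) (ψ x) * m x + -O.k2 (φ x) (ψ x) * m' x ≤
    max (O.E F (φ x) (ψ x) (C.G (fun y => φ y - ψ y) (fun y => φ y - ψ y) x)) 0 + c0 + er x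
  mr : AEStronglyMeasurable r μ
  mr' : AEStronglyMeasurable r' μ
  mer : AEStronglyMeasurable er μ
  ir : Integrable (fun x => r x ^ 2) μ
  ir' : Integrable (fun x => r' x ^ 2) μ
  ier : Integrable (fun x => er x ^ 2) μ
  br : ∫ x, r x ^ 2 ∂μ ≤ δ
  br' : ∫ x, r' x ^ 2 ∂μ ≤ δ
  ber : ∫ x, er x ^ 2 ∂μ ≤ δ
  bκ : ∫ x in {x | kO O φ ψ x ≤ ε}, (C.G (kO O φ ψ) (kO O φ ψ) x) ^ 2 ∂μ ≤ δ
  bA : ∫ x, (1 + C.G φ φ x + C.G ψ ψ x + |C.L φ x| + |C.L ψ x|) ^ 2 ∂μ ≤ A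

theorem EkE_jt (C : Calc X μ) (O : Ob g B) (F : ℝ → ℝ) {φ ψ : X → ℝ} (hφ : C.Sm φ)
    (hψ : C.Sm ψ) (θ : X → ℝ) (x : X) : EkE O F (jt C φ ψ θ x) =
      O.E F (φ x) (ψ x) (C.G (fun y => φ y - ψ y) (fun y => φ y - ψ y) x) := by
  unfold EkE
  have h : ‖(jt C φ ψ θ x).p - (jt C φ ψ θ x).q‖ ^ 2 =
      C.G (fun y => φ y - ψ y) (fun y => φ y - ψ y) x := by
    have h1 : (jt C φ ψ θ x).p - (jt C φ ψ θ x).q =
        WithLp.toLp 2 (C.D (fun y => φ y - ψ y) x) := by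
      rw [D_sub hφ hψ]; rfl
    rw [h1]
    exact norm_sq_toLp _
  rw [h]
  rfl


end Crest.Agent.R249.LimE621
end
end

-- ▼ part R249/LimF3_621
section

/-!
# Row 249, part A2 v3: the limit passage for `Ob`, domain restricted version, file 3
-/

set_option autoImplicit false
set_option linter.unusedVariables false
set_option linter.unusedSectionVars false

open MeasureTheory Set Filter Topology Matrix
open scoped ContDiff

noncomputable section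

namespace Crest.Agent.R249.LimF621

open Crest.Agent.R249.Lim621 Crest.Agent.R249.LimG621 Crest.Agent.R249.LimE621
  Crest.Agent.R249.PenH_806
open Calc_806 Calc_806.Calc

attribute [local instance] Matrix.frobeniusNormedAddCommGroup Matrix.frobeniusNormedSpace

variable {X : Type*} [TopologicalSpace X] [CompactSpace X] [MeasurableSpace X]
  [OpensMeasurableSpace X] {μ : Measure X} [IsFiniteMeasure μ]

variable {g B : ℝ}

/-- **The limit passage.** -/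
theorem limit_passageF (C : Calc X μ) (O : Ob g B) (hΓ : g < O.Γ 0)
    {AF c0 CI CO CR Cθ A b : ℝ} {F : ℝ → ℝ} {I Om R : Jet E4 H4 → ℝ}
    (hc0 : 0 ≤ c0) (hF : Bds O F AF) {ε2 : ℝ} (hε2 : 0 < ε2)
    (hI : LipD (DomO O ε2) CI I) (hO : LipD (DomO O ε2) CO Om) (hR : LipD (DomO O ε2) CR R) (hCI : 0 ≤ CI)
    (hCO : 0 ≤ CO) (hCR : 0 ≤ CR)
    (hC : CertE trH SyH O F c0 I Om R) {δ' : ℝ} (hδ' : 0 < δ') :
    ∃ δ : ℝ, 0 < δ ∧ ∀ (φ ψ m m' r r' er θ V Rm : X → ℝ) (ε : ℝ),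
      BdE C O c0 A δ F φ ψ m m' r r' er ε → DivCert C b Cθ I φ ψ θ V →
      Integrable (fun x => Om (jt C φ ψ θ x)) μ → Integrable Rm μ →
      (∀ x, R (jt C φ ψ θ x) ≤ Rm x) →
      ∫ x, Om (jt C φ ψ θ x) ∂μ ≤ ∫ x, Rm x ∂μ + δ' := by
  obtain ⟨K, ε1, hK0, hε1, hK⟩ := pointwiseF (E := E4) trH SyH oneH trH_one oneH_mem O hΓ hF hc0
    hε2 I Om R hI hO hR hCI hCO hCR hC
  -- choice of the parameters
  obtain ⟨A', hA'⟩ : ∃ A', A' = 5 * (|A| + Cθ ^ 2 * |A| + 3) := ⟨_, rfl⟩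
  have hA'0 : 0 < A' := by rw [hA']; positivity
  obtain ⟨t, ht0, ht1, htA⟩ : ∃ t : ℝ, 0 < t ∧ t ≤ 1 ∧ K * (t * A') ≤ δ' / 2 := by
    refine ⟨min 1 (δ' / (2 * K * A')), lt_min one_pos (by positivity), min_le_left _ _, ?_⟩
    calc K * (min 1 (δ' / (2 * K * A')) * A') ≤ K * ((δ' / (2 * K * A')) * A') := by
          apply mul_le_mul_of_nonneg_left _ hK0.le
          exact mul_le_mul_of_nonneg_right (min_le_right _ _) hA'0.le
      _ = δ' / 2 := by field_simp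
  obtain ⟨δ, hδ0, hδ1, hδt, hδ2, hδε⟩ : ∃ δ : ℝ, 0 < δ ∧ δ ≤ 1 ∧ δ ≤ t ∧
      K * ((t ^ 3)⁻¹ * (4 * δ)) ≤ δ' / 2 ∧ δ ≤ ε1 := by
    refine ⟨min (min (min 1 t) (δ' * t ^ 3 / (8 * K))) ε1,
      lt_min (lt_min (lt_min one_pos ht0) (by positivity)) hε1,
      (min_le_left _ _).trans ((min_le_left _ _).trans (min_le_left _ _)),
      (min_le_left _ _).trans ((min_le_left _ _).trans (min_le_right _ _)), ?_, min_le_right _ _⟩
    calc K * ((t ^ 3)⁻¹ * (4 * min (min (min 1 t) (δ' * t ^ 3 / (8 * K))) ε1)) ≤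
        K * ((t ^ 3)⁻¹ * (4 * (δ' * t ^ 3 / (8 * K)))) := by
          apply mul_le_mul_of_nonneg_left _ hK0.le
          apply mul_le_mul_of_nonneg_left _ (by positivity)
          exact mul_le_mul_of_nonneg_left ((min_le_left _ _).trans (min_le_right _ _))
            (by norm_num)
      _ = δ' / 2 := by field_simp; ring
  refine ⟨δ, hδ0, ?_⟩
  intro φ ψ m m' r r' er θ V Rm ε Bd DC iOm iR hRm
  have sκ := sm_kO O Bd.sφ Bd.sψ
  have hGκ := C.sm_cont (C.sm_G sκ sκ)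
  have hzone : MeasurableSet {x | kO O φ ψ x ≤ ε} :=
    (isClosed_le (C.sm_cont sκ) continuous_const).measurableSet
  -- the functions
  have hRb0 : ∀ x, 0 ≤ C.Rb θ x := fun x => Rb_nonneg DC.sθ x
  let h : X → ℝ := fun x => 1 + C.G φ φ x + C.G ψ ψ x + |C.L φ x| + |C.L ψ x|
  let w : X → ℝ := fun x => h x + Real.sqrt (C.Rb θ x)
  let l : X → ℝ := indicator {x | kO O φ ψ x ≤ ε}
    (fun x => Real.sqrt (C.G (kO O φ ψ) (kO O φ ψ) x))
  have cg : Continuous h := by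
    have h1 := C.sm_cont (C.sm_G Bd.sφ Bd.sφ)
    have h2 := C.sm_cont (C.sm_G Bd.sψ Bd.sψ)
    have h3 := C.sm_cont (C.sm_L Bd.sφ)
    have h4 := C.sm_cont (C.sm_L Bd.sψ)
    exact (((continuous_const.add h1).add h2).add h3.abs).add h4.abs
  have cRb : Continuous (C.Rb θ) := C.sm_cont (sm_Rb DC.sθ)
  have cw : Continuous w := cg.add cRb.sqrt
  have hl0 : ∀ x, 0 ≤ l x := fun x => indicator_nonneg (fun _ _ => Real.sqrt_nonneg _) x
  -- pointwise inequality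
  have hpt : ∀ x, Om (jt C φ ψ θ x) ≤ V x + Rm x +
      K * Er t (w x + er x + |r x| + |r' x|) (l x) (er x) (r x) (r' x) := by
    intro x
    have hnL : ‖LvE O (jt C φ ψ θ x)‖ = Real.sqrt (C.G (kO O φ ψ) (kO O φ ψ) x) := by
      rw [← norm_LvE_jt O Bd.sφ Bd.sψ θ x, Real.sqrt_sq (norm_nonneg _)]
    have h1 := hK t ht0 ht1 (jt C φ ψ θ x) (m x) (m' x) (r x) (r' x) (er x) ε (l x)
      (Bd.φmem x).1 (Bd.φmem x).2 (Bd.ψmem x).1 (Bd.ψmem x).2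
      (by
        rw [mem_SyH]
        ext i j
        exact C.hs_symm DC.sθ x j i)
      (by rw [mem_SyH]; exact Matrix.isSymm_zero)
      Bd.ε0 (Bd.εδ.trans hδε) (Bd.εδ.trans hδt) (Bd.kap x) (Bd.eqφ x) (Bd.eqψ x) (Bd.m0 x)
      (Bd.m0' x) (Bd.er0 x) (hl0 x) (Bd.off x)
      (by
        intro hz
        have : l x = Real.sqrt (C.G (kO O φ ψ) (kO O φ ψ) x) :=
          indicator_of_mem (show x ∈ {x | kO O φ ψ x ≤ ε} from hz) _
        rw [this, hnL])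
      (by
        intro hz
        rw [EkE_jt C O F Bd.sφ Bd.sψ]
        exact Bd.simplex x hz)
    have h2 := DC.le x
    have h3 := W_jt_le (φ := φ) (ψ := ψ) DC.sθ x
    have h4 : Er t ((jt C φ ψ θ x).W + er x + |r x| + |r' x|) (l x) (er x) (r x) (r' x) ≤
        Er t (w x + er x + |r x| + |r' x|) (l x) (er x) (r x) (r' x) := by
      unfold Er
      have hW0 := (jt C φ ψ θ x).W_nonneg
      have he0 := Bd.er0 x
      have hr0 := abs_nonneg (r x)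
      have hr0' := abs_nonneg (r' x)
      have h5 : (jt C φ ψ θ x).W + er x + |r x| + |r' x| ≤ w x + er x + |r x| + |r' x| := by
        show _ ≤ (1 + C.G φ φ x + C.G ψ ψ x + |C.L φ x| + |C.L ψ x|) + Real.sqrt (C.Rb θ x)
          + er x + |r x| + |r' x|
        linarith
      have h6 := pow_le_pow_left₀ (by linarith : 0 ≤ (jt C φ ψ θ x).W + er x + |r x| + |r' x|) h5 2
      have h7 := mul_le_mul_of_nonneg_left h6 ht0.le
      linarith
    have h5 := mul_le_mul_of_nonneg_left h4 hK0.le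
    have h6 := hRm x
    linarith
  -- integrability
  have mw : AEStronglyMeasurable w μ := cw.aestronglyMeasurable
  have ig : Integrable (fun x => h x ^ 2) μ := integrable_cont (cg.pow 2)
  have iRb : Integrable (C.Rb θ) μ := integrable_cont cRb
  have mZ : AEStronglyMeasurable (fun x => (w x + er x + |r x| + |r' x|) ^ 2) μ := by
    have h1 := ((mw.add Bd.mer).add Bd.mr.norm).add Bd.mr'.norm
    exact h1.pow 2
  have hZle : ∀ x, (w x + er x + |r x| + |r' x|) ^ 2 ≤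
      5 * (h x ^ 2 + C.Rb θ x + er x ^ 2 + r x ^ 2 + r' x ^ 2) := by
    intro x
    have h1 := sq_sum5 (h x) (Real.sqrt (C.Rb θ x)) (er x) (|r x|) (|r' x|)
    rw [Real.sq_sqrt (hRb0 x), sq_abs, sq_abs] at h1
    exact h1
  obtain ⟨i5', e5'⟩ := int_add5 ig iRb Bd.ier Bd.ir Bd.ir'
  have i5 := i5'.const_mul 5
  have iZ : Integrable (fun x => (w x + er x + |r x| + |r' x|) ^ 2) μ := by
    refine i5.mono' mZ (Eventually.of_forall fun x => ?_)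
    rw [Real.norm_of_nonneg (sq_nonneg _)]
    exact hZle x
  have hl4 : ∀ x, l x ^ 4 = indicator {x | kO O φ ψ x ≤ ε}
      (fun x => (C.G (kO O φ ψ) (kO O φ ψ) x) ^ 2) x := by
    intro x
    by_cases hx : kO O φ ψ x ≤ ε
    · have hx' : x ∈ {x | kO O φ ψ x ≤ ε} := hx
      have h1 : l x = Real.sqrt (C.G (kO O φ ψ) (kO O φ ψ) x) := indicator_of_mem hx' _
      have h2 : indicator {x | kO O φ ψ x ≤ ε} (fun x => (C.G (kO O φ ψ) (kO O φ ψ) x) ^ 2) x =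
        (C.G (kO O φ ψ) (kO O φ ψ) x) ^ 2 := indicator_of_mem hx' _
      rw [h1, h2]
      have h3 : ∀ y : ℝ, y ^ 4 = (y ^ 2) ^ 2 := fun y => by ring
      rw [h3, Real.sq_sqrt (G_self_nonneg _ x)]
    · have hx' : x ∉ {x | kO O φ ψ x ≤ ε} := hx
      have h1 : l x = 0 := indicator_of_notMem hx' _
      have h2 : indicator {x | kO O φ ψ x ≤ ε} (fun x => (C.G (kO O φ ψ) (kO O φ ψ) x) ^ 2) x =
        0 := indicator_of_notMem hx' _
      rw [h1, h2]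
      norm_num
  have iG : Integrable (fun x => (C.G (kO O φ ψ) (kO O φ ψ) x) ^ 2) μ :=
    integrable_cont (hGκ.pow 2)
  have il : Integrable (fun x => l x ^ 4) μ := by
    simp_rw [hl4]
    exact iG.indicator hzone
  have hl4int : ∫ x, l x ^ 4 ∂μ ≤ δ := by
    simp_rw [hl4]
    rw [integral_indicator hzone]
    exact Bd.bκ
  -- integral of `Z²`
  have hRbint : ∫ x, C.Rb θ x ∂μ ≤ Cθ ^ 2 * A := by
    refine (int_Rb_le DC.sθ).trans ?_
    have h1 : ∫ x, C.L θ x ^ 2 ∂μ ≤ ∫ x, Cθ ^ 2 * h x ^ 2 ∂μ := by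
      refine integral_mono (integrable_sm (sm_pow (C.sm_L DC.sθ) 2)) (ig.const_mul _) fun x => ?_
      show C.L θ x ^ 2 ≤ Cθ ^ 2 * h x ^ 2
      rw [← mul_pow, ← sq_abs (C.L θ x)]
      exact pow_le_pow_left₀ (abs_nonneg _) (DC.Lθ x) 2
    rw [integral_const_mul] at h1
    exact h1.trans (mul_le_mul_of_nonneg_left Bd.bA (sq_nonneg _))
  have hZint : ∫ x, (w x + er x + |r x| + |r' x|) ^ 2 ∂μ ≤ A' := by
    have h1 := integral_mono iZ i5 hZle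
    rw [integral_const_mul, e5'] at h1
    have h2 := Bd.bA
    have h3 := Bd.br
    have h4 := Bd.br'
    have h5 := Bd.ber
    have h6 : A ≤ |A| := le_abs_self A
    have h7 : Cθ ^ 2 * A ≤ Cθ ^ 2 * |A| := mul_le_mul_of_nonneg_left h6 (sq_nonneg _)
    have h8 : ∫ x, h x ^ 2 ∂μ ≤ A := Bd.bA
    rw [hA']
    linarith
  have hfin := int_er iOm DC.iV DC.hV iR iZ il Bd.ier Bd.ir Bd.ir' hpt
  have h1 : K * (t * ∫ x, (w x + er x + |r x| + |r' x|) ^ 2 ∂μ) ≤ δ' / 2 :=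
    (mul_le_mul_of_nonneg_left (mul_le_mul_of_nonneg_left hZint ht0.le) hK0.le).trans htA
  have h2 : K * ((t ^ 3)⁻¹ * (∫ x, l x ^ 4 ∂μ + ∫ x, er x ^ 2 ∂μ + ∫ x, r x ^ 2 ∂μ +
      ∫ x, r' x ^ 2 ∂μ)) ≤ δ' / 2 := by
    refine le_trans ?_ hδ2
    apply mul_le_mul_of_nonneg_left _ hK0.le
    apply mul_le_mul_of_nonneg_left _ (by positivity)
    have h3 := Bd.br
    have h4 := Bd.br'
    have h5 := Bd.ber
    linarith
  rw [mul_add] at hfin
  linarith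

end Crest.Agent.R249.LimF621
end
end

-- ▼ part R249/FamA_780
section

/-!
Row 249, part A2 v3 (helper780): families of functions on `X` indexed by a type `ι` with a
smallness predicate `good`, bounded uniformly in `L²`: calculus of such families, the bounds of
`∫ Rb`, `∫ |dv|⁴` and the truncated bounds.
-/

set_option autoImplicit false
set_option linter.unusedVariables false
set_option linter.unusedSectionVars false

open MeasureTheory Set Filter Topology Matrix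
open scoped ContDiff

noncomputable section

namespace Crest.Agent.R249.FamA_780

open Crest.Agent.R249.Calc_806 Crest.Agent.R249.Calc_806.Calc Crest.Agent.R249.IntA_780

variable {X : Type*} [TopologicalSpace X] [CompactSpace X] [MeasurableSpace X]
  [OpensMeasurableSpace X] {μ : Measure X} [IsFiniteMeasure μ] {C : Calc X μ}
variable {ι : Type*} {good : ι → Prop} {F F' : ι → X → ℝ}

/-- uniform bound of a number. -/
def UB (good : ι → Prop) (q : ι → ℝ) : Prop := ∃ A : ℝ, 0 ≤ A ∧ ∀ i, good i → q i ≤ A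

/-- uniform pointwise bound. -/
def PB (good : ι → Prop) (F : ι → X → ℝ) : Prop := ∃ A : ℝ, 0 ≤ A ∧ ∀ i, good i → ∀ x, F i x ≤ A

lemma UB.mono {q q' : ι → ℝ} (h : UB good q) (hle : ∀ i, good i → q' i ≤ q i) : UB good q' := by
  obtain ⟨A, hA, h1⟩ := h
  exact ⟨A, hA, fun i hi => (hle i hi).trans (h1 i hi)⟩

lemma UB.const (c : ℝ) : UB good (fun _ => c) := ⟨max c 0, le_max_right _ _, fun _ _ => le_max_left _ _⟩

lemma UB.add {q q' : ι → ℝ} (h : UB good q) (h' : UB good q') : UB good (fun i => q i + q' i) := by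
  obtain ⟨A, hA, h1⟩ := h
  obtain ⟨B, hB, h2⟩ := h'
  exact ⟨A + B, add_nonneg hA hB, fun i hi => add_le_add (h1 i hi) (h2 i hi)⟩

lemma UB.mul {q : ι → ℝ} (h : UB good q) {c : ℝ} (hc : 0 ≤ c) : UB good (fun i => c * q i) := by
  obtain ⟨A, hA, h1⟩ := h
  exact ⟨c * A, mul_nonneg hc hA, fun i hi => mul_le_mul_of_nonneg_left (h1 i hi) hc⟩

/-- a family of continuous functions, uniformly bounded in `L²`. -/
structure LB (μ : Measure X) (good : ι → Prop) (F : ι → X → ℝ) : Prop where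
  cont : ∀ i, Continuous (F i)
  ub : UB good (fun i => ∫ x, F i x ^ 2 ∂μ)

lemma LB.const (c : ℝ) : LB μ good (fun _ _ => c) := ⟨fun _ => continuous_const, UB.const _⟩

lemma LB.fix {u : X → ℝ} (hu : Continuous u) : LB μ good (fun _ => u) := ⟨fun _ => hu, UB.const _⟩

lemma LB.add (h : LB μ good F) (h' : LB μ good F') : LB μ good (fun i x => F i x + F' i x) where
  cont := fun i => (h.cont i).add (h'.cont i)
  ub := by
    refine ((h.ub.mul (c := 2) (by norm_num)).add (h'.ub.mul (c := 2) (by norm_num))).mono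
      fun i _ => ?_
    have i1 : Integrable (fun x => F i x ^ 2) μ := integrable_cont ((h.cont i).pow 2)
    have i2 : Integrable (fun x => F' i x ^ 2) μ := integrable_cont ((h'.cont i).pow 2)
    have i3 : Integrable (fun x => (F i x + F' i x) ^ 2) μ :=
      integrable_cont (((h.cont i).add (h'.cont i)).pow 2)
    rw [← integral_const_mul, ← integral_const_mul, ← integral_add (i1.const_mul _) (i2.const_mul _)]
    refine integral_mono i3 ((i1.const_mul _).add (i2.const_mul _)) fun x => ?_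
    simp only
    nlinarith [sq_nonneg (F i x - F' i x)]

lemma LB.mul (h : LB μ good F) (c : ℝ) : LB μ good (fun i x => c * F i x) where
  cont := fun i => continuous_const.mul (h.cont i)
  ub := by
    refine (h.ub.mul (c := c ^ 2) (by positivity)).mono fun i _ => ?_
    rw [← integral_const_mul]
    refine le_of_eq (integral_congr_ae (Eventually.of_forall fun x => ?_))
    simp only
    ring

lemma LB.abs (h : LB μ good F) : LB μ good (fun i x => |F i x|) where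
  cont := fun i => (h.cont i).abs
  ub := by
    refine h.ub.mono fun i _ => ?_
    simp only [sq_abs]
    exact le_rfl

lemma LB.mono (h : LB μ good F) (hc : ∀ i, Continuous (F' i))
    (hle : ∀ i, good i → ∀ x, |F' i x| ≤ F i x) : LB μ good F' where
  cont := hc
  ub := by
    refine h.ub.mono fun i hi => ?_
    refine integral_mono (integrable_cont ((hc i).pow 2)) (integrable_cont ((h.cont i).pow 2))
      fun x => ?_
    simp only
    rw [← sq_abs (F' i x)]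
    exact pow_le_pow_left₀ (abs_nonneg _) (hle i hi x) 2

lemma LB.of_pb (hc : ∀ i, Continuous (F i)) (h : PB good (fun i x => |F i x|)) :
    LB μ good F := by
  obtain ⟨A, hA, h1⟩ := h
  exact (LB.const A).mono hc fun i hi x => h1 i hi x

/-! ### the calculus -/

variable {v u : ι → X → ℝ}

lemma ub_Rb (hF : ∀ i, C.Sm (v i)) (h : LB μ good (fun i => C.L (v i))) :
    UB good (fun i => ∫ x, C.Rb (v i) x ∂μ) :=
  h.ub.mono fun i _ => int_Rb_le (hF i)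

lemma lb_G (hF : ∀ i, C.Sm (v i)) {s : ℝ} (hs : 0 < s) (hFs : ∀ i, good i → ∀ x, |v i x| ≤ s)
    (h : LB μ good (fun i => C.L (v i))) : LB μ good (fun i => C.G (v i) (v i)) where
  cont := fun i => C.sm_cont (C.sm_G (hF i) (hF i))
  ub := by
    refine ((ub_Rb hF h).mul (c := 16 * s ^ 2) (by positivity)).mono fun i hi => ?_
    exact int_G_sq_le (hF i) hs (hFs i hi)

lemma lb_L_sub (hu : ∀ i, C.Sm (u i)) (hv : ∀ i, C.Sm (v i)) (h1 : LB μ good (fun i => C.L (u i)))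
    (h2 : LB μ good (fun i => C.L (v i))) :
    LB μ good (fun i => C.L (fun y => u i y - v i y)) := by
  refine (h1.abs.add h2.abs).mono (fun i => C.sm_cont (C.sm_L (sm_sub (hu i) (hv i))))
    fun i _ x => ?_
  rw [L_sub (hu i) (hv i)]
  exact abs_sub _ _

/-- `|d(u-v)|² ≤ 2 |du|² + 2 |dv|²` -/
lemma G_sub_le {f g : X → ℝ} (hf : C.Sm f) (hg : C.Sm g) (x : X) :
    C.G (fun y => f y - g y) (fun y => f y - g y) x ≤ 2 * C.G f f x + 2 * C.G g g x := by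
  have h1 : C.G (fun y => f y - g y) (fun y => f y - g y) x =
      C.G f f x - 2 * C.G f g x + C.G g g x := by
    rw [G_sub_left hf hg, G_sub_right hf hg, G_sub_right hf hg, G_symm g f]
    ring
  have h2 := two_G_le (C := C) f g x one_pos
  have h3 := neg_abs_le (C.G f g x)
  rw [h1]
  simp only [one_mul, inv_one] at h2
  linarith

/-- `||du|² - |dv|²| ≤ (1/(2s)) |d(u-v)|²·... ` in the form needed: for `s > 0`,
`(|du|² - |dv|²)² ≤ s⁻¹ |d(u-v)|⁴ + 4 s (|du|² + |dv|²)²`. -/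
lemma G_diff_sq {f g : X → ℝ} (hf : C.Sm f) (hg : C.Sm g) (x : X) {s : ℝ} (hs : 0 < s) :
    (C.G f f x - C.G g g x) ^ 2 ≤
      s⁻¹ * C.G (fun y => f y - g y) (fun y => f y - g y) x ^ 2 +
        s * (C.G f f x + C.G g g x) ^ 2 := by
  have hp := sm_add hf hg
  have hm := sm_sub hf hg
  have h1 : C.G f f x - C.G g g x = C.G (fun y => f y - g y) (fun y => f y + g y) x := by
    rw [G_sub_left hf hg, G_add_right hf hg, G_add_right hf hg, G_symm g f]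
    ring
  have h2 := G_sq_le (C := C) (fun y => f y - g y) (fun y => f y + g y) x
  have h3 : C.G (fun y => f y + g y) (fun y => f y + g y) x ≤ 2 * (C.G f f x + C.G g g x) := by
    have e1 : C.G (fun y => f y + g y) (fun y => f y + g y) x =
        C.G f f x + 2 * C.G f g x + C.G g g x := by
      rw [G_add_left hf hg, G_add_right hf hg, G_add_right hf hg, G_symm g f]
      ring
    have h2 := two_G_le (C := C) f g x one_pos
    have h3 := le_abs_self (C.G f g x)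
    simp only [one_mul, inv_one] at h2
    rw [e1]
    linarith
  set a := C.G (fun y => f y - g y) (fun y => f y - g y) x with ha
  set q := C.G f f x + C.G g g x with hq
  have ha0 : 0 ≤ a := G_self_nonneg _ _
  have h4 : (C.G f f x - C.G g g x) ^ 2 ≤ 2 * a * q := by
    rw [h1]
    refine h2.trans ?_
    have := mul_le_mul_of_nonneg_left h3 ha0
    linarith
  have h5 : 2 * a * q ≤ s⁻¹ * a ^ 2 + s * q ^ 2 := by
    have h6 : 0 ≤ (s⁻¹) * (a - s * q) ^ 2 := by positivity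
    have h7 : s⁻¹ * (a - s * q) ^ 2 = s⁻¹ * a ^ 2 - 2 * a * q + s * q ^ 2 := by
      field_simp
      ring
    linarith
  linarith

/-- **the truncated bounds of a family**: `e : ι → ℝ` the width. -/
theorem trunc_family {e : ι → ℝ} (he : ∀ i, good i → 0 < e i) (hv : ∀ i, C.Sm (v i))
    {s α β : ℝ} (hs : 0 < s) (hα : 0 ≤ α) (hβ : 0 < β)
    (hvs : ∀ i, good i → ∀ x, |v i x| ≤ s)
    (hlo : ∀ i, good i → ∀ x, -(α * e i) ≤ v i x)
    (hL : LB μ good (fun i => C.L (v i))) :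
    ∃ A : ℝ, 0 ≤ A ∧ ∀ i, good i → ∀ T : Set X, MeasurableSet T → (∀ x ∈ T, v i x ≤ β * e i) →
        ∫ x in T, C.G (v i) (v i) x ^ 2 ∂μ ≤ A * e i ∧
        ∫ x in T, C.G (v i) (v i) x ∂μ ≤ A * e i := by
  obtain ⟨A₁, hA₁, h1⟩ := hL.ub
  obtain ⟨A₂, hA₂, h2⟩ := (lb_G hv hs hvs hL).ub
  obtain ⟨A₃, hA₃, h3⟩ := ub_Rb hv hL
  refine ⟨6 * (α + β) * (A₂ + A₃) + 3 * (α + β) * (μ.real univ + A₁), by positivity,
    fun i hi T hT hTb => ?_⟩
  have hei := he i hi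
  have hc : 0 < α * e i + β * e i := by
    have : 0 < β * e i := mul_pos hβ hei
    have : 0 ≤ α * e i := mul_nonneg hα hei.le
    linarith
  have g1 := h1 i hi
  have g2 := h2 i hi
  have g3 := h3 i hi
  have t4 := trunc_four (hv i) hc (hlo i hi) T hT hTb
  have t2 := trunc_two (hv i) hc (hlo i hi) T hT hTb
  have hV : 0 ≤ μ.real univ := measureReal_nonneg
  constructor
  · refine t4.trans ?_
    have e1 : 6 * (α * e i + β * e i) * (∫ x, C.G (v i) (v i) x ^ 2 ∂μ +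
        ∫ x, C.Rb (v i) x ∂μ) ≤ 6 * (α * e i + β * e i) * (A₂ + A₃) :=
      mul_le_mul_of_nonneg_left (add_le_add g2 g3) (by positivity)
    have e2 : 0 ≤ 3 * (α + β) * (μ.real univ + A₁) * e i := by positivity
    have e3 : 6 * (α * e i + β * e i) * (A₂ + A₃) = 6 * (α + β) * (A₂ + A₃) * e i := by ring
    rw [e3] at e1
    rw [add_mul]
    linarith
  · refine t2.trans ?_
    have i1 : Integrable (fun x => C.L (v i) x ^ 2) μ :=
      integrable_sm (sm_pow (C.sm_L (hv i)) 2)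
    have e0 : ∫ x, |C.L (v i) x| ∂μ ≤ μ.real univ + A₁ := by
      have : ∫ x, |C.L (v i) x| ∂μ ≤ ∫ x, (1 + C.L (v i) x ^ 2) ∂μ := by
        refine integral_mono (integrable_sm (C.sm_L (hv i))).abs
          ((integrable_const _).add i1) fun x => ?_
        simp only
        nlinarith [sq_nonneg (|C.L (v i) x| - 1), sq_abs (C.L (v i) x),
          abs_nonneg (C.L (v i) x)]
      rw [integral_add (integrable_const _) i1, integral_const, smul_eq_mul, mul_one] at this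
      linarith
    have e1 : 3 * (α * e i + β * e i) * ∫ x, |C.L (v i) x| ∂μ ≤
        3 * (α * e i + β * e i) * (μ.real univ + A₁) :=
      mul_le_mul_of_nonneg_left e0 (by positivity)
    have e2 : 0 ≤ 6 * (α + β) * (A₂ + A₃) * e i := by positivity
    have e3 : 3 * (α * e i + β * e i) * (μ.real univ + A₁) =
      3 * (α + β) * (μ.real univ + A₁) * e i := by ring
    rw [e3] at e1
    rw [add_mul]
    linarith

/-! ### the residuals -/

lemma int_sq_le_of_four {r : X → ℝ} (hr : Continuous r) {e vs : ℝ} (he : 0 < e) (hvs : vs ≤ e ^ 2)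
    (h : ∫ x, r x ^ 4 ∂μ ≤ vs) : ∫ x, r x ^ 2 ∂μ ≤ e * (μ.real univ + 1) / 2 := by
  have i1 : Integrable (fun x => r x ^ 4) μ := integrable_cont (hr.pow 4)
  have i2 : Integrable (fun x => r x ^ 2) μ := integrable_cont (hr.pow 2)
  have h1 : ∫ x, r x ^ 2 ∂μ ≤ ∫ x, (e / 2 + (1 / (2 * e)) * r x ^ 4) ∂μ := by
    refine integral_mono i2 ((integrable_const _).add (i1.const_mul _)) fun x => ?_
    simp only
    have h4 : e / 2 + 1 / (2 * e) * r x ^ 4 - r x ^ 2 = (e - r x ^ 2) ^ 2 / (2 * e) := by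
      field_simp
      ring
    have h5 : 0 ≤ (e - r x ^ 2) ^ 2 / (2 * e) := by positivity
    linarith
  rw [integral_add (integrable_const _) (i1.const_mul _), integral_const, integral_const_mul] at h1
  have h2 : 1 / (2 * e) * ∫ x, r x ^ 4 ∂μ ≤ 1 / (2 * e) * e ^ 2 :=
    mul_le_mul_of_nonneg_left (h.trans hvs) (by positivity)
  have h3 : 1 / (2 * e) * e ^ 2 = e / 2 := by field_simp
  simp only [smul_eq_mul] at h1
  rw [h3] at h2
  linarith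

/-- the constant of `∫ g²`. -/
def Kg (K : ℝ) (μ : Measure X) : ℝ := 2 * K ^ 2 * μ.real univ + (μ.real univ + 1)

lemma Kg_nonneg (K : ℝ) : 0 ≤ Kg K μ := by unfold Kg; positivity

lemma int_g_sq {K : ℝ} {g r : X → ℝ} (hg : C.Sm g) (hr : Continuous r) {e vs : ℝ} (he : 0 < e)
    (he1 : e ≤ 1) (hvs : vs ≤ e ^ 2) (h : ∫ x, r x ^ 4 ∂μ ≤ vs)
    (hgr : ∀ x, |g x| ≤ K * e + |r x|) : ∫ x, g x ^ 2 ∂μ ≤ Kg K μ * e := by
  have i1 : Integrable (fun x => g x ^ 2) μ := integrable_sm (sm_pow hg 2)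
  have i2 : Integrable (fun x => r x ^ 2) μ := integrable_cont (hr.pow 2)
  have h1 : ∫ x, g x ^ 2 ∂μ ≤ ∫ x, (2 * K ^ 2 * e ^ 2 + 2 * r x ^ 2) ∂μ := by
    refine integral_mono i1 ((integrable_const _).add (i2.const_mul _)) fun x => ?_
    have h2 : g x ^ 2 ≤ (K * e + |r x|) ^ 2 := by
      rw [← sq_abs (g x)]
      exact pow_le_pow_left₀ (abs_nonneg _) (hgr x) 2
    have h3 : (K * e + |r x|) ^ 2 ≤ 2 * (K * e) ^ 2 + 2 * |r x| ^ 2 := by
      nlinarith [sq_nonneg (K * e - |r x|)]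
    rw [sq_abs] at h3
    simp only
    nlinarith
  rw [integral_add (integrable_const _) (i2.const_mul _), integral_const, integral_const_mul] at h1
  have h2 := int_sq_le_of_four hr he hvs h
  simp only [smul_eq_mul] at h1
  have h3 : μ.real univ * (2 * K ^ 2 * e ^ 2) ≤ 2 * K ^ 2 * μ.real univ * e := by
    have : e ^ 2 ≤ e := by nlinarith
    have h4 : 0 ≤ 2 * K ^ 2 * μ.real univ := by positivity
    nlinarith
  unfold Kg
  nlinarith

end Crest.Agent.R249.FamA_780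
end
end

-- ▼ part R249/ObB_780
section

/-!
Row 249, part A2 v3 (helper780), file 2: pointwise facts for the general obstacle region
`Ob g B` of helper806: constants, the chain rule for `k`, the simplex property in real numbers.
-/

set_option autoImplicit false
set_option linter.unusedVariables false
set_option linter.unusedSectionVars false

open MeasureTheory Set Filter Topology Matrix
open scoped ContDiff

noncomputable section

namespace Crest.Agent.R249.ObB_780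

open Crest.Agent.R249.Calc_806 Crest.Agent.R249.Calc_806.Calc Crest.Agent.R249.PenH_806

/-! ### constants -/

/-- the constants of the region and of the nonlinearity. -/
structure Cst {g B : ℝ} (O : Ob g B) (f : ℝ → ℝ) (M : ℝ) : Prop where
  M1 : 1 ≤ M
  fb : ∀ u ∈ Icc g B, |f u| ≤ M
  fl : ∀ u ∈ Icc g B, ∀ v ∈ Icc g B, |f u - f v| ≤ M * |u - v|
  b2 : ∀ η, |η| ≤ B - g → |deriv (deriv O.Γ) η| ≤ M
  l1 : ∀ η η', |η| ≤ B - g → |η'| ≤ B - g → |deriv O.Γ η - deriv O.Γ η'| ≤ M * |η - η'|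
  l2 : ∀ η η', |η| ≤ B - g → |η'| ≤ B - g →
    |deriv (deriv O.Γ) η - deriv (deriv O.Γ) η'| ≤ M * |η - η'|

/-- a smooth function is bounded and Lipschitz on an interval. -/
lemma exists_bd {h : ℝ → ℝ} (hh : ContDiff ℝ ∞ h) (a b : ℝ) : ∃ M, 0 ≤ M ∧
    (∀ y ∈ Icc a b, |h y| ≤ M) ∧ ∀ y ∈ Icc a b, ∀ z ∈ Icc a b, |h y - h z| ≤ M * |y - z| := by
  have hd : ContDiff ℝ ∞ (deriv h) := (contDiff_infty_iff_deriv.1 hh).2
  obtain ⟨M₁, h1⟩ := (isCompact_Icc (a := a) (b := b)).exists_bound_of_continuousOn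
    hh.continuous.continuousOn
  obtain ⟨M₂, h2⟩ := (isCompact_Icc (a := a) (b := b)).exists_bound_of_continuousOn
    hd.continuous.continuousOn
  refine ⟨max (max M₁ M₂) 0, le_max_right _ _, fun y hy => ?_, fun y hy z hz => ?_⟩
  · exact (h1 y hy).trans ((le_max_left _ _).trans (le_max_left _ _))
  · have h3 := Convex.norm_image_sub_le_of_norm_deriv_le (𝕜 := ℝ) (f := h) (s := Icc a b)
      (C := max (max M₁ M₂) 0)
      (fun x _ => (hh.differentiable (by simp)).differentiableAt)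
      (fun x hx => (h2 x hx).trans ((le_max_right _ _).trans (le_max_left _ _)))
      (convex_Icc a b) hz hy
    simpa [Real.norm_eq_abs] using h3

theorem exists_cst {g B : ℝ} (O : Ob g B) {f : ℝ → ℝ} (hf : ContDiff ℝ ∞ f) : ∃ M, Cst O f M := by
  have hd : ContDiff ℝ ∞ (deriv O.Γ) := (contDiff_infty_iff_deriv.1 O.smooth).2
  have hd2 : ContDiff ℝ ∞ (deriv (deriv O.Γ)) := (contDiff_infty_iff_deriv.1 hd).2
  obtain ⟨M₀, h0, h0a, h0b⟩ := exists_bd hf g B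
  obtain ⟨M₁, h1, h1a, h1b⟩ := exists_bd hd (-(B - g)) (B - g)
  obtain ⟨M₂, h2, h2a, h2b⟩ := exists_bd hd2 (-(B - g)) (B - g)
  refine ⟨1 + M₀ + M₁ + M₂, by linarith, fun u hu => (h0a u hu).trans (by linarith),
    fun u hu v hv => (h0b u hu v hv).trans
      (mul_le_mul_of_nonneg_right (by linarith) (abs_nonneg _)),
    fun η hη => (h2a η (abs_le.1 hη)).trans (by linarith),
    fun η η' hη hη' => (h1b η (abs_le.1 hη) η' (abs_le.1 hη')).trans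
      (mul_le_mul_of_nonneg_right (by linarith) (abs_nonneg _)),
    fun η η' hη hη' => (h2b η (abs_le.1 hη) η' (abs_le.1 hη')).trans
      (mul_le_mul_of_nonneg_right (by linarith) (abs_nonneg _))⟩

section Region

variable {g B : ℝ} (O : Ob g B)

lemma eta_le {u v : ℝ} (hu : u ∈ Icc g B) (hv : v ∈ Icc g B) : |u - v| ≤ B - g := by
  rw [abs_le]
  constructor <;> linarith [hu.1, hu.2, hv.1, hv.2]

lemma k1_le {u v : ℝ} (hu : u ∈ Icc g B) (hv : v ∈ Icc g B) : O.k1 u v ≤ -O.c := by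
  have := (abs_le.1 (O.slope _ (eta_le hu hv))).2
  unfold Ob.k1; linarith

lemma k1_ge {u v : ℝ} (hu : u ∈ Icc g B) (hv : v ∈ Icc g B) : -1 ≤ O.k1 u v := by
  have := (abs_le.1 (O.slope _ (eta_le hu hv))).1
  have := O.c_pos
  unfold Ob.k1; linarith

lemma k2_le {u v : ℝ} (hu : u ∈ Icc g B) (hv : v ∈ Icc g B) : O.k2 u v ≤ -O.c := by
  have := (abs_le.1 (O.slope _ (eta_le hu hv))).1
  unfold Ob.k2; linarith

lemma k2_ge {u v : ℝ} (hu : u ∈ Icc g B) (hv : v ∈ Icc g B) : -1 ≤ O.k2 u v := by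
  have := (abs_le.1 (O.slope _ (eta_le hu hv))).2
  have := O.c_pos
  unfold Ob.k2; linarith


lemma Γ_lip {η η' : ℝ} (h : |η| ≤ B - g) (h' : |η'| ≤ B - g) :
    |O.Γ η - O.Γ η'| ≤ (1 / 2 - O.c) * |η - η'| := by
  have h3 := Convex.norm_image_sub_le_of_norm_deriv_le (𝕜 := ℝ) (f := O.Γ)
    (s := Icc (-(B - g)) (B - g)) (C := 1 / 2 - O.c)
    (fun x _ => (O.smooth.differentiable (by simp)).differentiableAt)
    (fun x hx => O.slope x (abs_le.2 hx))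
    (convex_Icc _ _) (abs_le.1 h') (abs_le.1 h)
  simpa [Real.norm_eq_abs] using h3

/-- `k` is decreasing in the first variable, slope between `-1` and `-c`. -/
lemma k_mono1 {u u' v : ℝ} (hu : u ∈ Icc g B) (hu' : u' ∈ Icc g B) (hv : v ∈ Icc g B)
    (h : u ≤ u') : O.c * (u' - u) ≤ O.k u v - O.k u' v ∧ O.k u v - O.k u' v ≤ u' - u := by
  have h1 := Γ_lip O (eta_le hu hv) (eta_le hu' hv)
  have e1 : u - v - (u' - v) = -(u' - u) := by ring
  rw [e1, abs_neg, abs_of_nonneg (sub_nonneg.2 h)] at h1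
  have h2 := abs_le.1 h1
  have h3 := O.c_pos
  have h4 : 0 ≤ O.c * (u' - u) := mul_nonneg h3.le (sub_nonneg.2 h)
  unfold Ob.k
  constructor <;> nlinarith [h2.1, h2.2]

lemma k_mono2 {u v v' : ℝ} (hu : u ∈ Icc g B) (hv : v ∈ Icc g B) (hv' : v' ∈ Icc g B)
    (h : v ≤ v') : O.c * (v' - v) ≤ O.k u v - O.k u v' ∧ O.k u v - O.k u v' ≤ v' - v := by
  have h1 := Γ_lip O (eta_le hu hv) (eta_le hu hv')
  have e1 : u - v - (u - v') = v' - v := by ring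
  rw [e1, abs_of_nonneg (sub_nonneg.2 h)] at h1
  have h2 := abs_le.1 h1
  have h3 := O.c_pos
  have h4 : 0 ≤ O.c * (v' - v) := mul_nonneg h3.le (sub_nonneg.2 h)
  unfold Ob.k
  constructor <;> nlinarith [h2.1, h2.2]

lemma abs_k1 {u v : ℝ} (hu : u ∈ Icc g B) (hv : v ∈ Icc g B) : |O.k1 u v| ≤ 1 := by
  have h1 := k1_le O hu hv
  have h2 := k1_ge O hu hv
  have := O.c_pos
  rw [abs_le]; constructor <;> linarith

lemma abs_k2 {u v : ℝ} (hu : u ∈ Icc g B) (hv : v ∈ Icc g B) : |O.k2 u v| ≤ 1 := by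
  have h1 := k2_le O hu hv
  have h2 := k2_ge O hu hv
  have := O.c_pos
  rw [abs_le]; constructor <;> linarith

variable {O} {f : ℝ → ℝ} {M : ℝ}

lemma Cst.k1_lip (c : Cst O f M) {u v u' v' : ℝ} (hu : u ∈ Icc g B) (hv : v ∈ Icc g B)
    (hu' : u' ∈ Icc g B) (hv' : v' ∈ Icc g B) :
    |O.k1 u v - O.k1 u' v'| ≤ M * |(u - v) - (u' - v')| := by
  have h1 := c.l1 _ _ (eta_le hu hv) (eta_le hu' hv')
  have e1 : O.k1 u v - O.k1 u' v' = deriv O.Γ (u - v) - deriv O.Γ (u' - v') := by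
    unfold Ob.k1; ring
  rw [e1]; exact h1

lemma Cst.k2_lip (c : Cst O f M) {u v u' v' : ℝ} (hu : u ∈ Icc g B) (hv : v ∈ Icc g B)
    (hu' : u' ∈ Icc g B) (hv' : v' ∈ Icc g B) :
    |O.k2 u v - O.k2 u' v'| ≤ M * |(u - v) - (u' - v')| := by
  have h1 := c.l1 _ _ (eta_le hu hv) (eta_le hu' hv')
  have e1 : O.k2 u v - O.k2 u' v' = -(deriv O.Γ (u - v) - deriv O.Γ (u' - v')) := by
    unfold Ob.k2; ring
  rw [e1, abs_neg]; exact h1

/-- **Lipschitz bound for `E`**: `|u - u'| + |v - v'| ≤ a`. -/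
lemma Cst.E_lip (c : Cst O f M) {u v u' v' P P' a : ℝ} (hu : u ∈ Icc g B) (hv : v ∈ Icc g B)
    (hu' : u' ∈ Icc g B) (hv' : v' ∈ Icc g B) (hP' : 0 ≤ P')
    (ha : |u - u'| + |v - v'| ≤ a) :
    |O.E f u v P - O.E f u' v' P'| ≤ 3 * M ^ 2 * (a * (1 + P')) + M * |P - P'| := by
  have hM := c.M1
  have ha0 : 0 ≤ a := le_trans (by positivity) ha
  have hη : |(u - v) - (u' - v')| ≤ a := by
    have : (u - v) - (u' - v') = (u - u') - (v - v') := by ring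
    rw [this]
    exact (abs_sub _ _).trans ha
  have a1 : |O.k1 u v - O.k1 u' v'| ≤ M * a :=
    (c.k1_lip hu hv hu' hv').trans (mul_le_mul_of_nonneg_left hη (by linarith))
  have a2 : |O.k2 u v - O.k2 u' v'| ≤ M * a :=
    (c.k2_lip hu hv hu' hv').trans (mul_le_mul_of_nonneg_left hη (by linarith))
  have a3 : |deriv (deriv O.Γ) (u - v) - deriv (deriv O.Γ) (u' - v')| ≤ M * a :=
    (c.l2 _ _ (eta_le hu hv) (eta_le hu' hv')).trans (mul_le_mul_of_nonneg_left hη (by linarith))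
  have a4 := c.b2 _ (eta_le hu hv)
  have e1 : O.E f u v P - O.E f u' v' P' =
      (O.k1 u v - O.k1 u' v') * f u + O.k1 u' v' * (f u - f u') +
      ((O.k2 u v - O.k2 u' v') * f v + O.k2 u' v' * (f v - f v')) +
      (deriv (deriv O.Γ) (u - v) * (P - P') +
        (deriv (deriv O.Γ) (u - v) - deriv (deriv O.Γ) (u' - v')) * P') := by
    unfold Ob.E; ring
  have b1 : |(O.k1 u v - O.k1 u' v') * f u| ≤ M * a * M := by
    rw [abs_mul]; exact mul_le_mul a1 (c.fb u hu) (abs_nonneg _) (by positivity)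
  have b2 : |(O.k2 u v - O.k2 u' v') * f v| ≤ M * a * M := by
    rw [abs_mul]; exact mul_le_mul a2 (c.fb v hv) (abs_nonneg _) (by positivity)
  have b3 : |O.k1 u' v' * (f u - f u')| ≤ M * |u - u'| := by
    rw [abs_mul]
    have := mul_le_mul (abs_k1 O hu' hv') (c.fl u hu u' hu') (abs_nonneg _) zero_le_one
    linarith
  have b4 : |O.k2 u' v' * (f v - f v')| ≤ M * |v - v'| := by
    rw [abs_mul]
    have := mul_le_mul (abs_k2 O hu' hv') (c.fl v hv v' hv') (abs_nonneg _) zero_le_one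
    linarith
  have b5 : |deriv (deriv O.Γ) (u - v) * (P - P')| ≤ M * |P - P'| := by
    rw [abs_mul]; exact mul_le_mul_of_nonneg_right a4 (abs_nonneg _)
  have b6 : |(deriv (deriv O.Γ) (u - v) - deriv (deriv O.Γ) (u' - v')) * P'| ≤ M * a * P' := by
    rw [abs_mul, abs_of_nonneg hP']; exact mul_le_mul_of_nonneg_right a3 hP'
  rw [e1]
  have t1 := abs_add_le ((O.k1 u v - O.k1 u' v') * f u + O.k1 u' v' * (f u - f u') +
      ((O.k2 u v - O.k2 u' v') * f v + O.k2 u' v' * (f v - f v')))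
      (deriv (deriv O.Γ) (u - v) * (P - P') +
        (deriv (deriv O.Γ) (u - v) - deriv (deriv O.Γ) (u' - v')) * P')
  have t2 := abs_add_le ((O.k1 u v - O.k1 u' v') * f u + O.k1 u' v' * (f u - f u'))
      ((O.k2 u v - O.k2 u' v') * f v + O.k2 u' v' * (f v - f v'))
  have t3 := abs_add_le ((O.k1 u v - O.k1 u' v') * f u) (O.k1 u' v' * (f u - f u'))
  have t4 := abs_add_le ((O.k2 u v - O.k2 u' v') * f v) (O.k2 u' v' * (f v - f v'))
  have t5 := abs_add_le (deriv (deriv O.Γ) (u - v) * (P - P'))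
        ((deriv (deriv O.Γ) (u - v) - deriv (deriv O.Γ) (u' - v')) * P')
  have s1 : M * |u - u'| + M * |v - v'| ≤ M * a := by
    rw [← mul_add]; exact mul_le_mul_of_nonneg_left ha (by linarith)
  have s2 : M * a ≤ M ^ 2 * a := by
    have : M ≤ M ^ 2 := by nlinarith
    exact mul_le_mul_of_nonneg_right this ha0
  have s3 : M * a * P' ≤ M ^ 2 * a * P' := mul_le_mul_of_nonneg_right s2 hP'
  have s4 : 0 ≤ M ^ 2 * a * P' := by positivity
  nlinarith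

end Region

/-! ### the simplex property in real numbers -/

/-- the error function. -/
def errR (N e m₁ m₂ g₁ P P₁ P₂ : ℝ) : ℝ :=
  N * (e + |g₁| + e * (m₁ + m₂) + (if m₁ = 0 then 0 else e * (1 + P₁) + |P - P₁|) +
    (if m₂ = 0 then 0 else e * (1 + P₂) + |P - P₂|))

section Real

variable {g B : ℝ} {O : Ob g B} {f : ℝ → ℝ} {M : ℝ}

/-- the pointwise data. -/
structure Pt (O : Ob g B) (f : ℝ → ℝ) (M η₀ C₁ e u v h w h' P P₁ P₂ Lu Lw Lh Lh' m₁ m₂ g₁ : ℝ) :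
    Prop where
  e0 : 0 < e
  C1 : 0 ≤ C₁
  η0 : 0 ≤ η₀
  hu : u ∈ Icc g B
  hv : v ∈ Icc g B
  hh : h ∈ Icc g B
  hw : w ∈ Icc g B
  hh' : h' ∈ Icc g B
  P0 : 0 ≤ P
  P10 : 0 ≤ P₁
  P20 : 0 ≤ P₂
  eq1 : O.k1 h w * Lh + O.k2 h w * Lw + deriv (deriv O.Γ) (h - w) * P₁ = 0
  eq2 : O.k1 u h' * Lu + O.k2 u h' * Lh' + deriv (deriv O.Γ) (u - h') * P₂ = 0
  subw : f w - η₀ ≤ Lw
  equ : Lu = (f u - η₀) + m₁ + g₁
  m1 : 0 ≤ m₁
  m2 : 0 ≤ m₂
  le1 : m₁ ≤ max 0 (Lh - (f h - η₀)) + e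
  le2 : m₂ ≤ max 0 (Lh' - (f h' - η₀)) + e
  n1 : m₁ ≠ 0 → |u - h| + |v - w| ≤ (2 + C₁) * e
  n2 : m₂ ≠ 0 → |v - h'| ≤ 2 * e

variable {η₀ C₁ e u v h w h' P P₁ P₂ Lu Lw Lh Lh' m₁ m₂ g₁ : ℝ}

/-- the first contact inequality. -/
lemma Pt.first (p : Pt O f M η₀ C₁ e u v h w h' P P₁ P₂ Lu Lw Lh Lh' m₁ m₂ g₁) :
    -O.k1 h w * m₁ ≤ max 0 (O.E f h w P₁ + η₀) + e := by
  have h1 := k1_le O p.hh p.hw
  have h2 := k1_ge O p.hh p.hw
  have h3 := k2_le O p.hh p.hw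
  have hc := O.c_pos
  have key : -O.k1 h w * (Lh - (f h - η₀)) ≤ O.E f h w P₁ + η₀ := by
    have e1 : -O.k1 h w * (Lh - (f h - η₀)) =
        O.E f h w P₁ + O.k2 h w * (Lw - f w) - O.k1 h w * η₀ := by
      have := p.eq1
      unfold Ob.E
      linear_combination -this
    have e2 : O.k2 h w * (Lw - f w) ≤ -O.k2 h w * η₀ := by
      have := p.subw
      nlinarith
    have e3 : O.k1 h w + O.k2 h w = -1 := by unfold Ob.k1 Ob.k2; ring
    rw [e1]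
    nlinarith [p.η0]
  have h4 : -O.k1 h w * m₁ ≤ -O.k1 h w * (max 0 (Lh - (f h - η₀)) + e) :=
    mul_le_mul_of_nonneg_left p.le1 (by linarith)
  have h5 : -O.k1 h w * max 0 (Lh - (f h - η₀)) ≤ max 0 (O.E f h w P₁ + η₀) := by
    rcases le_total (Lh - (f h - η₀)) 0 with h6 | h6
    · rw [max_eq_left h6, mul_zero]; exact le_max_left _ _
    · rw [max_eq_right h6]; exact key.trans (le_max_right _ _)
  have h6 : -O.k1 h w * e ≤ e := by nlinarith [p.e0]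
  rw [mul_add] at h4
  linarith

/-- the second contact inequality. -/
lemma Pt.second (p : Pt O f M η₀ C₁ e u v h w h' P P₁ P₂ Lu Lw Lh Lh' m₁ m₂ g₁) :
    -O.k2 u h' * m₂ ≤ max 0 (O.E f u h' P₂ + η₀ + O.k1 u h' * m₁ + |g₁|) + e := by
  have h1 := k2_le O p.hu p.hh'
  have h2 := k2_ge O p.hu p.hh'
  have hc := O.c_pos
  have key : -O.k2 u h' * (Lh' - (f h' - η₀)) ≤ O.E f u h' P₂ + η₀ + O.k1 u h' * m₁ + |g₁| := by
    have e3 : O.k1 u h' + O.k2 u h' = -1 := by unfold Ob.k1 Ob.k2; ring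
    have e1 : -O.k2 u h' * (Lh' - (f h' - η₀)) =
        O.E f u h' P₂ + η₀ + O.k1 u h' * m₁ + O.k1 u h' * g₁ := by
      have h4 := p.eq2
      have h5 := p.equ
      unfold Ob.E
      rw [h5] at h4
      linear_combination -h4 - η₀ * e3
    have e2 : O.k1 u h' * g₁ ≤ |g₁| := by
      refine (le_abs_self _).trans ?_
      rw [abs_mul]
      have := abs_k1 O p.hu p.hh'
      nlinarith [abs_nonneg g₁]
    rw [e1]; linarith
  have h4 : -O.k2 u h' * m₂ ≤ -O.k2 u h' * (max 0 (Lh' - (f h' - η₀)) + e) :=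
    mul_le_mul_of_nonneg_left p.le2 (by linarith)
  have h5 : -O.k2 u h' * max 0 (Lh' - (f h' - η₀)) ≤
      max 0 (O.E f u h' P₂ + η₀ + O.k1 u h' * m₁ + |g₁|) := by
    rcases le_total (Lh' - (f h' - η₀)) 0 with h6 | h6
    · rw [max_eq_left h6, mul_zero]; exact le_max_left _ _
    · rw [max_eq_right h6]; exact key.trans (le_max_right _ _)
  have h6 : -O.k2 u h' * e ≤ e := by nlinarith [p.e0]
  rw [mul_add] at h4
  linarith

/-- the first inequality at `(u, v)`. -/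
lemma Pt.first' (p : Pt O f M η₀ C₁ e u v h w h' P P₁ P₂ Lu Lw Lh Lh' m₁ m₂ g₁) (c : Cst O f M)
    (hm : m₁ ≠ 0) :
    -O.k1 u v * m₁ ≤ max 0 (O.E f u v P) + η₀ + e + M * ((2 + C₁) * e) * m₁ +
      (3 * M ^ 2 * ((2 + C₁) * e * (1 + P₁)) + M * |P - P₁|) := by
  have h1 := p.first
  have h2 := c.E_lip (P := P) (P' := P₁) p.hu p.hv p.hh p.hw p.P10 (p.n1 hm)
  have h3 : |O.k1 u v - O.k1 h w| ≤ M * ((2 + C₁) * e) := by
    refine (c.k1_lip p.hu p.hv p.hh p.hw).trans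
      (mul_le_mul_of_nonneg_left ?_ (by linarith [c.M1]))
    have : (u - v) - (h - w) = (u - h) - (v - w) := by ring
    rw [this]
    exact (abs_sub _ _).trans (p.n1 hm)
  have h4 : -O.k1 u v * m₁ ≤ -O.k1 h w * m₁ + M * ((2 + C₁) * e) * m₁ := by
    have := (abs_le.1 h3).1
    nlinarith [p.m1]
  have h5 : max 0 (O.E f h w P₁ + η₀) ≤ max 0 (O.E f u v P) + η₀ +
      (3 * M ^ 2 * ((2 + C₁) * e * (1 + P₁)) + M * |P - P₁|) := by
    have h6 := (abs_le.1 h2).1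
    have h7 := le_max_right 0 (O.E f u v P)
    have h8 := le_max_left 0 (O.E f u v P)
    have h9 : 0 ≤ 3 * M ^ 2 * ((2 + C₁) * e * (1 + P₁)) + M * |P - P₁| :=
      le_trans (abs_nonneg _) h2
    refine max_le ?_ ?_ <;> linarith [p.η0]
  linarith

/-- **the simplex property**. -/
theorem Pt.simplex (p : Pt O f M η₀ C₁ e u v h w h' P P₁ P₂ Lu Lw Lh Lh' m₁ m₂ g₁) (c : Cst O f M) :
    -O.k1 u v * m₁ + -O.k2 u v * m₂ ≤ max 0 (O.E f u v P) + η₀ +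
      errR (12 * M ^ 2 * (2 + C₁)) e m₁ m₂ g₁ P P₁ P₂ := by
  have hM := c.M1
  have he := p.e0
  have hC := p.C1
  have hm1 := p.m1
  have hm2 := p.m2
  have hP10 := p.P10
  have hP20 := p.P20
  have hMM : M ≤ M ^ 2 := by nlinarith
  set N := 12 * M ^ 2 * (2 + C₁) with hN
  have hN24 : 24 ≤ N := by
    have : (1:ℝ) ≤ M ^ 2 := by nlinarith
    rw [hN]; nlinarith
  have hNM : 12 * M ≤ N := by
    rw [hN]; nlinarith [mul_nonneg (by linarith : (0:ℝ) ≤ M ^ 2) hC]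
  -- the pieces of the error
  have q0 : e ≤ N * e := by nlinarith
  have hMC : M * (2 + C₁) ≤ M ^ 2 * (2 + C₁) := mul_le_mul_of_nonneg_right hMM (by linarith)
  have q1 : M * ((2 + C₁) * e) * m₁ ≤ N / 12 * (e * m₁) := by
    have e1 : M * ((2 + C₁) * e) * m₁ = (M * (2 + C₁)) * (e * m₁) := by ring
    rw [e1]
    refine mul_le_mul_of_nonneg_right ?_ (by positivity)
    rw [hN]; linarith
  have A1 : m₁ ≠ 0 → 3 * M ^ 2 * ((2 + C₁) * e * (1 + P₁)) + M * |P - P₁| ≤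
      N / 4 * (e * (1 + P₁) + |P - P₁|) := by
    intro _
    have e1 : 3 * M ^ 2 * ((2 + C₁) * e * (1 + P₁)) = N / 4 * (e * (1 + P₁)) := by
      rw [hN]; ring
    have e2 : M * |P - P₁| ≤ N / 4 * |P - P₁| :=
      mul_le_mul_of_nonneg_right (by linarith) (abs_nonneg _)
    rw [e1, mul_add]; linarith
  have key1 : m₁ ≠ 0 → -O.k1 u v * m₁ ≤ max 0 (O.E f u v P) + η₀ + e + N / 12 * (e * m₁) +
      N / 4 * (e * (1 + P₁) + |P - P₁|) := fun hm => by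
    have := p.first' c hm
    have := A1 hm
    linarith
  have hE0 := le_max_left 0 (O.E f u v P)
  have hE1 := le_max_right 0 (O.E f u v P)
  have hη := p.η0
  have hg0 := abs_nonneg g₁
  unfold errR
  by_cases hm2' : m₂ = 0
  · by_cases hm1' : m₁ = 0
    · rw [if_pos hm1', if_pos hm2', hm1', hm2']
      have : 0 ≤ N * (e + |g₁| + e * (0 + 0) + 0 + 0) := by positivity
      linarith
    · rw [if_neg hm1', if_pos hm2', hm2']
      have h1 := key1 hm1'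
      have h2 : 0 ≤ N * |g₁| := by positivity
      have h3 : 0 ≤ N * (e * m₁) := by positivity
      have h4 : 0 ≤ e * (1 + P₁) + |P - P₁| := by positivity
      have h5 : 0 ≤ N * (e * (1 + P₁) + |P - P₁|) := by positivity
      have e1 : N * (e + |g₁| + e * (m₁ + 0) + (e * (1 + P₁) + |P - P₁|) + 0) =
        N * e + N * |g₁| + N * (e * m₁) + N * (e * (1 + P₁) + |P - P₁|) := by ring
      rw [e1]
      linarith
  · -- `m₂ ≠ 0`
    rw [if_neg hm2']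
    have hn2 := p.n2 hm2'
    have hab : |u - u| + |v - h'| ≤ 2 * e := by simpa using hn2
    have h2 := c.E_lip (P := P) (P' := P₂) p.hu p.hv p.hu p.hh' p.P20 hab
    have h3 : |O.k1 u v - O.k1 u h'| ≤ M * (2 * e) := by
      refine (c.k1_lip p.hu p.hv p.hu p.hh').trans (mul_le_mul_of_nonneg_left ?_ (by linarith))
      have : (u - v) - (u - h') = -(v - h') := by ring
      rw [this, abs_neg]; exact hn2
    have h4 : |O.k2 u v - O.k2 u h'| ≤ M * (2 * e) := by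
      refine (c.k2_lip p.hu p.hv p.hu p.hh').trans (mul_le_mul_of_nonneg_left ?_ (by linarith))
      have : (u - v) - (u - h') = -(v - h') := by ring
      rw [this, abs_neg]; exact hn2
    have h5 := p.second
    have c1 : M * (2 * e) * m₁ ≤ N / 12 * (e * m₁) := by
      have e1 : M * (2 * e) * m₁ = (M * 2) * (e * m₁) := by ring
      rw [e1]
      refine mul_le_mul_of_nonneg_right ?_ (by positivity)
      rw [hN]; nlinarith [mul_nonneg (by linarith : (0:ℝ) ≤ M ^ 2) hC]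
    have c2 : M * (2 * e) * m₂ ≤ N / 12 * (e * m₂) := by
      have e1 : M * (2 * e) * m₂ = (M * 2) * (e * m₂) := by ring
      rw [e1]
      refine mul_le_mul_of_nonneg_right ?_ (by positivity)
      rw [hN]; nlinarith [mul_nonneg (by linarith : (0:ℝ) ≤ M ^ 2) hC]
    have h6 : -O.k2 u v * m₂ ≤ -O.k2 u h' * m₂ + N / 12 * (e * m₂) := by
      have := (abs_le.1 h4).1
      nlinarith
    have h7 : O.k1 u h' * m₁ ≤ O.k1 u v * m₁ + N / 12 * (e * m₁) := by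
      have := (abs_le.1 h3).1
      nlinarith
    have h8 : 3 * M ^ 2 * (2 * e * (1 + P₂)) + M * |P - P₂| ≤ N / 4 * (e * (1 + P₂) + |P - P₂|) := by
      have e2 : M * |P - P₂| ≤ N / 4 * |P - P₂| :=
        mul_le_mul_of_nonneg_right (by linarith) (abs_nonneg _)
      have e1 : 3 * M ^ 2 * (2 * e * (1 + P₂)) ≤ N / 4 * (e * (1 + P₂)) := by
        have e3 : 3 * M ^ 2 * (2 * e * (1 + P₂)) = (6 * M ^ 2) * (e * (1 + P₂)) := by ring
        rw [e3]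
        refine mul_le_mul_of_nonneg_right ?_ (by positivity)
        rw [hN]; nlinarith [mul_nonneg (by linarith : (0:ℝ) ≤ M ^ 2) hC]
      rw [mul_add]; linarith
    have h9 := (abs_le.1 h2).1
    have n1 : 0 ≤ e * (1 + P₂) + |P - P₂| := by positivity
    have n2 : 0 ≤ N * (e * (1 + P₂) + |P - P₂|) := by positivity
    have n3 : 0 ≤ N * (e * m₁) := by positivity
    have n4 : 0 ≤ N * (e * m₂) := by positivity
    have n5 : |g₁| ≤ N * |g₁| := by nlinarith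
    have n6 : 2 * e ≤ N * e := by nlinarith
    by_cases hm1' : m₁ = 0
    · rw [if_pos hm1']
      rw [hm1'] at h5 h7 ⊢
      have e1 : N * (e + |g₁| + e * (0 + m₂) + 0 + (e * (1 + P₂) + |P - P₂|)) =
        N * e + N * |g₁| + N * (e * m₂) + N * (e * (1 + P₂) + |P - P₂|) := by ring
      rw [e1]
      have h10 : max 0 (O.E f u h' P₂ + η₀ + O.k1 u h' * 0 + |g₁|) ≤
          max 0 (O.E f u v P) + η₀ + |g₁| + N / 4 * (e * (1 + P₂) + |P - P₂|) := by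
        refine max_le ?_ ?_ <;> linarith
      linarith
    · rw [if_neg hm1']
      have h1 := key1 hm1'
      have n7 : 0 ≤ e * (1 + P₁) + |P - P₁| := by positivity
      have n8 : 0 ≤ N * (e * (1 + P₁) + |P - P₁|) := by positivity
      have e1 : N * (e + |g₁| + e * (m₁ + m₂) + (e * (1 + P₁) + |P - P₁|) +
          (e * (1 + P₂) + |P - P₂|)) = N * e + N * |g₁| + N * (e * m₁) + N * (e * m₂) +
          N * (e * (1 + P₁) + |P - P₁|) + N * (e * (1 + P₂) + |P - P₂|) := by ring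
      rw [e1]
      -- two cases for the maximum
      rcases le_total (O.E f u h' P₂ + η₀ + O.k1 u h' * m₁ + |g₁|) 0 with h10 | h10
      · rw [max_eq_left h10] at h5
        linarith
      · rw [max_eq_right h10] at h5
        linarith

end Real

end Crest.Agent.R249.ObB_780
end
end

-- ▼ part R249/ObC_780
section

/-!
Row 249, part A2 v3 (helper780), file 3: the penalised pair `PenSolG` of helper806 for a general
region: ranges, the constraint function, the obstacles, the simplex property.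
-/

set_option autoImplicit false
set_option linter.unusedVariables false
set_option linter.unusedSectionVars false

open MeasureTheory Set Filter Topology Matrix
open scoped ContDiff

noncomputable section

namespace Crest.Agent.R249.ObC_780

open Crest.Agent.R249.Calc_806 Crest.Agent.R249.Calc_806.Calc Crest.Agent.R249.PenH_806
  Crest.Agent.R249.ObB_780 Crest.Agent.R249.FamA_780

variable {X : Type*} [TopologicalSpace X] [CompactSpace X] [MeasurableSpace X]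
  [OpensMeasurableSpace X] {μ : Measure X} [IsFiniteMeasure μ] {C : Calc X μ}

/-! ### the chain rule for `k` -/

section Chain

variable {g B : ℝ} (O : Ob g B) {u v : X → ℝ}

lemma sm_Γ (hu : C.Sm u) (hv : C.Sm v) : C.Sm (fun x => O.Γ (u x - v x)) :=
  sm_comp' O.smooth (sm_sub hu hv)

lemma sm_half (hu : C.Sm u) (hv : C.Sm v) : C.Sm (fun x => (1 / 2) * (u x + v x)) :=
  sm_smul _ (sm_add hu hv)

lemma k_eq (u v : X → ℝ) : (fun x => O.k (u x) (v x)) =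
    fun x => O.Γ (u x - v x) - (1 / 2) * (u x + v x) := by
  funext x; unfold Ob.k; ring

lemma sm_k (hu : C.Sm u) (hv : C.Sm v) : C.Sm (fun x => O.k (u x) (v x)) := by
  rw [k_eq]
  exact sm_sub (sm_Γ O hu hv) (sm_half hu hv)

lemma D_k (hu : C.Sm u) (hv : C.Sm v) (x : X) : C.D (fun x => O.k (u x) (v x)) x =
    O.k1 (u x) (v x) • C.D u x + O.k2 (u x) (v x) • C.D v x := by
  rw [k_eq, D_sub (sm_Γ O hu hv) (sm_half hu hv), D_smul _ (sm_add hu hv), D_add hu hv,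
    D_comp' O.smooth (sm_sub hu hv), D_sub hu hv]
  funext i
  simp only [Pi.sub_apply, Pi.add_apply, Pi.smul_apply, smul_eq_mul, Ob.k1, Ob.k2]
  ring

lemma L_k (hu : C.Sm u) (hv : C.Sm v) (x : X) : C.L (fun x => O.k (u x) (v x)) x =
    O.k1 (u x) (v x) * C.L u x + O.k2 (u x) (v x) * C.L v x +
      deriv (deriv O.Γ) (u x - v x) * C.G (fun y => u y - v y) (fun y => u y - v y) x := by
  rw [k_eq, L_sub (sm_Γ O hu hv) (sm_half hu hv), L_smul _ (sm_add hu hv), C.L_add hu hv,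
    L_comp' O.smooth (sm_sub hu hv), L_sub hu hv]
  simp only [Ob.k1, Ob.k2]
  ring


end Chain

/-! ### the pair -/

variable {g B : ℝ} {O : Ob g B} {f : ℝ → ℝ} {η₀ t₀ K e ε M : ℝ} {φ₀ ψ₀ : X → ℝ}
variable (S : PenSolG C O f η₀ φ₀ ψ₀ K e ε) (D : DatG C O f η₀ t₀ φ₀ ψ₀)

/-- the constraint function. -/
def kap (S : PenSolG C O f η₀ φ₀ ψ₀ K e ε) (x : X) : ℝ := O.k (S.φ x) (S.ψ x)

lemma sm_kap : C.Sm (kap S) := sm_k O S.sφ S.sψ

section Range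

include D

lemma φ_mem (x : X) : S.φ x ∈ Icc g B :=
  ⟨(D.φge x).trans (S.φge x), (S.φle x).trans (S.h₁le x)⟩

lemma ψ_mem (x : X) : S.ψ x ∈ Icc g B :=
  ⟨(D.ψge x).trans (S.ψge x), (S.ψle x).trans (S.h₂le x)⟩

lemma ψ₀_mem (x : X) : ψ₀ x ∈ Icc g B := ⟨D.ψge x, D.ψle x⟩

end Range

lemma h₁_mem (he : 0 < e) (x : X) : S.h₁ x ∈ Icc g B :=
  ⟨S.h₁ge x, by have := S.h₁le x; linarith⟩

lemma h₂_mem (he : 0 < e) (x : X) : S.h₂ x ∈ Icc g B :=
  ⟨S.h₂ge x, by have := S.h₂le x; linarith⟩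

section Kap

include D

/-- `k ≥ - 2 e`. -/
lemma kap_ge (he : 0 < e) (x : X) : -(2 * e) ≤ kap S x := by
  have h0 := S.kh₂ x
  have hφ := φ_mem S D x
  have hψ := ψ_mem S D x
  have hh := h₂_mem S he x
  rcases le_total (S.ψ x) (S.h₂ x) with h | h
  · have h1 := (k_mono2 O hφ hψ hh h).1
    have h2 := mul_nonneg O.c_pos.le (sub_nonneg.2 h)
    unfold kap
    linarith
  · have h1 := (k_mono2 O hφ hh hψ h).2
    have h2 := S.ψle x
    unfold kap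
    linarith

/-- `k(φ, ψ₀) ≤ 5 e` on the support of `m₁`. -/
lemma k_φψ₀_le (he : 0 < e) (x : X) (hm : S.m₁ x ≠ 0) : O.k (S.φ x) (ψ₀ x) ≤ 5 * e := by
  have h0 := S.kh₁ x
  have hs := S.m₁sup x hm
  have hφ := φ_mem S D x
  have hψ := ψ₀_mem D x
  have hh := h₁_mem S he x
  rcases le_total (S.φ x) (S.h₁ x) with h | h
  · have h1 := (k_mono1 O hφ hh hψ h).2
    linarith
  · have h1 := (k_mono1 O hh hφ hψ h).1
    have h2 := mul_nonneg O.c_pos.le (sub_nonneg.2 h)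
    linarith

/-- `m₁ = 0` off `{k ≤ 5 e}`. -/
lemma kap_le₁ (he : 0 < e) (x : X) (hm : S.m₁ x ≠ 0) : kap S x ≤ 5 * e := by
  have h1 := k_φψ₀_le S D he x hm
  have h2 := (k_mono2 O (φ_mem S D x) (ψ₀_mem D x) (ψ_mem S D x) (S.ψge x)).1
  have h3 := mul_nonneg O.c_pos.le (sub_nonneg.2 (S.ψge x))
  unfold kap
  linarith

/-- `m₂ = 0` off `{k ≤ e}`. -/
lemma kap_le₂ (he : 0 < e) (x : X) (hm : S.m₂ x ≠ 0) : kap S x ≤ e := by
  have h0 := S.kh₂ x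
  have hs := S.m₂sup x hm
  have hφ := φ_mem S D x
  have hψ := ψ_mem S D x
  have hh := h₂_mem S he x
  rcases le_total (S.ψ x) (S.h₂ x) with h | h
  · have h1 := (k_mono2 O hφ hψ hh h).2
    unfold kap
    linarith
  · have h1 := (k_mono2 O hφ hh hψ h).1
    have h2 := mul_nonneg O.c_pos.le (sub_nonneg.2 h)
    unfold kap
    linarith

/-- `ψ - ψ₀ ≤ (7/c) e` on the support of `m₁`. -/
lemma ψ_sub_le (he : 0 < e) (x : X) (hm : S.m₁ x ≠ 0) : S.ψ x - ψ₀ x ≤ 7 / O.c * e := by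
  have h1 := k_φψ₀_le S D he x hm
  have h2 := (k_mono2 O (φ_mem S D x) (ψ₀_mem D x) (ψ_mem S D x) (S.ψge x)).1
  have h3 := kap_ge S D he x
  have hc := O.c_pos
  have h4 : O.c * (S.ψ x - ψ₀ x) ≤ 7 * e := by
    unfold kap at h3
    linarith
  rw [div_mul_eq_mul_div, le_div_iff₀ hc]
  linarith

/-! ### the obstacles -/

lemma lap_h₁ (x : X) : O.k1 (S.h₁ x) (ψ₀ x) * C.L S.h₁ x + O.k2 (S.h₁ x) (ψ₀ x) * C.L ψ₀ x +
    deriv (deriv O.Γ) (S.h₁ x - ψ₀ x) * C.G (fun y => S.h₁ y - ψ₀ y) (fun y => S.h₁ y - ψ₀ y) x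
      = 0 := by
  rw [← L_k O S.sh₁ D.sψ]
  have : (fun x => O.k (S.h₁ x) (ψ₀ x)) = fun _ => 4 * e := by funext y; exact S.kh₁ y
  rw [this, C.L_const]

omit D in
lemma lap_h₂ (x : X) : O.k1 (S.φ x) (S.h₂ x) * C.L S.φ x + O.k2 (S.φ x) (S.h₂ x) * C.L S.h₂ x +
    deriv (deriv O.Γ) (S.φ x - S.h₂ x) * C.G (fun y => S.φ y - S.h₂ y) (fun y => S.φ y - S.h₂ y) x
      = 0 := by
  rw [← L_k O S.sφ S.sh₂]
  have : (fun x => O.k (S.φ x) (S.h₂ x)) = fun _ => 0 := by funext y; exact S.kh₂ y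
  rw [this, C.L_const]

omit D in
/-- if `a • p + b • q = 0`, `|a| ≥ c`, `|b| ≤ 1` then `c² |p|² ≤ |q|²`. -/
lemma sq_of_lin {p q : Fin 4 → ℝ} {a b c : ℝ} (h : a • p + b • q = 0) (hc : 0 < c)
    (ha : a ≤ -c) (hb : |b| ≤ 1) : c ^ 2 * (p ⬝ᵥ p) ≤ q ⬝ᵥ q := by
  have h1 : a • p = -(b • q) := by rw [← add_eq_zero_iff_eq_neg]; exact h
  have h2 : a ^ 2 * (p ⬝ᵥ p) = b ^ 2 * (q ⬝ᵥ q) := by
    have : (a • p) ⬝ᵥ (a • p) = (b • q) ⬝ᵥ (b • q) := by
      rw [h1, neg_dotProduct, dotProduct_neg, neg_neg]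
    simp only [smul_dotProduct, dotProduct_smul, smul_eq_mul] at this
    nlinarith
  have hp : 0 ≤ p ⬝ᵥ p := by
    rw [dotProduct]; exact Finset.sum_nonneg fun i _ => mul_self_nonneg _
  have hq : 0 ≤ q ⬝ᵥ q := by
    rw [dotProduct]; exact Finset.sum_nonneg fun i _ => mul_self_nonneg _
  have h3 : c ^ 2 ≤ a ^ 2 := by nlinarith
  have h4 : b ^ 2 ≤ 1 := by rw [← sq_abs]; nlinarith [abs_nonneg b]
  nlinarith

lemma G_h₁ (he : 0 < e) (x : X) : O.c ^ 2 * C.G S.h₁ S.h₁ x ≤ C.G ψ₀ ψ₀ x := by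
  have h1 := D_k O S.sh₁ D.sψ x
  have h2 : (fun x => O.k (S.h₁ x) (ψ₀ x)) = fun _ => 4 * e := by funext y; exact S.kh₁ y
  rw [h2, D_const] at h1
  exact sq_of_lin h1.symm O.c_pos (k1_le O (h₁_mem S he x) (ψ₀_mem D x))
    (abs_k2 O (h₁_mem S he x) (ψ₀_mem D x))

lemma G_h₂ (he : 0 < e) (x : X) : O.c ^ 2 * C.G S.h₂ S.h₂ x ≤ C.G S.φ S.φ x := by
  have h1 := D_k O S.sφ S.sh₂ x
  have h2 : (fun x => O.k (S.φ x) (S.h₂ x)) = fun _ => 0 := by funext y; exact S.kh₂ y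
  rw [h2, D_const, add_comm] at h1
  exact sq_of_lin h1.symm O.c_pos (k2_le O (φ_mem S D x) (h₂_mem S he x))
    (abs_k1 O (φ_mem S D x) (h₂_mem S he x))

/-! ### the pointwise data -/

/-- **the pointwise data of the pair**. -/
theorem pt (he : 0 < e) (hη : 0 ≤ η₀) (M : ℝ) (x : X) :
    Pt O f M η₀ (7 / O.c) e (S.φ x) (S.ψ x) (S.h₁ x) (ψ₀ x) (S.h₂ x)
      (C.G (fun y => S.φ y - S.ψ y) (fun y => S.φ y - S.ψ y) x)
      (C.G (fun y => S.h₁ y - ψ₀ y) (fun y => S.h₁ y - ψ₀ y) x)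
      (C.G (fun y => S.φ y - S.h₂ y) (fun y => S.φ y - S.h₂ y) x)
      (C.L S.φ x) (C.L ψ₀ x) (C.L S.h₁ x) (C.L S.h₂ x) (S.m₁ x) (S.m₂ x) (S.g₁ x) where
  e0 := he
  C1 := by have := O.c_pos; positivity
  η0 := hη
  hu := φ_mem S D x
  hv := ψ_mem S D x
  hh := h₁_mem S he x
  hw := ψ₀_mem D x
  hh' := h₂_mem S he x
  P0 := G_self_nonneg _ _
  P10 := G_self_nonneg _ _
  P20 := G_self_nonneg _ _
  eq1 := lap_h₁ S D x
  eq2 := lap_h₂ S x
  subw := D.subψ x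
  equ := S.eqφ x
  m1 := S.m₁nn x
  m2 := S.m₂nn x
  le1 := S.m₁le x
  le2 := S.m₂le x
  n1 := fun hm => by
    have h1 := S.m₁sup x hm
    have h2 := S.φle x
    have h3 := S.ψge x
    have h4 := ψ_sub_le S D he x hm
    have h5 : |S.φ x - S.h₁ x| ≤ 2 * e := by rw [abs_le]; constructor <;> linarith
    have h6 : |S.ψ x - ψ₀ x| ≤ 7 / O.c * e := by
      rw [abs_of_nonneg (sub_nonneg.2 h3)]; exact h4
    rw [add_mul]; linarith
  n2 := fun hm => by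
    have h1 := S.m₂sup x hm
    have h2 := S.ψle x
    rw [abs_le]; constructor <;> linarith

/-- the error function of the simplex property. -/
def Err (M : ℝ) (S : PenSolG C O f η₀ φ₀ ψ₀ K e ε) (x : X) : ℝ :=
  errR (12 * M ^ 2 * (2 + 7 / O.c)) e (S.m₁ x) (S.m₂ x) (S.g₁ x)
    (C.G (fun y => S.φ y - S.ψ y) (fun y => S.φ y - S.ψ y) x)
    (C.G (fun y => S.h₁ y - ψ₀ y) (fun y => S.h₁ y - ψ₀ y) x)
    (C.G (fun y => S.φ y - S.h₂ y) (fun y => S.φ y - S.h₂ y) x)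

/-- **(P3)**. -/
theorem simplex (he : 0 < e) (hη : 0 ≤ η₀) (c : Cst O f M) (x : X) :
    -O.k1 (S.φ x) (S.ψ x) * S.m₁ x + -O.k2 (S.φ x) (S.ψ x) * S.m₂ x ≤
      max 0 (O.E f (S.φ x) (S.ψ x)
        (C.G (fun y => S.φ y - S.ψ y) (fun y => S.φ y - S.ψ y) x)) + η₀ + Err M S x :=
  (pt S D he hη M x).simplex c

/-- the first contact inequality. -/
theorem contact₁ (he : 0 < e) (hη : 0 ≤ η₀) (x : X) :
    -O.k1 (S.h₁ x) (ψ₀ x) * S.m₁ x ≤ max 0 (O.E f (S.h₁ x) (ψ₀ x)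
      (C.G (fun y => S.h₁ y - ψ₀ y) (fun y => S.h₁ y - ψ₀ y) x) + η₀) + e :=
  (pt S D he hη 1 x).first

/-- the second contact inequality. -/
theorem contact₂ (he : 0 < e) (hη : 0 ≤ η₀) (x : X) :
    -O.k2 (S.φ x) (S.h₂ x) * S.m₂ x ≤ max 0 (O.E f (S.φ x) (S.h₂ x)
      (C.G (fun y => S.φ y - S.h₂ y) (fun y => S.φ y - S.h₂ y) x) + η₀ +
        O.k1 (S.φ x) (S.h₂ x) * S.m₁ x + |S.g₁ x|) + e :=
  (pt S D he hη 1 x).second

lemma Err_nonneg (he : 0 < e) (M : ℝ) (x : X) : 0 ≤ Err M S x := by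
  have hc := O.c_pos
  have h1 := S.m₁nn x
  have h2 := S.m₂nn x
  have h3 := G_self_nonneg (C := C) (fun y => S.h₁ y - ψ₀ y) x
  have h4 := G_self_nonneg (C := C) (fun y => S.φ y - S.h₂ y) x
  unfold Err errR
  split_ifs <;> positivity

end Kap

end Crest.Agent.R249.ObC_780
end
end

-- ▼ part R249/ObD_780
section

/-!
Row 249, part A2 v3 (helper780), file 4: uniform bounds for the penalised pairs `PenSolG`.
-/

set_option autoImplicit false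
set_option linter.unusedVariables false
set_option linter.unusedSectionVars false

open MeasureTheory Set Filter Topology Matrix
open scoped ContDiff

noncomputable section

namespace Crest.Agent.R249.ObD_780

open Crest.Agent.R249.Calc_806 Crest.Agent.R249.Calc_806.Calc Crest.Agent.R249.PenH_806
  Crest.Agent.R249.ObB_780 Crest.Agent.R249.ObC_780 Crest.Agent.R249.FamA_780

variable {X : Type*} [TopologicalSpace X] [CompactSpace X] [MeasurableSpace X]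
  [OpensMeasurableSpace X] {μ : Measure X} [IsFiniteMeasure μ] {C : Calc X μ}

/-! ### the error on the contact set, abstract form -/

section Part

variable {ι : Type*} {good : ι → Prop} {e : ι → ℝ} {p q : ι → X → ℝ} {T : ι → Set X}

lemma int_part (he : ∀ i, good i → 0 < e i ∧ e i ≤ 1) (hp : ∀ i, C.Sm (p i)) (hq : ∀ i, C.Sm (q i))
    (hT : ∀ i, MeasurableSet (T i)) (h1 : LB μ good (fun i => C.G (p i) (p i)))
    (h2 : LB μ good (fun i => C.G (q i) (q i)))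
    (hw : ∃ A : ℝ, 0 ≤ A ∧ ∀ i, good i →
      ∫ x in T i, C.G (fun y => p i y - q i y) (fun y => p i y - q i y) x ^ 2 ∂μ ≤ A * e i) :
    ∃ A : ℝ, 0 ≤ A ∧ ∀ i, good i → ∫ x in T i, (e i * (1 + C.G (q i) (q i) x) +
      |C.G (p i) (p i) x - C.G (q i) (q i) x|) ^ 2 ∂μ ≤ A * Real.sqrt (e i) := by
  obtain ⟨A, hA, hw⟩ := hw
  obtain ⟨A₁, hA₁, k1⟩ := ((LB.const (μ := μ) (good := good) 1).add h2).ub
  obtain ⟨A₂, hA₂, k2⟩ := (h1.add h2).ub
  refine ⟨2 * A₁ + 2 * A + 2 * A₂, by positivity, fun i hi => ?_⟩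
  obtain ⟨he0, he1⟩ := he i hi
  set s := Real.sqrt (e i) with hs'
  have hs0 : 0 < s := Real.sqrt_pos.2 he0
  have hss : s ^ 2 = e i := Real.sq_sqrt he0.le
  have hs1 : s ≤ 1 := by rw [hs']; exact Real.sqrt_le_one.2 he1
  have hes : e i ≤ s := by nlinarith
  have sP := C.sm_G (hp i) (hp i)
  have sQ := C.sm_G (hq i) (hq i)
  have sw := sm_sub (hp i) (hq i)
  have sW := C.sm_G sw sw
  set P := C.G (p i) (p i) with hP
  set Q := C.G (q i) (q i) with hQ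
  set W := C.G (fun y => p i y - q i y) (fun y => p i y - q i y) with hW
  have hpt : ∀ x, (e i * (1 + Q x) + |P x - Q x|) ^ 2 ≤
      2 * e i ^ 2 * (1 + Q x) ^ 2 + (2 * s⁻¹ * W x ^ 2 + 2 * s * (P x + Q x) ^ 2) := by
    intro x
    have a1 := G_diff_sq (hp i) (hq i) x hs0
    have a2 : (e i * (1 + Q x) + |P x - Q x|) ^ 2 ≤
        2 * (e i * (1 + Q x)) ^ 2 + 2 * |P x - Q x| ^ 2 := by
      nlinarith [sq_nonneg (e i * (1 + Q x) - |P x - Q x|)]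
    rw [sq_abs] at a2
    nlinarith
  have s1 : C.Sm (fun x => 1 + Q x) := sm_add (sm_const _) sQ
  have s2 : C.Sm (fun x => P x + Q x) := sm_add sP sQ
  have j1 : Integrable (fun x => (1 + Q x) ^ 2) μ := integrable_sm (sm_pow s1 2)
  have j2 : Integrable (fun x => W x ^ 2) μ := integrable_sm (sm_pow sW 2)
  have j3 : Integrable (fun x => (P x + Q x) ^ 2) μ := integrable_sm (sm_pow s2 2)
  have c1 : IntegrableOn (fun x => 2 * e i ^ 2 * (1 + Q x) ^ 2) (T i) μ :=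
    (j1.const_mul _).integrableOn
  have c2 : IntegrableOn (fun x => 2 * s⁻¹ * W x ^ 2) (T i) μ := (j2.const_mul _).integrableOn
  have c3 : IntegrableOn (fun x => 2 * s * (P x + Q x) ^ 2) (T i) μ :=
    (j3.const_mul _).integrableOn
  have c4 : IntegrableOn (fun x => 2 * s⁻¹ * W x ^ 2 + 2 * s * (P x + Q x) ^ 2) (T i) μ :=
    c2.add c3
  have hle : ∫ x in T i, (e i * (1 + Q x) + |P x - Q x|) ^ 2 ∂μ ≤
      ∫ x in T i, (2 * e i ^ 2 * (1 + Q x) ^ 2 + (2 * s⁻¹ * W x ^ 2 + 2 * s * (P x + Q x) ^ 2)) ∂μ :=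
    integral_mono_of_nonneg (Eventually.of_forall fun x => sq_nonneg _) (c1.add c4)
      (Eventually.of_forall hpt)
  refine hle.trans ?_
  rw [integral_add c1 c4, integral_add c2 c3, integral_const_mul, integral_const_mul,
    integral_const_mul]
  have v1 : ∫ x in T i, (1 + Q x) ^ 2 ∂μ ≤ A₁ :=
    (setIntegral_le_integral j1 (Eventually.of_forall fun x => sq_nonneg _)).trans (k1 i hi)
  have v3 : ∫ x in T i, (P x + Q x) ^ 2 ∂μ ≤ A₂ :=
    (setIntegral_le_integral j3 (Eventually.of_forall fun x => sq_nonneg _)).trans (k2 i hi)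
  have v2 := hw i hi
  have w1 : 2 * e i ^ 2 * ∫ x in T i, (1 + Q x) ^ 2 ∂μ ≤ 2 * A₁ * s := by
    have a1 : 2 * e i ^ 2 * ∫ x in T i, (1 + Q x) ^ 2 ∂μ ≤ 2 * e i ^ 2 * A₁ :=
      mul_le_mul_of_nonneg_left v1 (by positivity)
    have a2 : e i ^ 2 ≤ s := by nlinarith
    nlinarith
  have w2 : 2 * s⁻¹ * ∫ x in T i, W x ^ 2 ∂μ ≤ 2 * A * s := by
    have a1 : 2 * s⁻¹ * ∫ x in T i, W x ^ 2 ∂μ ≤ 2 * s⁻¹ * (A * e i) :=
      mul_le_mul_of_nonneg_left v2 (by positivity)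
    have a2 : 2 * s⁻¹ * (A * e i) = 2 * A * s := by
      rw [← hss]; field_simp
    linarith
  have w3 : 2 * s * ∫ x in T i, (P x + Q x) ^ 2 ∂μ ≤ 2 * s * A₂ :=
    mul_le_mul_of_nonneg_left v3 (by positivity)
  linarith

end Part

/-! ### the family of all pairs -/

/-- a penalised pair with its parameters. -/
structure Idx (C : Calc X μ) {g B : ℝ} (O : Ob g B) (f : ℝ → ℝ) (η₀ : ℝ) (φ₀ ψ₀ : X → ℝ)
    (K : ℝ) where
  e : ℝ
  ε : ℝ
  S : PenSolG C O f η₀ φ₀ ψ₀ K e ε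

variable {g B : ℝ} {O : Ob g B} {f : ℝ → ℝ} {η₀ t₀ K M : ℝ} {φ₀ ψ₀ : X → ℝ}

/-- small width and small residual. -/
def Good (i : Idx C O f η₀ φ₀ ψ₀ K) : Prop := 0 < i.e ∧ i.e ≤ 1 ∧ i.ε ≤ i.e ^ 2

lemma diff_le {u v : ℝ} (hu : u ∈ Icc g B) (hv : v ∈ Icc g B) : |u - v| ≤ B - g + 1 := by
  have := eta_le hu hv; linarith

section Bounds

variable (D : DatG C O f η₀ t₀ φ₀ ψ₀) (hη : 0 ≤ η₀) (c : Cst O f M)

local notation "GG" => Good (C := C) (O := O) (f := f) (η₀ := η₀) (φ₀ := φ₀) (ψ₀ := ψ₀) (K := K)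

include D

lemma pb_G_h₁ : PB GG (fun i x => C.G i.S.h₁ i.S.h₁ x) := by
  obtain ⟨K₀, hK₀, hK⟩ := exists_bound (C.sm_G D.sψ D.sψ)
  have hc := O.c_pos
  refine ⟨K₀ / O.c ^ 2, by positivity, fun i hi x => ?_⟩
  rw [le_div_iff₀ (by positivity), mul_comm]
  exact (G_h₁ i.S D hi.1 x).trans ((le_abs_self _).trans (hK x))

include c

omit D in
/-- the Laplacian of an obstacle. -/
lemma lap_obst {a b r P Lh Lw : ℝ} (h : a * Lh + b * Lw + r * P = 0) (ha : a ≤ -O.c)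
    (hb : |b| ≤ 1) (hr : |r| ≤ M) (hP : 0 ≤ P) : |Lh| ≤ (|Lw| + M * P) * (1 / O.c) := by
  have hc := O.c_pos
  have h1 : |a * Lh| ≤ |Lw| + M * P := by
    have e1 : a * Lh = -(b * Lw) - r * P := by linarith
    rw [e1]
    refine (abs_sub _ _).trans ?_
    rw [abs_neg, abs_mul, abs_mul, abs_of_nonneg hP]
    have := mul_le_mul_of_nonneg_right hb (abs_nonneg Lw)
    have := mul_le_mul_of_nonneg_right hr hP
    linarith
  have h2 : O.c * |Lh| ≤ |a * Lh| := by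
    rw [abs_mul]
    refine mul_le_mul_of_nonneg_right ?_ (abs_nonneg _)
    rw [abs_of_neg (by linarith)]; linarith
  rw [mul_one_div, le_div_iff₀ hc]
  linarith

lemma pb_L_h₁ : PB GG (fun i x => |C.L i.S.h₁ x|) := by
  obtain ⟨K₀, hK₀, hK⟩ := exists_bound (C.sm_G D.sψ D.sψ)
  obtain ⟨K₁, hK₁, hK'⟩ := exists_bound (C.sm_L D.sψ)
  obtain ⟨K₂, hK₂, hK''⟩ := pb_G_h₁ (K := K) D
  have hc := O.c_pos
  have hM := c.M1
  refine ⟨(K₁ + M * (2 * K₂ + 2 * K₀)) * (1 / O.c), by positivity, fun i hi x => ?_⟩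
  have h1 := lap_obst (O := O) c (lap_h₁ i.S D x) (k1_le O (h₁_mem i.S hi.1 x) (ψ₀_mem D x))
    (abs_k2 O (h₁_mem i.S hi.1 x) (ψ₀_mem D x))
    (c.b2 _ (eta_le (h₁_mem i.S hi.1 x) (ψ₀_mem D x))) (G_self_nonneg _ _)
  refine h1.trans (mul_le_mul_of_nonneg_right ?_ (by positivity))
  have h2 := G_sub_le i.S.sh₁ D.sψ x
  have h3 := hK' x
  have h4 := (le_abs_self _).trans (hK x)
  have h5 := hK'' i hi x
  have h6 : M * C.G (fun y => i.S.h₁ y - ψ₀ y) (fun y => i.S.h₁ y - ψ₀ y) x ≤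
      M * (2 * K₂ + 2 * K₀) := mul_le_mul_of_nonneg_left (by linarith) (by linarith)
  linarith

include hη

lemma pb_m₁ : PB GG (fun i x => i.S.m₁ x) := by
  obtain ⟨A, hA, h⟩ := pb_L_h₁ (K := K) D c
  have hM := c.M1
  refine ⟨A + M + η₀ + 1, by positivity, fun i hi x => ?_⟩
  have h1 := i.S.m₁le x
  have h2 := h i hi x
  have h3 := c.fb _ (h₁_mem i.S hi.1 x)
  have h4 : max 0 (C.L i.S.h₁ x - (f (i.S.h₁ x) - η₀)) ≤ A + M + η₀ := by
    refine max_le (by positivity) ?_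
    have := (abs_le.1 h3).1
    have := (le_abs_self _).trans h2
    linarith
  have h5 := hi.2.1
  linarith

lemma lb_m₁ : LB μ GG (fun i => i.S.m₁) :=
  LB.of_pb (fun i => C.sm_cont i.S.sm₁) (by
    obtain ⟨A, hA, h⟩ := pb_m₁ (K := K) D hη c
    refine ⟨A, hA, fun i hi x => ?_⟩
    simp only
    rw [abs_of_nonneg (i.S.m₁nn x)]
    exact h i hi x)

omit D c hη in
lemma int_g₁ (i : Idx C O f η₀ φ₀ ψ₀ K) (hi : Good i) :
    ∫ x, i.S.g₁ x ^ 2 ∂μ ≤ Kg K μ * i.e :=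
  int_g_sq i.S.sg₁ (C.sm_cont i.S.sr₁) hi.1 hi.2.1 hi.2.2 i.S.r₁int i.S.g₁le

omit D c hη in
lemma int_g₂ (i : Idx C O f η₀ φ₀ ψ₀ K) (hi : Good i) :
    ∫ x, i.S.g₂ x ^ 2 ∂μ ≤ Kg K μ * i.e :=
  int_g_sq i.S.sg₂ (C.sm_cont i.S.sr₂) hi.1 hi.2.1 hi.2.2 i.S.r₂int i.S.g₂le

omit D c hη in
lemma lb_g₁ : LB μ GG (fun i => i.S.g₁) :=
  ⟨fun i => C.sm_cont i.S.sg₁, Kg K μ, Kg_nonneg K, fun i hi => (int_g₁ i hi).trans (by
    have := hi.2.1; have := Kg_nonneg (μ := μ) K; nlinarith)⟩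

omit D c hη in
lemma lb_g₂ : LB μ GG (fun i => i.S.g₂) :=
  ⟨fun i => C.sm_cont i.S.sg₂, Kg K μ, Kg_nonneg K, fun i hi => (int_g₂ i hi).trans (by
    have := hi.2.1; have := Kg_nonneg (μ := μ) K; nlinarith)⟩

lemma lb_L_φ : LB μ GG (fun i => C.L i.S.φ) := by
  have h0 := ((LB.const (μ := μ) (good := GG) (M + η₀)).add (lb_m₁ (K := K) D hη c)).add
    (lb_g₁ (K := K)).abs
  refine h0.mono (fun i => C.sm_cont (C.sm_L i.S.sφ)) fun i hi x => ?_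
  have h3 := c.fb _ (φ_mem i.S D x)
  have h4 := i.S.m₁nn x
  rw [i.S.eqφ x]
  have h5 : |(f (i.S.φ x) - η₀) + i.S.m₁ x + i.S.g₁ x| ≤
      |f (i.S.φ x) - η₀| + |i.S.m₁ x| + |i.S.g₁ x| :=
    (abs_add_le _ _).trans (add_le_add_left (abs_add_le _ _) _)
  have h6 : |f (i.S.φ x) - η₀| ≤ |f (i.S.φ x)| + |η₀| := abs_sub _ _
  rw [abs_of_nonneg hη] at h6
  rw [abs_of_nonneg h4] at h5
  linarith

lemma lb_G_φ : LB μ GG (fun i => C.G i.S.φ i.S.φ) :=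
  lb_G (v := fun i : Idx C O f η₀ φ₀ ψ₀ K => i.S.φ) (fun i => i.S.sφ) (s := |g| + |B| + 1)
    (by positivity) (fun i hi x => by
      have h := φ_mem i.S D x
      have a1 := neg_abs_le g
      have a2 := le_abs_self B
      have a3 := abs_nonneg g
      have a4 := abs_nonneg B
      rw [abs_le]; constructor <;> linarith [h.1, h.2]) (lb_L_φ D hη c)

lemma lb_G_h₂ : LB μ GG (fun i => C.G i.S.h₂ i.S.h₂) := by
  have hc := O.c_pos
  refine ((lb_G_φ (K := K) D hη c).mul (1 / O.c ^ 2)).mono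
    (fun i => C.sm_cont (C.sm_G i.S.sh₂ i.S.sh₂)) fun i hi x => ?_
  have h1 := G_h₂ i.S D hi.1 x
  rw [abs_of_nonneg (G_self_nonneg _ _), one_div, inv_mul_eq_div, le_div_iff₀ (by positivity),
    mul_comm]
  exact h1

/-- `|d(φ - h₂)|²` -/
lemma lb_G_φh₂ : LB μ GG (fun i => C.G (fun y => i.S.φ y - i.S.h₂ y)
    (fun y => i.S.φ y - i.S.h₂ y)) := by
  refine (((lb_G_φ (K := K) D hη c).mul 2).add ((lb_G_h₂ (K := K) D hη c).mul 2)).mono
    (fun i => C.sm_cont (C.sm_G (sm_sub i.S.sφ i.S.sh₂) (sm_sub i.S.sφ i.S.sh₂)))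
    fun i hi x => ?_
  rw [abs_of_nonneg (G_self_nonneg _ _)]
  exact G_sub_le i.S.sφ i.S.sh₂ x

lemma lb_L_h₂ : LB μ GG (fun i => C.L i.S.h₂) := by
  refine (((lb_L_φ (K := K) D hη c).abs.add ((lb_G_φh₂ (K := K) D hη c).mul M)).mul
    (1 / O.c)).mono (fun i => C.sm_cont (C.sm_L i.S.sh₂)) fun i hi x => ?_
  have h0 := lap_h₂ i.S x
  have h1 := lap_obst (O := O) c (a := O.k2 (i.S.φ x) (i.S.h₂ x)) (b := O.k1 (i.S.φ x) (i.S.h₂ x))
    (Lh := C.L i.S.h₂ x) (Lw := C.L i.S.φ x) (by rw [← h0]; ring)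
    (k2_le O (φ_mem i.S D x) (h₂_mem i.S hi.1 x))
    (abs_k1 O (φ_mem i.S D x) (h₂_mem i.S hi.1 x))
    (c.b2 _ (eta_le (φ_mem i.S D x) (h₂_mem i.S hi.1 x))) (G_self_nonneg _ _)
  rw [mul_comm (1 / O.c)]
  exact h1

lemma lb_m₂ : LB μ GG (fun i => i.S.m₂) := by
  refine ((lb_L_h₂ (K := K) D hη c).abs.add (LB.const (μ := μ) (good := GG) (M + η₀ + 1))).mono
    (fun i => C.sm_cont i.S.sm₂) fun i hi x => ?_
  have hM := c.M1
  rw [abs_of_nonneg (i.S.m₂nn x)]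
  have h1 := i.S.m₂le x
  have h3 := c.fb _ (h₂_mem i.S hi.1 x)
  have h4 : max 0 (C.L i.S.h₂ x - (f (i.S.h₂ x) - η₀)) ≤ |C.L i.S.h₂ x| + M + η₀ := by
    have := abs_nonneg (C.L i.S.h₂ x)
    refine max_le (by linarith) ?_
    have := (abs_le.1 h3).1
    have := le_abs_self (C.L i.S.h₂ x)
    linarith
  have h5 := hi.2.1
  linarith

lemma lb_L_ψ : LB μ GG (fun i => C.L i.S.ψ) := by
  have h0 := ((LB.const (μ := μ) (good := GG) (M + η₀)).add (lb_m₂ (K := K) D hη c)).add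
    (lb_g₂ (K := K)).abs
  refine h0.mono (fun i => C.sm_cont (C.sm_L i.S.sψ)) fun i hi x => ?_
  have h3 := c.fb _ (ψ_mem i.S D x)
  have h4 := i.S.m₂nn x
  rw [i.S.eqψ x]
  have h5 : |(f (i.S.ψ x) - η₀) + i.S.m₂ x + i.S.g₂ x| ≤
      |f (i.S.ψ x) - η₀| + |i.S.m₂ x| + |i.S.g₂ x| :=
    (abs_add_le _ _).trans (add_le_add_left (abs_add_le _ _) _)
  have h6 : |f (i.S.ψ x) - η₀| ≤ |f (i.S.ψ x)| + |η₀| := abs_sub _ _
  rw [abs_of_nonneg hη] at h6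
  rw [abs_of_nonneg h4] at h5
  linarith

lemma lb_G_ψ : LB μ GG (fun i => C.G i.S.ψ i.S.ψ) :=
  lb_G (v := fun i : Idx C O f η₀ φ₀ ψ₀ K => i.S.ψ) (fun i => i.S.sψ) (s := |g| + |B| + 1)
    (by positivity) (fun i hi x => by
      have h := ψ_mem i.S D x
      have a1 := neg_abs_le g
      have a2 := le_abs_self B
      have a3 := abs_nonneg g
      have a4 := abs_nonneg B
      rw [abs_le]; constructor <;> linarith [h.1, h.2]) (lb_L_ψ D hη c)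

/-- `|d(φ - ψ)|²` -/
lemma lb_G_η : LB μ GG (fun i => C.G (fun y => i.S.φ y - i.S.ψ y)
    (fun y => i.S.φ y - i.S.ψ y)) := by
  refine (((lb_G_φ (K := K) D hη c).mul 2).add ((lb_G_ψ (K := K) D hη c).mul 2)).mono
    (fun i => C.sm_cont (C.sm_G (sm_sub i.S.sφ i.S.sψ) (sm_sub i.S.sφ i.S.sψ)))
    fun i hi x => ?_
  rw [abs_of_nonneg (G_self_nonneg _ _)]
  exact G_sub_le i.S.sφ i.S.sψ x

omit hη c in
/-- `|d(h₁ - ψ₀)|²` -/
lemma lb_G_h₁ψ₀ : LB μ GG (fun i => C.G (fun y => i.S.h₁ y - ψ₀ y)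
    (fun y => i.S.h₁ y - ψ₀ y)) := by
  have h1 : LB μ GG (fun i => C.G i.S.h₁ i.S.h₁) :=
    LB.of_pb (fun i => C.sm_cont (C.sm_G i.S.sh₁ i.S.sh₁)) (by
      obtain ⟨A, hA, h⟩ := pb_G_h₁ (K := K) D
      refine ⟨A, hA, fun i hi x => ?_⟩
      simp only
      rw [abs_of_nonneg (G_self_nonneg _ _)]
      exact h i hi x)
  refine ((h1.mul 2).add ((LB.fix (C.sm_cont (C.sm_G D.sψ D.sψ))).mul 2)).mono
    (fun i => C.sm_cont (C.sm_G (sm_sub i.S.sh₁ D.sψ) (sm_sub i.S.sh₁ D.sψ)))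
    fun i hi x => ?_
  rw [abs_of_nonneg (G_self_nonneg _ _)]
  exact G_sub_le i.S.sh₁ D.sψ x

lemma lb_L_kap : LB μ GG (fun i => C.L (kap i.S)) := by
  have hM := c.M1
  refine (((lb_L_φ (K := K) D hη c).abs.add (lb_L_ψ (K := K) D hη c).abs).add
    ((lb_G_η (K := K) D hη c).mul M)).mono
    (fun i => C.sm_cont (C.sm_L (sm_kap i.S))) fun i hi x => ?_
  have h1 : C.L (kap i.S) x = C.L (fun x => O.k (i.S.φ x) (i.S.ψ x)) x := rfl
  rw [h1, L_k O i.S.sφ i.S.sψ]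
  have a1 := abs_k1 O (φ_mem i.S D x) (ψ_mem i.S D x)
  have a2 := abs_k2 O (φ_mem i.S D x) (ψ_mem i.S D x)
  have a3 := c.b2 _ (eta_le (φ_mem i.S D x) (ψ_mem i.S D x))
  have t1 := abs_add_le (O.k1 (i.S.φ x) (i.S.ψ x) * C.L i.S.φ x +
    O.k2 (i.S.φ x) (i.S.ψ x) * C.L i.S.ψ x) (deriv (deriv O.Γ) (i.S.φ x - i.S.ψ x) *
      C.G (fun y => i.S.φ y - i.S.ψ y) (fun y => i.S.φ y - i.S.ψ y) x)
  have t2 := abs_add_le (O.k1 (i.S.φ x) (i.S.ψ x) * C.L i.S.φ x)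
    (O.k2 (i.S.φ x) (i.S.ψ x) * C.L i.S.ψ x)
  rw [abs_mul, abs_mul] at t2
  rw [abs_mul (deriv (deriv O.Γ) (i.S.φ x - i.S.ψ x)),
    abs_of_nonneg (G_self_nonneg (C := C) (fun y => i.S.φ y - i.S.ψ y) x)] at t1
  have b1 := mul_le_mul_of_nonneg_right a1 (abs_nonneg (C.L i.S.φ x))
  have b2 := mul_le_mul_of_nonneg_right a2 (abs_nonneg (C.L i.S.ψ x))
  have b3 := mul_le_mul_of_nonneg_right a3
    (G_self_nonneg (C := C) (fun y => i.S.φ y - i.S.ψ y) x)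
  linarith

/-! ### the truncated bounds -/

/-- `k` on `{k ≤ 5 e}`. -/
theorem trunc_kap : ∃ A : ℝ, 0 ≤ A ∧ ∀ i : Idx C O f η₀ φ₀ ψ₀ K, Good i →
    ∀ T : Set X, MeasurableSet T → (∀ x ∈ T, kap i.S x ≤ 5 * i.e) →
      ∫ x in T, C.G (kap i.S) (kap i.S) x ^ 2 ∂μ ≤ A * i.e ∧
      ∫ x in T, C.G (kap i.S) (kap i.S) x ∂μ ≤ A * i.e := by
  refine trunc_family (C := C) (good := GG) (e := fun i => i.e) (v := fun i => kap i.S)
    (fun i hi => hi.1) (fun i => sm_kap i.S) (s := B - g + 1) (α := 2) (β := 5)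
    (by linarith [O.g_lt]) (by norm_num) (by norm_num) (fun i hi x => ?_)
    (fun i hi x => kap_ge i.S D hi.1 x) (lb_L_kap D hη c)
  have hφ := φ_mem i.S D x
  have hψ := ψ_mem i.S D x
  have hh := h₂_mem i.S hi.1 x
  have h0 := i.S.kh₂ x
  have h1 := abs_le.1 (eta_le hψ hh)
  rcases le_total (i.S.ψ x) (i.S.h₂ x) with h | h
  · obtain ⟨h2, h3⟩ := k_mono2 O hφ hψ hh h
    have h4 := mul_nonneg O.c_pos.le (sub_nonneg.2 h)
    unfold kap
    rw [abs_le]; constructor <;> linarith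
  · obtain ⟨h2, h3⟩ := k_mono2 O hφ hh hψ h
    have h4 := mul_nonneg O.c_pos.le (sub_nonneg.2 h)
    unfold kap
    rw [abs_le]; constructor <;> linarith

omit D c hη in
/-- the support of the first penalty. -/
lemma meas_T₁ (i : Idx C O f η₀ φ₀ ψ₀ K) : MeasurableSet {x | i.S.m₁ x ≠ 0} :=
  (isOpen_ne_fun (C.sm_cont i.S.sm₁) continuous_const).measurableSet

omit D c hη in
lemma meas_T₂ (i : Idx C O f η₀ φ₀ ψ₀ K) : MeasurableSet {x | i.S.m₂ x ≠ 0} :=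
  (isOpen_ne_fun (C.sm_cont i.S.sm₂) continuous_const).measurableSet

/-- `h₁ - φ` on the support of the first penalty. -/
theorem trunc_v₁ : ∃ A : ℝ, 0 ≤ A ∧ ∀ i : Idx C O f η₀ φ₀ ψ₀ K, Good i →
    ∫ x in {x | i.S.m₁ x ≠ 0},
      C.G (fun y => i.S.h₁ y - i.S.φ y) (fun y => i.S.h₁ y - i.S.φ y) x ^ 2 ∂μ ≤ A * i.e := by
  have lb1 : LB μ GG (fun i => C.L i.S.h₁) :=
    LB.of_pb (fun i => C.sm_cont (C.sm_L i.S.sh₁)) (pb_L_h₁ D c)
  obtain ⟨A, hA, h⟩ := trunc_family (C := C) (good := GG) (e := fun i => i.e)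
    (v := fun i y => i.S.h₁ y - i.S.φ y)
    (fun i hi => hi.1) (fun i => sm_sub i.S.sh₁ i.S.sφ) (s := B - g + 1) (α := 2) (β := 1)
    (by linarith [O.g_lt]) (by norm_num) (by norm_num)
    (fun i hi x => diff_le (h₁_mem i.S hi.1 x) (φ_mem i.S D x))
    (fun i hi x => by have := i.S.φle x; linarith)
    (lb_L_sub (fun i => i.S.sh₁) (fun i => i.S.sφ) lb1 (lb_L_φ D hη c))
  refine ⟨A, hA, fun i hi => (h i hi _ (meas_T₁ i) fun x hx => ?_).1⟩
  have := i.S.m₁sup x hx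
  linarith

/-- `ψ - ψ₀` on the support of the first penalty. -/
theorem trunc_v₂ : ∃ A : ℝ, 0 ≤ A ∧ ∀ i : Idx C O f η₀ φ₀ ψ₀ K, Good i →
    ∫ x in {x | i.S.m₁ x ≠ 0},
      C.G (fun y => i.S.ψ y - ψ₀ y) (fun y => i.S.ψ y - ψ₀ y) x ^ 2 ∂μ ≤ A * i.e := by
  have hc := O.c_pos
  obtain ⟨A, hA, h⟩ := trunc_family (C := C) (good := GG) (e := fun i => i.e)
    (v := fun i y => i.S.ψ y - ψ₀ y)
    (fun i hi => hi.1) (fun i => sm_sub i.S.sψ D.sψ) (s := B - g + 1) (α := 0) (β := 7 / O.c)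
    (by linarith [O.g_lt]) (by norm_num) (by positivity)
    (fun i hi x => diff_le (ψ_mem i.S D x) (ψ₀_mem D x))
    (fun i hi x => by have := i.S.ψge x; linarith)
    (lb_L_sub (fun i => i.S.sψ) (fun i => D.sψ) (lb_L_ψ D hη c)
      (LB.fix (C.sm_cont (C.sm_L D.sψ))))
  refine ⟨A, hA, fun i hi => (h i hi _ (meas_T₁ i) fun x hx => ?_).1⟩
  exact ψ_sub_le i.S D hi.1 x hx

/-- `h₂ - ψ` on the support of the second penalty. -/
theorem trunc_v₃ : ∃ A : ℝ, 0 ≤ A ∧ ∀ i : Idx C O f η₀ φ₀ ψ₀ K, Good i →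
    ∫ x in {x | i.S.m₂ x ≠ 0},
      C.G (fun y => i.S.h₂ y - i.S.ψ y) (fun y => i.S.h₂ y - i.S.ψ y) x ^ 2 ∂μ ≤ A * i.e := by
  obtain ⟨A, hA, h⟩ := trunc_family (C := C) (good := GG) (e := fun i => i.e)
    (v := fun i y => i.S.h₂ y - i.S.ψ y)
    (fun i hi => hi.1) (fun i => sm_sub i.S.sh₂ i.S.sψ) (s := B - g + 1) (α := 2) (β := 1)
    (by linarith [O.g_lt]) (by norm_num) (by norm_num)
    (fun i hi x => diff_le (h₂_mem i.S hi.1 x) (ψ_mem i.S D x))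
    (fun i hi x => by have := i.S.ψle x; linarith)
    (lb_L_sub (fun i => i.S.sh₂) (fun i => i.S.sψ) (lb_L_h₂ D hη c) (lb_L_ψ D hη c))
  refine ⟨A, hA, fun i hi => (h i hi _ (meas_T₂ i) fun x hx => ?_).1⟩
  have := i.S.m₂sup x hx
  linarith

end Bounds

end Crest.Agent.R249.ObD_780
end
end

-- ▼ part R249/ObE_780
section

/-!
Row 249, part A2 v3 (helper780), file 5: the error of the simplex property tends to zero in `L²`;
**output of sections 5 and 6** for the penalised pairs `PenSolG` of helper806.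
-/

set_option autoImplicit false
set_option linter.unusedVariables false
set_option linter.unusedSectionVars false

open MeasureTheory Set Filter Topology Matrix
open scoped ContDiff

noncomputable section

namespace Crest.Agent.R249.ObE_780

open Crest.Agent.R249.Calc_806 Crest.Agent.R249.Calc_806.Calc Crest.Agent.R249.PenH_806
  Crest.Agent.R249.ObB_780 Crest.Agent.R249.ObC_780 Crest.Agent.R249.ObD_780
  Crest.Agent.R249.FamA_780

variable {X : Type*} [TopologicalSpace X] [CompactSpace X] [MeasurableSpace X]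
  [OpensMeasurableSpace X] {μ : Measure X} [IsFiniteMeasure μ] {C : Calc X μ}

variable {g B : ℝ} {O : Ob g B} {f : ℝ → ℝ} {η₀ t₀ K M : ℝ} {φ₀ ψ₀ : X → ℝ}

local notation "GG" => Good (C := C) (O := O) (f := f) (η₀ := η₀) (φ₀ := φ₀) (ψ₀ := ψ₀) (K := K)

/-- `|d(φ-ψ)|²`. -/
def Pη (i : Idx C O f η₀ φ₀ ψ₀ K) : X → ℝ :=
  C.G (fun y => i.S.φ y - i.S.ψ y) (fun y => i.S.φ y - i.S.ψ y)

/-- `|d(h₁-ψ₀)|²`. -/
def P₁ (i : Idx C O f η₀ φ₀ ψ₀ K) : X → ℝ :=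
  C.G (fun y => i.S.h₁ y - ψ₀ y) (fun y => i.S.h₁ y - ψ₀ y)

/-- `|d(φ-h₂)|²`. -/
def P₂ (i : Idx C O f η₀ φ₀ ψ₀ K) : X → ℝ :=
  C.G (fun y => i.S.φ y - i.S.h₂ y) (fun y => i.S.φ y - i.S.h₂ y)

/-- `|-(a) - b|² ≤ 2|a|² + 2|b|²` with functions: `(φ-ψ)-(h₁-ψ₀) = -(h₁-φ)-(ψ-ψ₀)`. -/
lemma G_four {a b : X → ℝ} (ha : C.Sm a) (hb : C.Sm b) (x : X) :
    C.G (fun y => -a y - b y) (fun y => -a y - b y) x ^ 2 ≤
      8 * (C.G a a x ^ 2 + C.G b b x ^ 2) := by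
  have h1 := G_sub_le (C := C) (sm_neg ha) hb x
  have h2 : C.G (fun y => -a y) (fun y => -a y) x = C.G a a x := by
    rw [G_neg_left ha, G_symm, G_neg_left ha]; ring
  rw [h2] at h1
  have h3 := G_self_nonneg (C := C) (fun y => -a y - b y) x
  have h4 := G_self_nonneg (C := C) a x
  have h5 := G_self_nonneg (C := C) b x
  have h6 : C.G (fun y => -a y - b y) (fun y => -a y - b y) x ^ 2 ≤
      (2 * C.G a a x + 2 * C.G b b x) ^ 2 := pow_le_pow_left₀ h3 h1 2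
  nlinarith [sq_nonneg (C.G a a x - C.G b b x)]

section Err

variable (D : DatG C O f η₀ t₀ φ₀ ψ₀) (hη : 0 ≤ η₀) (c : Cst O f M)

include D hη c

lemma part₁ : ∃ A : ℝ, 0 ≤ A ∧ ∀ i : Idx C O f η₀ φ₀ ψ₀ K, Good i →
    ∫ x in {x | i.S.m₁ x ≠ 0}, (i.e * (1 + P₁ i x) + |Pη i x - P₁ i x|) ^ 2 ∂μ ≤
      A * Real.sqrt i.e := by
  obtain ⟨A₁, hA₁, h1⟩ := trunc_v₁ (K := K) D hη c
  obtain ⟨A₂, hA₂, h2⟩ := trunc_v₂ (K := K) D hη c
  refine int_part (C := C) (good := GG) (e := fun i => i.e) (p := fun i y => i.S.φ y - i.S.ψ y)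
    (q := fun i y => i.S.h₁ y - ψ₀ y) (T := fun i => {x | i.S.m₁ x ≠ 0})
    (fun i hi => ⟨hi.1, hi.2.1⟩) (fun i => sm_sub i.S.sφ i.S.sψ) (fun i => sm_sub i.S.sh₁ D.sψ)
    meas_T₁ (lb_G_η D hη c) (lb_G_h₁ψ₀ D) ⟨8 * (A₁ + A₂), by positivity, fun i hi => ?_⟩
  have sa := sm_sub i.S.sh₁ i.S.sφ
  have sb := sm_sub i.S.sψ D.sψ
  have e1 : (fun y => i.S.φ y - i.S.ψ y - (i.S.h₁ y - ψ₀ y)) =
      fun y => -(i.S.h₁ y - i.S.φ y) - (i.S.ψ y - ψ₀ y) := by funext y; ring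
  rw [e1]
  have j1 : IntegrableOn (fun x => C.G (fun y => i.S.h₁ y - i.S.φ y)
      (fun y => i.S.h₁ y - i.S.φ y) x ^ 2) {x | i.S.m₁ x ≠ 0} μ :=
    (integrable_sm (sm_pow (C.sm_G sa sa) 2)).integrableOn
  have j2 : IntegrableOn (fun x => C.G (fun y => i.S.ψ y - ψ₀ y)
      (fun y => i.S.ψ y - ψ₀ y) x ^ 2) {x | i.S.m₁ x ≠ 0} μ :=
    (integrable_sm (sm_pow (C.sm_G sb sb) 2)).integrableOn
  have hle : ∫ x in {x | i.S.m₁ x ≠ 0}, C.G (fun y => -(i.S.h₁ y - i.S.φ y) - (i.S.ψ y - ψ₀ y))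
      (fun y => -(i.S.h₁ y - i.S.φ y) - (i.S.ψ y - ψ₀ y)) x ^ 2 ∂μ ≤
      ∫ x in {x | i.S.m₁ x ≠ 0}, 8 * (C.G (fun y => i.S.h₁ y - i.S.φ y)
      (fun y => i.S.h₁ y - i.S.φ y) x ^ 2 + C.G (fun y => i.S.ψ y - ψ₀ y)
      (fun y => i.S.ψ y - ψ₀ y) x ^ 2) ∂μ :=
    integral_mono_of_nonneg (Eventually.of_forall fun x => sq_nonneg _) ((j1.add j2).const_mul 8)
      (Eventually.of_forall fun x => G_four sa sb x)
  refine hle.trans ?_
  rw [integral_const_mul, integral_add j1 j2]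
  have := h1 i hi
  have := h2 i hi
  have e3 : 8 * (A₁ + A₂) * i.e = 8 * (A₁ * i.e + A₂ * i.e) := by ring
  rw [e3]
  linarith

lemma part₂ : ∃ A : ℝ, 0 ≤ A ∧ ∀ i : Idx C O f η₀ φ₀ ψ₀ K, Good i →
    ∫ x in {x | i.S.m₂ x ≠ 0}, (i.e * (1 + P₂ i x) + |Pη i x - P₂ i x|) ^ 2 ∂μ ≤
      A * Real.sqrt i.e := by
  obtain ⟨A₁, hA₁, h1⟩ := trunc_v₃ (K := K) D hη c
  refine int_part (C := C) (good := GG) (e := fun i => i.e) (p := fun i y => i.S.φ y - i.S.ψ y)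
    (q := fun i y => i.S.φ y - i.S.h₂ y) (T := fun i => {x | i.S.m₂ x ≠ 0})
    (fun i hi => ⟨hi.1, hi.2.1⟩) (fun i => sm_sub i.S.sφ i.S.sψ) (fun i => sm_sub i.S.sφ i.S.sh₂)
    meas_T₂ (lb_G_η D hη c) (lb_G_φh₂ D hη c) ⟨A₁, hA₁, fun i hi => ?_⟩
  have e1 : (fun y => i.S.φ y - i.S.ψ y - (i.S.φ y - i.S.h₂ y)) =
      fun y => i.S.h₂ y - i.S.ψ y := by funext y; ring
  rw [e1]
  exact h1 i hi

/-- **the error of the simplex property** tends to zero in `L²`. -/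
theorem int_Err : ∃ A : ℝ, 0 ≤ A ∧ ∀ i : Idx C O f η₀ φ₀ ψ₀ K, Good i →
      Measurable (Err M i.S) ∧ Integrable (fun x => Err M i.S x ^ 2) μ ∧
        ∫ x, Err M i.S x ^ 2 ∂μ ≤ A * Real.sqrt i.e := by
  classical
  obtain ⟨A₁, hA₁, h1⟩ := part₁ (K := K) D hη c
  obtain ⟨A₂, hA₂, h2⟩ := part₂ (K := K) D hη c
  obtain ⟨A₃, hA₃, h3⟩ := ((lb_m₁ (K := K) D hη c).add (lb_m₂ (K := K) D hη c)).ub
  set N : ℝ := 12 * M ^ 2 * (2 + 7 / O.c) with hN
  have hKg := Kg_nonneg (μ := μ) K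
  refine ⟨5 * N ^ 2 * (μ.real univ + Kg K μ + A₃ + A₁ + A₂), by positivity, fun i hi => ?_⟩
  obtain ⟨he, he1, hε⟩ := hi
  have hi : Good i := ⟨he, he1, hε⟩
  set e := i.e with he'
  set s := Real.sqrt e with hs'
  have hs0 : 0 < s := Real.sqrt_pos.2 he
  have hss : s ^ 2 = e := Real.sq_sqrt he.le
  have hs1 : s ≤ 1 := by rw [hs']; exact Real.sqrt_le_one.2 he1
  have hes : e ≤ s := by nlinarith
  have c1 : Continuous (fun x => e * (1 + P₁ i x) + |Pη i x - P₁ i x|) := by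
    have s1 := C.sm_cont (C.sm_G (sm_sub i.S.sφ i.S.sψ) (sm_sub i.S.sφ i.S.sψ))
    have s2 := C.sm_cont (C.sm_G (sm_sub i.S.sh₁ D.sψ) (sm_sub i.S.sh₁ D.sψ))
    unfold P₁ Pη
    fun_prop
  have c2 : Continuous (fun x => e * (1 + P₂ i x) + |Pη i x - P₂ i x|) := by
    have s1 := C.sm_cont (C.sm_G (sm_sub i.S.sφ i.S.sψ) (sm_sub i.S.sφ i.S.sψ))
    have s2 := C.sm_cont (C.sm_G (sm_sub i.S.sφ i.S.sh₂) (sm_sub i.S.sφ i.S.sh₂))
    unfold P₂ Pη
    fun_prop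
  have cg := C.sm_cont i.S.sg₁
  have cm : Continuous (fun x => i.S.m₁ x + i.S.m₂ x) :=
    (C.sm_cont i.S.sm₁).add (C.sm_cont i.S.sm₂)
  set E₁ := fun x => e * (1 + P₁ i x) + |Pη i x - P₁ i x| with hE₁
  set E₂ := fun x => e * (1 + P₂ i x) + |Pη i x - P₂ i x| with hE₂
  set T₁ : Set X := {x | i.S.m₁ x ≠ 0} with hT₁
  set T₂ : Set X := {x | i.S.m₂ x ≠ 0} with hT₂
  have mT₁ : MeasurableSet T₁ := meas_T₁ i
  have mT₂ : MeasurableSet T₂ := meas_T₂ i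
  have hform : ∀ x, Err M i.S x = N * (e + |i.S.g₁ x| + e * (i.S.m₁ x + i.S.m₂ x) +
      T₁.indicator E₁ x + T₂.indicator E₂ x) := by
    intro x
    have a1 : T₁.indicator E₁ x = if i.S.m₁ x = 0 then 0 else E₁ x := by
      by_cases h : i.S.m₁ x = 0
      · rw [if_pos h, indicator_of_notMem]
        simpa [hT₁] using h
      · rw [if_neg h, indicator_of_mem]
        exact h
    have a2 : T₂.indicator E₂ x = if i.S.m₂ x = 0 then 0 else E₂ x := by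
      by_cases h : i.S.m₂ x = 0
      · rw [if_pos h, indicator_of_notMem]
        simpa [hT₂] using h
      · rw [if_neg h, indicator_of_mem]
        exact h
    rw [a1, a2]
    rfl
  have hmeas : Measurable (Err M i.S) := by
    have : Err M i.S = fun x => N * (e + |i.S.g₁ x| + e * (i.S.m₁ x + i.S.m₂ x) +
      T₁.indicator E₁ x + T₂.indicator E₂ x) := by funext x; exact hform x
    rw [this]
    exact measurable_const.mul ((((measurable_const.add cg.abs.measurable).add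
      (measurable_const.mul cm.measurable)).add (c1.measurable.indicator mT₁)).add
        (c2.measurable.indicator mT₂))
  -- the majorant
  set W : X → ℝ := fun x => 5 * N ^ 2 * (e ^ 2 + i.S.g₁ x ^ 2 + e ^ 2 * (i.S.m₁ x + i.S.m₂ x) ^ 2 +
      T₁.indicator (fun x => E₁ x ^ 2) x + T₂.indicator (fun x => E₂ x ^ 2) x) with hW
  have hle : ∀ x, Err M i.S x ^ 2 ≤ W x := by
    intro x
    have a1 : T₁.indicator (fun x => E₁ x ^ 2) x = (T₁.indicator E₁ x) ^ 2 := by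
      by_cases h : x ∈ T₁
      · rw [indicator_of_mem h, indicator_of_mem h]
      · rw [indicator_of_notMem h, indicator_of_notMem h]; norm_num
    have a2 : T₂.indicator (fun x => E₂ x ^ 2) x = (T₂.indicator E₂ x) ^ 2 := by
      by_cases h : x ∈ T₂
      · rw [indicator_of_mem h, indicator_of_mem h]
      · rw [indicator_of_notMem h, indicator_of_notMem h]; norm_num
    rw [hform, hW]
    simp only
    rw [a1, a2]
    have a3 : i.S.g₁ x ^ 2 = |i.S.g₁ x| ^ 2 := (sq_abs _).symm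
    have a4 : e ^ 2 * (i.S.m₁ x + i.S.m₂ x) ^ 2 = (e * (i.S.m₁ x + i.S.m₂ x)) ^ 2 := by ring
    rw [a3, a4, mul_pow, mul_comm (5:ℝ) (N ^ 2), mul_assoc]
    refine mul_le_mul_of_nonneg_left ?_ (sq_nonneg _)
    generalize T₁.indicator E₁ x = p
    generalize T₂.indicator E₂ x = q
    generalize |i.S.g₁ x| = r
    generalize e * (i.S.m₁ x + i.S.m₂ x) = t
    nlinarith [sq_nonneg (e - r), sq_nonneg (e - t), sq_nonneg (e - p), sq_nonneg (e - q),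
      sq_nonneg (r - t), sq_nonneg (r - p), sq_nonneg (r - q), sq_nonneg (t - p),
      sq_nonneg (t - q), sq_nonneg (p - q)]
  have i1 : Integrable (fun x => i.S.g₁ x ^ 2) μ := integrable_sm (sm_pow i.S.sg₁ 2)
  have i1' : Integrable (fun x => (i.S.m₁ x + i.S.m₂ x) ^ 2) μ := integrable_cont (cm.pow 2)
  have i2 : Integrable (T₁.indicator (fun x => E₁ x ^ 2)) μ :=
    (integrable_cont (c1.pow 2)).indicator mT₁
  have i3 : Integrable (T₂.indicator (fun x => E₂ x ^ 2)) μ :=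
    (integrable_cont (c2.pow 2)).indicator mT₂
  have i4 : Integrable (fun x => e ^ 2 + i.S.g₁ x ^ 2) μ := (integrable_const _).add i1
  have i4' : Integrable (fun x => e ^ 2 + i.S.g₁ x ^ 2 + e ^ 2 * (i.S.m₁ x + i.S.m₂ x) ^ 2) μ :=
    i4.add (i1'.const_mul _)
  have i5 : Integrable (fun x => e ^ 2 + i.S.g₁ x ^ 2 + e ^ 2 * (i.S.m₁ x + i.S.m₂ x) ^ 2 +
      T₁.indicator (fun x => E₁ x ^ 2) x) μ := i4'.add i2
  have i6 : Integrable W μ := (i5.add i3).const_mul _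
  have iE : Integrable (fun x => Err M i.S x ^ 2) μ :=
    i6.mono' (hmeas.pow_const 2).aestronglyMeasurable (Eventually.of_forall fun x => by
      rw [Real.norm_eq_abs, abs_of_nonneg (sq_nonneg _)]
      exact hle x)
  refine ⟨hmeas, iE, (integral_mono iE i6 hle).trans ?_⟩
  have e1 : ∫ x, W x ∂μ = 5 * N ^ 2 * (e ^ 2 * μ.real univ +
      ∫ x, i.S.g₁ x ^ 2 ∂μ + e ^ 2 * ∫ x, (i.S.m₁ x + i.S.m₂ x) ^ 2 ∂μ +
      ∫ x in T₁, E₁ x ^ 2 ∂μ + ∫ x in T₂, E₂ x ^ 2 ∂μ) := by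
    rw [hW, integral_const_mul, integral_add i5 i3, integral_add i4' i2,
      integral_add i4 (i1'.const_mul _), integral_add (integrable_const _) i1, integral_const,
      integral_const_mul, integral_indicator mT₁, integral_indicator mT₂, smul_eq_mul]
    ring
  rw [e1]
  have g1 := int_g₁ i hi
  have g2 := h1 i hi
  have g3 := h2 i hi
  have g4 := h3 i hi
  have hV : 0 ≤ μ.real univ := measureReal_nonneg
  have e2 : e ^ 2 ≤ s := by nlinarith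
  have b1 : e ^ 2 * μ.real univ ≤ μ.real univ * s := by nlinarith
  have b2 : ∫ x, i.S.g₁ x ^ 2 ∂μ ≤ Kg K μ * s := by
    have : Kg K μ * e ≤ Kg K μ * s := mul_le_mul_of_nonneg_left hes hKg
    linarith
  have b3 : e ^ 2 * ∫ x, (i.S.m₁ x + i.S.m₂ x) ^ 2 ∂μ ≤ A₃ * s := by
    have : e ^ 2 * ∫ x, (i.S.m₁ x + i.S.m₂ x) ^ 2 ∂μ ≤ s * A₃ :=
      mul_le_mul e2 g4 (integral_nonneg fun x => sq_nonneg _) hs0.le
    linarith
  have e3 : 5 * N ^ 2 * (μ.real univ + Kg K μ + A₃ + A₁ + A₂) * s =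
      5 * N ^ 2 * (μ.real univ * s + Kg K μ * s + A₃ * s + A₁ * s + A₂ * s) := by ring
  rw [e3]
  refine mul_le_mul_of_nonneg_left ?_ (by positivity)
  linarith

end Err

/-! ### the output -/

/-- **output of sections 5 and 6** for one penalised pair. -/
structure OutG {e ε : ℝ} (S : PenSolG C O f η₀ φ₀ ψ₀ K e ε) (A δ : ℝ) (er : X → ℝ) : Prop where
  er_meas : Measurable er
  er_nn : ∀ x, 0 ≤ er x
  er_int : Integrable (fun x => er x ^ 2) μ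
  er_le : ∫ x, er x ^ 2 ∂μ ≤ δ
  φ_mem : ∀ x, S.φ x ∈ Icc g B
  ψ_mem : ∀ x, S.ψ x ∈ Icc g B
  simplex : ∀ x, -O.k1 (S.φ x) (S.ψ x) * S.m₁ x + -O.k2 (S.φ x) (S.ψ x) * S.m₂ x ≤
    max 0 (O.E f (S.φ x) (S.ψ x) (C.G (fun y => S.φ y - S.ψ y) (fun y => S.φ y - S.ψ y) x)) +
      η₀ + er x
  kap_ge : ∀ x, -(2 * e) ≤ kap S x
  supp₁ : ∀ x, 5 * e < kap S x → S.m₁ x = 0
  supp₂ : ∀ x, 5 * e < kap S x → S.m₂ x = 0
  kap_four : ∫ x in {x | kap S x ≤ 5 * e}, C.G (kap S) (kap S) x ^ 2 ∂μ ≤ δ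
  g₁_sq : ∫ x, S.g₁ x ^ 2 ∂μ ≤ δ
  g₂_sq : ∫ x, S.g₂ x ^ 2 ∂μ ≤ δ
  bound : ∫ x, (1 + C.G S.φ S.φ x + C.G S.ψ S.ψ x + |C.L S.φ x| + |C.L S.ψ x|) ^ 2 ∂μ ≤ A
  rbφ : ∫ x, C.Rb S.φ x ∂μ ≤ A
  rbψ : ∫ x, C.Rb S.ψ x ∂μ ≤ A
  rbη : ∫ x, C.Rb (fun y => S.φ y - S.ψ y) x ∂μ ≤ A
  rbκ : ∫ x, C.Rb (kap S) x ∂μ ≤ A
  -- contact
  m₁_le : ∀ x, S.m₁ x ≤ A
  m₂_sq : ∫ x, S.m₂ x ^ 2 ∂μ ≤ A
  contact₁ : ∀ x, -O.k1 (S.h₁ x) (ψ₀ x) * S.m₁ x ≤ max 0 (O.E f (S.h₁ x) (ψ₀ x)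
      (C.G (fun y => S.h₁ y - ψ₀ y) (fun y => S.h₁ y - ψ₀ y) x) + η₀) + e
  contact₂ : ∀ x, -O.k2 (S.φ x) (S.h₂ x) * S.m₂ x ≤ max 0 (O.E f (S.φ x) (S.h₂ x)
      (C.G (fun y => S.φ y - S.h₂ y) (fun y => S.φ y - S.h₂ y) x) + η₀ +
        O.k1 (S.φ x) (S.h₂ x) * S.m₁ x + |S.g₁ x|) + e
  near₁ : ∫ x in {x | S.m₁ x ≠ 0},
      C.G (fun y => S.h₁ y - S.φ y) (fun y => S.h₁ y - S.φ y) x ^ 2 ∂μ ≤ δ
  near₂ : ∫ x in {x | S.m₁ x ≠ 0},
      C.G (fun y => S.ψ y - ψ₀ y) (fun y => S.ψ y - ψ₀ y) x ^ 2 ∂μ ≤ δ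
  near₃ : ∫ x in {x | S.m₂ x ≠ 0},
      C.G (fun y => S.h₂ y - S.ψ y) (fun y => S.h₂ y - S.ψ y) x ^ 2 ∂μ ≤ δ

/-- **sections 5 and 6**. -/
theorem exists_outG (hf : ContDiff ℝ ∞ f) (D : DatG C O f η₀ t₀ φ₀ ψ₀)
    (hη : 0 ≤ η₀) : ∃ A : ℝ, 0 ≤ A ∧ ∀ δ > 0, ∃ e₀ > 0, ∀ e > 0, e ≤ e₀ →
      ∀ ε, ε ≤ e ^ 2 → ∀ S : PenSolG C O f η₀ φ₀ ψ₀ K e ε, ∃ er : X → ℝ, OutG S A δ er := by
  obtain ⟨M, c⟩ := exists_cst O hf
  obtain ⟨A₁, hA₁, h1⟩ := int_Err (K := K) D hη c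
  obtain ⟨A₂, hA₂, h2⟩ := trunc_kap (K := K) D hη c
  obtain ⟨A₃, hA₃, h3⟩ := (((((LB.const (μ := μ) (good := GG) 1).add
    (lb_G_φ (K := K) D hη c)).add (lb_G_ψ (K := K) D hη c)).add
    (lb_L_φ (K := K) D hη c).abs).add (lb_L_ψ (K := K) D hη c).abs).ub
  obtain ⟨A₄, hA₄, h4⟩ := ub_Rb (v := fun i : Idx C O f η₀ φ₀ ψ₀ K => i.S.φ)
    (fun i => i.S.sφ) (lb_L_φ D hη c)
  obtain ⟨A₅, hA₅, h5⟩ := ub_Rb (v := fun i : Idx C O f η₀ φ₀ ψ₀ K => i.S.ψ)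
    (fun i => i.S.sψ) (lb_L_ψ D hη c)
  obtain ⟨A₆, hA₆, h6⟩ := ub_Rb (v := fun i : Idx C O f η₀ φ₀ ψ₀ K => kap i.S)
    (fun i => sm_kap i.S) (lb_L_kap D hη c)
  obtain ⟨A₇, hA₇, h7⟩ := ub_Rb (v := fun (i : Idx C O f η₀ φ₀ ψ₀ K) y => i.S.φ y - i.S.ψ y)
    (fun i => sm_sub i.S.sφ i.S.sψ)
    (lb_L_sub (fun i => i.S.sφ) (fun i => i.S.sψ) (lb_L_φ D hη c) (lb_L_ψ D hη c))
  obtain ⟨A₈, hA₈, h8⟩ := pb_m₁ (K := K) D hη c
  obtain ⟨A₉, hA₉, h9⟩ := (lb_m₂ (K := K) D hη c).ub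
  obtain ⟨B₁, hB₁, k1⟩ := trunc_v₁ (K := K) D hη c
  obtain ⟨B₂, hB₂, k2⟩ := trunc_v₂ (K := K) D hη c
  obtain ⟨B₃, hB₃, k3⟩ := trunc_v₃ (K := K) D hη c
  have hKg := Kg_nonneg (μ := μ) K
  refine ⟨A₃ + A₄ + A₅ + A₆ + A₇ + A₈ + A₉, by positivity, fun δ hδ => ?_⟩
  set Q : ℝ := 1 + A₁ + A₂ + Kg K μ + B₁ + B₂ + B₃ with hQ
  have hQ0 : 0 < Q := by rw [hQ]; linarith
  refine ⟨min 1 ((δ / Q) ^ 2), lt_min one_pos (by positivity), ?_⟩
  intro e he hee ε hε S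
  have l3 : e ≤ 1 := hee.trans (min_le_left _ _)
  have l4 : e ≤ (δ / Q) ^ 2 := hee.trans (min_le_right _ _)
  have hse : Real.sqrt e ≤ δ / Q := by
    rw [Real.sqrt_le_left (by positivity)]
    exact l4
  have hes : e ≤ Real.sqrt e := by
    have h8 : Real.sqrt e ^ 2 = e := Real.sq_sqrt he.le
    have h9 : Real.sqrt e ≤ 1 := Real.sqrt_le_one.2 l3
    have h10 := Real.sqrt_nonneg e
    nlinarith
  have key : ∀ {a : ℝ}, 0 ≤ a → a ≤ Q → a * Real.sqrt e ≤ δ := by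
    intro a ha haB
    have : a * Real.sqrt e ≤ Q * (δ / Q) := mul_le_mul haB hse (Real.sqrt_nonneg _) hQ0.le
    rw [mul_div_cancel₀ _ hQ0.ne'] at this
    exact this
  have key' : ∀ {a : ℝ}, 0 ≤ a → a ≤ Q → a * e ≤ δ := fun ha haB =>
    (mul_le_mul_of_nonneg_left hes ha).trans (key ha haB)
  set i : Idx C O f η₀ φ₀ ψ₀ K := ⟨e, ε, S⟩ with hi'
  have hi : Good i := ⟨he, l3, hε⟩
  obtain ⟨q1, q2, q3⟩ := h1 i hi
  refine ⟨Err M S, ?_⟩
  constructor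
  · exact q1
  · exact Err_nonneg S D he M
  · exact q2
  · exact q3.trans (key hA₁ (by rw [hQ]; linarith))
  · exact ObC_780.φ_mem S D
  · exact ObC_780.ψ_mem S D
  · exact ObC_780.simplex S D he hη c
  · exact ObC_780.kap_ge S D he
  · intro x hx
    by_contra hne
    exact absurd (kap_le₁ S D he x hne) (not_le.2 hx)
  · intro x hx
    by_contra hne
    have h9 := kap_le₂ S D he x hne
    linarith
  · have hm : MeasurableSet {x | kap S x ≤ 5 * e} :=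
      (isClosed_le (C.sm_cont (sm_kap S)) continuous_const).measurableSet
    exact (h2 i hi _ hm fun x hx => hx).1.trans (key' hA₂ (by rw [hQ]; linarith))
  · exact (int_g₁ i hi).trans (key' hKg (by rw [hQ]; linarith))
  · exact (int_g₂ i hi).trans (key' hKg (by rw [hQ]; linarith))
  · have := h3 i hi
    simp only at this
    refine le_trans this (by linarith)
  · have := h4 i hi
    exact le_trans this (by linarith)
  · have := h5 i hi
    exact le_trans this (by linarith)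
  · have := h7 i hi
    exact le_trans this (by linarith)
  · have := h6 i hi
    exact le_trans this (by linarith)
  · intro x
    have := h8 i hi x
    simp only at this
    exact le_trans this (by linarith)
  · have := h9 i hi
    simp only at this
    exact le_trans this (by linarith)
  · exact ObC_780.contact₁ S D he hη
  · exact ObC_780.contact₂ S D he hη
  · exact (k1 i hi).trans (key' hB₁ (by rw [hQ]; linarith))
  · exact (k2 i hi).trans (key' hB₂ (by rw [hQ]; linarith))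
  · exact (k3 i hi).trans (key' hB₃ (by rw [hQ]; linarith))

end Crest.Agent.R249.ObE_780
end
end

-- ▼ part R249/ObF_780
section

/-!
Row 249, part A2 v3 (helper780), file 6: existence of penalised pairs with all bounds.
-/

set_option autoImplicit false
set_option linter.unusedVariables false
set_option linter.unusedSectionVars false

open MeasureTheory Set Filter Topology Matrix
open scoped ContDiff

noncomputable section

namespace Crest.Agent.R249.ObF_780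

open Crest.Agent.R249.Calc_806 Crest.Agent.R249.Calc_806.Calc Crest.Agent.R249.PenH_806
  Crest.Agent.R249.ObE_780

variable {X : Type*} [TopologicalSpace X] [CompactSpace X] [MeasurableSpace X]
  [OpensMeasurableSpace X] {μ : Measure X} [IsFiniteMeasure μ]

/-- **sections 3-6 of A2 v3**: existence of penalised pairs with all bounds. -/
theorem exists_pairG (C : Calc X μ) {g B : ℝ} (O : Ob g B) {f : ℝ → ℝ} (hf : ContDiff ℝ ∞ f) :
    ∃ K : ℝ, 0 < K ∧ ∀ {η₀ t₀ : ℝ} {φ₀ ψ₀ : X → ℝ}, DatG C O f η₀ t₀ φ₀ ψ₀ → 0 < t₀ → 0 ≤ η₀ →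
      ∃ A : ℝ, 0 ≤ A ∧ ∀ δ > 0, ∃ e ε : ℝ, 0 < e ∧ e ≤ δ ∧ 5 * e ≤ t₀ ∧ 0 < ε ∧
        ∃ S : PenSolG C O f η₀ φ₀ ψ₀ K e ε, ∃ er : X → ℝ, OutG S A δ er := by
  obtain ⟨K, hK, h⟩ := exists_penG C O hf
  refine ⟨K, hK, fun {η₀ t₀ φ₀ ψ₀} D ht hη => ?_⟩
  obtain ⟨A, hA, h1⟩ := exists_outG (K := K) hf D hη
  refine ⟨A, hA, fun δ hδ => ?_⟩
  obtain ⟨e₀, he₀, h2⟩ := h1 δ hδ
  have hκ := O.κB_pos
  have hgB := O.g_lt
  set e := min (min e₀ δ) (min (t₀ / 5) (min (O.κB / 2) ((B - g) / 2))) with he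
  have e0 : 0 < e := lt_min (lt_min he₀ hδ) (lt_min (by positivity)
    (lt_min (by positivity) (by linarith)))
  have e1 : e ≤ e₀ := (min_le_left _ _).trans (min_le_left _ _)
  have e2 : e ≤ δ := (min_le_left _ _).trans (min_le_right _ _)
  have e3 : e ≤ t₀ / 5 := (min_le_right _ _).trans (min_le_left _ _)
  have e4 : e ≤ O.κB / 2 := (min_le_right _ _).trans ((min_le_right _ _).trans (min_le_left _ _))
  have e5 : e ≤ (B - g) / 2 := (min_le_right _ _).trans ((min_le_right _ _).trans (min_le_right _ _))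
  obtain ⟨S⟩ := h D e0 (by linarith) (by linarith) (by linarith) (show 0 < e ^ 2 by positivity)
  obtain ⟨er, her⟩ := h2 e e0 e1 (e ^ 2) le_rfl S
  exact ⟨e, e ^ 2, e0, e2, by linarith, by positivity, S, er, her⟩

end Crest.Agent.R249.ObF_780
end
end

-- ▼ part R249/LimE4_621
section

/-!
# Row 249, part A2 v3: the limit passage for `Ob`, file 4: helper780's pairs, uniform bounds
-/

set_option autoImplicit false
set_option linter.unusedVariables false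
set_option linter.unusedSectionVars false

open MeasureTheory Set Filter Topology Matrix
open scoped ContDiff

noncomputable section

namespace Crest.Agent.R249.LimE621

open Crest.Agent.R249.Lim621 Crest.Agent.R249.LimG621 Crest.Agent.R249.PenH_806
open Crest.Agent.R249.ObE_780 Crest.Agent.R249.ObC_780
open Calc_806 Calc_806.Calc

attribute [local instance] Matrix.frobeniusNormedAddCommGroup Matrix.frobeniusNormedSpace

variable {X : Type*} [TopologicalSpace X] [CompactSpace X] [MeasurableSpace X]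
  [OpensMeasurableSpace X] {μ : Measure X} [IsFiniteMeasure μ]

variable {g B : ℝ}

theorem E_le {O : Ob g B} {f : ℝ → ℝ} {M : ℝ} (hM : ∀ u, g ≤ u → u ≤ B → |f u| ≤ M)
    (hconc : ∀ η, |η| ≤ B - g → deriv (deriv O.Γ) η ≤ 0) {u v P : ℝ} (hu : u ∈ Icc g B)
    (hv : v ∈ Icc g B) (hP : 0 ≤ P) : O.E f u v P ≤ 2 * M := by
  have huv : |u - v| ≤ B - g := by
    rw [abs_le]; constructor <;> linarith [hu.1, hu.2, hv.1, hv.2]
  obtain ⟨a1, a2, a3, a4⟩ := k1_bounds O huv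
  have h1 : |O.k1 u v * f u| ≤ 1 * M := by
    rw [abs_mul]; exact mul_le_mul a1 (hM u hu.1 hu.2) (abs_nonneg _) zero_le_one
  have h2 : |O.k2 u v * f v| ≤ 1 * M := by
    rw [abs_mul]; exact mul_le_mul a2 (hM v hv.1 hv.2) (abs_nonneg _) zero_le_one
  have h3 : deriv (deriv O.Γ) (u - v) * P ≤ 0 :=
    mul_nonpos_of_nonpos_of_nonneg (hconc _ huv) hP
  have h4 := (abs_le.mp h1).2
  have h5 := (abs_le.mp h2).2
  unfold Ob.E
  linarith

theorem m_le {c a m Y : ℝ} (hc : 0 < c) (hca : c ≤ a) (hm : 0 ≤ m) (h : a * m ≤ Y) :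
    m ≤ c⁻¹ * Y := by
  rw [le_inv_mul_iff₀ hc]
  exact (mul_le_mul_of_nonneg_right hca hm).trans h

theorem sq2 (a b : ℝ) : (a + b) ^ 2 ≤ 2 * (a ^ 2 + b ^ 2) := by nlinarith [sq_nonneg (a - b)]

theorem sq3 (a b c : ℝ) : (a + b + c) ^ 2 ≤ 3 * (a ^ 2 + b ^ 2 + c ^ 2) := by
  nlinarith [sq_nonneg (a - b), sq_nonneg (a - c), sq_nonneg (b - c)]

/-- **uniform bounds** (for `Γ'' ≤ 0`) -/
theorem exists_A0 (C : Calc X μ) (O : Ob g B) {f : ℝ → ℝ} (hf : ContDiff ℝ ∞ f)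
    (hconc : ∀ η, |η| ≤ B - g → deriv (deriv O.Γ) η ≤ 0) :
    ∃ A₀ : ℝ, 0 ≤ A₀ ∧ ∀ (η₀ t₀ K e ε A δ : ℝ) (φ₀ ψ₀ : X → ℝ)
      (S : PenSolG C O f η₀ φ₀ ψ₀ K e ε) (er : X → ℝ), DatG C O f η₀ t₀ φ₀ ψ₀ → 0 ≤ η₀ →
      η₀ ≤ 1 → 0 < e → e ≤ 1 → δ ≤ 1 → OutG S A δ er →
      ∫ x, (1 + C.G S.φ S.φ x + C.G S.ψ S.ψ x + |C.L S.φ x| + |C.L S.ψ x|) ^ 2 ∂μ ≤ A₀ := by
  have hc := O.c_pos
  have hB0 : 0 < B := O.g_pos.trans O.g_lt
  obtain ⟨M, hM⟩ := (isCompact_Icc (a := g) (b := B)).exists_bound_of_continuousOn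
    hf.continuous.continuousOn
  have hM' : ∀ u, g ≤ u → u ≤ B → |f u| ≤ M := fun u h1 h2 => by
    have := hM u ⟨h1, h2⟩
    rwa [Real.norm_eq_abs] at this
  have hM0 : 0 ≤ M := (abs_nonneg _).trans (hM' g le_rfl O.g_lt.le)
  obtain ⟨N, hN⟩ : ∃ N, N = M + 1 + O.c⁻¹ * (2 * M + 2) := ⟨_, rfl⟩
  have hci : 0 < O.c⁻¹ := by positivity
  have hN0 : 0 < N := by rw [hN]; positivity
  obtain ⟨V, hV⟩ : ∃ V, V = ∫ x : X, (1 : ℝ) ∂μ := ⟨_, rfl⟩
  have hV0 : 0 ≤ V := by rw [hV]; exact integral_nonneg fun _ => zero_le_one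
  obtain ⟨B1, hB1⟩ : ∃ B1, B1 = 2 * (N ^ 2 * V + 1) := ⟨_, rfl⟩
  obtain ⟨B2, hB2⟩ : ∃ B2, B2 = 3 * (N ^ 2 * V + (O.c⁻¹) ^ 2 + 1) := ⟨_, rfl⟩
  have hB10 : 0 ≤ B1 := by rw [hB1]; positivity
  have hB20 : 0 ≤ B2 := by rw [hB2]; positivity
  refine ⟨5 * (V + 16 * B ^ 2 * B1 + 16 * B ^ 2 * B2 + B1 + B2), by positivity, ?_⟩
  intro η₀ t₀ K e ε A δ φ₀ ψ₀ S er D hη0 hη1 he0 he1 hδ Ou
  -- pointwise bounds
  have h1mem : ∀ x, S.h₁ x ∈ Icc g B := fun x => ⟨S.h₁ge x, by linarith [S.h₁le x]⟩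
  have h2mem : ∀ x, S.h₂ x ∈ Icc g B := fun x => ⟨S.h₂ge x, by linarith [S.h₂le x]⟩
  have h0mem : ∀ x, ψ₀ x ∈ Icc g B := fun x => ⟨D.ψge x, D.ψle x⟩
  have hab : ∀ u v : ℝ, u ∈ Icc g B → v ∈ Icc g B → |u - v| ≤ B - g := fun u v hu hv => by
    rw [abs_le]; constructor <;> linarith [hu.1, hu.2, hv.1, hv.2]
  have hm1 : ∀ x, S.m₁ x ≤ O.c⁻¹ * (2 * M + 2) := fun x => by
    have h1 := Ou.contact₁ x
    have h2 := E_le hM' hconc (h1mem x) (h0mem x)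
      (G_self_nonneg (C := C) (fun y => S.h₁ y - ψ₀ y) x)
    obtain ⟨-, -, a3, a4⟩ := k1_bounds O (hab _ _ (h1mem x) (h0mem x))
    refine m_le hc a3 (S.m₁nn x) (h1.trans ?_)
    have : max 0 (O.E f (S.h₁ x) (ψ₀ x)
      (C.G (fun y => S.h₁ y - ψ₀ y) (fun y => S.h₁ y - ψ₀ y) x) + η₀) ≤ 2 * M + 1 :=
      max_le (by linarith) (by linarith)
    linarith
  have hm2 : ∀ x, S.m₂ x ≤ O.c⁻¹ * (2 * M + 2 + |S.g₁ x|) := fun x => by
    have h1 := Ou.contact₂ x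
    have h2 := E_le hM' hconc (Ou.φ_mem x) (h2mem x)
      (G_self_nonneg (C := C) (fun y => S.φ y - S.h₂ y) x)
    obtain ⟨-, -, a3, a4⟩ := k1_bounds O (hab _ _ (Ou.φ_mem x) (h2mem x))
    refine m_le hc a4 (S.m₂nn x) (h1.trans ?_)
    have h3 : O.k1 (S.φ x) (S.h₂ x) * S.m₁ x ≤ 0 :=
      mul_nonpos_of_nonpos_of_nonneg (by linarith) (S.m₁nn x)
    have h4 := abs_nonneg (S.g₁ x)
    have : max 0 (O.E f (S.φ x) (S.h₂ x)
      (C.G (fun y => S.φ y - S.h₂ y) (fun y => S.φ y - S.h₂ y) x) + η₀ +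
        O.k1 (S.φ x) (S.h₂ x) * S.m₁ x + |S.g₁ x|) ≤ 2 * M + 1 + |S.g₁ x| :=
      max_le (by positivity) (by linarith)
    linarith
  have hL1 : ∀ x, C.L S.φ x ^ 2 ≤ 2 * (N ^ 2 + S.g₁ x ^ 2) := fun x => by
    have h1 : |C.L S.φ x| ≤ N + |S.g₁ x| := by
      rw [S.eqφ x]
      have h2 := hM' _ (Ou.φ_mem x).1 (Ou.φ_mem x).2
      have h3 := hm1 x
      have h4 := S.m₁nn x
      have h5 := abs_le.mp h2
      have h6 := neg_abs_le (S.g₁ x)
      have h7 := le_abs_self (S.g₁ x)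
      rw [hN, abs_le]
      have h8 : 0 ≤ O.c⁻¹ * (2 * M + 2) := by positivity
      constructor <;> linarith
    calc C.L S.φ x ^ 2 = |C.L S.φ x| ^ 2 := (sq_abs _).symm
      _ ≤ (N + |S.g₁ x|) ^ 2 := pow_le_pow_left₀ (abs_nonneg _) h1 2
      _ ≤ 2 * (N ^ 2 + |S.g₁ x| ^ 2) := sq2 _ _
      _ = _ := by rw [sq_abs]
  have hL2 : ∀ x, C.L S.ψ x ^ 2 ≤ 3 * (N ^ 2 + (O.c⁻¹) ^ 2 * S.g₁ x ^ 2 + S.g₂ x ^ 2) := fun x => by
    have h1 : |C.L S.ψ x| ≤ N + O.c⁻¹ * |S.g₁ x| + |S.g₂ x| := by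
      rw [S.eqψ x]
      have h2 := hM' _ (Ou.ψ_mem x).1 (Ou.ψ_mem x).2
      have h3 := hm2 x
      have h4 := S.m₂nn x
      have h5 := abs_le.mp h2
      have h6 := neg_abs_le (S.g₂ x)
      have h7 := le_abs_self (S.g₂ x)
      rw [hN, abs_le]
      have h8 : 0 ≤ O.c⁻¹ * (2 * M + 2) := by positivity
      have h9 : 0 ≤ O.c⁻¹ * |S.g₁ x| := by positivity
      constructor <;> linarith
    calc C.L S.ψ x ^ 2 = |C.L S.ψ x| ^ 2 := (sq_abs _).symm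
      _ ≤ (N + O.c⁻¹ * |S.g₁ x| + |S.g₂ x|) ^ 2 := pow_le_pow_left₀ (abs_nonneg _) h1 2
      _ ≤ 3 * (N ^ 2 + (O.c⁻¹ * |S.g₁ x|) ^ 2 + |S.g₂ x| ^ 2) := sq3 _ _ _
      _ = _ := by rw [mul_pow, sq_abs, sq_abs]
  -- integrals
  have ig1 : Integrable (fun x => S.g₁ x ^ 2) μ := integrable_cont ((C.sm_cont S.sg₁).pow 2)
  have ig2 : Integrable (fun x => S.g₂ x ^ 2) μ := integrable_cont ((C.sm_cont S.sg₂).pow 2)
  have iN : Integrable (fun _ : X => N ^ 2) μ := integrable_const _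
  have iL1 : Integrable (fun x => C.L S.φ x ^ 2) μ := integrable_sm (sm_pow (C.sm_L S.sφ) 2)
  have iL2 : Integrable (fun x => C.L S.ψ x ^ 2) μ := integrable_sm (sm_pow (C.sm_L S.sψ) 2)
  have hNV : ∫ _ : X, N ^ 2 ∂μ = N ^ 2 * V := by
    rw [hV, ← integral_const_mul]; simp
  have hI1 : ∫ x, C.L S.φ x ^ 2 ∂μ ≤ B1 := by
    have h1 := integral_mono iL1 ((iN.add ig1).const_mul 2) hL1
    have h2 : ∫ x, 2 * (N ^ 2 + S.g₁ x ^ 2) ∂μ = 2 * (N ^ 2 * V + ∫ x, S.g₁ x ^ 2 ∂μ) := by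
      rw [integral_const_mul, integral_add iN ig1, hNV]
    have h3 : ∫ x, C.L S.φ x ^ 2 ∂μ ≤ ∫ x, 2 * (N ^ 2 + S.g₁ x ^ 2) ∂μ := h1
    rw [h2] at h3
    have h4 := Ou.g₁_sq
    rw [hB1]
    linarith
  have hI2 : ∫ x, C.L S.ψ x ^ 2 ∂μ ≤ B2 := by
    obtain ⟨i3, e3⟩ := int_add3 iN (ig1.const_mul ((O.c⁻¹) ^ 2)) ig2
    have h1 := integral_mono iL2 (i3.const_mul 3) hL2
    rw [integral_const_mul, e3, hNV, integral_const_mul] at h1
    have h4 := Ou.g₁_sq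
    have h5 := Ou.g₂_sq
    have h6 : (O.c⁻¹) ^ 2 * ∫ x, S.g₁ x ^ 2 ∂μ ≤ (O.c⁻¹) ^ 2 * 1 :=
      mul_le_mul_of_nonneg_left (h4.trans hδ) (by positivity)
    rw [hB2]
    linarith
  have hb1 : ∀ x, |S.φ x| ≤ B := fun x => by
    rw [abs_of_pos (O.g_pos.trans_le (Ou.φ_mem x).1)]; exact (Ou.φ_mem x).2
  have hb2 : ∀ x, |S.ψ x| ≤ B := fun x => by
    rw [abs_of_pos (O.g_pos.trans_le (Ou.ψ_mem x).1)]; exact (Ou.ψ_mem x).2
  have hG1 : ∫ x, C.G S.φ S.φ x ^ 2 ∂μ ≤ 16 * B ^ 2 * B1 :=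
    (IntA_780.int_G_sq_le S.sφ hB0 hb1).trans (mul_le_mul_of_nonneg_left
      ((int_Rb_le S.sφ).trans hI1) (by positivity))
  have hG2 : ∫ x, C.G S.ψ S.ψ x ^ 2 ∂μ ≤ 16 * B ^ 2 * B2 :=
    (IntA_780.int_G_sq_le S.sψ hB0 hb2).trans (mul_le_mul_of_nonneg_left
      ((int_Rb_le S.sψ).trans hI2) (by positivity))
  have iG1 : Integrable (fun x => C.G S.φ S.φ x ^ 2) μ :=
    integrable_sm (sm_pow (C.sm_G S.sφ S.sφ) 2)
  have iG2 : Integrable (fun x => C.G S.ψ S.ψ x ^ 2) μ :=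
    integrable_sm (sm_pow (C.sm_G S.sψ S.sψ) 2)
  have i1 : Integrable (fun _ : X => (1 : ℝ)) μ := integrable_const _
  obtain ⟨i5, e5⟩ := int_add5 i1 iG1 iG2 iL1 iL2
  have cont : Continuous
      (fun x => 1 + C.G S.φ S.φ x + C.G S.ψ S.ψ x + |C.L S.φ x| + |C.L S.ψ x|) := by
    have h1 := C.sm_cont (C.sm_G S.sφ S.sφ)
    have h2 := C.sm_cont (C.sm_G S.sψ S.sψ)
    have h3 := C.sm_cont (C.sm_L S.sφ)
    have h4 := C.sm_cont (C.sm_L S.sψ)
    exact (((continuous_const.add h1).add h2).add h3.abs).add h4.abs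
  have hle : ∀ x, (1 + C.G S.φ S.φ x + C.G S.ψ S.ψ x + |C.L S.φ x| + |C.L S.ψ x|) ^ 2 ≤
      5 * (1 + C.G S.φ S.φ x ^ 2 + C.G S.ψ S.ψ x ^ 2 + C.L S.φ x ^ 2 + C.L S.ψ x ^ 2) := fun x => by
    have h := sq_sum5 1 (C.G S.φ S.φ x) (C.G S.ψ S.ψ x) (|C.L S.φ x|) (|C.L S.ψ x|)
    rw [sq_abs, sq_abs, one_pow] at h
    exact h
  have hfin := integral_mono (integrable_cont (cont.pow 2)) (i5.const_mul 5) hle
  rw [integral_const_mul, e5, ← hV] at hfin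
  refine hfin.trans ?_
  linarith

/-- from helper780's output to the data of the limit passage -/
theorem toBdE {C : Calc X μ} {O : Ob g B} {f : ℝ → ℝ} {η₀ t₀ K e ε A A₀ δ δ1 : ℝ}
    {φ₀ ψ₀ : X → ℝ} (D : DatG C O f η₀ t₀ φ₀ ψ₀) (he : 0 < e) (heδ : 5 * e ≤ δ1) (hη0 : 0 ≤ η₀)
    (S : PenSolG C O f η₀ φ₀ ψ₀ K e ε) {er : X → ℝ} (Ou : OutG S A δ er)
    (hδ : 2 * (δ + η₀ ^ 2 * ∫ x : X, (1 : ℝ) ∂μ) ≤ δ1) (hδ1 : δ ≤ δ1)
    (hA0 : ∫ x, (1 + C.G S.φ S.φ x + C.G S.ψ S.ψ x + |C.L S.φ x| + |C.L S.ψ x|) ^ 2 ∂μ ≤ A₀) :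
    BdE C O 0 A₀ δ1 f S.φ S.ψ S.m₁ S.m₂ (fun x => S.g₁ x - η₀) (fun x => S.g₂ x - η₀)
      (fun x => er x + η₀) (5 * e) := by
  have hkap : kap S = kO O S.φ S.ψ := rfl
  have key : ∀ (q : X → ℝ), Integrable (fun x => q x ^ 2) μ → AEStronglyMeasurable q μ →
      ∫ x, q x ^ 2 ∂μ ≤ δ → ∀ s : ℝ, s ^ 2 = η₀ ^ 2 →
      Integrable (fun x => (q x + s) ^ 2) μ ∧ ∫ x, (q x + s) ^ 2 ∂μ ≤ δ1 := by
    intro q iq mq hq s hs
    have i1 : Integrable (fun _ : X => η₀ ^ 2) μ := integrable_const _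
    have hle : ∀ x, (q x + s) ^ 2 ≤ 2 * (q x ^ 2 + η₀ ^ 2) := fun x => by
      have := sq2 (q x) s
      rw [hs] at this
      exact this
    have i2 : Integrable (fun x => 2 * (q x ^ 2 + η₀ ^ 2)) μ := (iq.add i1).const_mul 2
    have i3 : Integrable (fun x => (q x + s) ^ 2) μ := by
      refine i2.mono' ((mq.add aestronglyMeasurable_const).pow 2)
        (Eventually.of_forall fun x => ?_)
      rw [Real.norm_of_nonneg (sq_nonneg _)]
      exact hle x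
    refine ⟨i3, (integral_mono i3 i2 hle).trans ?_⟩
    rw [integral_const_mul, integral_add iq i1]
    have : ∫ _ : X, η₀ ^ 2 ∂μ = η₀ ^ 2 * ∫ x : X, (1 : ℝ) ∂μ := by
      rw [← integral_const_mul]; simp
    rw [this]
    linarith
  have c1 := C.sm_cont S.sg₁
  have c2 := C.sm_cont S.sg₂
  have k1 := key S.g₁ (integrable_cont (c1.pow 2)) c1.aestronglyMeasurable Ou.g₁_sq (-η₀)
    (by ring)
  have k2 := key S.g₂ (integrable_cont (c2.pow 2)) c2.aestronglyMeasurable Ou.g₂_sq (-η₀)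
    (by ring)
  have k3 := key er Ou.er_int Ou.er_meas.aestronglyMeasurable Ou.er_le η₀ rfl
  have hk := Ou.kap_ge
  have hs1 := Ou.supp₁
  have hs2 := Ou.supp₂
  have hk4 := Ou.kap_four
  rw [hkap] at hk hs1 hs2 hk4
  exact
  { sφ := S.sφ
    sψ := S.sψ
    φmem := Ou.φ_mem
    ψmem := Ou.ψ_mem
    ε0 := by positivity
    εδ := heδ
    kap := fun x => by have := hk x; linarith
    eqφ := fun x => by rw [S.eqφ x]; ring
    eqψ := fun x => by rw [S.eqψ x]; ring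
    m0 := S.m₁nn
    m0' := S.m₂nn
    off := fun x hx => ⟨hs1 x hx, hs2 x hx⟩
    er0 := fun x => add_nonneg (Ou.er_nn x) hη0
    simplex := fun x _ => by
      have := Ou.simplex x
      rw [max_comm] at this
      linarith
    mr := (c1.sub continuous_const).aestronglyMeasurable
    mr' := (c2.sub continuous_const).aestronglyMeasurable
    mer := Ou.er_meas.aestronglyMeasurable.add aestronglyMeasurable_const
    ir := k1.1
    ir' := k2.1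
    ier := k3.1
    br := k1.2
    br' := k2.2
    ber := k3.2
    bκ := hk4.trans hδ1
    bA := hA0 }


end Crest.Agent.R249.LimE621
end
end

-- ▼ part R249/LimF4_621

/-!
# Row 249, part A2 v3: the limit passage for `Ob`, domain restricted version, file 4
-/

set_option autoImplicit false
set_option linter.unusedVariables false
set_option linter.unusedSectionVars false

open MeasureTheory Set Filter Topology Matrix
open scoped ContDiff

noncomputable section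

namespace Crest.Agent.R249.LimF621

open Crest.Agent.R249.Lim621 Crest.Agent.R249.LimG621 Crest.Agent.R249.LimE621
  Crest.Agent.R249.PenH_806
open Crest.Agent.R249.ObE_780 Crest.Agent.R249.ObC_780
open Calc_806 Calc_806.Calc

attribute [local instance] Matrix.frobeniusNormedAddCommGroup Matrix.frobeniusNormedSpace

variable {X : Type*} [TopologicalSpace X] [CompactSpace X] [MeasurableSpace X]
  [OpensMeasurableSpace X] {μ : Measure X} [IsFiniteMeasure μ]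

variable {g B : ℝ}

/-- the explicit uniform bound -/
def A0c (c B M V : ℝ) : ℝ :=
  5 * (V + 16 * B ^ 2 * (2 * ((M + 1 + c⁻¹ * (2 * M + 2)) ^ 2 * V + 1)) +
    16 * B ^ 2 * (3 * ((M + 1 + c⁻¹ * (2 * M + 2)) ^ 2 * V + (c⁻¹) ^ 2 + 1)) +
    2 * ((M + 1 + c⁻¹ * (2 * M + 2)) ^ 2 * V + 1) +
    3 * ((M + 1 + c⁻¹ * (2 * M + 2)) ^ 2 * V + (c⁻¹) ^ 2 + 1))

/-- **uniform bounds** (for `Γ'' ≤ 0`), explicit -/
theorem int_A0c (C : Calc X μ) (O : Ob g B) {f : ℝ → ℝ} {M : ℝ} (hM' : ∀ u, g ≤ u → u ≤ B → |f u| ≤ M)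
    (hconc : ∀ η, |η| ≤ B - g → deriv (deriv O.Γ) η ≤ 0)
    (η₀ t₀ K e ε A δ : ℝ) (φ₀ ψ₀ : X → ℝ)
    (S : PenSolG C O f η₀ φ₀ ψ₀ K e ε) (er : X → ℝ) (D : DatG C O f η₀ t₀ φ₀ ψ₀) (hη0 : 0 ≤ η₀)
    (hη1 : η₀ ≤ 1) (he0 : 0 < e) (he1 : e ≤ 1) (hδ : δ ≤ 1) (Ou : OutG S A δ er) :
    ∫ x, (1 + C.G S.φ S.φ x + C.G S.ψ S.ψ x + |C.L S.φ x| + |C.L S.ψ x|) ^ 2 ∂μ ≤
      A0c O.c B M (∫ x : X, (1 : ℝ) ∂μ) := by
  have hc := O.c_pos
  have hB0 : 0 < B := O.g_pos.trans O.g_lt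
  have hM0 : 0 ≤ M := (abs_nonneg _).trans (hM' g le_rfl O.g_lt.le)
  obtain ⟨N, hN⟩ : ∃ N, N = M + 1 + O.c⁻¹ * (2 * M + 2) := ⟨_, rfl⟩
  have hci : 0 < O.c⁻¹ := by positivity
  have hN0 : 0 < N := by rw [hN]; positivity
  obtain ⟨V, hV⟩ : ∃ V, V = ∫ x : X, (1 : ℝ) ∂μ := ⟨_, rfl⟩
  have hV0 : 0 ≤ V := by rw [hV]; exact integral_nonneg fun _ => zero_le_one
  obtain ⟨B1, hB1⟩ : ∃ B1, B1 = 2 * (N ^ 2 * V + 1) := ⟨_, rfl⟩
  obtain ⟨B2, hB2⟩ : ∃ B2, B2 = 3 * (N ^ 2 * V + (O.c⁻¹) ^ 2 + 1) := ⟨_, rfl⟩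
  have hB10 : 0 ≤ B1 := by rw [hB1]; positivity
  have hB20 : 0 ≤ B2 := by rw [hB2]; positivity
  have hgoal : A0c O.c B M (∫ x : X, (1 : ℝ) ∂μ) =
      5 * (V + 16 * B ^ 2 * B1 + 16 * B ^ 2 * B2 + B1 + B2) := by
    rw [hB1, hB2, hN, hV]; unfold A0c; ring
  rw [hgoal]
  -- pointwise bounds
  have h1mem : ∀ x, S.h₁ x ∈ Icc g B := fun x => ⟨S.h₁ge x, by linarith [S.h₁le x]⟩
  have h2mem : ∀ x, S.h₂ x ∈ Icc g B := fun x => ⟨S.h₂ge x, by linarith [S.h₂le x]⟩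
  have h0mem : ∀ x, ψ₀ x ∈ Icc g B := fun x => ⟨D.ψge x, D.ψle x⟩
  have hab : ∀ u v : ℝ, u ∈ Icc g B → v ∈ Icc g B → |u - v| ≤ B - g := fun u v hu hv => by
    rw [abs_le]; constructor <;> linarith [hu.1, hu.2, hv.1, hv.2]
  have hm1 : ∀ x, S.m₁ x ≤ O.c⁻¹ * (2 * M + 2) := fun x => by
    have h1 := Ou.contact₁ x
    have h2 := E_le hM' hconc (h1mem x) (h0mem x)
      (G_self_nonneg (C := C) (fun y => S.h₁ y - ψ₀ y) x)
    obtain ⟨-, -, a3, a4⟩ := k1_bounds O (hab _ _ (h1mem x) (h0mem x))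
    refine m_le hc a3 (S.m₁nn x) (h1.trans ?_)
    have : max 0 (O.E f (S.h₁ x) (ψ₀ x)
      (C.G (fun y => S.h₁ y - ψ₀ y) (fun y => S.h₁ y - ψ₀ y) x) + η₀) ≤ 2 * M + 1 :=
      max_le (by linarith) (by linarith)
    linarith
  have hm2 : ∀ x, S.m₂ x ≤ O.c⁻¹ * (2 * M + 2 + |S.g₁ x|) := fun x => by
    have h1 := Ou.contact₂ x
    have h2 := E_le hM' hconc (Ou.φ_mem x) (h2mem x)
      (G_self_nonneg (C := C) (fun y => S.φ y - S.h₂ y) x)
    obtain ⟨-, -, a3, a4⟩ := k1_bounds O (hab _ _ (Ou.φ_mem x) (h2mem x))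
    refine m_le hc a4 (S.m₂nn x) (h1.trans ?_)
    have h3 : O.k1 (S.φ x) (S.h₂ x) * S.m₁ x ≤ 0 :=
      mul_nonpos_of_nonpos_of_nonneg (by linarith) (S.m₁nn x)
    have h4 := abs_nonneg (S.g₁ x)
    have : max 0 (O.E f (S.φ x) (S.h₂ x)
      (C.G (fun y => S.φ y - S.h₂ y) (fun y => S.φ y - S.h₂ y) x) + η₀ +
        O.k1 (S.φ x) (S.h₂ x) * S.m₁ x + |S.g₁ x|) ≤ 2 * M + 1 + |S.g₁ x| :=
      max_le (by positivity) (by linarith)
    linarith
  have hL1 : ∀ x, C.L S.φ x ^ 2 ≤ 2 * (N ^ 2 + S.g₁ x ^ 2) := fun x => by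
    have h1 : |C.L S.φ x| ≤ N + |S.g₁ x| := by
      rw [S.eqφ x]
      have h2 := hM' _ (Ou.φ_mem x).1 (Ou.φ_mem x).2
      have h3 := hm1 x
      have h4 := S.m₁nn x
      have h5 := abs_le.mp h2
      have h6 := neg_abs_le (S.g₁ x)
      have h7 := le_abs_self (S.g₁ x)
      rw [hN, abs_le]
      have h8 : 0 ≤ O.c⁻¹ * (2 * M + 2) := by positivity
      constructor <;> linarith
    calc C.L S.φ x ^ 2 = |C.L S.φ x| ^ 2 := (sq_abs _).symm
      _ ≤ (N + |S.g₁ x|) ^ 2 := pow_le_pow_left₀ (abs_nonneg _) h1 2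
      _ ≤ 2 * (N ^ 2 + |S.g₁ x| ^ 2) := sq2 _ _
      _ = _ := by rw [sq_abs]
  have hL2 : ∀ x, C.L S.ψ x ^ 2 ≤ 3 * (N ^ 2 + (O.c⁻¹) ^ 2 * S.g₁ x ^ 2 + S.g₂ x ^ 2) := fun x => by
    have h1 : |C.L S.ψ x| ≤ N + O.c⁻¹ * |S.g₁ x| + |S.g₂ x| := by
      rw [S.eqψ x]
      have h2 := hM' _ (Ou.ψ_mem x).1 (Ou.ψ_mem x).2
      have h3 := hm2 x
      have h4 := S.m₂nn x
      have h5 := abs_le.mp h2
      have h6 := neg_abs_le (S.g₂ x)
      have h7 := le_abs_self (S.g₂ x)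
      rw [hN, abs_le]
      have h8 : 0 ≤ O.c⁻¹ * (2 * M + 2) := by positivity
      have h9 : 0 ≤ O.c⁻¹ * |S.g₁ x| := by positivity
      constructor <;> linarith
    calc C.L S.ψ x ^ 2 = |C.L S.ψ x| ^ 2 := (sq_abs _).symm
      _ ≤ (N + O.c⁻¹ * |S.g₁ x| + |S.g₂ x|) ^ 2 := pow_le_pow_left₀ (abs_nonneg _) h1 2
      _ ≤ 3 * (N ^ 2 + (O.c⁻¹ * |S.g₁ x|) ^ 2 + |S.g₂ x| ^ 2) := sq3 _ _ _
      _ = _ := by rw [mul_pow, sq_abs, sq_abs]
  -- integrals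
  have ig1 : Integrable (fun x => S.g₁ x ^ 2) μ := integrable_cont ((C.sm_cont S.sg₁).pow 2)
  have ig2 : Integrable (fun x => S.g₂ x ^ 2) μ := integrable_cont ((C.sm_cont S.sg₂).pow 2)
  have iN : Integrable (fun _ : X => N ^ 2) μ := integrable_const _
  have iL1 : Integrable (fun x => C.L S.φ x ^ 2) μ := integrable_sm (sm_pow (C.sm_L S.sφ) 2)
  have iL2 : Integrable (fun x => C.L S.ψ x ^ 2) μ := integrable_sm (sm_pow (C.sm_L S.sψ) 2)
  have hNV : ∫ _ : X, N ^ 2 ∂μ = N ^ 2 * V := by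
    rw [hV, ← integral_const_mul]; simp
  have hI1 : ∫ x, C.L S.φ x ^ 2 ∂μ ≤ B1 := by
    have h1 := integral_mono iL1 ((iN.add ig1).const_mul 2) hL1
    have h2 : ∫ x, 2 * (N ^ 2 + S.g₁ x ^ 2) ∂μ = 2 * (N ^ 2 * V + ∫ x, S.g₁ x ^ 2 ∂μ) := by
      rw [integral_const_mul, integral_add iN ig1, hNV]
    have h3 : ∫ x, C.L S.φ x ^ 2 ∂μ ≤ ∫ x, 2 * (N ^ 2 + S.g₁ x ^ 2) ∂μ := h1
    rw [h2] at h3
    have h4 := Ou.g₁_sq
    rw [hB1]
    linarith
  have hI2 : ∫ x, C.L S.ψ x ^ 2 ∂μ ≤ B2 := by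
    obtain ⟨i3, e3⟩ := int_add3 iN (ig1.const_mul ((O.c⁻¹) ^ 2)) ig2
    have h1 := integral_mono iL2 (i3.const_mul 3) hL2
    rw [integral_const_mul, e3, hNV, integral_const_mul] at h1
    have h4 := Ou.g₁_sq
    have h5 := Ou.g₂_sq
    have h6 : (O.c⁻¹) ^ 2 * ∫ x, S.g₁ x ^ 2 ∂μ ≤ (O.c⁻¹) ^ 2 * 1 :=
      mul_le_mul_of_nonneg_left (h4.trans hδ) (by positivity)
    rw [hB2]
    linarith
  have hb1 : ∀ x, |S.φ x| ≤ B := fun x => by
    rw [abs_of_pos (O.g_pos.trans_le (Ou.φ_mem x).1)]; exact (Ou.φ_mem x).2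
  have hb2 : ∀ x, |S.ψ x| ≤ B := fun x => by
    rw [abs_of_pos (O.g_pos.trans_le (Ou.ψ_mem x).1)]; exact (Ou.ψ_mem x).2
  have hG1 : ∫ x, C.G S.φ S.φ x ^ 2 ∂μ ≤ 16 * B ^ 2 * B1 :=
    (IntA_780.int_G_sq_le S.sφ hB0 hb1).trans (mul_le_mul_of_nonneg_left
      ((int_Rb_le S.sφ).trans hI1) (by positivity))
  have hG2 : ∫ x, C.G S.ψ S.ψ x ^ 2 ∂μ ≤ 16 * B ^ 2 * B2 :=
    (IntA_780.int_G_sq_le S.sψ hB0 hb2).trans (mul_le_mul_of_nonneg_left
      ((int_Rb_le S.sψ).trans hI2) (by positivity))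
  have iG1 : Integrable (fun x => C.G S.φ S.φ x ^ 2) μ :=
    integrable_sm (sm_pow (C.sm_G S.sφ S.sφ) 2)
  have iG2 : Integrable (fun x => C.G S.ψ S.ψ x ^ 2) μ :=
    integrable_sm (sm_pow (C.sm_G S.sψ S.sψ) 2)
  have i1 : Integrable (fun _ : X => (1 : ℝ)) μ := integrable_const _
  obtain ⟨i5, e5⟩ := int_add5 i1 iG1 iG2 iL1 iL2
  have cont : Continuous
      (fun x => 1 + C.G S.φ S.φ x + C.G S.ψ S.ψ x + |C.L S.φ x| + |C.L S.ψ x|) := by
    have h1 := C.sm_cont (C.sm_G S.sφ S.sφ)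
    have h2 := C.sm_cont (C.sm_G S.sψ S.sψ)
    have h3 := C.sm_cont (C.sm_L S.sφ)
    have h4 := C.sm_cont (C.sm_L S.sψ)
    exact (((continuous_const.add h1).add h2).add h3.abs).add h4.abs
  have hle : ∀ x, (1 + C.G S.φ S.φ x + C.G S.ψ S.ψ x + |C.L S.φ x| + |C.L S.ψ x|) ^ 2 ≤
      5 * (1 + C.G S.φ S.φ x ^ 2 + C.G S.ψ S.ψ x ^ 2 + C.L S.φ x ^ 2 + C.L S.ψ x ^ 2) := fun x => by
    have h := sq_sum5 1 (C.G S.φ S.φ x) (C.G S.ψ S.ψ x) (|C.L S.φ x|) (|C.L S.ψ x|)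
    rw [sq_abs, sq_abs, one_pow] at h
    exact h
  have hfin := integral_mono (integrable_cont (cont.pow 2)) (i5.const_mul 5) hle
  rw [integral_const_mul, e5, ← hV] at hfin
  refine hfin.trans ?_
  linarith

/-- **A2 v3, sections 3-9.**  `hdiv`: every pair in the box has a smooth field whose divergence
dominates `I`.  The number `δ₀` does not depend on `η₀, t₀, φ₀, ψ₀`. -/
theorem exists_limF (C : Calc X μ) (O : Ob g B) (hΓ : g < O.Γ 0)
    (hconc : ∀ η, |η| ≤ B - g → deriv (deriv O.Γ) η ≤ 0) {f : ℝ → ℝ} (hf : ContDiff ℝ ∞ f)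
    {b CI CO CR Cθ : ℝ} {I Om R : Jet E4 H4 → ℝ} {ε2 : ℝ} (hε2 : 0 < ε2)
    (hI : LipD (DomO O ε2) CI I) (hO : LipD (DomO O ε2) CO Om) (hR : LipD (DomO O ε2) CR R) (hCI : 0 ≤ CI)
    (hCO : 0 ≤ CO) (hCR : 0 ≤ CR) (hC : CertE trH SyH O f 0 I Om R)
    (Rm : (X → ℝ) → (X → ℝ) → (X → ℝ) → X → ℝ)
    (hdiv : ∀ φ ψ : X → ℝ, C.Sm φ → C.Sm ψ → (∀ x, (φ x, ψ x) ∈ DomO O ε2) →
      ∃ θ V : X → ℝ, DivCert C b Cθ I φ ψ θ V ∧
        Integrable (fun x => Om (jt C φ ψ θ x)) μ ∧ Integrable (Rm φ ψ θ) μ ∧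
        ∀ x, R (jt C φ ψ θ x) ≤ Rm φ ψ θ x)
    {δ' : ℝ} (hδ' : 0 < δ') :
    ∃ δ₀ : ℝ, 0 < δ₀ ∧ ∀ (η₀ t₀ : ℝ) (φ₀ ψ₀ : X → ℝ), 0 ≤ η₀ → η₀ ≤ δ₀ → 0 < t₀ →
      DatG C O f η₀ t₀ φ₀ ψ₀ → ∃ K e ε : ℝ, 0 < e ∧ e ≤ δ' ∧
      ∃ S : PenSolG C O f η₀ φ₀ ψ₀ K e ε,
      (∀ x, S.φ x ∈ Icc g B) ∧ (∀ x, S.ψ x ∈ Icc g B) ∧
      (∀ x, -(2 * e) ≤ O.k (S.φ x) (S.ψ x)) ∧
      (∀ M, (∀ u, g ≤ u → u ≤ B → |f u| ≤ M) →
        ∫ x, (1 + C.G S.φ S.φ x + C.G S.ψ S.ψ x + |C.L S.φ x| + |C.L S.ψ x|) ^ 2 ∂μ ≤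
          A0c O.c B M (∫ x : X, (1 : ℝ) ∂μ)) ∧ ∃ θ V : X → ℝ,
        DivCert C b Cθ I S.φ S.ψ θ V ∧ Integrable (fun x => Om (jt C S.φ S.ψ θ x)) μ ∧
        ∫ x, Om (jt C S.φ S.ψ θ x) ∂μ ≤ ∫ x, Rm S.φ S.ψ θ x ∂μ + δ' := by
  obtain ⟨A₀, hA₀, hbd⟩ := exists_A0 C O hf hconc
  obtain ⟨CF, hCF0, hCF1, hCF2⟩ := lip_of_contDiff hf (max |g| |B|)
  have habs : ∀ u, g ≤ u → u ≤ B → |u| ≤ max |g| |B| := fun u h1 h2 => by
    rw [abs_le]
    have h3 := neg_abs_le g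
    have h4 := le_abs_self B
    have h5 := le_max_left |g| |B|
    have h6 := le_max_right |g| |B|
    constructor <;> linarith
  obtain ⟨AF, hAF⟩ := exists_bds O (F := f) (CF := CF)
    (fun u h1 h2 => hCF1 u (habs u h1 h2))
    (fun u v h1 h2 h3 h4 => hCF2 u v (habs u h1 h2) (habs v h3 h4))
  obtain ⟨δ, hδ0, hδ⟩ := limit_passageF C O hΓ (A := A₀) (Cθ := Cθ) (b := b) (le_refl (0:ℝ)) hAF
    hε2 hI hO hR hCI hCO hCR hC hδ'
  obtain ⟨K, hK, hpair⟩ := ObF_780.exists_pairG C O hf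
  obtain ⟨V, hV⟩ : ∃ V, V = ∫ x : X, (1 : ℝ) ∂μ := ⟨_, rfl⟩
  have hV0 : 0 ≤ V := by rw [hV]; exact integral_nonneg fun _ => zero_le_one
  -- the size of `η₀`
  refine ⟨min 1 (δ / (4 * (V + 1))), lt_min one_pos (by positivity), ?_⟩
  intro η₀ t₀ φ₀ ψ₀ hη0 hηδ ht D
  have hη1 : η₀ ≤ 1 := hηδ.trans (min_le_left _ _)
  have hη2 : η₀ * (4 * (V + 1)) ≤ δ := by
    rw [← le_div_iff₀ (by positivity)]; exact hηδ.trans (min_le_right _ _)
  have hη3 : η₀ ^ 2 * V ≤ δ / 4 := by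
    have h1 : η₀ ^ 2 ≤ η₀ := by nlinarith
    have h2 : η₀ ^ 2 * V ≤ η₀ * V := mul_le_mul_of_nonneg_right h1 hV0
    nlinarith
  obtain ⟨A, hA, h⟩ := hpair D ht hη0
  obtain ⟨δ2, hδ2⟩ : ∃ δ2, δ2 = min (min (δ / 5) (δ / 4)) (min δ' (min 1 (ε2 / 2))) := ⟨_, rfl⟩
  have hδ20 : 0 < δ2 := by rw [hδ2]; positivity
  have d1 : δ2 ≤ δ / 5 := by rw [hδ2]; exact (min_le_left _ _).trans (min_le_left _ _)
  have d2 : δ2 ≤ δ / 4 := by rw [hδ2]; exact (min_le_left _ _).trans (min_le_right _ _)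
  have d3 : δ2 ≤ δ' := by rw [hδ2]; exact (min_le_right _ _).trans (min_le_left _ _)
  have d4 : δ2 ≤ 1 := by
    rw [hδ2]; exact (min_le_right _ _).trans ((min_le_right _ _).trans (min_le_left _ _))
  have d5 : δ2 ≤ ε2 / 2 := by
    rw [hδ2]; exact (min_le_right _ _).trans ((min_le_right _ _).trans (min_le_right _ _))
  obtain ⟨e, ε, he, heδ, het, hε, S, er, Ou⟩ := h δ2 hδ20
  have hA0' := hbd η₀ t₀ K e ε A δ2 φ₀ ψ₀ S er D hη0 hη1 he (heδ.trans d4) d4 Ou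
  have Bd := toBdE (A₀ := A₀) (δ1 := δ) D he (by linarith) hη0 S Ou
    (by rw [← hV]; linarith) (by linarith) hA0'
  obtain ⟨θ, W, DC, iO, iR, hRm⟩ := hdiv S.φ S.ψ S.sφ S.sψ (fun x =>
    ⟨(Ou.φ_mem x).1, (Ou.φ_mem x).2, (Ou.ψ_mem x).1, (Ou.ψ_mem x).2, by
      have h1 : -(2 * e) ≤ O.k (S.φ x) (S.ψ x) := Ou.kap_ge x
      show -ε2 ≤ O.k (S.φ x) (S.ψ x)
      linarith⟩)
  exact ⟨K, e, ε, he, heδ.trans d3, S, Ou.φ_mem, Ou.ψ_mem, Ou.kap_ge,
    fun M hM => int_A0c C O hM hconc η₀ t₀ K e ε A δ2 φ₀ ψ₀ S er D hη0 hη1 he (heδ.trans d4) d4 Ou,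
    θ, W, DC, iO,
    hδ S.φ S.ψ S.m₁ S.m₂ _ _ _ θ W (Rm S.φ S.ψ θ) (5 * e) Bd DC iO iR hRm⟩

end Crest.Agent.R249.LimF621
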