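import Crest.Agent.R249.PenI_806

/-!
R249, part A2 v3 (helper806), file 4: the data `DatG` of the penalisation from `STC`.
-/

set_option autoImplicit false
set_option linter.unusedVariables false
set_option linter.unusedSectionVars false

open MeasureTheory Set Filter Topology Matrix
open scoped ContDiff

noncomputable section

namespace Crest.Agent.R249.PenH_806

open Calc_806 Calc_806.Calc Pen_806 PenG_806

variable {X : Type*} [TopologicalSpace X] [CompactSpace X] [MeasurableSpace X]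
  [OpensMeasurableSpace X] {μ : Measure X} [IsFiniteMeasure μ]

/-- the hypotheses on the obstacle region and the nonlinearity. -/
structure Adm {g B : ℝ} (O : Ob g B) (f : ℝ → ℝ) : Prop where
  smooth : ContDiff ℝ ∞ f
  g_lt : g < 1
  B_ge : 63 / 50 ≤ B
  fg : f g ≤ 0
  fle : ∀ u, g ≤ u → u ≤ B → f u ≤ (2 / 3) * (u * (1 - u ^ 3))
  region : ∀ u v, 0 ≤ u → 0 ≤ v → u ^ 3 + v ^ 3 < 2 → 0 < O.k (max u g) (max v g)

lemma Ob.k_anti' {g B : ℝ} (O : Ob g B) {u u' v v' : ℝ} (h1 : g ≤ u') (h2 : u' ≤ u) (h3 : u ≤ B)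
    (h4 : g ≤ v') (h5 : v' ≤ v) (h6 : v ≤ B) : O.k u v ≤ O.k u' v' := by
  have a1 := O.k_anti h1 h2 h3 (h4.trans h5) h6
  have a2 := O.k_anti2 h4 h5 h6 h1 (h2.trans h3)
  have b1 := mul_nonneg O.c_pos.le (sub_nonneg.2 h2)
  have b2 := mul_nonneg O.c_pos.le (sub_nonneg.2 h5)
  linarith

lemma reg_ge {d : ℝ} (hd : 0 < d) (hd8 : d ≤ 1 / 8) {F : X → ℝ} (hF : ∀ x, 0 ≤ F x) (x : X)
    (h2 : Real.sqrt (F x) ≤ 2) : (F x) ^ (1 / 6 : ℝ) - 4 * d ≤ reg d F x := by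
  have t1 := th3_ge hd hd8
  have t2 := th3_le hd
  have t3 := one_sub_th3 hd
  have h0 := hF x
  have h3 : (F x) ^ (1 / 6 : ℝ) ≤ (F x + d ^ 2) ^ (1 / 6 : ℝ) :=
    Real.rpow_le_rpow h0 (by nlinarith) (by norm_num)
  have h4 : th3 d ≤ th3 d ^ (1 / 3 : ℝ) := by
    have := Real.rpow_le_rpow_of_exponent_ge (by linarith : 0 < th3 d) t2
      (by norm_num : (1 / 3 : ℝ) ≤ 1)
    rwa [Real.rpow_one] at this
  have h5 : 0 ≤ (F x) ^ (1 / 6 : ℝ) := Real.rpow_nonneg h0 _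
  have h6 : (F x) ^ (1 / 6 : ℝ) ≤ 63 / 50 := by
    refine cube_le_63 h5 ?_
    rw [six_rpow h0]
    exact h2
  have h7 : 0 < th3 d ^ (1 / 3 : ℝ) := Real.rpow_pos_of_pos (by linarith) _
  unfold reg
  have h8 : th3 d ^ (1 / 3 : ℝ) * (F x) ^ (1 / 6 : ℝ) ≤
      th3 d ^ (1 / 3 : ℝ) * (F x + d ^ 2) ^ (1 / 6 : ℝ) := mul_le_mul_of_nonneg_left h3 h7.le
  have h9 : th3 d * (F x) ^ (1 / 6 : ℝ) ≤ th3 d ^ (1 / 3 : ℝ) * (F x) ^ (1 / 6 : ℝ) :=
    mul_le_mul_of_nonneg_right h4 h5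
  nlinarith


end Crest.Agent.R249.PenH_806
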