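import Mathlib
import Crest.Agent.R249.Flat2_676
import Crest.Agent.R249.Len2_47

-- ▼ part R249/Glue1_832
section

/-!
# R249, part D4: gluing local maps into a metric space with a smooth chart atlas (1)

* `unif_near` : uniformity near a compact set;
* `Atl` : finitely many charts of a metric space with smooth transitions, with compact cores;
* `Atl.unif_chart`, `unif_symm`, `unif_trans`, `bound_trans` : uniform estimates.
-/

set_option autoImplicit false
noncomputable section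
open Set Filter Topology Metric
open scoped ContDiff Manifold

namespace Crest.Agent.R249.Glue832


/-- Charts of a metric space with smooth transitions and compact cores. -/
structure Atl (n : ℕ) (ι : Type*) (X : Type*) [MetricSpace X] where
  /-- the charts -/
  e : ι → OpenPartialHomeomorph X (EuclideanSpace ℝ (Fin n))
  /-- the cores -/
  C : ι → Set (EuclideanSpace ℝ (Fin n))
  isCompact_C : ∀ a, IsCompact (C a)
  C_sub : ∀ a, C a ⊆ (e a).target
  smooth : ∀ a b, ContDiffOn ℝ ∞ (fun y => e b ((e a).symm y))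
    {y | y ∈ (e a).target ∧ (e a).symm y ∈ (e b).source}

variable {n : ℕ} {ι : Type*} {X : Type*} [MetricSpace X]

namespace Atl

variable (A : Atl n ι X)

/-- transition map from chart `a` to chart `b` -/
def tr (a b : ι) (y : EuclideanSpace ℝ (Fin n)) : EuclideanSpace ℝ (Fin n) :=
  A.e b ((A.e a).symm y)

/-- the core of chart `a` in `X` -/
def core (a : ι) : Set X := (A.e a).symm '' A.C a

theorem mem_core {a : ι} {p : X} : p ∈ A.core a ↔ p ∈ (A.e a).source ∧ A.e a p ∈ A.C a := by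
  constructor
  · rintro ⟨y, hy, rfl⟩
    refine ⟨(A.e a).map_target (A.C_sub a hy), ?_⟩
    rwa [(A.e a).right_inv (A.C_sub a hy)]
  · rintro ⟨h1, h2⟩
    exact ⟨_, h2, (A.e a).left_inv h1⟩

theorem isCompact_core (a : ι) : IsCompact (A.core a) :=
  (A.isCompact_C a).image_of_continuousOn ((A.e a).continuousOn_symm.mono (A.C_sub a))

theorem isOpen_trans_dom (a b : ι) :
    IsOpen {y | y ∈ (A.e a).target ∧ (A.e a).symm y ∈ (A.e b).source} := by
  have := (A.e a).isOpen_inter_preimage_symm (A.e b).open_source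
  exact this

theorem contDiffAt_tr {a b : ι} {y : EuclideanSpace ℝ (Fin n)} (h1 : y ∈ (A.e a).target)
    (h2 : (A.e a).symm y ∈ (A.e b).source) : ContDiffAt ℝ ∞ (A.tr a b) y :=
  (A.smooth a b).contDiffAt ((A.isOpen_trans_dom a b).mem_nhds ⟨h1, h2⟩)








end Atl

end Crest.Agent.R249.Glue832
end
end

-- ▼ part R249/Prj1_832
section

/-!
# R249, D4-PROJ (helper832), part 1: smooth functions on a compact metric space with a smooth atlas

* `exists_cutoff` : smooth cut-off functions in a finite dimensional space;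
* `exists_atl` : compact cores;
* `SmX A g` : `g : X → W` is smooth in the charts; `ext A a G` : extension by zero;
* `BL A` : the charts are locally bi-Lipschitz; `SmX.lipschitz`.
-/

set_option autoImplicit false
set_option linter.style.haveILetI false
noncomputable section
open Set Filter Topology Metric
open scoped ContDiff Manifold

namespace Crest.Agent.R249.Prj832

open Crest.Agent.R249.Glue832

theorem exists_cutoff {V : Type*} [NormedAddCommGroup V] [NormedSpace ℝ V] [FiniteDimensional ℝ V]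
    {K U : Set V} (hK : IsCompact K) (hU : IsOpen U) (h : K ⊆ U) :
    ∃ (θ : V → ℝ) (K' : Set V), IsCompact K' ∧ K' ⊆ U ∧ ContDiff ℝ ∞ θ ∧ (∀ y, 0 ≤ θ y) ∧
      (∀ y, θ y ≤ 1) ∧ (∀ y, y ∉ K' → θ y = 0) ∧ ∀ y ∈ K, ∀ᶠ z in 𝓝 y, θ z = 1 := by
  haveI : ProperSpace V := FiniteDimensional.proper_real V
  obtain ⟨K', hK', hK1, hK2⟩ := exists_compact_between hK hU h
  obtain ⟨f, hf1, hf2, hf3⟩ := exists_contMDiffMap_one_nhds_of_subset_interior
    (n := (⊤ : ℕ∞)) 𝓘(ℝ, V) (s := K) (t := K') hK.isClosed hK1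
  refine ⟨f, K', hK', hK2, f.contMDiff.contDiff, fun y => (hf3 y).1, fun y => (hf3 y).2, hf2, ?_⟩
  intro y hy
  exact eventually_nhdsSet_iff_forall.1 hf1 y hy

variable {n : ℕ} {ι : Type*} {X : Type*} [MetricSpace X]

theorem exists_atl [CompactSpace X] [Finite ι]
    (e : ι → OpenPartialHomeomorph X (EuclideanSpace ℝ (Fin n))) (hcov : ∀ x, ∃ a, x ∈ (e a).source)
    (htr : ∀ a b, ContDiffOn ℝ ∞ (fun y => e b ((e a).symm y))
      {y | y ∈ (e a).target ∧ (e a).symm y ∈ (e b).source}) :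
    ∃ A : Atl n ι X, A.e = e ∧ ∀ x, ∃ a, x ∈ A.core a := by
  obtain ⟨v, hv1, hv2, hv3⟩ := exists_iUnion_eq_closure_subset (u := fun a => (e a).source)
    (fun a => (e a).open_source) (fun x => Set.toFinite _)
    (eq_univ_of_forall fun x => mem_iUnion.2 (hcov x))
  refine ⟨⟨e, fun a => e a '' closure (v a), fun a => ?_, fun a => ?_, htr⟩, rfl, fun x => ?_⟩
  · exact (isClosed_closure.isCompact).image_of_continuousOn ((e a).continuousOn.mono (hv3 a))
  · rintro _ ⟨x, hx, rfl⟩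
    exact (e a).map_source (hv3 a hx)
  · have hx : x ∈ ⋃ a, v a := by rw [hv1]; trivial
    obtain ⟨a, ha⟩ := mem_iUnion.1 hx
    refine ⟨a, ?_⟩
    rw [Atl.mem_core]
    exact ⟨hv3 a (subset_closure ha), ⟨x, subset_closure ha, rfl⟩⟩

variable {W W' : Type*} [NormedAddCommGroup W] [NormedSpace ℝ W] [NormedAddCommGroup W']
  [NormedSpace ℝ W']

/-- smooth functions on `X` -/
def SmX (A : Atl n ι X) (g : X → W) : Prop :=
  ∀ b, ContDiffOn ℝ ∞ (fun y => g ((A.e b).symm y)) (A.e b).target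

theorem SmX.at {A : Atl n ι X} {g : X → W} (h : SmX A g) {b : ι} {x : X}
    (hx : x ∈ (A.e b).source) : ContDiffAt ℝ ∞ (fun y => g ((A.e b).symm y)) (A.e b x) :=
  (h b).contDiffAt ((A.e b).open_target.mem_nhds ((A.e b).map_source hx))

omit [NormedAddCommGroup W] [NormedSpace ℝ W] in
theorem SmX.eventually {A : Atl n ι X} (g : X → W) {b : ι} {x : X}
    (hx : x ∈ (A.e b).source) : g =ᶠ[𝓝 x] fun z => g ((A.e b).symm (A.e b z)) := by
  filter_upwards [(A.e b).open_source.mem_nhds hx] with z hz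
  rw [(A.e b).left_inv hz]

theorem SmX.continuousAt {A : Atl n ι X} {g : X → W} (h : SmX A g) {b : ι} {x : X}
    (hx : x ∈ (A.e b).source) : ContinuousAt g x := by
  have h1 : ContinuousAt (fun z => g ((A.e b).symm (A.e b z))) x :=
    ContinuousAt.comp (g := fun y => g ((A.e b).symm y)) (f := A.e b) (h.at hx).continuousAt
      ((A.e b).continuousAt hx)
  exact h1.congr_of_eventuallyEq (SmX.eventually g hx)

theorem SmX.comp {A : Atl n ι X} {g : X → W} (h : SmX A g) {F : W → W'} (hF : ContDiff ℝ ∞ F) :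
    SmX A (fun x => F (g x)) := fun b => hF.comp_contDiffOn (h b)

theorem SmX.pi {κ : Type*} [Fintype κ] {A : Atl n ι X} {g : X → κ → W}
    (h : ∀ k, SmX A (fun x => g x k)) : SmX A g := fun b =>
  contDiffOn_pi.2 fun k => h k b

open Classical in
/-- extension by zero of a function given in the chart `a` -/
def ext (A : Atl n ι X) (a : ι) (G : EuclideanSpace ℝ (Fin n) → W) (x : X) : W :=
  if x ∈ (A.e a).source then G (A.e a x) else 0

theorem ext_of_mem {A : Atl n ι X} {a : ι} {G : EuclideanSpace ℝ (Fin n) → W} {x : X}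
    (hx : x ∈ (A.e a).source) : ext A a G x = G (A.e a x) := if_pos hx

theorem ext_of_notMem {A : Atl n ι X} {a : ι} {G : EuclideanSpace ℝ (Fin n) → W} {x : X}
    (hx : x ∉ (A.e a).source) : ext A a G x = 0 := if_neg hx

theorem smX_ext (A : Atl n ι X) (a : ι) {G : EuclideanSpace ℝ (Fin n) → W}
    (hG : ContDiff ℝ ∞ G) {K : Set (EuclideanSpace ℝ (Fin n))} (hK : IsCompact K)
    (hKt : K ⊆ (A.e a).target) (h0 : ∀ y, y ∉ K → G y = 0) : SmX A (ext A a G) := by
  intro b y hy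
  refine ContDiffAt.contDiffWithinAt ?_
  set x := (A.e b).symm y with hx
  by_cases hxa : x ∈ (A.e a).source
  · have h1 : ContDiffAt ℝ ∞ (fun z => G (A.tr b a z)) y :=
      hG.contDiffAt.comp y (A.contDiffAt_tr hy hxa)
    refine h1.congr_of_eventuallyEq ?_
    have h2 : ∀ᶠ z in 𝓝 y, (A.e b).symm z ∈ (A.e a).source :=
      ((A.e b).continuousAt_symm hy).eventually ((A.e a).open_source.mem_nhds hxa)
    filter_upwards [h2] with z hz
    rw [ext_of_mem hz]
    rfl
  · set S : Set X := (A.e a).symm '' K with hS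
    have hSc : IsCompact S := hK.image_of_continuousOn ((A.e a).continuousOn_symm.mono hKt)
    have hxS : x ∉ S := by
      rintro ⟨w, hw, hwx⟩
      exact hxa (hwx ▸ (A.e a).map_target (hKt hw))
    have h2 : ∀ᶠ z in 𝓝 y, (A.e b).symm z ∈ Sᶜ :=
      ((A.e b).continuousAt_symm hy).eventually (hSc.isClosed.isOpen_compl.mem_nhds hxS)
    have h3 : ContDiffAt ℝ ∞ (fun _ : EuclideanSpace ℝ (Fin n) => (0 : W)) y := contDiffAt_const
    refine h3.congr_of_eventuallyEq ?_
    filter_upwards [h2] with z hz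
    by_cases hz' : (A.e b).symm z ∈ (A.e a).source
    · rw [ext_of_mem hz']
      refine h0 _ fun hk => hz ⟨_, hk, ?_⟩
      rw [(A.e a).left_inv hz']
    · rw [ext_of_notMem hz']

/-- near every point some chart is bi-Lipschitz -/
def BL (A : Atl n ι X) : Prop :=
  ∀ z : X, ∃ a, z ∈ (A.e a).source ∧ ∃ c C r : ℝ, 0 < c ∧ 0 < C ∧ 0 < r ∧
    ∀ x ∈ ball z r, ∀ y ∈ ball z r, c * dist x y ≤ ‖A.e a x - A.e a y‖ ∧
      ‖A.e a x - A.e a y‖ ≤ C * dist x y

/-- a `C^∞` function is Lipschitz near a point -/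
theorem exists_lip {E' : Type*} [NormedAddCommGroup E'] [NormedSpace ℝ E'] {g : E' → W} {y : E'}
    (h : ContDiffAt ℝ ∞ g y) : ∃ K r : ℝ, 0 ≤ K ∧ 0 < r ∧ ∀ u ∈ ball y r, ∀ v ∈ ball y r,
      ‖g u - g v‖ ≤ K * ‖u - v‖ := by
  obtain ⟨K, t, ht, hK⟩ := (h.of_le (by simp : (1 : WithTop ℕ∞) ≤ ∞)).exists_lipschitzOnWith
  obtain ⟨r, hr, hrt⟩ := Metric.mem_nhds_iff.1 ht
  refine ⟨K, r, K.2, hr, fun u hu v hv => ?_⟩
  have := hK.dist_le_mul u (hrt hu) v (hrt hv)
  rwa [dist_eq_norm, dist_eq_norm] at this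

theorem SmX.locLip {A : Atl n ι X} (hBL : BL A) {g : X → W} (h : SmX A g) (z : X) :
    ∃ K r : ℝ, 0 ≤ K ∧ 0 < r ∧ ∀ x ∈ ball z r, ∀ y ∈ ball z r, ‖g x - g y‖ ≤ K * dist x y := by
  obtain ⟨a, hza, c, C, r, hc, hC, hr, hb⟩ := hBL z
  obtain ⟨K, s, hK, hs, hg⟩ := exists_lip (h.at hza)
  have h1 : ∀ᶠ x in 𝓝 z, x ∈ (A.e a).source ∧ A.e a x ∈ ball (A.e a z) s ∧ x ∈ ball z r := by
    filter_upwards [(A.e a).open_source.mem_nhds hza,
      ((A.e a).continuousAt hza).eventually (ball_mem_nhds _ hs), ball_mem_nhds z hr]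
      with x h1 h2 h3
    exact ⟨h1, h2, h3⟩
  obtain ⟨t, ht, ht'⟩ := Metric.eventually_nhds_iff_ball.1 h1
  refine ⟨K * C, t, by positivity, ht, fun x hx y hy => ?_⟩
  have hx' := ht' x hx
  have hy' := ht' y hy
  have h2 := hg _ hx'.2.1 _ hy'.2.1
  rw [(A.e a).left_inv hx'.1, (A.e a).left_inv hy'.1] at h2
  calc ‖g x - g y‖ ≤ K * ‖A.e a x - A.e a y‖ := h2
    _ ≤ K * (C * dist x y) := by
        gcongr
        exact (hb x hx'.2.2 y hy'.2.2).2
    _ = K * C * dist x y := by ring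

/-- every chart is locally antilipschitz -/
theorem BL.anti {A : Atl n ι X} (hBL : BL A) {b : ι} {z : X} (hz : z ∈ (A.e b).source) :
    ∃ c r : ℝ, 0 < c ∧ 0 < r ∧ ∀ x ∈ ball z r, ∀ y ∈ ball z r,
      c * dist x y ≤ ‖A.e b x - A.e b y‖ := by
  obtain ⟨a, hza, c, C, r, hc, hC, hr, hb⟩ := hBL z
  have hz2 : (A.e b).symm (A.e b z) ∈ (A.e a).source := by rwa [(A.e b).left_inv hz]
  obtain ⟨K, s, hK, hs, hg⟩ := exists_lip (A.contDiffAt_tr ((A.e b).map_source hz) hz2)
  have h1 : ∀ᶠ x in 𝓝 z, x ∈ (A.e b).source ∧ A.e b x ∈ ball (A.e b z) s ∧ x ∈ ball z r := by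
    filter_upwards [(A.e b).open_source.mem_nhds hz,
      ((A.e b).continuousAt hz).eventually (ball_mem_nhds _ hs), ball_mem_nhds z hr]
      with x h1 h2 h3
    exact ⟨h1, h2, h3⟩
  obtain ⟨t, ht, ht'⟩ := Metric.eventually_nhds_iff_ball.1 h1
  refine ⟨c / (K + 1), t, by positivity, ht, fun x hx y hy => ?_⟩
  have hx' := ht' x hx
  have hy' := ht' y hy
  have h2 := hg _ hx'.2.1 _ hy'.2.1
  simp only [Atl.tr] at h2
  rw [(A.e b).left_inv hx'.1, (A.e b).left_inv hy'.1] at h2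
  have h3 := (hb x hx'.2.2 y hy'.2.2).1
  rw [div_mul_eq_mul_div, div_le_iff₀ (by positivity)]
  nlinarith [norm_nonneg (A.e b x - A.e b y)]

/-- locally Lipschitz functions on compact spaces are Lipschitz -/
theorem exists_lip_of_compact [CompactSpace X] {g : X → W}
    (h : ∀ z, ∃ K r : ℝ, 0 ≤ K ∧ 0 < r ∧ ∀ x ∈ ball z r, ∀ y ∈ ball z r,
      ‖g x - g y‖ ≤ K * dist x y) : ∃ C : ℝ, 0 < C ∧ ∀ x y, ‖g x - g y‖ ≤ C * dist x y := by
  have h1 : LocallyLipschitzOn univ g := by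
    intro z _
    obtain ⟨K, r, hK, hr, hg⟩ := h z
    refine ⟨⟨K, hK⟩, ball z r, mem_nhdsWithin_of_mem_nhds (ball_mem_nhds z hr), ?_⟩
    refine LipschitzOnWith.of_dist_le_mul fun x hx y hy => ?_
    rw [dist_eq_norm]
    exact hg x hx y hy
  obtain ⟨K, hK⟩ := h1.exists_lipschitzOnWith_of_compact isCompact_univ
  refine ⟨K + 1, by positivity, fun x y => ?_⟩
  have h2 := hK.dist_le_mul x (mem_univ _) y (mem_univ _)
  rw [dist_eq_norm] at h2
  nlinarith [dist_nonneg (x := x) (y := y)]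

/-- injective, continuous, locally antilipschitz maps on compact spaces are antilipschitz -/
theorem exists_anti_of_compact [CompactSpace X] {g : X → W} (hg : Continuous g)
    (hinj : Function.Injective g)
    (h : ∀ z, ∃ c r : ℝ, 0 < c ∧ 0 < r ∧ ∀ x ∈ ball z r, ∀ y ∈ ball z r,
      c * dist x y ≤ ‖g x - g y‖) : ∃ c : ℝ, 0 < c ∧ ∀ x y, c * dist x y ≤ ‖g x - g y‖ := by
  -- work on the compact space `X × X`
  have key : ∀ p : X × X, ∃ c : ℝ, 0 < c ∧ ∀ᶠ q : X × X in 𝓝 p,
      c * dist q.1 q.2 ≤ ‖g q.1 - g q.2‖ := by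
    rintro ⟨x, y⟩
    rcases eq_or_ne x y with rfl | hxy
    · obtain ⟨c, r, hc, hr, h1⟩ := h x
      refine ⟨c, hc, ?_⟩
      filter_upwards [prod_mem_nhds (ball_mem_nhds x hr) (ball_mem_nhds x hr)] with q hq
      exact h1 _ hq.1 _ hq.2
    · have h1 : 0 < ‖g x - g y‖ := norm_pos_iff.2 (sub_ne_zero.2 fun h => hxy (hinj h))
      have hd : 0 < dist x y := dist_pos.2 hxy
      refine ⟨‖g x - g y‖ / (4 * dist x y), by positivity, ?_⟩
      have c1 : Tendsto (fun q : X × X => ‖g q.1 - g q.2‖) (𝓝 (x, y)) (𝓝 ‖g x - g y‖) := by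
        have : Continuous fun q : X × X => ‖g q.1 - g q.2‖ := by fun_prop
        exact this.tendsto (x, y)
      have c2 : Tendsto (fun q : X × X => dist q.1 q.2) (𝓝 (x, y)) (𝓝 (dist x y)) := by
        have : Continuous fun q : X × X => dist q.1 q.2 := by fun_prop
        exact this.tendsto (x, y)
      filter_upwards [c1.eventually (lt_mem_nhds (show ‖g x - g y‖ / 2 < _ by linarith)),
        c2.eventually (gt_mem_nhds (show dist x y < 2 * dist x y by linarith))] with q h2 h3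
      rw [div_mul_eq_mul_div, div_le_iff₀ (by positivity)]
      nlinarith [dist_nonneg (x := q.1) (y := q.2), norm_nonneg (g q.1 - g q.2)]
  choose c hc hc' using key
  obtain ⟨t, ht⟩ := CompactSpace.elim_nhds_subcover
    (fun p => {q : X × X | c p * dist q.1 q.2 ≤ ‖g q.1 - g q.2‖}) (fun p => hc' p)
  obtain ⟨r, hr, hr'⟩ : ∃ r : ℝ, 0 < r ∧ ∀ p ∈ t, r ≤ c p := by
    rcases t.eq_empty_or_nonempty with rfl | hne
    · exact ⟨1, one_pos, by simp⟩
    · exact ⟨t.inf' hne c, (Finset.lt_inf'_iff _).2 fun p _ => hc p,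
        fun p hp => Finset.inf'_le _ hp⟩
  refine ⟨r, hr, fun x y => ?_⟩
  have h1 : (x, y) ∈ ⋃ p ∈ t, {q : X × X | c p * dist q.1 q.2 ≤ ‖g q.1 - g q.2‖} := by
    rw [ht]; trivial
  simp only [mem_iUnion] at h1
  obtain ⟨p, hp, hq⟩ := h1
  have h2 : c p * dist x y ≤ ‖g x - g y‖ := hq
  nlinarith [hr' p hp, dist_nonneg (x := x) (y := y)]

end Crest.Agent.R249.Prj832
end
end

-- ▼ part R249/Prj2_832
section

/-!
# R249, D4-PROJ (helper832), part 2: the embedding and the projection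

* `Emb A V` : a smooth map `io : X → V` with smooth local left inverses `P a`;
* `Good A pi y` : `pi : V → X` is smooth near `y`;
* `Emb.exists_pi` : a smooth projection onto `X` near `range io`;
* `exists_emb` : embeddings exist.
-/

set_option autoImplicit false
set_option linter.style.haveILetI false
set_option linter.unusedSectionVars false
noncomputable section
open Set Filter Topology Metric
open scoped ContDiff Manifold

namespace Crest.Agent.R249.Prj832

open Crest.Agent.R249.Glue832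

variable {n : ℕ} {ι : Type*} {X : Type*} [MetricSpace X]
  {V : Type*} [NormedAddCommGroup V] [NormedSpace ℝ V]

/-- a smooth map to `V` with local left inverses -/
structure Emb (A : Atl n ι X) (V : Type*) [NormedAddCommGroup V] [NormedSpace ℝ V] where
  /-- the map -/
  io : X → V
  sm : SmX A io
  /-- domains of the left inverses -/
  N : ι → Set V
  open_N : ∀ a, IsOpen (N a)
  /-- left inverses -/
  P : ι → V → EuclideanSpace ℝ (Fin n)
  smP : ∀ a, ContDiffOn ℝ ∞ (P a) (N a)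
  mem : ∀ a x, x ∈ A.core a → io x ∈ N a
  src : ∀ a x, io x ∈ N a → x ∈ (A.e a).source
  left : ∀ a x, io x ∈ N a → P a (io x) = A.e a x

namespace Emb

variable {A : Atl n ι X} (F : Emb A V)

theorem continuous (hcov : ∀ x, ∃ a, x ∈ A.core a) : Continuous F.io := by
  rw [continuous_iff_continuousAt]
  intro x
  obtain ⟨a, ha⟩ := hcov x
  exact F.sm.continuousAt (A.mem_core.1 ha).1

theorem injective (hcov : ∀ x, ∃ a, x ∈ A.core a) : Function.Injective F.io := by
  intro x y h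
  obtain ⟨a, ha⟩ := hcov x
  have h1 := F.mem a x ha
  have h2 : F.io y ∈ F.N a := h ▸ h1
  have h3 : A.e a x = A.e a y := by rw [← F.left a x h1, ← F.left a y h2, h]
  exact (A.e a).injOn (F.src a x h1) (F.src a y h2) h3

theorem locAnti (hBL : BL A) (hcov : ∀ x, ∃ a, x ∈ A.core a) (z : X) :
    ∃ c r : ℝ, 0 < c ∧ 0 < r ∧ ∀ x ∈ ball z r, ∀ y ∈ ball z r,
      c * dist x y ≤ ‖F.io x - F.io y‖ := by
  obtain ⟨a, ha⟩ := hcov z
  have h1 := F.mem a z ha
  obtain ⟨c, r, hc, hr, h2⟩ := hBL.anti (F.src a z h1)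
  obtain ⟨K, s, hK, hs, h3⟩ := exists_lip ((F.smP a).contDiffAt ((F.open_N a).mem_nhds h1))
  have hcont := F.continuous hcov
  have h4 : ∀ᶠ x in 𝓝 z, F.io x ∈ F.N a ∧ F.io x ∈ ball (F.io z) s ∧ x ∈ ball z r := by
    filter_upwards [hcont.continuousAt.eventually ((F.open_N a).mem_nhds h1),
      hcont.continuousAt.eventually (ball_mem_nhds _ hs), ball_mem_nhds z hr] with x h1 h2 h3
    exact ⟨h1, h2, h3⟩
  obtain ⟨t, ht, ht'⟩ := Metric.eventually_nhds_iff_ball.1 h4
  refine ⟨c / (K + 1), t, by positivity, ht, fun x hx y hy => ?_⟩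
  have hx' := ht' x hx
  have hy' := ht' y hy
  have h5 := h3 _ hx'.2.1 _ hy'.2.1
  rw [F.left a x hx'.1, F.left a y hy'.1] at h5
  have h6 := h2 x hx'.2.2 y hy'.2.2
  rw [div_mul_eq_mul_div, div_le_iff₀ (by positivity)]
  nlinarith [norm_nonneg (F.io x - F.io y)]

/-- the embedding is bi-Lipschitz -/
theorem biLip [CompactSpace X] (hBL : BL A) (hcov : ∀ x, ∃ a, x ∈ A.core a) :
    ∃ c C : ℝ, 0 < c ∧ 0 < C ∧ ∀ x y, c * dist x y ≤ ‖F.io x - F.io y‖ ∧
      ‖F.io x - F.io y‖ ≤ C * dist x y := by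
  obtain ⟨C, hC, h1⟩ := exists_lip_of_compact (fun z => F.sm.locLip hBL z)
  obtain ⟨c, hc, h2⟩ := exists_anti_of_compact (F.continuous hcov) (F.injective hcov)
    (F.locAnti hBL hcov)
  exact ⟨c, C, hc, hC, fun x y => ⟨h2 x y, h1 x y⟩⟩

end Emb

/-- `pi : V → X` is smooth near `y` -/
def Good (A : Atl n ι X) (pi : V → X) (y : V) : Prop :=
  ∃ (a : ι) (G : V → EuclideanSpace ℝ (Fin n)) (U : Set V), IsOpen U ∧ y ∈ U ∧
    ContDiffOn ℝ ∞ G U ∧ MapsTo G U (A.e a).target ∧ EqOn pi (fun z => (A.e a).symm (G z)) U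

theorem isOpen_good (A : Atl n ι X) (pi : V → X) : IsOpen {y | Good A pi y} := by
  rw [isOpen_iff_mem_nhds]
  rintro y ⟨a, G, U, hU, hy, h1, h2, h3⟩
  exact Filter.mem_of_superset (hU.mem_nhds hy) fun z hz => ⟨a, G, U, hU, hz, h1, h2, h3⟩

theorem Good.continuousAt {A : Atl n ι X} {pi : V → X} {y : V} (h : Good A pi y) :
    ContinuousAt pi y := by
  obtain ⟨a, G, U, hU, hy, h1, h2, h3⟩ := h
  have h4 : ContinuousAt (fun z => (A.e a).symm (G z)) y :=
    ((A.e a).continuousAt_symm (h2 hy)).comp (h1.contDiffAt (hU.mem_nhds hy)).continuousAt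
  exact h4.congr_of_eventuallyEq (h3.eventuallyEq_of_mem (hU.mem_nhds hy))

theorem Good.contDiffAt {A : Atl n ι X} {pi : V → X} {y : V} (h : Good A pi y) {b : ι}
    (hb : pi y ∈ (A.e b).source) : ContDiffAt ℝ ∞ (fun z => A.e b (pi z)) y := by
  obtain ⟨a, G, U, hU, hy, h1, h2, h3⟩ := h
  have hb' : (A.e a).symm (G y) ∈ (A.e b).source := by
    have h4 : pi y = (A.e a).symm (G y) := h3 hy
    rw [← h4]; exact hb
  have h4 : ContDiffAt ℝ ∞ (fun z => A.tr a b (G z)) y :=
    (A.contDiffAt_tr (h2 hy) hb').comp y (h1.contDiffAt (hU.mem_nhds hy))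
  refine h4.congr_of_eventuallyEq ?_
  filter_upwards [hU.mem_nhds hy] with z hz
  rw [h3 hz]
  rfl

theorem Good.congr {A : Atl n ι X} {pi pi' : V → X} {y : V} (h : Good A pi y) {S : Set V}
    (hS : IsOpen S) (hy : y ∈ S) (he : EqOn pi' pi S) : Good A pi' y := by
  obtain ⟨a, G, U, hU, hy', h1, h2, h3⟩ := h
  exact ⟨a, G, U ∩ S, hU.inter hS, ⟨hy', hy⟩, h1.mono inter_subset_left,
    fun z hz => h2 hz.1, fun z hz => (he hz.2).trans (h3 hz.1)⟩

theorem Good.of_at {A : Atl n ι X} {pi : V → X} {y : V} (h : ∀ᶠ z in 𝓝 y, Good A pi z) (b : ι)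
    (hb : pi y ∈ (A.e b).source) : ∃ U : Set V, IsOpen U ∧ y ∈ U ∧
      ContDiffOn ℝ ∞ (fun z => A.e b (pi z)) U ∧ ∀ z ∈ U, pi z ∈ (A.e b).source := by
  have h0 : Good A pi y := h.self_of_nhds
  have h1 : ∀ᶠ z in 𝓝 y, pi z ∈ (A.e b).source :=
    h0.continuousAt.eventually ((A.e b).open_source.mem_nhds hb)
  obtain ⟨U, hU1, hU2, hU3⟩ := _root_.mem_nhds_iff.1 (h.and h1)
  exact ⟨U, hU2, hU3, fun z hz => ((hU1 hz).1.contDiffAt (hU1 hz).2).contDiffWithinAt,
    fun z hz => (hU1 hz).2⟩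

/-- one step of the construction of the projection -/
theorem Emb.step [FiniteDimensional ℝ V] {A : Atl n ι X} (F : Emb A V) (hF : Continuous F.io)
    (D : Set X) (pi : V → X)
    (hpi : ∀ x ∈ D, Good A pi (F.io x) ∧ pi (F.io x) = x) (a : ι) :
    ∃ pi' : V → X, ∀ x ∈ D ∪ A.core a, Good A pi' (F.io x) ∧ pi' (F.io x) = x := by
  classical
  obtain ⟨θ, K', hK', hKN, hθ, hθ0, hθ1, hθz, hθo⟩ := exists_cutoff
    ((A.isCompact_core a).image hF) (F.open_N a) (by
      rintro _ ⟨x, hx, rfl⟩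
      exact F.mem a x hx)
  set cb : V → EuclideanSpace ℝ (Fin n) := fun z => (1 - θ z) • A.e a (pi z) + θ z • F.P a z
    with hcb
  refine ⟨fun z => if z ∈ K' then (A.e a).symm (cb z) else pi z, fun x hx => ?_⟩
  set y := F.io x with hy
  by_cases hc : x ∈ A.core a
  · -- near `y` we have `θ = 1`
    have h1 : ∀ᶠ z in 𝓝 y, θ z = 1 := hθo y ⟨x, hc, rfl⟩
    have hyN : y ∈ F.N a := F.mem a x hc
    have hPy : F.P a y = A.e a x := F.left a x hyN
    have hxs := (A.mem_core.1 hc).1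
    have h2 : ∀ᶠ z in 𝓝 y, F.P a z ∈ (A.e a).target := by
      have h3 := ((F.smP a).contDiffAt ((F.open_N a).mem_nhds hyN)).continuousAt
      refine h3.eventually ((A.e a).open_target.mem_nhds ?_)
      rw [hPy]
      exact (A.e a).map_source hxs
    obtain ⟨U, hU1, hU2, hU3⟩ := _root_.mem_nhds_iff.1 (h1.and (h2.and ((F.open_N a).mem_nhds hyN)))
    have hval : ∀ z ∈ U, (if z ∈ K' then (A.e a).symm (cb z) else pi z) =
        (A.e a).symm (F.P a z) := by
      intro z hz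
      have h4 : θ z = 1 := (hU1 hz).1
      have h5 : z ∈ K' := by
        by_contra h6
        rw [hθz z h6] at h4
        exact zero_ne_one h4
      rw [if_pos h5, hcb]
      simp only [h4, sub_self, zero_smul, one_smul, zero_add]
    refine ⟨⟨a, F.P a, U, hU2, hU3, (F.smP a).mono fun z hz => (hU1 hz).2.2,
      fun z hz => (hU1 hz).2.1, hval⟩, ?_⟩
    have := hval y hU3
    simp only [] at this ⊢
    rw [this, hPy, (A.e a).left_inv hxs]
  · have hxD : x ∈ D := by
      rcases hx with h | h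
      · exact h
      · exact absurd h hc
    obtain ⟨hg, hgx⟩ := hpi x hxD
    by_cases hyK : y ∈ K'
    · have hyN : y ∈ F.N a := hKN hyK
      have hxs : x ∈ (A.e a).source := F.src a x hyN
      have hPy : F.P a y = A.e a x := F.left a x hyN
      have hev : ∀ᶠ z in 𝓝 y, Good A pi z := (isOpen_good A pi).mem_nhds hg
      obtain ⟨U, hU, hyU, hsm, hsrc⟩ := Good.of_at hev a (by rw [hgx]; exact hxs)
      have hcbs : ContDiffOn ℝ ∞ cb (U ∩ F.N a) :=
        ((contDiff_const.sub hθ).contDiffOn.smul (hsm.mono inter_subset_left)).add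
          (hθ.contDiffOn.smul ((F.smP a).mono inter_subset_right))
      have hcby : cb y = A.e a x := by
        have h9 : pi y = x := hgx
        show (1 - θ y) • A.e a (pi y) + θ y • F.P a y = A.e a x
        rw [h9, hPy, ← add_smul, sub_add_cancel, one_smul]
      have hopen : IsOpen (U ∩ F.N a) := hU.inter (F.open_N a)
      have h2 : ∀ᶠ z in 𝓝 y, cb z ∈ (A.e a).target := by
        have h3 := (hcbs.contDiffAt (hopen.mem_nhds ⟨hyU, hyN⟩)).continuousAt
        refine h3.eventually ((A.e a).open_target.mem_nhds ?_)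
        rw [hcby]
        exact (A.e a).map_source hxs
      obtain ⟨U', hU1, hU2, hU3⟩ := _root_.mem_nhds_iff.1 (h2.and (hopen.mem_nhds ⟨hyU, hyN⟩))
      have hval : ∀ z ∈ U', (if z ∈ K' then (A.e a).symm (cb z) else pi z) =
          (A.e a).symm (cb z) := by
        intro z hz
        by_cases hz' : z ∈ K'
        · rw [if_pos hz']
        · rw [if_neg hz', hcb]
          simp only [hθz z hz', sub_zero, one_smul, zero_smul, add_zero]
          rw [(A.e a).left_inv (hsrc z (hU1 hz).2.1)]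
      refine ⟨⟨a, cb, U', hU2, hU3, hcbs.mono fun z hz => (hU1 hz).2,
        fun z hz => (hU1 hz).1, hval⟩, ?_⟩
      have := hval y hU3
      simp only [] at this ⊢
      rw [this, hcby, (A.e a).left_inv hxs]
    · refine ⟨hg.congr (S := K'ᶜ) hK'.isClosed.isOpen_compl hyK fun z hz => if_neg hz, ?_⟩
      simp only [if_neg hyK]
      exact hgx

/-- existence of the projection -/
theorem Emb.exists_pi [FiniteDimensional ℝ V] [Fintype ι] [Nonempty X] {A : Atl n ι X}
    (F : Emb A V) (hcov : ∀ x, ∃ a, x ∈ A.core a) :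
    ∃ pi : V → X, ∀ x, Good A pi (F.io x) ∧ pi (F.io x) = x := by
  classical
  have key : ∀ S : Finset ι, ∃ pi : V → X, ∀ x ∈ {x | ∃ a ∈ S, x ∈ A.core a},
      Good A pi (F.io x) ∧ pi (F.io x) = x := by
    intro S
    induction S using Finset.induction_on with
    | empty =>
      refine ⟨fun _ => Classical.arbitrary X, fun x hx => ?_⟩
      obtain ⟨a, ha, -⟩ := hx
      simp at ha
    | insert a S _ ih =>
      obtain ⟨pi, hpi⟩ := ih
      obtain ⟨pi', hpi'⟩ := F.step (F.continuous hcov) _ pi hpi a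
      refine ⟨pi', fun x hx => hpi' x ?_⟩
      obtain ⟨b, hb, hxb⟩ := hx
      rcases Finset.mem_insert.1 hb with rfl | hb
      · exact Or.inr hxb
      · exact Or.inl ⟨b, hb, hxb⟩
  obtain ⟨pi, hpi⟩ := key Finset.univ
  exact ⟨pi, fun x => hpi x (by obtain ⟨a, ha⟩ := hcov x; exact ⟨a, Finset.mem_univ _, ha⟩)⟩

/-- existence of the embedding -/
theorem exists_emb [Fintype ι] (A : Atl n ι X) :
    Nonempty (Emb A (ι → EuclideanSpace ℝ (Fin n) × ℝ)) := by
  have key := fun a => exists_cutoff (A.isCompact_C a) (A.e a).open_target (A.C_sub a)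
  choose θ K hK hKt hθ hθ0 hθ1 hθz hθo using key
  set G : ι → EuclideanSpace ℝ (Fin n) → EuclideanSpace ℝ (Fin n) × ℝ :=
    fun a y => (θ a y • y, θ a y) with hG
  have hGs : ∀ a, ContDiff ℝ ∞ (G a) := fun a => ((hθ a).smul contDiff_id).prodMk (hθ a)
  have hG0 : ∀ a y, y ∉ K a → G a y = 0 := by
    intro a y hy
    rw [hG]
    simp only [hθz a y hy, zero_smul]
    rfl
  have hsrc : ∀ a x, (1:ℝ) / 2 < (ext A a (G a) x).2 → x ∈ (A.e a).source := by
    intro a x hx
    by_contra h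
    rw [ext_of_notMem h] at hx
    norm_num at hx
  refine ⟨⟨fun x a => ext A a (G a) x, SmX.pi fun a => smX_ext A a (hGs a) (hK a) (hKt a) (hG0 a),
    fun a => {w | (1:ℝ) / 2 < (w a).2}, fun a => ?_, fun a w => ((w a).2)⁻¹ • (w a).1,
    fun a => ?_, fun a x hx => ?_, fun a x hx => hsrc a x hx, fun a x hx => ?_⟩⟩
  · exact isOpen_lt continuous_const (by fun_prop)
  · have h1 : ContDiff ℝ ∞ fun w : ι → EuclideanSpace ℝ (Fin n) × ℝ => (w a).2 :=
      contDiff_snd.comp (contDiff_apply ℝ _ a)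
    have h2 : ContDiff ℝ ∞ fun w : ι → EuclideanSpace ℝ (Fin n) × ℝ => (w a).1 :=
      contDiff_fst.comp (contDiff_apply ℝ _ a)
    refine (h1.contDiffOn.inv fun w hw => ?_).smul h2.contDiffOn
    have : (1:ℝ) / 2 < (w a).2 := hw
    linarith
  · obtain ⟨h1, h2⟩ := A.mem_core.1 hx
    show (1:ℝ) / 2 < (ext A a (G a) x).2
    rw [ext_of_mem h1, hG]
    simp only
    rw [(hθo a _ h2).self_of_nhds]
    norm_num
  · have h1 := hsrc a x hx
    have h2 : (1:ℝ) / 2 < (ext A a (G a) x).2 := hx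
    show ((ext A a (G a) x).2)⁻¹ • (ext A a (G a) x).1 = A.e a x
    rw [ext_of_mem h1] at h2 ⊢
    rw [hG] at h2 ⊢
    simp only at h2 ⊢
    rw [smul_smul, inv_mul_cancel₀ (by linarith), one_smul]

end Crest.Agent.R249.Prj832
end
end

-- ▼ part R249/Prj3_832
section

/-!
# R249, D4-PROJ (helper832), part 3: flatness and the final structure

* `INF e` : infinitesimal form of the distance;
* `Proj m e` : bi-Lipschitz embedding, smooth projection, flatness at small scales;
* `exists_proj`.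
-/

set_option autoImplicit false
set_option linter.style.haveILetI false
set_option linter.unusedSectionVars false
noncomputable section
open Set Filter Topology Metric
open scoped ContDiff Manifold

namespace Crest.Agent.R249.Prj832

open Crest.Agent.R249.Glue832

variable {n : ℕ} {ι : Type*} {X : Type*} [MetricSpace X]
  {V : Type*} [NormedAddCommGroup V] [NormedSpace ℝ V]

/-- infinitesimal form of the distance -/
def INF (e : ι → OpenPartialHomeomorph X (EuclideanSpace ℝ (Fin n))) : Prop :=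
  ∀ z : X, ∃ a, z ∈ (e a).source ∧ ∃ L : EuclideanSpace ℝ (Fin n) ≃L[ℝ] EuclideanSpace ℝ (Fin n),
    ∀ η : ℝ, 0 < η → ∃ r : ℝ, 0 < r ∧ ∀ x ∈ ball z r, ∀ y ∈ ball z r,
      |dist x y - ‖L (e a x - e a y)‖| ≤ η * dist x y

theorem BL_of_INF {A : Atl n ι X} (h : INF A.e) : BL A := by
  intro z
  obtain ⟨a, hz, L, hL⟩ := h z
  obtain ⟨r, hr, h1⟩ := hL (1 / 2) (by norm_num)
  set N : ℝ := ‖(L : EuclideanSpace ℝ (Fin n) →L[ℝ] EuclideanSpace ℝ (Fin n))‖ + 1 with hN
  set N' : ℝ := ‖(L.symm : EuclideanSpace ℝ (Fin n) →L[ℝ] EuclideanSpace ℝ (Fin n))‖ + 1 with hN'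
  have hN0 : 0 < N := by positivity
  have hN'0 : 0 < N' := by positivity
  refine ⟨a, hz, 1 / (2 * N), 3 / 2 * N', r, by positivity, by positivity, hr,
    fun x hx y hy => ?_⟩
  have h2 := abs_le.1 (h1 x hx y hy)
  set v := A.e a x - A.e a y with hv
  have h3 : ‖L v‖ ≤ N * ‖v‖ := by
    have := (L : EuclideanSpace ℝ (Fin n) →L[ℝ] EuclideanSpace ℝ (Fin n)).le_opNorm v
    have h4 : ‖L v‖ ≤ (N - 1) * ‖v‖ := by simpa [hN] using this
    nlinarith [norm_nonneg v]
  have h3' : ‖v‖ ≤ N' * ‖L v‖ := by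
    have := (L.symm : EuclideanSpace ℝ (Fin n) →L[ℝ] EuclideanSpace ℝ (Fin n)).le_opNorm (L v)
    have h4 : ‖v‖ ≤ (N' - 1) * ‖L v‖ := by simpa [hN'] using this
    nlinarith [norm_nonneg (L v)]
  constructor
  · rw [one_div, inv_mul_le_iff₀ (by positivity)]
    nlinarith
  · nlinarith [mul_le_mul_of_nonneg_left (show ‖L v‖ ≤ 3 / 2 * dist x y by linarith) hN'0.le]

/-- transfer of an embedding to another normed space -/
def Emb.map {A : Atl n ι X} (F : Emb A V) {V' : Type*} [NormedAddCommGroup V'] [NormedSpace ℝ V']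
    (T : V ≃L[ℝ] V') : Emb A V' where
  io x := T (F.io x)
  sm := F.sm.comp T.contDiff
  N a := T.symm ⁻¹' (F.N a)
  open_N a := (F.open_N a).preimage T.symm.continuous
  P a w := F.P a (T.symm w)
  smP a := (F.smP a).comp T.symm.contDiff.contDiffOn fun _ hw => hw
  mem a x hx := by
    show T.symm (T (F.io x)) ∈ F.N a
    rw [T.symm_apply_apply]; exact F.mem a x hx
  src a x hx := by
    have : T.symm (T (F.io x)) ∈ F.N a := hx
    rw [T.symm_apply_apply] at this
    exact F.src a x this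
  left a x hx := by
    have : T.symm (T (F.io x)) ∈ F.N a := hx
    rw [T.symm_apply_apply] at this ⊢
    exact F.left a x this

/-- derivative bounds from Lipschitz bounds at small scales -/
theorem fderiv_bounds {E : Type*} [NormedAddCommGroup E] [NormedSpace ℝ E] {T : E → V} {p : E}
    (hT : DifferentiableAt ℝ T p) {c C : ℝ}
    (h : ∀ ε : ℝ, 0 < ε → ∀ᶠ u in 𝓝 p, (c - ε) * ‖u - p‖ ≤ ‖T u - T p‖ ∧
      ‖T u - T p‖ ≤ (C + ε) * ‖u - p‖) (v : E) :
    c * ‖v‖ ≤ ‖fderiv ℝ T p v‖ ∧ ‖fderiv ℝ T p v‖ ≤ C * ‖v‖ := by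
  rcases eq_or_ne v 0 with rfl | hv
  · simp
  have hvn : 0 < ‖v‖ := norm_pos_iff.2 hv
  have key : ∀ ε : ℝ, 0 < ε → (c - 2 * ε) * ‖v‖ ≤ ‖fderiv ℝ T p v‖ ∧
      ‖fderiv ℝ T p v‖ ≤ (C + 2 * ε) * ‖v‖ := by
    intro ε hε
    have h1 := (hasFDerivAt_iff_isLittleO.1 hT.hasFDerivAt).def hε
    have h2 := h ε hε
    have h3 : Tendsto (fun t : ℝ => p + t • v) (𝓝[>] 0) (𝓝 p) := by
      have : Continuous fun t : ℝ => p + t • v := by fun_prop
      have h4 := this.tendsto 0
      simp only [zero_smul, add_zero] at h4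
      exact h4.mono_left nhdsWithin_le_nhds
    have h8 : ∀ᶠ t : ℝ in 𝓝[>] 0, t ∈ Ioi (0:ℝ) := self_mem_nhdsWithin
    obtain ⟨t, ht, ht1, ht2⟩ := (h8.and (h3.eventually (h1.and h2))).exists
    have ht0 : 0 < t := ht
    simp only [add_sub_cancel_left, map_smul, norm_smul, Real.norm_eq_abs, abs_of_pos ht0]
      at ht1 ht2
    have h5 : ‖T (p + t • v) - T p‖ ≤ t * ‖fderiv ℝ T p v‖ + ε * (t * ‖v‖) := by
      calc ‖T (p + t • v) - T p‖ = ‖t • fderiv ℝ T p v +
            (T (p + t • v) - T p - t • fderiv ℝ T p v)‖ := by congr 1; abel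
        _ ≤ ‖t • fderiv ℝ T p v‖ + ‖T (p + t • v) - T p - t • fderiv ℝ T p v‖ :=
            norm_add_le _ _
        _ ≤ _ := by
            rw [norm_smul, Real.norm_eq_abs, abs_of_pos ht0]
            gcongr
    have h6 : t * ‖fderiv ℝ T p v‖ ≤ ‖T (p + t • v) - T p‖ + ε * (t * ‖v‖) := by
      calc t * ‖fderiv ℝ T p v‖ = ‖t • fderiv ℝ T p v‖ := by
            rw [norm_smul, Real.norm_eq_abs, abs_of_pos ht0]
        _ = ‖(T (p + t • v) - T p) - (T (p + t • v) - T p - t • fderiv ℝ T p v)‖ := by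
            congr 1; abel
        _ ≤ ‖T (p + t • v) - T p‖ + ‖T (p + t • v) - T p - t • fderiv ℝ T p v‖ :=
            norm_sub_le _ _
        _ ≤ _ := by gcongr
    constructor
    · have : t * ((c - 2 * ε) * ‖v‖) ≤ t * ‖fderiv ℝ T p v‖ := by nlinarith [ht2.1]
      exact le_of_mul_le_mul_left this ht0
    · have : t * ‖fderiv ℝ T p v‖ ≤ t * ((C + 2 * ε) * ‖v‖) := by nlinarith [ht2.2]
      exact le_of_mul_le_mul_left this ht0
  constructor
  · refine le_of_forall_pos_le_add fun ε hε => ?_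
    have := (key (ε / (2 * ‖v‖)) (by positivity)).1
    have h7 : (c - 2 * (ε / (2 * ‖v‖))) * ‖v‖ = c * ‖v‖ - ε := by field_simp
    linarith
  · refine le_of_forall_pos_le_add fun ε hε => ?_
    have := (key (ε / (2 * ‖v‖)) (by positivity)).2
    have h7 : (C + 2 * (ε / (2 * ‖v‖))) * ‖v‖ = C * ‖v‖ + ε := by field_simp
    linarith

/-- flatness near a point, all scales -/
theorem Emb.flat_at {A : Atl n ι X} (F : Emb A V) {c₀ C₀ : ℝ} (hc₀ : 0 < c₀) (hC₀ : 0 < C₀)
    (hb : ∀ x y, c₀ * dist x y ≤ ‖F.io x - F.io y‖ ∧ ‖F.io x - F.io y‖ ≤ C₀ * dist x y)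
    {a : ι} {z : X} (hz : z ∈ (A.e a).source)
    (L : EuclideanSpace ℝ (Fin n) ≃L[ℝ] EuclideanSpace ℝ (Fin n))
    (hL : ∀ η : ℝ, 0 < η → ∃ r : ℝ, 0 < r ∧ ∀ x ∈ ball z r, ∀ y ∈ ball z r,
      |dist x y - ‖L (A.e a x - A.e a y)‖| ≤ η * dist x y) :
    ∃ (f : X → EuclideanSpace ℝ (Fin n)) (B : EuclideanSpace ℝ (Fin n) →L[ℝ] V),
      (∀ v, c₀ * ‖v‖ ≤ ‖B v‖ ∧ ‖B v‖ ≤ C₀ * ‖v‖) ∧
      (∀ G : V → V, DifferentiableAt ℝ G (F.io z) → (∀ x, G (F.io x) = F.io x) →
        ∀ v, fderiv ℝ G (F.io z) (B v) = B v) ∧ ∀ η : ℝ, 0 < η → ∃ r : ℝ, 0 < r ∧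
        (∀ x ∈ ball z r, ∀ y ∈ ball z r, |‖f x - f y‖ - dist x y| ≤ η * dist x y ∧
          ‖F.io x - F.io y - B (f x - f y)‖ ≤ η * dist x y) ∧
        ∃ s : ℝ, 0 < s ∧ ∀ w ∈ ball (f z) s, ∃ y ∈ ball z r, f y = w := by
  set f : X → EuclideanSpace ℝ (Fin n) := fun x => L (A.e a x) with hf
  set T : EuclideanSpace ℝ (Fin n) → V := fun u => F.io ((A.e a).symm (L.symm u)) with hT
  set p := f z with hp
  have hLp : L.symm p = A.e a z := by rw [hp, hf]; simp
  have hTs : ContDiffAt ℝ ∞ T p := by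
    have h1 : ContDiffAt ℝ ∞ (fun y => F.io ((A.e a).symm y)) (L.symm p) := by
      rw [hLp]; exact F.sm.at hz
    exact h1.comp p L.symm.contDiff.contDiffAt
  have hTf : ∀ x ∈ (A.e a).source, T (f x) = F.io x := by
    intro x hx
    simp only [hT, hf, L.symm_apply_apply, (A.e a).left_inv hx]
  -- the inverse of `f`
  have hinv : ∀ᶠ u in 𝓝 p, L.symm u ∈ (A.e a).target := by
    have h1 : ContinuousAt (fun u => L.symm u) p := L.symm.continuous.continuousAt
    refine h1.eventually ((A.e a).open_target.mem_nhds ?_)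
    show L.symm p ∈ _
    rw [hLp]
    exact (A.e a).map_source hz
  have hg : ∀ r : ℝ, 0 < r → ∀ᶠ u in 𝓝 p, (A.e a).symm (L.symm u) ∈ ball z r := by
    intro r hr
    have h1 : ContinuousAt (fun u => (A.e a).symm (L.symm u)) p := by
      have h2 : ContinuousAt (A.e a).symm (L.symm p) := by
        rw [hLp]; exact (A.e a).continuousAt_symm ((A.e a).map_source hz)
      exact h2.comp L.symm.continuous.continuousAt
    refine h1.eventually (isOpen_ball.mem_nhds ?_)
    show (A.e a).symm (L.symm p) ∈ _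
    rw [hLp, (A.e a).left_inv hz]
    exact mem_ball_self hr
  have hfg : ∀ u, L.symm u ∈ (A.e a).target → f ((A.e a).symm (L.symm u)) = u := by
    intro u hu
    simp only [hf, (A.e a).right_inv hu, L.apply_symm_apply]
  have hL' : ∀ η : ℝ, 0 < η → ∃ r : ℝ, 0 < r ∧ ∀ x ∈ ball z r, ∀ y ∈ ball z r,
      |‖f x - f y‖ - dist x y| ≤ η * dist x y := by
    intro η hη
    obtain ⟨r, hr, h1⟩ := hL η hη
    refine ⟨r, hr, fun x hx y hy => ?_⟩
    rw [abs_sub_comm]
    simpa only [hf, map_sub] using h1 x hx y hy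
  refine ⟨f, fderiv ℝ T p, fderiv_bounds (hTs.differentiableAt (by simp)) ?_, ?_, ?_⟩
  · -- small scale bounds of `T`
    intro ε hε
    obtain ⟨η, hη, hη1, hη2, hη3⟩ : ∃ η : ℝ, 0 < η ∧ η ≤ 1 / 2 ∧ 2 * C₀ * η ≤ ε ∧ c₀ * η ≤ ε := by
      refine ⟨min (1 / 2) (min (ε / (2 * C₀)) (ε / c₀)), by positivity, min_le_left _ _, ?_, ?_⟩
      · have h1 : min (1 / 2) (min (ε / (2 * C₀)) (ε / c₀)) ≤ ε / (2 * C₀) :=
          (min_le_right _ _).trans (min_le_left _ _)
        rw [le_div_iff₀ (by positivity)] at h1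
        linarith
      · have h1 : min (1 / 2) (min (ε / (2 * C₀)) (ε / c₀)) ≤ ε / c₀ :=
          (min_le_right _ _).trans (min_le_right _ _)
        rw [le_div_iff₀ (by positivity)] at h1
        linarith
    obtain ⟨r, hr, h1⟩ := hL' η hη
    filter_upwards [hg r hr, hinv] with u hu1 hu2
    set x := (A.e a).symm (L.symm u) with hx
    have h2 := abs_le.1 (h1 x hu1 z (mem_ball_self hr))
    rw [hfg u hu2] at h2
    have h3 := hb x z
    have h4 : T u = F.io x := rfl
    have h5 : T p = F.io z := hTf z hz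
    rw [h4, h5]
    have hd : 0 ≤ dist x z := dist_nonneg
    constructor
    · -- `(c₀ - ε) ‖u - p‖ ≤ c₀ dist x z`
      refine le_trans ?_ h3.1
      rcases le_or_gt c₀ ε with hcε | hcε
      · exact (mul_nonpos_of_nonpos_of_nonneg (by linarith) (norm_nonneg _)).trans
          (by positivity)
      · have h6 : ‖u - p‖ ≤ (1 + η) * dist x z := by linarith
        calc (c₀ - ε) * ‖u - p‖ ≤ (c₀ - ε) * ((1 + η) * dist x z) := by
              gcongr
          _ = ((c₀ - ε) * (1 + η)) * dist x z := by ring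
          _ ≤ c₀ * dist x z := by
              gcongr
              nlinarith
    · refine h3.2.trans ?_
      have h6 : (1 - η) * dist x z ≤ ‖u - p‖ := by linarith
      have h7 : dist x z ≤ (1 + 2 * η) * ‖u - p‖ := by
        have h8 : 0 ≤ (1 + 2 * η) := by linarith
        have h9 := mul_le_mul_of_nonneg_left h6 h8
        have h10 : 1 ≤ (1 + 2 * η) * (1 - η) := by nlinarith
        nlinarith
      calc C₀ * dist x z ≤ C₀ * ((1 + 2 * η) * ‖u - p‖) := by gcongr
        _ = (C₀ + 2 * C₀ * η) * ‖u - p‖ := by ring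
        _ ≤ (C₀ + ε) * ‖u - p‖ := by gcongr
  · intro G hG hGio v
    have h1 : (fun u => G (T u)) = T := funext fun u => hGio _
    have h2 : T p = F.io z := hTf z hz
    have h3 : HasFDerivAt (fun u => G (T u)) ((fderiv ℝ G (F.io z)).comp (fderiv ℝ T p)) p := by
      rw [← h2]
      rw [← h2] at hG
      exact hG.hasFDerivAt.comp p (hTs.differentiableAt (by simp)).hasFDerivAt
    rw [h1] at h3
    have h4 := h3.fderiv
    conv_rhs => rw [h4]
    rfl
  · intro η hη
    obtain ⟨η', hη', hη'1, hη'2⟩ : ∃ η' : ℝ, 0 < η' ∧ η' ≤ 1 ∧ 2 * η' ≤ η :=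
      ⟨min 1 (η / 2), by positivity, min_le_left _ _, by
        have := min_le_right 1 (η / 2); linarith⟩
    obtain ⟨r₁, hr₁, h1⟩ := hL' η' hη'
    -- strict differentiability
    have hst := (hTs.hasStrictFDerivAt (by simp)).isLittleO.def hη'
    have hcf : ContinuousAt f z := by
      have : ContinuousAt (fun x => L (A.e a x)) z :=
        L.continuous.continuousAt.comp ((A.e a).continuousAt hz)
      exact this
    obtain ⟨δ, hδ, h2⟩ := Metric.eventually_nhds_iff_ball.1 hst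
    have h3 : ∀ᶠ x in 𝓝 z, x ∈ (A.e a).source ∧ f x ∈ ball p δ ∧ x ∈ ball z r₁ := by
      filter_upwards [(A.e a).open_source.mem_nhds hz, hcf.eventually (ball_mem_nhds _ hδ),
        ball_mem_nhds z hr₁] with x h1 h2 h3
      exact ⟨h1, h2, h3⟩
    obtain ⟨r, hr, hr'⟩ := Metric.eventually_nhds_iff_ball.1 h3
    refine ⟨r, hr, fun x hx y hy => ?_, ?_⟩
    · obtain ⟨hx1, hx2, hx3⟩ := hr' x hx
      obtain ⟨hy1, hy2, hy3⟩ := hr' y hy
      have h4 := h1 x hx3 y hy3
      have hd : 0 ≤ dist x y := dist_nonneg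
      refine ⟨h4.trans (by nlinarith), ?_⟩
      have h5 := h2 (f x, f y) (by
        rw [mem_ball, Prod.dist_eq]
        exact max_lt hx2 hy2)
      simp only at h5
      rw [hTf x hx1, hTf y hy1] at h5
      refine h5.trans ?_
      have h6 := (abs_le.1 h4).2
      have h7 : ‖f x - f y‖ ≤ (1 + η') * dist x y := by linarith
      calc η' * ‖f x - f y‖ ≤ η' * ((1 + η') * dist x y) := by gcongr
        _ = (η' * (1 + η')) * dist x y := by ring
        _ ≤ η * dist x y := by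
            gcongr
            nlinarith
    · obtain ⟨s, hs, hs'⟩ := Metric.eventually_nhds_iff_ball.1 ((hg r hr).and hinv)
      exact ⟨s, hs, fun w hw => ⟨_, (hs' w hw).1, hfg w (hs' w hw).2⟩⟩

end Crest.Agent.R249.Prj832
end
end

-- ▼ part R249/Prj4_832
section

/-!
# R249, D4-PROJ (helper832), part 4: the final structure

* `Proj m e` : bi-Lipschitz embedding `io` of `X` in `ℝ^m`, smooth projection `pi`, flatness;
* `exists_proj` : from finitely many charts with smooth transitions and `INF e`.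
-/

set_option autoImplicit false
set_option linter.style.haveILetI false
set_option linter.unusedSectionVars false
noncomputable section
open Set Filter Topology Metric
open scoped ContDiff Manifold

namespace Crest.Agent.R249.Prj832

open Crest.Agent.R249.Glue832

variable {n : ℕ} {ι : Type*} {X : Type*} [MetricSpace X]

/-- bi-Lipschitz embedding of `X` in `ℝ^m`, smooth projection, flatness at small scales -/
structure Proj (m : ℕ) (e : ι → OpenPartialHomeomorph X (EuclideanSpace ℝ (Fin n))) where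
  /-- the embedding -/
  io : X → EuclideanSpace ℝ (Fin m)
  /-- lower Lipschitz constant -/
  c₀ : ℝ
  /-- upper Lipschitz constant -/
  C₀ : ℝ
  c₀_pos : 0 < c₀
  C₀_pos : 0 < C₀
  lower : ∀ x y, c₀ * dist x y ≤ ‖io x - io y‖
  upper : ∀ x y, ‖io x - io y‖ ≤ C₀ * dist x y
  /-- the domain of the projection -/
  O : Set (EuclideanSpace ℝ (Fin m))
  isOpen_O : IsOpen O
  io_mem : ∀ x, io x ∈ O
  /-- the projection -/
  pi : EuclideanSpace ℝ (Fin m) → X
  pi_io : ∀ x, pi (io x) = x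
  continuousOn_pi : ContinuousOn pi O
  smooth_pi : ∀ a, ContDiffOn ℝ ∞ (fun y => e a (pi y)) (O ∩ pi ⁻¹' (e a).source)
  smooth_io : ∀ a, ContDiffOn ℝ ∞ (fun y => io ((e a).symm y)) (e a).target
  smooth_io_pi : ContDiffOn ℝ ∞ (fun y => io (pi y)) O
  bound : ∃ K ρ : ℝ, 0 < K ∧ 0 < ρ ∧ ∀ x y, ‖y - io x‖ ≤ ρ →
    y ∈ O ∧ ‖fderiv ℝ (fun y => io (pi y)) y‖ ≤ K
  flat : ∀ η : ℝ, 0 < η → ∃ d₀ : ℝ, 0 < d₀ ∧ ∀ d : ℝ, 0 < d → d ≤ d₀ → ∀ x₀ : X,
    ∃ (f : X → EuclideanSpace ℝ (Fin n))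
      (B : EuclideanSpace ℝ (Fin n) →L[ℝ] EuclideanSpace ℝ (Fin m)),
      (∀ v, c₀ * ‖v‖ ≤ ‖B v‖ ∧ ‖B v‖ ≤ C₀ * ‖v‖) ∧
      (∀ y v, ‖y - io x₀‖ ≤ d₀ → ‖fderiv ℝ (fun y => io (pi y)) y (B v) - B v‖ ≤ η * ‖v‖) ∧
      (∀ x ∈ ball x₀ (20 * d), ∀ y ∈ ball x₀ (20 * d),
        |‖f x - f y‖ - dist x y| ≤ η * d ∧ ‖io x - io y - B (f x - f y)‖ ≤ η * d) ∧
      ∀ w, ‖w - f x₀‖ ≤ 10 * d → ∃ y ∈ ball x₀ (20 * d), f y = w

/-- **Existence of the embedding and the projection.** -/
theorem exists_proj [CompactSpace X] [Nonempty X] [Fintype ι]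
    (e : ι → OpenPartialHomeomorph X (EuclideanSpace ℝ (Fin n)))
    (hcov : ∀ x, ∃ a, x ∈ (e a).source)
    (htr : ∀ a b, ContDiffOn ℝ ∞ (fun y => e b ((e a).symm y))
      {y | y ∈ (e a).target ∧ (e a).symm y ∈ (e b).source})
    (hinf : INF e) : ∃ m : ℕ, Nonempty (Proj m e) := by
  obtain ⟨A, rfl, hA⟩ := exists_atl e hcov htr
  obtain ⟨F0⟩ := exists_emb A
  set m := Module.finrank ℝ (ι → EuclideanSpace ℝ (Fin n) × ℝ) with hm
  have T : (ι → EuclideanSpace ℝ (Fin n) × ℝ) ≃L[ℝ] EuclideanSpace ℝ (Fin m) :=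
    ContinuousLinearEquiv.ofFinrankEq (by rw [finrank_euclideanSpace_fin])
  set F := F0.map T with hF
  have hBL : BL A := BL_of_INF hinf
  obtain ⟨c₀, C₀, hc₀, hC₀, hb⟩ := F.biLip hBL hA
  obtain ⟨pi, hpi⟩ := F.exists_pi hA
  have hO : IsOpen {y | Good A pi y} := isOpen_good A pi
  set G : EuclideanSpace ℝ (Fin m) → EuclideanSpace ℝ (Fin m) := fun y => F.io (pi y) with hG
  have hGs : ContDiffOn ℝ ∞ G {y | Good A pi y} := by
    intro y hy
    obtain ⟨a, ha⟩ := hcov (pi y)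
    have h1 : ContDiffAt ℝ ∞ (fun z => F.io ((A.e a).symm (A.e a (pi z)))) y :=
      ContDiffAt.comp y (g := fun w => F.io ((A.e a).symm w)) (F.sm.at ha)
        (Good.contDiffAt hy ha)
    refine (h1.congr_of_eventuallyEq ?_).contDiffWithinAt
    filter_upwards [(Good.continuousAt hy).eventually ((A.e a).open_source.mem_nhds ha)]
      with z hz
    rw [(A.e a).left_inv hz]
  have hGd : ∀ y, Good A pi y → ContDiffAt ℝ ∞ G y := fun y hy => hGs.contDiffAt (hO.mem_nhds hy)
  have hGio : ∀ x, G (F.io x) = F.io x := by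
    intro x
    show F.io (pi (F.io x)) = F.io x
    rw [(hpi x).2]
  refine ⟨m, ⟨⟨F.io, c₀, C₀, hc₀, hC₀, fun x y => (hb x y).1, fun x y => (hb x y).2,
    {y | Good A pi y}, hO, fun x => (hpi x).1, pi, fun x => (hpi x).2,
    fun y hy => hy.continuousAt.continuousWithinAt, ?_, F.sm, hGs, ?_, ?_⟩⟩⟩
  · rintro a y ⟨hy, hya⟩
    exact (Good.contDiffAt hy hya).contDiffWithinAt
  · -- bound
    have hcio : Continuous F.io := F.continuous hA
    have hK : IsCompact (range F.io) := isCompact_range hcio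
    obtain ⟨K', hK', hK1, hK2⟩ := exists_compact_between hK hO (by
      rintro _ ⟨x, rfl⟩; exact (hpi x).1)
    obtain ⟨ρ, hρ, hρ'⟩ := hK.exists_thickening_subset_open isOpen_interior hK1
    have hc : ContinuousOn (fderiv ℝ G) K' := fun y hy =>
      ((hGd y (hK2 hy)).continuousAt_fderiv (by simp)).continuousWithinAt
    obtain ⟨B, hB⟩ := hK'.exists_bound_of_continuousOn hc
    refine ⟨max B 1, ρ / 2, lt_max_of_lt_right one_pos, by positivity, fun x y hxy => ?_⟩
    have h1 : y ∈ K' := by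
      refine interior_subset (hρ' ?_)
      rw [Metric.mem_thickening_iff]
      exact ⟨F.io x, ⟨x, rfl⟩, by rw [dist_eq_norm]; linarith⟩
    exact ⟨hK2 h1, (hB y h1).trans (le_max_left _ _)⟩
  · -- flatness
    intro η hη
    obtain ⟨η', hη', hη'1, hη'2⟩ : ∃ η' : ℝ, 0 < η' ∧ 40 * η' ≤ η ∧ η' ≤ 1 / 4 :=
      ⟨min (η / 40) (1 / 4), by positivity,
        by have := min_le_left (η / 40) (1 / 4); linarith, min_le_right _ _⟩
    have key : ∀ z : X, ∃ (f : X → EuclideanSpace ℝ (Fin n))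
        (B : EuclideanSpace ℝ (Fin n) →L[ℝ] EuclideanSpace ℝ (Fin m)) (ρ : ℝ), 0 < ρ ∧
        (∀ v, c₀ * ‖v‖ ≤ ‖B v‖ ∧ ‖B v‖ ≤ C₀ * ‖v‖) ∧
        ∀ x₀ ∈ ball z ρ,
          (∀ y v, ‖y - F.io x₀‖ ≤ ρ → ‖fderiv ℝ G y (B v) - B v‖ ≤ η * ‖v‖) ∧
          ∀ d : ℝ, 0 < d → d ≤ ρ →
          (∀ x ∈ ball x₀ (20 * d), ∀ y ∈ ball x₀ (20 * d),
            |‖f x - f y‖ - dist x y| ≤ η * d ∧ ‖F.io x - F.io y - B (f x - f y)‖ ≤ η * d) ∧
          ∀ w, ‖w - f x₀‖ ≤ 10 * d → ∃ y ∈ ball x₀ (20 * d), f y = w := by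
      intro z
      obtain ⟨a, hza, L, hL⟩ := hinf z
      obtain ⟨f, B, hB, hBG, h1⟩ := F.flat_at hc₀ hC₀ hb hza L hL
      obtain ⟨r, hr, h2, s, hs, h3⟩ := h1 η' hη'
      have hGz := hGd (F.io z) (hpi z).1
      have hBz := hBG G (hGz.differentiableAt (by simp)) hGio
      have hcd : ContinuousAt (fderiv ℝ G) (F.io z) := hGz.continuousAt_fderiv (by simp)
      obtain ⟨δ, hδ, hδ'⟩ := Metric.continuousAt_iff.1 hcd (η / C₀) (by positivity)
      set ρ := min (min (r / 21) (s / 13)) (δ / (2 * (1 + C₀))) with hρ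
      have hρ1 : 21 * ρ ≤ r := by
        have : ρ ≤ r / 21 := (min_le_left _ _).trans (min_le_left _ _)
        linarith
      have hρ2 : 13 * ρ ≤ s := by
        have : ρ ≤ s / 13 := (min_le_left _ _).trans (min_le_right _ _)
        linarith
      have hρ0 : 0 < ρ := by positivity
      have hρ3 : (1 + C₀) * ρ < δ := by
        have h4 : ρ ≤ δ / (2 * (1 + C₀)) := min_le_right _ _
        rw [le_div_iff₀ (by positivity)] at h4
        nlinarith
      refine ⟨f, B, ρ, hρ0, hB, fun x₀ hx₀ => ⟨fun y v hy => ?_, fun d hd hdρ => ?_⟩⟩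
      · have h4 : dist y (F.io z) < δ := by
          rw [dist_eq_norm]
          calc ‖y - F.io z‖ = ‖(y - F.io x₀) + (F.io x₀ - F.io z)‖ := by congr 1; abel
            _ ≤ ‖y - F.io x₀‖ + ‖F.io x₀ - F.io z‖ := norm_add_le _ _
            _ ≤ ρ + C₀ * ρ := by
                refine add_le_add hy ((hb x₀ z).2.trans ?_)
                have : dist x₀ z < ρ := hx₀
                gcongr
            _ < δ := by linarith
        have h5 := hδ' h4
        rw [dist_eq_norm] at h5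
        have h6 : fderiv ℝ G y (B v) - B v = (fderiv ℝ G y - fderiv ℝ G (F.io z)) (B v) := by
          rw [sub_apply, hBz]
        rw [h6]
        calc ‖(fderiv ℝ G y - fderiv ℝ G (F.io z)) (B v)‖
            ≤ ‖fderiv ℝ G y - fderiv ℝ G (F.io z)‖ * ‖B v‖ := ContinuousLinearMap.le_opNorm _ _
          _ ≤ η / C₀ * (C₀ * ‖v‖) := by
              gcongr
              exact (hB v).2
          _ = η * ‖v‖ := by field_simp
      have hx₀' : dist x₀ z < ρ := hx₀
      have hsub : ∀ x ∈ ball x₀ (20 * d), x ∈ ball z r := by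
        intro x hx
        have h4 : dist x x₀ < 20 * d := hx
        have h5 := dist_triangle x x₀ z
        rw [mem_ball]
        linarith
      refine ⟨fun x hx y hy => ?_, fun w hw => ?_⟩
      · have h4 := h2 x (hsub x hx) y (hsub y hy)
        have h5 : dist x y ≤ 40 * d := by
          have h6 : dist x x₀ < 20 * d := hx
          have h7 : dist y x₀ < 20 * d := hy
          have h8 := dist_triangle_right x y x₀
          linarith
        have h6 : η' * dist x y ≤ η * d := by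
          calc η' * dist x y ≤ η' * (40 * d) := by gcongr
            _ = 40 * η' * d := by ring
            _ ≤ η * d := by gcongr
        exact ⟨h4.1.trans h6, h4.2.trans h6⟩
      · have hx₀r : x₀ ∈ ball z r := hsub x₀ (mem_ball_self (by positivity))
        have h4 := (abs_le.1 (h2 x₀ hx₀r z (mem_ball_self hr)).1).2
        have h5 : ‖f x₀ - f z‖ ≤ 2 * ρ := by
          nlinarith [dist_nonneg (x := x₀) (y := z)]
        have h6 : w ∈ ball (f z) s := by
          rw [mem_ball, dist_eq_norm]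
          calc ‖w - f z‖ = ‖(w - f x₀) + (f x₀ - f z)‖ := by congr 1; abel
            _ ≤ ‖w - f x₀‖ + ‖f x₀ - f z‖ := norm_add_le _ _
            _ < s := by linarith
        obtain ⟨y, hy, hyw⟩ := h3 w h6
        refine ⟨y, ?_, hyw⟩
        have h7 := (abs_le.1 (h2 y hy x₀ hx₀r).1).1
        rw [hyw] at h7
        rw [mem_ball]
        nlinarith [dist_nonneg (x := y) (y := x₀)]
    choose f B ρ hρ hB hkey using key
    obtain ⟨t, ht⟩ := CompactSpace.elim_nhds_subcover (fun z => ball z (ρ z))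
      (fun z => ball_mem_nhds z (hρ z))
    obtain ⟨d₀, hd₀, hd₀'⟩ : ∃ r : ℝ, 0 < r ∧ ∀ p ∈ t, r ≤ ρ p := by
      rcases t.eq_empty_or_nonempty with rfl | hne
      · exact ⟨1, one_pos, by simp⟩
      · exact ⟨t.inf' hne ρ, (Finset.lt_inf'_iff _).2 fun p _ => hρ p,
          fun p hp => Finset.inf'_le _ hp⟩
    refine ⟨d₀, hd₀, fun d hd hdd x₀ => ?_⟩
    have h1 : x₀ ∈ ⋃ z ∈ t, ball z (ρ z) := by rw [ht]; trivial
    simp only [mem_iUnion] at h1
    obtain ⟨z, hz, hx₀⟩ := h1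
    exact ⟨f z, B z, hB z, fun y v hy => (hkey z x₀ hx₀).1 y v (hy.trans (hd₀' z hz)),
      (hkey z x₀ hx₀).2 d hd (hdd.trans (hd₀' z hz))⟩

end Crest.Agent.R249.Prj832
end
end

-- ▼ part R249/Prj5_832

/-!
# R249, D4-PROJ (helper832), part 5: `INF` from `InfScale` (helper47)
-/

set_option autoImplicit false
set_option linter.style.haveILetI false
set_option linter.unusedSectionVars false
noncomputable section
open Set Filter Topology Metric
open scoped ContDiff Manifold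
open Crest.GeometryTopology.CoordMetric
open Crest.Agent.R249.Len47

namespace Crest.Agent.R249.Prj832

variable {n : ℕ} {ι : Type*} {X : Type*} [MetricSpace X]

/-- the norm of a metric at a point is the euclidean norm after a linear change of variables -/
theorem exists_sqrt {h : MetricField n} {x : EuclideanSpace ℝ (Fin n)} (hx : (h x).PosDef) :
    ∃ L : EuclideanSpace ℝ (Fin n) ≃L[ℝ] EuclideanSpace ℝ (Fin n), ∀ v, nrm h x v = ‖L v‖ := by
  obtain ⟨B, hB, hBu⟩ := Flat676.exists_factor hx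
  set T := Matrix.toEuclideanLin B with hT
  have hTv : ∀ v k, T v k = ∑ i, B k i * v i := by
    intro v k
    rw [hT]
    rfl
  have h1 : ∀ v, quadForm h x v = ‖T v‖ ^ 2 := by
    intro v
    rw [EuclideanSpace.norm_sq_eq]
    simp only [hTv, Real.norm_eq_abs, sq_abs]
    unfold quadForm
    have e1 : ∀ i j, h x i j = ∑ k, B k i * B k j := by
      intro i j
      rw [hB, Matrix.mul_apply]
      rfl
    simp only [e1, sq, Finset.sum_mul]
    calc ∑ i, ∑ j, ∑ k, B k i * B k j * v i * v j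
        = ∑ i, ∑ k, ∑ j, B k i * B k j * v i * v j :=
          Finset.sum_congr rfl fun i _ => Finset.sum_comm
      _ = ∑ k, ∑ i, ∑ j, B k i * B k j * v i * v j := Finset.sum_comm
      _ = _ := by
          refine Finset.sum_congr rfl fun k _ => Finset.sum_congr rfl fun i _ => ?_
          rw [Finset.mul_sum]
          refine Finset.sum_congr rfl fun j _ => ?_
          ring
  have hinj : Function.Injective T := by
    rw [injective_iff_map_eq_zero]
    intro v hv
    have h2 : B.mulVec (WithLp.ofLp v) = 0 := by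
      funext k
      have := hTv v k
      rw [hv] at this
      exact this.symm
    have h3 : (WithLp.ofLp v : Fin n → ℝ) = 0 := by
      have h4 := Matrix.eq_zero_of_mulVec_eq_zero (M := B) hBu.ne_zero h2
      exact h4
    ext i
    exact congrFun h3 i
  refine ⟨(LinearEquiv.ofInjectiveEndo T hinj).toContinuousLinearEquiv, fun v => ?_⟩
  rw [nrm, h1, Real.sqrt_sq (norm_nonneg _)]
  rfl

/-- `INF` at a point, from `InfScale` -/
theorem inf_of_scale {e : OpenPartialHomeomorph X (EuclideanSpace ℝ (Fin n))} {h : MetricField n}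
    (hh : IsRiemannianOn h e.target) (hs : InfScale e h) {z : X} (hz : z ∈ e.source) :
    ∃ L : EuclideanSpace ℝ (Fin n) ≃L[ℝ] EuclideanSpace ℝ (Fin n),
      (∀ v, nrm h (e z) v = ‖L v‖) ∧
      ∀ η : ℝ, 0 < η → ∃ r : ℝ, 0 < r ∧ ∀ x ∈ ball z r, ∀ y ∈ ball z r,
        |dist x y - ‖L (e x - e y)‖| ≤ η * dist x y := by
  obtain ⟨L, hL⟩ := exists_sqrt (hh.posDef (e z) (e.map_source hz))
  refine ⟨L, hL, fun η hη => ?_⟩
  set N' : ℝ := ‖(L.symm : EuclideanSpace ℝ (Fin n) →L[ℝ] EuclideanSpace ℝ (Fin n))‖ + 1 with hN'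
  have hN'0 : 0 < N' := by positivity
  have h3' : ∀ v, ‖v‖ ≤ N' * ‖L v‖ := by
    intro v
    have := (L.symm : EuclideanSpace ℝ (Fin n) →L[ℝ] EuclideanSpace ℝ (Fin n)).le_opNorm (L v)
    have h4 : ‖v‖ ≤ (N' - 1) * ‖L v‖ := by simpa [hN'] using this
    nlinarith [norm_nonneg (L v)]
  -- `ε N' ≤ 1/2` and `2 ε N' ≤ η`
  obtain ⟨ε, hε, hε1, hε2⟩ : ∃ ε : ℝ, 0 < ε ∧ ε * N' ≤ 1 / 2 ∧ 2 * (ε * N') ≤ η := by
    refine ⟨min (1 / 2) (η / 2) / N', by positivity, ?_, ?_⟩
    · rw [div_mul_cancel₀ _ hN'0.ne']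
      exact min_le_left _ _
    · rw [div_mul_cancel₀ _ hN'0.ne']
      have := min_le_right (1 / 2) (η / 2)
      linarith
  obtain ⟨r, hr, h1⟩ := hs z hz ε hε
  refine ⟨r, hr, fun x hx y hy => ?_⟩
  have h2 := h1 x y hx hy
  rw [hL] at h2
  set v := e x - e y with hv
  have h4 := h3' v
  have h5 : ε * ‖v‖ ≤ ε * N' * ‖L v‖ := by
    rw [mul_assoc]; gcongr
  have h6 := (abs_le.1 h2).1
  have h7 : ‖L v‖ ≤ 2 * dist x y := by nlinarith [norm_nonneg (L v)]
  refine h2.trans (h5.trans ?_)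
  calc ε * N' * ‖L v‖ ≤ ε * N' * (2 * dist x y) := by gcongr
    _ = 2 * (ε * N') * dist x y := by ring
    _ ≤ η * dist x y := by gcongr

/-- **the embedding and the projection, from `InfScale`** -/
theorem exists_proj_of_scale [CompactSpace X] [Nonempty X] [Fintype ι]
    (e : ι → OpenPartialHomeomorph X (EuclideanSpace ℝ (Fin n))) (h : ι → MetricField n)
    (hh : ∀ a, IsRiemannianOn (h a) (e a).target) (hs : ∀ a, InfScale (e a) (h a))
    (hcov : ∀ x, ∃ a, x ∈ (e a).source)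
    (htr : ∀ a b, ContDiffOn ℝ ∞ (fun y => e b ((e a).symm y))
      {y | y ∈ (e a).target ∧ (e a).symm y ∈ (e b).source}) :
    ∃ m : ℕ, Nonempty (Proj m e) := by
  refine exists_proj e hcov htr fun z => ?_
  obtain ⟨a, ha⟩ := hcov z
  obtain ⟨L, -, hL⟩ := inf_of_scale (hh a) (hs a) ha
  exact ⟨a, ha, L, hL⟩

end Crest.Agent.R249.Prj832
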