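import Crest.Agent.R247.Ray5_97
import Mathlib
import Crest.Agent.R247.Lc4_582
import Crest.Agent.R247.Bo8_84
import Crest.Agent.R226.Defs_484
import Crest.Agent.R247.Rdg4_879

-- ▼ part R249/Top1_330
section

/-!
R249, leaf TOP (helper330), file 1: matrix Riccati equation for `f = d²/2` in coordinates.

If `|∇f|² = 2 f` near `x` (metric field `g`), `T = Hess f` (endomorphism), `v = ∇f`:
`(∇_v T) X = T X - T (T X) - R(X,v)v`.  For a field `W` with `W x = w`, `∇W x = 0`:
`D_v ⟨T W, W⟩ = ⟨T w, w⟩ - |T w|² - ⟨R(w,v)v, w⟩`.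
-/

set_option autoImplicit false

open scoped ContDiff Topology
open Filter Set
open Crest.GeometryTopology.CoordMetric Crest.GeometryTopology.ChartCurvature
open Crest.Agent.R202.Tens Crest.Agent.R247.Bo84

noncomputable section

namespace Crest.Agent.R249.Top330

section coord
variable {n : ℕ} {g : MetricField n} {U : Set (EuclideanSpace ℝ (Fin n))}
  {x : EuclideanSpace ℝ (Fin n)}

local notation "𝔼" => EuclideanSpace ℝ (Fin n)

/-- **matrix Riccati equation** for a solution of `|∇f|² = 2f`. -/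
theorem riccati (hg : IsRiemannianOn g U) (hx : x ∈ U) {f : 𝔼 → ℝ}
    (hf : ContDiffAt ℝ 3 f x) (heik : ∀ᶠ y in 𝓝 x, gam g f f y = 2 * f y) (X : 𝔼) :
    fderiv ℝ (hessE g f) x (grad g f x) X + Gam g x (grad g f x) (hessE g f x X)
        - hessE g f x (Gam g x (grad g f x) X) =
      hessE g f x X - hessE g f x (hessE g f x X)
        - curv (Gam g) x X (grad g f x) (grad g f x) := by
  have hf2 : ContDiffAt ℝ 2 f x := hf.of_le (by norm_num)
  have hev : ∀ᶠ y in 𝓝 x, y ∈ U ∧ ContDiffAt ℝ 2 f y :=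
    (eventually_of_mem (hg.isOpen.mem_nhds hx) fun _ h => h).and (hf2.eventually (by norm_num))
  set V := grad g f with hV
  have hV2 : ContDiffAt ℝ 2 V x :=
    contDiffAt_grad hg hx (m := 2) hf (by norm_num) (WithTop.coe_le_coe.2 le_top)
  have hH1 : ContDiffAt ℝ 1 (cov g V) x :=
    contDiffAt_cov hg hx (m := 1) hV2 (by norm_num) (by simp)
  have hHd : DifferentiableAt ℝ (cov g V) x := hH1.differentiableAt (by norm_num)
  have hVd : DifferentiableAt ℝ V x := hV2.differentiableAt (by norm_num)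
  -- `T V = V` near `x`
  have hTV : (fun y => cov g V y (V y)) =ᶠ[𝓝 x] V := by
    filter_upwards [hev, heik.eventually_nhds] with y hy1 hy2
    exact Crest.Agent.R247.Ray97.hessE_eikonal hg hy1.1 hy1.2 hy2
  have h1 : fderiv ℝ (fun y => cov g V y (V y)) x X = fderiv ℝ V x X := by
    rw [hTV.fderiv_eq]
  rw [fderiv_clm_apply hHd hVd] at h1
  simp only [add_apply, ContinuousLinearMap.comp_apply, ContinuousLinearMap.flip_apply] at h1
  have hTVx : cov g V x (V x) = V x := hTV.self_of_nhds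
  have h2 := ricci_identity hg hx hV2 X (V x)
  have h3 : cov g V x X = fderiv ℝ V x X + Gam g x X (V x) := rfl
  change fderiv ℝ (cov g V) x (V x) X + Gam g x (V x) (cov g V x X)
        - cov g V x (Gam g x (V x) X) =
      cov g V x X - cov g V x (cov g V x X)
        - curv (Gam g) x X (V x) (V x)
  rw [← h2, hTVx]
  have h4 : cov g V x (cov g V x X) = cov g V x (fderiv ℝ V x X) + cov g V x (Gam g x X (V x)) := by
    conv_lhs => rw [h3]
    rw [map_add]
  rw [h4]
  have h6 : fderiv ℝ (cov g V) x X (V x) = fderiv ℝ V x X - cov g V x (fderiv ℝ V x X) := by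
    rw [eq_sub_iff_add_eq, add_comm]; exact h1
  rw [h6]
  generalize Gam g x (V x) (cov g V x X) = a1 at *
  generalize cov g V x (fderiv ℝ V x X) = a2 at *
  generalize cov g V x (Gam g x (V x) X) = a3 at *
  generalize fderiv ℝ (cov g V) x (V x) X = a4 at *
  generalize cov g V x (Gam g x X (V x)) = a5 at *
  rw [h3]
  abel

/-- a vector field with value `w` and vanishing covariant derivative at `x`. -/
def ext0 (g : MetricField n) (x w : EuclideanSpace ℝ (Fin n)) (z : EuclideanSpace ℝ (Fin n)) :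
    EuclideanSpace ℝ (Fin n) := w - Gam g x (z - x) w

lemma ext0_self (w : 𝔼) : ext0 g x w x = w := by simp [ext0]

lemma hasFDerivAt_ext0 (w z : 𝔼) :
    HasFDerivAt (ext0 g x w) (-((Gam g x).flip w)) z := by
  have h1 : HasFDerivAt (fun z : 𝔼 => (Gam g x).flip w (z - x)) ((Gam g x).flip w) z :=
    ((Gam g x).flip w).hasFDerivAt.comp z ((hasFDerivAt_id z).sub_const x)
  have h2 := h1.const_sub w
  exact h2

lemma cov_ext0 (w : 𝔼) : cov g (ext0 g x w) x = 0 := by
  ext X
  rw [cov_apply, (hasFDerivAt_ext0 (g := g) (x := x) w x).fderiv, ext0_self]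
  simp

/-- derivative of `⟨T W, W⟩` in the direction of `∇f`. -/
theorem fderiv_hess_ext0 (hg : IsRiemannianOn g U) (hx : x ∈ U) {f : 𝔼 → ℝ}
    (hf : ContDiffAt ℝ 3 f x) (heik : ∀ᶠ y in 𝓝 x, gam g f f y = 2 * f y) (w : 𝔼) :
    DifferentiableAt ℝ (fun z => hess g f z (ext0 g x w z) (ext0 g x w z)) x ∧
    fderiv ℝ (fun z => hess g f z (ext0 g x w z) (ext0 g x w z)) x (grad g f x) =
      hess g f x w w - bil (g x) (hessE g f x w) (hessE g f x w)
        - secNumer g x w (grad g f x) := by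
  have hf2 : ContDiffAt ℝ 2 f x := hf.of_le (by norm_num)
  have hev : ∀ᶠ y in 𝓝 x, y ∈ U ∧ ContDiffAt ℝ 2 f y :=
    (eventually_of_mem (hg.isOpen.mem_nhds hx) fun _ h => h).and (hf2.eventually (by norm_num))
  have hV2 : ContDiffAt ℝ 2 (grad g f) x :=
    contDiffAt_grad hg hx (m := 2) hf (by norm_num) (WithTop.coe_le_coe.2 le_top)
  have hH1 : ContDiffAt ℝ 1 (hessE g f) x :=
    contDiffAt_cov hg hx (m := 1) hV2 (by norm_num) (by simp)
  have hHd : DifferentiableAt ℝ (hessE g f) x := hH1.differentiableAt (by norm_num)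
  set W := ext0 g x w with hW
  have hWd : DifferentiableAt ℝ W x := (hasFDerivAt_ext0 w x).differentiableAt
  have hTW : DifferentiableAt ℝ (fun z => hessE g f z (W z)) x := hHd.clm_apply hWd
  have heq : (fun z => hess g f z (W z) (W z)) =ᶠ[𝓝 x]
      fun z => bil (g z) (hessE g f z (W z)) (W z) := by
    filter_upwards [hev] with z hz
    rw [bil_hessE hg hz.1 hz.2]
  have hdiff : DifferentiableAt ℝ (fun z => bil (g z) (hessE g f z (W z)) (W z)) x :=
    ((differentiableAt_Gf hg hx).clm_apply hTW).clm_apply hWd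
  refine ⟨hdiff.congr_of_eventuallyEq heq, ?_⟩
  rw [heq.fderiv_eq, fderiv_bil hg hx hTW hWd, cov_ext0, zero_apply, map_zero, add_zero]
  have h0 : W x = w := ext0_self w
  have h1 : cov g (fun z => hessE g f z (W z)) x (grad g f x) =
      fderiv ℝ (hessE g f) x (grad g f x) w + Gam g x (grad g f x) (hessE g f x w)
        - hessE g f x (Gam g x (grad g f x) w) := by
    rw [cov_apply, fderiv_clm_apply hHd hWd]
    simp only [add_apply, ContinuousLinearMap.comp_apply, ContinuousLinearMap.flip_apply]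
    rw [h0, (hasFDerivAt_ext0 w x).fderiv]
    simp only [neg_apply, ContinuousLinearMap.flip_apply, map_neg]
    abel
  rw [h1, riccati hg hx hf heik, h0, map_sub, map_sub, sub_apply, sub_apply, bil_hessE hg hx hf2,
    secNumer_eq hg hx, bil_hessE_symm hg hx hf2]

/-- derivative of `|W|²`. -/
theorem fderiv_metric_ext0 (hg : IsRiemannianOn g U) (hx : x ∈ U) (w X : 𝔼) :
    DifferentiableAt ℝ (fun z => bil (g z) (ext0 g x w z) (ext0 g x w z)) x ∧
    fderiv ℝ (fun z => bil (g z) (ext0 g x w z) (ext0 g x w z)) x X = 0 := by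
  have hWd : DifferentiableAt ℝ (ext0 g x w) x := (hasFDerivAt_ext0 w x).differentiableAt
  refine ⟨((differentiableAt_Gf hg hx).clm_apply hWd).clm_apply hWd, ?_⟩
  rw [fderiv_bil hg hx hWd hWd, cov_ext0]
  simp

/-- **the one-sided derivative estimate**, in coordinates. Along a curve with velocity
`s⁻¹ ∇f`, for a vector `w`: the function `t (⟨T W,W⟩/|W|² - 1)` has derivative
`-(|Tw - w|² + ⟨R(w,v)v,w⟩ )/|w|²` at `s` plus a nonpositive square term. -/
theorem hasDerivAt_quot (hg : IsRiemannianOn g U) {f : 𝔼 → ℝ} {c : ℝ → 𝔼} {s : ℝ} (hs : s ≠ 0)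
    (hx : c s ∈ U) (hf : ContDiffAt ℝ 3 f (c s))
    (heik : ∀ᶠ y in 𝓝 (c s), gam g f f y = 2 * f y)
    (hc : HasDerivAt c (s⁻¹ • grad g f (c s)) s) {w : 𝔼} (hw : w ≠ 0) :
    HasDerivAt (fun t => t * (hess g f (c t) (ext0 g (c s) w (c t)) (ext0 g (c s) w (c t)) /
        bil (g (c t)) (ext0 g (c s) w (c t)) (ext0 g (c s) w (c t)) - 1))
      (-(bil (g (c s)) (hessE g f (c s) w - w) (hessE g f (c s) w - w) +
        secNumer g (c s) w (grad g f (c s))) / bil (g (c s)) w w) s := by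
  obtain ⟨d1, e1⟩ := fderiv_hess_ext0 hg hx hf heik w
  obtain ⟨d2, e2⟩ := fderiv_metric_ext0 hg hx w (grad g f (c s))
  have hpos := bil_pos hg hx hw
  set x := c s with hxs
  have k1 := d1.hasFDerivAt.comp_hasDerivAt s hc
  have k2 := d2.hasFDerivAt.comp_hasDerivAt s hc
  rw [map_smul, e1] at k1
  rw [map_smul, e2, smul_zero] at k2
  have h0 : ext0 g x w (c s) = w := by rw [← hxs]; exact ext0_self w
  have hne : ((fun z => bil (g z) (ext0 g x w z) (ext0 g x w z)) ∘ c) s ≠ 0 := by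
    simp only [Function.comp_apply]
    rw [h0, ← hxs]
    exact hpos.ne'
  have k3 := (hasDerivAt_id s).mul ((k1.div k2 hne).sub_const 1)
  refine k3.congr_deriv ?_
  simp only [Function.comp_apply, id_eq, Pi.div_apply, smul_eq_mul]
  rw [h0, ← hxs]
  have hf2 : ContDiffAt ℝ 2 f x := hf.of_le (by norm_num)
  have e3 : bil (g x) (hessE g f x w - w) (hessE g f x w - w) =
      bil (g x) (hessE g f x w) (hessE g f x w) - 2 * hess g f x w w + bil (g x) w w := by
    rw [map_sub, map_sub, sub_apply, sub_apply, bil_hessE hg hx hf2,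
      bil_symm hg hx w, bil_hessE hg hx hf2]
    ring
  rw [e3]
  field_simp
  ring

end coord

end Crest.Agent.R249.Top330
end
end

-- ▼ part R249/Top2_330
section

/-!
R249, leaf TOP (helper330), file 2: abstract pieces.

* `eF H G = inf {c ≥ 0 | H ≤ (1+c) G}` for bilinear forms, `G` positive definite: attained,
  continuous, invariant;
* `antitone_of_dini`: a continuous function whose left Dini slopes are `≤ 0` decreases;
* `concave_barrier`: a continuous function with `C²` upper barriers of second derivative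
  `≤ k + ε` at every point satisfies the chord inequality of `k t²/2`.
-/

set_option autoImplicit false
set_option linter.unusedSectionVars false
set_option maxSynthPendingDepth 3

open Filter Set Topology

noncomputable section

namespace Crest.Agent.R249.Top330

section forms
variable {E : Type*} [NormedAddCommGroup E] [NormedSpace ℝ E]

/-- the set of `c ≥ 0` with `H ≤ (1+c) G`. -/
def eS (H G : E → E → ℝ) : Set ℝ := {c | 0 ≤ c ∧ ∀ u, H u u ≤ (1 + c) * G u u}

/-- the excess of `H` over `G`. -/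
def eF (H G : E → E → ℝ) : ℝ := sInf (eS H G)

lemma eS_bddBelow (H G : E → E → ℝ) : BddBelow (eS H G) := ⟨0, fun _ h => h.1⟩

lemma eF_nonneg (H G : E → E → ℝ) : 0 ≤ eF H G := Real.sInf_nonneg fun _ h => h.1

lemma eF_le {H G : E → E → ℝ} {c : ℝ} (hc : 0 ≤ c) (h : ∀ u, H u u ≤ (1 + c) * G u u) :
    eF H G ≤ c := csInf_le (eS_bddBelow H G) ⟨hc, h⟩

/-- the infimum is attained -/
lemma eF_mem {H G : E → E → ℝ} (hne : (eS H G).Nonempty) (u : E) :
    H u u ≤ (1 + eF H G) * G u u := by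
  refine le_of_forall_pos_le_add fun ε hε => ?_
  obtain ⟨c, hc, hlt⟩ := exists_lt_of_csInf_lt hne
    (lt_add_of_pos_right (sInf (eS H G)) (show 0 < ε / (|G u u| + 1) by positivity))
  have h1 := hc.2 u
  have h2 : eF H G ≤ c := csInf_le (eS_bddBelow H G) hc
  have h3 : c - eF H G ≤ ε / (|G u u| + 1) := by
    change c < eF H G + _ at hlt
    linarith
  have h4 : (c - eF H G) * G u u ≤ ε := by
    calc (c - eF H G) * G u u ≤ (c - eF H G) * |G u u| := by
          apply mul_le_mul_of_nonneg_left (le_abs_self _) (by linarith)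
      _ ≤ ε / (|G u u| + 1) * |G u u| := by
          apply mul_le_mul_of_nonneg_right h3 (abs_nonneg _)
      _ = ε * (|G u u| / (|G u u| + 1)) := by ring
      _ ≤ ε * 1 := by
          apply mul_le_mul_of_nonneg_left _ hε.le
          rw [div_le_one (by positivity)]; linarith
      _ = ε := mul_one ε
  nlinarith

/-- invariance under surjections -/
lemma eF_comp {E' : Type*} {H G : E → E → ℝ} {L : E' → E} (hL : Function.Surjective L)
    {H' G' : E' → E' → ℝ} (hH : ∀ u, H' u u = H (L u) (L u)) (hG : ∀ u, G' u u = G (L u) (L u)) :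
    sInf {c | 0 ≤ c ∧ ∀ u, H' u u ≤ (1 + c) * G' u u} = eF H G := by
  unfold eF eS
  congr 1
  ext c
  simp only [mem_ofPred_eq]
  refine and_congr_right fun _ => ⟨fun h u => ?_, fun h u => ?_⟩
  · obtain ⟨v, rfl⟩ := hL u
    rw [← hH, ← hG]; exact h v
  · rw [hH, hG]; exact h _

variable [FiniteDimensional ℝ E]

/-- a positive definite form dominates the norm. -/
lemma exists_kappa {G : E →L[ℝ] E →L[ℝ] ℝ} (hG : ∀ u, u ≠ 0 → 0 < G u u) :
    ∃ κ : ℝ, 0 < κ ∧ ∀ u, ‖u‖ ^ 2 ≤ κ * G u u := by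
  rcases (Metric.sphere (0 : E) 1).eq_empty_or_nonempty with h | hne
  · refine ⟨1, one_pos, fun u => ?_⟩
    rcases eq_or_ne u 0 with rfl | hu
    · simp
    · exfalso
      have : ‖u‖⁻¹ • u ∈ Metric.sphere (0 : E) 1 := by
        rw [mem_sphere_zero_iff_norm, norm_smul, norm_inv, norm_norm,
          inv_mul_cancel₀ (norm_ne_zero_iff.2 hu)]
      rw [h] at this
      exact this
  · have hc : Continuous fun u : E => G u u := by fun_prop
    obtain ⟨u₀, hu₀, hmin⟩ := (isCompact_sphere (0 : E) 1).exists_isMinOn hne hc.continuousOn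
    have hu₀n : ‖u₀‖ = 1 := mem_sphere_zero_iff_norm.1 hu₀
    have hu₀' : u₀ ≠ 0 := by
      intro h; rw [h, norm_zero] at hu₀n; exact zero_ne_one hu₀n
    have hp := hG u₀ hu₀'
    refine ⟨(G u₀ u₀)⁻¹, inv_pos.2 hp, fun u => ?_⟩
    rcases eq_or_ne u 0 with rfl | hu
    · simp
    · have hn : ‖u‖ ≠ 0 := norm_ne_zero_iff.2 hu
      have hm : ‖u‖⁻¹ • u ∈ Metric.sphere (0 : E) 1 := by
        rw [mem_sphere_zero_iff_norm, norm_smul, norm_inv, norm_norm, inv_mul_cancel₀ hn]
      have h1 := hmin hm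
      simp only [mem_ofPred_eq, map_smul, smul_apply, smul_eq_mul] at h1
      rw [inv_mul_eq_div, le_div_iff₀ hp]
      calc ‖u‖ ^ 2 * G u₀ u₀ ≤ ‖u‖ ^ 2 * (‖u‖⁻¹ * (‖u‖⁻¹ * G u u)) :=
            mul_le_mul_of_nonneg_left h1 (sq_nonneg _)
        _ = G u u := by field_simp

lemma abs_form_le (H : E →L[ℝ] E →L[ℝ] ℝ) (u : E) : |H u u| ≤ ‖H‖ * ‖u‖ ^ 2 := by
  have := H.le_opNorm₂ u u
  rw [Real.norm_eq_abs] at this
  calc |H u u| ≤ ‖H‖ * ‖u‖ * ‖u‖ := this
    _ = _ := by ring

lemma eS_nonempty {H G : E →L[ℝ] E →L[ℝ] ℝ} (hG : ∀ u, u ≠ 0 → 0 < G u u) :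
    (eS (fun u v => H u v) (fun u v => G u v)).Nonempty := by
  obtain ⟨κ, hκ, h⟩ := exists_kappa hG
  refine ⟨‖H‖ * κ, by positivity, fun u => ?_⟩
  have h1 := (le_abs_self _).trans (abs_form_le H u)
  have h2 : ‖H‖ * ‖u‖ ^ 2 ≤ ‖H‖ * (κ * G u u) := mul_le_mul_of_nonneg_left (h u) (by positivity)
  have h3 : 0 ≤ G u u := by
    rcases eq_or_ne u 0 with rfl | hu
    · simp
    · exact (hG u hu).le
  change H u u ≤ (1 + ‖H‖ * κ) * G u u
  nlinarith

/-- if the excess is positive it is attained by a nonzero vector. -/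
lemma eF_attained {H G : E →L[ℝ] E →L[ℝ] ℝ} (hG : ∀ u, u ≠ 0 → 0 < G u u)
    (hpos : 0 < eF (fun u v => H u v) (fun u v => G u v)) :
    ∃ w : E, w ≠ 0 ∧ H w w = (1 + eF (fun u v => H u v) (fun u v => G u v)) * G w w := by
  set e := eF (fun u v => H u v) (fun u v => G u v) with he
  have hmem : ∀ u, H u u ≤ (1 + e) * G u u := eF_mem (eS_nonempty hG)
  by_contra hcon
  push Not at hcon
  have hlt : ∀ u, u ≠ 0 → 0 < (1 + e) * G u u - H u u := fun u hu =>
    sub_pos.2 (lt_of_le_of_ne (hmem u) (hcon u hu))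
  obtain ⟨κ, hκ, h⟩ := exists_kappa (G := (1 + e) • G - H) (fun u hu => by
    simpa using hlt u hu)
  -- `H ≤ (1+e) G - ‖u‖²/κ ≤ (1 + e - δ) G`
  set δ : ℝ := min e (1 / (κ * (‖G‖ + 1))) with hδ
  have hδ0 : 0 < δ := lt_min hpos (by positivity)
  have hδe : δ ≤ e := min_le_left _ _
  have key : e ≤ e - δ := by
    refine eF_le (by linarith) fun u => ?_
    have h1 := h u
    simp only [sub_apply, smul_apply, smul_eq_mul] at h1
    have h2 := (le_abs_self _).trans (abs_form_le G u)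
    have h3 : δ * (κ * (‖G‖ + 1)) ≤ 1 := by
      have := min_le_right e (1 / (κ * (‖G‖ + 1)))
      rw [← hδ, le_div_iff₀ (by positivity)] at this
      exact this
    have h4 : δ * κ * G u u ≤ ‖u‖ ^ 2 := by
      calc δ * κ * G u u ≤ δ * κ * (‖G‖ * ‖u‖ ^ 2) :=
            mul_le_mul_of_nonneg_left h2 (by positivity)
        _ ≤ δ * κ * ((‖G‖ + 1) * ‖u‖ ^ 2) := by
            apply mul_le_mul_of_nonneg_left _ (by positivity)
            nlinarith [sq_nonneg ‖u‖]
        _ = δ * (κ * (‖G‖ + 1)) * ‖u‖ ^ 2 := by ring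
        _ ≤ 1 * ‖u‖ ^ 2 := mul_le_mul_of_nonneg_right h3 (sq_nonneg _)
        _ = _ := one_mul _
    have h5 : κ * (δ * G u u) ≤ κ * ((1 + e) * G u u - H u u) := by
      calc κ * (δ * G u u) = δ * κ * G u u := by ring
        _ ≤ ‖u‖ ^ 2 := h4
        _ ≤ _ := h1
    have h6 := le_of_mul_le_mul_left h5 hκ
    change H u u ≤ (1 + (e - δ)) * G u u
    linarith
  linarith

/-- continuity of the excess at a positive definite form. -/
lemma continuousAt_eF {Z : Type*} [TopologicalSpace Z] {H G : Z → E →L[ℝ] E →L[ℝ] ℝ} {z : Z}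
    (hH : ContinuousAt H z) (hGc : ContinuousAt G z) (hG : ∀ u, u ≠ 0 → 0 < G z u u)
    (hGn : ∀ᶠ y in 𝓝 z, ∀ u, u ≠ 0 → 0 < G y u u) :
    ContinuousAt (fun y => eF (fun u v => H y u v) (fun u v => G y u v)) z := by
  obtain ⟨κ, hκ, hk⟩ := exists_kappa hG
  set e0 := eF (fun u v => H z u v) (fun u v => G z u v) with he0
  have he0n : 0 ≤ e0 := eF_nonneg _ _
  rw [ContinuousAt, tendsto_order]
  -- distances
  have hd : ∀ δ > 0, ∀ᶠ y in 𝓝 z, ‖H y - H z‖ < δ ∧ ‖G y - G z‖ < δ := by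
    intro δ hδ
    have h1 : ∀ᶠ y in 𝓝 z, dist (H y) (H z) < δ := Metric.tendsto_nhds.1 hH δ hδ
    have h2 : ∀ᶠ y in 𝓝 z, dist (G y) (G z) < δ := Metric.tendsto_nhds.1 hGc δ hδ
    filter_upwards [h1, h2] with y hy1 hy2
    rw [dist_eq_norm] at hy1 hy2
    exact ⟨hy1, hy2⟩
  have hcmp : ∀ (A B : E →L[ℝ] E →L[ℝ] ℝ) (δ : ℝ) (u : E), ‖A - B‖ < δ →
      |A u u - B u u| ≤ δ * (κ * G z u u) := by
    intro A B δ u h
    have h1 := abs_form_le (A - B) u
    simp only [sub_apply] at h1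
    calc |A u u - B u u| ≤ ‖A - B‖ * ‖u‖ ^ 2 := h1
      _ ≤ δ * ‖u‖ ^ 2 := mul_le_mul_of_nonneg_right h.le (sq_nonneg _)
      _ ≤ δ * (κ * G z u u) :=
          mul_le_mul_of_nonneg_left (hk u) (le_trans (by positivity) h.le)
  have hG0 : ∀ u, 0 ≤ G z u u := by
    intro u
    rcases eq_or_ne u 0 with rfl | hu
    · simp
    · exact (hG u hu).le
  constructor
  · -- lower bound
    intro a ha
    have hex : ∃ δ : ℝ, 0 < δ ∧ a * (1 + δ * κ) + 2 * (δ * κ) < e0 := by
      have ht : Tendsto (fun δ : ℝ => a * (1 + δ * κ) + 2 * (δ * κ)) (𝓝[>] 0)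
          (𝓝 (a * (1 + 0 * κ) + 2 * (0 * κ))) := by
        have : Continuous fun δ : ℝ => a * (1 + δ * κ) + 2 * (δ * κ) := by fun_prop
        exact (this.tendsto 0).mono_left nhdsWithin_le_nhds
      have h1 : a * (1 + 0 * κ) + 2 * (0 * κ) < e0 := by simpa using ha
      obtain ⟨δ, h2, h3⟩ := ((ht.eventually (gt_mem_nhds h1)).and self_mem_nhdsWithin).exists
      exact ⟨δ, h3, h2⟩
    obtain ⟨δ, hδ, hlt⟩ := hex
    filter_upwards [hd δ hδ, hGn] with y hy hyG
    by_contra hcon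
    push Not at hcon
    change eF (fun u v => H y u v) (fun u v => G y u v) ≤ a at hcon
    set e := eF (fun u v => H y u v) (fun u v => G y u v) with he
    have hen : 0 ≤ e := eF_nonneg _ _
    have hmem : ∀ u, H y u u ≤ (1 + e) * G y u u := eF_mem (eS_nonempty hyG)
    have : e0 ≤ e * (1 + δ * κ) + 2 * (δ * κ) := by
      refine eF_le (by positivity) fun u => ?_
      have h1 := abs_le.1 (hcmp (H y) (H z) δ u hy.1)
      have h2 := abs_le.1 (hcmp (G y) (G z) δ u hy.2)
      have h3 := hmem u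
      have h4 : (1 + e) * G y u u ≤ (1 + e) * (G z u u + δ * (κ * G z u u)) :=
        mul_le_mul_of_nonneg_left (by linarith [h2.2]) (by linarith)
      change H z u u ≤ (1 + (e * (1 + δ * κ) + 2 * (δ * κ))) * G z u u
      nlinarith [h1.1]
    have h5 : e * (1 + δ * κ) ≤ a * (1 + δ * κ) :=
      mul_le_mul_of_nonneg_right hcon (by positivity)
    linarith
  · -- upper bound
    intro a ha
    have hex : ∃ δ : ℝ, 0 < δ ∧ δ * κ < 1 ∧ (1 + e0 + δ * κ) / (1 - δ * κ) - 1 < a := by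
      have ht : Tendsto (fun δ : ℝ => (1 + e0 + δ * κ) / (1 - δ * κ) - 1) (𝓝[>] 0)
          (𝓝 ((1 + e0 + 0 * κ) / (1 - 0 * κ) - 1)) := by
        have : ContinuousAt (fun δ : ℝ => (1 + e0 + δ * κ) / (1 - δ * κ) - 1) 0 := by
          refine ContinuousAt.sub ?_ continuousAt_const
          refine ContinuousAt.div (by fun_prop) (by fun_prop) (by simp)
        exact this.tendsto.mono_left nhdsWithin_le_nhds
      have ht2 : Tendsto (fun δ : ℝ => δ * κ) (𝓝[>] 0) (𝓝 (0 * κ)) := by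
        have : Continuous fun δ : ℝ => δ * κ := by fun_prop
        exact (this.tendsto 0).mono_left nhdsWithin_le_nhds
      have h1 : (1 + e0 + 0 * κ) / (1 - 0 * κ) - 1 < a := by simpa using ha
      have h1' : 0 * κ < 1 := by simp
      obtain ⟨δ, h2, h3, h4⟩ := ((ht.eventually (gt_mem_nhds h1)).and
        ((ht2.eventually (gt_mem_nhds h1')).and self_mem_nhdsWithin)).exists
      exact ⟨δ, h4, h3, h2⟩
    obtain ⟨δ, hδ, hδ1, hlt⟩ := hex
    filter_upwards [hd δ hδ] with y hy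
    refine lt_of_le_of_lt ?_ hlt
    have hmem : ∀ u, H z u u ≤ (1 + e0) * G z u u := eF_mem (eS_nonempty hG)
    have hp : 0 < 1 - δ * κ := by linarith
    refine eF_le ?_ fun u => ?_
    · rw [sub_nonneg, le_div_iff₀ hp]
      nlinarith [mul_pos hδ hκ]
    · have h1 := abs_le.1 (hcmp (H y) (H z) δ u hy.1)
      have h2 := abs_le.1 (hcmp (G y) (G z) δ u hy.2)
      have h3 := hmem u
      have h5 : (1 - δ * κ) * G z u u ≤ G y u u := by linarith [h2.1]
      have h6 : H y u u ≤ (1 + e0 + δ * κ) * G z u u := by linarith [h1.2]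
      have h7 : (1 + e0 + δ * κ) * G z u u ≤
          (1 + e0 + δ * κ) / (1 - δ * κ) * G y u u := by
        rw [div_mul_eq_mul_div, le_div_iff₀ hp]
        calc (1 + e0 + δ * κ) * G z u u * (1 - δ * κ) =
              (1 + e0 + δ * κ) * ((1 - δ * κ) * G z u u) := by ring
          _ ≤ (1 + e0 + δ * κ) * G y u u :=
              mul_le_mul_of_nonneg_left h5 (by positivity)
      change H y u u ≤ (1 + ((1 + e0 + δ * κ) / (1 - δ * κ) - 1)) * G y u u
      calc H y u u ≤ (1 + e0 + δ * κ) * G z u u := h6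
        _ ≤ _ := h7
        _ = _ := by ring

end forms

/-! ### one-dimensional lemmas -/

/-- a continuous function on `[a,b]` with nonpositive left Dini slopes decreases. -/
theorem antitone_of_dini {m : ℝ → ℝ} {a b : ℝ} (hab : a ≤ b) (hc : ContinuousOn m (Icc a b))
    (h : ∀ s ∈ Ioc a b, ∀ ε > 0, ∀ᶠ t in 𝓝[<] s, m s - ε * (s - t) ≤ m t) : m b ≤ m a := by
  -- reverse time
  have hneg : ∀ x ∈ Icc (-b) (-a), -m (-x) ≤ -m b := by
    intro x hx
    have hcN : ContinuousOn (fun t => -m (-t)) (Icc (-b) (-a)) := by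
      refine (hc.comp continuous_neg.continuousOn fun t ht => ?_).neg
      exact ⟨by linarith [ht.2], by linarith [ht.1]⟩
    refine image_le_of_liminf_slope_right_le_deriv_boundary (f := fun t => -m (-t))
      (B := fun _ => -m b) (B' := fun _ => 0) hcN (by simp) continuousOn_const
      (fun t _ => hasDerivWithinAt_const t _ _) ?_ hx
    intro t ht r hr
    have hts : -t ∈ Ioc a b := ⟨by linarith [ht.2], by linarith [ht.1]⟩
    have h1 := h (-t) hts (r / 2) (by linarith)
    have hmap : Tendsto (fun z : ℝ => -z) (𝓝[>] t) (𝓝[<] (-t)) := by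
      refine tendsto_nhdsWithin_iff.2 ⟨?_, ?_⟩
      · exact (continuous_neg.tendsto t).mono_left nhdsWithin_le_nhds
      · filter_upwards [self_mem_nhdsWithin] with z hz
        have : t < z := hz
        simp only [mem_Iio]; linarith
    have h2 := hmap.eventually h1
    refine ((h2.and self_mem_nhdsWithin).mono fun z hz => ?_).frequently
    have hz2 : t < z := hz.2
    have hz1 := hz.1
    rw [slope_def_field, div_lt_iff₀ (by linarith)]
    nlinarith
  have := hneg (-a) ⟨by linarith, le_rfl⟩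
  rw [neg_neg] at this
  linarith

/-- **barrier lemma**: `h` continuous on `[a,b]`; at every interior point and every `ε > 0` there is
an upper barrier, twice differentiable, with second derivative `≤ k + ε`.  Then the chord
inequality of `k t²/2` holds. -/
theorem concave_barrier {h : ℝ → ℝ} {a b k : ℝ} (hab : a < b) (hc : ContinuousOn h (Icc a b))
    (hb : ∀ s ∈ Ioo a b, ∀ ε > 0, ∃ φ φ' : ℝ → ℝ, ∃ D : ℝ, (∀ᶠ t in 𝓝 s, h t ≤ φ t) ∧ φ s = h s ∧
      (∀ᶠ t in 𝓝 s, HasDerivAt φ (φ' t) t) ∧ HasDerivAt φ' D s ∧ D ≤ k + ε)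
    {t : ℝ} (ht : t ∈ Icc a b) :
    (b - t) / (b - a) * h a + (t - a) / (b - a) * h b - k / 2 * ((t - a) * (b - t)) ≤ h t := by
  by_contra hcon
  push Not at hcon
  have hba : 0 < b - a := sub_pos.2 hab
  -- the chord-corrected function
  set L : ℝ → ℝ := fun t => (b - t) / (b - a) * h a + (t - a) / (b - a) * h b with hL
  set δ0 : ℝ := L t - k / 2 * ((t - a) * (b - t)) - h t with hδ0
  have hδ0p : 0 < δ0 := by rw [hδ0, hL]; simp only; linarith
  obtain ⟨δ, hδ, hδ2⟩ : ∃ δ : ℝ, 0 < δ ∧ δ * ((t - a) * (b - t)) < δ0 := by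
    refine ⟨δ0 / (2 * ((b - a) * (b - a))), by positivity, ?_⟩
    have h1 : (t - a) * (b - t) ≤ (b - a) * (b - a) := by
      apply mul_le_mul (by linarith [ht.2]) (by linarith [ht.1]) (by linarith [ht.2]) hba.le
    calc δ0 / (2 * ((b - a) * (b - a))) * ((t - a) * (b - t)) ≤
          δ0 / (2 * ((b - a) * (b - a))) * ((b - a) * (b - a)) :=
          mul_le_mul_of_nonneg_left h1 (by positivity)
      _ = δ0 / 2 := by field_simp
      _ < δ0 := by linarith
  -- `q t = h t - L t + (k/2 + δ) (t-a)(b-t)`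
  set q : ℝ → ℝ := fun t => h t - L t + (k / 2 + δ) * ((t - a) * (b - t)) with hq
  have hqc : ContinuousOn q (Icc a b) := by
    refine (hc.sub ?_).add ?_
    · exact (by fun_prop : Continuous L).continuousOn
    · exact (by fun_prop : Continuous fun t => (k / 2 + δ) * ((t - a) * (b - t))).continuousOn
  obtain ⟨s, hs, hmin⟩ := isCompact_Icc.exists_isMinOn ⟨t, ht⟩ hqc
  have hqt : q t < 0 := by
    rw [hq]; simp only; rw [hδ0] at hδ2; linarith
  have hqs : q s < 0 := lt_of_le_of_lt (hmin ht) hqt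
  have hqa : q a = 0 := by
    rw [hq, hL]; simp only; field_simp; ring
  have hqb : q b = 0 := by
    rw [hq, hL]; simp only; field_simp; ring
  have hsa : s ≠ a := fun h => by rw [h, hqa] at hqs; exact lt_irrefl _ hqs
  have hsb : s ≠ b := fun h => by rw [h, hqb] at hqs; exact lt_irrefl _ hqs
  have hsI : s ∈ Ioo a b := ⟨lt_of_le_of_ne hs.1 hsa.symm, lt_of_le_of_ne hs.2 hsb⟩
  obtain ⟨φ, φ', D, h1, h2, h3, h4, h5⟩ := hb s hsI δ hδ
  -- `ψ = φ - L + (k/2+δ)(t-a)(b-t)` has a local minimum at `s`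
  set ψ : ℝ → ℝ := fun t => φ t - L t + (k / 2 + δ) * ((t - a) * (b - t)) with hψ
  set ψ' : ℝ → ℝ := fun t => φ' t - ((h b - h a) / (b - a)) +
    (k / 2 + δ) * ((b - t) - (t - a)) with hψ'
  have hmin2 : IsLocalMin ψ s := by
    filter_upwards [h1, Icc_mem_nhds hsI.1 hsI.2] with y hy1 hy2
    have := hmin hy2
    simp only [mem_ofPred_eq] at this
    rw [hq] at this
    rw [hψ]
    simp only at this ⊢
    rw [h2]
    linarith
  have hd1 : ∀ᶠ y in 𝓝 s, HasDerivAt ψ (ψ' y) y := by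
    filter_upwards [h3] with y hy
    have hl : HasDerivAt L ((h b - h a) / (b - a)) y := by
      have e1 := ((((hasDerivAt_id y).const_sub b).div_const (b - a)).mul_const (h a)).add
        ((((hasDerivAt_id y).sub_const a).div_const (b - a)).mul_const (h b))
      refine e1.congr_deriv ?_
      field_simp
      ring
    have hp : HasDerivAt (fun t => (k / 2 + δ) * ((t - a) * (b - t)))
        ((k / 2 + δ) * ((b - y) - (y - a))) y := by
      have e2 := (((hasDerivAt_id y).sub_const a).mul ((hasDerivAt_id y).const_sub b)).const_mul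
        (k / 2 + δ)
      refine e2.congr_deriv ?_
      simp only [id_eq]
      ring
    exact (hy.sub hl).add hp
  have hd2 : HasDerivAt ψ' (D + (k / 2 + δ) * (-2)) s := by
    have e1 : HasDerivAt (fun t : ℝ => (k / 2 + δ) * ((b - t) - (t - a))) ((k / 2 + δ) * (-2)) s := by
      have := (((hasDerivAt_id s).const_sub b).sub ((hasDerivAt_id s).sub_const a)).const_mul
        (k / 2 + δ)
      refine this.congr_deriv ?_
      ring
    exact (h4.sub_const _).add e1
  have hψ's : ψ' s = 0 := hmin2.hasDerivAt_eq_zero hd1.self_of_nhds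
  -- second derivative is negative: strict local maximum, contradiction
  have hneg : D + (k / 2 + δ) * (-2) < 0 := by linarith
  have hev : ∀ᶠ y in 𝓝[>] s, ψ' y < 0 := by
    have h6 := hasDerivAt_iff_tendsto_slope.1 hd2
    have h7 : ∀ᶠ y in 𝓝[≠] s, slope ψ' s y < 0 := h6.eventually (gt_mem_nhds hneg)
    have h8 : ∀ᶠ y in 𝓝[>] s, slope ψ' s y < 0 :=
      h7.filter_mono (nhdsWithin_mono s fun y hy => ne_of_gt hy)
    filter_upwards [h8, self_mem_nhdsWithin] with y hy1 hy2
    have hy3 : s < y := hy2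
    rw [slope_def_field, hψ's, sub_zero, div_neg_iff] at hy1
    rcases hy1 with h9 | h9
    · linarith [h9.2]
    · exact h9.1
  obtain ⟨r, hr, hr1⟩ : ∃ r > s, ∀ y ∈ Ioo s r, ψ' y < 0 := by
    obtain ⟨r, hr, h9⟩ := (mem_nhdsGT_iff_exists_Ioo_subset).1 hev
    exact ⟨r, hr, h9⟩
  obtain ⟨r2, hr2, hr3⟩ : ∃ r2 > s, ∀ y ∈ Ico s r2, HasDerivAt ψ (ψ' y) y ∧ ψ s ≤ ψ y := by
    have h9 : ∀ᶠ y in 𝓝[≥] s, HasDerivAt ψ (ψ' y) y ∧ ψ s ≤ ψ y :=
      (hd1.and hmin2).filter_mono nhdsWithin_le_nhds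
    obtain ⟨r, hr, h10⟩ := (mem_nhdsGE_iff_exists_Ico_subset).1 h9
    exact ⟨r, hr, h10⟩
  set r4 : ℝ := (s + min r r2) / 2 with hr4
  have hmn : s < min r r2 := lt_min hr hr2
  have hr41 : s < r4 := by rw [hr4]; linarith
  have hr42 : r4 < r := by rw [hr4]; have := min_le_left r r2; linarith
  have hr43 : r4 < r2 := by rw [hr4]; have := min_le_right r r2; linarith
  obtain ⟨ξ, hξ, hξ2⟩ := exists_hasDerivAt_eq_slope ψ ψ' hr41
    (fun y hy => ((hr3 y ⟨hy.1, lt_of_le_of_lt hy.2 hr43⟩).1).continuousAt.continuousWithinAt)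
    (fun y hy => (hr3 y ⟨hy.1.le, hy.2.trans hr43⟩).1)
  have h11 := hr1 ξ ⟨hξ.1, hξ.2.trans hr42⟩
  have h12 := (hr3 r4 ⟨hr41.le, hr43⟩).2
  rw [hξ2, div_neg_iff] at h11
  rcases h11 with h13 | h13
  · linarith [h13.2]
  · linarith [h13.1]

end Crest.Agent.R249.Top330
end
end

-- ▼ part R249/Top3_330
section

/-!
R249, leaf TOP (helper330), file 3: **Hessian comparison** `Hess (d_x²/2) ≤ g` for nonnegative
sectional curvature, at every point where the cost is smooth.
-/

set_option autoImplicit false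
set_option maxSynthPendingDepth 3
set_option linter.unusedSectionVars false

open Bundle Set Filter Topology Metric
open scoped Manifold ContDiff NNReal
open Crest.GeometryTopology.CoordMetric Crest.GeometryTopology.ChartCurvature
open Crest.GeometryTopology.MTW Crest.Agent.R244 Crest.Agent.R226
open Crest.Agent.R226.CutSmooth77 (SC)
open Crest.Agent.R202.Tens
open Crest.Agent.R247.Bo84 (grad gam hess hessE bil_grad bil_injective fderiv_gam bil_hessE
  hess_symm hess_apply hessE_apply contDiffAt_grad gam_eq_fderiv_grad inCh mGam mHess mgrad dCh dSy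
  mHess_chart' mGam_chart' mGam_chart dCh_mgrad differentiableAt_inCh contDiffAt_inCh mGam_comm
  mGam_self isRiemannianOn_chartMetric inner_eq_bil dCh_dSy dSy_dCh contDiffAt_Gam
  contMDiffAt_of_inCh contDiffAt_centre)
open Crest.Agent.R247.Sm879 Crest.Agent.R247.Ray97

noncomputable section

namespace Crest.Agent.R249.Top330

section coord
variable {n : ℕ} {g : MetricField n} {U : Set (EuclideanSpace ℝ (Fin n))}
  {x : EuclideanSpace ℝ (Fin n)}

local notation "𝔼" => EuclideanSpace ℝ (Fin n)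

lemma continuousAt_hess (hg : IsRiemannianOn g U) (hx : x ∈ U) {f : 𝔼 → ℝ}
    (hf : ContDiffAt ℝ 2 f x) : ContinuousAt (hess g f) x := by
  have h1 : ContDiffAt ℝ 1 (fderiv ℝ f) x := hf.fderiv_right (by norm_num)
  have h2 : ContDiffAt ℝ 0 (fderiv ℝ (fderiv ℝ f)) x := h1.fderiv_right (by norm_num)
  have h3 : ContinuousAt (fderiv ℝ (fderiv ℝ f)) x := h2.continuousAt
  have h4 : ContinuousAt (Gam g) x := (contDiffAt_Gam hg hx).continuousAt
  have h5 : ContinuousAt (fun z => ContinuousLinearMap.compL ℝ 𝔼 𝔼 ℝ (fderiv ℝ f z)) x :=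
    (ContinuousLinearMap.compL ℝ 𝔼 𝔼 ℝ).continuous.continuousAt.comp h1.continuousAt
  exact h3.sub (h5.clm_comp h4)

lemma continuousAt_Gf (hg : IsRiemannianOn g U) (hx : x ∈ U) : ContinuousAt (Gf g) x :=
  (Crest.Agent.R247.Bo84.differentiableAt_Gf hg hx).continuousAt

/-- the excess of the Hessian over the metric, in coordinates -/
def cE (g : MetricField n) (f : 𝔼 → ℝ) (z : 𝔼) : ℝ :=
  eF (fun u v => hess g f z u v) (fun u v => Gf g z u v)

lemma continuousAt_cE (hg : IsRiemannianOn g U) (hx : x ∈ U) {f : 𝔼 → ℝ}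
    (hf : ContDiffAt ℝ 2 f x) : ContinuousAt (cE g f) x := by
  refine continuousAt_eF (continuousAt_hess hg hx hf) (continuousAt_Gf hg hx)
    (fun u hu => bil_pos hg hx hu) ?_
  filter_upwards [hg.isOpen.mem_nhds hx] with y hy u hu using bil_pos hg hy hu

/-- at a point where `∇f = 0` and `|∇f|² = 2f` nearby: `Hess f ≤ g`. -/
lemma hess_le_of_grad_zero (hg : IsRiemannianOn g U) (hx : x ∈ U) {f : 𝔼 → ℝ}
    (hf : ContDiffAt ℝ 3 f x) (heik : ∀ᶠ y in 𝓝 x, gam g f f y = 2 * f y)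
    (h0 : grad g f x = 0) (w : 𝔼) : hess g f x w w ≤ bil (g x) w w := by
  have hf2 : ContDiffAt ℝ 2 f x := hf.of_le (by norm_num)
  have h1 := riccati hg hx hf heik w
  rw [h0] at h1
  have hc : Crest.Agent.R202.Tens.curv (Gam g) x w 0 0 = 0 := by
    simp [Crest.Agent.R202.Tens.curv]
  rw [hc] at h1
  simp only [map_zero, zero_apply, add_zero, sub_zero] at h1
  have h2 : hessE g f x (hessE g f x w) = hessE g f x w := (sub_eq_zero.1 h1.symm).symm
  have h3 : bil (g x) (hessE g f x w) (hessE g f x w) = hess g f x w w := by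
    rw [← bil_hessE hg hx hf2 w w, ← Crest.Agent.R247.Bo84.bil_hessE_symm hg hx hf2,
      h2]
  have h4 : 0 ≤ bil (g x) (hessE g f x w - w) (hessE g f x w - w) :=
    Crest.Agent.R247.Bo84.bil_self_nonneg hg hx _
  have e3 : bil (g x) (hessE g f x w - w) (hessE g f x w - w) =
      bil (g x) (hessE g f x w) (hessE g f x w) - 2 * hess g f x w w + bil (g x) w w := by
    rw [map_sub, map_sub, sub_apply, sub_apply, bil_hessE hg hx hf2,
      bil_symm hg hx w, bil_hessE hg hx hf2]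
    ring
  rw [e3, h3] at h4
  linarith

end coord

section mfd
variable {n : ℕ} {M : Type*} [MetricSpace M] [ChartedSpace (EuclideanSpace ℝ (Fin n)) M]
  [IsManifold (𝓡 n) ∞ M]
  [RiemannianBundle (fun p : M => TangentSpace (𝓡 n) p)]
  [IsContMDiffRiemannianBundle (𝓡 n) ∞ (EuclideanSpace ℝ (Fin n)) (fun p : M => TangentSpace (𝓡 n) p)]
  [IsRiemannianManifold (𝓡 n) M]

local notation "𝔼" => EuclideanSpace ℝ (Fin n)

/-- the excess of the Hessian over the metric, on the manifold -/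
def mE (n : ℕ) {M : Type*} [MetricSpace M] [ChartedSpace (EuclideanSpace ℝ (Fin n)) M]
    [IsManifold (𝓡 n) ∞ M]
    [RiemannianBundle (fun p : M => TangentSpace (𝓡 n) p)]
    [IsContMDiffRiemannianBundle (𝓡 n) ∞ (EuclideanSpace ℝ (Fin n))
      (fun p : M => TangentSpace (𝓡 n) p)] (f : M → ℝ) (p : M) : ℝ :=
  sInf {c | 0 ≤ c ∧ ∀ v : TangentSpace (𝓡 n) p, mHess n f p v v ≤ (1 + c) * inner ℝ v v}

lemma mE_eq {f : M → ℝ} {x₀ p : M} (hp : p ∈ (chartAt 𝔼 x₀).source)
    (hf : ContMDiffAt (𝓡 n) 𝓘(ℝ, ℝ) 2 f p) :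
    mE n f p = cE (chartMetric n M x₀) (inCh n x₀ f) (chartAt 𝔼 x₀ p) := by
  unfold mE cE
  have hL : Function.Surjective (fun v : TangentSpace (𝓡 n) p => dCh x₀ p v) := by
    intro u
    refine ⟨dSy x₀ (chartAt 𝔼 x₀ p) u, ?_⟩
    have h1 := dCh_dSy (n := n) x₀ ((chartAt 𝔼 x₀).map_source hp) u
    rw [(chartAt 𝔼 x₀).left_inv hp] at h1
    exact h1
  refine eF_comp (E := 𝔼) (E' := TangentSpace (𝓡 n) p) hL
    (H' := fun v w => mHess n f p v w) (G' := fun v w => inner ℝ v w) ?_ ?_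
  · intro v
    exact mHess_chart' hp hf v v
  · intro v
    exact inner_eq_bil x₀ hp v v

lemma mE_nonneg (f : M → ℝ) (p : M) : 0 ≤ mE n f p := Real.sInf_nonneg fun _ h => h.1

/-- the bound given by the excess -/
lemma mHess_le_mE {f : M → ℝ} {p : M} (hf : ContMDiffAt (𝓡 n) 𝓘(ℝ, ℝ) 2 f p)
    (v : TangentSpace (𝓡 n) p) : mHess n f p v v ≤ (1 + mE n f p) * ‖v‖ ^ 2 := by
  have hp := mem_chart_source 𝔼 p
  have hg := isRiemannianOn_chartMetric (n := n) p
  have ha : chartAt 𝔼 p p ∈ (chartAt 𝔼 p).target := mem_chart_target 𝔼 p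
  have h1 := eF_mem (H := fun u v => hess (chartMetric n M p) (inCh n p f) (chartAt 𝔼 p p) u v)
    (G := fun u v => Gf (chartMetric n M p) (chartAt 𝔼 p p) u v)
    (eS_nonempty (H := hess (chartMetric n M p) (inCh n p f) (chartAt 𝔼 p p))
      (G := Gf (chartMetric n M p) (chartAt 𝔼 p p)) (fun u hu => bil_pos hg ha hu)) (dCh p p v)
  have h2 : ‖v‖ ^ 2 = Gf (chartMetric n M p) (chartAt 𝔼 p p) (dCh p p v) (dCh p p v) := by
    rw [← real_inner_self_eq_norm_sq]
    exact inner_eq_bil p hp v v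
  calc mHess n f p v v = hess (chartMetric n M p) (inCh n p f) (chartAt 𝔼 p p)
        (dCh p p v) (dCh p p v) := mHess_chart' hp hf v v
    _ ≤ (1 + cE (chartMetric n M p) (inCh n p f) (chartAt 𝔼 p p)) *
        Gf (chartMetric n M p) (chartAt 𝔼 p p) (dCh p p v) (dCh p p v) := h1
    _ = (1 + mE n f p) * ‖v‖ ^ 2 := by rw [h2, mE_eq hp hf]

/-- the excess is continuous where the function is `C²` -/
lemma continuousAt_mE {f : M → ℝ} {p : M} (hf : ContMDiffAt (𝓡 n) 𝓘(ℝ, ℝ) 2 f p) :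
    ContinuousAt (mE n f) p := by
  have hp := mem_chart_source 𝔼 p
  have hg := isRiemannianOn_chartMetric (n := n) p
  have ha : chartAt 𝔼 p p ∈ (chartAt 𝔼 p).target := mem_chart_target 𝔼 p
  have h1 : ContinuousAt (cE (chartMetric n M p) (inCh n p f)) (chartAt 𝔼 p p) :=
    continuousAt_cE hg ha (contDiffAt_centre Crest.Agent.R247.Bo84.two_le_infty hf)
  have h2 : ContinuousAt (fun q => cE (chartMetric n M p) (inCh n p f) (chartAt 𝔼 p q)) p :=
    ContinuousAt.comp (g := cE (chartMetric n M p) (inCh n p f)) h1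
      ((chartAt 𝔼 p).continuousAt hp)
  have : IsManifold (𝓡 n) (2 : WithTop ℕ∞) M :=
    IsManifold.of_le (n := ∞) Crest.Agent.R247.Bo84.two_le_infty
  have h3 : ∀ᶠ q in 𝓝 p, ContMDiffAt (𝓡 n) 𝓘(ℝ, ℝ) 2 f q :=
    (contMDiffAt_iff_contMDiffAt_nhds (n := 2) (by decide)).1 hf
  refine h2.congr ?_
  filter_upwards [h3, (chartAt 𝔼 p).open_source.mem_nhds hp] with q hq1 hq2
  exact (mE_eq hq2 hq1).symm

variable [ProperSpace M] {x : M} {γ : ℝ → M} {ℓ b s : ℝ}

/-- left Dini estimate of `t ↦ t * excess` along a minimiser -/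
lemma dini_ray (hm : ExM M) (hK : HasNonnegSectionalCurvature n M) (h : IsRay x γ ℓ b)
    (hs : s ∈ Ioo 0 b) {ε : ℝ} (hε : 0 < ε) :
    ∀ᶠ t in 𝓝[<] s, s * mE n (halfDistSq x) (γ s) - ε * (s - t) ≤
      t * mE n (halfDistSq x) (γ t) := by
  have hO := h.mem_Om ⟨hs.1.le, hs.2⟩
  have hpos : ∀ᶠ t in 𝓝[<] s, 0 < t := by
    have : ∀ᶠ t in 𝓝 s, 0 < t := lt_mem_nhds hs.1
    exact this.filter_mono nhdsWithin_le_nhds
  have hp := mem_chart_source 𝔼 (γ s)
  set x₀ := γ s with hx₀
  have hg := isRiemannianOn_chartMetric (n := n) x₀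
  have ha : chartAt 𝔼 x₀ x₀ ∈ (chartAt 𝔼 x₀).target := mem_chart_target 𝔼 x₀
  have hsm : ∀ q, (x, q) ∈ Om M → ContMDiffAt (𝓡 n) 𝓘(ℝ, ℝ) 2 (halfDistSq x) q := fun q hq =>
    (Crest.Agent.R247.Lc582.contMDiffAt_cost (sc_of_Om hm hq)).of_le
      Crest.Agent.R247.Bo84.two_le_infty
  rcases (mE_nonneg (n := n) (halfDistSq x) x₀).eq_or_lt with h0 | h0
  · filter_upwards [hpos, self_mem_nhdsWithin] with t ht1 ht2
    rw [← h0, mul_zero]
    have ht2' : t < s := ht2
    have := mul_nonneg ht1.le (mE_nonneg (n := n) (halfDistSq x) (γ t))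
    nlinarith
  · -- the maximal vector
    have hE0 := mE_eq (n := n) hp (hsm x₀ hO)
    have hE : 0 < eF (fun u v => hess (chartMetric n M x₀) (fz x x₀) (chartAt 𝔼 x₀ x₀) u v)
        (fun u v => Gf (chartMetric n M x₀) (chartAt 𝔼 x₀ x₀) u v) := by
      rw [hE0] at h0; exact h0
    obtain ⟨w, hw0, hw⟩ := eF_attained (fun u hu => bil_pos hg ha hu) hE
    set a := chartAt 𝔼 x₀ x₀ with ha_def
    have hc := h.hasDerivAt_chart (n := n) hm hs x₀ hp
    have hf3 : ContDiffAt ℝ 3 (fz x x₀) (chartAt 𝔼 x₀ (γ s)) :=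
      (contDiffAt_fz' hm hO x₀ hp).of_le Crest.Agent.R247.Bo84.three_le_infty
    have heik := eventually_gam_fz hm hO x₀ hp
    have hd := hasDerivAt_quot hg (c := fun t => chartAt 𝔼 x₀ (γ t)) hs.1.ne' ha hf3 heik hc hw0
    have hsec : 0 ≤ secNumer (chartMetric n M x₀) a w
        (grad (chartMetric n M x₀) (fz x x₀) a) := hK x₀ w _
    have hGw : 0 < bil (chartMetric n M x₀ a) w w := bil_pos hg ha hw0
    have hD : -(bil (chartMetric n M x₀ a) (hessE (chartMetric n M x₀) (fz x x₀) a w - w)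
        (hessE (chartMetric n M x₀) (fz x x₀) a w - w) +
        secNumer (chartMetric n M x₀) a w (grad (chartMetric n M x₀) (fz x x₀) a)) /
          bil (chartMetric n M x₀ a) w w < ε := by
      refine lt_of_le_of_lt ?_ hε
      rw [div_nonpos_iff]
      right
      refine ⟨?_, hGw.le⟩
      have := Crest.Agent.R247.Bo84.bil_self_nonneg hg ha
        (hessE (chartMetric n M x₀) (fz x x₀) a w - w)
      linarith
    have h6 := hasDerivAt_iff_tendsto_slope.1 hd
    have h7 := (h6.eventually (gt_mem_nhds hD)).filter_mono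
      (nhdsWithin_mono s fun y (hy : y < s) => ne_of_lt hy)
    have hcont : ContinuousAt γ s := h.continuousAt hs
    have h8 : ∀ᶠ t in 𝓝 s, γ t ∈ (chartAt 𝔼 x₀).source ∧ (x, γ t) ∈ Om M := by
      have h9 : (chartAt 𝔼 x₀).source ∩ OmA x ∈ 𝓝 (γ s) :=
        inter_mem ((chartAt 𝔼 x₀).open_source.mem_nhds hp) ((isOpen_OmA n hm x).mem_nhds hO)
      exact hcont.eventually h9
    have h8' := h8.filter_mono (nhdsWithin_le_nhds (s := Iio s))
    filter_upwards [hpos, self_mem_nhdsWithin, h7, h8'] with t ht1 ht2 ht3 ht4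
    have ht2' : t < s := ht2
    have hgt : (chartAt 𝔼 x₀) (γ t) ∈ (chartAt 𝔼 x₀).target := (chartAt 𝔼 x₀).map_source ht4.1
    have hEt := mE_eq (n := n) ht4.1 (hsm (γ t) ht4.2)
    -- the value at `s`
    have hvs : s * (hess (chartMetric n M x₀) (fz x x₀) a (ext0 (chartMetric n M x₀) a w a)
        (ext0 (chartMetric n M x₀) a w a) / bil (chartMetric n M x₀ a)
        (ext0 (chartMetric n M x₀) a w a) (ext0 (chartMetric n M x₀) a w a) - 1) =
        s * mE n (halfDistSq x) x₀ := by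
      rw [ext0_self, hw]
      rw [mul_div_assoc, div_self hGw.ne', mul_one, hE0]
      unfold cE
      change s * (1 + eF (fun u v => hess (chartMetric n M x₀) (fz x x₀) a u v)
        (fun u v => Gf (chartMetric n M x₀) a u v) - 1) = s * eF (fun u v =>
          hess (chartMetric n M x₀) (fz x x₀) a u v) (fun u v => Gf (chartMetric n M x₀) a u v)
      ring
    -- the value at `t`
    set W := ext0 (chartMetric n M x₀) a w (chartAt 𝔼 x₀ (γ t)) with hW
    have hvt : t * (hess (chartMetric n M x₀) (fz x x₀) (chartAt 𝔼 x₀ (γ t)) W W /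
        bil (chartMetric n M x₀ (chartAt 𝔼 x₀ (γ t))) W W - 1) ≤
        t * mE n (halfDistSq x) (γ t) := by
      refine mul_le_mul_of_nonneg_left ?_ ht1.le
      have h10 := eF_mem (eS_nonempty (H := hess (chartMetric n M x₀) (fz x x₀)
        (chartAt 𝔼 x₀ (γ t))) (G := Gf (chartMetric n M x₀) (chartAt 𝔼 x₀ (γ t)))
        (fun u hu => bil_pos hg hgt hu)) W
      rcases eq_or_ne W 0 with hW0 | hW0
      · rw [hW0]
        simp only [map_zero, zero_apply, zero_div]
        have := mE_nonneg (n := n) (halfDistSq x) (γ t)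
        linarith
      · have hGW : 0 < bil (chartMetric n M x₀ (chartAt 𝔼 x₀ (γ t))) W W := bil_pos hg hgt hW0
        rw [sub_le_iff_le_add, div_le_iff₀ hGW, add_comm, hEt]
        exact h10
    rw [slope_def_field] at ht3
    have ht5 : t - s < 0 := by linarith
    rw [div_lt_iff_of_neg ht5] at ht3
    have e5 : ∀ A B C D : ℝ, ε * (t - s) < A - B → A ≤ C → B = D → D - ε * (s - t) ≤ C := by
      intro A B C D h1 h2 h3
      rw [← h3]; nlinarith
    exact e5 _ _ _ _ ht3 hvt hvs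

/-- the excess vanishes along a minimiser -/
lemma mE_ray (hm : ExM M) (hK : HasNonnegSectionalCurvature n M) (h : IsRay x γ ℓ b)
    (hs : s ∈ Ioo 0 b) : mE n (halfDistSq x) (γ s) = 0 := by
  have hsm : ∀ q, (x, q) ∈ Om M → ContMDiffAt (𝓡 n) 𝓘(ℝ, ℝ) 2 (halfDistSq x) q := fun q hq =>
    (Crest.Agent.R247.Lc582.contMDiffAt_cost (sc_of_Om hm hq)).of_le
      Crest.Agent.R247.Bo84.two_le_infty
  have hcont : ∀ t ∈ Ioo 0 b, ContinuousAt (fun t => t * mE n (halfDistSq x) (γ t)) t := by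
    intro t ht
    have hO := h.mem_Om ⟨ht.1.le, ht.2⟩
    have h1 : ContinuousAt (fun t => mE n (halfDistSq x) (γ t)) t :=
      ContinuousAt.comp (g := mE n (halfDistSq x)) (continuousAt_mE (hsm _ hO))
        (h.continuousAt ht)
    exact continuousAt_id.mul h1
  have hmono : ∀ a ∈ Ioo 0 s, s * mE n (halfDistSq x) (γ s) ≤ a * mE n (halfDistSq x) (γ a) := by
    intro a ha
    refine antitone_of_dini ha.2.le (fun t ht => (hcont t ⟨by linarith [ha.1, ht.1],
      by linarith [hs.2, ht.2]⟩).continuousWithinAt) fun t ht ε hε => ?_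
    exact dini_ray hm hK h ⟨by linarith [ha.1, ht.1], by linarith [hs.2, ht.2]⟩ hε
  -- bound near `x`
  have hOx : (x, x) ∈ Om M := by
    have := h.mem_Om (s := 0) ⟨le_rfl, h.bpos⟩
    rwa [h.zero] at this
  have hcx : ContinuousAt (mE n (halfDistSq x)) x := continuousAt_mE (hsm _ hOx)
  have hγ0 : Tendsto γ (𝓝[>] 0) (𝓝 x) := by
    have h1 := h.continuousOn 0 ⟨le_rfl, h.bpos.le⟩
    rw [ContinuousWithinAt, h.zero] at h1
    refine h1.mono_left ?_
    have : Icc 0 b ∈ 𝓝[>] (0:ℝ) := Icc_mem_nhdsGT h.bpos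
    exact nhdsWithin_le_of_mem this
  have hlim : Tendsto (fun a => a * mE n (halfDistSq x) (γ a)) (𝓝[>] 0)
      (𝓝 (0 * mE n (halfDistSq x) x)) :=
    (tendsto_id.mono_left nhdsWithin_le_nhds).mul (hcx.tendsto.comp hγ0)
  rw [zero_mul] at hlim
  have hle : s * mE n (halfDistSq x) (γ s) ≤ 0 := by
    refine ge_of_tendsto hlim ?_
    filter_upwards [Ioo_mem_nhdsGT hs.1] with a ha using hmono a ha
  have h0 := mE_nonneg (n := n) (halfDistSq x) (γ s)
  nlinarith [hs.1]

/-- **Hessian comparison**, `K ≥ 0`: `Hess (d_x²/2) ≤ g` wherever the cost is smooth. -/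
theorem mHess_halfDistSq_le (hm : ExM M) (hK : HasNonnegSectionalCurvature n M) {x p : M}
    (h : SC n x p) (v : TangentSpace (𝓡 n) p) : mHess n (halfDistSq x) p v v ≤ ‖v‖ ^ 2 := by
  have hsm : ContMDiffAt (𝓡 n) 𝓘(ℝ, ℝ) 2 (halfDistSq x) p :=
    (Crest.Agent.R247.Lc582.contMDiffAt_cost h).of_le Crest.Agent.R247.Bo84.two_le_infty
  rcases eq_or_ne x p with rfl | hne
  · -- the centre
    obtain ⟨L⟩ := nonempty_localNear (n := n) x
    have hg := isRiemannianOn_chartMetric (n := n) x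
    set φ := chartAt 𝔼 x with hφ
    have hsrc : x ∈ φ.source := mem_chart_source 𝔼 x
    have ha : φ x ∈ φ.target := mem_chart_target 𝔼 x
    have hL : ∀ᶠ b in 𝓝 (φ x), b ∈ φ.target ∧ SC n x (φ.symm b) := by
      have h1 : Tendsto φ.symm (𝓝 (φ x)) (𝓝 x) := by
        have := φ.continuousAt_symm ha
        rw [ContinuousAt, φ.left_inv hsrc] at this
        exact this
      have h2 : Metric.ball x L.r ∈ 𝓝 x := Metric.ball_mem_nhds x L.r_pos
      filter_upwards [h1 h2, φ.open_target.mem_nhds ha] with b hb1 hb2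
      refine ⟨hb2, LN_sc L L.mem_W ?_⟩
      rw [dist_comm]; exact hb1
    have he : ∀ᶠ b in 𝓝 (φ x), gam (chartMetric n M x) (fz x x) (fz x x) b = 2 * fz x x b := by
      filter_upwards [hL] with b hb using gam_fz hm hb.1 hb.2
    have hf : ContDiffAt ℝ ∞ (fz (n := n) x x) (φ x) := contDiffAt_fz ha hL.self_of_nhds.2
    have h0 : gam (chartMetric n M x) (fz x x) (fz x x) (φ x) = 0 := by
      rw [he.self_of_nhds, fz, ← hφ, φ.left_inv hsrc, halfDistSq, dist_self]; ring
    have hgr : grad (chartMetric n M x) (fz x x) (φ x) = 0 := by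
      by_contra hne
      have := bil_pos hg ha hne
      rw [← Crest.Agent.R247.Bo84.gam_eq_bil hg ha, h0] at this
      exact lt_irrefl _ this
    have h2 : ‖v‖ ^ 2 = bil (chartMetric n M x (chartAt 𝔼 x x)) (dCh x x v) (dCh x x v) := by
      rw [← real_inner_self_eq_norm_sq]
      exact inner_eq_bil x hsrc v v
    rw [h2]
    calc mHess n (halfDistSq x) x v v = hess (chartMetric n M x) (inCh n x (halfDistSq x))
          (chartAt 𝔼 x x) (dCh x x v) (dCh x x v) := mHess_chart' hsrc hsm v v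
      _ ≤ _ := hess_le_of_grad_zero hg ha (hf.of_le Crest.Agent.R247.Bo84.three_le_infty) he hgr _
  · obtain ⟨γ, h0, h1, h2⟩ := Crest.Agent.R247.Lc582.exists_unit hm x p
    have hD : 0 < dist x p := dist_pos.2 hne
    have hray : IsRay x γ 1 (dist x p) := ⟨one_pos, hD, h0, fun s hs t ht => by
      rw [h2 s hs t ht, one_mul]⟩
    have hγ : Tendsto γ (𝓝[<] (dist x p)) (𝓝 p) := by
      have h3 := hray.continuousOn (dist x p) ⟨hD.le, le_rfl⟩
      rw [ContinuousWithinAt, h1] at h3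
      refine h3.mono_left ?_
      have : Icc 0 (dist x p) ∈ 𝓝[<] (dist x p) := Icc_mem_nhdsLT hD
      exact nhdsWithin_le_of_mem this
    have h4 : Tendsto (fun s => mE n (halfDistSq x) (γ s)) (𝓝[<] (dist x p))
        (𝓝 (mE n (halfDistSq x) p)) := (continuousAt_mE hsm).tendsto.comp hγ
    have h5 : Tendsto (fun s => mE n (halfDistSq x) (γ s)) (𝓝[<] (dist x p)) (𝓝 0) := by
      refine tendsto_const_nhds.congr' ?_
      filter_upwards [Ioo_mem_nhdsLT hD] with s hs
      exact (mE_ray hm hK hray hs).symm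
    have h6 := tendsto_nhds_unique h4 h5
    have h7 := mHess_le_mE hsm v
    rw [h6, add_zero, one_mul] at h7
    exact h7

end mfd

end Crest.Agent.R249.Top330
end
end

-- ▼ part R249/Top4_330
section

/-!
R249, leaf TOP (helper330), file 4: **Toponogov's theorem in concavity form** for nonnegative
sectional curvature.  For every `p` and every locally minimising curve `γ` of constant speed `ℓ`,
`t ↦ dist p (γ t)² - ℓ² t²` is concave.
-/

set_option autoImplicit false
set_option maxSynthPendingDepth 3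
set_option linter.unusedSectionVars false

open Bundle Set Filter Topology Metric
open scoped Manifold ContDiff NNReal
open Crest.GeometryTopology.CoordMetric Crest.GeometryTopology.ChartCurvature
open Crest.GeometryTopology.MTW
open Crest.Agent.R226.CutSmooth77 (SC)
open Crest.Agent.R247.Bo84 (mHess mGam mgrad mHess_comp dM two_le_infty mHess_smul_left
  mHess_smul_right)
open Crest.Agent.R247.Sm879 Crest.Agent.R247.Ray97

noncomputable section

namespace Crest.Agent.R249.Top330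

variable {n : ℕ} {M : Type*} [MetricSpace M] [ChartedSpace (EuclideanSpace ℝ (Fin n)) M]
  [IsManifold (𝓡 n) ∞ M]
  [RiemannianBundle (fun p : M => TangentSpace (𝓡 n) p)]
  [IsContMDiffRiemannianBundle (𝓡 n) ∞ (EuclideanSpace ℝ (Fin n)) (fun p : M => TangentSpace (𝓡 n) p)]
  [IsRiemannianManifold (𝓡 n) M]

local notation "𝔼" => EuclideanSpace ℝ (Fin n)

/-- `γ` is, near every interior time, a minimiser of constant speed `ℓ`. -/
def LocMin {M : Type*} [MetricSpace M] (γ : ℝ → M) (ℓ a b : ℝ) : Prop :=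
  ∀ s ∈ Ioo a b, ∃ δ > 0, ∀ u ∈ Icc (s - δ) (s + δ), ∀ v ∈ Icc (s - δ) (s + δ),
    dist (γ u) (γ v) = ℓ * |u - v|

/-- the barrier function `(ε + √(2y))²/2`, its derivative and second derivative. -/
lemma barrier_deriv {ε y : ℝ} (hy : 0 < y) :
    HasDerivAt (fun y => (ε + √(2 * y)) ^ 2 / 2) (1 + ε / √(2 * y)) y := by
  have h1 : HasDerivAt (fun y : ℝ => 2 * y) 2 y := by
    simpa using (hasDerivAt_id y).const_mul (2:ℝ)
  have h2 := h1.sqrt (by positivity)
  have h3 := ((h2.const_add ε).fun_pow 2).div_const 2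
  refine h3.congr_deriv ?_
  have hs : √(2 * y) ≠ 0 := (Real.sqrt_pos.2 (by positivity)).ne'
  field_simp
  norm_num
  ring

lemma barrier_deriv2 {ε y : ℝ} (hε : 0 ≤ ε) (hy : 0 < y) :
    deriv (deriv (fun y => (ε + √(2 * y)) ^ 2 / 2)) y ≤ 0 := by
  have h1 : deriv (fun y => (ε + √(2 * y)) ^ 2 / 2) =ᶠ[𝓝 y] fun y => 1 + ε / √(2 * y) := by
    filter_upwards [lt_mem_nhds hy] with z hz using (barrier_deriv hz).deriv
  rw [h1.deriv_eq]
  have hs : 0 < √(2 * y) := Real.sqrt_pos.2 (by positivity)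
  have h2 : HasDerivAt (fun y : ℝ => 2 * y) 2 y := by
    simpa using (hasDerivAt_id y).const_mul (2:ℝ)
  have h3 := h2.sqrt (by positivity)
  have h4 := ((hasDerivAt_const y ε).div h3 hs.ne').const_add 1
  have h5 : deriv (fun y => 1 + ε / √(2 * y)) y = (0 * √(2 * y) - ε * (2 / (2 * √(2 * y)))) /
      √(2 * y) ^ 2 := h4.deriv
  rw [h5, zero_mul, zero_sub, neg_div, neg_nonpos]
  positivity

lemma barrier_contDiffAt {ε y : ℝ} (hy : 0 < y) :
    ContDiffAt ℝ 2 (fun y => (ε + √(2 * y)) ^ 2 / 2) y := by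
  have h1 : ContDiffAt ℝ 2 (fun y : ℝ => √(2 * y)) y :=
    (contDiffAt_const.mul contDiffAt_id).sqrt (by positivity)
  exact ((contDiffAt_const.add h1).pow 2).div_const 2

variable [ProperSpace M]

/-- Hessian of the upper barrier `(ε + d_x)²/2`. -/
theorem mHess_barrier_le (hm : ExM M) (hK : HasNonnegSectionalCurvature n M) {x p : M}
    (h : SC n x p) (hxp : x ≠ p) {ε : ℝ} (hε : 0 ≤ ε) (v : TangentSpace (𝓡 n) p) :
    mHess n (fun q => (ε + √(2 * halfDistSq x q)) ^ 2 / 2) p v v ≤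
      (1 + ε / dist x p) * ‖v‖ ^ 2 := by
  have hpos : 0 < halfDistSq x p := by
    unfold halfDistSq
    have := dist_pos.2 hxp
    positivity
  have hsm : ContMDiffAt (𝓡 n) 𝓘(ℝ, ℝ) 2 (halfDistSq x) p :=
    (Crest.Agent.R247.Lc582.contMDiffAt_cost h).of_le Crest.Agent.R247.Bo84.two_le_infty
  rw [mHess_comp (φ := fun y => (ε + √(2 * y)) ^ 2 / 2) (barrier_contDiffAt hpos) hsm,
    (barrier_deriv hpos).deriv]
  have h1 := barrier_deriv2 hε hpos
  have h2 := mHess_halfDistSq_le hm hK h v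
  have h3 : √(2 * halfDistSq x p) = dist x p := by
    unfold halfDistSq
    rw [mul_div_cancel₀ _ (two_ne_zero), Real.sqrt_sq dist_nonneg]
  rw [h3]
  have h4 : 0 ≤ 1 + ε / dist x p := by positivity
  have h5 : deriv (deriv fun y => (ε + √(2 * y)) ^ 2 / 2) (halfDistSq x p) *
      (dM n (halfDistSq x) p v * dM n (halfDistSq x) p v) ≤ 0 :=
    mul_nonpos_of_nonpos_of_nonneg h1 (mul_self_nonneg _)
  nlinarith [mul_le_mul_of_nonneg_left h2 h4]

/-- the barriers at an interior time of a locally minimising curve -/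
theorem barrier_exists (hm : ExM M) (hK : HasNonnegSectionalCurvature n M) (p : M) {γ : ℝ → M}
    {ℓ s δ : ℝ} (hℓ : 0 < ℓ) (hδ : 0 < δ)
    (hloc : ∀ u ∈ Icc (s - δ) (s + δ), ∀ v ∈ Icc (s - δ) (s + δ), dist (γ u) (γ v) = ℓ * |u - v|)
    {ε : ℝ} (hε : 0 < ε) :
    ∃ φ φ' : ℝ → ℝ, ∃ D : ℝ, (∀ᶠ t in 𝓝 s, halfDistSq p (γ t) ≤ φ t) ∧ φ s = halfDistSq p (γ s) ∧
      (∀ᶠ t in 𝓝 s, HasDerivAt φ (φ' t) t) ∧ HasDerivAt φ' D s ∧ D ≤ ℓ ^ 2 + ε := by
  have hmf : IsManifold (𝓡 n) (2 : WithTop ℕ∞) M :=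
    IsManifold.of_le (n := ∞) Crest.Agent.R247.Bo84.two_le_infty
  -- the ray around `s`
  set γ' : ℝ → M := fun t => γ (s - δ + t) with hγ'
  have hray : IsRay (γ (s - δ)) γ' ℓ (2 * δ) := by
    refine ⟨hℓ, by linarith, by simp [hγ'], fun u hu v hv => ?_⟩
    rw [hγ']
    simp only
    rw [hloc _ ⟨by linarith [hu.1], by linarith [hu.2]⟩ _ ⟨by linarith [hv.1], by linarith [hv.2]⟩]
    congr 2
    ring
  have hsI : δ ∈ Ioo 0 (2 * δ) := ⟨hδ, by linarith⟩
  have hγs : γ' δ = γ s := by rw [hγ']; simp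
  have hcont : ContinuousAt γ s := by
    have h1 := hray.continuousAt hsI
    have h2 : γ = fun t => γ' (t - (s - δ)) := by
      ext t; rw [hγ']; simp
    rw [h2]
    have h3 : ContinuousAt (fun t : ℝ => t - (s - δ)) s := by fun_prop
    have h4 : ContinuousAt γ' ((fun t : ℝ => t - (s - δ)) s) := by
      have : (fun t : ℝ => t - (s - δ)) s = δ := by simp
      rw [this]; exact h1
    exact ContinuousAt.comp (g := γ') h4 h3
  -- a general barrier from a `C²` function
  have key : ∀ w : M → ℝ, ContMDiffAt (𝓡 n) 𝓘(ℝ, ℝ) 2 w (γ s) →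
      (∀ᶠ q in 𝓝 (γ s), halfDistSq p q ≤ w q) → w (γ s) = halfDistSq p (γ s) →
      (∀ v : TangentSpace (𝓡 n) (γ s), mHess n w (γ s) v v ≤ (1 + ε / ℓ ^ 2) * ‖v‖ ^ 2) →
      ∃ φ φ' : ℝ → ℝ, ∃ D : ℝ, (∀ᶠ t in 𝓝 s, halfDistSq p (γ t) ≤ φ t) ∧
        φ s = halfDistSq p (γ s) ∧ (∀ᶠ t in 𝓝 s, HasDerivAt φ (φ' t) t) ∧ HasDerivAt φ' D s ∧
        D ≤ ℓ ^ 2 + ε := by
    intro w hw hle heq hH
    have hw' : ContMDiffAt (𝓡 n) 𝓘(ℝ, ℝ) 2 w (γ' δ) := by rw [hγs]; exact hw
    have hd2 := hray.hasDerivAt_deriv hm hsI hw'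
    have hnv := hray.norm_vel (n := n) hm hsI
    have hshift : ∀ t, HasDerivAt (fun t : ℝ => t - (s - δ)) 1 t := fun t =>
      (hasDerivAt_id t).sub_const _
    refine ⟨fun t => w (γ t), fun t => deriv (fun t => w (γ' t)) (t - (s - δ)),
      δ⁻¹ ^ 2 * mHess n w (γ' δ) (mgrad n (halfDistSq (γ (s - δ))) (γ' δ))
        (mgrad n (halfDistSq (γ (s - δ))) (γ' δ)), hcont.eventually hle, heq, ?_, ?_, ?_⟩
    · -- first derivative near `s`
      have h1 : ∀ᶠ q in 𝓝 (γ s), MDifferentiableAt (𝓡 n) 𝓘(ℝ, ℝ) w q := by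
        have h2 := (contMDiffAt_iff_contMDiffAt_nhds (n := 2) (by decide)).1 hw
        filter_upwards [h2] with q hq using hq.mdifferentiableAt (by norm_num)
      have h3 : ∀ᶠ t in 𝓝 s, t - (s - δ) ∈ Ioo 0 (2 * δ) := by
        have : ContinuousAt (fun t : ℝ => t - (s - δ)) s := by fun_prop
        refine this.eventually (Ioo_mem_nhds ?_ ?_) <;> simp <;> linarith
      filter_upwards [hcont.eventually h1, h3] with t ht1 ht2
      have e1 : γ' (t - (s - δ)) = γ t := by rw [hγ']; simp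
      have h4 := (hray.hasDerivAt_comp hm ht2 (w := w) (by rw [e1]; exact ht1))
      have h5 := (h4.differentiableAt.hasDerivAt).comp t (hshift t)
      have h6 : (fun t => w (γ' t)) ∘ (fun t : ℝ => t - (s - δ)) = fun t => w (γ t) := by
        ext t; simp [hγ']
      rw [h6, mul_one] at h5
      exact h5
    · have e0 : (fun t : ℝ => t - (s - δ)) s = δ := by simp
      have h7 : HasDerivAt (deriv (fun t => w (γ' t))) (δ⁻¹ ^ 2 * mHess n w (γ' δ)
          (mgrad n (halfDistSq (γ (s - δ))) (γ' δ))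
          (mgrad n (halfDistSq (γ (s - δ))) (γ' δ))) ((fun t : ℝ => t - (s - δ)) s) := by
        rw [e0]; exact hd2
      have h8 := h7.comp s (hshift s)
      rw [mul_one] at h8
      exact h8
    · have h9 : ∀ (q : M) (hq : q = γ s) (v : TangentSpace (𝓡 n) q),
          mHess n w q v v ≤ (1 + ε / ℓ ^ 2) * ‖v‖ ^ 2 := by
        intro q hq v
        subst hq
        exact hH v
      have h10 := h9 (γ' δ) hγs (δ⁻¹ • mgrad n (halfDistSq (γ (s - δ))) (γ' δ))
      rw [hnv, mHess_smul_left, mHess_smul_right] at h10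
      calc δ⁻¹ ^ 2 * mHess n w (γ' δ) (mgrad n (halfDistSq (γ (s - δ))) (γ' δ))
            (mgrad n (halfDistSq (γ (s - δ))) (γ' δ)) =
            δ⁻¹ * (δ⁻¹ * mHess n w (γ' δ) (mgrad n (halfDistSq (γ (s - δ))) (γ' δ))
              (mgrad n (halfDistSq (γ (s - δ))) (γ' δ))) := by ring
        _ ≤ (1 + ε / ℓ ^ 2) * ℓ ^ 2 := h10
        _ = ℓ ^ 2 + ε := by field_simp
  rcases eq_or_ne p (γ s) with hps | hps
  · -- the centre
    have hsc : SC n p (γ s) := by
      rw [← hps]
      obtain ⟨L⟩ := nonempty_localNear (n := n) p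
      exact LN_sc L L.mem_W (by rw [dist_self]; exact L.r_pos)
    refine key (halfDistSq p) ((Crest.Agent.R247.Lc582.contMDiffAt_cost hsc).of_le
      Crest.Agent.R247.Bo84.two_le_infty) (Eventually.of_forall fun q => le_rfl) rfl fun v => ?_
    have h1 := mHess_halfDistSq_le hm hK hsc v
    have h2 : 0 ≤ ε / ℓ ^ 2 := by positivity
    nlinarith [sq_nonneg ‖v‖]
  · -- away from the centre: shift the base point
    have hD : 0 < dist p (γ s) := dist_pos.2 hps
    set D := dist p (γ s) with hDdef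
    -- choose `ε'`
    obtain ⟨ε', hε'0, hε'D, hε'⟩ : ∃ ε' : ℝ, 0 < ε' ∧ ε' < D ∧ ε' / (D - ε') ≤ ε / ℓ ^ 2 := by
      have ht : Tendsto (fun e : ℝ => e / (D - e)) (𝓝[>] 0) (𝓝 (0 / (D - 0))) := by
        have : ContinuousAt (fun e : ℝ => e / (D - e)) 0 :=
          ContinuousAt.div (by fun_prop) (by fun_prop) (by simpa using hD.ne')
        exact this.tendsto.mono_left nhdsWithin_le_nhds
      have h1 : (0:ℝ) / (D - 0) < ε / ℓ ^ 2 := by rw [zero_div]; positivity
      obtain ⟨e, he1, he2⟩ := ((ht.eventually (gt_mem_nhds h1)).and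
        (Ioo_mem_nhdsGT hD)).exists
      exact ⟨e, he2.1, he2.2, he1.le⟩
    obtain ⟨p', hp'1, hp'2⟩ := hm.pt p (γ s) hε'0.le hε'D.le
    have hpp' : p ≠ p' := by
      intro h
      rw [h, dist_self] at hp'1
      exact hε'0.ne hp'1
    have hp'q : p' ≠ γ s := by
      intro h
      rw [← h, dist_self, h, ← hDdef] at hp'2
      linarith
    have hsc : SC n p' (γ s) :=
      sc_of_btw' (n := n) hm (x' := p) (x := p') (y := γ s) (by rw [hp'1, hp'2, ← hDdef]; ring) hpp'
    have hpos : 0 < halfDistSq p' (γ s) := by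
      unfold halfDistSq
      have := dist_pos.2 hp'q
      positivity
    have hsm : ContMDiffAt (𝓡 n) 𝓘(ℝ, ℝ) 2 (halfDistSq p') (γ s) :=
      (Crest.Agent.R247.Lc582.contMDiffAt_cost hsc).of_le Crest.Agent.R247.Bo84.two_le_infty
    have hroot : ∀ q, √(2 * halfDistSq p' q) = dist p' q := by
      intro q
      unfold halfDistSq
      rw [mul_div_cancel₀ _ (two_ne_zero), Real.sqrt_sq dist_nonneg]
    refine key (fun q => (ε' + √(2 * halfDistSq p' q)) ^ 2 / 2) ?_ ?_ ?_ ?_
    · have h1 := (barrier_contDiffAt (ε := ε') hpos).contMDiffAt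
      exact ContMDiffAt.comp (γ s) (g := fun y : ℝ => (ε' + √(2 * y)) ^ 2 / 2) h1 hsm
    · refine Eventually.of_forall fun q => ?_
      rw [hroot]
      unfold halfDistSq
      have h1 : dist p q ≤ ε' + dist p' q := by
        rw [← hp'1]; exact dist_triangle _ _ _
      have h2 : 0 ≤ dist p q := dist_nonneg
      gcongr
    · rw [hroot, hp'2]
      unfold halfDistSq
      rw [← hDdef]
      ring
    · intro v
      have h1 := mHess_barrier_le hm hK hsc hp'q hε'0.le v
      refine h1.trans ?_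
      rw [hp'2, ← hDdef]
      gcongr

/-- **Toponogov, chord form**, on a compact interval. -/
theorem toponogov_chord (hm : ExM M) (hK : HasNonnegSectionalCurvature n M) (p : M) {γ : ℝ → M}
    {ℓ a b : ℝ} (hℓ : 0 < ℓ) (hab : a < b) (hc : ContinuousOn γ (Icc a b)) (hloc : LocMin γ ℓ a b)
    {t : ℝ} (ht : t ∈ Icc a b) :
    (b - t) / (b - a) * dist p (γ a) ^ 2 + (t - a) / (b - a) * dist p (γ b) ^ 2
      - ℓ ^ 2 * ((t - a) * (b - t)) ≤ dist p (γ t) ^ 2 := by
  have hcont : ContinuousOn (fun t => halfDistSq p (γ t)) (Icc a b) := by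
    unfold halfDistSq
    have h1 : Continuous fun q : M => dist p q := continuous_const.dist continuous_id
    exact ((h1.comp_continuousOn hc).pow 2).div_const 2
  have h1 := concave_barrier (h := fun t => halfDistSq p (γ t)) (k := ℓ ^ 2) hab hcont
    (fun s hs ε hε => by
      obtain ⟨δ, hδ, h⟩ := hloc s hs
      exact barrier_exists hm hK p hℓ hδ h hε) ht
  unfold halfDistSq at h1
  have e : (b - t) / (b - a) * (dist p (γ a) ^ 2 / 2) + (t - a) / (b - a) * (dist p (γ b) ^ 2 / 2)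
      - ℓ ^ 2 / 2 * ((t - a) * (b - t)) = ((b - t) / (b - a) * dist p (γ a) ^ 2 +
      (t - a) / (b - a) * dist p (γ b) ^ 2 - ℓ ^ 2 * ((t - a) * (b - t))) / 2 := by ring
  rw [e] at h1
  linarith

/-- **Toponogov, concavity form**: for a curve locally minimising with constant speed `ℓ` on the
open interval of a convex set. -/
theorem toponogov_concaveOn (hm : ExM M) (hK : HasNonnegSectionalCurvature n M) (p : M) {γ : ℝ → M}
    {ℓ : ℝ} (hℓ : 0 < ℓ) {I : Set ℝ} (hI : Convex ℝ I) (hc : ContinuousOn γ I)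
    (hloc : ∀ a b, a < b → Icc a b ⊆ I → LocMin γ ℓ a b) :
    ConcaveOn ℝ I (fun t => dist p (γ t) ^ 2 - ℓ ^ 2 * t ^ 2) := by
  refine ⟨hI, ?_⟩
  -- reduce to `x < y`
  have main : ∀ x ∈ I, ∀ y ∈ I, x < y → ∀ a b : ℝ, 0 ≤ a → 0 ≤ b → a + b = 1 →
      a • (dist p (γ x) ^ 2 - ℓ ^ 2 * x ^ 2) + b • (dist p (γ y) ^ 2 - ℓ ^ 2 * y ^ 2) ≤
        dist p (γ (a • x + b • y)) ^ 2 - ℓ ^ 2 * (a • x + b • y) ^ 2 := by
    intro x hx y hy hxy a b ha hb hab
    have hsub : Icc x y ⊆ I := by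
      rw [← segment_eq_Icc hxy.le]
      exact hI.segment_subset hx hy
    have hyx : 0 < y - x := sub_pos.2 hxy
    have e1 : y - (a • x + b • y) = a * (y - x) := by
      simp only [smul_eq_mul]
      have : b = 1 - a := by linarith
      rw [this]; ring
    have e2 : (a • x + b • y) - x = b * (y - x) := by
      simp only [smul_eq_mul]
      have : a = 1 - b := by linarith
      rw [this]; ring
    have ht : a • x + b • y ∈ Icc x y :=
      ⟨by have := mul_nonneg hb hyx.le; linarith, by have := mul_nonneg ha hyx.le; linarith⟩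
    have h1 := toponogov_chord hm hK p hℓ hxy (hc.mono hsub) (hloc x y hxy hsub) ht
    rw [e1, e2, mul_div_assoc, div_self hyx.ne', mul_div_assoc, div_self hyx.ne', mul_one,
      mul_one] at h1
    simp only [smul_eq_mul] at h1 ⊢
    have e3 : a * (dist p (γ x) ^ 2 - ℓ ^ 2 * x ^ 2) + b * (dist p (γ y) ^ 2 - ℓ ^ 2 * y ^ 2) +
        ℓ ^ 2 * (a * x + b * y) ^ 2 = a * dist p (γ x) ^ 2 + b * dist p (γ y) ^ 2
        - ℓ ^ 2 * (b * (y - x) * (a * (y - x))) := by
      have : b = 1 - a := by linarith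
      rw [this]; ring
    linarith
  intro x hx y hy a b ha hb hab
  rcases lt_trichotomy x y with h | h | h
  · exact main x hx y hy h a b ha hb hab
  · subst h
    rw [← add_smul, ← add_smul, hab, one_smul, one_smul]
  · have h1 := main y hy x hx h b a hb ha (by linarith)
    rw [add_comm (b • y), add_comm (b • _)] at h1
    exact h1



end Crest.Agent.R249.Top330
end
end

-- ▼ part R249/Top5_330

/-!
R249, leaf TOP (helper330), file 5: Toponogov for the geodesics of R226's `GeoData`, and the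
point-on-side inequality in the class setting of the templates.
-/

set_option autoImplicit false
set_option maxSynthPendingDepth 3
set_option linter.unusedSectionVars false

open Bundle Set Filter Topology Metric
open scoped Manifold ContDiff NNReal
open Crest.GeometryTopology.CoordMetric Crest.GeometryTopology.ChartCurvature
open Crest.GeometryTopology.MTW
open Crest.Agent.R247.Sm879 Crest.Agent.R247.Ray97

noncomputable section

namespace Crest.Agent.R249.Top330

section geo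
variable {n : ℕ} {M : Type*} [MetricSpace M] [ChartedSpace (EuclideanSpace ℝ (Fin n)) M]
  [IsManifold (𝓡 n) ∞ M]
  [RiemannianBundle (fun p : M => TangentSpace (𝓡 n) p)]
  [IsContMDiffRiemannianBundle (𝓡 n) ∞ (EuclideanSpace ℝ (Fin n)) (fun p : M => TangentSpace (𝓡 n) p)]
  [IsRiemannianManifold (𝓡 n) M] [ProperSpace M]

/-- **Toponogov for complete geodesics**. -/
theorem toponogov_ex (G : Crest.Agent.R226.GeoData n M) (hm : ExM M)
    (hK : HasNonnegSectionalCurvature n M) (p x : M) (v : TangentSpace (𝓡 n) x) :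
    ConcaveOn ℝ univ (fun t : ℝ => dist p (G.ex x (t • v)) ^ 2 - ‖v‖ ^ 2 * t ^ 2) := by
  rcases (norm_nonneg v).eq_or_lt with h0 | h0
  · -- constant curve
    have hv : v = 0 := norm_eq_zero.1 h0.symm
    have : (fun t : ℝ => dist p (G.ex x (t • v)) ^ 2 - ‖v‖ ^ 2 * t ^ 2) =
        fun _ => dist p x ^ 2 := by
      ext t
      rw [hv, smul_zero, G.ex_zero, norm_zero]
      ring
    rw [this]
    exact concaveOn_const _ convex_univ
  · have hc : Continuous fun t : ℝ => G.ex x (t • v) := by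
      have : LipschitzWith (Real.toNNReal ‖v‖) fun t : ℝ => G.ex x (t • v) := by
        refine LipschitzWith.of_dist_le_mul fun s t => ?_
        rw [Real.coe_toNNReal _ h0.le, Real.dist_eq, mul_comm]
        exact G.dist_le x v s t
      exact this.continuous
    refine toponogov_concaveOn hm hK p h0 convex_univ hc.continuousOn fun a b _ _ s _ => ?_
    have hr := G.r₀_pos
    refine ⟨G.r₀ / (4 * ‖v‖), by positivity, fun u hu w hw => ?_⟩
    rw [G.dist_eq x v u w, mul_comm]
    have h1 : |u - w| ≤ 2 * (G.r₀ / (4 * ‖v‖)) := by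
      rw [abs_le]; constructor <;> linarith [hu.1, hu.2, hw.1, hw.2]
    calc |u - w| * ‖v‖ ≤ 2 * (G.r₀ / (4 * ‖v‖)) * ‖v‖ :=
          mul_le_mul_of_nonneg_right h1 h0.le
      _ = G.r₀ / 2 := by field_simp; ring
      _ < G.r₀ := by linarith

end geo

section block
variable {n : ℕ} {M : Type*} [MetricSpace M] [CompleteSpace M] [ConnectedSpace M]
    [ChartedSpace (EuclideanSpace ℝ (Fin n)) M]
    [IsManifold 𝓘(ℝ, EuclideanSpace ℝ (Fin n)) ∞ M]
    [RiemannianBundle (fun x : M => TangentSpace 𝓘(ℝ, EuclideanSpace ℝ (Fin n)) x)]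
    [IsContMDiffRiemannianBundle 𝓘(ℝ, EuclideanSpace ℝ (Fin n)) ∞ (EuclideanSpace ℝ (Fin n))
      (fun x : M => TangentSpace 𝓘(ℝ, EuclideanSpace ℝ (Fin n)) x)]
    [IsRiemannianManifold 𝓘(ℝ, EuclideanSpace ℝ (Fin n)) M]



end block

end Crest.Agent.R249.Top330
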