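import Crest.Agent.R249.AsmD_832
import Crest.Agent.R249.Trans_920
import Crest.Agent.R249.D4Sg_789
import Crest.Agent.R249.D4An_789
import Crest.Agent.R249.Prj5_832
import Crest.Agent.R249.Top5_330
import Crest.Agent.R226.Semiconcave_345
import Crest.Agent.R226.GeoThm_542
import Crest.Agent.R226.NearDiagFinal_996
import Crest.Agent.R249.Alg2_104
import Crest.Agent.R249.Sch1_104
import Crest.Agent.R249.Vf2_281
import Crest.Agent.R247.Bs2_84
import Crest.Agent.R249.Grn1_324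
import Crest.Agent.R247.Mcp2_688
import Mathlib
import Crest.Agent.R249.Diam1_709
import Crest.Agent.R247.Bgr3_546
import Crest.Agent.R249.AsmD3_832
import Crest.Agent.R249.D2o_174
import Crest.Agent.R249.Cov9_802
import Mathlib.Topology.Homotopy.Lifting
import Mathlib.AlgebraicTopology.FundamentalGroupoid.SimplyConnected
import Crest.Agent.R249.Pul3_47
import Mathlib.Analysis.Normed.Module.Connected
import Crest.Agent.R249.Grn6_324

-- ▼ part R249/AsmD4_832
section

/-!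
# R249 (S0386), part D: `TransStmt` (helper832), from `weyl_map` of helper920
-/

set_option autoImplicit false
set_option maxSynthPendingDepth 3
noncomputable section
open Set Filter Topology Bundle MeasureTheory Metric
open scoped ContDiff Manifold ENNReal NNReal
open Crest.GeometryTopology.CoordMetric Crest.GeometryTopology.ChartCurvature
  Crest.GeometryTopology.RicciEnergy Crest.GeometryTopology.PointedLimit
open Crest.Agent.R247.Scal386 Crest.Agent.R247.Bo84
open Crest.Agent.R249.D1Def104 Crest.Agent.R249.Ul174 Crest.Agent.R249.Pul47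
  Crest.Agent.R249.Len47 Crest.Agent.R249.Trans920

namespace Crest.Agent.R249.AsmD832

/-- **TransStmt holds.** -/
theorem transStmt : TransStmt := by
  intro M _ _ _ _ _ q lam C C' hH hCo hW y0 hy0
  obtain ⟨x, hx, hxy⟩ := UL.exists_rep (C.e.symm y0)
  obtain ⟨R, hR, hRw⟩ := hH x hx (by rw [hxy]; exact hy0.2)
  choose w hw1 hw2 using hRw
  have hmem : UL.mk x hx ∈ C.e.source := by rw [hxy]; exact C.e.map_target hy0.1
  have hy : C.e (UL.mk x hx) = y0 := by rw [hxy, C.e.right_inv hy0.1]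
  have h1 := fun a => hW x hx R (w a) (fun y => C'.e y a) hR hmem (hw1 a) (hw2 a)
  choose ρ hρ hρ1 hρ2 using h1
  have hop : IsOpen {y | y ∈ C.e.target ∧ C.e.symm y ∈ C'.e.source} :=
    C.e.isOpen_inter_preimage_symm C'.e.open_source
  obtain ⟨ρ0, hρ0, hρ0'⟩ := Metric.isOpen_iff.1 hop y0 hy0
  obtain ⟨ρ', hρ', hle, hle'⟩ : ∃ ρ' : ℝ, 0 < ρ' ∧ ρ' ≤ ρ0 ∧ ∀ a, ρ' ≤ ρ a := by
    refine ⟨min ρ0 (Finset.univ.inf' Finset.univ_nonempty ρ), lt_min hρ0 ?_, min_le_left _ _,
      fun a => (min_le_right _ _).trans (Finset.inf'_le _ (Finset.mem_univ a))⟩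
    exact (Finset.lt_inf'_iff _).2 fun a _ => hρ a
  have hsub : ball y0 ρ' ⊆ {y | y ∈ C.e.target ∧ C.e.symm y ∈ C'.e.source} :=
    (ball_subset_ball hle).trans hρ0'
  have hU : ball y0 ρ' ⊆ C.e.target := fun y hy => (hsub hy).1
  have hn : ∀ y ∈ ball y0 ρ', C.e.target ∈ 𝓝 y := fun y hy =>
    C.e.open_target.mem_nhds (hU hy)
  have h2 : ContDiffOn ℝ ∞ (fun y => C'.e (C.e.symm y)) (ball y0 ρ') := by
    refine weyl_map isOpen_ball (h := fun z => (Matrix.of fun i j => inverseField C.h z i j))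
      (J := fun z => Real.sqrt (C.h z).det) ?_ ?_ ?_ ?_ ?_ ?_ ?_
    · intro i j y hy
      exact (contDiffAt_inv C.riem (hU hy) i j).contDiffWithinAt
    · intro y hy
      exact (C.riem.posDef y (hU hy)).inv
    · intro y hy
      exact (contDiffAt_sqrt_det C.riem (hU hy)).contDiffWithinAt
    · intro y hy
      exact Real.sqrt_pos.2 (C.riem.posDef y (hU hy)).det_pos
    · intro j φ hφ hφc hφs
      exact hCo j φ hφ hφc (hφs.trans hU)
    · have hc : ContinuousOn (fun y => C'.e (C.e.symm y))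
          {y | y ∈ C.e.target ∧ C.e.symm y ∈ C'.e.source} :=
        C'.e.continuousOn.comp (C.e.continuousOn_symm.mono fun y hy => hy.1) fun y hy => hy.2
      exact hc.mono hsub
    · intro a φ hφ hφc hφs
      refine hρ2 a φ hφ hφc (hφs.trans ?_)
      rw [hy]
      exact ball_subset_ball (hle' a)
  exact (h2.contDiffAt (isOpen_ball.mem_nhds (mem_ball_self hρ'))).contDiffWithinAt

end Crest.Agent.R249.AsmD832
end
end

-- ▼ part R249/D4Lm_789
section

/-!
R249, part D4 (helper789), file 7: the local smooth map around a point at which `(M, F)` is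
almost flat at scale `δ`.
-/

set_option autoImplicit false
set_option linter.unusedSectionVars false

open MeasureTheory Set Filter Metric Bundle
open scoped ContDiff ENNReal NNReal Topology Manifold RealInnerProductSpace
open Crest.GeometryTopology.MTW
open Crest.Agent.R226

namespace Crest.Agent.R249.D4_789

noncomputable section

/-- `(M, F)` is flat up to `σ² δ` at scale `δ` near `p`: on the ball of radius `15 δ` the map
`f` is a `σ² δ`-isometry, almost onto the ball of radius `8 δ`, and `F` is, up to `σ² δ`, an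
affine function of `f` with linear part `B` (bilipschitz with constants `c₀`, `C₀`). -/
structure FlatAt (n : ℕ) {M W : Type*} [MetricSpace M] [NormedAddCommGroup W] [NormedSpace ℝ W]
    (δ σ c₀ C₀ : ℝ) (F : M → W) (p : M) where
  /-- almost isometry -/
  f : M → EuclideanSpace ℝ (Fin n)
  /-- linear part -/
  B : EuclideanSpace ℝ (Fin n) →L[ℝ] W
  lo : ∀ c, c₀ * ‖c‖ ≤ ‖B c‖
  hi : ∀ c, ‖B c‖ ≤ C₀ * ‖c‖
  iso : ∀ x y, dist x p < 15 * δ → dist y p < 15 * δ → |‖f x - f y‖ - dist x y| ≤ σ ^ 2 * δ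
  lin : ∀ x y, dist x p < 15 * δ → dist y p < 15 * δ → ‖F x - F y - B (f x - f y)‖ ≤ σ ^ 2 * δ
  dense : ∀ c, ‖c - f p‖ ≤ 8 * δ → ∃ y, dist y p < 15 * δ ∧ ‖f y - c‖ ≤ σ ^ 2 * δ

variable {n : ℕ} {M : Type*} [MetricSpace M] [ChartedSpace (EuclideanSpace ℝ (Fin n)) M]
  [IsManifold (𝓡 n) ∞ M] [RiemannianBundle (fun p : M => TangentSpace (𝓡 n) p)]
variable {W : Type*} [NormedAddCommGroup W] [NormedSpace ℝ W]

local notation "𝔼" => EuclideanSpace ℝ (Fin n)

/-- what the smoothing theorem gives at `x` -/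
structure Sm (G : GeoData n M) (q : M) (ε R : ℝ) (v : M → ℝ) (x : M) : Prop where
  near : |v x - dist q x ^ 2 / 2| ≤ ε
  sup : ∀ w : TangentSpace (𝓡 n) x, ‖w‖ ≤ R →
    dist q (G.ex x w) ^ 2 / 2 - dist q x ^ 2 / 2 - ‖w‖ ^ 2 / 2 - ε ≤ dd n v x w
  bd : ∀ w : TangentSpace (𝓡 n) x, |dd n v x w| ≤ (dist q x + ε) * ‖w‖

/-- the differential as a linear form on the tangent space -/
def dl (v : M → ℝ) (x : M) : TangentSpace (𝓡 n) x →ₗ[ℝ] ℝ :=
  ((dd n v x : 𝔼 →L[ℝ] ℝ) : 𝔼 →ₗ[ℝ] ℝ)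

variable {G : GeoData n M} {δ σ c₀ C₀ : ℝ} {F : M → W} {p : M}

/-- **covector estimate** -/
theorem dd_near (hH : Hinge G) (fl : FlatAt n δ σ c₀ C₀ F p) (hδ : 0 < δ) (hσ0 : 0 < σ)
    (hσ1 : σ ^ 2 ≤ 1 / 9) {x q z : M} (hx : dist x p < 2 * δ) (hq : dist q p < 3 * δ)
    (hz : dist z x ≤ 2 * δ) {w : TangentSpace (𝓡 n) x} (hw : w ∈ G.K x) (hwz : G.ex x w = z)
    {v : M → ℝ} {ε R : ℝ} (hε : 0 ≤ ε) (hε1 : ε ≤ σ ^ 2 * δ ^ 2) (hε2 : ε ≤ σ ^ 2 * δ)
    (hR : 15 * δ ≤ R) (hv : Sm G q ε R v x) :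
    |dd n v x w + ⟪fl.f q - fl.f x, fl.f z - fl.f x⟫| ≤ 2700 * σ * δ ^ 2 := by
  set f := fl.f with hf
  have hs0 : 0 ≤ σ ^ 2 := sq_nonneg σ
  have hsδ : σ ^ 2 * δ ≤ δ / 9 := by nlinarith
  have hsδ0 : 0 ≤ σ ^ 2 * δ := by positivity
  have hp0 : dist p p < 15 * δ := by rw [dist_self]; linarith
  have hx15 : dist x p < 15 * δ := by linarith
  have hq15 : dist q p < 15 * δ := by linarith
  have hzp : dist z p < 4 * δ := by
    have := dist_triangle z x p; linarith
  have hz15 : dist z p < 15 * δ := by linarith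
  -- the antipode
  have hfx := (abs_le.1 (fl.iso x p hx15 hp0)).2
  have hfq := (abs_le.1 (fl.iso q p hq15 hp0)).2
  obtain ⟨q', hq'15, hq'⟩ := fl.dense ((2 : ℝ) • f x - f q) (by
    have h1 : (2 : ℝ) • f x - f q - f p = (2 : ℝ) • (f x - f p) - (f q - f p) := by
      module
    rw [← hf, h1]
    have h2 := norm_sub_le ((2 : ℝ) • (f x - f p)) (f q - f p)
    rw [norm_smul, Real.norm_of_nonneg (by norm_num : (0 : ℝ) ≤ 2)] at h2
    linarith)
  rw [← hf] at hq'
  have hq'p : dist q' p ≤ 9 * δ := by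
    have h1 := (abs_le.1 (fl.iso q' p hq'15 hp0)).1
    rw [← hf] at h1
    have h2 : f q' - f p = (f q' - ((2 : ℝ) • f x - f q)) + ((2 : ℝ) • (f x - f p) - (f q - f p)) := by
      module
    have h3 : ‖f q' - f p‖ ≤ σ ^ 2 * δ + (2 * (2 * δ + σ ^ 2 * δ) + (3 * δ + σ ^ 2 * δ)) := by
      rw [h2]
      refine (norm_add_le _ _).trans (add_le_add hq' ?_)
      have h4 := norm_sub_le ((2 : ℝ) • (f x - f p)) (f q - f p)
      rw [norm_smul, Real.norm_of_nonneg (by norm_num : (0 : ℝ) ≤ 2)] at h4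
      linarith
    linarith
  obtain ⟨u, hu, huq⟩ := exists_min (G := G) x q'
  have hun : ‖u‖ = dist x q' := by rw [norm_of_K hu, huq]
  have hwn : ‖w‖ = dist x z := by rw [norm_of_K hw, hwz]
  have dxq' : dist x q' ≤ 11 * δ := by
    have := dist_triangle_right x q' p; linarith
  have dxq : dist q x ≤ 5 * δ := by
    have := dist_triangle_right q x p; linarith
  have dxz : dist x z ≤ 2 * δ := by rw [dist_comm]; exact hz
  have dqq' : dist q q' ≤ 12 * δ := by
    have := dist_triangle_right q q' p; linarith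
  have dqz : dist q z ≤ 7 * δ := by
    have := dist_triangle_right q z p; linarith
  have dq'z : dist q' z ≤ 13 * δ := by
    have := dist_triangle_right q' z p; linarith
  have h1 := hv.sup u (by rw [hun]; linarith)
  have h2 := hv.sup w (by rw [hwn]; linarith)
  rw [huq, hun] at h1
  rw [hwz, hwn] at h2
  have h3 := hH x u w hu
  rw [huq, hwz] at h3
  have hfin : FiniteDimensional ℝ (TangentSpace (𝓡 n) x) := TB616.finDim x
  have hsL : σ ^ 2 * δ ≤ σ ^ 2 * (15 * δ) := by nlinarith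
  have key := angle (V := TangentSpace (𝓡 n) x) (W := 𝔼) (dl v x) u w (f q - f x) (f q' - f x)
    (f z - f x) (L := 15 * δ) (σ := σ) (ε := ε) (dx := dist q x) (dy := dist x q')
    (dz := dist x z) (dxy := dist q q') (dxz := dist q z) (dyz := dist q' z)
    (by positivity) hσ0.le (by nlinarith) hε (by nlinarith) (by linarith) dist_nonneg
    (by linarith) dist_nonneg (by linarith) dist_nonneg (by linarith) dist_nonneg (by linarith)
    dist_nonneg (by linarith) dist_nonneg (by linarith)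
    ((fl.iso q x hq15 hx15).trans hsL)
    (by rw [dist_comm x q']; exact (fl.iso q' x hq'15 hx15).trans hsL)
    (by rw [dist_comm x z]; exact (fl.iso z x hz15 hx15).trans hsL)
    (by rw [sub_sub_sub_cancel_right]; exact (fl.iso q q' hq15 hq'15).trans hsL)
    (by rw [sub_sub_sub_cancel_right]; exact (fl.iso q z hq15 hz15).trans hsL)
    (by rw [sub_sub_sub_cancel_right]; exact (fl.iso q' z hq'15 hz15).trans hsL)
    (by
      have h4 : f q - f x + (f q' - f x) = f q' - ((2 : ℝ) • f x - f q) := by module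
      rw [h4]
      exact hq'.trans hsL)
    hun hwn (fun w' => hv.bd w') h1 h2 h3
  have h5 : 12 * σ * (15 * δ) ^ 2 = 2700 * σ * δ ^ 2 := by ring
  rw [h5] at key
  exact key

/-- coordinates -/
theorem sum_close (a : Fin n → ℝ) (c : 𝔼) {K : ℝ}
    (h : ∀ j, |a j - ⟪EuclideanSpace.single j (1 : ℝ), c⟫| ≤ K) :
    ‖∑ j, a j • EuclideanSpace.single j (1 : ℝ) - c‖ ≤ n * K := by
  have h1 : c = ∑ j, (⟪EuclideanSpace.single j (1 : ℝ), c⟫ : ℝ) • EuclideanSpace.single j (1 : ℝ) := by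
    have := (EuclideanSpace.basisFun (Fin n) ℝ).sum_repr' c
    simpa using this.symm
  have h2 : ∑ j, a j • EuclideanSpace.single j (1 : ℝ) - c =
      ∑ j, (a j - ⟪EuclideanSpace.single j (1 : ℝ), c⟫) • (EuclideanSpace.single j (1 : ℝ) : 𝔼) := by
    conv_lhs => rw [h1]
    rw [← Finset.sum_sub_distrib]
    exact Finset.sum_congr rfl fun j _ => (sub_smul _ _ _).symm
  rw [h2]
  calc ‖∑ j, (a j - ⟪EuclideanSpace.single j (1 : ℝ), c⟫) • (EuclideanSpace.single j (1 : ℝ) : 𝔼)‖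
      ≤ ∑ j, ‖(a j - ⟪EuclideanSpace.single j (1 : ℝ), c⟫) • (EuclideanSpace.single j (1 : ℝ) : 𝔼)‖ :=
        norm_sum_le _ _
    _ ≤ ∑ _j : Fin n, K := by
        refine Finset.sum_le_sum fun j _ => ?_
        rw [norm_smul, Real.norm_eq_abs, EuclideanSpace.norm_single, norm_one, mul_one]
        exact h j
    _ = n * K := by simp

/-- the algebra behind the `C⁰` estimate of the local map -/
theorem coord_est {E X Qm Qp : 𝔼} {δ τ sm sp : ℝ} (hδ : 0 < δ) (hτ0 : 0 ≤ τ) (hτ : τ ≤ δ / 9)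
    (hE : ‖E‖ = 1) (hX : ‖X‖ ≤ 2 * δ + τ) (hm : ‖Qm + δ • E‖ ≤ τ) (hp : ‖Qp - δ • E‖ ≤ τ)
    (h1 : |sm - ‖Qm - X‖ ^ 2 / 2| ≤ 9 * τ * δ) (h2 : |sp - ‖Qp - X‖ ^ 2 / 2| ≤ 9 * τ * δ) :
    |(sm - sp) / (2 * δ) - ⟪E, X⟫| ≤ 14 * τ := by
  have em : ‖Qm - X‖ ^ 2 = ‖(Qm + δ • E) + (-(δ • E) - X)‖ ^ 2 := by
    congr 2; abel
  have ep : ‖Qp - X‖ ^ 2 = ‖(Qp - δ • E) + (δ • E - X)‖ ^ 2 := by
    congr 2; abel
  rw [norm_add_sq_real] at em ep
  have nE : ‖δ • E‖ = δ := by rw [norm_smul, hE, mul_one, Real.norm_of_nonneg hδ.le]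
  have b1 : ‖-(δ • E) - X‖ ≤ 4 * δ := by
    have := norm_sub_le (-(δ • E)) X
    rw [norm_neg, nE] at this
    linarith
  have b2 : ‖δ • E - X‖ ≤ 4 * δ := by
    have := norm_sub_le (δ • E) X
    rw [nE] at this
    linarith
  have c1 : |⟪Qm + δ • E, -(δ • E) - X⟫| ≤ τ * (4 * δ) :=
    (abs_real_inner_le_norm _ _).trans (mul_le_mul hm b1 (norm_nonneg _) hτ0)
  have c2 : |⟪Qp - δ • E, δ • E - X⟫| ≤ τ * (4 * δ) :=
    (abs_real_inner_le_norm _ _).trans (mul_le_mul hp b2 (norm_nonneg _) hτ0)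
  have d1 : ‖Qm + δ • E‖ ^ 2 ≤ τ * δ := by
    have := mul_le_mul hm hm (norm_nonneg _) hτ0
    nlinarith
  have d2 : ‖Qp - δ • E‖ ^ 2 ≤ τ * δ := by
    have := mul_le_mul hp hp (norm_nonneg _) hτ0
    nlinarith
  have d1' : 0 ≤ ‖Qm + δ • E‖ ^ 2 := sq_nonneg _
  have d2' : 0 ≤ ‖Qp - δ • E‖ ^ 2 := sq_nonneg _
  have e1 : ‖-(δ • E) - X‖ ^ 2 = δ ^ 2 + 2 * (δ * ⟪E, X⟫) + ‖X‖ ^ 2 := by
    rw [norm_sub_sq_real, norm_neg, nE, inner_neg_left, inner_smul_left]
    simp
  have e2 : ‖δ • E - X‖ ^ 2 = δ ^ 2 - 2 * (δ * ⟪E, X⟫) + ‖X‖ ^ 2 := by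
    rw [norm_sub_sq_real, nE, inner_smul_left]
    simp
  rw [e1] at em
  rw [e2] at ep
  rw [abs_le] at c1 c2 h1 h2
  obtain ⟨c11, c12⟩ := c1
  obtain ⟨c21, c22⟩ := c2
  obtain ⟨h11, h12⟩ := h1
  obtain ⟨h21, h22⟩ := h2
  have key : |(sm - sp) - 2 * δ * ⟪E, X⟫| ≤ 28 * τ * δ := by
    rw [abs_le]
    constructor <;> nlinarith
  have h6 : (sm - sp) / (2 * δ) - ⟪E, X⟫ = ((sm - sp) - 2 * δ * ⟪E, X⟫) / (2 * δ) := by
    field_simp
  rw [h6, abs_div, abs_of_pos (by positivity : (0 : ℝ) < 2 * δ), div_le_iff₀ (by positivity)]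
  calc |(sm - sp) - 2 * δ * ⟪E, X⟫| ≤ 28 * τ * δ := key
    _ = 14 * τ * (2 * δ) := by ring

/-- the algebra behind the differential of the local map -/
theorem coord_est' {E X Qm Qp Z : 𝔼} {δ τ K dm dp : ℝ} (hδ : 0 < δ) (hτ0 : 0 ≤ τ)
    (hZ : ‖Z‖ ≤ 3 * δ) (hm : ‖Qm + δ • E‖ ≤ τ) (hp : ‖Qp - δ • E‖ ≤ τ)
    (h1 : |dm + ⟪Qm - X, Z⟫| ≤ K) (h2 : |dp + ⟪Qp - X, Z⟫| ≤ K) :
    |(dm - dp) / (2 * δ) - ⟪E, Z⟫| ≤ K / δ + 3 * τ := by
  have e : dm - dp - 2 * δ * ⟪E, Z⟫ = (dm + ⟪Qm - X, Z⟫) - (dp + ⟪Qp - X, Z⟫) +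
      (⟪Qp - δ • E, Z⟫ - ⟪Qm + δ • E, Z⟫) := by
    simp only [inner_sub_left, inner_add_left, inner_smul_left]
    simp
    ring
  have c1 : |⟪Qm + δ • E, Z⟫| ≤ τ * (3 * δ) :=
    (abs_real_inner_le_norm _ _).trans (mul_le_mul hm hZ (norm_nonneg _) hτ0)
  have c2 : |⟪Qp - δ • E, Z⟫| ≤ τ * (3 * δ) :=
    (abs_real_inner_le_norm _ _).trans (mul_le_mul hp hZ (norm_nonneg _) hτ0)
  have key : |dm - dp - 2 * δ * ⟪E, Z⟫| ≤ 2 * K + 6 * τ * δ := by
    rw [e]
    rw [abs_le] at *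
    constructor <;> linarith [c1.1, c1.2, c2.1, c2.2, h1.1, h1.2, h2.1, h2.2]
  have h6 : (dm - dp) / (2 * δ) - ⟪E, Z⟫ = (dm - dp - 2 * δ * ⟪E, Z⟫) / (2 * δ) := by
    field_simp
  rw [h6, abs_div, abs_of_pos (by positivity : (0 : ℝ) < 2 * δ), div_le_iff₀ (by positivity)]
  calc |dm - dp - 2 * δ * ⟪E, Z⟫| ≤ 2 * K + 6 * τ * δ := key
    _ = (K / δ + 3 * τ) * (2 * δ) := by field_simp; ring

end

end Crest.Agent.R249.D4_789
end

-- ▼ part R249/D4Lp_789
section

/-!
R249, part D4 (helper789), file 8: existence of the local smooth map.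
-/

set_option autoImplicit false
set_option linter.unusedSectionVars false

open MeasureTheory Set Filter Metric Bundle
open scoped ContDiff ENNReal NNReal Topology Manifold RealInnerProductSpace
open Crest.GeometryTopology.MTW
open Crest.Agent.R226

namespace Crest.Agent.R249.D4_789

noncomputable section

variable {n : ℕ} {M : Type*} [MetricSpace M] [ChartedSpace (EuclideanSpace ℝ (Fin n)) M]
  [IsManifold (𝓡 n) ∞ M] [RiemannianBundle (fun p : M => TangentSpace (𝓡 n) p)]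
variable {W : Type*} [NormedAddCommGroup W] [NormedSpace ℝ W]

local notation "𝔼" => EuclideanSpace ℝ (Fin n)

theorem dd_const_smul (c : ℝ) {f : M → W} {x : M} (hf : DA n f x) (w : 𝔼) :
    dd n (fun y => c • f y) x w = c • dd n f x w := by
  rw [dd_smul (DA.const c x) hf, dd_const]
  simp

theorem dd_smul_const {a : M → ℝ} (c : W) {x : M} (ha : DA n a x) (w : 𝔼) :
    dd n (fun y => a y • c) x w = dd n a x w • c := by
  rw [dd_smul ha (DA.const c x), dd_const]
  simp

variable [IsContMDiffRiemannianBundle (𝓡 n) ∞ (EuclideanSpace ℝ (Fin n))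
    (fun p : M => TangentSpace (𝓡 n) p)]
  [IsRiemannianManifold (𝓡 n) M] [CompactSpace M]

variable {G : GeoData n M} {δ σ c₀ C₀ : ℝ} {F : M → W} {p : M}

/-- **Local smooth map.** -/
theorem exists_local_map (hH : Hinge G) (fl : FlatAt n δ σ c₀ C₀ F p) (hδ : 0 < δ)
    (hσ0 : 0 < σ) (hσ1 : σ ^ 2 ≤ 1 / 9) (hC : 0 ≤ C₀) :
    ∃ Ψ : M → W, ContMDiff (𝓡 n) 𝓘(ℝ, W) ∞ Ψ ∧ ∀ x, dist x p < 2 * δ →
      ‖Ψ x - F x‖ ≤ (3000 * n * C₀ + 1) * (σ * δ) ∧
      ∀ z, dist z x ≤ 2 * δ → ∀ w : TangentSpace (𝓡 n) x, w ∈ G.K x → G.ex x w = z →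
        ‖dd n Ψ x w - (F z - F x)‖ ≤ (3000 * n * C₀ + 1) * (σ * δ) := by
  have hs0 : 0 < σ ^ 2 := by positivity
  have hσ1' : σ ≤ 1 := by nlinarith
  have hσσ : σ ^ 2 ≤ σ := by nlinarith
  have hsδ : σ ^ 2 * δ ≤ δ / 9 := by nlinarith
  have hsδ0 : 0 < σ ^ 2 * δ := by positivity
  have hσδ : σ ^ 2 * δ ≤ σ * δ := mul_le_mul_of_nonneg_right hσσ hδ.le
  have hp0 : dist p p < 15 * δ := by rw [dist_self]; linarith
  have nE : ∀ j : Fin n, ‖(EuclideanSpace.single j (1 : ℝ) : 𝔼)‖ = 1 := fun j => by simp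
  -- the points
  have hQ : ∀ (s : ℝ), |s| ≤ δ → ∀ j : Fin n, ∃ q, dist q p < 3 * δ ∧
      ‖fl.f q - fl.f p - s • (EuclideanSpace.single j (1 : ℝ) : 𝔼)‖ ≤ σ ^ 2 * δ := by
    intro s hs j
    obtain ⟨q, hq, hq'⟩ := fl.dense (fl.f p + s • (EuclideanSpace.single j (1 : ℝ) : 𝔼)) (by
      rw [add_sub_cancel_left, norm_smul, nE, mul_one, Real.norm_eq_abs]
      linarith)
    rw [← sub_sub] at hq'
    refine ⟨q, ?_, hq'⟩
    have h1 := (abs_le.1 (fl.iso q p hq hp0)).1
    have h2 : ‖fl.f q - fl.f p‖ ≤ σ ^ 2 * δ + |s| := by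
      have h3 : fl.f q - fl.f p = (fl.f q - fl.f p - s • (EuclideanSpace.single j (1 : ℝ) : 𝔼)) +
          s • (EuclideanSpace.single j (1 : ℝ) : 𝔼) := by abel
      rw [h3]
      refine (norm_add_le _ _).trans (add_le_add hq' ?_)
      rw [norm_smul, nE, mul_one, Real.norm_eq_abs]
    linarith
  choose qp hqp hqp' using hQ δ (abs_of_pos hδ).le
  choose qm hqm hqm' using hQ (-δ) (by rw [abs_neg, abs_of_pos hδ])
  set ε : ℝ := min (σ ^ 2 * δ ^ 2) (σ ^ 2 * δ) with hε
  have hε0 : 0 < ε := by positivity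
  have hε1 : ε ≤ σ ^ 2 * δ ^ 2 := min_le_left _ _
  have hε2 : ε ≤ σ ^ 2 * δ := min_le_right _ _
  choose vp hvp hvp' using fun j => exists_smooth_dist hH (qp j) (R := 15 * δ) hε0
  choose vm hvm hvm' using fun j => exists_smooth_dist hH (qm j) (R := 15 * δ) hε0
  have Sp : ∀ j x, Sm G (qp j) ε (15 * δ) (vp j) x := fun j x =>
    ⟨(hvp' j x).1, (hvp' j x).2.1, (hvp' j x).2.2⟩
  have Sm' : ∀ j x, Sm G (qm j) ε (15 * δ) (vm j) x := fun j x =>
    ⟨(hvm' j x).1, (hvm' j x).2.1, (hvm' j x).2.2⟩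
  -- the map
  set A : M → 𝔼 := fun x => ∑ j, ((2 * δ)⁻¹ • (vm j x - vp j x)) •
    (EuclideanSpace.single j (1 : ℝ) : 𝔼) with hA
  have hAs : ContMDiff (𝓡 n) 𝓘(ℝ, 𝔼) ∞ A := by
    refine contMDiff_finsetSum fun j _ => ?_
    have e1 : ContMDiff (𝓡 n) 𝓘(ℝ) ∞ (fun _ : M => (2 * δ)⁻¹) := contMDiff_const
    have e2 : ContMDiff (𝓡 n) 𝓘(ℝ, 𝔼) ∞ (fun _ : M => (EuclideanSpace.single j (1 : ℝ) : 𝔼)) :=
      contMDiff_const
    exact (e1.smul ((hvm j).sub (hvp j))).smul e2
  have hΨs : ContMDiff (𝓡 n) 𝓘(ℝ, W) ∞ (fun x => F p + fl.B (A x)) := by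
    have e1 : ContMDiff (𝓡 n) 𝓘(ℝ, W) ∞ (fun x => fl.B (A x)) := fl.B.contMDiff.comp hAs
    have e2 : ContMDiff (𝓡 n) 𝓘(ℝ, W) ∞ (fun _ : M => F p) := contMDiff_const
    exact e2.add e1
  refine ⟨fun x => F p + fl.B (A x), hΨs, fun x hx => ?_⟩
  have hx15 : dist x p < 15 * δ := by linarith
  have hX : ‖fl.f x - fl.f p‖ ≤ 2 * δ + σ ^ 2 * δ := by
    have := (abs_le.1 (fl.iso x p hx15 hp0)).2
    linarith
  have hqp1 : ∀ j, ‖(fl.f (qp j) - fl.f p) - δ • (EuclideanSpace.single j (1 : ℝ) : 𝔼)‖ ≤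
    σ ^ 2 * δ := hqp'
  have hqm1 : ∀ j, ‖(fl.f (qm j) - fl.f p) + δ • (EuclideanSpace.single j (1 : ℝ) : 𝔼)‖ ≤
    σ ^ 2 * δ := fun j => by
      have := hqm' j
      rwa [neg_smul, sub_neg_eq_add] at this
  -- squares
  have hsq : ∀ q, dist q p < 3 * δ → ∀ v : M → ℝ, |v x - dist q x ^ 2 / 2| ≤ ε →
      |v x - ‖(fl.f q - fl.f p) - (fl.f x - fl.f p)‖ ^ 2 / 2| ≤ 9 * (σ ^ 2 * δ) * δ := by
    intro q hq v hv
    have h1 : dist q x ≤ 5 * δ := by
      have := dist_triangle_right q x p; linarith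
    rw [sub_sub_sub_cancel_right]
    have h2 := sq_near (L := 5 * δ) dist_nonneg h1 (norm_nonneg _) (by linarith)
      (fl.iso q x (by linarith) hx15)
    rw [abs_le] at h2 hv ⊢
    have h3 : ε ≤ σ ^ 2 * δ * δ := by
      have : σ ^ 2 * δ * δ = σ ^ 2 * δ ^ 2 := by ring
      rw [this]; exact hε1
    obtain ⟨a1, a2⟩ := h2
    obtain ⟨b1, b2⟩ := hv
    have h5 : 3 * (σ ^ 2 * δ * (5 * δ)) = 15 * (σ ^ 2 * δ * δ) := by ring
    have h6 : 9 * (σ ^ 2 * δ) * δ = 9 * (σ ^ 2 * δ * δ) := by ring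
    have h7 : 0 ≤ σ ^ 2 * δ * δ := by positivity
    rw [h5] at a1 a2
    rw [h6]
    constructor <;> linarith
  -- `C⁰` estimate for `A`
  have hA0 : ‖A x - (fl.f x - fl.f p)‖ ≤ n * (14 * (σ ^ 2 * δ)) := by
    refine sum_close (fun j => (2 * δ)⁻¹ • (vm j x - vp j x)) _ fun j => ?_
    have h1 := coord_est (E := EuclideanSpace.single j (1 : ℝ)) (X := fl.f x - fl.f p)
      (Qm := fl.f (qm j) - fl.f p) (Qp := fl.f (qp j) - fl.f p) (τ := σ ^ 2 * δ)
      (sm := vm j x) (sp := vp j x) hδ hsδ0.le hsδ (nE j) hX (hqm1 j) (hqp1 j)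
      (hsq (qm j) (hqm j) (vm j) (Sm' j x).near) (hsq (qp j) (hqp j) (vp j) (Sp j x).near)
    rw [smul_eq_mul, inv_mul_eq_div]
    exact h1
  have hK : (n : ℝ) * (14 * (σ ^ 2 * δ)) ≤ 3000 * n * (σ * δ) := by
    have hn : (0 : ℝ) ≤ n := Nat.cast_nonneg n
    have h0 : 0 ≤ σ * δ := by positivity
    have h1 : (14 : ℝ) * (σ ^ 2 * δ) ≤ 3000 * (σ * δ) := by linarith
    calc (n : ℝ) * (14 * (σ ^ 2 * δ)) ≤ n * (3000 * (σ * δ)) := mul_le_mul_of_nonneg_left h1 hn
      _ = 3000 * n * (σ * δ) := by ring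
  have hBk : ∀ c : 𝔼, ‖c‖ ≤ 3000 * n * (σ * δ) → ∀ e : W, ‖e‖ ≤ σ ^ 2 * δ →
      ‖fl.B c - e‖ ≤ (3000 * n * C₀ + 1) * (σ * δ) := by
    intro c hc e he
    calc ‖fl.B c - e‖ ≤ ‖fl.B c‖ + ‖e‖ := norm_sub_le _ _
      _ ≤ C₀ * (3000 * n * (σ * δ)) + σ * δ :=
          add_le_add ((fl.hi c).trans (mul_le_mul_of_nonneg_left hc hC)) (he.trans hσδ)
      _ = (3000 * n * C₀ + 1) * (σ * δ) := by ring
  constructor
  · have h1 : F p + fl.B (A x) - F x = fl.B (A x - (fl.f x - fl.f p)) -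
        (F x - F p - fl.B (fl.f x - fl.f p)) := by
      rw [map_sub]; abel
    rw [h1]
    exact hBk _ (hA0.trans hK) _ (fl.lin x p hx15 hp0)
  · intro z hz w hw hwz
    have hzp : dist z p < 4 * δ := by
      have := dist_triangle z x p; linarith
    have hz15 : dist z p < 15 * δ := by linarith
    have hZ : ‖fl.f z - fl.f x‖ ≤ 3 * δ := by
      have := (abs_le.1 (fl.iso z x hz15 hx15)).2
      linarith
    have hDm : ∀ j, DA n (vm j) x := fun j => DA.of_contMDiff (by simp) (hvm j) x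
    have hDp : ∀ j, DA n (vp j) x := fun j => DA.of_contMDiff (by simp) (hvp j) x
    have hDA : DA n A x := DA.of_contMDiff (by simp) hAs x
    have hder : ∀ w : 𝔼, dd n (fun x => F p + fl.B (A x)) x w =
        fl.B (∑ j, ((dd n (vm j) x w - dd n (vp j) x w) / (2 * δ)) •
          (EuclideanSpace.single j (1 : ℝ) : 𝔼)) := by
      intro w
      have hDB : DA n (fun x => fl.B (A x)) x := hDA.comp fl.B.differentiableAt
      rw [dd_add (f := fun _ => F p) (DA.const _ x) hDB, dd_const, zero_add, dd_clm fl.B hDA]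
      congr 1
      have hD1 : ∀ j, DA n (fun y => vm j y - vp j y) x := fun j => (hDm j).sub (hDp j)
      have hD2 : ∀ j, DA n (fun y => (2 * δ)⁻¹ • (vm j y - vp j y)) x := fun j =>
        (DA.const _ x).smul (hD1 j)
      rw [hA, dd_sum (f := fun j y => ((2 * δ)⁻¹ • (vm j y - vp j y)) •
        (EuclideanSpace.single j (1 : ℝ) : 𝔼)) (fun j _ => (hD2 j).smul (DA.const _ x)),
        _root_.sum_apply]
      refine Finset.sum_congr rfl fun j _ => ?_
      rw [dd_smul_const _ (hD2 j), dd_const_smul _ (hD1 j), dd_sub (hDm j) (hDp j)]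
      rw [smul_eq_mul, inv_mul_eq_div]
      rfl
    have hcov := fun (q : M) (hq : dist q p < 3 * δ) (v : M → ℝ) (hv : Sm G q ε (15 * δ) v x) =>
      dd_near hH fl hδ hσ0 hσ1 hx hq hz hw hwz hε0.le hε1 hε2 le_rfl hv
    have hA1 : ‖∑ j, ((dd n (vm j) x w - dd n (vp j) x w) / (2 * δ)) •
          (EuclideanSpace.single j (1 : ℝ) : 𝔼) - (fl.f z - fl.f x)‖ ≤
        n * (2700 * σ * δ ^ 2 / δ + 3 * (σ ^ 2 * δ)) := by
      refine sum_close (fun j => (dd n (vm j) x w - dd n (vp j) x w) / (2 * δ)) _ fun j => ?_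
      refine coord_est' (E := EuclideanSpace.single j (1 : ℝ)) (X := fl.f x - fl.f p)
        (Qm := fl.f (qm j) - fl.f p) (Qp := fl.f (qp j) - fl.f p) (τ := σ ^ 2 * δ)
        (K := 2700 * σ * δ ^ 2) (Z := fl.f z - fl.f x)
        (dm := dd n (vm j) x w) (dp := dd n (vp j) x w) hδ hsδ0.le hZ (hqm1 j) (hqp1 j) ?_ ?_
      · rw [sub_sub_sub_cancel_right]
        exact hcov (qm j) (hqm j) (vm j) (Sm' j x)
      · rw [sub_sub_sub_cancel_right]
        exact hcov (qp j) (hqp j) (vp j) (Sp j x)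
    have hK1 : (n : ℝ) * (2700 * σ * δ ^ 2 / δ + 3 * (σ ^ 2 * δ)) ≤ 3000 * n * (σ * δ) := by
      have hn : (0 : ℝ) ≤ n := Nat.cast_nonneg n
      have h0 : 0 ≤ σ * δ := by positivity
      have h2 : 2700 * σ * δ ^ 2 / δ = 2700 * (σ * δ) := by field_simp
      have h1 : 2700 * σ * δ ^ 2 / δ + 3 * (σ ^ 2 * δ) ≤ 3000 * (σ * δ) := by
        rw [h2]; linarith
      calc (n : ℝ) * (2700 * σ * δ ^ 2 / δ + 3 * (σ ^ 2 * δ)) ≤ n * (3000 * (σ * δ)) :=
            mul_le_mul_of_nonneg_left h1 hn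
        _ = 3000 * n * (σ * δ) := by ring
    have h1 : dd n (fun x => F p + fl.B (A x)) x w - (F z - F x) =
        fl.B (∑ j, ((dd n (vm j) x w - dd n (vp j) x w) / (2 * δ)) •
          (EuclideanSpace.single j (1 : ℝ) : 𝔼) - (fl.f z - fl.f x)) -
        (F z - F x - fl.B (fl.f z - fl.f x)) := by
      have h2 := hder w
      rw [map_sub]
      refine (congrArg (fun c => c - (F z - F x)) h2).trans ?_
      abel
    refine (congrArg norm h1).le.trans ?_
    exact hBk _ (hA1.trans hK1) _ (fl.lin z x hz15 hx15)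

end

end Crest.Agent.R249.D4_789
end

-- ▼ part R249/D4Ps_789
section

/-!
R249, part D4 (helper789), file 9: gluing of the local maps with a partition of unity made of
smoothed distance functions; bounded multiplicity (Besicovitch).
-/

set_option autoImplicit false
set_option linter.unusedSectionVars false

open MeasureTheory Set Filter Metric Bundle
open scoped ContDiff ENNReal NNReal Topology Manifold RealInnerProductSpace
open Crest.GeometryTopology.MTW
open Crest.Agent.R226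

namespace Crest.Agent.R249.D4_789

noncomputable section

/-! ### the cut-off on the line -/

/-- `1` on `(-∞, 3/5]`, `0` on `[11/10, ∞)` -/
def chi (s : ℝ) : ℝ := Real.smoothTransition (11 / 5 - 2 * s)

theorem chi_contDiff : ContDiff ℝ ∞ chi :=
  Real.smoothTransition.contDiff.comp (by fun_prop)

theorem chi_one {s : ℝ} (h : s ≤ 3 / 5) : chi s = 1 :=
  Real.smoothTransition.one_of_one_le (by linarith)

theorem chi_zero {s : ℝ} (h : 11 / 10 ≤ s) : chi s = 0 :=
  Real.smoothTransition.zero_of_nonpos (by linarith)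

theorem chi_nonneg (s : ℝ) : 0 ≤ chi s := Real.smoothTransition.nonneg _


theorem deriv_chi_zero {s : ℝ} (h : 11 / 10 < s) : deriv chi s = 0 := by
  have : chi =ᶠ[𝓝 s] fun _ => 0 := by
    filter_upwards [lt_mem_nhds h] with t ht
    exact chi_zero ht.le
  rw [this.deriv_eq]
  simp

theorem deriv_chi_zero' {s : ℝ} (h : s < 3 / 5) : deriv chi s = 0 := by
  have : chi =ᶠ[𝓝 s] fun _ => 1 := by
    filter_upwards [gt_mem_nhds h] with t ht
    exact chi_one ht.le
  rw [this.deriv_eq]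
  simp

theorem exists_chi_bound : ∃ D : ℝ, 0 ≤ D ∧ ∀ s, |deriv chi s| ≤ D := by
  have hc : Continuous (deriv chi) := chi_contDiff.continuous_deriv (by simp)
  obtain ⟨D, hD⟩ := (isCompact_Icc (a := (3 / 5 : ℝ)) (b := 11 / 10)).exists_bound_of_continuousOn
    hc.continuousOn
  refine ⟨max D 0, le_max_right _ _, fun s => ?_⟩
  by_cases h1 : s < 3 / 5
  · rw [deriv_chi_zero' h1, abs_zero]; exact le_max_right _ _
  by_cases h2 : 11 / 10 < s
  · rw [deriv_chi_zero h2, abs_zero]; exact le_max_right _ _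
  · have := hD s ⟨not_lt.1 h1, not_lt.1 h2⟩
    rw [Real.norm_eq_abs] at this
    exact this.trans (le_max_left _ _)

/-- bound of the derivative of the cut-off -/
def Dchi : ℝ := exists_chi_bound.choose

theorem Dchi_nonneg : 0 ≤ Dchi := exists_chi_bound.choose_spec.1

theorem abs_deriv_chi (s : ℝ) : |deriv chi s| ≤ Dchi := exists_chi_bound.choose_spec.2 s

/-! ### the packing bound -/

theorem card_near {n : ℕ} {M W : Type*} [MetricSpace M] [NormedAddCommGroup W] [NormedSpace ℝ W]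
    {δ σ c₀ C₀ : ℝ} {F : M → W} {x : M} (fl : FlatAt n δ σ c₀ C₀ F x) (hδ : 0 < δ)
    (hσ1 : σ ^ 2 ≤ 1 / 9) (S : Finset M) (hS : ∀ p ∈ S, ∀ q ∈ S, p ≠ q → δ ≤ dist p q)
    (hx : ∀ p ∈ S, dist p x < 31 / 20 * δ) : S.card ≤ 5 ^ n := by
  classical
  have hs0 : 0 ≤ σ ^ 2 := sq_nonneg σ
  have hsδ : σ ^ 2 * δ ≤ δ / 9 := by nlinarith
  have hxx : dist x x < 15 * δ := by rw [dist_self]; linarith
  set g : M → EuclideanSpace ℝ (Fin n) := fun p => (9 / (8 * δ)) • (fl.f p - fl.f x) with hg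
  have hsep : ∀ p ∈ S, ∀ q ∈ S, p ≠ q → 1 ≤ ‖g p - g q‖ := by
    intro p hp q hq hpq
    have h1 : g p - g q = (9 / (8 * δ)) • (fl.f p - fl.f q) := by
      simp only [hg]
      rw [← smul_sub, sub_sub_sub_cancel_right]
    have hp15 : dist p x < 15 * δ := by linarith [hx p hp]
    have hq15 : dist q x < 15 * δ := by linarith [hx q hq]
    have h2 := (abs_le.1 (fl.iso p q hp15 hq15)).1
    have h3 := hS p hp q hq hpq
    rw [h1, norm_smul, Real.norm_of_nonneg (by positivity), div_mul_eq_mul_div,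
      le_div_iff₀ (by positivity)]
    linarith
  have hinj : Set.InjOn g S := by
    intro p hp q hq hpq
    by_contra hne
    have := hsep p hp q hq hne
    rw [hpq, sub_self, norm_zero] at this
    linarith
  have h1 : (S.image g).card = S.card := Finset.card_image_of_injOn hinj
  rw [← h1]
  have h2 := Besicovitch.card_le_of_separated (S.image g) (fun c hc => by
      obtain ⟨p, hp, rfl⟩ := Finset.mem_image.1 hc
      have hp15 : dist p x < 15 * δ := by linarith [hx p hp]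
      have h2 := (abs_le.1 (fl.iso p x hp15 hxx)).2
      simp only [hg]
      rw [norm_smul, Real.norm_of_nonneg (by positivity), div_mul_eq_mul_div,
        div_le_iff₀ (by positivity)]
      linarith [hx p hp])
    (fun c hc d hd hcd => by
      obtain ⟨p, hp, rfl⟩ := Finset.mem_image.1 hc
      obtain ⟨q, hq, rfl⟩ := Finset.mem_image.1 hd
      exact hsep p hp q hq fun h => hcd (by rw [h]))
  simpa using h2

/-! ### the global map -/

variable {n : ℕ} {M : Type*} [MetricSpace M] [ChartedSpace (EuclideanSpace ℝ (Fin n)) M]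
  [IsManifold (𝓡 n) ∞ M] [RiemannianBundle (fun p : M => TangentSpace (𝓡 n) p)]
variable {W : Type*} [NormedAddCommGroup W] [NormedSpace ℝ W]

local notation "𝔼" => EuclideanSpace ℝ (Fin n)

theorem dd_inv {a : M → ℝ} {x : M} (ha : DA n a x) (h0 : a x ≠ 0) (w : 𝔼) :
    DA n (fun y => (a y)⁻¹) x ∧
      dd n (fun y => (a y)⁻¹) x w = -((a x) ^ 2)⁻¹ * dd n a x w := by
  have hd : DifferentiableAt ℝ (fun t : ℝ => t⁻¹) (a x) := differentiableAt_inv h0
  refine ⟨ha.comp hd, ?_⟩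
  rw [dd_comp (g := fun t : ℝ => t⁻¹) ha hd]
  have := (hasDerivAt_inv h0).hasFDerivAt.fderiv
  rw [this]
  simp [mul_comm]

variable [IsContMDiffRiemannianBundle (𝓡 n) ∞ (EuclideanSpace ℝ (Fin n))
    (fun p : M => TangentSpace (𝓡 n) p)]
  [IsRiemannianManifold (𝓡 n) M] [CompactSpace M]

variable {G : GeoData n M} {δ σ c₀ C₀ : ℝ} {F : M → W}

/-- the final constant -/
def K4 (n : ℕ) (C₀ : ℝ) : ℝ := (1 + 8 * 5 ^ n * Dchi) * (3000 * n * C₀ + 1)

/-- **Global smooth map.** -/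
theorem exists_Psi (hH : Hinge G) (fl : ∀ p, FlatAt n δ σ c₀ C₀ F p) (hδ : 0 < δ)
    (hσ0 : 0 < σ) (hσ1 : σ ^ 2 ≤ 1 / 9) (hC : 0 ≤ C₀) :
    ∃ Ψ : M → W, ContMDiff (𝓡 n) 𝓘(ℝ, W) ∞ Ψ ∧ ∀ x,
      ‖Ψ x - F x‖ ≤ K4 n C₀ * (σ * δ) ∧
      ∀ z, dist z x ≤ 2 * δ → ∀ w : TangentSpace (𝓡 n) x, w ∈ G.K x → G.ex x w = z →
        ‖dd n Ψ x w - (F z - F x)‖ ≤ K4 n C₀ * (σ * δ) := by
  classical
  obtain ⟨S, hSsep, hScov⟩ := exists_net_compact (X := M) hδ
  choose P hPs hP using fun p : M => exists_local_map hH (fl p) hδ hσ0 hσ1 hC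
  set ε : ℝ := min (δ ^ 2 / 10) (δ / 20) with hε
  have hε0 : 0 < ε := by positivity
  have hε1 : ε ≤ δ ^ 2 / 10 := min_le_left _ _
  have hε2 : ε ≤ δ / 20 := min_le_right _ _
  choose v hv hv' using fun p : M => exists_smooth_dist hH p (R := 15 * δ) hε0
  set K : ℝ := (3000 * n * C₀ + 1) * (σ * δ) with hK
  have hn : (0 : ℝ) ≤ n := Nat.cast_nonneg n
  have hK0 : 0 ≤ K := by positivity
  have hDc := Dchi_nonneg
  -- cut-offs
  set h : M → M → ℝ := fun p y => chi (v p y / δ ^ 2) with hh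
  have hhs : ∀ p, ContMDiff (𝓡 n) 𝓘(ℝ) ∞ (h p) := fun p => by
    have h1 : ContMDiff 𝓘(ℝ) 𝓘(ℝ) ∞ (fun s : ℝ => chi (s / δ ^ 2)) :=
      (chi_contDiff.comp (by fun_prop)).contMDiff
    exact h1.comp (hv p)
  have hh0 : ∀ p y, 0 ≤ h p y := fun p y => chi_nonneg _
  have hfar : ∀ p y, 31 / 20 * δ ≤ dist p y → 11 / 10 < v p y / δ ^ 2 := by
    intro p y hpy
    have h1 := (abs_le.1 (hv' p y).1).1
    have h2 : (31 / 20 * δ) ^ 2 ≤ dist p y ^ 2 := pow_le_pow_left₀ (by positivity) hpy 2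
    rw [lt_div_iff₀ (by positivity)]
    have h3 : 0 < δ ^ 2 := by positivity
    nlinarith
  have hh_far : ∀ p y, 31 / 20 * δ ≤ dist p y → h p y = 0 := fun p y hpy =>
    chi_zero (hfar p y hpy).le
  have hdh : ∀ p y (w : 𝔼), dd n (h p) y w = deriv chi (v p y / δ ^ 2) * (dd n (v p) y w / δ ^ 2) := by
    intro p y w
    have hD : DA n (v p) y := DA.of_contMDiff (by simp) (hv p) y
    have hg : HasDerivAt (fun s : ℝ => chi (s / δ ^ 2)) (deriv chi (v p y / δ ^ 2) * (1 / δ ^ 2))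
        (v p y) := by
      have h1 : HasDerivAt chi (deriv chi (v p y / δ ^ 2)) (v p y / δ ^ 2) :=
        (chi_contDiff.differentiable (by simp) _).hasDerivAt
      have h2 : HasDerivAt (fun s : ℝ => s / δ ^ 2) (1 / δ ^ 2) (v p y) :=
        (hasDerivAt_id (v p y)).div_const (δ ^ 2)
      exact HasDerivAt.comp (v p y) (h := fun s : ℝ => s / δ ^ 2) (h₂ := chi) h1 h2
    rw [show h p = fun y => (fun s : ℝ => chi (s / δ ^ 2)) (v p y) from rfl,
      dd_comp (g := fun s : ℝ => chi (s / δ ^ 2)) hD hg.differentiableAt, hg.hasFDerivAt.fderiv]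
    simp
    ring
  have hdh_far : ∀ p y, 31 / 20 * δ ≤ dist p y → ∀ w : 𝔼, dd n (h p) y w = 0 := by
    intro p y hpy w
    rw [hdh, deriv_chi_zero (hfar p y hpy), zero_mul]
  have hdh_near : ∀ p y, dist p y < 31 / 20 * δ → ∀ w : TangentSpace (𝓡 n) y, ‖w‖ ≤ 2 * δ →
      |dd n (h p) y w| ≤ 4 * Dchi := by
    intro p y hpy w hw
    refine (congrArg abs (hdh p y w)).le.trans ?_
    rw [abs_mul, abs_div, abs_of_pos (by positivity : (0 : ℝ) < δ ^ 2)]
    have h1 := (hv' p y).2.2 w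
    have h2 : (dist p y + ε) * ‖w‖ ≤ 2 * δ * (2 * δ) :=
      mul_le_mul (by linarith) hw (norm_nonneg _) (by positivity)
    have h3 : |dd n (v p) y w| / δ ^ 2 ≤ 4 := by
      rw [div_le_iff₀ (by positivity)]
      have : 2 * δ * (2 * δ) = 4 * δ ^ 2 := by ring
      linarith
    calc |deriv chi (v p y / δ ^ 2)| * (|dd n (v p) y w| / δ ^ 2) ≤ Dchi * 4 :=
          mul_le_mul (abs_deriv_chi _) h3 (by positivity) hDc
      _ = 4 * Dchi := by ring
  set H : M → ℝ := fun y => ∑ p ∈ S, h p y with hH'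
  have hHs : ContMDiff (𝓡 n) 𝓘(ℝ) ∞ H := contMDiff_finsetSum fun p _ => hhs p
  have hH1 : ∀ y, 1 ≤ H y := by
    intro y
    obtain ⟨p, hp, hpy⟩ := hScov y
    have h1 : h p y = 1 := by
      refine chi_one ?_
      rw [div_le_iff₀ (by positivity)]
      have h2 := (abs_le.1 (hv' p y).1).2
      rw [dist_comm] at hpy
      have h3 : dist p y ^ 2 ≤ δ ^ 2 := pow_le_pow_left₀ dist_nonneg hpy.le 2
      linarith
    calc (1 : ℝ) = h p y := h1.symm
      _ ≤ H y := Finset.single_le_sum (f := fun p => h p y) (fun q _ => hh0 q y) hp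
  have hHpos : ∀ y, 0 < H y := fun y => lt_of_lt_of_le one_pos (hH1 y)
  -- the map
  set Ψ : M → W := fun y => (H y)⁻¹ • ∑ p ∈ S, h p y • P p y with hΨ
  have hinv : ContMDiff (𝓡 n) 𝓘(ℝ) ∞ (fun y => (H y)⁻¹) :=
    hHs.inv₀ fun y => (hHpos y).ne'
  have hΨs : ContMDiff (𝓡 n) 𝓘(ℝ, W) ∞ Ψ :=
    hinv.smul (contMDiff_finsetSum fun p _ => (hhs p).smul (hPs p))
  refine ⟨Ψ, hΨs, fun x => ?_⟩
  -- points of the net near `x`
  set Sx : Finset M := S.filter (fun p => dist p x < 31 / 20 * δ) with hSx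
  have hcard : (Sx.card : ℝ) ≤ 5 ^ n := by
    have := card_near (fl x) hδ hσ1 Sx
      (fun p hp q hq => hSsep p (Finset.mem_filter.1 hp).1 q (Finset.mem_filter.1 hq).1)
      (fun p hp => (Finset.mem_filter.1 hp).2)
    exact_mod_cast this
  have hPx : ∀ p, dist p x < 31 / 20 * δ → ‖P p x - F x‖ ≤ K := fun p hp =>
    (hP p x (by rw [dist_comm]; linarith)).1
  -- weighted sums
  have hwt : ∀ (g : M → W) (K' : ℝ), (∀ p, dist p x < 31 / 20 * δ → ‖g p‖ ≤ K') →
      ‖∑ p ∈ S, h p x • g p‖ ≤ H x * K' := by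
    intro g K' hg
    calc ‖∑ p ∈ S, h p x • g p‖ ≤ ∑ p ∈ S, ‖h p x • g p‖ := norm_sum_le _ _
      _ ≤ ∑ p ∈ S, h p x * K' := by
          refine Finset.sum_le_sum fun p _ => ?_
          rw [norm_smul, Real.norm_of_nonneg (hh0 p x)]
          by_cases hp : dist p x < 31 / 20 * δ
          · exact mul_le_mul_of_nonneg_left (hg p hp) (hh0 p x)
          · rw [hh_far p x (not_lt.1 hp)]; simp
      _ = H x * K' := by rw [← Finset.sum_mul]
  set c : W := F x with hc
  set T : M → W := fun y => ∑ p ∈ S, h p y • (P p y - c) with hT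
  have hΨT : ∀ y, Ψ y = c + (H y)⁻¹ • T y := by
    intro y
    have h1 : T y = (∑ p ∈ S, h p y • P p y) - H y • c := by
      simp only [hT, smul_sub, Finset.sum_sub_distrib, hH']
      rw [Finset.sum_smul]
    rw [h1, smul_sub, smul_smul, inv_mul_cancel₀ (hHpos y).ne', one_smul]
    simp only [hΨ]
    abel
  have hTx : ‖T x‖ ≤ H x * K := hwt _ _ hPx
  have hHx := hHpos x
  have hKK : K ≤ K4 n C₀ * (σ * δ) := by
    have h1 : K4 n C₀ * (σ * δ) = (1 + 8 * 5 ^ n * Dchi) * K := by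
      rw [K4, hK]; ring
    rw [h1]
    have : 0 ≤ 8 * 5 ^ n * Dchi := by positivity
    nlinarith
  constructor
  · rw [hΨT x, add_sub_cancel_left, norm_smul, norm_inv, Real.norm_of_nonneg hHx.le]
    calc (H x)⁻¹ * ‖T x‖ ≤ (H x)⁻¹ * (H x * K) :=
          mul_le_mul_of_nonneg_left hTx (inv_nonneg.2 hHx.le)
      _ = K := by rw [← mul_assoc, inv_mul_cancel₀ hHx.ne', one_mul]
      _ ≤ _ := hKK
  · intro z hz w hw hwz
    have hwn : ‖w‖ ≤ 2 * δ := by
      rw [norm_of_K hw, hwz, dist_comm]; exact hz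
    have hDh : ∀ p, DA n (h p) x := fun p => DA.of_contMDiff (by simp) (hhs p) x
    have hDP : ∀ p, DA n (P p) x := fun p => DA.of_contMDiff (by simp) (hPs p) x
    have hDPc : ∀ p, DA n (fun y => P p y - c) x := fun p => (hDP p).sub (DA.const c x)
    have hDH : DA n H x := DA.of_contMDiff (by simp) hHs x
    have hDT : DA n T x := DA.sum fun p _ => (hDh p).smul (hDPc p)
    have hder : ∀ w : 𝔼, dd n Ψ x w =
        (H x)⁻¹ • (∑ p ∈ S, h p x • dd n (P p) x w + ∑ p ∈ S, dd n (h p) x w • (P p x - c)) +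
        (-((H x) ^ 2)⁻¹ * ∑ p ∈ S, dd n (h p) x w) • T x := by
      intro w
      obtain ⟨hDi, hdi⟩ := dd_inv hDH hHx.ne' w
      have e1 : Ψ = fun y => c + (H y)⁻¹ • T y := funext hΨT
      rw [e1, dd_add (f := fun _ => c) (DA.const _ x) (hDi.smul hDT), dd_const, zero_add,
        dd_smul hDi hDT, hdi]
      have e2 : dd n H x w = ∑ p ∈ S, dd n (h p) x w := by
        rw [hH', dd_sum (fun p _ => hDh p), _root_.sum_apply]
      have e3 : dd n T x w = ∑ p ∈ S, h p x • dd n (P p) x w +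
          ∑ p ∈ S, dd n (h p) x w • (P p x - c) := by
        rw [hT, dd_sum (f := fun p y => h p y • (P p y - c)) (fun p _ => (hDh p).smul (hDPc p)),
          _root_.sum_apply, ← Finset.sum_add_distrib]
        refine Finset.sum_congr rfl fun p _ => ?_
        rw [dd_smul (hDh p) (hDPc p), dd_sub (hDP p) (DA.const c x), dd_const, sub_zero]
      rw [e2, e3]
    set c' : W := F z - F x with hc'
    have hPz : ∀ p, dist p x < 31 / 20 * δ → ‖dd n (P p) x w - c'‖ ≤ K := fun p hp =>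
      (hP p x (by rw [dist_comm]; linarith)).2 z hz w hw hwz
    -- the three terms
    have t1 : ‖∑ p ∈ S, h p x • (dd n (P p) x w - c')‖ ≤ H x * K := hwt _ _ hPz
    have t2 : ‖∑ p ∈ S, dd n (h p) x w • (P p x - c)‖ ≤ 5 ^ n * (4 * Dchi * K) := by
      calc ‖∑ p ∈ S, dd n (h p) x w • (P p x - c)‖ ≤ ∑ p ∈ S, ‖dd n (h p) x w • (P p x - c)‖ :=
            norm_sum_le _ _
        _ ≤ ∑ p ∈ S, if dist p x < 31 / 20 * δ then 4 * Dchi * K else 0 := by
            refine Finset.sum_le_sum fun p _ => ?_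
            rw [norm_smul, Real.norm_eq_abs]
            split_ifs with hp
            · exact mul_le_mul (hdh_near p x hp w hwn) (hPx p hp) (norm_nonneg _) (by positivity)
            · have h0 : dd n (h p) x w = 0 := hdh_far p x (not_lt.1 hp) w
              rw [h0]; simp
        _ = Sx.card * (4 * Dchi * K) := by
            rw [← Finset.sum_filter, Finset.sum_const, nsmul_eq_mul]
        _ ≤ 5 ^ n * (4 * Dchi * K) := mul_le_mul_of_nonneg_right hcard (by positivity)
    have t3 : |∑ p ∈ S, dd n (h p) x w| ≤ 5 ^ n * (4 * Dchi) := by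
      calc |∑ p ∈ S, dd n (h p) x w| ≤ ∑ p ∈ S, |dd n (h p) x w| := Finset.abs_sum_le_sum_abs _ _
        _ ≤ ∑ p ∈ S, if dist p x < 31 / 20 * δ then 4 * Dchi else 0 := by
            refine Finset.sum_le_sum fun p _ => ?_
            split_ifs with hp
            · exact hdh_near p x hp w hwn
            · have h0 : dd n (h p) x w = 0 := hdh_far p x (not_lt.1 hp) w
              rw [h0]; simp
        _ = Sx.card * (4 * Dchi) := by
            rw [← Finset.sum_filter, Finset.sum_const, nsmul_eq_mul]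
        _ ≤ 5 ^ n * (4 * Dchi) := mul_le_mul_of_nonneg_right hcard (by positivity)
    have hfin : dd n Ψ x w - c' = (H x)⁻¹ • (∑ p ∈ S, h p x • (dd n (P p) x w - c')) +
        (H x)⁻¹ • (∑ p ∈ S, dd n (h p) x w • (P p x - c)) +
        (-((H x) ^ 2)⁻¹ * ∑ p ∈ S, dd n (h p) x w) • T x := by
      have e1 : ∑ p ∈ S, h p x • (dd n (P p) x w - c') =
          (∑ p ∈ S, h p x • dd n (P p) x w) - H x • c' := by
        simp only [smul_sub, Finset.sum_sub_distrib, hH']
        rw [Finset.sum_smul]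
      rw [e1, smul_sub, smul_smul, inv_mul_cancel₀ hHx.ne', one_smul]
      refine (congrArg (fun u => u - c') (hder w)).trans ?_
      rw [smul_add]
      abel
    refine (congrArg norm hfin).le.trans ?_
    have hi : (H x)⁻¹ ≤ 1 := inv_le_one_of_one_le₀ (hH1 x)
    have hi0 : 0 ≤ (H x)⁻¹ := inv_nonneg.2 hHx.le
    have n1 : ‖(H x)⁻¹ • (∑ p ∈ S, h p x • (dd n (P p) x w - c'))‖ ≤ K := by
      rw [norm_smul, Real.norm_of_nonneg hi0]
      calc (H x)⁻¹ * _ ≤ (H x)⁻¹ * (H x * K) := mul_le_mul_of_nonneg_left t1 hi0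
        _ = K := by rw [← mul_assoc, inv_mul_cancel₀ hHx.ne', one_mul]
    have n2 : ‖(H x)⁻¹ • (∑ p ∈ S, dd n (h p) x w • (P p x - c))‖ ≤ 5 ^ n * (4 * Dchi * K) := by
      rw [norm_smul, Real.norm_of_nonneg hi0]
      calc (H x)⁻¹ * _ ≤ 1 * (5 ^ n * (4 * Dchi * K)) :=
            mul_le_mul hi t2 (norm_nonneg _) zero_le_one
        _ = _ := one_mul _
    have n3 : ‖(-((H x) ^ 2)⁻¹ * ∑ p ∈ S, dd n (h p) x w) • T x‖ ≤ 5 ^ n * (4 * Dchi * K) := by
      rw [norm_smul, norm_mul, norm_neg, norm_inv, norm_pow, Real.norm_of_nonneg hHx.le,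
        Real.norm_eq_abs]
      calc ((H x) ^ 2)⁻¹ * |∑ p ∈ S, dd n (h p) x w| * ‖T x‖
          ≤ ((H x) ^ 2)⁻¹ * (5 ^ n * (4 * Dchi)) * (H x * K) := by
            refine mul_le_mul (mul_le_mul_of_nonneg_left t3 (by positivity)) hTx (norm_nonneg _)
              (by positivity)
        _ = (H x)⁻¹ * (5 ^ n * (4 * Dchi * K)) := by
            field_simp
        _ ≤ 1 * (5 ^ n * (4 * Dchi * K)) := mul_le_mul_of_nonneg_right hi (by positivity)
        _ = _ := one_mul _
    calc _ ≤ K + 5 ^ n * (4 * Dchi * K) + 5 ^ n * (4 * Dchi * K) :=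
          (norm_add₃_le).trans (add_le_add (add_le_add n1 n2) n3)
      _ = K4 n C₀ * (σ * δ) := by rw [K4, hK]; ring

end

end Crest.Agent.R249.D4_789
end

-- ▼ part R249/D4Pj_789
section

/-!
R249, part D4 (helper789), file 10: the abstract projection data of a compact smooth limit space
(`Proj`), uniform estimates, and the smooth local diffeomorphism `M → X` for every closed `M`
with the hinge inequality which is Gromov-Hausdorff close to `X`.
-/

set_option autoImplicit false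
set_option linter.unusedSectionVars false

open MeasureTheory Set Filter Metric Bundle
open scoped ContDiff ENNReal NNReal Topology Manifold RealInnerProductSpace
open Crest.GeometryTopology.MTW
open Crest.Agent.R226

namespace Crest.Agent.R249.D4_789

noncomputable section

/-- An embedding `i` of the (compact) space `X` with smooth charts `e a` into a Euclidean space,
with a smooth retraction `pr` of a neighbourhood `O` of the image, and flatness of `(X, i)` at all
small scales. -/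
structure Proj (n : ℕ) (X : Type*) [MetricSpace X] {ι : Type*}
    (e : ι → OpenPartialHomeomorph X (EuclideanSpace ℝ (Fin n))) where
  /-- dimension of the ambient space -/
  N : ℕ
  /-- the embedding -/
  i : X → EuclideanSpace ℝ (Fin N)
  cont_i : Continuous i
  smooth_i : ∀ a, ContDiffOn ℝ ∞ (fun y => i ((e a).symm y)) (e a).target
  cover : ∀ x, ∃ a, x ∈ (e a).source
  /-- neighbourhood of the image -/
  O : Set (EuclideanSpace ℝ (Fin N))
  isOpen_O : IsOpen O
  mem_O : ∀ x, i x ∈ O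
  /-- the retraction -/
  pr : EuclideanSpace ℝ (Fin N) → X
  cont_pr : ContinuousOn pr O
  pr_i : ∀ x, pr (i x) = x
  smooth_pr : ∀ a, ContDiffOn ℝ ∞ (fun y => e a (pr y)) (O ∩ pr ⁻¹' (e a).source)
  /-- lower constant -/
  c₀ : ℝ
  /-- upper constant -/
  C₀ : ℝ
  c₀_pos : 0 < c₀
  C₀_nonneg : 0 ≤ C₀
  flat : ∀ η : ℝ, 0 < η → ∃ d₀ : ℝ, 0 < d₀ ∧ ∀ d : ℝ, 0 < d → d ≤ d₀ → ∀ x₀ : X,
    ∃ (f : X → EuclideanSpace ℝ (Fin n))
      (B : EuclideanSpace ℝ (Fin n) →L[ℝ] EuclideanSpace ℝ (Fin N)),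
      (∀ c, c₀ * ‖c‖ ≤ ‖B c‖) ∧ (∀ c, ‖B c‖ ≤ C₀ * ‖c‖) ∧
      (∀ x y, dist x x₀ < 20 * d → dist y x₀ < 20 * d →
        |‖f x - f y‖ - dist x y| ≤ η * d ∧ ‖i x - i y - B (f x - f y)‖ ≤ η * d) ∧
      ∀ c, ‖c - f x₀‖ ≤ 10 * d → ∃ y, dist y x₀ < 20 * d ∧ f y = c

namespace Proj

variable {n : ℕ} {X : Type*} [MetricSpace X] {ι : Type*}
  {e : ι → OpenPartialHomeomorph X (EuclideanSpace ℝ (Fin n))} (P : Proj n X e)

/-- the retraction as a map of the ambient space -/
def R (y : EuclideanSpace ℝ (Fin P.N)) : EuclideanSpace ℝ (Fin P.N) := P.i (P.pr y)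

theorem R_i (x : X) : P.R (P.i x) = P.i x := by rw [R, P.pr_i]

theorem isOpen_pre (a : ι) : IsOpen (P.O ∩ P.pr ⁻¹' (e a).source) :=
  P.cont_pr.isOpen_inter_preimage P.isOpen_O (e a).open_source

theorem smooth_R : ContDiffOn ℝ ∞ P.R P.O := by
  intro y hy
  obtain ⟨a, ha⟩ := P.cover (P.pr y)
  have hmem : y ∈ P.O ∩ P.pr ⁻¹' (e a).source := ⟨hy, ha⟩
  have h1 : ContDiffOn ℝ ∞ (fun z => P.i ((e a).symm (e a (P.pr z)))) (P.O ∩ P.pr ⁻¹' (e a).source) :=
    (P.smooth_i a).comp (P.smooth_pr a) fun z hz => (e a).map_source hz.2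
  have h2 : ContDiffAt ℝ ∞ (fun z => P.i ((e a).symm (e a (P.pr z)))) y :=
    (h1 y hmem).contDiffAt ((P.isOpen_pre a).mem_nhds hmem)
  refine (h2.congr_of_eventuallyEq ?_).contDiffWithinAt
  filter_upwards [(P.isOpen_pre a).mem_nhds hmem] with z hz
  rw [(e a).left_inv hz.2, R]

/-- uniform estimates near the image -/
theorem unif [CompactSpace X] : ∃ Λ : ℝ, 0 ≤ Λ ∧ ∀ κ : ℝ, 0 < κ → ∃ ρ : ℝ, 0 < ρ ∧
    (∀ x y, ‖y - P.i x‖ ≤ ρ → y ∈ P.O ∧ ‖fderiv ℝ P.R y - fderiv ℝ P.R (P.i x)‖ ≤ κ ∧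
      ‖fderiv ℝ P.R y‖ ≤ Λ) ∧
    ∀ x x', ‖P.i x' - P.i x‖ ≤ ρ →
      ‖P.i x' - P.i x - fderiv ℝ P.R (P.i x) (P.i x' - P.i x)‖ ≤ κ * ‖P.i x' - P.i x‖ := by
  have hK : IsCompact (range P.i) := isCompact_range P.cont_i
  have hKO : range P.i ⊆ P.O := by rintro _ ⟨x, rfl⟩; exact P.mem_O x
  obtain ⟨ρ₀, hρ₀, hρO⟩ := hK.exists_cthickening_subset_open P.isOpen_O hKO
  have hK' : IsCompact (cthickening ρ₀ (range P.i)) := hK.cthickening
  have hD : ContinuousOn (fderiv ℝ P.R) P.O :=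
    P.smooth_R.continuousOn_fderiv_of_isOpen P.isOpen_O (by simp)
  have hDK := hD.mono hρO
  obtain ⟨Λ, hΛ⟩ := hK'.exists_bound_of_continuousOn hDK
  have huc := hK'.uniformContinuousOn_of_continuous hDK
  rw [Metric.uniformContinuousOn_iff] at huc
  refine ⟨max Λ 0, le_max_right _ _, fun κ hκ => ?_⟩
  obtain ⟨ρ₁, hρ₁, hunif⟩ := huc κ hκ
  set ρ : ℝ := min ρ₀ (ρ₁ / 2) with hρ
  have hρ0 : 0 < ρ := by positivity
  have hmem : ∀ x y, ‖y - P.i x‖ ≤ ρ → y ∈ cthickening ρ₀ (range P.i) := fun x y h =>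
    mem_cthickening_of_dist_le y (P.i x) _ _ (mem_range_self x) (by
      rw [dist_eq_norm]; exact h.trans (min_le_left _ _))
  have hst : ∀ x y, ‖y - P.i x‖ ≤ ρ → ‖fderiv ℝ P.R y - fderiv ℝ P.R (P.i x)‖ ≤ κ := by
    intro x y h
    have h2 := hunif y (hmem x y h) (P.i x)
      (self_subset_cthickening _ (mem_range_self x)) (by
        rw [dist_eq_norm]
        have : ρ ≤ ρ₁ / 2 := min_le_right _ _
        linarith)
    rw [dist_eq_norm] at h2
    exact h2.le
  refine ⟨ρ, hρ0, fun x y h => ⟨hρO (hmem x y h), hst x y h,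
    (hΛ y (hmem x y h)).trans (le_max_left _ _)⟩, fun x x' h => ?_⟩
  -- mean value inequality on the ball
  have hconv : Convex ℝ (closedBall (P.i x) ρ) := convex_closedBall _ _
  have hdiff : ∀ y ∈ closedBall (P.i x) ρ, DifferentiableAt ℝ P.R y := fun y hy => by
    have hy' : ‖y - P.i x‖ ≤ ρ := by rwa [mem_closedBall, dist_eq_norm] at hy
    exact (P.smooth_R.contDiffAt (P.isOpen_O.mem_nhds (hρO (hmem x y hy')))).differentiableAt
      (by simp)
  have h1 := hconv.norm_image_sub_le_of_norm_hasFDerivWithin_le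
    (f := fun y => P.R y - fderiv ℝ P.R (P.i x) y)
    (f' := fun y => fderiv ℝ P.R y - fderiv ℝ P.R (P.i x)) (C := κ)
    (fun y hy => ((hdiff y hy).hasFDerivAt.sub
      (fderiv ℝ P.R (P.i x)).hasFDerivAt).hasFDerivWithinAt)
    (fun y hy => hst x y (by rwa [mem_closedBall, dist_eq_norm] at hy))
    (x := P.i x) (y := P.i x') (mem_closedBall_self hρ0.le)
    (by rwa [mem_closedBall, dist_eq_norm])
  rw [P.R_i, P.R_i] at h1
  refine le_trans (le_of_eq ?_) h1
  rw [map_sub]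
  congr 1
  abel

end Proj

/-- injectivity from an approximate frame -/
theorem injective_of_frame {n : ℕ} {W : Type*} [NormedAddCommGroup W] [NormedSpace ℝ W]
    (L : EuclideanSpace ℝ (Fin n) →L[ℝ] W) (B : EuclideanSpace ℝ (Fin n) →L[ℝ] W)
    (w : Fin n → EuclideanSpace ℝ (Fin n)) {c₀ κ δ : ℝ} (hδ : 0 < δ)
    (hB : ∀ c, c₀ * ‖c‖ ≤ ‖B c‖) (hκ : n * κ < c₀)
    (hw : ∀ j, ‖L (w j) - δ • B (EuclideanSpace.single j (1 : ℝ))‖ ≤ κ * δ) :
    ∀ v, L v = 0 → v = 0 := by
  set T : EuclideanSpace ℝ (Fin n) →ₗ[ℝ] EuclideanSpace ℝ (Fin n) :=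
    { toFun := fun c => ∑ j, c j • w j
      map_add' := fun c d => by simp [add_smul, Finset.sum_add_distrib]
      map_smul' := fun r c => by simp [mul_smul, Finset.smul_sum] } with hT
  have hTc : ∀ c, T c = ∑ j, c j • w j := fun c => rfl
  have hc1 : ∀ c : EuclideanSpace ℝ (Fin n), c = ∑ j, c j • EuclideanSpace.single j (1 : ℝ) := by
    intro c
    have := (EuclideanSpace.basisFun (Fin n) ℝ).sum_repr c
    simpa using this.symm
  have key : ∀ c : EuclideanSpace ℝ (Fin n), L (T c) = 0 → c = 0 := by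
    intro c hc
    by_contra hne
    have hcn : 0 < ‖c‖ := norm_pos_iff.2 hne
    have h1 : ‖L (T c) - δ • B c‖ ≤ n * (κ * δ * ‖c‖) := by
      have e1 : L (T c) = ∑ j, c j • L (w j) := by rw [hTc, map_sum]; simp
      have e2 : B c = ∑ j, c j • B (EuclideanSpace.single j (1 : ℝ)) := by
        conv_lhs => rw [hc1 c]
        rw [map_sum]; simp
      rw [e1, e2, Finset.smul_sum, ← Finset.sum_sub_distrib]
      calc ‖∑ j, (c j • L (w j) - δ • (c j • B (EuclideanSpace.single j (1 : ℝ))))‖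
          ≤ ∑ j, ‖c j • L (w j) - δ • (c j • B (EuclideanSpace.single j (1 : ℝ)))‖ :=
            norm_sum_le _ _
        _ ≤ ∑ _j : Fin n, κ * δ * ‖c‖ := by
            refine Finset.sum_le_sum fun j _ => ?_
            have e3 : c j • L (w j) - δ • (c j • B (EuclideanSpace.single j (1 : ℝ))) =
                c j • (L (w j) - δ • B (EuclideanSpace.single j (1 : ℝ))) := by
              rw [smul_sub, smul_comm δ]
            rw [e3, norm_smul]
            have e4 : ‖c j‖ ≤ ‖c‖ := PiLp.norm_apply_le c j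
            calc ‖c j‖ * ‖L (w j) - δ • B (EuclideanSpace.single j (1 : ℝ))‖
                ≤ ‖c‖ * (κ * δ) := mul_le_mul e4 (hw j) (norm_nonneg _) (norm_nonneg _)
              _ = κ * δ * ‖c‖ := by ring
        _ = n * (κ * δ * ‖c‖) := by simp
    rw [hc, zero_sub, norm_neg, norm_smul, Real.norm_of_nonneg hδ.le] at h1
    have h2 := mul_le_mul_of_nonneg_left (hB c) hδ.le
    have h3 : δ * (c₀ * ‖c‖) ≤ n * (κ * δ * ‖c‖) := h2.trans h1
    have h4 : c₀ * (δ * ‖c‖) ≤ n * κ * (δ * ‖c‖) := by linarith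
    have h5 : 0 < δ * ‖c‖ := by positivity
    exact absurd (le_of_mul_le_mul_right h4 h5) (not_le.2 hκ)
  have hinj : Function.Injective T := by
    rw [← LinearMap.ker_eq_bot, LinearMap.ker_eq_bot']
    intro c hc
    exact key c (by rw [hc, map_zero])
  have hsurj : Function.Surjective T := LinearMap.injective_iff_surjective.1 hinj
  intro v hv
  obtain ⟨c, rfl⟩ := hsurj v
  rw [key c hv, map_zero]

/-- flatness is inherited through an approximation -/
theorem flatAt_of_approx {n : ℕ} {M X W : Type*} [MetricSpace M] [MetricSpace X]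
    [NormedAddCommGroup W] [NormedSpace ℝ W] {i : X → W} {g : M → X} {δ σ c₀ C₀ ε η : ℝ}
    (hδ : 0 < δ) (hσ1 : σ ^ 2 ≤ 1 / 9) (hη : η = σ ^ 2 / 2) (hε : ε = σ ^ 2 * δ / 4)
    (hg : ∀ x y, |dist (g x) (g y) - dist x y| ≤ ε) (hg' : ∀ z, ∃ x, dist (g x) z ≤ ε) (p : M)
    {f : X → EuclideanSpace ℝ (Fin n)} {B : EuclideanSpace ℝ (Fin n) →L[ℝ] W}
    (hlo : ∀ c, c₀ * ‖c‖ ≤ ‖B c‖) (hhi : ∀ c, ‖B c‖ ≤ C₀ * ‖c‖)
    (hf : ∀ x y, dist x (g p) < 20 * δ → dist y (g p) < 20 * δ →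
      |‖f x - f y‖ - dist x y| ≤ η * δ ∧ ‖i x - i y - B (f x - f y)‖ ≤ η * δ)
    (hd : ∀ c, ‖c - f (g p)‖ ≤ 10 * δ → ∃ y, dist y (g p) < 20 * δ ∧ f y = c) :
    Nonempty (FlatAt n δ σ c₀ C₀ (fun x => i (g x)) p) := by
  have hs0 : 0 ≤ σ ^ 2 := sq_nonneg σ
  have hsδ : σ ^ 2 * δ ≤ δ / 9 := by nlinarith
  have hsδ0 : 0 ≤ σ ^ 2 * δ := by positivity
  have hηδ : η * δ = σ ^ 2 * δ / 2 := by rw [hη]; ring
  have hmem : ∀ x, dist x p < 15 * δ → dist (g x) (g p) < 20 * δ := fun x hx => by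
    have := (abs_le.1 (hg x p)).2
    linarith
  have hpp : dist (g p) (g p) < 20 * δ := by rw [dist_self]; positivity
  refine ⟨⟨fun x => f (g x), B, hlo, hhi, fun x y hx hy => ?_, fun x y hx hy => ?_,
    fun c hc => ?_⟩⟩
  · have h1 := (hf (g x) (g y) (hmem x hx) (hmem y hy)).1
    have h2 := hg x y
    rw [abs_le] at h1 h2 ⊢
    constructor <;> linarith [h1.1, h1.2, h2.1, h2.2]
  · have h1 := (hf (g x) (g y) (hmem x hx) (hmem y hy)).2
    linarith
  · obtain ⟨y, hy, hyc⟩ := hd c (by linarith)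
    obtain ⟨x, hx⟩ := hg' y
    have h3 := (abs_le.1 (hf y (g p) hy hpp).1).1
    rw [hyc] at h3
    have h4 : dist y (g p) ≤ 9 * δ := by linarith
    have h5 : dist (g x) (g p) < 20 * δ := by
      have := dist_triangle (g x) y (g p)
      linarith
    have h6 : dist x p < 15 * δ := by
      have h7 := (abs_le.1 (hg x p)).1
      have h8 := dist_triangle (g x) y (g p)
      linarith
    refine ⟨x, h6, ?_⟩
    have h9 := (abs_le.1 (hf (g x) y h5 hy).1).2
    rw [← hyc]
    linarith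

end

end Crest.Agent.R249.D4_789
end

-- ▼ part R249/Prj6_832
section

/-!
# R249, D4-PROJ (helper832), part 6: the structure `D4_789.Proj` of helper789
-/

set_option autoImplicit false
set_option linter.style.haveILetI false
set_option linter.unusedSectionVars false
noncomputable section
open Set Filter Topology Metric
open scoped ContDiff Manifold
open Crest.GeometryTopology.CoordMetric
open Crest.Agent.R249.Len47

namespace Crest.Agent.R249.Prj832

variable {n : ℕ} {ι : Type*} {X : Type*} [MetricSpace X]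

/-- the projection data in the form of helper789 -/
def Proj.to789 {m : ℕ} {e : ι → OpenPartialHomeomorph X (EuclideanSpace ℝ (Fin n))}
    (P : Proj m e) (hcov : ∀ x, ∃ a, x ∈ (e a).source) : D4_789.Proj n X e where
  N := m
  i := P.io
  cont_i := by
    have h1 : LipschitzWith (Real.toNNReal P.C₀) P.io := by
      refine LipschitzWith.of_dist_le_mul fun x y => ?_
      rw [dist_eq_norm, Real.coe_toNNReal _ P.C₀_pos.le]
      exact P.upper x y
    exact h1.continuous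
  smooth_i := P.smooth_io
  cover := hcov
  O := P.O
  isOpen_O := P.isOpen_O
  mem_O := P.io_mem
  pr := P.pi
  cont_pr := P.continuousOn_pi
  pr_i := P.pi_io
  smooth_pr := P.smooth_pi
  c₀ := P.c₀
  C₀ := P.C₀
  c₀_pos := P.c₀_pos
  C₀_nonneg := P.C₀_pos.le
  flat := by
    intro η hη
    obtain ⟨d₀, hd₀, h1⟩ := P.flat η hη
    refine ⟨d₀, hd₀, fun d hd hdd x₀ => ?_⟩
    obtain ⟨f, B, hB, -, h2, h3⟩ := h1 d hd hdd x₀
    exact ⟨f, B, fun c => (hB c).1, fun c => (hB c).2, fun x y hx hy => h2 x hx y hy, h3⟩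

/-- **helper789's projection data from charts with `InfScale` and smooth transitions** -/
theorem nonempty_proj789 [CompactSpace X] [Nonempty X] [Fintype ι]
    (e : ι → OpenPartialHomeomorph X (EuclideanSpace ℝ (Fin n))) (h : ι → MetricField n)
    (hh : ∀ a, IsRiemannianOn (h a) (e a).target) (hs : ∀ a, InfScale (e a) (h a))
    (hcov : ∀ x, ∃ a, x ∈ (e a).source)
    (htr : ∀ a b, ContDiffOn ℝ ∞ (fun y => e b ((e a).symm y))
      {y | y ∈ (e a).target ∧ (e a).symm y ∈ (e b).source}) :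
    Nonempty (D4_789.Proj n X e) := by
  obtain ⟨m, ⟨P⟩⟩ := exists_proj_of_scale e h hh hs hcov htr
  exact ⟨P.to789 hcov⟩

end Crest.Agent.R249.Prj832
end
end

-- ▼ part R249/D4Hg_789
section

/-!
R249, part D4 (helper789), file 5: the hinge inequality for closed manifolds with nonnegative
sectional curvature, in exponential form, from helper330's Toponogov theorem.
-/

set_option autoImplicit false
set_option linter.unusedSectionVars false

open MeasureTheory Set Filter Metric Bundle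
open scoped ContDiff ENNReal NNReal Topology Manifold
open Crest.GeometryTopology.MTW Crest.GeometryTopology.ChartCurvature
open Crest.GeometryTopology
open Crest.Agent.R226

namespace Crest.Agent.R249.D4_789

noncomputable section

variable {n : ℕ} {M : Type*} [MetricSpace M] [ChartedSpace (EuclideanSpace ℝ (Fin n)) M]
  [IsManifold (𝓡 n) ∞ M] [RiemannianBundle (fun p : M => TangentSpace (𝓡 n) p)]
  [IsContMDiffRiemannianBundle (𝓡 n) ∞ (EuclideanSpace ℝ (Fin n))
    (fun p : M => TangentSpace (𝓡 n) p)]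
  [IsRiemannianManifold (𝓡 n) M] [CompactSpace M]

/-- **Hinge inequality** -/
theorem hinge (G : GeoData n M) (hK : HasNonnegSectionalCurvature n M) : Hinge G := by
  intro x u w hu
  have hm : Crest.Agent.R247.Sm879.ExM M := HopfRinow114.hasBetween n M
  have hc := Top330.toponogov_ex G hm hK (G.ex x u) x w
  obtain ⟨C, hC0, hC⟩ := Semiconcave345.semiconcave (n := n) G
  set φ : ℝ → ℝ := fun t => dist (G.ex x u) (G.ex x (t • w)) ^ 2 - ‖w‖ ^ 2 * t ^ 2 with hφ
  have hu' : dist x (G.ex x u) = ‖u‖ := hu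
  have h0 : φ 0 = ‖u‖ ^ 2 := by
    simp only [hφ, zero_smul, G.ex_zero]
    rw [dist_comm, hu']
    ring
  -- for small positive `t`
  have key : ∀ t : ℝ, 0 < t → t < 1 →
      φ 1 ≤ ‖u‖ ^ 2 - 2 * inner ℝ u w + t * (2 * C * ‖w‖ ^ 2) := by
    intro t ht0 ht1
    have h1 : (1 - t) • φ 0 + t • φ 1 ≤ φ ((1 - t) • (0 : ℝ) + t • (1 : ℝ)) :=
      hc.2 (mem_univ _) (mem_univ _) (by linarith) ht0.le (by ring)
    have h2 : (1 - t) • (0 : ℝ) + t • (1 : ℝ) = t := by simp
    rw [h2, smul_eq_mul, smul_eq_mul, h0] at h1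
    have h3 := hC x u hu (t • w)
    have h4 : φ t ≤ ‖u‖ ^ 2 - 2 * (t * inner ℝ u w) + 2 * C * (t ^ 2 * ‖w‖ ^ 2) := by
      simp only [hφ]
      rw [inner_smul_right, norm_smul, mul_pow, Real.norm_eq_abs, sq_abs] at h3
      unfold halfDistSq at h3
      rw [dist_comm (G.ex x (t • w)), hu'] at h3
      nlinarith [sq_nonneg (‖w‖ * t)]
    have h5 : t * φ 1 ≤ t * (‖u‖ ^ 2 - 2 * inner ℝ u w + t * (2 * C * ‖w‖ ^ 2)) := by
      nlinarith
    exact le_of_mul_le_mul_left h5 ht0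
  have hlim : Tendsto (fun t : ℝ => ‖u‖ ^ 2 - 2 * inner ℝ u w + t * (2 * C * ‖w‖ ^ 2)) (𝓝[>] 0)
      (𝓝 (‖u‖ ^ 2 - 2 * inner ℝ u w + 0 * (2 * C * ‖w‖ ^ 2))) := by
    refine Tendsto.mono_left ?_ nhdsWithin_le_nhds
    exact Continuous.tendsto (by fun_prop) 0
  have h6 : φ 1 ≤ ‖u‖ ^ 2 - 2 * inner ℝ u w + 0 * (2 * C * ‖w‖ ^ 2) := by
    refine ge_of_tendsto hlim ?_
    filter_upwards [Ioo_mem_nhdsGT (show (0 : ℝ) < 1 by norm_num)] with t ht
    exact key t ht.1 ht.2
  rw [zero_mul, add_zero] at h6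
  have h7 : φ 1 = dist (G.ex x u) (G.ex x w) ^ 2 - ‖w‖ ^ 2 := by
    simp only [hφ, one_smul]
    ring
  rw [h7] at h6
  rw [norm_sub_sq_real]
  linarith

/-- a closed Riemannian manifold has geodesic data -/
theorem nonempty_geo : Nonempty (GeoData n M) := by
  obtain ⟨N⟩ := NearDiagFinal996.nonempty_nearDiag (n := n) (M := M)
  exact GeoThm542.nonempty_geoData N

end

end Crest.Agent.R249.D4_789
end

-- ▼ part R249/D4Mn_789
section

/-!
R249, part D4 (helper789), file 11: **smooth local diffeomorphisms** onto a compact smooth limit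
space, for closed manifolds satisfying the hinge inequality.
-/

set_option autoImplicit false
set_option linter.unusedSectionVars false

open MeasureTheory Set Filter Metric Bundle
open scoped ContDiff ENNReal NNReal Topology Manifold RealInnerProductSpace
open Crest.GeometryTopology.MTW
open Crest.Agent.R226

namespace Crest.Agent.R249.D4_789

noncomputable section

universe u

/-- choice of the parameters -/
theorem exists_params {n : ℕ} {Λ c₀ C₀ : ℝ} (hΛ : 0 ≤ Λ) (hc : 0 < c₀) (hC : 0 ≤ C₀) :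
    ∃ κ σ : ℝ, 0 < κ ∧ 0 < σ ∧ σ ^ 2 ≤ 1 / 9 ∧
      n * (Λ * (K4 n C₀ * σ) + 2 * κ * (3 * C₀ + 1) + σ ^ 2 * (1 + C₀)) < c₀ := by
  have hK : 0 ≤ K4 n C₀ := by
    have := Dchi_nonneg
    unfold K4
    positivity
  set κ : ℝ := c₀ / (8 * (n + 1) * (3 * C₀ + 1)) with hκ
  set A : ℝ := Λ * K4 n C₀ + (1 + C₀) with hA
  have hA0 : 0 < A := by positivity
  set σ : ℝ := min (1 / 3) (c₀ / (4 * (n + 1) * A)) with hσ
  have hn : (0 : ℝ) ≤ n := Nat.cast_nonneg n
  have hκ0 : 0 < κ := by positivity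
  have hσ0 : 0 < σ := by positivity
  have hσ1 : σ ≤ 1 / 3 := min_le_left _ _
  refine ⟨κ, σ, hκ0, hσ0, by nlinarith, ?_⟩
  have h1 : Λ * (K4 n C₀ * σ) + σ ^ 2 * (1 + C₀) ≤ σ * A := by
    have : σ ^ 2 * (1 + C₀) ≤ σ * (1 + C₀) :=
      mul_le_mul_of_nonneg_right (by nlinarith) (by positivity)
    rw [hA]
    linarith
  have h2 : σ * A ≤ c₀ / (4 * (n + 1)) := by
    have h3 : σ ≤ c₀ / (4 * (n + 1) * A) := min_le_right _ _
    calc σ * A ≤ c₀ / (4 * (n + 1) * A) * A := mul_le_mul_of_nonneg_right h3 hA0.le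
      _ = c₀ / (4 * (n + 1)) := by field_simp
  have h3 : 2 * κ * (3 * C₀ + 1) = c₀ / (4 * (n + 1)) := by
    rw [hκ]; field_simp; ring
  have h4 : Λ * (K4 n C₀ * σ) + 2 * κ * (3 * C₀ + 1) + σ ^ 2 * (1 + C₀) ≤ c₀ / (2 * (n + 1)) := by
    have : c₀ / (2 * (n + 1)) = c₀ / (4 * (n + 1)) + c₀ / (4 * ((n : ℝ) + 1)) := by
      field_simp; ring
    rw [this]
    linarith
  calc n * (Λ * (K4 n C₀ * σ) + 2 * κ * (3 * C₀ + 1) + σ ^ 2 * (1 + C₀))
      ≤ n * (c₀ / (2 * (n + 1))) := mul_le_mul_of_nonneg_left h4 hn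
    _ < c₀ := by
        rw [mul_div_assoc', div_lt_iff₀ (by positivity)]
        nlinarith

/-- **Main theorem of D4.** -/
theorem Proj.exists_local_diffeo {n : ℕ} {X : Type*} [MetricSpace X] [CompactSpace X] {ι : Type*}
    {e : ι → OpenPartialHomeomorph X (EuclideanSpace ℝ (Fin n))} (P : Proj n X e) :
    ∃ ε : ℝ, 0 < ε ∧ ∀ (M : Type u) [MetricSpace M] [ChartedSpace (EuclideanSpace ℝ (Fin n)) M]
      [IsManifold (𝓡 n) ∞ M] [RiemannianBundle (fun p : M => TangentSpace (𝓡 n) p)]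
      [IsContMDiffRiemannianBundle (𝓡 n) ∞ (EuclideanSpace ℝ (Fin n))
        (fun p : M => TangentSpace (𝓡 n) p)]
      [IsRiemannianManifold (𝓡 n) M] [CompactSpace M] (G : GeoData n M), Hinge G →
      ∀ g : M → X, (∀ x y, |dist (g x) (g y) - dist x y| ≤ ε) → (∀ z, ∃ x, dist (g x) z ≤ ε) →
      ∃ Φ : M → X, Continuous Φ ∧ ∀ a,
        ContMDiffOn (𝓡 n) (𝓡 n) ∞ (fun x => e a (Φ x)) (Φ ⁻¹' (e a).source) ∧
        ∀ x, Φ x ∈ (e a).source → Function.Injective (mfderiv (𝓡 n) (𝓡 n) (fun x => e a (Φ x)) x) := by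
  obtain ⟨Λ, hΛ, hunif⟩ := P.unif
  obtain ⟨κ, σ, hκ, hσ0, hσ1, hpar⟩ := exists_params (n := n) hΛ P.c₀_pos P.C₀_nonneg
  obtain ⟨ρ, hρ, hρ1, hρ2⟩ := hunif κ hκ
  obtain ⟨d₀, hd₀, hflat⟩ := P.flat (σ ^ 2 / 2) (by positivity)
  have hC0 := P.C₀_nonneg
  have hK : 0 ≤ K4 n P.C₀ := by
    have := Dchi_nonneg
    unfold K4
    positivity
  set δ : ℝ := min d₀ (min (ρ / (K4 n P.C₀ * σ + 1)) (ρ / (3 * P.C₀ + 1))) with hδ
  have hδ0 : 0 < δ := by positivity
  have hδd : δ ≤ d₀ := min_le_left _ _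
  have hδ1 : K4 n P.C₀ * (σ * δ) ≤ ρ := by
    have h1 : δ ≤ ρ / (K4 n P.C₀ * σ + 1) := (min_le_right _ _).trans (min_le_left _ _)
    rw [le_div_iff₀ (by positivity)] at h1
    nlinarith
  have hδ2 : (3 * P.C₀ + 1) * δ ≤ ρ := by
    have h1 : δ ≤ ρ / (3 * P.C₀ + 1) := (min_le_right _ _).trans (min_le_right _ _)
    rw [le_div_iff₀ (by positivity)] at h1
    linarith
  have hs0 : 0 ≤ σ ^ 2 := sq_nonneg σ
  have hsδ : σ ^ 2 * δ ≤ δ / 9 := by nlinarith
  have hsδ0 : 0 ≤ σ ^ 2 * δ := by positivity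
  refine ⟨σ ^ 2 * δ / 4, by positivity, ?_⟩
  intro M _ _ _ _ _ _ _ G hH g hg hg'
  -- flatness of `M`
  have hfl : ∀ p : M, Nonempty (FlatAt n δ σ P.c₀ P.C₀ (fun x => P.i (g x)) p) := fun p => by
    obtain ⟨f, B, h1, h2, h3, h4⟩ := hflat δ hδ0 hδd (g p)
    exact flatAt_of_approx hδ0 hσ1 rfl rfl hg hg' p h1 h2 h3 h4
  have fl := fun p => (hfl p).some
  obtain ⟨Ψ, hΨs, hΨ⟩ := exists_Psi hH fl hδ0 hσ0 hσ1 P.C₀_nonneg
  have hΨO : ∀ x, Ψ x ∈ P.O := fun x => (hρ1 (g x) (Ψ x) ((hΨ x).1.trans hδ1)).1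
  have hΨc : Continuous Ψ := hΨs.continuous
  refine ⟨fun x => P.pr (Ψ x), ?_, fun a => ⟨?_, fun x hx => ?_⟩⟩
  · exact P.cont_pr.comp_continuous hΨc hΨO
  · have h1 : ContMDiffOn 𝓘(ℝ, EuclideanSpace ℝ (Fin P.N)) (𝓡 n) ∞ (fun y => e a (P.pr y))
        (P.O ∩ P.pr ⁻¹' (e a).source) := (P.smooth_pr a).contMDiffOn
    exact h1.comp hΨs.contMDiffOn fun x hx => ⟨hΨO x, hx⟩
  · -- injectivity of the differential
    have hmem : Ψ x ∈ P.O ∩ P.pr ⁻¹' (e a).source := ⟨hΨO x, hx⟩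
    have hsΦ : ContMDiffAt (𝓡 n) (𝓡 n) ∞ (fun x => e a (P.pr (Ψ x))) x := by
      have h1 : ContMDiffAt 𝓘(ℝ, EuclideanSpace ℝ (Fin P.N)) (𝓡 n) ∞ (fun y => e a (P.pr y))
          (Ψ x) := (((P.smooth_pr a) _ hmem).contDiffAt ((P.isOpen_pre a).mem_nhds hmem)).contMDiffAt
      exact h1.comp x (hΨs x)
    have hDΦ : DA n (fun x => e a (P.pr (Ψ x))) x := DA.of_contMDiffAt (by simp) hsΦ
    have hDΨ : DA n Ψ x := DA.of_contMDiff (by simp) hΨs x
    have hRd : DifferentiableAt ℝ P.R (Ψ x) :=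
      (P.smooth_R.contDiffAt (P.isOpen_O.mem_nhds (hΨO x))).differentiableAt (by simp)
    -- the linear map
    set L : EuclideanSpace ℝ (Fin n) →L[ℝ] EuclideanSpace ℝ (Fin P.N) :=
      (fderiv ℝ P.R (Ψ x)).comp (dd n Ψ x) with hL
    -- kernel relation
    have hker : ∀ v : EuclideanSpace ℝ (Fin n), dd n (fun x => e a (P.pr (Ψ x))) x v = 0 →
        L v = 0 := by
      intro v hv
      have hid : DifferentiableAt ℝ (fun y => P.i ((e a).symm y)) (e a (P.pr (Ψ x))) :=
        ((P.smooth_i a).contDiffAt ((e a).open_target.mem_nhds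
          ((e a).map_source hx))).differentiableAt (by simp)
      have h1 := dd_comp (g := fun y => P.i ((e a).symm y)) hDΦ hid v
      rw [hv, map_zero] at h1
      have h2 : (fun y => P.i ((e a).symm (e a (P.pr (Ψ y))))) =ᶠ[𝓝 x] fun y => P.R (Ψ y) := by
        have : ∀ᶠ y in 𝓝 x, Ψ y ∈ P.O ∩ P.pr ⁻¹' (e a).source :=
          hΨc.continuousAt.eventually ((P.isOpen_pre a).mem_nhds hmem)
        filter_upwards [this] with y hy
        rw [(e a).left_inv hy.2, Proj.R]
      rw [dd_congr h2, dd_comp (g := P.R) hDΨ hRd] at h1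
      exact h1
    have hLinj : ∀ v, L v = 0 → v = 0 := by
      set F : M → EuclideanSpace ℝ (Fin P.N) := fun x => P.i (g x) with hF
      set f := (fl x).f with hf
      set B := (fl x).B with hB
      have hxx : dist x x < 15 * δ := by rw [dist_self]; positivity
      -- frame
      have hz : ∀ j : Fin n, ∃ z, dist z x ≤ 2 * δ ∧
          ‖f z - (f x + δ • EuclideanSpace.single j (1 : ℝ))‖ ≤ σ ^ 2 * δ := by
        intro j
        have hn1 : ‖(f x + δ • EuclideanSpace.single j (1 : ℝ)) - f x‖ = δ := by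
          rw [add_sub_cancel_left, norm_smul, Real.norm_of_nonneg hδ0.le]
          simp
        obtain ⟨z, hz1, hz2⟩ := (fl x).dense (f x + δ • EuclideanSpace.single j (1 : ℝ)) (by
          rw [← hf, hn1]; linarith)
        refine ⟨z, ?_, hz2⟩
        have h1 := (abs_le.1 ((fl x).iso z x hz1 hxx)).1
        have h2 : ‖f z - f x‖ ≤ σ ^ 2 * δ + δ := by
          have h3 : f z - f x = (f z - (f x + δ • EuclideanSpace.single j (1 : ℝ))) +
              ((f x + δ • EuclideanSpace.single j (1 : ℝ)) - f x) := by abel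
          rw [h3]
          exact (norm_add_le _ _).trans (add_le_add hz2 hn1.le)
        linarith
      choose z hz1 hz2 using hz
      choose w hw hwz using fun j => exists_min (G := G) x (z j)
      refine injective_of_frame L B (fun j => (w j : EuclideanSpace ℝ (Fin n))) hδ0 (fl x).lo
        hpar fun j => ?_
      have hzx15 : dist (z j) x < 15 * δ := by linarith [hz1 j]
      have hlin := (fl x).lin (z j) x hzx15 hxx
      have hfz : ‖f (z j) - f x‖ ≤ 2 * δ + σ ^ 2 * δ := by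
        have := (abs_le.1 ((fl x).iso (z j) x hzx15 hxx)).2
        linarith [hz1 j]
      -- size of the displacement
      set E : EuclideanSpace ℝ (Fin P.N) := F (z j) - F x with hE
      have hEn : ‖E‖ ≤ (3 * P.C₀ + 1) * δ := by
        have h1 : ‖B (f (z j) - f x)‖ ≤ P.C₀ * (2 * δ + σ ^ 2 * δ) :=
          ((fl x).hi _).trans (mul_le_mul_of_nonneg_left hfz hC0)
        have h2 : E = (E - B (f (z j) - f x)) + B (f (z j) - f x) := by abel
        rw [h2]
        refine (norm_add_le _ _).trans ((add_le_add hlin h1).trans ?_)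
        nlinarith
      have hdΨ : ‖dd n Ψ x (w j) - E‖ ≤ K4 n P.C₀ * (σ * δ) :=
        (hΨ x).2 (z j) (hz1 j) (w j) (hw j) (hwz j)
      obtain ⟨-, hDd, hDb⟩ := hρ1 (g x) (Ψ x) ((hΨ x).1.trans hδ1)
      have hmv := hρ2 (g x) (g (z j)) (hEn.trans hδ2)
      have hEκ : κ * ‖E‖ ≤ κ * (3 * P.C₀ + 1) * δ := by
        have := mul_le_mul_of_nonneg_left hEn hκ.le
        linarith
      -- the three errors
      have a1 : ‖fderiv ℝ P.R (Ψ x) (dd n Ψ x (w j) - E)‖ ≤ Λ * (K4 n P.C₀ * σ) * δ := by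
        calc _ ≤ ‖fderiv ℝ P.R (Ψ x)‖ * ‖dd n Ψ x (w j) - E‖ := ContinuousLinearMap.le_opNorm _ _
          _ ≤ Λ * (K4 n P.C₀ * (σ * δ)) := mul_le_mul hDb hdΨ (norm_nonneg _) hΛ
          _ = _ := by ring
      have a2 : ‖(fderiv ℝ P.R (Ψ x) - fderiv ℝ P.R (P.i (g x))) E‖ ≤
          κ * (3 * P.C₀ + 1) * δ := by
        calc _ ≤ ‖fderiv ℝ P.R (Ψ x) - fderiv ℝ P.R (P.i (g x))‖ * ‖E‖ :=
              ContinuousLinearMap.le_opNorm _ _
          _ ≤ κ * ‖E‖ := mul_le_mul_of_nonneg_right hDd (norm_nonneg _)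
          _ ≤ _ := hEκ
      have a3 : ‖fderiv ℝ P.R (P.i (g x)) E - E‖ ≤ κ * (3 * P.C₀ + 1) * δ := by
        rw [norm_sub_rev]
        exact hmv.trans hEκ
      have a4 : ‖E - B (f (z j) - f x)‖ ≤ σ ^ 2 * δ := hlin
      have a5 : ‖B (f (z j) - f x) - δ • B (EuclideanSpace.single j (1 : ℝ))‖ ≤
          P.C₀ * (σ ^ 2 * δ) := by
        have h1 : B (f (z j) - f x) - δ • B (EuclideanSpace.single j (1 : ℝ)) =
            B (f (z j) - (f x + δ • EuclideanSpace.single j (1 : ℝ))) := by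
          rw [← map_smul, ← map_sub]
          congr 1
          abel
        rw [h1]
        exact ((fl x).hi _).trans (mul_le_mul_of_nonneg_left (hz2 j) hC0)
      have hsum : L (w j) - δ • B (EuclideanSpace.single j (1 : ℝ)) =
          fderiv ℝ P.R (Ψ x) (dd n Ψ x (w j) - E) +
          (fderiv ℝ P.R (Ψ x) - fderiv ℝ P.R (P.i (g x))) E +
          (fderiv ℝ P.R (P.i (g x)) E - E) + (E - B (f (z j) - f x)) +
          (B (f (z j) - f x) - δ • B (EuclideanSpace.single j (1 : ℝ))) := by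
        have h1 : L (w j) = fderiv ℝ P.R (Ψ x) (dd n Ψ x (w j)) := rfl
        rw [h1, map_sub, _root_.sub_apply]
        abel
      refine (congrArg norm hsum).le.trans ?_
      refine (norm_add_le _ _).trans ((add_le_add ((norm_add_le _ _).trans
        (add_le_add ((norm_add₃_le).trans (add_le_add (add_le_add a1 a2) a3)) a4)) a5).trans ?_)
      linarith
    have hmd : mfderiv (𝓡 n) (𝓡 n) (fun x => e a (P.pr (Ψ x))) x =
        dd n (fun x => e a (P.pr (Ψ x))) x := mfderiv_eq_dd (hsΦ.mdifferentiableAt (by simp))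
    intro v v' hvv'
    have h1 : dd n (fun x => e a (P.pr (Ψ x))) x v = dd n (fun x => e a (P.pr (Ψ x))) x v' := by
      have h2 : ∀ u : EuclideanSpace ℝ (Fin n),
          mfderiv (𝓡 n) (𝓡 n) (fun x => e a (P.pr (Ψ x))) x u =
          dd n (fun x => e a (P.pr (Ψ x))) x u := fun u => by rw [hmd]; rfl
      exact (h2 v).symm.trans (hvv'.trans (h2 v'))
    have h4 : ∀ b c : EuclideanSpace ℝ (Fin n), dd n (fun x => e a (P.pr (Ψ x))) x b =
        dd n (fun x => e a (P.pr (Ψ x))) x c → b = c := fun b c h => by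
      have h3 : dd n (fun x => e a (P.pr (Ψ x))) x (b - c) = 0 := by
        rw [map_sub]
        exact sub_eq_zero.2 h
      exact sub_eq_zero.1 (hLinj _ (hker _ h3))
    exact h4 v v' h1

end

end Crest.Agent.R249.D4_789
end

-- ▼ part R249/D4Fin_789
section

/-!
R249, part D4 (helper789), file 12: `D4Out` from the projection data.
-/

set_option autoImplicit false
set_option linter.unusedSectionVars false

open MeasureTheory Set Filter Metric Bundle
open scoped ContDiff ENNReal NNReal Topology Manifold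
open Crest.GeometryTopology.CoordMetric Crest.GeometryTopology.ChartCurvature
  Crest.GeometryTopology.RicciEnergy Crest.GeometryTopology.PointedLimit
open Crest.Agent.R226
open Crest.Agent.R249.Ul174 Crest.Agent.R249.AsmD832

namespace Crest.Agent.R249.D4_789

noncomputable section

/-- the projection data exist for every compact space covered by finitely many smooth Einstein
charts with smooth transitions -/
def ProjStmt : Prop :=
  ∀ (X : Type) [MetricSpace X] [CompactSpace X] [Nonempty X] (lam : ℝ) (m : ℕ)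
    (C : Fin m → RChart 4 X lam), (∀ z, ∃ a, z ∈ (C a).e.source) →
    (∀ a b, ContDiffOn ℝ ∞ (fun y => (C b).e ((C a).e.symm y))
      {y | y ∈ (C a).e.target ∧ (C a).e.symm y ∈ (C b).e.source}) →
    Nonempty (Proj 4 X (fun a => (C a).e))

theorem d4out_of (hP : ProjStmt) : D4Out := by
  intro M _ _ _ _ _ _ _ _ q D lam _ hD hpack hK hdiam m C hcov htr
  obtain ⟨P⟩ := hP (UL q) lam m C hcov htr
  obtain ⟨ε, hε, hmain⟩ := P.exists_local_diffeo
  obtain ⟨D', hD'⟩ := Metric.isBounded_iff.1 (isCompact_univ (X := UL q)).isBounded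
  have hap := hpack.approx (R := max D D' + 1 + ε) (ε := ε)
    (by have := le_max_left D D'; linarith) hε
  filter_upwards [hK, hdiam, hap] with k hKk hdk hak
  obtain ⟨g, -, hg1, hg2⟩ := hak
  obtain ⟨G⟩ := nonempty_geo (n := 4) (M := M k)
  refine hmain (M k) G (hinge G hKk) g (fun x y => ?_) fun z => ?_
  · have h1 : ∀ x : M k, 1 * dist (q k) x < max D D' + 1 + ε := fun x => by
      have h2 := hdk (q k) x
      have h3 := le_max_left D D'
      linarith
    have h4 := hg1 x y (h1 x) (h1 y)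
    rwa [one_mul] at h4
  · obtain ⟨x, -, hx⟩ := hg2 z (by
      have h2 : dist (UL.base q) z ≤ D' := hD' (mem_univ _) (mem_univ _)
      have h3 := le_max_right D D'
      linarith)
    exact ⟨x, hx⟩

end

end Crest.Agent.R249.D4_789
end

-- ▼ part R249/KRic_104
section

/-!
# R249 (S0386), helper104: `KRic` of `AsmD_832` (`sec ≥ 0` implies `Ric ≥ 0`)
-/

set_option autoImplicit false

namespace Crest.Agent.R249.KRic104

theorem kRic : Crest.Agent.R249.AsmD832.KRic := by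
  intro M _ _ _ _ _ h
  exact Crest.Agent.R249.Alg2_104.ricBound_of_sec h

end Crest.Agent.R249.KRic104
end

-- ▼ part R249/Sch2_104
section

/-!
# R249, D1 (helper104): the integrated contracted Bianchi identity

For `f` smooth with compact support,
`∫ ⟪Ric, Hess f⟫ = (1/2) ∫ s Δf` (`int_ric_hess`), from `divg_key` and the divergence theorem
`Vf281.integral_mDiv_eq_zero`.
-/

set_option autoImplicit false
set_option maxSynthPendingDepth 3
set_option linter.unusedSectionVars false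

open scoped ContDiff Topology Manifold RealInnerProductSpace ENNReal NNReal
open Filter Set Bundle MeasureTheory Metric
open Crest.GeometryTopology.CoordMetric Crest.GeometryTopology.ChartCurvature
  Crest.GeometryTopology.PointedLimit Crest.GeometryTopology.RicciEnergy
open Crest.Agent.R202.Tens Crest.Agent.R247.Bo84 Crest.Agent.R247.Ms322
open Crest.Agent.R247.Hes124 (F S mv tr idm)
open Crest.Agent.R247.Bs84
open Crest.Agent.R249.Bia3_104 Crest.Agent.R249.Bia4_104 Crest.Agent.R249.D1Def104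
open Crest.Agent.R249.Sch1_104
open Crest.Agent.R249.Vf281 (vCh VSm mDiv mDiv_chart vCh_mgrad integral_mDiv_eq_zero)

noncomputable section

namespace Crest.Agent.R249.Sch2_104

variable {n : ℕ} {M : Type*} [MetricSpace M] [ChartedSpace (EuclideanSpace ℝ (Fin n)) M]
  [IsManifold (𝓡 n) ∞ M]
  [RiemannianBundle (fun p : M => TangentSpace (𝓡 n) p)]
  [IsContMDiffRiemannianBundle (𝓡 n) ∞ (EuclideanSpace ℝ (Fin n))
    (fun p : M => TangentSpace (𝓡 n) p)]
  [SecondCountableTopology M] [Nonempty M]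

local notation "𝔼" => EuclideanSpace ℝ (Fin n)

/-- the field `Ric(∇f) - (s/2) ∇f`. -/
def XF (f : M → ℝ) (z : M) : TangentSpace (𝓡 n) z :=
  (∑ a, (∑ b, Ricf (n := n) z (a, b) * inner ℝ (fr z b) (mgrad n f z)) • fr z a) -
    ((1/2) * mScal n M z) • mgrad n f z

lemma ricE_frame {g : MetricField n} {U : Set 𝔼} {x : 𝔼} (hg : IsRiemannianOn g U) (hx : x ∈ U)
    {ξ : Fin n → 𝔼} (h : IsFrame (g x) ξ) (Y : 𝔼) :
    ricE g x Y = ∑ a, (∑ b, ricF g x (ξ a) (ξ b) * bil (g x) (ξ b) Y) • ξ a := by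
  conv_lhs => rw [h.expand hg hx (ricE g x Y)]
  refine Finset.sum_congr rfl fun a _ => ?_
  congr 1
  rw [bil_ricE hg hx, ricF_symm hg hx, ← bil_ricE hg hx]
  conv_lhs => rw [h.expand hg hx Y]
  rw [map_sum]
  refine Finset.sum_congr rfl fun b _ => ?_
  rw [map_smul, smul_eq_mul, bil_symm hg hx Y, bil_ricE hg hx]
  ring

lemma dCh_sum_fr (x₀ z : M) (c : Fin n → ℝ) :
    dCh x₀ z (∑ a, c a • fr z a) = ∑ a, c a • frc x₀ z a :=
  (map_sum (dCh x₀ z) (fun a => (c a • fr z a : TangentSpace (𝓡 n) z)) Finset.univ).trans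
    (Finset.sum_congr rfl fun a _ => map_smul (dCh x₀ z) (c a) (fr z a))

/-- the field in every chart -/
lemma vCh_XF (x₀ : M) {y : 𝔼} (hy : y ∈ (chartAt 𝔼 x₀).target) (f : M → ℝ) :
    vCh n x₀ (XF f) y = ricE (chartMetric n M x₀) y (grad (chartMetric n M x₀) (inCh n x₀ f) y)
      - ((1/2) * scalarCurv (chartMetric n M x₀) y) •
        grad (chartMetric n M x₀) (inCh n x₀ f) y := by
  have hz := (chartAt 𝔼 x₀).map_target hy
  have hgr : dCh x₀ ((chartAt 𝔼 x₀).symm y) (mgrad n f ((chartAt 𝔼 x₀).symm y)) =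
      grad (chartMetric n M x₀) (inCh n x₀ f) y := vCh_mgrad hy f
  have hin : ∀ b, inner ℝ (fr ((chartAt 𝔼 x₀).symm y) b) (mgrad n f ((chartAt 𝔼 x₀).symm y)) =
      bil (chartMetric n M x₀ y) (frc x₀ ((chartAt 𝔼 x₀).symm y) b)
        (grad (chartMetric n M x₀) (inCh n x₀ f) y) := by
    intro b
    have h1 := inner_eq_bil x₀ hz (fr ((chartAt 𝔼 x₀).symm y) b)
      (mgrad n f ((chartAt 𝔼 x₀).symm y))
    rw [(chartAt 𝔼 x₀).right_inv hy] at h1
    rw [← hgr]
    exact h1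
  rw [ricE_frame (Crest.Agent.R247.Bo84.isRiemannianOn_chartMetric (n := n) x₀) hy
    (isFrame_frc x₀ hy)]
  have h1 : vCh n x₀ (XF f) y = dCh x₀ ((chartAt 𝔼 x₀).symm y)
      (∑ a, (∑ b, Ricf (n := n) ((chartAt 𝔼 x₀).symm y) (a, b) *
        inner ℝ (fr ((chartAt 𝔼 x₀).symm y) b) (mgrad n f ((chartAt 𝔼 x₀).symm y))) •
          fr ((chartAt 𝔼 x₀).symm y) a) - ((1/2) * mScal n M ((chartAt 𝔼 x₀).symm y)) •
      dCh x₀ ((chartAt 𝔼 x₀).symm y) (mgrad n f ((chartAt 𝔼 x₀).symm y)) :=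
    (map_sub (dCh x₀ ((chartAt 𝔼 x₀).symm y)) _ _).trans
      (congrArg₂ (· - ·) rfl (map_smul (dCh x₀ ((chartAt 𝔼 x₀).symm y)) _ _))
  rw [h1, dCh_sum_fr, mScal_chart x₀ hy, hgr]
  congr 1
  refine Finset.sum_congr rfl fun a _ => ?_
  congr 1
  refine Finset.sum_congr rfl fun b _ => ?_
  rw [hin b, ricF_frc x₀ hy]

lemma eventually_vCh_XF (x₀ : M) {y : 𝔼} (hy : y ∈ (chartAt 𝔼 x₀).target) (f : M → ℝ) :
    vCh n x₀ (XF f) =ᶠ[𝓝 y] fun w =>
      ricE (chartMetric n M x₀) w (grad (chartMetric n M x₀) (inCh n x₀ f) w)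
      - ((1/2) * scalarCurv (chartMetric n M x₀) w) •
        grad (chartMetric n M x₀) (inCh n x₀ f) w := by
  filter_upwards [(chartAt 𝔼 x₀).open_target.mem_nhds hy] with w hw using vCh_XF x₀ hw f

lemma VSm_XF {f : M → ℝ} {p : M} (hf : ContMDiffAt (𝓡 n) 𝓘(ℝ, ℝ) ∞ f p) :
    VSm n 1 (XF f) p := by
  refine ContDiffAt.congr_of_eventuallyEq ?_ (eventually_vCh_XF p (centre_mem p) f)
  have hg := Crest.Agent.R247.Bo84.isRiemannianOn_chartMetric (n := n) p
  have hx := centre_mem (n := n) p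
  have h1 : ContDiffAt ℝ 1 (grad (chartMetric n M p) (inCh n p f)) (chartCentre n M p) :=
    contDiffAt_grad hg hx (contDiffAt_centre two_le_infty (hf.of_le two_le_infty))
      (by norm_num) (by simp)
  refine ContDiffAt.sub ?_ ?_
  · exact ((contDiffAt_ricE hg hx).of_le (by norm_num)).clm_apply h1
  · exact (contDiffAt_const.mul ((contDiffAt_scalarCurv hg hx).of_le (by norm_num))).smul h1

/-- `div (Ric ∇f - (s/2)∇f) = ⟪Ric, Hess f⟫ - (s/2) Δf`. -/
theorem mDiv_XF {f : M → ℝ} {p : M} (hf : ContMDiffAt (𝓡 n) 𝓘(ℝ, ℝ) ∞ f p) :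
    mDiv n (XF f) p = ⟪Ricf (n := n) p, Hf (n := n) f p⟫ - (1/2) * mScal n M p * mLap n f p := by
  have hg := Crest.Agent.R247.Bo84.isRiemannianOn_chartMetric (n := n) p
  have hx := centre_mem (n := n) p
  have hfc := contDiffAt_centre (n := n) two_le_infty (hf.of_le two_le_infty)
  have h2 : ContMDiffAt (𝓡 n) 𝓘(ℝ, ℝ) 2 f ((chartAt 𝔼 p).symm (chartCentre n M p)) := by
    rw [centre_symm]; exact hf.of_le two_le_infty
  rw [mDiv, divg_congr (eventually_vCh_XF p hx f), divg_key hg hx hfc, trL_chart p hx h2,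
    centre_symm, mScal, mLap]

section integral

variable [IsRiemannianManifold (𝓡 n) M] [MeasurableSpace M] [BorelSpace M]

theorem XF_zero_off {f : M → ℝ} {z : M} (hz : z ∉ tsupport f) : XF (n := n) f z = 0 := by
  have hev : f =ᶠ[𝓝 z] fun _ => 0 := Crest.Agent.R247.Bs84.eventually_zero hz
  have hg0 : mgrad n f z = 0 := by rw [mgrad_congr hev, mgrad_const]
  rw [XF, hg0]
  simp

/-- **the integrated contracted Bianchi identity** -/
theorem int_ric_hess {f : M → ℝ} (hf : f ∈ core n M) :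
    Integrable (fun z => ⟪Ricf (n := n) z, Hf (n := n) f z⟫ - (1/2) * mScal n M z * mLap n f z)
      (μHE[n] : Measure M) ∧
    ∫ z, (⟪Ricf (n := n) z, Hf (n := n) f z⟫ - (1/2) * mScal n M z * mLap n f z)
      ∂(μHE[n] : Measure M) = 0 := by
  have h1 := integral_mDiv_eq_zero (n := n) (X := XF (n := n) f) (K := tsupport f) (U := univ)
    isOpen_univ (fun z _ => VSm_XF (hf.1 z)) hf.2.isCompact (subset_univ _)
    (fun z hz => XF_zero_off hz)
  have e : mDiv n (XF (n := n) f) = fun z =>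
      ⟪Ricf (n := n) z, Hf (n := n) f z⟫ - (1/2) * mScal n M z * mLap n f z :=
    funext fun z => mDiv_XF (hf.1 z)
  rw [e] at h1
  exact h1

end integral

end Crest.Agent.R249.Sch2_104
end
end

-- ▼ part R249/Sch3_104
section

/-!
# R249, D1 (helper104): the almost Schur inequality (De Lellis--Topping), n = 4

`almost_schur` : for `M` closed with `Ric ≥ 0`, `f` smooth with `Δ f = s - m`, `∫ (s - m) = 0`,
`∫ (s - m)² ≤ 12 ∫ |Ric₀|²`.
-/

set_option autoImplicit false
set_option maxSynthPendingDepth 3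
set_option linter.unusedSectionVars false

open scoped ContDiff Topology Manifold RealInnerProductSpace ENNReal NNReal
open Filter Set Bundle MeasureTheory Metric
open Crest.GeometryTopology.CoordMetric Crest.GeometryTopology.ChartCurvature
  Crest.GeometryTopology.PointedLimit Crest.GeometryTopology.RicciEnergy
open Crest.Agent.R202.Tens Crest.Agent.R247.Bo84 Crest.Agent.R247.Ms322
open Crest.Agent.R247.Hes124 (F S mv tr idm)
open Crest.Agent.R247.Bs84
open Crest.Agent.R249.Bia3_104 Crest.Agent.R249.Bia4_104 Crest.Agent.R249.D1Def104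
open Crest.Agent.R249.Sch1_104 Crest.Agent.R249.Sch2_104
open Crest.Agent.R249.Vf281 (vCh VSm mDiv mDiv_chart vCh_mgrad integral_mDiv_eq_zero)

noncomputable section

namespace Crest.Agent.R249.Sch3_104

variable {n : ℕ} {M : Type*} [MetricSpace M] [ChartedSpace (EuclideanSpace ℝ (Fin n)) M]
  [IsManifold (𝓡 n) ∞ M]
  [RiemannianBundle (fun p : M => TangentSpace (𝓡 n) p)]
  [IsContMDiffRiemannianBundle (𝓡 n) ∞ (EuclideanSpace ℝ (Fin n))
    (fun p : M => TangentSpace (𝓡 n) p)]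
  [SecondCountableTopology M] [Nonempty M]

local notation "𝔼" => EuclideanSpace ℝ (Fin n)

/-- pointwise: `⟪R - (s/n), H - (t/n)⟫ ≤ (3/2)|R - s/n|² + (1/6)|H - t/n|²`, in expanded form. -/
lemma young_S (hn : n ≠ 0) (R H : S n) :
    ⟪R, H⟫ - tr R * tr H / n ≤ (3/2) * (‖R‖ ^ 2 - tr R ^ 2 / n) +
      (1/6) * (‖H‖ ^ 2 - tr H ^ 2 / n) := by
  have hn' : (n : ℝ) ≠ 0 := by exact_mod_cast hn
  have key : 0 ≤ ‖(3:ℝ) • (R - (tr R / n) • idm n) - (H - (tr H / n) • idm n)‖ ^ 2 := by positivity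
  have e1 : ‖R - (tr R / n) • idm n‖ ^ 2 = ‖R‖ ^ 2 - tr R ^ 2 / n := by
    rw [norm_sub_sq_real, norm_smul, mul_pow, Crest.Agent.R247.Hes124.norm_idm_sq,
      inner_smul_right, Crest.Agent.R247.Hes124.inner_idm, Real.norm_eq_abs, sq_abs]
    field_simp
    ring
  have e2 : ‖H - (tr H / n) • idm n‖ ^ 2 = ‖H‖ ^ 2 - tr H ^ 2 / n := by
    rw [norm_sub_sq_real, norm_smul, mul_pow, Crest.Agent.R247.Hes124.norm_idm_sq,
      inner_smul_right, Crest.Agent.R247.Hes124.inner_idm, Real.norm_eq_abs, sq_abs]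
    field_simp
    ring
  have e3 : ⟪R - (tr R / n) • idm n, H - (tr H / n) • idm n⟫ = ⟪R, H⟫ - tr R * tr H / n := by
    rw [inner_sub_left, inner_sub_right, inner_sub_right, inner_smul_left, inner_smul_left,
      inner_smul_right, inner_smul_right, Crest.Agent.R247.Hes124.inner_idm,
      real_inner_self_eq_norm_sq, Crest.Agent.R247.Hes124.norm_idm_sq,
      real_inner_comm H (idm n), Crest.Agent.R247.Hes124.inner_idm]
    simp only [conj_trivial]
    field_simp
    ring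
  rw [norm_sub_sq_real, norm_smul, mul_pow, inner_smul_left, e1, e2, e3] at key
  simp only [conj_trivial, Real.norm_eq_abs, sq_abs] at key
  nlinarith [key]

lemma integral_comb {X : Type*} [MeasurableSpace X] {μ : Measure X} {a b c d : X → ℝ}
    (ia : Integrable a μ) (ib : Integrable b μ) (ic : Integrable c μ) (id : Integrable d μ)
    (α β γ δ : ℝ) :
    Integrable (fun z => α * a z + (β * b z - γ * c z) - δ * d z) μ ∧
    ∫ z, (α * a z + (β * b z - γ * c z) - δ * d z) ∂μ =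
      α * ∫ z, a z ∂μ + (β * ∫ z, b z ∂μ - γ * ∫ z, c z ∂μ) - δ * ∫ z, d z ∂μ := by
  have j1 : Integrable (fun z => β * b z - γ * c z) μ := (ib.const_mul β).sub (ic.const_mul γ)
  have j2 : Integrable (fun z => α * a z + (β * b z - γ * c z)) μ := (ia.const_mul α).add j1
  refine ⟨j2.sub (id.const_mul δ), ?_⟩
  rw [integral_sub j2 (id.const_mul δ), integral_add (ia.const_mul α) j1,
    integral_sub (ib.const_mul β) (ic.const_mul γ), integral_const_mul, integral_const_mul,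
    integral_const_mul, integral_const_mul]

section integral

variable [IsRiemannianManifold (𝓡 n) M] [CompactSpace M] [MeasurableSpace M] [BorelSpace M]

/-- the basic integrated inequality, for every smooth `f` on a closed manifold with `Ric ≥ 0`. -/
theorem schur_ineq (hn : n ≠ 0) (hR : HasRicciLowerBound n M 0) {f : M → ℝ}
    (hf : ContMDiff (𝓡 n) 𝓘(ℝ) ∞ f) :
    (1/2 - 1/n) * ∫ z, mScal n M z * mLap n f z ∂(μHE[n] : Measure M) ≤
      (3/2) * ∫ z, tracefreeRicciDensity n M z ∂(μHE[n] : Measure M) +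
      (1/6) * (1 - 1/n) * ∫ z, mLap n f z ^ 2 ∂(μHE[n] : Measure M) := by
  have hn' : (n : ℝ) ≠ 0 := by exact_mod_cast hn
  have hc : f ∈ core n M := ⟨hf, HasCompactSupport.of_compactSpace f⟩
  obtain ⟨i0, h0⟩ := int_ric_hess (n := n) hc
  have hf2 : ∀ z, ContMDiffAt (𝓡 n) 𝓘(ℝ, ℝ) 2 f z := fun z => (hf z).of_le two_le_infty
  have cL : Continuous (mLap n f) := (Grn324.contMDiff_mLap hf).continuous
  have cS : Continuous (mScal n M) := continuous_mScal
  have iSL : Integrable (fun z => mScal n M z * mLap n f z) (μHE[n] : Measure M) :=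
    Grn324.integrable_cont (cS.mul cL)
  have iD : Integrable (tracefreeRicciDensity n M) (μHE[n] : Measure M) :=
    Grn324.integrable_cont (continuous_density hn)
  have iL : Integrable (fun z => mLap n f z ^ 2) (μHE[n] : Measure M) :=
    Grn324.integrable_cont (cL.pow 2)
  have iH : Integrable (fun z => mHessSq n f z) (μHE[n] : Measure M) :=
    Grn324.integrable_cont (Grn324.continuous_mHessSq (hf.of_le two_le_infty))
  have hB := Grn324.integral_mHessSq_le (n := n) hR hf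
  rw [zero_mul, add_zero] at hB
  have hpt : ∀ z, (⟪Ricf (n := n) z, Hf (n := n) f z⟫ - (1/2) * mScal n M z * mLap n f z) ≤
      (3/2) * tracefreeRicciDensity n M z + ((1/6) * mHessSq n f z - (1/6) * (1/n) * mLap n f z ^ 2)
        - (1/2 - 1/n) * (mScal n M z * mLap n f z) := by
    intro z
    have h1 := young_S hn (Ricf (n := n) z) (Hf (n := n) f z)
    rw [tr_Ricf, tr_Hf (hf2 z), norm_Hf_sq (hf2 z), ← density_eq hn] at h1
    have e : mScal n M z * mLap n f z / n = (1/n) * (mScal n M z * mLap n f z) := by ring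
    have e' : mLap n f z ^ 2 / n = (1/n) * mLap n f z ^ 2 := by ring
    rw [e, e'] at h1
    linarith
  obtain ⟨j1, j2⟩ := integral_comb iD iH iL iSL (3/2) (1/6) ((1/6) * (1/n)) (1/2 - 1/n)
  have hint := integral_mono i0 j1 hpt
  rw [h0, j2] at hint
  nlinarith [hint, hB]

end integral

section four

variable {M : Type*} [MetricSpace M] [ChartedSpace (EuclideanSpace ℝ (Fin 4)) M]
  [IsManifold (𝓡 4) ∞ M]
  [RiemannianBundle (fun p : M => TangentSpace (𝓡 4) p)]
  [IsContMDiffRiemannianBundle (𝓡 4) ∞ (EuclideanSpace ℝ (Fin 4))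
    (fun p : M => TangentSpace (𝓡 4) p)]
  [IsRiemannianManifold (𝓡 4) M] [CompactSpace M] [MeasurableSpace M] [BorelSpace M]

/-- **almost Schur** (given the solution of the Poisson equation). -/
theorem almost_schur_of [Nonempty M] (hR : HasRicciLowerBound 4 M 0) {f : M → ℝ} {m : ℝ}
    (hf : ContMDiff (𝓡 4) 𝓘(ℝ) ∞ f) (hfe : ∀ z, mLap 4 f z = mScal 4 M z - m) :
    ∫ z, (mScal 4 M z - m) ^ 2 ∂(μHE[4] : Measure M) ≤
      12 * ∫ z, tracefreeRicciDensity 4 M z ∂(μHE[4] : Measure M) := by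
  have h1 := schur_ineq (n := 4) (by norm_num) hR hf
  have h2 := Grn324.integral_mLap (n := 4) (hf.of_le two_le_infty)
  have cS : Continuous (mScal 4 M) := continuous_mScal
  simp only [hfe] at h1 h2
  have iS2 : Integrable (fun z => (mScal 4 M z - m) ^ 2) (μHE[4] : Measure M) :=
    Grn324.integrable_cont ((cS.sub continuous_const).pow 2)
  have iS : Integrable (fun z => mScal 4 M z - m) (μHE[4] : Measure M) :=
    Grn324.integrable_cont (cS.sub continuous_const)
  have e : ∫ z, mScal 4 M z * (mScal 4 M z - m) ∂(μHE[4] : Measure M) =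
      ∫ z, (mScal 4 M z - m) ^ 2 ∂(μHE[4] : Measure M) := by
    have e1 : ∀ z, mScal 4 M z * (mScal 4 M z - m) =
        (mScal 4 M z - m) ^ 2 + m * (mScal 4 M z - m) := fun z => by ring
    simp only [e1]
    rw [integral_add iS2 (iS.const_mul m), integral_const_mul, h2]
    ring
  rw [e] at h1
  norm_num at h1
  linarith

end four

end Crest.Agent.R249.Sch3_104
end
end

-- ▼ part R249/Diam2_709
section

/-!
R249 (helper709), leaf D1-DIAM, file 2: the abstract half.

`Rad n 0 X μ` (radial contraction structure, Ric ≥ 0), `g ≥ 0` measurable, every geodesic of length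
in `(ρ - 2, ρ + 2)` has `∫ g ≥ 3/4` (in the normalised parameter), every point has a point at
distance exactly `ρ`. Then `c(n, ρ) * μ X ≤ ∫ g²`.
-/

set_option autoImplicit false
set_option linter.unusedSectionVars false

open Set Filter Topology Metric MeasureTheory
open scoped ENNReal NNReal
open Crest.Agent.R247.Mcp688

noncomputable section

namespace Crest.Agent.R249.Diam709

/-- an elementary inequality in `ℝ≥0∞`: `3/4 a b ≤ K (a + b) G`, `m ≤ a`, `m ≤ b`, `a, b < ∞`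
imply `3/4 m ≤ 2 K G`. -/
theorem enn_min {a b m K G : ℝ≥0∞} (ha : a ≠ ∞) (hb : b ≠ ∞) (hma : m ≤ a) (hmb : m ≤ b)
    (h : ENNReal.ofReal (3 / 4) * (a * b) ≤ K * (a + b) * G) :
    ENNReal.ofReal (3 / 4) * m ≤ 2 * K * G := by
  wlog hab : a ≤ b generalizing a b with H
  · exact H hb ha hmb hma (by rwa [mul_comm b a, add_comm b a]) (le_of_not_ge hab)
  rcases eq_or_ne b 0 with hb0 | hb0
  · have hm : m = 0 := le_antisymm (hmb.trans hb0.le) bot_le
    rw [hm, mul_zero]; exact bot_le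
  have h1 : ENNReal.ofReal (3 / 4) * a * b ≤ 2 * K * G * b := by
    calc ENNReal.ofReal (3 / 4) * a * b = ENNReal.ofReal (3 / 4) * (a * b) := by ring
      _ ≤ K * (a + b) * G := h
      _ ≤ K * (b + b) * G := by gcongr
      _ = 2 * K * G * b := by ring
  have h2 : ENNReal.ofReal (3 / 4) * a ≤ 2 * K * G := (ENNReal.mul_le_mul_iff_left hb0 hb).1 h1
  exact (mul_le_mul_right hma _).trans h2

/-- Cauchy–Schwarz in the form used below. -/
theorem cs_set {X : Type*} [MeasurableSpace X] {μ : Measure X} {W : Set X} {g : X → ℝ≥0∞}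
    (hg : Measurable g) {c : ℝ≥0∞} (hW : μ W ≠ ∞) (h : c * μ W ≤ ∫⁻ y in W, g y ∂μ) :
    c ^ 2 * μ W ≤ ∫⁻ y in W, g y ^ 2 ∂μ := by
  rcases eq_or_ne (μ W) 0 with h0 | h0
  · rw [h0, mul_zero]; exact bot_le
  -- Hölder with exponents 2, 2
  have hH : (∫⁻ y in W, g y ∂μ) ^ 2 ≤ μ W * ∫⁻ y in W, g y ^ 2 ∂μ := by
    have h1 := ENNReal.lintegral_mul_le_Lp_mul_Lq (μ.restrict W) (p := 2) (q := 2)
      (by constructor <;> norm_num) hg.aemeasurable
      (measurable_const (a := (1 : ℝ≥0∞))).aemeasurable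
    simp only [Pi.mul_apply, mul_one, ENNReal.one_rpow, lintegral_const, one_mul,
      Measure.restrict_apply MeasurableSet.univ, univ_inter] at h1
    calc (∫⁻ y in W, g y ∂μ) ^ 2
        ≤ ((∫⁻ y in W, g y ^ (2:ℝ) ∂μ) ^ (1 / (2:ℝ)) * μ W ^ (1 / (2:ℝ))) ^ 2 := by gcongr
      _ = μ W * ∫⁻ y in W, g y ^ 2 ∂μ := by
        rw [mul_pow, ← ENNReal.rpow_natCast, ← ENNReal.rpow_natCast, ← ENNReal.rpow_mul,
          ← ENNReal.rpow_mul]
        norm_num
        rw [mul_comm]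
  have h2 : (c * μ W) ^ 2 ≤ μ W * ∫⁻ y in W, g y ^ 2 ∂μ := (by gcongr : (c * μ W) ^ 2 ≤ _).trans hH
  have h3 : μ W * (c ^ 2 * μ W) ≤ μ W * ∫⁻ y in W, g y ^ 2 ∂μ := by
    calc μ W * (c ^ 2 * μ W) = (c * μ W) ^ 2 := by ring
      _ ≤ _ := h2
  exact (ENNReal.mul_le_mul_iff_right h0 hW).1 h3

section main

variable {X : Type*} [MetricSpace X] [MeasurableSpace X] [BorelSpace X] {μ : Measure X} {n : ℕ}
  (C : Rad n 0 X μ)

include C

/-- local lower bound of `∫ g` on the ball of radius `ρ + 4`. -/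
theorem local_lower [SFinite μ] (hfin : ∀ x r, μ (ball x r) ≠ ∞) {ρ : ℝ} (hρ : 2 < ρ)
    {g : X → ℝ≥0∞} (hg : Measurable g)
    (hgeo : ∀ x z, (x, z) ∈ C.U → ρ - 2 < dist x z → dist x z < ρ + 2 →
      ENNReal.ofReal (3 / 4) ≤ ∫⁻ t in Icc (0 : ℝ) 1, g (C.T x t z))
    {x y : X} (hxy : dist x y = ρ) :
    ENNReal.ofReal (3 / 4) * (ENNReal.ofReal ((2 * ρ + 5)⁻¹ ^ n) * μ (closedBall x (ρ + 4))) ≤
      2 * ENNReal.ofReal (2 ^ n) * ∫⁻ z in closedBall x (ρ + 4), g z ∂μ := by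
  have hseg := C.segment_le le_rfl (A := ball x 1) (B := ball y 1) (W := closedBall x (ρ + 4))
    measurableSet_ball measurableSet_ball measurableSet_closedBall (D := ρ + 2)
    (fun a ha b hb => by
      rw [mem_ball] at ha hb
      have h1 := dist_triangle a x b
      have h2 := dist_triangle x y b
      rw [dist_comm y b] at h2
      linarith)
    (fun a ha b hb hU t ht => by
      rw [mem_ball] at ha hb
      rw [mem_closedBall]
      have h1 := dist_triangle a x b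
      have h2 := dist_triangle x y b
      rw [dist_comm y b] at h2
      have h3 : dist (C.T a 0 b) (C.T a t b) = |0 - t| * dist a b :=
        C.dist_T a b hU 0 ⟨le_rfl, zero_le_one⟩ t ht
      rw [C.T_zero a b hU, zero_sub, abs_neg, abs_of_nonneg ht.1] at h3
      have h4 := dist_triangle (C.T a t b) a x
      rw [dist_comm (C.T a t b) a, h3] at h4
      have h5 : t * dist a b ≤ 1 * (ρ + 2) := by
        have : dist a b ≤ ρ + 2 := by linarith
        exact mul_le_mul ht.2 this dist_nonneg zero_le_one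
      linarith) hg
  simp only [zero_mul, zero_div, Real.exp_zero, one_mul] at hseg
  -- lower bound of the left side
  have hlow : ENNReal.ofReal (3 / 4) * (μ (ball x 1) * μ (ball y 1)) ≤
      ∫⁻ a in ball x 1, ∫⁻ b in ball y 1, ∫⁻ t in Icc (0 : ℝ) 1, g (C.T a t b) ∂volume ∂μ ∂μ := by
    calc ENNReal.ofReal (3 / 4) * (μ (ball x 1) * μ (ball y 1))
        = ∫⁻ _a in ball x 1, ∫⁻ _b in ball y 1, ENNReal.ofReal (3 / 4) ∂μ ∂μ := by
          rw [setLIntegral_const, setLIntegral_const]; ring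
      _ ≤ _ := by
          apply setLIntegral_mono' measurableSet_ball
          intro a ha
          apply setLIntegral_mono_ae' measurableSet_ball
          filter_upwards [C.ae_U a] with b hU hb
          rw [mem_ball] at ha hb
          have h1 := dist_triangle a x b
          have h2 := dist_triangle x y b
          rw [dist_comm y b] at h2
          have h3 := dist_triangle x a y
          have h4 := dist_triangle a b y
          rw [dist_comm x a] at h3
          exact hgeo a b hU (by linarith) (by linarith)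
  have key := hlow.trans hseg
  refine enn_min (hfin x 1) (hfin y 1) ?_ ?_ key
  · -- `(2ρ+5)⁻ⁿ μ(closedBall x (ρ+4)) ≤ μ(ball x 1)`
    have h1 := C.mu_ball_le le_rfl x (r := 1) (R := 2 * ρ + 5) one_pos (by linarith)
    simp only [zero_mul, zero_div, Real.exp_zero, one_mul, div_one] at h1
    have h2 : μ (closedBall x (ρ + 4)) ≤ μ (ball x (2 * ρ + 5)) :=
      measure_mono (closedBall_subset_ball (by linarith))
    calc ENNReal.ofReal ((2 * ρ + 5)⁻¹ ^ n) * μ (closedBall x (ρ + 4))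
        ≤ ENNReal.ofReal ((2 * ρ + 5)⁻¹ ^ n) *
          (ENNReal.ofReal ((2 * ρ + 5) ^ n) * μ (ball x 1)) := by
          gcongr
          exact h2.trans h1
      _ = μ (ball x 1) := by
          rw [← mul_assoc, ← ENNReal.ofReal_mul (by positivity), ← mul_pow,
            inv_mul_cancel₀ (by linarith : (2 * ρ + 5 : ℝ) ≠ 0), one_pow, ENNReal.ofReal_one,
            one_mul]
  · have h1 := C.mu_ball_le le_rfl y (r := 1) (R := 2 * ρ + 5) one_pos (by linarith)
    simp only [zero_mul, zero_div, Real.exp_zero, one_mul, div_one] at h1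
    have h2 : μ (closedBall x (ρ + 4)) ≤ μ (ball y (2 * ρ + 5)) := by
      apply measure_mono
      intro z hz
      rw [mem_closedBall] at hz
      rw [mem_ball]
      have := dist_triangle z x y
      linarith
    calc ENNReal.ofReal ((2 * ρ + 5)⁻¹ ^ n) * μ (closedBall x (ρ + 4))
        ≤ ENNReal.ofReal ((2 * ρ + 5)⁻¹ ^ n) *
          (ENNReal.ofReal ((2 * ρ + 5) ^ n) * μ (ball y 1)) := by
          gcongr
          exact h2.trans h1
      _ = μ (ball y 1) := by
          rw [← mul_assoc, ← ENNReal.ofReal_mul (by positivity), ← mul_pow,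
            inv_mul_cancel₀ (by linarith : (2 * ρ + 5 : ℝ) ≠ 0), one_pow, ENNReal.ofReal_one,
            one_mul]

/-- the constant of `local_lower`. -/
def c1 (n : ℕ) (ρ : ℝ) : ℝ := 3 / 8 * (2⁻¹) ^ n * (2 * ρ + 5)⁻¹ ^ n

omit C in
theorem c1_pos {n : ℕ} {ρ : ℝ} (hρ : 2 < ρ) : 0 < c1 n ρ := by
  unfold c1
  have : 0 < 2 * ρ + 5 := by linarith
  positivity

theorem local_lower' [SFinite μ] (hfin : ∀ x r, μ (ball x r) ≠ ∞) {ρ : ℝ} (hρ : 2 < ρ)
    {g : X → ℝ≥0∞} (hg : Measurable g)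
    (hgeo : ∀ x z, (x, z) ∈ C.U → ρ - 2 < dist x z → dist x z < ρ + 2 →
      ENNReal.ofReal (3 / 4) ≤ ∫⁻ t in Icc (0 : ℝ) 1, g (C.T x t z))
    {x y : X} (hxy : dist x y = ρ) :
    ENNReal.ofReal (c1 n ρ) * μ (closedBall x (ρ + 4)) ≤ ∫⁻ z in closedBall x (ρ + 4), g z ∂μ := by
  have h := local_lower C hfin hρ hg hgeo hxy
  have h5 : 0 < 2 * ρ + 5 := by linarith
  set I := ∫⁻ z in closedBall x (ρ + 4), g z ∂μ with hI
  have e1 : ENNReal.ofReal (c1 n ρ) * μ (closedBall x (ρ + 4)) =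
      ENNReal.ofReal (2⁻¹ * (2⁻¹) ^ n) * (ENNReal.ofReal (3 / 4) *
        (ENNReal.ofReal ((2 * ρ + 5)⁻¹ ^ n) * μ (closedBall x (ρ + 4)))) := by
    rw [← mul_assoc, ← mul_assoc, ← ENNReal.ofReal_mul (by positivity),
      ← ENNReal.ofReal_mul (by positivity)]
    congr 2
    unfold c1
    ring
  have e2 : ENNReal.ofReal (2⁻¹ * (2⁻¹) ^ n) * (2 * ENNReal.ofReal (2 ^ n) * I) = I := by
    have : (2 : ℝ≥0∞) = ENNReal.ofReal 2 := by norm_num
    rw [this, ← mul_assoc, ← ENNReal.ofReal_mul (by norm_num), ← ENNReal.ofReal_mul (by positivity)]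
    have : (2⁻¹ * (2⁻¹) ^ n * (2 * 2 ^ n) : ℝ) = 1 := by
      rw [inv_pow]
      field_simp
    rw [this, ENNReal.ofReal_one, one_mul]
  rw [e1]
  calc _ ≤ ENNReal.ofReal (2⁻¹ * (2⁻¹) ^ n) * (2 * ENNReal.ofReal (2 ^ n) * I) := by gcongr
    _ = I := e2

/-- **energy lower bound**. -/
theorem energy_lower [SFinite μ] [TopologicalSpace.SeparableSpace X] (hfin : ∀ x r, μ (ball x r) ≠ ∞) {ρ : ℝ}
    (hρ : 2 < ρ) {g : X → ℝ≥0∞} (hg : Measurable g)
    (hgeo : ∀ x z, (x, z) ∈ C.U → ρ - 2 < dist x z → dist x z < ρ + 2 →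
      ENNReal.ofReal (3 / 4) ≤ ∫⁻ t in Icc (0 : ℝ) 1, g (C.T x t z))
    (hfar : ∀ x : X, ∃ y, dist x y = ρ) :
    ENNReal.ofReal (c1 n ρ ^ 2 * (6⁻¹) ^ n) * μ univ ≤ ∫⁻ z, g z ^ 2 ∂μ := by
  set r := ρ + 4 with hr
  have hr0 : 0 < r := by linarith
  obtain ⟨u, -, hu1, hu2⟩ := Vitali.exists_disjoint_subfamily_covering_enlargement_closedBall
    (univ : Set X) (fun x => x) (fun _ => r) r (fun _ _ => le_rfl) 5 (by norm_num)
  have hcount : u.Countable := by
    refine hu1.countable_of_nonempty_interior fun x _ => ⟨x, ?_⟩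
    rw [mem_interior_iff_mem_nhds]
    exact closedBall_mem_nhds x hr0
  have hcov : (univ : Set X) ⊆ ⋃ x ∈ u, closedBall x (5 * r) := by
    intro z _
    obtain ⟨b, hb, hzb⟩ := hu2 z (mem_univ z)
    exact mem_iUnion₂.2 ⟨b, hb, hzb (mem_closedBall_self hr0.le)⟩
  have hone : ∀ x : X, ENNReal.ofReal (c1 n ρ ^ 2) * μ (closedBall x r) ≤
      ∫⁻ z in closedBall x r, g z ^ 2 ∂μ := by
    intro x
    obtain ⟨y, hy⟩ := hfar x
    have h1 := local_lower' C hfin hρ hg hgeo hy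
    have h2 : μ (closedBall x r) ≠ ∞ :=
      ((measure_mono (closedBall_subset_ball (lt_add_one r))).trans_lt
        (lt_top_iff_ne_top.2 (hfin x (r + 1)))).ne
    have h3 := cs_set hg h2 h1
    rwa [← ENNReal.ofReal_pow (c1_pos hρ).le] at h3
  have hdoub : ∀ x : X, μ (closedBall x (5 * r)) ≤ ENNReal.ofReal (6 ^ n) * μ (closedBall x r) := by
    intro x
    have h1 := C.mu_ball_le le_rfl x (r := r) (R := 6 * r) hr0 (by linarith)
    simp only [zero_mul, zero_div, Real.exp_zero, one_mul] at h1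
    rw [mul_div_assoc, div_self hr0.ne', mul_one] at h1
    calc μ (closedBall x (5 * r)) ≤ μ (ball x (6 * r)) :=
          measure_mono (closedBall_subset_ball (by linarith))
      _ ≤ ENNReal.ofReal (6 ^ n) * μ (ball x r) := h1
      _ ≤ _ := by gcongr; exact ball_subset_closedBall
  have h6 : ENNReal.ofReal ((6⁻¹) ^ n) * ENNReal.ofReal (6 ^ n) = 1 := by
    rw [← ENNReal.ofReal_mul (by positivity), ← mul_pow]
    norm_num
  calc ENNReal.ofReal (c1 n ρ ^ 2 * (6⁻¹) ^ n) * μ univ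
      = ENNReal.ofReal (c1 n ρ ^ 2) * (ENNReal.ofReal ((6⁻¹) ^ n) * μ univ) := by
        rw [ENNReal.ofReal_mul (by positivity), mul_assoc]
    _ ≤ ENNReal.ofReal (c1 n ρ ^ 2) * (ENNReal.ofReal ((6⁻¹) ^ n) *
        μ (⋃ x ∈ u, closedBall x (5 * r))) := by
        gcongr
    _ ≤ ENNReal.ofReal (c1 n ρ ^ 2) * (ENNReal.ofReal ((6⁻¹) ^ n) *
        ∑' x : u, μ (closedBall (x : X) (5 * r))) := by
        gcongr
        exact measure_biUnion_le μ hcount _
    _ ≤ ENNReal.ofReal (c1 n ρ ^ 2) * (ENNReal.ofReal ((6⁻¹) ^ n) *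
        ∑' x : u, ENNReal.ofReal (6 ^ n) * μ (closedBall (x : X) r)) := by
        gcongr with x
        exact hdoub x
    _ = ∑' x : u, ENNReal.ofReal (c1 n ρ ^ 2) * μ (closedBall (x : X) r) := by
        rw [ENNReal.tsum_mul_left, ENNReal.tsum_mul_left, ← mul_assoc (ENNReal.ofReal ((6⁻¹) ^ n)),
          h6, one_mul]
    _ ≤ ∑' x : u, ∫⁻ z in closedBall (x : X) r, g z ^ 2 ∂μ :=
        ENNReal.tsum_le_tsum fun x => hone x
    _ = ∫⁻ z in ⋃ x ∈ u, closedBall x r, g z ^ 2 ∂μ := by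
        rw [lintegral_biUnion hcount (fun _ _ => measurableSet_closedBall) hu1]
    _ ≤ ∫⁻ z, g z ^ 2 ∂μ := setLIntegral_le_lintegral _ _

end main

end Crest.Agent.R249.Diam709
end
end

-- ▼ part R249/Diam3_709
section

/-!
R249 (helper709), leaf D1-DIAM, file 3: the diameter bound.

`diam_energy n` : there is `c > 0` such that for every complete connected Riemannian `n`-manifold
with finite-volume balls (automatic), `Ric ≥ 0`, `Ric ≥ (3 - e) g` with `e ≥ 0` continuous: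
if two points have distance `≥ 2 ρ` (`ρ > 2`, `16 n ≤ (ρ - 2)²`), then `c vol M ≤ ∫ e²`.
`diam_le_four`: `n = 4`, `ρ = 10`: `∫ e² < c vol M` implies `dist p q < 20` for all `p, q`.
-/

set_option autoImplicit false
set_option maxSynthPendingDepth 3
set_option linter.unusedSectionVars false

open Bundle Set Filter Topology Metric MeasureTheory
open scoped Manifold ContDiff NNReal Interval
open Crest.GeometryTopology.CoordMetric Crest.GeometryTopology.ChartCurvature
  Crest.GeometryTopology.PointedLimit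
open Crest.Agent.R247 Crest.Agent.R247.Mcp688

noncomputable section

namespace Crest.Agent.R249.Diam709

universe u

section

variable {n : ℕ} {M : Type u} [MetricSpace M] [CompleteSpace M] [ConnectedSpace M]
  [ChartedSpace (EuclideanSpace ℝ (Fin n)) M]
  [IsManifold 𝓘(ℝ, EuclideanSpace ℝ (Fin n)) ∞ M]
  [RiemannianBundle (fun x : M => TangentSpace 𝓘(ℝ, EuclideanSpace ℝ (Fin n)) x)]
  [IsContMDiffRiemannianBundle 𝓘(ℝ, EuclideanSpace ℝ (Fin n)) ∞ (EuclideanSpace ℝ (Fin n))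
    (fun x : M => TangentSpace 𝓘(ℝ, EuclideanSpace ℝ (Fin n)) x)]
  [IsRiemannianManifold 𝓘(ℝ, EuclideanSpace ℝ (Fin n)) M]
  [MeasurableSpace M] [BorelSpace M]

/-- the budget in the normalised parameter of a radial structure. -/
theorem budget_T (hK : HasRicciLowerBound n M 0) {e : M → ℝ} (he : RicGe n M 3 e)
    (hec : Continuous e) (he0 : ∀ x, 0 ≤ e x) {κ : ℝ} {μ : Measure M} (C : Rad n κ M μ)
    {x z : M} (hU : (x, z) ∈ C.U) (hL0 : 0 < dist x z) (hL : 16 * (n : ℝ) ≤ dist x z ^ 2) :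
    ENNReal.ofReal (3 / 4) ≤ ∫⁻ t in Icc (0 : ℝ) 1, ENNReal.ofReal (e (C.T x t z)) := by
  have := HR216.properSpace_of_riemannian n M
  set L := dist x z with hLdef
  set γ : ℝ → M := fun s => C.T x (s / L) z with hγdef
  have hγ : ∀ s ∈ Icc 0 L, ∀ t ∈ Icc 0 L, dist (γ s) (γ t) = |s - t| := by
    intro s hs t ht
    have h1 := C.dist_T x z hU (s / L) ⟨div_nonneg hs.1 hL0.le, (div_le_one hL0).2 hs.2⟩
      (t / L) ⟨div_nonneg ht.1 hL0.le, (div_le_one hL0).2 ht.2⟩
    simp only [hγdef]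
    rw [h1, ← hLdef, ← sub_div, abs_div, abs_of_pos hL0, div_mul_cancel₀ _ hL0.ne']
  have hb := ricci_budget (Bgr546.exM_of_riemannian n M) hK he hec he0 hL0 hγ
  have h2 : ∫ s in (0 : ℝ)..L, e (γ s) = L * ∫ t in (0 : ℝ)..1, e (C.T x t z) := by
    simp only [hγdef]
    rw [intervalIntegral.integral_comp_div (fun t => e (C.T x t z)) hL0.ne', zero_div,
      div_self hL0.ne', smul_eq_mul]
  have h3 : 3 / 4 ≤ ∫ t in (0 : ℝ)..1, e (C.T x t z) := by
    rw [h2] at hb
    have h4 : L * (3 / 4) ≤ 3 * L / 3 - 4 * n / L := by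
      have h5 : 4 * (n : ℝ) / L ≤ L / 4 := by
        rw [div_le_iff₀ hL0]
        nlinarith
      linarith
    exact le_of_mul_le_mul_left (h4.trans hb) hL0
  have hTc : ContinuousOn (fun t => C.T x t z) (Icc 0 1) := by
    have : LipschitzOnWith (Real.toNNReal L) (fun t => C.T x t z) (Icc 0 1) := by
      refine LipschitzOnWith.of_dist_le_mul fun s hs t ht => ?_
      rw [C.dist_T x z hU s hs t ht, Real.dist_eq, Real.coe_toNNReal L hL0.le, mul_comm]
    exact this.continuousOn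
  have hEc : ContinuousOn (fun t => e (C.T x t z)) (Icc 0 1) := hec.comp_continuousOn hTc
  have hint : IntegrableOn (fun t => e (C.T x t z)) (Icc 0 1) :=
    hEc.integrableOn_compact isCompact_Icc
  rw [← ofReal_integral_eq_lintegral_ofReal hint (Eventually.of_forall fun t => he0 _)]
  apply ENNReal.ofReal_le_ofReal
  rwa [integral_Icc_eq_integral_Ioc, ← intervalIntegral.integral_of_le zero_le_one]

/-- **D1-DIAM, energy form**. -/
theorem energy_of_far (hK : HasRicciLowerBound n M 0) {e : M → ℝ} (he : RicGe n M 3 e)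
    (hec : Continuous e) (he0 : ∀ x, 0 ≤ e x) {ρ : ℝ} (hρ : 2 < ρ)
    (hρn : 16 * (n : ℝ) ≤ (ρ - 2) ^ 2) {p q : M} (hpq : 2 * ρ ≤ dist p q) :
    ENNReal.ofReal (c1 n ρ ^ 2 * (6⁻¹) ^ n) * (μHE[n] : Measure M) univ ≤
      ∫⁻ z, ENNReal.ofReal (e z ^ 2) ∂(μHE[n] : Measure M) := by
  have := HR216.properSpace_of_riemannian n M
  have := GluM923.isLocallyFinite n M
  obtain ⟨C⟩ := Bgr546.rad_all n 0 le_rfl M (by rw [neg_zero]; exact hK)
  have hfin : ∀ (x : M) r, (μHE[n] : Measure M) (ball x r) ≠ ⊤ := fun x r =>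
    (GluM923.ball_lt_top n M x r).ne
  have hg : Measurable fun z => ENNReal.ofReal (e z) := (hec.measurable).ennreal_ofReal
  have hmain := energy_lower C hfin hρ hg (fun x z hU h1 h2 => ?_) (fun x => ?_)
  · refine hmain.trans (le_of_eq ?_)
    refine lintegral_congr fun z => ?_
    rw [ENNReal.ofReal_pow (he0 z)]
  · have h3 : 0 < dist x z := by linarith
    refine budget_T hK he hec he0 C hU h3 (hρn.trans ?_)
    have : 0 ≤ ρ - 2 := by linarith
    gcongr
  · -- a point at distance exactly `ρ`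
    have h4 : ρ ≤ dist x p ∨ ρ ≤ dist x q := by
      by_contra hcon
      push Not at hcon
      have h5 := dist_triangle p x q
      rw [dist_comm p x] at h5
      linarith [hcon.1, hcon.2]
    have hc : Continuous fun y => dist x y := continuous_const.dist continuous_id
    have h6 : ρ ∈ range fun y => dist x y := by
      refine mem_range_of_exists_le_of_exists_ge hc ⟨x, ?_⟩ ?_
      · rw [dist_self]; linarith
      · rcases h4 with h | h
        · exact ⟨p, h⟩
        · exact ⟨q, h⟩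
    exact h6

end

/-- **The diameter bound used in S0386**: in dimension four, `∫ e² < c vol M` implies
`dist p q < 20`. -/
theorem diam_lt_of_energy {M : Type u} [MetricSpace M] [CompleteSpace M] [ConnectedSpace M]
    [ChartedSpace (EuclideanSpace ℝ (Fin 4)) M]
    [IsManifold 𝓘(ℝ, EuclideanSpace ℝ (Fin 4)) ∞ M]
    [RiemannianBundle (fun x : M => TangentSpace 𝓘(ℝ, EuclideanSpace ℝ (Fin 4)) x)]
    [IsContMDiffRiemannianBundle 𝓘(ℝ, EuclideanSpace ℝ (Fin 4)) ∞ (EuclideanSpace ℝ (Fin 4))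
      (fun x : M => TangentSpace 𝓘(ℝ, EuclideanSpace ℝ (Fin 4)) x)]
    [IsRiemannianManifold 𝓘(ℝ, EuclideanSpace ℝ (Fin 4)) M]
    [MeasurableSpace M] [BorelSpace M] (hK : HasRicciLowerBound 4 M 0) {e : M → ℝ}
    (he : RicGe 4 M 3 e) (hec : Continuous e) (he0 : ∀ x, 0 ≤ e x)
    (hen : ∫⁻ z, ENNReal.ofReal (e z ^ 2) ∂(μHE[4] : Measure M) <
      ENNReal.ofReal (c1 4 10 ^ 2 * (6⁻¹) ^ 4) * (μHE[4] : Measure M) univ) (p q : M) :
    dist p q < 20 := by
  by_contra hcon
  push Not at hcon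
  have := energy_of_far (n := 4) hK he hec he0 (ρ := 10) (by norm_num) (by norm_num)
    (p := p) (q := q) (by linarith)
  exact absurd hen (not_lt.2 this)

end Crest.Agent.R249.Diam709
end
end

-- ▼ part R249/D1Asm_104
section

/-!
# R249 (S0386), D1 (helper104): assembly of D1

`d1_of : IdxStmt → PoisStmt → D1Stmt`.
-/

set_option autoImplicit false
set_option maxSynthPendingDepth 3
set_option linter.unusedSectionVars false

open scoped ContDiff Topology Manifold ENNReal NNReal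
open Filter Set Bundle MeasureTheory Metric
open Crest.GeometryTopology.CoordMetric Crest.GeometryTopology.ChartCurvature
  Crest.GeometryTopology.PointedLimit Crest.GeometryTopology.RicciEnergy
open Crest.Agent.R247.Bo84 Crest.Agent.R247.Scal386
open Crest.Agent.R249.D1Def104 Crest.Agent.R249.Sch1_104 Crest.Agent.R249.Sch3_104
  Crest.Agent.R249.Alg2_104

noncomputable section

namespace Crest.Agent.R249.D1Asm104

/-- **Solvability of the Poisson equation** (helper324, G1). -/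
def PoisStmt : Prop :=
  ∀ (M : Type) [MetricSpace M] [ChartedSpace (EuclideanSpace ℝ (Fin 4)) M]
    [IsManifold 𝓘(ℝ, EuclideanSpace ℝ (Fin 4)) ∞ M] [CompactSpace M] [ConnectedSpace M]
    [RiemannianBundle (fun x : M => TangentSpace 𝓘(ℝ, EuclideanSpace ℝ (Fin 4)) x)]
    [IsContMDiffRiemannianBundle 𝓘(ℝ, EuclideanSpace ℝ (Fin 4)) ∞ (EuclideanSpace ℝ (Fin 4))
      (fun x : M => TangentSpace 𝓘(ℝ, EuclideanSpace ℝ (Fin 4)) x)]
    [IsRiemannianManifold 𝓘(ℝ, EuclideanSpace ℝ (Fin 4)) M]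
    [MeasurableSpace M] [BorelSpace M] (h : M → ℝ), ContMDiff (𝓡 4) 𝓘(ℝ) ∞ h →
    ∫ z, h z ∂(μHE[4] : Measure M) = 0 →
    ∃ u : M → ℝ, ContMDiff (𝓡 4) 𝓘(ℝ) ∞ u ∧ ∀ p, mLap 4 u p = h p

section one

variable {M : Type} [MetricSpace M] [ChartedSpace (EuclideanSpace ℝ (Fin 4)) M]
    [IsManifold 𝓘(ℝ, EuclideanSpace ℝ (Fin 4)) ∞ M] [CompactSpace M] [ConnectedSpace M]
    [RiemannianBundle (fun x : M => TangentSpace 𝓘(ℝ, EuclideanSpace ℝ (Fin 4)) x)]
    [IsContMDiffRiemannianBundle 𝓘(ℝ, EuclideanSpace ℝ (Fin 4)) ∞ (EuclideanSpace ℝ (Fin 4))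
      (fun x : M => TangentSpace 𝓘(ℝ, EuclideanSpace ℝ (Fin 4)) x)]
    [IsRiemannianManifold 𝓘(ℝ, EuclideanSpace ℝ (Fin 4)) M]
    [MeasurableSpace M] [BorelSpace M]

/-- the almost Schur inequality with the mean value. -/
theorem schur_mean (hP : PoisStmt) (hR : HasRicciLowerBound 4 M 0) {m : ℝ}
    (hm : ∫ z, mScal 4 M z ∂(μHE[4] : Measure M) = m * (μHE[4] : Measure M).real univ) :
    ∫ z, (mScal 4 M z - m) ^ 2 ∂(μHE[4] : Measure M) ≤
      12 * ∫ z, tracefreeRicciDensity 4 M z ∂(μHE[4] : Measure M) := by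
  have : IsFiniteMeasure (μHE[4] : Measure M) := Grn324.isFiniteMeasure 4 M
  have iS : Integrable (mScal 4 M) (μHE[4] : Measure M) :=
    Grn324.integrable_cont (n := 4) continuous_mScal
  obtain ⟨u, hu, hue⟩ := hP M (fun z => mScal 4 M z - m)
    (contMDiff_mScal.sub contMDiff_const) (by
      rw [integral_sub iS (integrable_const m), hm, integral_const]
      simp only [smul_eq_mul]
      ring)
  exact almost_schur_of hR hu hue

theorem energy_eq : tracefreeRicciEnergy 4 M =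
    ENNReal.ofReal (∫ z, tracefreeRicciDensity 4 M z ∂(μHE[4] : Measure M)) := by
  have iD : Integrable (tracefreeRicciDensity 4 M) (μHE[4] : Measure M) :=
    Grn324.integrable_cont (continuous_density (by norm_num))
  rw [tracefreeRicciEnergy, ofReal_integral_eq_lintegral_ofReal iD
    (Eventually.of_forall fun z => density_nonneg z)]

end one

theorem d1_of (hI : IdxStmt) (hP : PoisStmt) : D1Stmt := by
  obtain ⟨C, hC, hI⟩ := hI
  set c0 : ℝ := Crest.Agent.R249.Diam709.c1 4 10 ^ 2 * (6⁻¹) ^ 4 with hc0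
  have hc0p : 0 < c0 := by
    have := Crest.Agent.R249.Diam709.c1_pos (n := 4) (ρ := 10) (by norm_num)
    positivity
  set κ : ℝ := 9 / (32 * C) with hκ
  have hκp : 0 < κ := by positivity
  refine ⟨κ / 144, 20, 4, min (9 / (384 * C)) (c0 * (κ / 144) / 8), by positivity, by norm_num,
    by norm_num, by positivity, ?_⟩
  intro M _ _ _ _ _ _ _ _ _ _ hsec ε hε hε0 hE
  have hε1 : ε ≤ 9 / (384 * C) := hε0.trans (min_le_left _ _)
  have hε2 : ε ≤ c0 * (κ / 144) / 8 := hε0.trans (min_le_right _ _)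
  have hR : HasRicciLowerBound 4 M 0 := ricBound_of_sec hsec
  have : IsFiniteMeasure (μHE[4] : Measure M) := Grn324.isFiniteMeasure 4 M
  set V : ℝ := (μHE[4] : Measure M).real univ with hV
  have hV0 : 0 ≤ V := measureReal_nonneg
  have cS : Continuous (mScal 4 M) := continuous_mScal
  have hidx := hI M (fun p => (4/3) * mScal 4 M p) (continuous_const.mul cS)
    (fun p u v w z => curv_bound_M hsec p u v w z)
  have iS : Integrable (mScal 4 M) (μHE[4] : Measure M) := Grn324.integrable_cont (n := 4) cS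
  have iS2 : Integrable (fun z => mScal 4 M z ^ 2) (μHE[4] : Measure M) :=
    Grn324.integrable_cont (n := 4) (cS.pow 2)
  have iD : Integrable (tracefreeRicciDensity 4 M) (μHE[4] : Measure M) :=
    Grn324.integrable_cont (continuous_density (by norm_num))
  -- the energy
  have hE' : ∫ z, tracefreeRicciDensity 4 M z ∂(μHE[4] : Measure M) < ε := by
    rw [energy_eq] at hE
    exact (ENNReal.ofReal_lt_ofReal_iff hε).1 hE
  -- the index inequality, real form
  have hidx' : 1 ≤ C * ((16/9) * ∫ z, mScal 4 M z ^ 2 ∂(μHE[4] : Measure M)) := by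
    have e1 : ∀ p : M, ENNReal.ofReal (((4/3) * mScal 4 M p) ^ 2) =
        ENNReal.ofReal ((16/9) * mScal 4 M p ^ 2) := fun p => by congr 1; ring
    simp only [e1] at hidx
    rw [← ofReal_integral_eq_lintegral_ofReal (iS2.const_mul (16/9))
      (Eventually.of_forall fun z => by positivity), integral_const_mul,
      ← ENNReal.ofReal_mul hC.le] at hidx
    exact ENNReal.one_le_ofReal.1 hidx
  have hVp : 0 < V := by
    rcases hV0.lt_or_eq with h | h
    · exact h
    · exfalso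
      have h0 : (μHE[4] : Measure M) = 0 := by
        rw [← Measure.measure_univ_eq_zero]
        exact (measureReal_eq_zero_iff).1 h.symm
      rw [h0, integral_zero_measure] at hidx'
      norm_num at hidx'
  -- the mean
  set m : ℝ := (∫ z, mScal 4 M z ∂(μHE[4] : Measure M)) / V with hm
  have hmV : ∫ z, mScal 4 M z ∂(μHE[4] : Measure M) = m * V := by
    rw [hm]; field_simp
  have hm0 : 0 ≤ m := div_nonneg (integral_nonneg fun z => mScal_nonneg hsec z) hV0
  have hsch := schur_mean hP hR hmV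
  have iSm : Integrable (fun z => (mScal 4 M z - m) ^ 2) (μHE[4] : Measure M) :=
    Grn324.integrable_cont (n := 4) ((cS.sub continuous_const).pow 2)
  have hS2 : ∫ z, mScal 4 M z ^ 2 ∂(μHE[4] : Measure M) =
      ∫ z, (mScal 4 M z - m) ^ 2 ∂(μHE[4] : Measure M) + m ^ 2 * V := by
    have e1 : ∀ z, mScal 4 M z ^ 2 =
        (mScal 4 M z - m) ^ 2 + (2 * m * mScal 4 M z - m ^ 2) := fun z => by ring
    simp only [e1]
    have j1 : Integrable (fun z => 2 * m * mScal 4 M z - m ^ 2) (μHE[4] : Measure M) :=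
      (iS.const_mul (2 * m)).sub (integrable_const _)
    rw [integral_add iSm j1,
      integral_sub (iS.const_mul (2 * m)) (integrable_const _), integral_const_mul, hmV,
      integral_const, smul_eq_mul]
    ring
  have hκm : κ ≤ m ^ 2 * V := by
    rw [hS2] at hidx'
    have h1 : C * ((16/9) * ∫ z, (mScal 4 M z - m) ^ 2 ∂(μHE[4] : Measure M)) ≤ 1/2 := by
      have h2 : ∫ z, (mScal 4 M z - m) ^ 2 ∂(μHE[4] : Measure M) ≤ 12 * (9 / (384 * C)) :=
        hsch.trans (mul_le_mul_of_nonneg_left (hE'.le.trans hε1) (by norm_num))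
      calc C * ((16/9) * ∫ z, (mScal 4 M z - m) ^ 2 ∂(μHE[4] : Measure M))
          ≤ C * ((16/9) * (12 * (9 / (384 * C)))) := by gcongr
        _ = 1/2 := by field_simp; norm_num
    have h3 : 1/2 ≤ C * ((16/9) * (m ^ 2 * V)) := by
      have e : C * ((16/9) * (∫ z, (mScal 4 M z - m) ^ 2 ∂(μHE[4] : Measure M) + m ^ 2 * V)) =
          C * ((16/9) * ∫ z, (mScal 4 M z - m) ^ 2 ∂(μHE[4] : Measure M)) +
            C * ((16/9) * (m ^ 2 * V)) := by ring
      rw [e] at hidx'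
      linarith
    rw [hκ, div_le_iff₀ (by positivity)]
    nlinarith [h3]
  have hmp : 0 < m := by
    rcases hm0.lt_or_eq with h | h
    · exact h
    · exfalso
      rw [← h] at hκm
      norm_num at hκm
      linarith
  -- the scale
  set r : {r : ℝ // 0 < r} := ⟨√(12 / m), Real.sqrt_pos.2 (by positivity)⟩ with hr
  have hr2 : r.1 ^ 2 = 12 / m := Real.sq_sqrt (by positivity)
  have hrp : 0 < r.1 := r.2
  have hr4 : (r.1⁻¹) ^ 4 = m ^ 2 / 144 := by
    have e : (r.1⁻¹) ^ 4 = ((r.1 ^ 2) ^ 2)⁻¹ := by rw [inv_pow]; congr 1; ring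
    rw [e, hr2]
    field_simp
    norm_num
  have hVM : (μHE[4] : Measure M) univ = ENNReal.ofReal V := by
    rw [hV, ofReal_measureReal (measure_ne_top _ _)]
  have hvolX : (μHE[4] : Measure (Sc r M)) univ = ENNReal.ofReal (m ^ 2 / 144 * V) := by
    rw [muHE_sc_eq, hr4, ENNReal.ofReal_mul (by positivity)]
    have e : (toSc r ⁻¹' (univ : Set (Sc r M)) : Set M) = univ := rfl
    rw [e, hVM]
  have hvolge : κ / 144 ≤ m ^ 2 / 144 * V := by
    have e : m ^ 2 / 144 * V = (m ^ 2 * V) / 144 := by ring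
    rw [e]
    exact div_le_div_of_nonneg_right hκm (by norm_num)
  -- the deviation
  have hdev : ∀ x : M, mRicDev 4 (Sc r M) 3 (toSc r x) =
      r.1 ^ 4 * (tracefreeRicciDensity 4 M x + (mScal 4 M x - m) ^ 2 / 4) := by
    intro x
    have h1 := mRicDev_split (n := 4) (M := Sc r M) (by norm_num) 3 (toSc r x)
    rw [h1, mScal_sc, density_sc]
    have e1 : (ofSc r (toSc r x) : M) = x := rfl
    rw [e1]
    have e2 : r.1 ^ 2 * mScal 4 M x - ((4:ℕ):ℝ) * 3 = r.1 ^ 2 * (mScal 4 M x - m) := by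
      have : r.1 ^ 2 * m = 12 := by rw [hr2]; field_simp
      push_cast
      linarith
    rw [e2]
    push_cast
    ring
  have iX : Integrable (fun z => tracefreeRicciDensity 4 M z + (mScal 4 M z - m) ^ 2 / 4)
      (μHE[4] : Measure M) := iD.add (iSm.div_const 4)
  have hdevint : ∫⁻ x, ENNReal.ofReal (mRicDev 4 (Sc r M) 3 x) ∂(μHE[4] : Measure (Sc r M)) ≤
      ENNReal.ofReal (4 * ε) := by
    rw [lintegral_sc]
    have e1 : ∀ x : M, ENNReal.ofReal (mRicDev 4 (Sc r M) 3 (toSc r x)) =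
        ENNReal.ofReal (r.1 ^ 4) *
          ENNReal.ofReal (tracefreeRicciDensity 4 M x + (mScal 4 M x - m) ^ 2 / 4) := by
      intro x
      rw [hdev, ENNReal.ofReal_mul (by positivity)]
    simp only [e1]
    rw [lintegral_const_mul' _ _ ENNReal.ofReal_ne_top, ← mul_assoc,
      ← ENNReal.ofReal_mul (by positivity), ← mul_pow, inv_mul_cancel₀ hrp.ne', one_pow,
      ENNReal.ofReal_one, one_mul, ← ofReal_integral_eq_lintegral_ofReal iX
        (Eventually.of_forall fun z => by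
          have := density_nonneg (n := 4) z
          positivity)]
    apply ENNReal.ofReal_le_ofReal
    rw [integral_add iD (iSm.div_const 4), integral_div]
    linarith
  refine ⟨r, ?_, ?_, hdevint⟩
  · rw [hvolX]
    exact ENNReal.ofReal_le_ofReal hvolge
  · -- the diameter
    intro x y
    have hsecX : HasNonnegSectionalCurvature 4 (Sc r M) := nonnegSec_sc r hsec
    have hRX : HasRicciLowerBound 4 (Sc r M) 0 := ricBound_of_sec hsecX
    have hcont : Continuous (fun x : Sc r M => √(mRicDev 4 (Sc r M) 3 x)) :=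
      (continuous_mRicDev (n := 4) (M := Sc r M) 3).sqrt
    refine (Crest.Agent.R249.Diam709.diam_lt_of_energy hRX
      (ricGe_dev (n := 4) (M := Sc r M) 3) hcont (fun x => Real.sqrt_nonneg _) ?_ x y).le
    have e1 : ∀ x : Sc r M, √(mRicDev 4 (Sc r M) 3 x) ^ 2 = mRicDev 4 (Sc r M) 3 x :=
      fun x => Real.sq_sqrt (mRicDev_nonneg (n := 4) 3 x)
    simp only [e1]
    rw [hvolX, ← hc0, ← ENNReal.ofReal_mul hc0p.le]
    refine hdevint.trans_lt ?_
    rw [ENNReal.ofReal_lt_ofReal_iff (by positivity)]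
    have h2 : c0 * (κ / 144) ≤ c0 * (m ^ 2 / 144 * V) := by gcongr
    have h3 : 0 < c0 * (κ / 144) := by positivity
    linarith

end Crest.Agent.R249.D1Asm104
end
end

-- ▼ part R249/AsmD5_832
section

/-!
# R249 (S0386), part D: what is left (helper832)

`S0386_of'` : the statement of S0386 from `IdxStmt` (part C), `PoisStmt`, `RThm` (D3), `CovEnd`.
-/

set_option autoImplicit false
set_option maxSynthPendingDepth 3
noncomputable section
open Set Filter Topology Bundle MeasureTheory Metric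
open scoped ContDiff Manifold ENNReal NNReal
open Crest.GeometryTopology.CoordMetric Crest.GeometryTopology.ChartCurvature
  Crest.GeometryTopology.RicciEnergy Crest.GeometryTopology.PointedLimit
open Crest.Agent.R249.D1Def104 Crest.Agent.R249.Ul174 Crest.Agent.R249.Pul47
  Crest.Agent.R249.Len47

namespace Crest.Agent.R249.AsmD832

/-- helper789's `ProjStmt` holds -/
theorem projStmt : D4_789.ProjStmt := by
  intro X _ _ _ lam m C hcov htr
  exact Prj832.nonempty_proj789 (fun a => (C a).e) (fun a => (C a).h) (fun a => (C a).riem)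
    (fun a => (C a).inf) hcov htr

/-- **D4 is complete** -/
theorem d4out : D4Out := D4_789.d4out_of projStmt

/-- **S0386 from the index inequality, the Poisson equation, THEOREM R(lambda) and `CovEnd`.** -/
theorem S0386_of' (hI : IdxStmt) (hP : D1Asm104.PoisStmt) (hR : RThm) (hcov : CovEnd)
    (hcl : EinsteinNonnegSectionalAreModelCovered) :
    ∃ ε : ℝ, 0 < ε ∧ ∀ (M : Type) [MetricSpace M] [ChartedSpace (EuclideanSpace ℝ (Fin 4)) M]
      [IsManifold 𝓘(ℝ, EuclideanSpace ℝ (Fin 4)) ∞ M] [CompactSpace M] [SimplyConnectedSpace M]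
      [RiemannianBundle (fun x : M => TangentSpace 𝓘(ℝ, EuclideanSpace ℝ (Fin 4)) x)]
      [IsContMDiffRiemannianBundle 𝓘(ℝ, EuclideanSpace ℝ (Fin 4)) ∞ (EuclideanSpace ℝ (Fin 4))
        (fun x : M => TangentSpace 𝓘(ℝ, EuclideanSpace ℝ (Fin 4)) x)]
      [IsRiemannianManifold 𝓘(ℝ, EuclideanSpace ℝ (Fin 4)) M]
      [MeasurableSpace M] [BorelSpace M],
      HasNonnegSectionalCurvature 4 M → tracefreeRicciEnergy 4 M < ENNReal.ofReal ε →
        IsDiffeoToRoundFourSphere M ∨ IsDiffeoToComplexProjectivePlane M ∨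
          IsDiffeoToTwoSphereProduct M :=
  S0386_of (D1Asm104.d1_of hI hP) hR transStmt (Bad174.d2out hR KRic104.kRic) d4out
    KRic104.kRic hcov hcl

end Crest.Agent.R249.AsmD832
end
end

-- ▼ part R249/Cov10_802
section

/-!
# R249 (helper802), part 10: local isometries onto simply connected spaces are injective
-/

set_option autoImplicit false
set_option linter.unusedSectionVars false
open Set Metric Filter Topology

namespace Crest.Agent.R249.Cov10_802

open Crest.Agent.R249.Cov1_802 Crest.Agent.R249.Cov3_802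

noncomputable section

/-- a covering of a simply connected space by a path connected space is injective -/
theorem inj_of_covering {E X : Type*} [TopologicalSpace E] [TopologicalSpace X]
    [PathConnectedSpace E] [SimplyConnectedSpace X] {f : E → X} (cov : IsCoveringMap f) :
    Function.Injective f := by
  intro e e' h
  let Γ : Path e e' := PathConnectedSpace.somePath e e'
  let γ₀ : Path (f e) (f e) :=
    { toFun := fun t => f (Γ t)
      continuous_toFun := cov.continuous.comp Γ.continuous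
      source' := by simp
      target' := by simp [h] }
  let γ₁ : Path (f e) (f e) := Path.refl (f e)
  have hom : γ₀.toContinuousMap.HomotopicRel γ₁.toContinuousMap {0, 1} :=
    SimplyConnectedSpace.paths_homotopic γ₀ γ₁
  have h0 : γ₀.toContinuousMap 0 = f e := γ₀.source
  have h1 : γ₁.toContinuousMap 0 = f e := γ₁.source
  have key := cov.liftPath_apply_one_eq_of_homotopicRel hom e h0 h1
  have e0 : Γ.toContinuousMap = cov.liftPath γ₀.toContinuousMap e h0 :=
    (cov.eq_liftPath_iff' h0).2 ⟨rfl, Γ.source⟩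
  have e1 : ContinuousMap.const _ e = cov.liftPath γ₁.toContinuousMap e h1 :=
    (cov.eq_liftPath_iff' h1).2 ⟨by ext t; rfl, rfl⟩
  rw [← e0, ← e1] at key
  have h2 : Γ 1 = e := key
  rw [Γ.target] at h2
  exact h2.symm

variable {X M : Type*} [PseudoMetricSpace X] [T2Space X] [MetricSpace M] {Φ : X → M} {ρ : ℝ}

theorem eq_of_dist {x y : X} (h : dist x y = 0) : x = y :=
  (Metric.inseparable_iff.2 h).eq

/-- a local isometry is a local homeomorphism -/
theorem Loc.isLocalHomeomorph (h : Loc Φ ρ) : IsLocalHomeomorph Φ := by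
  refine IsLocalHomeomorph.mk Φ fun x => ?_
  have hxm : x ∈ closedBall x ρ := mem_closedBall_self h.pos.le
  have hd : ∀ u ∈ ball x ρ, ∀ v ∈ ball x ρ, dist (Φ u) (Φ v) = dist u v := fun u hu v hv =>
    h.iso x u (ball_subset_closedBall hu) v (ball_subset_closedBall hv)
  have hx : ∀ u ∈ ball x ρ, dist (Φ x) (Φ u) = dist x u := fun u hu =>
    hd x (mem_ball_self h.pos) u hu
  have hon : ∀ y ∈ ball (Φ x) ρ, ∃ q ∈ ball x ρ, Φ q = y := by
    intro y hy
    obtain ⟨q, hq1, hq2⟩ := h.onto x y (by rw [dist_comm]; exact hy)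
    refine ⟨q, ?_, hq1⟩
    rw [mem_ball, dist_comm, hq2, dist_comm]
    exact hy
  have hne : Nonempty X := ⟨x⟩
  choose! g hg1 hg2 using hon
  have hcont : ContinuousOn Φ (ball x ρ) := by
    rw [Metric.continuousOn_iff]
    intro u hu ε hε
    exact ⟨ε, hε, fun v hv hvu => by rw [hd v hv u hu]; exact hvu⟩
  have hcg : ContinuousOn g (ball (Φ x) ρ) := by
    rw [Metric.continuousOn_iff]
    intro u hu ε hε
    exact ⟨ε, hε, fun v hv hvu => by
      rw [← hd _ (hg1 v hv) _ (hg1 u hu), hg2 v hv, hg2 u hu]; exact hvu⟩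
  let e : OpenPartialHomeomorph X M :=
    { toFun := Φ
      invFun := g
      source := ball x ρ
      target := ball (Φ x) ρ
      map_source' := fun u hu => by
        rw [mem_ball, dist_comm, hx u hu, dist_comm]; exact hu
      map_target' := fun y hy => hg1 y hy
      left_inv' := fun u hu => by
        have hu' : Φ u ∈ ball (Φ x) ρ := by
          rw [mem_ball, dist_comm, hx u hu, dist_comm]; exact hu
        apply eq_of_dist
        rw [← hd _ (hg1 _ hu') _ hu, hg2 _ hu', dist_self]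
      right_inv' := fun y hy => hg2 y hy
      open_source := isOpen_ball
      open_target := isOpen_ball
      continuousOn_toFun := hcont
      continuousOn_invFun := hcg }
  exact ⟨e, mem_ball_self h.pos, fun _ _ => rfl⟩

/-- **local isometries onto simply connected spaces are injective** -/
theorem Loc.injective [CompactSpace X] [PathConnectedSpace X] [SimplyConnectedSpace M]
    (h : Loc Φ ρ) : Function.Injective Φ :=
  inj_of_covering (isLocalHomeomorph_iff_isCoveringMap.1 (Loc.isLocalHomeomorph h))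

end

end Crest.Agent.R249.Cov10_802
end

-- ▼ part R249/Cov11_802
section

/-!
# R249 (helper802), part 11: products of spheres; simply connected manifolds covered by the models
-/

set_option autoImplicit false
set_option linter.unusedSectionVars false
set_option maxSynthPendingDepth 3
open Set Metric Filter Topology Bundle Manifold
open scoped ContDiff
open Crest.GeometryTopology.ChartCurvature Crest.GeometryTopology.RicciEnergy

namespace Crest.Agent.R249.Cov11_802

open Crest.Agent.R249.Cov1_802 Crest.Agent.R249.Cov2_802 Crest.Agent.R249.Cov3_802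
  Crest.Agent.R249.Cov4_802 Crest.Agent.R249.Cov5_802 Crest.Agent.R249.Cov9_802
  Crest.Agent.R249.Cov10_802

noncomputable section

/-- Minkowski's inequality in the plane -/
theorem mink {a b c d : ℝ} : √((a + b) ^ 2 + (c + d) ^ 2) ≤ √(a ^ 2 + c ^ 2) + √(b ^ 2 + d ^ 2) := by
  have hA : 0 ≤ a ^ 2 + c ^ 2 := by positivity
  have hB : 0 ≤ b ^ 2 + d ^ 2 := by positivity
  have h1 : a * b + c * d ≤ √(a ^ 2 + c ^ 2) * √(b ^ 2 + d ^ 2) := by
    rw [← Real.sqrt_mul hA]
    apply Real.le_sqrt_of_sq_le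
    nlinarith [sq_nonneg (a * d - b * c)]
  rw [Real.sqrt_le_left (by positivity)]
  have h2 := Real.sq_sqrt hA
  have h3 := Real.sq_sqrt hB
  nlinarith

/-- the product pseudo-distance -/
def prodPD {S T : Type*} (P : PD S) (Q : PD T) : PD (S × T) where
  D x y := √(P.D x.1 y.1 ^ 2 + Q.D x.2 y.2 ^ 2)
  self x := by rw [P.self, Q.self]; simp
  comm x y := by rw [P.comm, Q.comm]
  tri x y z := by
    refine le_trans (Real.sqrt_le_sqrt ?_) mink
    have h1 := P.tri x.1 y.1 z.1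
    have h2 := Q.tri x.2 y.2 z.2
    have h3 := P.nonneg x.1 z.1
    have h4 := Q.nonneg x.2 z.2
    gcongr

variable {S T : Type*} (P : PD S) (Q : PD T)

theorem prodPD_D (x y : S × T) : (prodPD P Q).D x y = √(P.D x.1 y.1 ^ 2 + Q.D x.2 y.2 ^ 2) := rfl

theorem prod_ge_left (x y : S × T) : P.D x.1 y.1 ≤ (prodPD P Q).D x y := by
  rw [prodPD_D]
  apply Real.le_sqrt_of_sq_le
  have := sq_nonneg (Q.D x.2 y.2)
  linarith

theorem prod_ge_right (x y : S × T) : Q.D x.2 y.2 ≤ (prodPD P Q).D x y := by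
  rw [prodPD_D]
  apply Real.le_sqrt_of_sq_le
  have := sq_nonneg (P.D x.1 y.1)
  linarith

theorem prod_le (x y : S × T) : (prodPD P Q).D x y ≤ P.D x.1 y.1 + Q.D x.2 y.2 := by
  have h1 := P.nonneg x.1 y.1
  have h2 := Q.nonneg x.2 y.2
  rw [prodPD_D, Real.sqrt_le_left (by positivity)]
  nlinarith

theorem prod_tendsto [TopologicalSpace S] [TopologicalSpace T]
    (hP : ∀ x, Tendsto (fun y => P.D x y) (𝓝 x) (𝓝 0))
    (hQ : ∀ x, Tendsto (fun y => Q.D x y) (𝓝 x) (𝓝 0)) (x : S × T) :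
    Tendsto (fun y => (prodPD P Q).D x y) (𝓝 x) (𝓝 0) := by
  refine squeeze_zero (fun y => (prodPD P Q).nonneg x y) (fun y => prod_le P Q x y) ?_
  have h1 : Tendsto (fun y : S × T => P.D x.1 y.1) (𝓝 x) (𝓝 0) :=
    (hP x.1).comp continuous_fst.continuousAt
  have h2 : Tendsto (fun y : S × T => Q.D x.2 y.2) (𝓝 x) (𝓝 0) :=
    (hQ x.2).comp continuous_snd.continuousAt
  simpa using h1.add h2

theorem prod_mid
    (hP : ∀ a b : S, ∀ t ∈ Icc (0 : ℝ) 1, ∃ x, P.D a x = t * P.D a b ∧ P.D x b = (1 - t) * P.D a b)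
    (hQ : ∀ a b : T, ∀ t ∈ Icc (0 : ℝ) 1, ∃ x, Q.D a x = t * Q.D a b ∧ Q.D x b = (1 - t) * Q.D a b)
    (a b : S × T) (t : ℝ) (ht : t ∈ Icc (0 : ℝ) 1) : ∃ x, (prodPD P Q).D a x =
      t * (prodPD P Q).D a b ∧ (prodPD P Q).D x b = (1 - t) * (prodPD P Q).D a b := by
  obtain ⟨x, h1, h2⟩ := hP a.1 b.1 t ht
  obtain ⟨y, h3, h4⟩ := hQ a.2 b.2 t ht
  refine ⟨(x, y), ?_, ?_⟩
  · rw [prodPD_D, prodPD_D]
    change √(P.D a.1 x ^ 2 + Q.D a.2 y ^ 2) = _
    rw [h1, h3, mul_pow, mul_pow, ← mul_add, Real.sqrt_mul (sq_nonneg t), Real.sqrt_sq ht.1]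
  · rw [prodPD_D, prodPD_D]
    change √(P.D x b.1 ^ 2 + Q.D y b.2 ^ 2) = _
    rw [h2, h4, mul_pow, mul_pow, ← mul_add, Real.sqrt_mul (sq_nonneg _),
      Real.sqrt_sq (by linarith [ht.2])]

theorem prod_frames {m k : ℕ}
    (hP : ∀ η : ℝ, 0 < η → ∃ s₀ : ℝ, 0 < s₀ ∧ ∀ q : S, ∀ s : ℝ, 0 < s → s < s₀ →
      ∃ e : Fin m → Bool → S, (∀ i b, P.D q (e i b) = s) ∧
        (∀ i, P.D (e i true) (e i false) = 2 * s) ∧
        (∀ i j b b', i ≠ j → |P.D (e i b) (e j b') - √2 * s| ≤ η * s))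
    (hQ : ∀ η : ℝ, 0 < η → ∃ s₀ : ℝ, 0 < s₀ ∧ ∀ q : T, ∀ s : ℝ, 0 < s → s < s₀ →
      ∃ e : Fin k → Bool → T, (∀ i b, Q.D q (e i b) = s) ∧
        (∀ i, Q.D (e i true) (e i false) = 2 * s) ∧
        (∀ i j b b', i ≠ j → |Q.D (e i b) (e j b') - √2 * s| ≤ η * s))
    (η : ℝ) (hη : 0 < η) : ∃ s₀ : ℝ, 0 < s₀ ∧ ∀ q : S × T, ∀ s : ℝ, 0 < s → s < s₀ →
      ∃ e : Fin (m + k) → Bool → S × T, (∀ i b, (prodPD P Q).D q (e i b) = s) ∧
        (∀ i, (prodPD P Q).D (e i true) (e i false) = 2 * s) ∧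
        (∀ i j b b', i ≠ j → |(prodPD P Q).D (e i b) (e j b') - √2 * s| ≤ η * s) := by
  obtain ⟨s₁, hs₁, h1⟩ := hP η hη
  obtain ⟨s₂, hs₂, h2⟩ := hQ η hη
  refine ⟨min s₁ s₂, by positivity, fun q s hs hs' => ?_⟩
  obtain ⟨e, he1, he2, he3⟩ := h1 q.1 s hs (hs'.trans_le (min_le_left _ _))
  obtain ⟨f, hf1, hf2, hf3⟩ := h2 q.2 s hs (hs'.trans_le (min_le_right _ _))
  have hP0 : ∀ x y : S, √(P.D x y ^ 2 + Q.D q.2 q.2 ^ 2) = P.D x y := fun x y => by
    rw [Q.self, zero_pow two_ne_zero, add_zero, Real.sqrt_sq (P.nonneg _ _)]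
  have hQ0 : ∀ x y : T, √(P.D q.1 q.1 ^ 2 + Q.D x y ^ 2) = Q.D x y := fun x y => by
    rw [P.self, zero_pow two_ne_zero, zero_add, Real.sqrt_sq (Q.nonneg _ _)]
  have hss : √(s ^ 2 + s ^ 2) = √2 * s := by
    rw [← two_mul, Real.sqrt_mul (by norm_num), Real.sqrt_sq hs.le]
  let g : Fin m ⊕ Fin k → Bool → S × T := fun i b =>
    Sum.elim (fun i => (e i b, q.2)) (fun j => (q.1, f j b)) i
  have G1 : ∀ i b, (prodPD P Q).D q (g i b) = s := by
    rintro (i | i) b
    · exact (hP0 _ _).trans (he1 i b)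
    · exact (hQ0 _ _).trans (hf1 i b)
  have G2 : ∀ i, (prodPD P Q).D (g i true) (g i false) = 2 * s := by
    rintro (i | i)
    · exact (hP0 _ _).trans (he2 i)
    · exact (hQ0 _ _).trans (hf2 i)
  have G3 : ∀ i j b b', i ≠ j → |(prodPD P Q).D (g i b) (g j b') - √2 * s| ≤ η * s := by
    rintro (i | i) (j | j) b b' hij
    · have h3 : (prodPD P Q).D (g (Sum.inl i) b) (g (Sum.inl j) b') = P.D (e i b) (e j b') :=
        hP0 _ _
      rw [h3]
      exact he3 i j b b' fun h => hij (by rw [h])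
    · have h3 : (prodPD P Q).D (g (Sum.inl i) b) (g (Sum.inr j) b') =
          √(P.D (e i b) q.1 ^ 2 + Q.D q.2 (f j b') ^ 2) := rfl
      rw [h3, P.comm, he1, hf1, hss, sub_self, abs_zero]; positivity
    · have h3 : (prodPD P Q).D (g (Sum.inr i) b) (g (Sum.inl j) b') =
          √(P.D q.1 (e j b') ^ 2 + Q.D (f i b) q.2 ^ 2) := rfl
      rw [h3, Q.comm, he1, hf1, hss, sub_self, abs_zero]; positivity
    · have h3 : (prodPD P Q).D (g (Sum.inr i) b) (g (Sum.inr j) b') = Q.D (f i b) (f j b') :=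
        hQ0 _ _
      rw [h3]
      exact hf3 i j b b' fun h => hij (by rw [h])
  exact ⟨fun i => g (finSumFinEquiv.symm i), fun i b => G1 _ b, fun i => G2 _,
    fun i j b b' hij => G3 _ _ b b' fun h => hij (finSumFinEquiv.symm.injective h)⟩

/-- **simply connected manifolds covered by a model** -/
theorem sc_core {n : ℕ} {S : Type*} [MetricSpace S] [CompactSpace S] [PathConnectedSpace S]
    (P : PD S) (hten : ∀ x, Tendsto (fun y => P.D x y) (𝓝 x) (𝓝 0))
    (hch : ∀ x y, dist x y ≤ P.D x y)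
    (hmid : ∀ a b : S, ∀ t ∈ Icc (0 : ℝ) 1, ∃ x, P.D a x = t * P.D a b ∧
      P.D x b = (1 - t) * P.D a b)
    (hfr : ∀ η : ℝ, 0 < η → ∃ s₀ : ℝ, 0 < s₀ ∧ ∀ q : S, ∀ s : ℝ, 0 < s → s < s₀ →
      ∃ e : Fin n → Bool → S, (∀ i b, P.D q (e i b) = s) ∧
        (∀ i, P.D (e i true) (e i false) = 2 * s) ∧
        (∀ i j b b', i ≠ j → |P.D (e i b) (e j b') - √2 * s| ≤ η * s))
    {M : Type*} [MetricSpace M] [SimplyConnectedSpace M] (hM : BL n M) (hE : ExM M) {a : ℝ}
    (ha : 0 < a) (Φ : S → M)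
    (hloc : ∀ p, ∃ ε : ℝ, 0 < ε ∧ ∀ q q', dist p q < ε → dist p q' < ε →
      dist (Φ q) (Φ q') = P.D q q' / √a) :
    Function.Injective Φ ∧ ∀ p q, dist (Φ p) (Φ q) = P.D p q / √a := by
  have hsa : 0 < √a := Real.sqrt_pos.2 ha
  obtain ⟨ρ, hL⟩ := exists_loc P hten hch (fun η hη => by
    obtain ⟨s₀, hs₀, h⟩ := hfr η hη
    refine ⟨s₀, hs₀, fun q s hs hs' => ?_⟩
    obtain ⟨e, h1, h2, h3⟩ := h q s hs hs'
    refine ⟨e, fun i b => ?_, fun i => ?_, h3⟩
    · rw [h1, sub_self, abs_zero]; positivity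
    · rw [h2, sub_self, abs_zero]; positivity) hM hE ha Φ hloc
  set c : {c : ℝ // 0 < c} := ⟨(√a)⁻¹, inv_pos.2 hsa⟩ with hc
  have hX : ExM (Syn P c) := exM_syn hmid
  have h1 : CompactSpace (Syn P c) := compact_syn hten
  have h2 : PathConnectedSpace (Syn P c) := pathConnected_syn hten
  have h3 : T2Space (Syn P c) := t2_syn fun x y hxy =>
    dist_eq_zero.1 (le_antisymm ((hch x y).trans hxy.le) dist_nonneg)
  have hinj := Loc.injective hL
  refine ⟨fun p q hpq => hinj (a₁ := toSyn P c p) (a₂ := toSyn P c q) hpq, fun p q => ?_⟩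
  have := hL.isometry hX hE (fun x y h => by
    have : x = y := hinj h
    rw [this, dist_self]) (toSyn _ c p) (toSyn _ c q)
  rw [dist_toSyn] at this
  rw [div_eq_inv_mul]
  exact this

section sph

variable {V : Type*} [NormedAddCommGroup V] [InnerProductSpace ℝ V] [FiniteDimensional ℝ V]

theorem pathConnected_sph {n : ℕ} (hn : n ≠ 0) (hfin : Module.finrank ℝ V = n + 1) :
    PathConnectedSpace (sphere (0 : V) 1) := by
  rw [← isPathConnected_iff_pathConnectedSpace]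
  refine isPathConnected_sphere ?_ 0 zero_le_one
  rw [← Module.finrank_eq_rank, hfin]
  exact_mod_cast Nat.lt_add_of_pos_left (Nat.pos_of_ne_zero hn)

end sph

/-- **(T3) of row 249** -/
theorem covEnd : Pul47.CovEnd := by
  intro N _ _ _ _ _ _ _ _ a _
  refine ⟨?_, ?_, ?_⟩
  · rintro ⟨ha, Φ, hsurj, hloc⟩
    have hfin : Module.finrank ℝ (EuclideanSpace ℝ (Fin (4 + 1))) = 4 + 1 := by simp
    have hpc := pathConnected_sph (by norm_num) hfin
    have key := sc_core (n := 4) (sphPD (EuclideanSpace ℝ (Fin (4 + 1)))) sphPD_tendsto chord_le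
      (mid (exists_orth1 (by norm_num) hfin)) (frames (exists_orth hfin)) (bl 4 N) (exM 4 N) ha Φ
      hloc
    exact ⟨ha, Φ, ⟨key.1, hsurj⟩, key.2⟩
  · exact cp_concrete (bl 4 N) (exM 4 N)
  · rintro ⟨ha, Φ, hsurj, hloc⟩
    have hfin : Module.finrank ℝ (EuclideanSpace ℝ (Fin 3)) = 2 + 1 := by simp
    have hpc := pathConnected_sph (by norm_num) hfin
    have hmid := mid (exists_orth1 (by norm_num) hfin)
    have hfr := frames (exists_orth hfin)
    have key := sc_core (n := 2 + 2) (prodPD (sphPD (EuclideanSpace ℝ (Fin 3)))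
      (sphPD (EuclideanSpace ℝ (Fin 3))))
      (prod_tendsto _ _ sphPD_tendsto sphPD_tendsto)
      (fun x y => by
        rw [Prod.dist_eq]
        exact max_le ((chord_le _ _).trans (prod_ge_left _ _ x y))
          ((chord_le _ _).trans (prod_ge_right _ _ x y)))
      (prod_mid _ _ hmid hmid)
      (prod_frames _ _ hfr hfr) (bl 4 N) (exM 4 N) ha Φ hloc
    exact ⟨ha, Φ, ⟨key.1, hsurj⟩, key.2⟩

end

end Crest.Agent.R249.Cov11_802
end

-- ▼ part R249/PoisC_324

/-!
# R249 (helper324): the hypothesis `PoisStmt` of `D1Asm104`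
-/

set_option autoImplicit false
set_option maxSynthPendingDepth 3
set_option linter.unusedSectionVars false

open Bundle Set MeasureTheory Manifold Filter Metric
open scoped ContDiff Topology NNReal
open Crest.GeometryTopology.PointedLimit

namespace Crest.Agent.R249.Grn324

/-- the Poisson equation, in the form of `D1Asm104` -/
theorem poisStmt : Crest.Agent.R249.D1Asm104.PoisStmt := by
  intro M _ _ _ _ _ _ _ _ _ _ g hg h0
  obtain ⟨u, hu, h, -⟩ := exists_poisson (n := 4) (M := M) hg h0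
  exact ⟨u, hu, h⟩

end Crest.Agent.R249.Grn324
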