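import Crest.Agent.R249.Top1_49
import Crest.Agent.R247.Ms11_322
import Crest.Agent.R247.Bs2_84
import Crest.Agent.R247.Bs6_342

-- ▼ part R249/StFa_912
section

/-!
Row 249 (helper912), leaf A2-FIN, file 1: Green's formula, the integrated Bochner inequality and the
Lichnerowicz-Poincare inequality on a closed manifold (template classes), the Poisson equation being
an input (`PoissonStmt`, provided by helper324).
-/

set_option autoImplicit false
set_option maxSynthPendingDepth 3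
set_option linter.unusedSectionVars false
set_option linter.unusedVariables false

open Bundle Bornology Set MeasureTheory Manifold Filter Metric
open scoped ENNReal ContDiff Topology NNReal
open Crest.GeometryTopology.CoordMetric Crest.GeometryTopology.ChartCurvature
  Crest.GeometryTopology.PointedLimit
open Crest.Agent.R247.Bo84 Crest.Agent.R247.Bs84

noncomputable section

namespace Crest.Agent.R249.StF_912

section Gen

variable (n : ℕ) (M : Type*) [MetricSpace M] [ChartedSpace (EuclideanSpace ℝ (Fin n)) M]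
  [IsManifold (𝓡 n) ∞ M]
  [RiemannianBundle (fun p : M => TangentSpace (𝓡 n) p)]
  [IsContMDiffRiemannianBundle (𝓡 n) ∞ (EuclideanSpace ℝ (Fin n)) (fun p : M => TangentSpace (𝓡 n) p)]
  [IsRiemannianManifold (𝓡 n) M] [CompactSpace M] [Nonempty M] [MeasurableSpace M] [BorelSpace M]

/-- solvability of the Poisson equation (helper324). -/
def PoissonStmt : Prop :=
  ∀ g : M → ℝ, ContMDiff (𝓡 n) 𝓘(ℝ, ℝ) ∞ g → ∫ z, g z ∂(μHE[n] : Measure M) = 0 →
    ∃ u : M → ℝ, ContMDiff (𝓡 n) 𝓘(ℝ, ℝ) ∞ u ∧ ∀ p, mLap n u p = g p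

variable {n M}

local notation "μ" => (μHE[n] : Measure M)

theorem finMeas : IsFiniteMeasure μ := by
  have := Crest.Agent.R247.Ms322.isLocallyFiniteMeasure n M
  exact ⟨isCompact_univ.measure_lt_top⟩

theorem integrable_of_continuous {f : M → ℝ} (hf : Continuous f) : Integrable f μ := by
  have := Crest.Agent.R247.Ms322.isLocallyFiniteMeasure n M
  exact hf.integrable_of_hasCompactSupport (HasCompactSupport.of_compactSpace f)

theorem locLip {f : M → ℝ} (hf : ContMDiff (𝓡 n) 𝓘(ℝ, ℝ) ∞ f) : LocallyLipschitz f := by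
  have h := Crest.Agent.R247.Ms322.LLo.of_contMDiffAt (n := n) (U := univ) (f := f)
    (fun z _ => (hf z).of_le (by simp))
  intro z
  exact h z (mem_univ z)

/-- Green's formula. -/
theorem green {f φ : M → ℝ} (hf : ContMDiff (𝓡 n) 𝓘(ℝ, ℝ) ∞ f)
    (hφ : ContMDiff (𝓡 n) 𝓘(ℝ, ℝ) ∞ φ) :
    ∫ z, φ z * mLap n f z ∂μ = - ∫ z, mGam n f φ z ∂μ := by
  have h := Crest.Agent.R247.Ms322.ibp_mLap (n := n) (M := M) isOpen_univ
    (fun z _ => (hf z).of_le two_le_infty) (locLip hφ)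
    (HasCompactSupport.of_compactSpace φ) (subset_univ _)
  have h2 : ∀ z, inner ℝ (Crest.Agent.R247.Ms322.Gr (n := n) f z)
      (Crest.Agent.R247.Ms322.Gr (n := n) φ z) = mGam n f φ z :=
    fun z => Crest.Agent.R247.Ms322.inner_Gr_eq_mGam f φ z
  simp only [h2] at h
  rw [h, neg_neg]

theorem int_mLap {f : M → ℝ} (hf : ContMDiff (𝓡 n) 𝓘(ℝ, ℝ) ∞ f) :
    ∫ z, mLap n f z ∂μ = 0 := by
  have h := green (n := n) (M := M) hf (contMDiff_const (c := (1:ℝ)))
  have h2 : ∀ z, mGam n f (fun _ : M => (1:ℝ)) z = 0 := fun z => mGam_const_right 1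
  simp only [h2, one_mul, integral_zero, neg_zero] at h
  exact h

theorem contG {f h : M → ℝ} (hf : ContMDiff (𝓡 n) 𝓘(ℝ, ℝ) ∞ f)
    (hh : ContMDiff (𝓡 n) 𝓘(ℝ, ℝ) ∞ h) : Continuous (mGam n f h) :=
  (contMDiff_mGam hf hh).continuous

theorem contL {f : M → ℝ} (hf : ContMDiff (𝓡 n) 𝓘(ℝ, ℝ) ∞ f) : Continuous (mLap n f) :=
  (contMDiff_mLap hf).continuous

/-- integrated Bochner inequality, Lichnerowicz form. -/
theorem lich {K : ℝ} (hK : HasRicciLowerBound n M K) (hn : 0 < n) {f : M → ℝ}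
    (hf : ContMDiff (𝓡 n) 𝓘(ℝ, ℝ) ∞ f) :
    K * ∫ z, mGam n f f z ∂μ ≤ (1 - 1 / n) * ∫ z, mLap n f z ^ 2 ∂μ := by
  have hn' : (0:ℝ) < n := by exact_mod_cast hn
  have hpt : ∀ p, (1 / n) * mLap n f p ^ 2 + mGam n f (mLap n f) p + K * mGam n f f p ≤
      (1 / 2) * mLap n (mGam n f f) p := by
    intro p
    have h1 := mBochner_ineq hK ((hf p).of_le three_le_infty)
    have h2 := mLap_sq_le (n := n) ((hf p).of_le two_le_infty)
    have h3 : (1 / n) * mLap n f p ^ 2 ≤ mHessSq n f p := by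
      rw [div_mul_eq_mul_div, one_mul, div_le_iff₀ hn']
      linarith
    linarith
  have cL := contL hf
  have cG := contG hf hf
  have cGL := contG hf (contMDiff_mLap hf)
  have cLG := contL (contMDiff_mGam hf hf)
  have h4 : ∫ p, ((1 / n) * mLap n f p ^ 2 + mGam n f (mLap n f) p + K * mGam n f f p) ∂μ ≤
      ∫ p, (1 / 2) * mLap n (mGam n f f) p ∂μ := integral_mono
    (((integrable_of_continuous (n := n) (continuous_const.mul (cL.pow 2))).add
      (integrable_of_continuous (n := n) cGL)).add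
      (integrable_of_continuous (n := n) (continuous_const.mul cG)))
    (integrable_of_continuous (n := n) (continuous_const.mul cLG)) hpt
  have e1 : ∫ p, ((1 / n) * mLap n f p ^ 2 + mGam n f (mLap n f) p + K * mGam n f f p) ∂μ =
      (1 / n) * ∫ z, mLap n f z ^ 2 ∂μ + ∫ z, mGam n f (mLap n f) z ∂μ + K * ∫ z, mGam n f f z ∂μ := by
    rw [integral_add, integral_add, integral_const_mul, integral_const_mul]
    · exact integrable_of_continuous (n := n) (continuous_const.mul (cL.pow 2))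
    · exact integrable_of_continuous (n := n) cGL
    · exact (integrable_of_continuous (n := n) (continuous_const.mul (cL.pow 2))).add
        (integrable_of_continuous (n := n) cGL)
    · exact integrable_of_continuous (n := n) (continuous_const.mul cG)
  have e2 : ∫ p, (1 / 2 : ℝ) * mLap n (mGam n f f) p ∂μ = 0 := by
    rw [integral_const_mul, int_mLap (contMDiff_mGam hf hf), mul_zero]
  have e3 : ∫ z, mGam n f (mLap n f) z ∂μ = - ∫ z, mLap n f z ^ 2 ∂μ := by
    have h5 := green (n := n) (M := M) hf (contMDiff_mLap hf)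
    have h6 : ∀ z, mLap n f z * mLap n f z = mLap n f z ^ 2 := fun z => by ring
    simp only [h6] at h5
    linarith
  rw [e1, e2, e3] at h4
  linarith

/-- Lichnerowicz-Poincare inequality. -/
theorem poincare {K : ℝ} (hK : HasRicciLowerBound n M K) (hn : 0 < n) (hK0 : 0 < K)
    (hP : PoissonStmt n M) {F : M → ℝ} (hF : ContMDiff (𝓡 n) 𝓘(ℝ, ℝ) ∞ F)
    (h0 : ∫ z, F z ∂μ = 0) :
    K * ∫ z, F z ^ 2 ∂μ ≤ (1 - 1 / n) * ∫ z, mGam n F F z ∂μ := by
  obtain ⟨u, hu, hux⟩ := hP F hF h0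
  have hn' : (1:ℝ) ≤ n := by exact_mod_cast hn
  have hn0 : (0:ℝ) < n := by linarith
  have hc : 0 ≤ 1 - 1 / (n:ℝ) := by
    rw [sub_nonneg, div_le_iff₀ hn0]; linarith
  have e1 : ∫ z, F z ^ 2 ∂μ = - ∫ z, mGam n u F z ∂μ := by
    rw [← green hu hF]
    refine integral_congr_ae (Eventually.of_forall fun z => ?_)
    simp only [hux z]; ring
  have e2 := lich (n := n) (M := M) hK hn hu
  have e3 : ∫ z, mLap n u z ^ 2 ∂μ = ∫ z, F z ^ 2 ∂μ := by simp only [hux]
  rw [e3] at e2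
  set c : ℝ := 1 - 1 / (n:ℝ) with hcdef
  -- pointwise: -2 K <du,dF> ≤ K^2 /t |du|^2 + t |dF|^2 with t = c
  have cG := contG hF hF
  have cu := contG hu hu
  have cuF := contG hu hF
  rcases eq_or_lt_of_le hc with h0' | hpos
  · -- c = 0 : |du|² = 0, hence F = 0
    have h1 : ∫ z, mGam n u u z ∂μ ≤ 0 := by
      rw [← h0', zero_mul] at e2
      by_contra hcon
      rw [not_le] at hcon
      have := mul_pos hK0 hcon
      linarith
    have hnn : 0 ≤ ∫ z, mGam n u u z ∂μ := integral_nonneg fun z => mGam_self_nonneg u z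
    have h2 : ∫ z, mGam n u u z ∂μ = 0 := le_antisymm h1 hnn
    have h3 : mGam n u u =ᵐ[μ] 0 :=
      (integral_eq_zero_iff_of_nonneg (fun z => mGam_self_nonneg u z)
        (integrable_of_continuous (n := n) cu)).1 h2
    have h4 : ∫ z, mGam n u F z ∂μ = 0 := by
      rw [show (0:ℝ) = ∫ z, (0:ℝ) ∂μ by simp]
      refine integral_congr_ae ?_
      filter_upwards [h3] with z hz
      have := mGam_sq_le (n := n) u F z
      rw [hz] at this
      simp only [Pi.zero_apply, zero_mul] at this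
      exact pow_eq_zero_iff (two_ne_zero) |>.1 (le_antisymm this (sq_nonneg _))
    rw [e1, h4, ← h0']
    simp
  · have hpt : ∀ z, -(2 * (K * c)) * mGam n u F z ≤ K ^ 2 * mGam n u u z + c ^ 2 * mGam n F F z := by
      intro z
      have h1 := mGam_sq_le (n := n) u F z
      have h2 := mGam_self_nonneg (n := n) u z
      have h3 := mGam_self_nonneg (n := n) F z
      set a := mGam n u u z
      set b := mGam n F F z
      set m := mGam n u F z
      by_contra hcon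
      rw [not_le] at hcon
      have hA : 0 ≤ K ^ 2 * a + c ^ 2 * b := by positivity
      have h4 : (K ^ 2 * a + c ^ 2 * b) ^ 2 < (-(2 * (K * c)) * m) ^ 2 := by
        apply pow_lt_pow_left₀ hcon hA two_ne_zero
      nlinarith [sq_nonneg (K ^ 2 * a - c ^ 2 * b), mul_nonneg (sq_nonneg (K * c)) (sub_nonneg.2 h1)]
    have h5 : ∫ z, -(2 * (K * c)) * mGam n u F z ∂μ ≤
        ∫ z, (K ^ 2 * mGam n u u z + c ^ 2 * mGam n F F z) ∂μ := integral_mono
      (integrable_of_continuous (n := n) (continuous_const.mul cuF))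
      ((integrable_of_continuous (n := n) (continuous_const.mul cu)).add
        (integrable_of_continuous (n := n) (continuous_const.mul cG))) hpt
    have e5 : ∫ z, -(2 * (K * c)) * mGam n u F z ∂μ = 2 * (K * c) * ∫ z, F z ^ 2 ∂μ := by
      rw [integral_const_mul, e1]; ring
    have e6 : ∫ z, (K ^ 2 * mGam n u u z + c ^ 2 * mGam n F F z) ∂μ =
        K ^ 2 * ∫ z, mGam n u u z ∂μ + c ^ 2 * ∫ z, mGam n F F z ∂μ := by
      rw [integral_add, integral_const_mul, integral_const_mul]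
      · exact integrable_of_continuous (n := n) (continuous_const.mul cu)
      · exact integrable_of_continuous (n := n) (continuous_const.mul cG)
    have h6 : 2 * (K * c) * ∫ z, F z ^ 2 ∂μ ≤
        K ^ 2 * ∫ z, mGam n u u z ∂μ + c ^ 2 * ∫ z, mGam n F F z ∂μ := by
      rw [← e5, ← e6]; exact h5
    have h7 : K ^ 2 * ∫ z, mGam n u u z ∂μ ≤ K * (c * ∫ z, F z ^ 2 ∂μ) := by
      calc K ^ 2 * ∫ z, mGam n u u z ∂μ = K * (K * ∫ z, mGam n u u z ∂μ) := by ring
        _ ≤ _ := mul_le_mul_of_nonneg_left e2 hK0.le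
    have h8 : c * (K * ∫ z, F z ^ 2 ∂μ) ≤ c * (c * ∫ z, mGam n F F z ∂μ) := by nlinarith
    exact le_of_mul_le_mul_left h8 hpos

end Gen

end Crest.Agent.R249.StF_912

end
end

-- ▼ part R249/StFb_912
section

/-!
Row 249 (helper912), leaf A2-FIN, file 2:
* `const_of_le` : a solution of `STHyp` with `√f ≤ k0` is `0` or `k0²`;
* `disjoint` : two solutions with `f₁ f₂ = 0` : one of them vanishes identically.
-/

set_option autoImplicit false
set_option maxSynthPendingDepth 3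
set_option linter.unusedSectionVars false
set_option linter.unusedVariables false

open Bundle Bornology Set MeasureTheory Manifold Filter Metric
open scoped ENNReal ContDiff Topology NNReal
open Crest.GeometryTopology.CoordMetric Crest.GeometryTopology.ChartCurvature
  Crest.GeometryTopology.PointedLimit
open Crest.Agent.R247.Bo84 Crest.Agent.R247.Bs84
open Crest.Agent.R249.Top49

noncomputable section

namespace Crest.Agent.R249.StF_912

/-- `k0 = lam √(2/3)` -/
def k0 (lam : ℝ) : ℝ := lam * Real.sqrt (2 / 3)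

theorem k0_pos {lam : ℝ} (h : 0 < lam) : 0 < k0 lam := by unfold k0; positivity

theorem k0_sq (lam : ℝ) : k0 lam ^ 2 = 2 / 3 * lam ^ 2 := by
  unfold k0
  rw [mul_pow, Real.sq_sqrt (by norm_num)]; ring

theorem sqrt6_k0 (lam : ℝ) : Real.sqrt 6 * k0 lam = 2 * lam := by
  unfold k0
  have h : Real.sqrt 6 * Real.sqrt (2 / 3) = 2 := by
    rw [← Real.sqrt_mul (by norm_num)]
    rw [show (6:ℝ) * (2 / 3) = 2 ^ 2 by norm_num]
    exact Real.sqrt_sq (by norm_num)
  calc Real.sqrt 6 * (lam * Real.sqrt (2 / 3)) = lam * (Real.sqrt 6 * Real.sqrt (2 / 3)) := by ring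
    _ = 2 * lam := by rw [h]; ring

/-! ### the one variable function -/

/-- `G δ s = (s + δ)^{1/6} - δ^{1/6}` -/
def G (δ s : ℝ) : ℝ := (s + δ) ^ (1 / 6 : ℝ) - δ ^ (1 / 6 : ℝ)

def G1 (δ s : ℝ) : ℝ := (1 / 6) * (s + δ) ^ (-(5 / 6) : ℝ)

theorem G_nonneg {δ s : ℝ} (hδ : 0 < δ) (hs : 0 ≤ s) : 0 ≤ G δ s := by
  unfold G
  rw [sub_nonneg]
  exact Real.rpow_le_rpow hδ.le (by linarith) (by norm_num)

theorem G_zero (δ : ℝ) : G δ 0 = 0 := by simp [G]

theorem hasDerivAt_G {δ s : ℝ} (hs : 0 < s + δ) : HasDerivAt (G δ) (G1 δ s) s := by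
  have h1 : HasDerivAt (fun s : ℝ => s + δ) 1 s := (hasDerivAt_id s).add_const δ
  have h2 := (h1.rpow_const (p := (1 / 6 : ℝ)) (Or.inl hs.ne')).sub_const (δ ^ (1 / 6 : ℝ))
  have e : (1:ℝ) * (1 / 6 : ℝ) * (s + δ) ^ ((1 / 6 : ℝ) - 1) = G1 δ s := by
    rw [G1, show ((1:ℝ) / 6 - 1) = -(5 / 6) by norm_num]; ring
  rw [e] at h2
  exact h2

theorem hasDerivAt_G1 {δ s : ℝ} (hs : 0 < s + δ) :
    HasDerivAt (G1 δ) (-(5 / 6) * (G1 δ s / (s + δ))) s := by
  have h1 : HasDerivAt (fun s : ℝ => s + δ) 1 s := (hasDerivAt_id s).add_const δ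
  have h2 := (h1.rpow_const (p := (-(5 / 6) : ℝ)) (Or.inl hs.ne')).const_mul (1 / 6 : ℝ)
  have e : (1 / 6 : ℝ) * (1 * -(5 / 6 : ℝ) * (s + δ) ^ ((-(5 / 6) : ℝ) - 1)) =
      -(5 / 6) * (G1 δ s / (s + δ)) := by
    rw [G1, Real.rpow_sub_one hs.ne']; ring
  rw [e] at h2
  exact h2

theorem G1_pos {δ s : ℝ} (hs : 0 < s + δ) : 0 < G1 δ s := by
  unfold G1; positivity

theorem deriv_G {δ s : ℝ} (hs : 0 < s + δ) : deriv (G δ) s = G1 δ s := (hasDerivAt_G hs).deriv

theorem deriv2_G {δ s : ℝ} (hs : 0 < s + δ) :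
    deriv (deriv (G δ)) s = -(5 / 6) * (G1 δ s / (s + δ)) := by
  have h : deriv (G δ) =ᶠ[𝓝 s] G1 δ := by
    have : ∀ᶠ t in 𝓝 s, 0 < t + δ :=
      (continuousAt_id.add continuousAt_const).eventually (lt_mem_nhds hs)
    filter_upwards [this] with t ht using deriv_G ht
  rw [h.deriv_eq]
  exact (hasDerivAt_G1 hs).deriv

theorem contDiffAt_G {δ s : ℝ} (hs : 0 < s + δ) {k : WithTop ℕ∞} : ContDiffAt ℝ k (G δ) s := by
  unfold G
  exact ((contDiffAt_id.add contDiffAt_const).rpow_const_of_ne hs.ne').sub contDiffAt_const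

theorem G1_mul_le {δ s : ℝ} (hδ : 0 < δ) (hs : 0 ≤ s) :
    G1 δ s * s ≤ (1 / 6) * (G δ s + δ ^ (1 / 6 : ℝ)) := by
  have h0 : 0 < s + δ := by linarith
  have e : (s + δ) ^ (-(5 / 6) : ℝ) * (s + δ) = (s + δ) ^ (1 / 6 : ℝ) := by
    nth_rewrite 2 [← Real.rpow_one (s + δ)]
    rw [← Real.rpow_add h0]; norm_num
  have h1 : G1 δ s * s ≤ G1 δ s * (s + δ) :=
    mul_le_mul_of_nonneg_left (by linarith) (G1_pos h0).le
  refine h1.trans (le_of_eq ?_)
  rw [G1, mul_assoc, e, G]; ring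

theorem G_le {δ s : ℝ} (hδ : 0 < δ) (hs : 0 ≤ s) : G δ s ≤ s ^ (1 / 6 : ℝ) := by
  unfold G
  have := Real.rpow_add_le_add_rpow hs hδ.le (p := (1 / 6 : ℝ)) (by norm_num) (by norm_num)
  linarith

theorem le_G {δ s : ℝ} (hδ : 0 < δ) (hs : 0 ≤ s) : s ^ (1 / 6 : ℝ) - δ ^ (1 / 6 : ℝ) ≤ G δ s := by
  unfold G
  have : s ^ (1 / 6 : ℝ) ≤ (s + δ) ^ (1 / 6 : ℝ) :=
    Real.rpow_le_rpow hs (by linarith) (by norm_num)
  linarith

section Four

variable {M : Type*} [MetricSpace M] [ChartedSpace (EuclideanSpace ℝ (Fin 4)) M]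
  [IsManifold (𝓡 4) ∞ M]
  [RiemannianBundle (fun p : M => TangentSpace (𝓡 4) p)]
  [IsContMDiffRiemannianBundle (𝓡 4) ∞ (EuclideanSpace ℝ (Fin 4)) (fun p : M => TangentSpace (𝓡 4) p)]
  [IsRiemannianManifold (𝓡 4) M]

/-- the gradient vanishes at a zero of a nonnegative function -/
theorem mGam_zero_of_min {f : M → ℝ} {x : M} (hf : ContMDiffAt (𝓡 4) 𝓘(ℝ, ℝ) 1 f x)
    (hmin : IsLocalMin f x) (h : M → ℝ) : mGam 4 f h x = 0 := by
  have hc : chartCentre 4 M x ∈ (chartAt (EuclideanSpace ℝ (Fin 4)) x).target :=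
    mem_chart_target _ x
  have h2 : IsLocalMin (inCh 4 x f) (chartCentre 4 M x) := by
    have h3 : Tendsto (chartAt (EuclideanSpace ℝ (Fin 4)) x).symm (𝓝 (chartCentre 4 M x)) (𝓝 x) := by
      have := (chartAt (EuclideanSpace ℝ (Fin 4)) x).continuousAt_symm hc
      have e : (chartAt (EuclideanSpace ℝ (Fin 4)) x).symm (chartCentre 4 M x) = x :=
        (chartAt _ x).left_inv (mem_chart_source _ x)
      rwa [ContinuousAt, e] at this
    have h4 := h3.eventually hmin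
    filter_upwards [h4] with a ha
    have e : inCh 4 x f (chartCentre 4 M x) = f x := inCh_centre f x
    rw [e]
    exact ha
  rw [mGam, gam_eq_fderiv_grad, h2.fderiv_eq_zero]
  simp

theorem STHyp.isMin {lam : ℝ} {f : M → ℝ} (h : STHyp M lam f) {x : M} (hx : f x = 0) :
    IsLocalMin f x := by
  have : IsMinOn f univ x := fun y _ => by simp only [mem_setOf_eq, hx]; exact h.nonneg y
  exact this.isLocalMin univ_mem

theorem STHyp.lap_zero {lam : ℝ} {f : M → ℝ} (h : STHyp M lam f) {x : M} (hx : f x = 0) :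
    0 ≤ mLap 4 f x :=
  Crest.Agent.R247.Bs342.mLap_nonneg_of_min ((h.smooth x).of_le two_le_infty) (STHyp.isMin h hx)

theorem STHyp.gam_zero {lam : ℝ} {f : M → ℝ} (h : STHyp M lam f) {x : M} (hx : f x = 0)
    (k : M → ℝ) : mGam 4 f k x = 0 :=
  mGam_zero_of_min ((h.smooth x).of_le (by simp)) (STHyp.isMin h hx) k

/-- the pointwise inequality, solved -/
theorem STHyp.lap_ge {lam : ℝ} {f : M → ℝ} (h : STHyp M lam f) {x : M} (hx : 0 < f x) :
    (5 / 6) * (mGam 4 f f x / f x) + 2 * Real.sqrt 6 * f x * (k0 lam - Real.sqrt (f x)) ≤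
      mLap 4 f x := by
  have h1 := h.ineq x hx
  have h2 := sqrt6_k0 lam
  have h3 : 2 * Real.sqrt 6 * f x * (k0 lam - Real.sqrt (f x)) =
      4 * lam * f x - 2 * Real.sqrt 6 * (f x * Real.sqrt (f x)) := by
    calc 2 * Real.sqrt 6 * f x * (k0 lam - Real.sqrt (f x)) =
        2 * f x * (Real.sqrt 6 * k0 lam) - 2 * Real.sqrt 6 * (f x * Real.sqrt (f x)) := by ring
      _ = _ := by rw [h2]; ring
  rw [h3]; linarith

variable [CompactSpace M] [ConnectedSpace M] [MeasurableSpace M]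
  [BorelSpace M]

local notation "μ" => (μHE[4] : Measure M)

/-- Lemma E. -/
theorem const_of_le {lam : ℝ} (hlam : 0 < lam) {f : M → ℝ} (h : STHyp M lam f)
    (hle : ∀ x, Real.sqrt (f x) ≤ k0 lam) :
    (∀ x, f x = 0) ∨ (∀ x, f x = 2 / 3 * lam ^ 2) := by
  have : (μ).IsOpenPosMeasure := Crest.Agent.R247.Ms322.isOpenPosMeasure 4 M
  have hnn : ∀ x, 0 ≤ mLap 4 f x := by
    intro x
    rcases eq_or_lt_of_le (h.nonneg x) with h0 | h0
    · exact STHyp.lap_zero h h0.symm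
    · refine le_trans ?_ (STHyp.lap_ge h h0)
      have h1 : 0 ≤ mGam 4 f f x / f x := div_nonneg (mGam_self_nonneg f x) h0.le
      have h2 : 0 ≤ k0 lam - Real.sqrt (f x) := sub_nonneg.2 (hle x)
      positivity
  have hc : Continuous (mLap 4 f) := contL (n := 4) h.smooth
  have h0 : ∫ x, mLap 4 f x ∂μ = 0 := int_mLap (n := 4) h.smooth
  have h1 : mLap 4 f =ᵐ[μ] 0 :=
    (integral_eq_zero_iff_of_nonneg hnn (integrable_of_continuous (n := 4) hc)).1 h0
  have h2 : mLap 4 f = 0 := (Continuous.ae_eq_iff_eq μ hc continuous_zero).1 h1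
  have h3 : ∀ x, 0 < f x → f x = 2 / 3 * lam ^ 2 := by
    intro x hx
    have h4 := STHyp.lap_ge h hx
    rw [h2] at h4
    have h5 : 0 ≤ mGam 4 f f x / f x := div_nonneg (mGam_self_nonneg f x) hx.le
    have h6 : 2 * Real.sqrt 6 * f x * (k0 lam - Real.sqrt (f x)) ≤ 0 := by
      simp only [Pi.zero_apply] at h4; linarith
    have h7 : 0 < 2 * Real.sqrt 6 * f x := by positivity
    have h8 : k0 lam - Real.sqrt (f x) ≤ 0 := by
      by_contra hcon
      rw [not_le] at hcon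
      have := mul_pos h7 hcon
      linarith
    have h9 : Real.sqrt (f x) = k0 lam := le_antisymm (hle x) (by linarith)
    rw [← k0_sq, ← h9, Real.sq_sqrt hx.le]
  have hfc : Continuous f := h.smooth.continuous
  have hcl : IsClopen {x | f x = 0} := by
    refine ⟨isClosed_eq hfc continuous_const, ?_⟩
    have e : {x | f x = 0} = {x | f x = 2 / 3 * lam ^ 2}ᶜ := by
      ext x
      simp only [mem_setOf_eq, mem_compl_iff]
      constructor
      · intro h0 h1
        rw [h0] at h1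
        have : 0 < 2 / 3 * lam ^ 2 := by positivity
        linarith
      · intro h0
        by_contra h1
        exact h0 (h3 x (lt_of_le_of_ne (h.nonneg x) (Ne.symm h1)))
    rw [e]
    exact (isClosed_eq hfc continuous_const).isOpen_compl
  rcases isClopen_iff.1 hcl with h4 | h4
  · right
    intro x
    have : x ∉ {x | f x = 0} := by rw [h4]; exact notMem_empty x
    exact h3 x (lt_of_le_of_ne (h.nonneg x) (Ne.symm this))
  · left
    intro x
    have : x ∈ {x | f x = 0} := by rw [h4]; exact mem_univ x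
    exact this

/-! ### disjoint supports -/

variable {lam δ : ℝ} {f : M → ℝ}

theorem smooth_G (hδ : 0 < δ) (h : STHyp M lam f) :
    ContMDiff (𝓡 4) 𝓘(ℝ, ℝ) ∞ (fun x => G δ (f x)) := by
  intro x
  have h0 : 0 < f x + δ := by linarith [h.nonneg x]
  exact (contDiffAt_G h0).contMDiffAt.comp x (h.smooth x)

theorem lap_G (hδ : 0 < δ) (hlam : 0 < lam) (h : STHyp M lam f)
    (hle : ∀ x, Real.sqrt (f x) ≤ 2 * k0 lam) (x : M) :
    -(4 * lam) * (G1 δ (f x) * f x) ≤ mLap 4 (fun x => G δ (f x)) x := by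
  have h0 : 0 < f x + δ := by linarith [h.nonneg x]
  rw [mLap_comp (contDiffAt_G h0) ((h.smooth x).of_le two_le_infty), deriv_G h0, deriv2_G h0]
  have hG := G1_pos h0
  rcases eq_or_lt_of_le (h.nonneg x) with h1 | h1
  · have h1' : f x = 0 := h1.symm
    have h2 : 0 ≤ G1 δ (f x) * mLap 4 f x := mul_nonneg hG.le (STHyp.lap_zero h h1')
    have h3 : -(4 * lam) * (G1 δ (f x) * f x) = 0 := by rw [h1']; ring
    rw [STHyp.gam_zero h h1', h3, mul_zero, add_zero]
    exact h2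
  · have h2 := STHyp.lap_ge h h1
    have h3 : 0 ≤ mGam 4 f f x := mGam_self_nonneg f x
    have h4 : mGam 4 f f x / (f x + δ) ≤ mGam 4 f f x / f x :=
      div_le_div_of_nonneg_left h3 h1 (by linarith)
    have h5 : -(4 * lam) * f x ≤ 2 * Real.sqrt 6 * f x * (k0 lam - Real.sqrt (f x)) := by
      have h6 := sqrt6_k0 lam
      have h7 : 0 ≤ 2 * Real.sqrt 6 * f x := by positivity
      have h8 := mul_le_mul_of_nonneg_left (hle x) h7
      have h9 : 2 * Real.sqrt 6 * f x * (2 * k0 lam) = 8 * lam * f x := by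
        calc 2 * Real.sqrt 6 * f x * (2 * k0 lam) = 4 * f x * (Real.sqrt 6 * k0 lam) := by ring
          _ = _ := by rw [h6]; ring
      have h10 : 2 * Real.sqrt 6 * f x * k0 lam = 4 * lam * f x := by
        calc 2 * Real.sqrt 6 * f x * k0 lam = 2 * f x * (Real.sqrt 6 * k0 lam) := by ring
          _ = _ := by rw [h6]; ring
      rw [mul_sub]
      rw [h9] at h8
      rw [h10]
      linarith
    have h6 : G1 δ (f x) * ((5 / 6) * (mGam 4 f f x / (f x + δ)) + -(4 * lam) * f x) ≤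
        G1 δ (f x) * mLap 4 f x := by
      apply mul_le_mul_of_nonneg_left _ hG.le
      linarith
    calc -(4 * lam) * (G1 δ (f x) * f x) =
        G1 δ (f x) * ((5 / 6) * (mGam 4 f f x / (f x + δ)) + -(4 * lam) * f x) +
          -(5 / 6) * (G1 δ (f x) / (f x + δ)) * mGam 4 f f x := by ring
      _ ≤ _ := by linarith

/-- the Rayleigh quotient. -/
theorem rayleigh (hδ : 0 < δ) (hlam : 0 < lam) (h : STHyp M lam f)
    (hle : ∀ x, Real.sqrt (f x) ≤ 2 * k0 lam) :
    ∫ x, mGam 4 (fun x => G δ (f x)) (fun x => G δ (f x)) x ∂μ ≤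
      (2 / 3) * lam * (∫ x, G δ (f x) ^ 2 ∂μ + δ ^ (1 / 6 : ℝ) * ∫ x, G δ (f x) ∂μ) := by
  have hs := smooth_G hδ h
  have hc := hs.continuous
  have h1 := green (n := 4) hs hs
  have h2 : ∀ x, -(G δ (f x) * mLap 4 (fun x => G δ (f x)) x) ≤
      (2 / 3) * lam * (G δ (f x) ^ 2 + δ ^ (1 / 6 : ℝ) * G δ (f x)) := by
    intro x
    have h3 := lap_G hδ hlam h hle x
    have h4 := G1_mul_le hδ (h.nonneg x)
    have h5 := G_nonneg hδ (h.nonneg x)
    have h6 : -mLap 4 (fun x => G δ (f x)) x ≤ 4 * lam * ((1 / 6) * (G δ (f x) + δ ^ (1 / 6 : ℝ))) := by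
      have : 4 * lam * (G1 δ (f x) * f x) ≤ 4 * lam * ((1 / 6) * (G δ (f x) + δ ^ (1 / 6 : ℝ))) :=
        mul_le_mul_of_nonneg_left h4 (by linarith)
      linarith
    have h7 := mul_le_mul_of_nonneg_left h6 h5
    calc -(G δ (f x) * mLap 4 (fun x => G δ (f x)) x) =
        G δ (f x) * -mLap 4 (fun x => G δ (f x)) x := by ring
      _ ≤ _ := h7
      _ = _ := by ring
  have c1 : Continuous (mLap 4 (fun x => G δ (f x))) := contL (n := 4) hs
  have h3 : ∫ x, -(G δ (f x) * mLap 4 (fun x => G δ (f x)) x) ∂μ ≤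
      ∫ x, (2 / 3) * lam * (G δ (f x) ^ 2 + δ ^ (1 / 6 : ℝ) * G δ (f x)) ∂μ :=
    integral_mono (integrable_of_continuous (n := 4) (hc.mul c1).neg)
      (integrable_of_continuous (n := 4)
        (continuous_const.mul ((hc.pow 2).add (continuous_const.mul hc)))) h2
  rw [integral_neg, h1, neg_neg, integral_const_mul, integral_add, integral_const_mul] at h3
  · exact h3
  · exact integrable_of_continuous (n := 4) (hc.pow 2)
  · exact integrable_of_continuous (n := 4) (continuous_const.mul hc)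

end Four

end Crest.Agent.R249.StF_912

end
end

-- ▼ part R249/StFc_912
section

/-!
Row 249 (helper912), leaf A2-FIN, file 3: two solutions of `STHyp` with `f₁ f₂ = 0`
(no strong maximum principle: Rayleigh quotients and the Lichnerowicz inequality).
-/

set_option autoImplicit false
set_option maxSynthPendingDepth 3
set_option linter.unusedSectionVars false
set_option linter.unusedVariables false

open Bundle Bornology Set MeasureTheory Manifold Filter Metric
open scoped ENNReal ContDiff Topology NNReal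
open Crest.GeometryTopology.CoordMetric Crest.GeometryTopology.ChartCurvature
  Crest.GeometryTopology.PointedLimit
open Crest.Agent.R247.Bo84 Crest.Agent.R247.Bs84
open Crest.Agent.R249.Top49

noncomputable section

namespace Crest.Agent.R249.StF_912

section Four

variable {M : Type*} [MetricSpace M] [ChartedSpace (EuclideanSpace ℝ (Fin 4)) M]
  [IsManifold (𝓡 4) ∞ M]
  [RiemannianBundle (fun p : M => TangentSpace (𝓡 4) p)]
  [IsContMDiffRiemannianBundle (𝓡 4) ∞ (EuclideanSpace ℝ (Fin 4)) (fun p : M => TangentSpace (𝓡 4) p)]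
  [IsRiemannianManifold (𝓡 4) M] [CompactSpace M] [ConnectedSpace M] [MeasurableSpace M]
  [BorelSpace M]

local notation "μ" => (μHE[4] : Measure M)

/-- Cauchy-Schwarz for the mean. -/
theorem sq_integral_le {u : M → ℝ} (hu : Continuous u) :
    (∫ x, u x ∂μ) ^ 2 ≤ (μ).real univ * ∫ x, u x ^ 2 ∂μ := by
  have hf : IsFiniteMeasure μ := finMeas (n := 4)
  have i1 := integrable_of_continuous (n := 4) hu
  have i2 := integrable_of_continuous (n := 4) (hu.pow 2)
  set V := (μ).real univ with hV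
  have hV0 : 0 ≤ V := measureReal_nonneg
  set I := ∫ x, u x ∂μ with hI
  set S := ∫ x, u x ^ 2 ∂μ with hS
  -- ∫ (V u - I)^2 ≥ 0
  have h1 : 0 ≤ ∫ x, (V * u x - I) ^ 2 ∂μ := integral_nonneg fun x => sq_nonneg _
  have h2 : ∫ x, (V * u x - I) ^ 2 ∂μ = V ^ 2 * S - 2 * V * I * I + I ^ 2 * V := by
    have e : ∀ x, (V * u x - I) ^ 2 = V ^ 2 * u x ^ 2 - 2 * V * I * u x + I ^ 2 := fun x => by ring
    simp only [e]
    rw [integral_add, integral_sub, integral_const_mul, integral_const_mul, integral_const]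
    · simp only [smul_eq_mul, ← hV, ← hI, ← hS]; ring
    · exact i2.const_mul _
    · exact i1.const_mul _
    · exact (i2.const_mul _).sub (i1.const_mul _)
    · exact integrable_const _
  rw [h2] at h1
  have h3 : 0 ≤ V * (V * S - I ^ 2) := by nlinarith
  rcases eq_or_lt_of_le hV0 with h4 | h4
  · -- V = 0
    have h5 : (μ) = 0 := by
      rw [← Measure.measure_univ_eq_zero]
      have := (measureReal_eq_zero_iff (measure_ne_top (μ) univ)).1 h4.symm
      exact this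
    have h6 : I = 0 := by rw [hI, h5]; simp
    rw [h6, ← h4]; simp
  · have := (mul_nonneg_iff_of_pos_left h4).1 h3
    linarith

variable {lam : ℝ} {f₁ f₂ : M → ℝ}

/-- the main estimate at scale `e`. -/
theorem est (hlam : 0 < lam) (hR : HasRicciLowerBound 4 M lam) (hP : PoissonStmt 4 M)
    (h₁ : STHyp M lam f₁) (h₂ : STHyp M lam f₂)
    (hb₁ : ∀ x, Real.sqrt (f₁ x) ≤ 2 * k0 lam) (hb₂ : ∀ x, Real.sqrt (f₂ x) ≤ 2 * k0 lam)
    (h0 : ∀ x, f₁ x * f₂ x = 0) {δ : ℝ} (hδ : 0 < δ) :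
    2 * ((∫ x, G δ (f₁ x) ∂μ) * ∫ x, G δ (f₂ x) ∂μ) ≤
      (μ).real univ * δ ^ (1 / 6 : ℝ) * ((∫ x, G δ (f₁ x) ∂μ) + ∫ x, G δ (f₂ x) ∂μ) := by
  set e := δ ^ (1 / 6 : ℝ) with he
  have he0 : 0 < e := by positivity
  set u₁ : M → ℝ := fun x => G δ (f₁ x) with hu₁
  set u₂ : M → ℝ := fun x => G δ (f₂ x) with hu₂
  have s₁ : ContMDiff (𝓡 4) 𝓘(ℝ, ℝ) ∞ u₁ := smooth_G hδ h₁
  have s₂ : ContMDiff (𝓡 4) 𝓘(ℝ, ℝ) ∞ u₂ := smooth_G hδ h₂
  have c₁ := s₁.continuous
  have c₂ := s₂.continuous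
  have n₁ : ∀ x, 0 ≤ u₁ x := fun x => G_nonneg hδ (h₁.nonneg x)
  have n₂ : ∀ x, 0 ≤ u₂ x := fun x => G_nonneg hδ (h₂.nonneg x)
  have z12 : ∀ x, u₁ x * u₂ x = 0 := by
    intro x
    rcases mul_eq_zero.1 (h0 x) with h | h
    · simp [hu₁, h, G_zero]
    · simp [hu₂, h, G_zero]
  set b := ∫ x, u₁ x ∂μ with hb
  set a := ∫ x, u₂ x ∂μ with ha
  have hb0 : 0 ≤ b := integral_nonneg n₁
  have ha0 : 0 ≤ a := integral_nonneg n₂
  set S₁ := ∫ x, u₁ x ^ 2 ∂μ with hS₁
  set S₂ := ∫ x, u₂ x ^ 2 ∂μ with hS₂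
  set V := (μ).real univ with hV
  have hV0 : 0 ≤ V := measureReal_nonneg
  have r₁ := rayleigh hδ hlam h₁ hb₁
  have r₂ := rayleigh hδ hlam h₂ hb₂
  rw [← he] at r₁ r₂
  set T₁ := ∫ x, mGam 4 u₁ u₁ x ∂μ with hT₁
  set T₂ := ∫ x, mGam 4 u₂ u₂ x ∂μ with hT₂
  have r₁' : T₁ ≤ (2 / 3) * lam * (S₁ + e * b) := r₁
  have r₂' : T₂ ≤ (2 / 3) * lam * (S₂ + e * a) := r₂
  -- the test function
  set h : M → ℝ := fun x => a * u₁ x - b * u₂ x with hh
  have sa₁ : ContMDiff (𝓡 4) 𝓘(ℝ, ℝ) ∞ (fun x => a * u₁ x) := contMDiff_const.mul s₁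
  have sb₂ : ContMDiff (𝓡 4) 𝓘(ℝ, ℝ) ∞ (fun x => b * u₂ x) := contMDiff_const.mul s₂
  have sh : ContMDiff (𝓡 4) 𝓘(ℝ, ℝ) ∞ h := sa₁.sub sb₂
  have hmean : ∫ x, h x ∂μ = 0 := by
    rw [hh]
    rw [integral_sub, integral_const_mul, integral_const_mul]
    · ring
    · exact integrable_of_continuous (n := 4) (continuous_const.mul c₁)
    · exact integrable_of_continuous (n := 4) (continuous_const.mul c₂)
  have hp := poincare (n := 4) (M := M) hR (by norm_num) hlam hP sh hmean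
  have e1 : ∫ x, h x ^ 2 ∂μ = a ^ 2 * S₁ + b ^ 2 * S₂ := by
    have e : ∀ x, h x ^ 2 = a ^ 2 * u₁ x ^ 2 + b ^ 2 * u₂ x ^ 2 := by
      intro x
      have := z12 x
      simp only [hh]
      calc (a * u₁ x - b * u₂ x) ^ 2 =
          a ^ 2 * u₁ x ^ 2 + b ^ 2 * u₂ x ^ 2 - 2 * a * b * (u₁ x * u₂ x) := by ring
        _ = _ := by rw [this]; ring
    simp only [e]
    rw [integral_add, integral_const_mul, integral_const_mul]
    · exact integrable_of_continuous (n := 4) (continuous_const.mul (c₁.pow 2))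
    · exact integrable_of_continuous (n := 4) (continuous_const.mul (c₂.pow 2))
  have gz : ∀ x, mGam 4 u₁ u₂ x = 0 := by
    intro x
    rcases mul_eq_zero.1 (h0 x) with h | h
    · refine mGam_zero_of_min ((s₁ x).of_le (by simp)) ?_ u₂
      have : IsMinOn u₁ univ x := fun y _ => by
        simp only [mem_setOf_eq]
        rw [show u₁ x = 0 by simp [hu₁, h, G_zero]]
        exact n₁ y
      exact this.isLocalMin univ_mem
    · rw [mGam_comm]
      refine mGam_zero_of_min ((s₂ x).of_le (by simp)) ?_ u₁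
      have : IsMinOn u₂ univ x := fun y _ => by
        simp only [mem_setOf_eq]
        rw [show u₂ x = 0 by simp [hu₂, h, G_zero]]
        exact n₂ y
      exact this.isLocalMin univ_mem
  have md₁ : ∀ x, MDifferentiableAt (𝓡 4) 𝓘(ℝ, ℝ) u₁ x := fun x =>
    (s₁ x).mdifferentiableAt (by simp)
  have md₂ : ∀ x, MDifferentiableAt (𝓡 4) 𝓘(ℝ, ℝ) u₂ x := fun x =>
    (s₂ x).mdifferentiableAt (by simp)
  have mda : ∀ x, MDifferentiableAt (𝓡 4) 𝓘(ℝ, ℝ) (fun x => a * u₁ x) x := fun x =>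
    (sa₁ x).mdifferentiableAt (by simp)
  have mdb : ∀ x, MDifferentiableAt (𝓡 4) 𝓘(ℝ, ℝ) (fun x => b * u₂ x) x := fun x =>
    (sb₂ x).mdifferentiableAt (by simp)
  have e2 : ∫ x, mGam 4 h h x ∂μ = a ^ 2 * T₁ + b ^ 2 * T₂ := by
    have e : ∀ x, mGam 4 h h x = a ^ 2 * mGam 4 u₁ u₁ x + b ^ 2 * mGam 4 u₂ u₂ x := by
      intro x
      have g12 := gz x
      have g21 : mGam 4 u₂ u₁ x = 0 := by rw [mGam_comm]; exact g12
      simp only [hh]
      rw [mGam_sub_left (mda x) (mdb x), mGam_sub_right (mda x) (mdb x),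
        mGam_sub_right (mda x) (mdb x), mGam_const_mul_left a (md₁ x),
        mGam_const_mul_left a (md₁ x), mGam_const_mul_left b (md₂ x),
        mGam_const_mul_left b (md₂ x), mGam_const_mul_right a (md₁ x),
        mGam_const_mul_right b (md₂ x), mGam_const_mul_right a (md₁ x),
        mGam_const_mul_right b (md₂ x), g12, g21]
      ring
    simp only [e]
    rw [integral_add, integral_const_mul, integral_const_mul]
    · exact integrable_of_continuous (n := 4) (continuous_const.mul (contG s₁ s₁))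
    · exact integrable_of_continuous (n := 4) (continuous_const.mul (contG s₂ s₂))
  rw [e1, e2] at hp
  -- combine
  have k1 : (1 - 1 / ((4:ℕ):ℝ)) * (a ^ 2 * T₁ + b ^ 2 * T₂) ≤
      (1 / 2) * lam * (a ^ 2 * (S₁ + e * b) + b ^ 2 * (S₂ + e * a)) := by
    have q1 := mul_le_mul_of_nonneg_left r₁' (sq_nonneg a)
    have q2 := mul_le_mul_of_nonneg_left r₂' (sq_nonneg b)
    have : (1 - 1 / ((4:ℕ):ℝ)) = 3 / 4 := by norm_num
    rw [this]
    nlinarith
  have k2 : lam * (a ^ 2 * S₁ + b ^ 2 * S₂) ≤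
      lam * ((1 / 2) * (a ^ 2 * (S₁ + e * b) + b ^ 2 * (S₂ + e * a))) := by
    refine hp.trans (k1.trans (le_of_eq ?_)); ring
  have k3 := le_of_mul_le_mul_left k2 hlam
  have k4 : a ^ 2 * S₁ + b ^ 2 * S₂ ≤ e * (a * b) * (a + b) := by nlinarith
  have c1 : b ^ 2 ≤ V * S₁ := sq_integral_le c₁
  have c2 : a ^ 2 ≤ V * S₂ := sq_integral_le c₂
  have k5 : 2 * (a * b) * (a * b) ≤ V * e * (a + b) * (a * b) := by
    have q1 := mul_le_mul_of_nonneg_left c1 (sq_nonneg a)
    have q2 := mul_le_mul_of_nonneg_left c2 (sq_nonneg b)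
    have q3 := mul_le_mul_of_nonneg_left k4 hV0
    nlinarith
  have hab : 0 ≤ a * b := mul_nonneg ha0 hb0
  rcases eq_or_lt_of_le hab with h5 | h5
  · have : 2 * (b * a) = 0 := by rw [mul_comm b a, ← h5]; ring
    rw [this]; positivity
  · have := le_of_mul_le_mul_right k5 h5
    linarith

theorem cont_pow (h : STHyp M lam f₁) : Continuous fun x => f₁ x ^ (1 / 6 : ℝ) :=
  h.smooth.continuous.rpow_const fun _ => Or.inr (by norm_num)

theorem int_G_le (h : STHyp M lam f₁) {δ : ℝ} (hδ : 0 < δ) :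
    ∫ x, G δ (f₁ x) ∂μ ≤ ∫ x, f₁ x ^ (1 / 6 : ℝ) ∂μ :=
  integral_mono (integrable_of_continuous (n := 4) (smooth_G hδ h).continuous)
    (integrable_of_continuous (n := 4) (cont_pow h)) fun x => G_le hδ (h.nonneg x)

theorem le_int_G (h : STHyp M lam f₁) {δ : ℝ} (hδ : 0 < δ) :
    (∫ x, f₁ x ^ (1 / 6 : ℝ) ∂μ) - (μ).real univ * δ ^ (1 / 6 : ℝ) ≤ ∫ x, G δ (f₁ x) ∂μ := by
  have hf : IsFiniteMeasure μ := finMeas (n := 4)
  have h1 : ∫ x, (f₁ x ^ (1 / 6 : ℝ) - δ ^ (1 / 6 : ℝ)) ∂μ ≤ ∫ x, G δ (f₁ x) ∂μ :=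
    integral_mono ((integrable_of_continuous (n := 4) (cont_pow h)).sub (integrable_const _))
      (integrable_of_continuous (n := 4) (smooth_G hδ h).continuous)
      fun x => le_G hδ (h.nonneg x)
  rw [integral_sub (integrable_of_continuous (n := 4) (cont_pow h)) (integrable_const _),
    integral_const, smul_eq_mul] at h1
  exact h1

theorem zero_of_int (h : STHyp M lam f₁) (h0 : ∫ x, f₁ x ^ (1 / 6 : ℝ) ∂μ = 0) (x : M) :
    f₁ x = 0 := by
  have : (μ).IsOpenPosMeasure := Crest.Agent.R247.Ms322.isOpenPosMeasure 4 M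
  have hn : ∀ x, 0 ≤ f₁ x ^ (1 / 6 : ℝ) := fun x => Real.rpow_nonneg (h.nonneg x) _
  have h1 : (fun x => f₁ x ^ (1 / 6 : ℝ)) =ᵐ[μ] 0 :=
    (integral_eq_zero_iff_of_nonneg hn (integrable_of_continuous (n := 4) (cont_pow h))).1 h0
  have h2 := (Continuous.ae_eq_iff_eq μ (cont_pow h) continuous_zero).1 h1
  have h3 := congrFun h2 x
  simp only [Pi.zero_apply] at h3
  exact ((Real.rpow_eq_zero (h.nonneg x) (by norm_num)).1 h3)

/-- Lemma D. -/
theorem disjoint_zero (hlam : 0 < lam) (hR : HasRicciLowerBound 4 M lam) (hP : PoissonStmt 4 M)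
    (h₁ : STHyp M lam f₁) (h₂ : STHyp M lam f₂)
    (hb₁ : ∀ x, Real.sqrt (f₁ x) ≤ 2 * k0 lam) (hb₂ : ∀ x, Real.sqrt (f₂ x) ≤ 2 * k0 lam)
    (h0 : ∀ x, f₁ x * f₂ x = 0) : (∀ x, f₁ x = 0) ∨ (∀ x, f₂ x = 0) := by
  set B := ∫ x, f₁ x ^ (1 / 6 : ℝ) ∂μ with hB
  set A := ∫ x, f₂ x ^ (1 / 6 : ℝ) ∂μ with hA
  have hB0 : 0 ≤ B := integral_nonneg fun x => Real.rpow_nonneg (h₁.nonneg x) _
  have hA0 : 0 ≤ A := integral_nonneg fun x => Real.rpow_nonneg (h₂.nonneg x) _
  by_cases hBz : B = 0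
  · exact Or.inl (zero_of_int h₁ hBz)
  by_cases hAz : A = 0
  · exact Or.inr (zero_of_int h₂ hAz)
  exfalso
  have hBp : 0 < B := lt_of_le_of_ne hB0 (Ne.symm hBz)
  have hAp : 0 < A := lt_of_le_of_ne hA0 (Ne.symm hAz)
  set V := (μ).real univ with hV
  have hV0 : 0 ≤ V := measureReal_nonneg
  -- choose e
  set W := V + 1 with hW
  have hW0 : 0 < W := by linarith
  obtain ⟨e, he0, he1, he2, he3⟩ : ∃ e : ℝ, 0 < e ∧ W * e ≤ A / 2 ∧ W * e ≤ B / 2 ∧
      W * e * (A + B) < A * B / 2 := by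
    refine ⟨min (min (A / 2 / W) (B / 2 / W)) (A * B / (4 * (W * (A + B)))), ?_, ?_, ?_, ?_⟩
    · positivity
    · have : min (min (A / 2 / W) (B / 2 / W)) (A * B / (4 * (W * (A + B)))) ≤ A / 2 / W :=
        (min_le_left _ _).trans (min_le_left _ _)
      calc _ ≤ W * (A / 2 / W) := mul_le_mul_of_nonneg_left this hW0.le
        _ = A / 2 := by field_simp
    · have : min (min (A / 2 / W) (B / 2 / W)) (A * B / (4 * (W * (A + B)))) ≤ B / 2 / W :=
        (min_le_left _ _).trans (min_le_right _ _)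
      calc _ ≤ W * (B / 2 / W) := mul_le_mul_of_nonneg_left this hW0.le
        _ = B / 2 := by field_simp
    · have h1 : min (min (A / 2 / W) (B / 2 / W)) (A * B / (4 * (W * (A + B)))) ≤
        A * B / (4 * (W * (A + B))) := min_le_right _ _
      have h2 : W * min (min (A / 2 / W) (B / 2 / W)) (A * B / (4 * (W * (A + B)))) * (A + B) ≤
          W * (A * B / (4 * (W * (A + B)))) * (A + B) := by
        apply mul_le_mul_of_nonneg_right _ (by linarith)
        exact mul_le_mul_of_nonneg_left h1 hW0.le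
      have h3 : W * (A * B / (4 * (W * (A + B)))) * (A + B) = A * B / 4 := by field_simp
      have h4 : 0 < A * B := mul_pos hAp hBp
      linarith
  set δ : ℝ := e ^ 6 with hδ
  have hδ0 : 0 < δ := by positivity
  have hde : δ ^ (1 / 6 : ℝ) = e := by
    rw [hδ, ← Real.rpow_natCast, ← Real.rpow_mul he0.le]
    norm_num
  have m := est hlam hR hP h₁ h₂ hb₁ hb₂ h0 hδ0
  have l1 := int_G_le h₁ hδ0
  have l2 := int_G_le h₂ hδ0
  have l3 := le_int_G h₁ hδ0
  have l4 := le_int_G h₂ hδ0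
  rw [hde] at m l3 l4
  set b := ∫ x, G δ (f₁ x) ∂μ with hb
  set a := ∫ x, G δ (f₂ x) ∂μ with ha
  have hVe : V * e ≤ W * e := mul_le_mul_of_nonneg_right (by linarith) he0.le
  have hb2 : B / 2 ≤ b := by linarith
  have ha2 : A / 2 ≤ a := by linarith
  have q1 : A / 2 * (B / 2) ≤ a * b := mul_le_mul ha2 hb2 (by linarith) (by linarith)
  have q2 : V * e * (b + a) ≤ W * e * (A + B) := by
    apply mul_le_mul hVe (by linarith) (by linarith) (by positivity)
  nlinarith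

end Four

end Crest.Agent.R249.StF_912

end
end

-- ▼ part R249/StFd_912

/-!
Row 249 (helper912), leaf A2-FIN, file 4: the final deduction (F) of Blueprint_806, section 10.
`Approx lam f₁ f₂ a ε φ ψ` = the output of the limit passage (BP-A2, section 9) at accuracy `ε`;
`final` : if approximate pairs exist for every `ε > 0` then the conclusion of `ST` holds.
-/

set_option autoImplicit false
set_option maxSynthPendingDepth 3
set_option linter.unusedSectionVars false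
set_option linter.unusedVariables false

open Bundle Bornology Set MeasureTheory Manifold Filter Metric
open scoped ENNReal ContDiff Topology NNReal
open Crest.GeometryTopology.CoordMetric Crest.GeometryTopology.ChartCurvature
  Crest.GeometryTopology.PointedLimit
open Crest.Agent.R247.Bo84 Crest.Agent.R247.Bs84
open Crest.Agent.R249.Top49

noncomputable section

namespace Crest.Agent.R249.StF_912

section Def

variable {M : Type*} [MetricSpace M] [ChartedSpace (EuclideanSpace ℝ (Fin 4)) M]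
  [IsManifold (𝓡 4) ∞ M]
  [RiemannianBundle (fun p : M => TangentSpace (𝓡 4) p)]
  [IsContMDiffRiemannianBundle (𝓡 4) ∞ (EuclideanSpace ℝ (Fin 4)) (fun p : M => TangentSpace (𝓡 4) p)]
  [MeasurableSpace M] [BorelSpace M]

local notation "μ" => (μHE[4] : Measure M)

/-- **Input of the final deduction** = output of the limit passage. -/
structure Approx (lam : ℝ) (f₁ f₂ : M → ℝ) (a : ℕ) (ε : ℝ) (φ ψ : M → ℝ) : Prop where
  sφ : ContMDiff (𝓡 4) 𝓘(ℝ, ℝ) ∞ φ
  sψ : ContMDiff (𝓡 4) 𝓘(ℝ, ℝ) ∞ ψ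
  pφ : ∀ x, 0 ≤ φ x
  pψ : ∀ x, 0 ≤ ψ x
  sum : ∀ x, φ x ^ 3 + ψ x ^ 3 ≤ 2 + ε
  lφ : ∀ x, Real.sqrt (f₁ x) ≤ k0 lam * (φ x ^ 3 + ε)
  lψ : ∀ x, Real.sqrt (f₂ x) ≤ k0 lam * (ψ x ^ 3 + ε)
  i1 : ∫ x, mGam 4 (fun y => (φ y * ψ y) ^ a) (fun y => (φ y * ψ y) ^ a) x ∂μ ≤ ε
  i2 : ∫ x, ((φ x * ψ x) ^ a * (1 - (φ x * ψ x) ^ a)) ^ 2 ∂μ ≤ ε

variable {lam : ℝ} {f₁ f₂ : M → ℝ} {a : ℕ} {ε : ℝ} {φ ψ : M → ℝ}

theorem Approx.mono (hlam : 0 < lam) (h : Approx lam f₁ f₂ a ε φ ψ) {ε' : ℝ} (he : ε ≤ ε') :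
    Approx lam f₁ f₂ a ε' φ ψ where
  sφ := h.sφ
  sψ := h.sψ
  pφ := h.pφ
  pψ := h.pψ
  sum := fun x => (h.sum x).trans (by linarith)
  lφ := fun x => (h.lφ x).trans (mul_le_mul_of_nonneg_left (by linarith) (k0_pos hlam).le)
  lψ := fun x => (h.lψ x).trans (mul_le_mul_of_nonneg_left (by linarith) (k0_pos hlam).le)
  i1 := h.i1.trans he
  i2 := h.i2.trans he

theorem Approx.symm (h : Approx lam f₁ f₂ a ε φ ψ) : Approx lam f₂ f₁ a ε ψ φ where
  sφ := h.sψ
  sψ := h.sφ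
  pφ := h.pψ
  pψ := h.pφ
  sum := fun x => by rw [add_comm]; exact h.sum x
  lφ := h.lψ
  lψ := h.lφ
  i1 := by
    have e : (fun y => (ψ y * φ y) ^ a) = fun y => (φ y * ψ y) ^ a := by
      funext y; rw [mul_comm]
    rw [e]; exact h.i1
  i2 := by
    have e : ∀ y, (ψ y * φ y) ^ a = (φ y * ψ y) ^ a := fun y => by rw [mul_comm]
    simp only [e]; exact h.i2

end Def

section Four

variable {M : Type*} [MetricSpace M] [ChartedSpace (EuclideanSpace ℝ (Fin 4)) M]
  [IsManifold (𝓡 4) ∞ M]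
  [RiemannianBundle (fun p : M => TangentSpace (𝓡 4) p)]
  [IsContMDiffRiemannianBundle (𝓡 4) ∞ (EuclideanSpace ℝ (Fin 4)) (fun p : M => TangentSpace (𝓡 4) p)]
  [IsRiemannianManifold (𝓡 4) M] [CompactSpace M] [ConnectedSpace M] [MeasurableSpace M]
  [BorelSpace M]

local notation "μ" => (μHE[4] : Measure M)

theorem vol_pos : 0 < (μ).real univ := by
  have h1 : (μ).IsOpenPosMeasure := Crest.Agent.R247.Ms322.isOpenPosMeasure 4 M
  have h2 : IsFiniteMeasure μ := finMeas (n := 4)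
  rw [measureReal_def]
  exact ENNReal.toReal_pos (isOpen_univ.measure_pos μ univ_nonempty).ne' (measure_ne_top _ _)

theorem lower {g : M → ℝ} (hg : Continuous g) (hn : ∀ x, 0 ≤ g x) {U : Set M} (hU : IsOpen U)
    {c : ℝ} (hc : ∀ x ∈ U, c ≤ g x) : c * (μ).real U ≤ ∫ x, g x ∂μ := by
  have h2 : IsFiniteMeasure μ := finMeas (n := 4)
  have hgi := integrable_of_continuous (n := 4) hg
  calc c * (μ).real U = ∫ x in U, c ∂μ := by
        rw [setIntegral_const, smul_eq_mul, mul_comm]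
    _ ≤ ∫ x in U, g x ∂μ :=
        setIntegral_mono_on (integrable_const _).integrableOn hgi.integrableOn hU.measurableSet hc
    _ ≤ ∫ x, g x ∂μ := setIntegral_le_integral hgi (Eventually.of_forall hn)

theorem real_pos {U : Set M} (hU : IsOpen U) (hne : U.Nonempty) : 0 < (μ).real U := by
  have h1 : (μ).IsOpenPosMeasure := Crest.Agent.R247.Ms322.isOpenPosMeasure 4 M
  have h2 : IsFiniteMeasure μ := finMeas (n := 4)
  rw [measureReal_def]
  exact ENNReal.toReal_pos (hU.measure_pos μ hne).ne' (measure_ne_top _ _)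

variable {lam : ℝ} {f₁ f₂ : M → ℝ} {a : ℕ} {ε : ℝ} {φ ψ : M → ℝ}

theorem Approx.prod_le (h : Approx lam f₁ f₂ a ε φ ψ) (hε : ε ≤ 1) (x : M) :
    φ x * ψ x ≤ 2 := by
  have h1 := h.pφ x
  have h2 := h.pψ x
  have h3 := h.sum x
  by_contra hcon
  rw [not_le] at hcon
  have h4 : 8 < (φ x * ψ x) ^ 3 := by
    have := pow_lt_pow_left₀ hcon (by norm_num) (three_ne_zero)
    norm_num at this
    exact this
  have h5 : (φ x * ψ x) ^ 3 = φ x ^ 3 * ψ x ^ 3 := by ring
  have h6 : 0 ≤ φ x ^ 3 := by positivity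
  have h7 : 0 ≤ ψ x ^ 3 := by positivity
  nlinarith [sq_nonneg (φ x ^ 3 - ψ x ^ 3)]

set_option maxHeartbeats 1000000 in
/-- the key dichotomy at accuracy `ε`. -/
theorem Approx.dich (hlam : 0 < lam) (hR : HasRicciLowerBound 4 M lam) (hP : PoissonStmt 4 M)
    (h : Approx lam f₁ f₂ a ε φ ψ) (hε : ε ≤ 1) (hε0 : 0 ≤ ε) :
    ∫ x, ((φ x * ψ x) ^ a) ^ 2 ∂μ ≤ (2 / lam + 8 * (2 + 2 * (1 + 2 * 2 ^ a) ^ 2 / lam)) * ε ∨
    ∫ x, (1 - (φ x * ψ x) ^ a) ^ 2 ∂μ ≤
      (2 / lam + 8 * (2 + 2 * (1 + 2 * 2 ^ a) ^ 2 / lam)) * ε := by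
  have hfin : IsFiniteMeasure μ := finMeas (n := 4)
  set F : M → ℝ := fun x => (φ x * ψ x) ^ a with hF
  have sF : ContMDiff (𝓡 4) 𝓘(ℝ, ℝ) ∞ F := (h.sφ.mul h.sψ).pow a
  have cF := sF.continuous
  have F0 : ∀ x, 0 ≤ F x := fun x => pow_nonneg (mul_nonneg (h.pφ x) (h.pψ x)) a
  set C : ℝ := 2 ^ a with hC
  have C0 : 0 < C := by positivity
  have FC : ∀ x, F x ≤ C := fun x =>
    pow_le_pow_left₀ (mul_nonneg (h.pφ x) (h.pψ x)) (h.prod_le hε x) a
  set V := (μ).real univ with hV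
  have V0 : 0 < V := vol_pos
  set m := (∫ x, F x ∂μ) / V with hm
  have iF := integrable_of_continuous (n := 4) cF
  have m0 : 0 ≤ m := div_nonneg (integral_nonneg F0) V0.le
  have mC : m ≤ C := by
    rw [hm, div_le_iff₀ V0]
    calc ∫ x, F x ∂μ ≤ ∫ x, C ∂μ := integral_mono iF (integrable_const _) FC
      _ = C * V := by rw [integral_const, smul_eq_mul, mul_comm]
  set H : M → ℝ := fun x => F x - m with hH
  have sH : ContMDiff (𝓡 4) 𝓘(ℝ, ℝ) ∞ H := sF.sub contMDiff_const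
  have cH := sH.continuous
  have iH : ∫ x, H x ∂μ = 0 := by
    rw [hH, integral_sub iF (integrable_const _), integral_const, smul_eq_mul, ← hV, hm]
    field_simp
    ring
  have hp := poincare (n := 4) (M := M) hR (by norm_num) hlam hP sH iH
  have mdF : ∀ x, MDifferentiableAt (𝓡 4) 𝓘(ℝ, ℝ) F x := fun x =>
    (sF x).mdifferentiableAt (by simp)
  have mdc : ∀ x, MDifferentiableAt (𝓡 4) 𝓘(ℝ, ℝ) (fun _ : M => m) x := fun x =>
    mdifferentiableAt_const
  have e1 : ∀ x, mGam 4 H H x = mGam 4 F F x := by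
    intro x
    simp only [hH]
    rw [mGam_sub_left (mdF x) (mdc x), mGam_sub_right (mdF x) (mdc x), mGam_const_right,
      mGam_const_left]
    ring
  simp only [e1] at hp
  have i1 : ∫ x, mGam 4 F F x ∂μ ≤ ε := h.i1
  have i2 : ∫ x, (F x * (1 - F x)) ^ 2 ∂μ ≤ ε := h.i2
  set Q := ∫ x, H x ^ 2 ∂μ with hQ
  have Q0 : 0 ≤ Q := integral_nonneg fun x => sq_nonneg _
  have iG0 : 0 ≤ ∫ x, mGam 4 F F x ∂μ := integral_nonneg fun x => mGam_self_nonneg F x
  have hQε : Q ≤ ε / lam := by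
    rw [le_div_iff₀ hlam]
    have : (1 - 1 / ((4:ℕ):ℝ)) = 3 / 4 := by norm_num
    rw [this] at hp
    nlinarith
  have q1 : V * (m * (1 - m)) ^ 2 ≤ 2 * ε + 2 * (1 + 2 * C) ^ 2 * (ε / lam) := by
    have k1 : ∀ x, (m * (1 - m)) ^ 2 ≤ 2 * (F x * (1 - F x)) ^ 2 + 2 * (1 + 2 * C) ^ 2 * H x ^ 2 := by
      intro x
      have a1 := F0 x
      have a2 := FC x
      have a3 : (F x * (1 - F x) - m * (1 - m)) ^ 2 ≤ (1 + 2 * C) ^ 2 * H x ^ 2 := by
        have e : F x * (1 - F x) - m * (1 - m) = (1 - F x - m) * H x := by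
          simp only [hH]; ring
        rw [e, mul_pow]
        apply mul_le_mul_of_nonneg_right _ (sq_nonneg _)
        apply sq_le_sq'
        · linarith
        · linarith
      nlinarith [sq_nonneg (2 * (F x * (1 - F x)) - m * (1 - m))]
    have k2 : ∫ x, (m * (1 - m)) ^ 2 ∂μ ≤
        ∫ x, (2 * (F x * (1 - F x)) ^ 2 + 2 * (1 + 2 * C) ^ 2 * H x ^ 2) ∂μ := by
      refine integral_mono (integrable_const _) (integrable_of_continuous (n := 4) ?_) k1
      exact (continuous_const.mul ((cF.mul (continuous_const.sub cF)).pow 2)).add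
        (continuous_const.mul (cH.pow 2))
    rw [integral_const, smul_eq_mul, integral_add, integral_const_mul, integral_const_mul] at k2
    · have k3 : 2 * (1 + 2 * C) ^ 2 * Q ≤ 2 * (1 + 2 * C) ^ 2 * (ε / lam) :=
        mul_le_mul_of_nonneg_left hQε (by positivity)
      linarith
    · exact integrable_of_continuous (n := 4)
        (continuous_const.mul ((cF.mul (continuous_const.sub cF)).pow 2))
    · exact integrable_of_continuous (n := 4) (continuous_const.mul (cH.pow 2))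
  set D := 2 + 2 * (1 + 2 * C) ^ 2 / lam with hD
  have q2 : V * (m * (1 - m)) ^ 2 ≤ D * ε := by
    refine q1.trans (le_of_eq ?_)
    rw [hD]; field_simp
  have e3 : (2 / lam + 8 * D) * ε = 2 * (ε / lam) + 8 * (D * ε) := by field_simp
  rw [e3]
  rcases le_total m (1 / 2) with hm2 | hm2
  · left
    have k1 : ∀ x, F x ^ 2 ≤ 2 * H x ^ 2 + 2 * m ^ 2 := by
      intro x
      simp only [hH]
      nlinarith [sq_nonneg (F x - 2 * m)]
    have k2 : ∫ x, F x ^ 2 ∂μ ≤ ∫ x, (2 * H x ^ 2 + 2 * m ^ 2) ∂μ :=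
      integral_mono (integrable_of_continuous (n := 4) (cF.pow 2))
        (integrable_of_continuous (n := 4) ((continuous_const.mul (cH.pow 2)).add
          continuous_const)) k1
    rw [integral_add, integral_const_mul, integral_const, smul_eq_mul] at k2
    · have k3 : V * m ^ 2 ≤ 4 * (V * (m * (1 - m)) ^ 2) := by
        have : m ^ 2 ≤ 4 * (m * (1 - m)) ^ 2 := by
          rw [mul_pow]
          nlinarith [mul_nonneg (sq_nonneg m) (by nlinarith : (0:ℝ) ≤ 4 * (1 - m) ^ 2 - 1)]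
        nlinarith
      linarith
    · exact integrable_of_continuous (n := 4) (continuous_const.mul (cH.pow 2))
    · exact integrable_const _
  · right
    have k1 : ∀ x, (1 - F x) ^ 2 ≤ 2 * H x ^ 2 + 2 * (1 - m) ^ 2 := by
      intro x
      simp only [hH]
      nlinarith [sq_nonneg ((1 - F x) - 2 * (1 - m))]
    have k2 : ∫ x, (1 - F x) ^ 2 ∂μ ≤ ∫ x, (2 * H x ^ 2 + 2 * (1 - m) ^ 2) ∂μ :=
      integral_mono (integrable_of_continuous (n := 4) ((continuous_const.sub cF).pow 2))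
        (integrable_of_continuous (n := 4) ((continuous_const.mul (cH.pow 2)).add
          continuous_const)) k1
    rw [integral_add, integral_const_mul, integral_const, smul_eq_mul] at k2
    · have k3 : V * (1 - m) ^ 2 ≤ 4 * (V * (m * (1 - m)) ^ 2) := by
        have : (1 - m) ^ 2 ≤ 4 * (m * (1 - m)) ^ 2 := by
          rw [mul_pow]
          nlinarith [mul_nonneg (sq_nonneg (1 - m)) (by nlinarith : (0:ℝ) ≤ 4 * m ^ 2 - 1)]
        nlinarith
      linarith
    · exact integrable_of_continuous (n := 4) (continuous_const.mul (cH.pow 2))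
    · exact integrable_const _

/-- case `c = 1`. -/
theorem le_k0_of_one (hlam : 0 < lam) (ha : 1 ≤ a) (hf : Continuous f₁)
    (hQ : ∀ η : ℝ, 0 < η → ∃ φ ψ : M → ℝ, Approx lam f₁ f₂ a η φ ψ ∧
      ∫ x, (1 - (φ x * ψ x) ^ a) ^ 2 ∂μ ≤ η) (x : M) : Real.sqrt (f₁ x) ≤ k0 lam := by
  by_contra hcon
  rw [not_le] at hcon
  have hk := k0_pos hlam
  obtain ⟨t, ht0, ht1, ht2⟩ : ∃ t : ℝ, 0 < t ∧ t ≤ 1 / 2 ∧
      k0 lam * (1 + 2 * t) < Real.sqrt (f₁ x) := by
    refine ⟨min (1 / 2) ((Real.sqrt (f₁ x) / k0 lam - 1) / 4), ?_, min_le_left _ _, ?_⟩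
    · have : 1 < Real.sqrt (f₁ x) / k0 lam := by rw [lt_div_iff₀ hk]; linarith
      have h2 : 0 < (Real.sqrt (f₁ x) / k0 lam - 1) / 4 := by linarith
      exact lt_min (by norm_num) h2
    · have h1 : 1 < Real.sqrt (f₁ x) / k0 lam := by rw [lt_div_iff₀ hk]; linarith
      have h2 := min_le_right (1 / 2 : ℝ) ((Real.sqrt (f₁ x) / k0 lam - 1) / 4)
      have h3 : 1 + 2 * min (1 / 2 : ℝ) ((Real.sqrt (f₁ x) / k0 lam - 1) / 4) <
          Real.sqrt (f₁ x) / k0 lam := by linarith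
      calc _ < k0 lam * (Real.sqrt (f₁ x) / k0 lam) := mul_lt_mul_of_pos_left h3 hk
        _ = _ := by field_simp
  set U : Set M := {y | k0 lam * (1 + 2 * t) < Real.sqrt (f₁ y)} with hU
  have hUo : IsOpen U := isOpen_lt continuous_const (Real.continuous_sqrt.comp hf)
  have hUp : 0 < (μ).real U := real_pos hUo ⟨x, ht2⟩
  obtain ⟨φ, ψ, hA, hI⟩ := hQ (min (t ^ 2 / 4) ((t ^ 2 / 6) ^ 2 * (μ).real U / 2)) (by positivity)
  set η := min (t ^ 2 / 4) ((t ^ 2 / 6) ^ 2 * (μ).real U / 2) with hη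
  have hη1 : η ≤ t ^ 2 / 4 := min_le_left _ _
  have hη2 : η ≤ (t ^ 2 / 6) ^ 2 * (μ).real U / 2 := min_le_right _ _
  have hη0 : 0 < η := by positivity
  have key : ∀ y ∈ U, (t ^ 2 / 6) ^ 2 ≤ (1 - (φ y * ψ y) ^ a) ^ 2 := by
    intro y hy
    have h1 := hA.lφ y
    have h2 : 1 + 2 * t < φ y ^ 3 + η := by
      have := lt_of_lt_of_le hy h1
      exact lt_of_mul_lt_mul_left this hk.le
    have h3 := hA.sum y
    have h4 := hA.pφ y
    have h5 := hA.pψ y
    set X := φ y ^ 3 with hX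
    set Y := ψ y ^ 3 with hY
    have hX1 : 1 + t ≤ X := by nlinarith
    have hY0 : 0 ≤ Y := by positivity
    have hXY : X * Y ≤ 1 - t ^ 2 / 2 := by
      have a1 : Y ≤ 2 + η - X := by linarith
      have a2 : X * Y ≤ X * (2 + η - X) := mul_le_mul_of_nonneg_left a1 (by linarith)
      have a3 : t * η ≤ t ^ 2 / 8 := by nlinarith
      have a4 : η ≤ t := by nlinarith
      nlinarith [mul_nonneg (sub_nonneg.2 hX1) (by linarith : (0:ℝ) ≤ (X - 1) + t - η)]
    set r := φ y * ψ y with hr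
    have hr0 : 0 ≤ r := mul_nonneg h4 h5
    have hr3 : r ^ 3 ≤ 1 - t ^ 2 / 2 := by
      have : r ^ 3 = X * Y := by rw [hr, hX, hY]; ring
      rw [this]; exact hXY
    have hr1 : r ≤ 1 := by
      by_contra hc
      rw [not_le] at hc
      have : 1 < r ^ 3 := by
        have := pow_lt_pow_left₀ hc (by norm_num) three_ne_zero
        simpa using this
      nlinarith [sq_nonneg t]
    have hr2 : t ^ 2 / 6 ≤ 1 - r := by nlinarith [mul_nonneg hr0 hr0, mul_nonneg (sub_nonneg.2 hr1) hr0]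
    have hra : r ^ a ≤ r := by
      calc r ^ a ≤ r ^ 1 := pow_le_pow_of_le_one hr0 hr1 ha
        _ = r := pow_one r
    have h6 : t ^ 2 / 6 ≤ 1 - r ^ a := by linarith
    exact pow_le_pow_left₀ (by positivity) h6 2
  have hc : Continuous fun y => (1 - (φ y * ψ y) ^ a) ^ 2 :=
    (continuous_const.sub ((hA.sφ.continuous.mul hA.sψ.continuous).pow a)).pow 2
  have h7 := lower hc (fun y => sq_nonneg _) hUo key
  have h8 : 0 < (t ^ 2 / 6) ^ 2 * (μ).real U := by positivity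
  linarith

/-- case `c = 0`. -/
theorem prod_zero_of_zero (hlam : 0 < lam) (hf₁ : Continuous f₁) (hf₂ : Continuous f₂)
    (n₁ : ∀ x, 0 ≤ f₁ x) (n₂ : ∀ x, 0 ≤ f₂ x)
    (hQ : ∀ η : ℝ, 0 < η → ∃ φ ψ : M → ℝ, Approx lam f₁ f₂ a η φ ψ ∧
      ∫ x, ((φ x * ψ x) ^ a) ^ 2 ∂μ ≤ η) (x : M) : f₁ x * f₂ x = 0 := by
  by_contra hcon
  have p₁ : 0 < f₁ x := lt_of_le_of_ne (n₁ x) fun h => hcon (by rw [← h, zero_mul])
  have p₂ : 0 < f₂ x := lt_of_le_of_ne (n₂ x) fun h => hcon (by rw [← h, mul_zero])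
  have hk := k0_pos hlam
  have q₁ : 0 < Real.sqrt (f₁ x) := Real.sqrt_pos.2 p₁
  have q₂ : 0 < Real.sqrt (f₂ x) := Real.sqrt_pos.2 p₂
  obtain ⟨c, hc0, hc1, hc2⟩ : ∃ c : ℝ, 0 < c ∧ k0 lam * (2 * c) < Real.sqrt (f₁ x) ∧
      k0 lam * (2 * c) < Real.sqrt (f₂ x) := by
    refine ⟨min (Real.sqrt (f₁ x)) (Real.sqrt (f₂ x)) / (4 * k0 lam), by positivity, ?_, ?_⟩
    · have h1 := min_le_left (Real.sqrt (f₁ x)) (Real.sqrt (f₂ x))
      have e : k0 lam * (2 * (min (Real.sqrt (f₁ x)) (Real.sqrt (f₂ x)) / (4 * k0 lam))) =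
        min (Real.sqrt (f₁ x)) (Real.sqrt (f₂ x)) / 2 := by field_simp; ring
      rw [e]; linarith
    · have h1 := min_le_right (Real.sqrt (f₁ x)) (Real.sqrt (f₂ x))
      have e : k0 lam * (2 * (min (Real.sqrt (f₁ x)) (Real.sqrt (f₂ x)) / (4 * k0 lam))) =
        min (Real.sqrt (f₁ x)) (Real.sqrt (f₂ x)) / 2 := by field_simp; ring
      rw [e]; linarith
  set U : Set M := {y | k0 lam * (2 * c) < Real.sqrt (f₁ y)} ∩
    {y | k0 lam * (2 * c) < Real.sqrt (f₂ y)} with hU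
  have hUo : IsOpen U := (isOpen_lt continuous_const (Real.continuous_sqrt.comp hf₁)).inter
    (isOpen_lt continuous_const (Real.continuous_sqrt.comp hf₂))
  have hUp : 0 < (μ).real U := real_pos hUo ⟨x, hc1, hc2⟩
  set κ : ℝ := (c ^ 2) ^ a / 2 ^ a with hκ
  have hκ0 : 0 < κ := by positivity
  obtain ⟨φ, ψ, hA, hI⟩ := hQ (min (min 1 c) (κ * (μ).real U / 2)) (by positivity)
  set η := min (min 1 c) (κ * (μ).real U / 2) with hη
  have hη1 : η ≤ c := (min_le_left _ _).trans (min_le_right _ _)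
  have hη3 : η ≤ 1 := (min_le_left _ _).trans (min_le_left _ _)
  have hη2 : η ≤ κ * (μ).real U / 2 := min_le_right _ _
  have key : ∀ y ∈ U, κ ≤ ((φ y * ψ y) ^ a) ^ 2 := by
    intro y hy
    have h1 : 2 * c < φ y ^ 3 + η := lt_of_mul_lt_mul_left (lt_of_lt_of_le hy.1 (hA.lφ y)) hk.le
    have h2 : 2 * c < ψ y ^ 3 + η := lt_of_mul_lt_mul_left (lt_of_lt_of_le hy.2 (hA.lψ y)) hk.le
    have h4 := hA.pφ y
    have h5 := hA.pψ y
    set r := φ y * ψ y with hr
    have hr0 : 0 ≤ r := mul_nonneg h4 h5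
    have hr3 : c ^ 2 ≤ r ^ 3 := by
      have e : r ^ 3 = φ y ^ 3 * ψ y ^ 3 := by rw [hr]; ring
      rw [e, sq]
      exact mul_le_mul (by linarith) (by linarith) hc0.le (by positivity)
    have hr2 : r ≤ 2 := hA.prod_le hη3 y
    have h6 : (c ^ 2) ^ a ≤ (r ^ a) ^ 2 * 2 ^ a := by
      calc (c ^ 2) ^ a ≤ (r ^ 3) ^ a := pow_le_pow_left₀ (by positivity) hr3 a
        _ = (r ^ a) ^ 2 * r ^ a := by ring
        _ ≤ (r ^ a) ^ 2 * 2 ^ a :=
          mul_le_mul_of_nonneg_left (pow_le_pow_left₀ hr0 hr2 a) (by positivity)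
    rw [hκ, div_le_iff₀ (by positivity)]
    exact h6
  have hc : Continuous fun y => ((φ y * ψ y) ^ a) ^ 2 :=
    ((hA.sφ.continuous.mul hA.sψ.continuous).pow a).pow 2
  have h7 := lower hc (fun y => sq_nonneg _) hUo key
  have h8 : 0 < κ * (μ).real U := by positivity
  linarith

/-- **The final deduction (F).** -/
theorem final (hlam : 0 < lam) (hR : HasRicciLowerBound 4 M lam) (hP : PoissonStmt 4 M)
    (h₁ : STHyp M lam f₁) (h₂ : STHyp M lam f₂)
    (hs : ∀ x, Real.sqrt (f₁ x) + Real.sqrt (f₂ x) ≤ 2 * lam * Real.sqrt (2 / 3))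
    (ha : 1 ≤ a)
    (happ : ∀ ε : ℝ, 0 < ε → ∃ φ ψ : M → ℝ, Approx lam f₁ f₂ a ε φ ψ) :
    (∀ x, f₁ x = 0) ∨ (∀ x, f₂ x = 0) ∨
        (∀ x, f₁ x = 2 / 3 * lam ^ 2 ∧ f₂ x = 2 / 3 * lam ^ 2) := by
  have hs' : ∀ x, Real.sqrt (f₁ x) + Real.sqrt (f₂ x) ≤ 2 * k0 lam := by
    intro x
    refine (hs x).trans (le_of_eq ?_)
    unfold k0; ring
  have b₁ : ∀ x, Real.sqrt (f₁ x) ≤ 2 * k0 lam := fun x => by
    have := hs' x; have := Real.sqrt_nonneg (f₂ x); linarith
  have b₂ : ∀ x, Real.sqrt (f₂ x) ≤ 2 * k0 lam := fun x => by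
    have := hs' x; have := Real.sqrt_nonneg (f₁ x); linarith
  by_cases hZ : ∀ η : ℝ, 0 < η → ∃ φ ψ : M → ℝ, Approx lam f₁ f₂ a η φ ψ ∧
      ∫ x, ((φ x * ψ x) ^ a) ^ 2 ∂μ ≤ η
  · have h0 := prod_zero_of_zero hlam h₁.smooth.continuous h₂.smooth.continuous h₁.nonneg
      h₂.nonneg hZ
    rcases disjoint_zero hlam hR hP h₁ h₂ b₁ b₂ h0 with h | h
    · exact Or.inl h
    · exact Or.inr (Or.inl h)
  · have hO : ∀ η : ℝ, 0 < η → ∃ φ ψ : M → ℝ, Approx lam f₁ f₂ a η φ ψ ∧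
        ∫ x, (1 - (φ x * ψ x) ^ a) ^ 2 ∂μ ≤ η := by
      intro η hη
      rw [not_forall] at hZ
      obtain ⟨η', hZ⟩ := hZ
      rw [Classical.not_imp] at hZ
      obtain ⟨hη', hZ⟩ := hZ
      set K : ℝ := 2 / lam + 8 * (2 + 2 * (1 + 2 * 2 ^ a) ^ 2 / lam) with hK
      have hK0 : 0 < K := by positivity
      set m := min η η' with hm
      have hm0 : 0 < m := lt_min hη hη'
      obtain ⟨φ, ψ, hA⟩ := happ (min 1 (min m (m / K))) (by positivity)
      set ε := min 1 (min m (m / K)) with hε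
      have e1 : ε ≤ 1 := min_le_left _ _
      have e2 : ε ≤ m := (min_le_right _ _).trans (min_le_left _ _)
      have e3 : K * ε ≤ m := by
        have : ε ≤ m / K := (min_le_right _ _).trans (min_le_right _ _)
        calc K * ε ≤ K * (m / K) := mul_le_mul_of_nonneg_left this hK0.le
          _ = m := by field_simp
      have e0 : 0 < ε := by positivity
      rcases Approx.dich hlam hR hP hA e1 e0.le with h | h
      · exfalso
        exact hZ ⟨φ, ψ, hA.mono hlam (e2.trans (min_le_right _ _)),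
          h.trans (e3.trans (min_le_right _ _))⟩
      · exact ⟨φ, ψ, hA.mono hlam (e2.trans (min_le_left _ _)),
          h.trans (e3.trans (min_le_left _ _))⟩
    have l₁ := le_k0_of_one hlam ha h₁.smooth.continuous hO
    have l₂ : ∀ x, Real.sqrt (f₂ x) ≤ k0 lam := by
      refine le_k0_of_one (f₂ := f₁) hlam ha h₂.smooth.continuous ?_
      intro η hη
      obtain ⟨φ, ψ, hA, hI⟩ := hO η hη
      refine ⟨ψ, φ, hA.symm, ?_⟩
      have e : ∀ y, (ψ y * φ y) ^ a = (φ y * ψ y) ^ a := fun y => by rw [mul_comm]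
      simp only [e]
      exact hI
    rcases const_of_le hlam h₁ l₁ with h | h
    · exact Or.inl h
    · rcases const_of_le hlam h₂ l₂ with h' | h'
      · exact Or.inr (Or.inl h')
      · exact Or.inr (Or.inr fun x => ⟨h x, h' x⟩)

end Four

/-- existence of approximate pairs = the output of BP-A2, section 9. -/
def AppStmt.{u} : Prop :=
  ∀ (M : Type u) [MetricSpace M] [ChartedSpace (EuclideanSpace ℝ (Fin 4)) M]
    [IsManifold (𝓡 4) ∞ M] [CompactSpace M] [ConnectedSpace M]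
    [RiemannianBundle (fun x : M => TangentSpace (𝓡 4) x)]
    [IsContMDiffRiemannianBundle (𝓡 4) ∞ (EuclideanSpace ℝ (Fin 4))
      (fun x : M => TangentSpace (𝓡 4) x)]
    [IsRiemannianManifold (𝓡 4) M] [MeasurableSpace M] [BorelSpace M]
    (lam : ℝ), 0 < lam → HasRicciLowerBound 4 M lam →
    ∀ f₁ f₂ : M → ℝ, STHyp M lam f₁ → STHyp M lam f₂ →
      (∀ x, Real.sqrt (f₁ x) + Real.sqrt (f₂ x) ≤ 2 * lam * Real.sqrt (2 / 3)) →
      ∃ a : ℕ, 1 ≤ a ∧ ∀ ε : ℝ, 0 < ε → ∃ φ ψ : M → ℝ, Approx lam f₁ f₂ a ε φ ψ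

/-- the Poisson equation on all closed 4-manifolds. -/
def PoissonAll.{u} : Prop :=
  ∀ (M : Type u) [MetricSpace M] [ChartedSpace (EuclideanSpace ℝ (Fin 4)) M]
    [IsManifold (𝓡 4) ∞ M] [CompactSpace M] [ConnectedSpace M]
    [RiemannianBundle (fun x : M => TangentSpace (𝓡 4) x)]
    [IsContMDiffRiemannianBundle (𝓡 4) ∞ (EuclideanSpace ℝ (Fin 4))
      (fun x : M => TangentSpace (𝓡 4) x)]
    [IsRiemannianManifold (𝓡 4) M] [MeasurableSpace M] [BorelSpace M], PoissonStmt 4 M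

/-- **ST from approximate pairs.** -/
theorem st_of.{u} (hP : PoissonAll.{u}) (hA : AppStmt.{u}) : Crest.Agent.R249.Top49.ST.{u} := by
  intro M _ _ _ _ _ _ _ _ lam hlam hR f₁ f₂ h₁ h₂ hs
  letI : MeasurableSpace M := borel M
  have hb : BorelSpace M := ⟨rfl⟩
  obtain ⟨a, ha, happ⟩ := hA M lam hlam hR f₁ f₂ h₁ h₂ hs
  exact final hlam hR (hP M) h₁ h₂ hs ha happ

end Crest.Agent.R249.StF_912

end
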