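import Crest.Agent.R249.Pen2_806
import Crest.Agent.R249.IntA_780

-- ▼ part R249/StHa_912
section

/-!
Row 249, part A2 (helper912), task A2-FIN3, file 1: the smooth convex threshold function
`chi u = κ y E(y)`, `y = (u - g₁)/κ`, `E = expNegInvGlue`, `g₁ = 11/20`, `κ = 1/100`, and the
one-variable inequality `chi' (-fd d) ≤ (13/10) chi`.
-/

set_option autoImplicit false
set_option linter.unusedVariables false
set_option linter.unusedSectionVars false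

open Set Filter Topology Polynomial
open scoped ContDiff

noncomputable section

namespace Crest.Agent.R249.StH_912

open Pen_806

/-- the rescaled variable -/
def yy (u : ℝ) : ℝ := 100 * (u - 11 / 20)

/-- the threshold function -/
def chi (u : ℝ) : ℝ := (1 / 100) * (yy u * expNegInvGlue (yy u))

/-- its derivative -/
def chi1 (u : ℝ) : ℝ := (1 + (yy u)⁻¹) * expNegInvGlue (yy u)

/-- its second derivative -/
def chi2 (u : ℝ) : ℝ := 100 * (((yy u)⁻¹) ^ 3 * expNegInvGlue (yy u))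

theorem hasDerivAt_yy (u : ℝ) : HasDerivAt yy 100 u := by
  have := ((hasDerivAt_id u).sub_const (11 / 20)).const_mul 100
  rw [mul_one] at this
  exact this

theorem hasDerivAt_E (x : ℝ) :
    HasDerivAt expNegInvGlue ((x⁻¹) ^ 2 * expNegInvGlue x) x := by
  have := expNegInvGlue.hasDerivAt_polynomial_eval_inv_mul 1 x
  simpa using this

theorem hasDerivAt_E1 (x : ℝ) :
    HasDerivAt (fun x => (1 + x⁻¹) * expNegInvGlue x) ((x⁻¹) ^ 3 * expNegInvGlue x) x := by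
  have := expNegInvGlue.hasDerivAt_polynomial_eval_inv_mul (1 + X) x
  have e1 : (fun x : ℝ => (1 + X : ℝ[X]).eval x⁻¹ * expNegInvGlue x) =
      fun x => (1 + x⁻¹) * expNegInvGlue x := by
    funext y; simp
  have e2 : (X ^ 2 * ((1 + X : ℝ[X]) - derivative (R := ℝ) (1 + X))).eval x⁻¹ =
      (x⁻¹) ^ 3 := by
    simp; ring
  rw [e1, e2] at this
  exact this

theorem mul_inv_sq (x : ℝ) : x * (x⁻¹) ^ 2 = x⁻¹ := by
  rcases eq_or_ne x 0 with h | h
  · simp [h]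
  · field_simp

theorem hasDerivAt_chi (u : ℝ) : HasDerivAt chi (chi1 u) u := by
  have h1 : HasDerivAt (fun x => x * expNegInvGlue x)
      (1 * expNegInvGlue (yy u) + yy u * (((yy u)⁻¹) ^ 2 * expNegInvGlue (yy u))) (yy u) :=
    (hasDerivAt_id (yy u)).mul (hasDerivAt_E (yy u))
  have h2 := (h1.comp u (hasDerivAt_yy u)).const_mul (1 / 100)
  have e : 1 / 100 * ((1 * expNegInvGlue (yy u) +
      yy u * (((yy u)⁻¹) ^ 2 * expNegInvGlue (yy u))) * 100) = chi1 u := by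
    rw [chi1, ← mul_assoc (yy u), mul_inv_sq]; ring
  rw [e] at h2
  exact h2

theorem hasDerivAt_chi1 (u : ℝ) : HasDerivAt chi1 (chi2 u) u := by
  have h2 := (hasDerivAt_E1 (yy u)).comp u (hasDerivAt_yy u)
  have e : (((yy u)⁻¹) ^ 3 * expNegInvGlue (yy u)) * 100 = chi2 u := by
    rw [chi2]; ring
  rw [e] at h2
  exact h2

theorem deriv_chi : deriv chi = chi1 := funext fun u => (hasDerivAt_chi u).deriv

theorem deriv_chi1 : deriv chi1 = chi2 := funext fun u => (hasDerivAt_chi1 u).deriv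

theorem contDiff_chi : ContDiff ℝ ∞ chi := by
  have h1 : ContDiff ℝ ∞ yy := by
    unfold yy
    exact contDiff_const.mul (contDiff_id.sub contDiff_const)
  unfold chi
  exact contDiff_const.mul (h1.mul (expNegInvGlue.contDiff.comp h1))

theorem yy_nonpos {u : ℝ} (h : u ≤ 11 / 20) : yy u ≤ 0 := by unfold yy; linarith

theorem yy_pos {u : ℝ} (h : 11 / 20 < u) : 0 < yy u := by unfold yy; linarith

theorem chi_zero {u : ℝ} (h : u ≤ 11 / 20) : chi u = 0 := by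
  rw [chi, expNegInvGlue.zero_of_nonpos (yy_nonpos h)]; simp

theorem chi1_zero {u : ℝ} (h : u ≤ 11 / 20) : chi1 u = 0 := by
  rw [chi1, expNegInvGlue.zero_of_nonpos (yy_nonpos h)]; simp

theorem chi2_zero {u : ℝ} (h : u ≤ 11 / 20) : chi2 u = 0 := by
  rw [chi2, expNegInvGlue.zero_of_nonpos (yy_nonpos h)]; simp

theorem chi_pos {u : ℝ} (h : 11 / 20 < u) : 0 < chi u := by
  have h1 := yy_pos h
  have h2 := expNegInvGlue.pos_of_pos h1
  unfold chi; positivity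

theorem chi_nonneg (u : ℝ) : 0 ≤ chi u := by
  rcases le_or_gt u (11 / 20) with h | h
  · rw [chi_zero h]
  · exact (chi_pos h).le

theorem chi1_nonneg (u : ℝ) : 0 ≤ chi1 u := by
  rcases le_or_gt u (11 / 20) with h | h
  · rw [chi1_zero h]
  · have h1 := yy_pos h
    have h2 := expNegInvGlue.pos_of_pos h1
    unfold chi1; positivity

theorem chi2_nonneg (u : ℝ) : 0 ≤ chi2 u := by
  rcases le_or_gt u (11 / 20) with h | h
  · rw [chi2_zero h]
  · have h1 := yy_pos h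
    have h2 := expNegInvGlue.pos_of_pos h1
    unfold chi2; positivity

/-- the one-variable inequality -/
theorem key_aux {u e : ℝ} (hu : 11 / 20 < u) (hu2 : u ≤ 63 / 50) (he : 0 ≤ e) (he2 : e ≤ 1 / 100) :
    (1 + (yy u)⁻¹) * (u * ((2 / 3) * (u ^ 3 - 1) + e)) ≤ (13 / 10) * (u - 11 / 20) := by
  have hw : 0 < u - 11 / 20 := by linarith
  have hy := yy_pos hu
  rcases le_or_gt ((2 / 3) * (u ^ 3 - 1) + e) 0 with h0 | h0
  · have h1 : 0 < 1 + (yy u)⁻¹ := by positivity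
    have h2 : u * ((2 / 3) * (u ^ 3 - 1) + e) ≤ 0 :=
      mul_nonpos_of_nonneg_of_nonpos (by linarith) h0
    have h3 := mul_nonpos_of_nonneg_of_nonpos h1.le h2
    linarith
  · have hu9 : 9 / 10 ≤ u := by
      by_contra hcon
      rw [not_le] at hcon
      have h3 : u ^ 3 < (9 / 10) ^ 3 := pow_lt_pow_left₀ hcon (by linarith) (by norm_num)
      norm_num at h3
      linarith
    have h1 : (yy u)⁻¹ ≤ 3 / 100 := by
      rw [inv_le_comm₀ hy (by norm_num)]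
      unfold yy
      norm_num
      linarith
    have h2 : u * ((2 / 3) * (u ^ 3 - 1)) ≤ (6 / 5) * (u - 11 / 20) := by
      have a1 : 0 ≤ (u - 9 / 10) * (63 / 50 - u) := mul_nonneg (by linarith) (by linarith)
      have a2 : 0 ≤ (u - 9 / 10) * (63 / 50 - u) * (u ^ 2 + (9 / 10 + 63 / 50) * u +
          ((9 / 10) ^ 2 + (9 / 10) * (63 / 50) + (63 / 50) ^ 2)) :=
        mul_nonneg a1 (by positivity)
      have e1 : u ^ 4 + (u - 9 / 10) * (63 / 50 - u) * (u ^ 2 + (9 / 10 + 63 / 50) * u +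
          ((9 / 10) ^ 2 + (9 / 10) * (63 / 50) + (63 / 50) ^ 2)) =
          ((63 / 50) ^ 4 - (9 / 10) ^ 4) / (63 / 50 - 9 / 10) * (u - 9 / 10) + (9 / 10) ^ 4 := by
        ring
      have e2 : u * ((2 / 3) * (u ^ 3 - 1)) = (2 / 3) * (u ^ 4 - u) := by ring
      rw [e2]
      norm_num at e1 ⊢
      nlinarith
    have h3 : u * ((2 / 3) * (u ^ 3 - 1) + e) ≤ (6 / 5) * (u - 11 / 20) + (63 / 50) * e := by
      nlinarith
    have h4 : u * ((2 / 3) * (u ^ 3 - 1) + e) ≤ (31 / 25) * (u - 11 / 20) := by nlinarith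
    have h5 : 0 ≤ u * ((2 / 3) * (u ^ 3 - 1) + e) := mul_nonneg (by linarith) h0.le
    calc (1 + (yy u)⁻¹) * (u * ((2 / 3) * (u ^ 3 - 1) + e))
        ≤ (1 + 3 / 100) * (u * ((2 / 3) * (u ^ 3 - 1) + e)) :=
          mul_le_mul_of_nonneg_right (by linarith) h5
      _ ≤ (1 + 3 / 100) * ((31 / 25) * (u - 11 / 20)) :=
          mul_le_mul_of_nonneg_left h4 (by norm_num)
      _ ≤ (13 / 10) * (u - 11 / 20) := by nlinarith

/-- `chi' (- fd d) ≤ (13/10) chi` -/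
theorem key {u d : ℝ} (hd : 0 < d) (hd2 : d ≤ 1 / 1000) (hu2 : u ≤ 63 / 50) :
    chi1 u * (- fd d u) ≤ (13 / 10) * chi u := by
  rcases le_or_gt u (11 / 20) with h | h
  · rw [chi_zero h, chi1_zero h]; simp
  · have hu6 : (11 / 20 : ℝ) ^ 6 ≤ u ^ 6 := pow_le_pow_left₀ (by norm_num) h.le 6
    have hu6' : 0 < u ^ 6 := by positivity
    have he : 6 * d + (2 / 3) * d ^ 2 / u ^ 6 ≤ 1 / 100 := by
      have h1 : (2 / 3) * d ^ 2 / u ^ 6 ≤ d := by
        rw [div_le_iff₀ hu6']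
        norm_num at hu6
        nlinarith
      linarith
    have he0 : 0 ≤ 6 * d + (2 / 3) * d ^ 2 / u ^ 6 := by positivity
    have h1 := key_aux h hu2 he0 he
    have e1 : - fd d u = u * ((2 / 3) * (u ^ 3 - 1) + (6 * d + (2 / 3) * d ^ 2 / u ^ 6)) := by
      unfold fd; ring
    have hE := expNegInvGlue.nonneg (yy u)
    rw [e1, chi1, chi]
    have h2 := mul_le_mul_of_nonneg_right h1 hE
    have e2 : (1 / 100) * (yy u * expNegInvGlue (yy u)) =
        (u - 11 / 20) * expNegInvGlue (yy u) := by unfold yy; ring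
    rw [e2]
    linarith

end Crest.Agent.R249.StH_912
end
end

-- ▼ part R249/StHb_912
section

/-!
Row 249, part A2 (helper912), task A2-FIN3, file 2 (abstract calculus `C : Calc X μ`):
* `poinc` : Lichnerowicz/Poincaré `∫ g² ≤ (3/4) ∫ |dg|²` for `∫ g = 0`;
* `dich` : `∫ |dF|² ≤ ε`, `∫ (F (1 - F))² ≤ ε` ⇒ `∫ F² ≤ K ε` or `∫ (1 - F)² ≤ K ε`;
* `disjoint3` : if at every point one of the two normalised functions is `≤ 1/64` then one of them
  is `< 1` everywhere.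
-/

set_option autoImplicit false
set_option linter.unusedVariables false
set_option linter.unusedSectionVars false

open MeasureTheory Set Filter Topology Matrix
open scoped ContDiff

noncomputable section

namespace Crest.Agent.R249.StH_912

open Calc_806 Calc_806.Calc Pen_806 IntA_780

variable {X : Type*} [TopologicalSpace X] [CompactSpace X] [MeasurableSpace X]
  [OpensMeasurableSpace X] {μ : Measure X} [IsFiniteMeasure μ] {C : Calc X μ}

/-- `∫ |du|² ≤ (3/4) ∫ (Lu)²` -/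
theorem energy_le {u : X → ℝ} (hu : C.Sm u) :
    ∫ x, C.G u u x ∂μ ≤ (3 / 4) * ∫ x, C.L u x ^ 2 ∂μ := by
  have h1 := int_Rb (μ := μ) hu
  have i1 : Integrable (fun x => C.L u x ^ 2) μ := integrable_sm (sm_pow (C.sm_L hu) 2)
  have i2 : Integrable (C.Rb u) μ := integrable_sm (sm_Rb hu)
  have h2 : ∫ x, (1 / 4) * C.L u x ^ 2 ∂μ ≤ ∫ x, C.Rb u x ∂μ :=
    integral_mono (i1.const_mul _) i2 fun x => by
      have a1 := L_sq_le (C := C) u x
      have a2 := Q_le_Rb hu x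
      simp only
      linarith
  rw [integral_const_mul] at h2
  linarith

/-- **Lichnerowicz**. -/
theorem poinc {g : X → ℝ} (hg : C.Sm g) (h0 : ∫ x, g x ∂μ = 0) :
    ∫ x, g x ^ 2 ∂μ ≤ (3 / 4) * ∫ x, C.G g g x ∂μ := by
  obtain ⟨u, hu, hL⟩ := C.poisson hg h0
  have h1 := energy_le hu
  have e1 : (fun x => C.L u x ^ 2) = fun x => g x ^ 2 := by funext x; rw [hL x]
  have e2 : ∫ x, C.L u x ^ 2 ∂μ = ∫ x, g x ^ 2 ∂μ := by rw [e1]
  rw [e2] at h1
  have h2 := C.int_parts hg hu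
  have e3 : ∫ x, g x * C.L u x ∂μ = ∫ x, g x ^ 2 ∂μ := by
    congr 1; funext x; rw [hL x]; ring
  rw [e3] at h2
  have iG : Integrable (fun x => C.G g u x) μ := integrable_sm (C.sm_G hg hu)
  have i1 : Integrable (fun x => C.G g g x) μ := integrable_sm (C.sm_G hg hg)
  have i2 : Integrable (fun x => C.G u u x) μ := integrable_sm (C.sm_G hu hu)
  have h3 : - ∫ x, C.G g u x ∂μ ≤ ∫ x, ((3 / 8) * C.G g g x + (2 / 3) * C.G u u x) ∂μ := by
    rw [← integral_neg]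
    refine integral_mono iG.neg ((i1.const_mul _).add (i2.const_mul _)) fun x => ?_
    have a1 := two_G_le (C := C) g u x (c := 3 / 4) (by norm_num)
    have a2 := neg_abs_le (C.G g u x)
    norm_num at a1
    simp only
    linarith
  have e4 : C.toCalc0.G g u = fun x => C.G g u x := rfl
  rw [integral_add (i1.const_mul _) (i2.const_mul _), integral_const_mul, integral_const_mul] at h3
  linarith

/-- the key dichotomy at accuracy `ε`. -/
theorem dich {F : X → ℝ} (sF : C.Sm F) (F0 : ∀ x, 0 ≤ F x) {B : ℝ} (hB : 0 ≤ B)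
    (FB : ∀ x, F x ≤ B) {ε : ℝ} (V0 : 0 < μ.real univ)
    (h1 : ∫ x, C.G F F x ∂μ ≤ ε) (h2 : ∫ x, (F x * (1 - F x)) ^ 2 ∂μ ≤ ε) :
    ∫ x, F x ^ 2 ∂μ ≤ (2 + 8 * (2 + 2 * (1 + 2 * B) ^ 2)) * ε ∨
    ∫ x, (1 - F x) ^ 2 ∂μ ≤ (2 + 8 * (2 + 2 * (1 + 2 * B) ^ 2)) * ε := by
  have cF : Continuous F := C.sm_cont sF
  set V := μ.real univ with hV
  set m := (∫ x, F x ∂μ) / V with hm
  have iF : Integrable F μ := integrable_cont cF
  have m0 : 0 ≤ m := div_nonneg (integral_nonneg F0) V0.le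
  have mC : m ≤ B := by
    rw [hm, div_le_iff₀ V0]
    calc ∫ x, F x ∂μ ≤ ∫ x, B ∂μ := integral_mono iF (integrable_const _) FB
      _ = B * V := by rw [integral_const, smul_eq_mul, mul_comm]
  set H : X → ℝ := fun x => F x - m with hH
  have sH : C.Sm H := sm_sub sF (sm_const m)
  have cH : Continuous H := C.sm_cont sH
  have iH : ∫ x, H x ∂μ = 0 := by
    rw [hH, integral_sub iF (integrable_const _), integral_const, smul_eq_mul, ← hV, hm]
    field_simp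
    ring
  have hp := poinc sH iH
  have e1 : ∀ x, C.G H H x = C.G F F x := by
    intro x
    simp only [hH]
    rw [G_sub_left sF (sm_const m), G_const_left, G_sub_right sF (sm_const m),
      G_symm F (fun _ => m), G_const_left]
    ring
  simp only [e1] at hp
  set Q := ∫ x, H x ^ 2 ∂μ with hQ
  have hQε : Q ≤ ε := by
    have : 0 ≤ ∫ x, C.G F F x ∂μ := integral_nonneg fun x => G_self_nonneg F x
    linarith
  have hε : 0 ≤ ε := le_trans (integral_nonneg fun x => sq_nonneg _) h2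
  have q1 : V * (m * (1 - m)) ^ 2 ≤ 2 * ε + 2 * (1 + 2 * B) ^ 2 * ε := by
    have k1 : ∀ x, (m * (1 - m)) ^ 2 ≤ 2 * (F x * (1 - F x)) ^ 2 + 2 * (1 + 2 * B) ^ 2 * H x ^ 2 := by
      intro x
      have a1 := F0 x
      have a2 := FB x
      have a3 : (F x * (1 - F x) - m * (1 - m)) ^ 2 ≤ (1 + 2 * B) ^ 2 * H x ^ 2 := by
        have e : F x * (1 - F x) - m * (1 - m) = (1 - F x - m) * H x := by
          simp only [hH]; ring
        rw [e, mul_pow]
        apply mul_le_mul_of_nonneg_right _ (sq_nonneg _)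
        apply sq_le_sq'
        · linarith
        · linarith
      nlinarith [sq_nonneg (2 * (F x * (1 - F x)) - m * (1 - m))]
    have k2 : ∫ x, (m * (1 - m)) ^ 2 ∂μ ≤
        ∫ x, (2 * (F x * (1 - F x)) ^ 2 + 2 * (1 + 2 * B) ^ 2 * H x ^ 2) ∂μ := by
      refine integral_mono (integrable_const _) (integrable_cont ?_) k1
      exact (continuous_const.mul ((cF.mul (continuous_const.sub cF)).pow 2)).add
        (continuous_const.mul (cH.pow 2))
    rw [integral_const, smul_eq_mul, integral_add, integral_const_mul, integral_const_mul] at k2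
    · have k3 : 2 * (1 + 2 * B) ^ 2 * Q ≤ 2 * (1 + 2 * B) ^ 2 * ε :=
        mul_le_mul_of_nonneg_left hQε (by positivity)
      linarith
    · exact integrable_cont (continuous_const.mul ((cF.mul (continuous_const.sub cF)).pow 2))
    · exact integrable_cont (continuous_const.mul (cH.pow 2))
  set D := 2 + 2 * (1 + 2 * B) ^ 2 with hD
  have q2 : V * (m * (1 - m)) ^ 2 ≤ D * ε := by
    refine q1.trans (le_of_eq ?_)
    rw [hD]; ring
  rcases le_total m (1 / 2) with hm2 | hm2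
  · left
    have k1 : ∀ x, F x ^ 2 ≤ 2 * H x ^ 2 + 2 * m ^ 2 := by
      intro x
      simp only [hH]
      nlinarith [sq_nonneg (F x - 2 * m)]
    have k2 : ∫ x, F x ^ 2 ∂μ ≤ ∫ x, (2 * H x ^ 2 + 2 * m ^ 2) ∂μ :=
      integral_mono (integrable_cont (cF.pow 2))
        (integrable_cont ((continuous_const.mul (cH.pow 2)).add continuous_const)) k1
    rw [integral_add, integral_const_mul, integral_const, smul_eq_mul] at k2
    · have k3 : V * m ^ 2 ≤ 4 * (V * (m * (1 - m)) ^ 2) := by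
        have : m ^ 2 ≤ 4 * (m * (1 - m)) ^ 2 := by
          rw [mul_pow]
          nlinarith [mul_nonneg (sq_nonneg m) (by nlinarith : (0:ℝ) ≤ 4 * (1 - m) ^ 2 - 1)]
        nlinarith
      linarith
    · exact integrable_cont (continuous_const.mul (cH.pow 2))
    · exact integrable_const _
  · right
    have k1 : ∀ x, (1 - F x) ^ 2 ≤ 2 * H x ^ 2 + 2 * (1 - m) ^ 2 := by
      intro x
      simp only [hH]
      nlinarith [sq_nonneg ((1 - F x) - 2 * (1 - m))]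
    have k2 : ∫ x, (1 - F x) ^ 2 ∂μ ≤ ∫ x, (2 * H x ^ 2 + 2 * (1 - m) ^ 2) ∂μ :=
      integral_mono (integrable_cont ((continuous_const.sub cF).pow 2))
        (integrable_cont ((continuous_const.mul (cH.pow 2)).add continuous_const)) k1
    rw [integral_add, integral_const_mul, integral_const, smul_eq_mul] at k2
    · have k3 : V * (1 - m) ^ 2 ≤ 4 * (V * (m * (1 - m)) ^ 2) := by
        have : (1 - m) ^ 2 ≤ 4 * (m * (1 - m)) ^ 2 := by
          rw [mul_pow]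
          nlinarith [mul_nonneg (sq_nonneg (1 - m)) (by nlinarith : (0:ℝ) ≤ 4 * m ^ 2 - 1)]
        nlinarith
      linarith
    · exact integrable_cont (continuous_const.mul (cH.pow 2))
    · exact integrable_const _

/-- two smooth functions `≥ 0` with `h₁ L h₂ = 0 = h₁ h₂` and Rayleigh quotients `≤ 13/10 < 4/3`:
one of them has integral zero. -/
theorem disj_aux {h₁ h₂ : X → ℝ} (s₁ : C.Sm h₁) (s₂ : C.Sm h₂) (n₁ : ∀ x, 0 ≤ h₁ x)
    (n₂ : ∀ x, 0 ≤ h₂ x) (hL : ∀ x, h₁ x * C.L h₂ x = 0) (hh : ∀ x, h₁ x * h₂ x = 0)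
    (r₁ : ∫ x, C.G h₁ h₁ x ∂μ ≤ (13 / 10) * ∫ x, h₁ x ^ 2 ∂μ)
    (r₂ : ∫ x, C.G h₂ h₂ x ∂μ ≤ (13 / 10) * ∫ x, h₂ x ^ 2 ∂μ) :
    (∫ x, h₁ x ^ 2 ∂μ = 0) ∨ (∫ x, h₂ x ∂μ = 0) := by
  set a := ∫ x, h₁ x ∂μ with ha
  set b := ∫ x, h₂ x ∂μ with hb
  have i₁ : Integrable h₁ μ := integrable_sm s₁
  have i₂ : Integrable h₂ μ := integrable_sm s₂
  by_cases hb0 : b = 0
  · exact Or.inr hb0
  left
  set w : X → ℝ := fun x => b * h₁ x - a * h₂ x with hw
  have sw : C.Sm w := sm_sub (sm_smul b s₁) (sm_smul a s₂)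
  have w0 : ∫ x, w x ∂μ = 0 := by
    rw [hw, integral_sub (i₁.const_mul _) (i₂.const_mul _), integral_const_mul,
      integral_const_mul, ← ha, ← hb]
    ring
  have hp := poinc sw w0
  have eG : ∀ x, C.G w w x = b ^ 2 * C.G h₁ h₁ x + a ^ 2 * C.G h₂ h₂ x -
      (2 * a * b) * C.G h₁ h₂ x := by
    intro x
    simp only [hw]
    rw [G_sub_left (sm_smul b s₁) (sm_smul a s₂), G_smul_left b s₁, G_smul_left a s₂,
      G_sub_right (sm_smul b s₁) (sm_smul a s₂), G_sub_right (sm_smul b s₁) (sm_smul a s₂),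
      G_smul_right b s₁, G_smul_right a s₂, G_smul_right b s₁, G_smul_right a s₂, G_symm h₂ h₁]
    ring
  have j1 : Integrable (fun x => C.G h₁ h₁ x) μ := integrable_sm (C.sm_G s₁ s₁)
  have j2 : Integrable (fun x => C.G h₂ h₂ x) μ := integrable_sm (C.sm_G s₂ s₂)
  have j3 : Integrable (fun x => C.G h₁ h₂ x) μ := integrable_sm (C.sm_G s₁ s₂)
  have k1 : Integrable (fun x => h₁ x ^ 2) μ := integrable_sm (sm_pow s₁ 2)
  have k2 : Integrable (fun x => h₂ x ^ 2) μ := integrable_sm (sm_pow s₂ 2)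
  have z3 : ∫ x, C.G h₁ h₂ x ∂μ = 0 := by
    have h1 := int_G (μ := μ) s₁ s₂
    rw [h1]
    simp only [hL]
    simp
  have iGw : ∫ x, C.G w w x ∂μ = b ^ 2 * ∫ x, C.G h₁ h₁ x ∂μ + a ^ 2 * ∫ x, C.G h₂ h₂ x ∂μ := by
    simp only [eG]
    have j4 : Integrable (fun x => b ^ 2 * C.G h₁ h₁ x + a ^ 2 * C.G h₂ h₂ x) μ :=
      (j1.const_mul _).add (j2.const_mul _)
    rw [integral_sub j4 (j3.const_mul _), integral_add (j1.const_mul _) (j2.const_mul _),
      integral_const_mul, integral_const_mul, integral_const_mul, z3]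
    ring
  have ew : ∀ x, w x ^ 2 = b ^ 2 * h₁ x ^ 2 + a ^ 2 * h₂ x ^ 2 := by
    intro x
    have := hh x
    simp only [hw]
    have e : (b * h₁ x - a * h₂ x) ^ 2 = b ^ 2 * h₁ x ^ 2 + a ^ 2 * h₂ x ^ 2 -
        2 * a * b * (h₁ x * h₂ x) := by ring
    rw [e, this]; ring
  have iw : ∫ x, w x ^ 2 ∂μ = b ^ 2 * ∫ x, h₁ x ^ 2 ∂μ + a ^ 2 * ∫ x, h₂ x ^ 2 ∂μ := by
    simp only [ew]
    rw [integral_add (k1.const_mul _) (k2.const_mul _), integral_const_mul, integral_const_mul]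
  rw [iw, iGw] at hp
  have p1 : 0 ≤ ∫ x, h₁ x ^ 2 ∂μ := integral_nonneg fun x => sq_nonneg _
  have p2 : 0 ≤ ∫ x, h₂ x ^ 2 ∂μ := integral_nonneg fun x => sq_nonneg _
  have hb2 : 0 < b ^ 2 := by positivity
  have q1 := mul_le_mul_of_nonneg_left r₁ hb2.le
  have q2 := mul_le_mul_of_nonneg_left r₂ (sq_nonneg a)
  have q3 : 0 ≤ b ^ 2 * ∫ x, h₁ x ^ 2 ∂μ := mul_nonneg hb2.le p1
  have q4 : 0 ≤ a ^ 2 * ∫ x, h₂ x ^ 2 ∂μ := mul_nonneg (sq_nonneg a) p2
  have q5 : b ^ 2 * ∫ x, h₁ x ^ 2 ∂μ = 0 := by linarith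
  exact (mul_eq_zero.1 q5).resolve_left hb2.ne'

/-- the Rayleigh quotient of the truncated function -/
theorem rayleigh3 {d : ℝ} (hd : 0 < d) (hd2 : d ≤ 1 / 1000) {F : X → ℝ} (H : STC C F)
    (h2 : ∀ x, Real.sqrt (F x) ≤ 2) (hu : ∀ x, reg d F x ≤ 63 / 50) :
    ∫ x, C.G (fun y => chi (reg d F y)) (fun y => chi (reg d F y)) x ∂μ ≤
      (13 / 10) * ∫ x, chi (reg d F x) ^ 2 ∂μ := by
  have hd8 : d ≤ 1 / 8 := by linarith
  have sR := sm_reg (C := C) hd H.nonneg H.smooth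
  have sh : C.Sm (fun y => chi (reg d F y)) := sm_comp' contDiff_chi sR
  have hL := fun x => L_comp' (C := C) contDiff_chi sR x
  rw [deriv_chi, deriv_chi1] at hL
  rw [int_G sh sh, ← integral_neg, ← integral_const_mul]
  refine integral_mono (integrable_sm (sm_mul sh (C.sm_L sh))).neg
    ((integrable_sm (sm_pow sh 2)).const_mul _) fun x => ?_
  have hsub := reg_sub hd hd8 H h2 x
  have hk := key hd hd2 (hu x)
  have c0 := chi_nonneg (reg d F x)
  have c1 := chi1_nonneg (reg d F x)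
  have c2 := chi2_nonneg (reg d F x)
  have hG := G_self_nonneg (C := C) (reg d F) x
  have e1 : C.L (fun y => chi (reg d F y)) x = chi1 (reg d F x) * C.L (reg d F) x +
      chi2 (reg d F x) * C.G (reg d F) (reg d F) x := hL x
  simp only
  rw [e1]
  have a1 : - (chi1 (reg d F x) * C.L (reg d F) x + chi2 (reg d F x) * C.G (reg d F) (reg d F) x) ≤
      (13 / 10) * chi (reg d F x) := by
    have b1 : chi1 (reg d F x) * fd d (reg d F x) ≤ chi1 (reg d F x) * C.L (reg d F) x :=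
      mul_le_mul_of_nonneg_left hsub c1
    have b2 := mul_nonneg c2 hG
    linarith
  nlinarith

/-- a continuous nonnegative function with zero integral vanishes -/
theorem zero_of_int [μ.IsOpenPosMeasure] {g : X → ℝ} (hg : Continuous g) (h0 : ∀ x, 0 ≤ g x)
    (hi : ∫ x, g x ∂μ = 0) (x : X) : g x = 0 := by
  have h1 := (integral_eq_zero_iff_of_nonneg h0 (integrable_cont hg)).1 hi
  have h2 := Continuous.ae_eq_iff_eq μ hg (continuous_const (y := (0:ℝ)))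
  have h3 := h2.1 h1
  exact congrFun h3 x

/-- **the disjoint case**. -/
theorem disjoint3 [μ.IsOpenPosMeasure] {F₁ F₂ : X → ℝ} (H₁ : STC C F₁) (H₂ : STC C F₂)
    (hs : ∀ x, Real.sqrt (F₁ x) + Real.sqrt (F₂ x) ≤ 2)
    (hmin : ∀ x, F₁ x ≤ 1 / 64 ∨ F₂ x ≤ 1 / 64) :
    (∀ x, F₁ x < 1) ∨ (∀ x, F₂ x < 1) := by
  set d : ℝ := 1 / 1000 with hd
  have hd0 : 0 < d := by norm_num [hd]
  have hd2 : d ≤ 1 / 1000 := le_rfl
  have hd8 : d ≤ 1 / 8 := by norm_num [hd]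
  have b₁ : ∀ x, Real.sqrt (F₁ x) ≤ 2 := fun x => by
    have := hs x; have := Real.sqrt_nonneg (F₂ x); linarith
  have b₂ : ∀ x, Real.sqrt (F₂ x) ≤ 2 := fun x => by
    have := hs x; have := Real.sqrt_nonneg (F₁ x); linarith
  have D := dat_of_STC hd0 hd8 H₁ H₂ hs
  have u₁ : ∀ x, reg d F₁ x ≤ 63 / 50 := fun x => cube_le_63 (D.φpos x).le (by
    have := D.sum_le x; have := pow_pos (D.ψpos x) 3; linarith)
  have u₂ : ∀ x, reg d F₂ x ≤ 63 / 50 := fun x => cube_le_63 (D.ψpos x).le (by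
    have := D.sum_le x; have := pow_pos (D.φpos x) 3; linarith)
  have t1 := th3_le hd0
  have t2 := th3_ge hd0 hd8
  have small : ∀ F : X → ℝ, (∀ x, 0 ≤ F x) → ∀ x, F x ≤ 1 / 64 → reg d F x ≤ 11 / 20 := by
    intro F hF x hx
    refine le_of_cube_le (by norm_num) ?_
    rw [reg_cube hd0 hd8 hF]
    have h1 : Real.sqrt (F x + d ^ 2) ≤ 13 / 100 := by
      rw [Real.sqrt_le_left (by norm_num)]
      norm_num [hd]
      linarith
    have h2 : 0 ≤ Real.sqrt (F x + d ^ 2) := Real.sqrt_nonneg _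
    calc th3 d * Real.sqrt (F x + d ^ 2) ≤ 1 * (13 / 100) :=
          mul_le_mul t1 h1 h2 (by norm_num)
      _ ≤ (11 / 20) ^ 3 := by norm_num
  have s₁ : C.Sm (fun y => chi (reg d F₁ y)) :=
    sm_comp' contDiff_chi (sm_reg hd0 H₁.nonneg H₁.smooth)
  have sR₂ := sm_reg (C := C) hd0 H₂.nonneg H₂.smooth
  have s₂ : C.Sm (fun y => chi (reg d F₂ y)) := sm_comp' contDiff_chi sR₂
  have hL : ∀ x, chi (reg d F₁ x) * C.L (fun y => chi (reg d F₂ y)) x = 0 := by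
    intro x
    rcases hmin x with h | h
    · rw [chi_zero (small F₁ H₁.nonneg x h), zero_mul]
    · have e1 := L_comp' (C := C) contDiff_chi sR₂ x
      rw [deriv_chi, deriv_chi1] at e1
      have hz := small F₂ H₂.nonneg x h
      rw [e1, chi1_zero hz, chi2_zero hz]
      ring
  have hh : ∀ x, chi (reg d F₁ x) * chi (reg d F₂ x) = 0 := by
    intro x
    rcases hmin x with h | h
    · rw [chi_zero (small F₁ H₁.nonneg x h), zero_mul]
    · rw [chi_zero (small F₂ H₂.nonneg x h), mul_zero]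
  have fin : ∀ F : X → ℝ, (∀ x, 0 ≤ F x) → (∀ x, chi (reg d F x) = 0) → ∀ x, F x < 1 := by
    intro F hF h x
    have h1 : reg d F x ≤ 11 / 20 := by
      by_contra hcon
      rw [not_le] at hcon
      exact (chi_pos hcon).ne' (h x)
    have h2 : reg d F x ^ 3 ≤ (11 / 20) ^ 3 :=
      pow_le_pow_left₀ (reg_pos hd0 hd8 hF x).le h1 3
    rw [reg_cube hd0 hd8 hF] at h2
    by_contra hcon
    rw [not_lt] at hcon
    have h3 : 1 ≤ Real.sqrt (F x + d ^ 2) := by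
      rw [Real.one_le_sqrt]
      have := sq_nonneg d
      linarith
    have h4 : (11 / 20 : ℝ) ^ 3 ≤ 1 / 5 := by norm_num
    have h5 : (1 / 2) * 1 ≤ th3 d * Real.sqrt (F x + d ^ 2) :=
      mul_le_mul t2 h3 zero_le_one (by linarith)
    linarith
  rcases disj_aux s₁ s₂ (fun x => chi_nonneg _) (fun x => chi_nonneg _) hL hh
    (rayleigh3 hd0 hd2 H₁ b₁ u₁) (rayleigh3 hd0 hd2 H₂ b₂ u₂) with h | h
  · left
    refine fin F₁ H₁.nonneg fun x => ?_
    have := zero_of_int (μ := μ) ((C.sm_cont s₁).pow 2) (fun x => sq_nonneg _) h x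
    exact pow_eq_zero_iff (two_ne_zero) |>.1 this
  · right
    refine fin F₂ H₂.nonneg fun x => ?_
    exact zero_of_int (μ := μ) (C.sm_cont s₂) (fun x => chi_nonneg _) h x

end Crest.Agent.R249.StH_912
end
end

-- ▼ part R249/StHc_912

/-!
Row 249, part A2 (helper912), task A2-FIN3, file 3 (abstract calculus): the final deduction for the
truncated / relaxed pair.

`Appr C g F₁ F₂ a ε φ ψ` : `φ, ψ ≥ g`, `φ + ψ ≤ 2 + ε`, `F₁^(1/6) ≤ φ + ε`, `F₂^(1/6) ≤ ψ + ε`,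
`∫ |dF|² + (F (1 - F))² ≤ ε`, `F = ((φ - g)(ψ - g)/(1 - g)²)^a`.
`final3` : if such pairs exist for every `ε > 0`, then `F₁ < 1` or `F₂ < 1` or `F₁, F₂ ≤ 1`.
-/

set_option autoImplicit false
set_option linter.unusedVariables false
set_option linter.unusedSectionVars false

open MeasureTheory Set Filter Topology Matrix
open scoped ContDiff

noncomputable section

namespace Crest.Agent.R249.StH_912

open Calc_806 Calc_806.Calc Pen_806 IntA_780

section Def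

variable {X : Type*} [TopologicalSpace X] [MeasurableSpace X] {μ : Measure X}

/-- `F = ((φ - g)(ψ - g)/(1 - g)²)^a` -/
def Fq (g : ℝ) (a : ℕ) (φ ψ : X → ℝ) (x : X) : ℝ := ((φ x - g) * (ψ x - g) / (1 - g) ^ 2) ^ a

/-- **Input of the final deduction** (abstract calculus). -/
structure Appr (C : Calc X μ) (g : ℝ) (F₁ F₂ : X → ℝ) (a : ℕ) (ε : ℝ) (φ ψ : X → ℝ) : Prop where
  sφ : C.Sm φ
  sψ : C.Sm ψ
  gφ : ∀ x, g ≤ φ x
  gψ : ∀ x, g ≤ ψ x
  sum : ∀ x, φ x + ψ x ≤ 2 + ε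
  lφ : ∀ x, F₁ x ^ (1 / 6 : ℝ) ≤ φ x + ε
  lψ : ∀ x, F₂ x ^ (1 / 6 : ℝ) ≤ ψ x + ε
  int : ∫ x, (C.G (Fq g a φ ψ) (Fq g a φ ψ) x +
    (Fq g a φ ψ x * (1 - Fq g a φ ψ x)) ^ 2) ∂μ ≤ ε

end Def

variable {X : Type*} [TopologicalSpace X] [CompactSpace X] [MeasurableSpace X]
  [OpensMeasurableSpace X] {μ : Measure X} [IsFiniteMeasure μ] {C : Calc X μ}
  {g : ℝ} {F₁ F₂ : X → ℝ} {a : ℕ} {ε : ℝ} {φ ψ : X → ℝ}

theorem Appr.mono (h : Appr C g F₁ F₂ a ε φ ψ) {ε' : ℝ} (he : ε ≤ ε') :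
    Appr C g F₁ F₂ a ε' φ ψ where
  sφ := h.sφ
  sψ := h.sψ
  gφ := h.gφ
  gψ := h.gψ
  sum := fun x => (h.sum x).trans (by linarith)
  lφ := fun x => (h.lφ x).trans (by linarith)
  lψ := fun x => (h.lψ x).trans (by linarith)
  int := h.int.trans he

theorem Fq_symm (g : ℝ) (a : ℕ) (φ ψ : X → ℝ) : Fq g a ψ φ = Fq g a φ ψ := by
  funext x; simp only [Fq, mul_comm]

theorem Appr.symm (h : Appr C g F₁ F₂ a ε φ ψ) : Appr C g F₂ F₁ a ε ψ φ where
  sφ := h.sψ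
  sψ := h.sφ
  gφ := h.gψ
  gψ := h.gφ
  sum := fun x => by rw [add_comm]; exact h.sum x
  lφ := h.lψ
  lψ := h.lφ
  int := by rw [Fq_symm]; exact h.int

/-- the base of `Fq` -/
theorem Appr.base (h : Appr C g F₁ F₂ a ε φ ψ) (x : X) :
    0 ≤ (φ x - g) * (ψ x - g) / (1 - g) ^ 2 := by
  have h1 := h.gφ x
  have h2 := h.gψ x
  exact div_nonneg (mul_nonneg (by linarith) (by linarith)) (sq_nonneg _)

theorem Appr.sF (h : Appr C g F₁ F₂ a ε φ ψ) : C.Sm (Fq g a φ ψ) := by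
  have h1 := sm_pow (C := C) (sm_smul (((1 - g) ^ 2)⁻¹)
    (sm_mul (sm_sub h.sφ (sm_const g)) (sm_sub h.sψ (sm_const g)))) a
  have e : Fq g a φ ψ = fun x => (((1 - g) ^ 2)⁻¹ * ((φ x - g) * (ψ x - g))) ^ a := by
    funext x; rw [Fq, div_eq_inv_mul]
  rw [e]; exact h1

theorem Appr.F0 (h : Appr C g F₁ F₂ a ε φ ψ) (x : X) : 0 ≤ Fq g a φ ψ x :=
  pow_nonneg (h.base x) a

theorem Appr.F4 (h : Appr C g F₁ F₂ a ε φ ψ) (hg : g ≤ 1 / 2) (hε : ε ≤ 1)
    (x : X) : Fq g a φ ψ x ≤ 4 ^ a := by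
  refine pow_le_pow_left₀ (h.base x) ?_ a
  have h1 := h.gφ x
  have h2 := h.gψ x
  have h3 := h.sum x
  rw [div_le_iff₀ (by nlinarith)]
  nlinarith [sq_nonneg (φ x - ψ x)]

theorem Appr.ints (h : Appr C g F₁ F₂ a ε φ ψ) :
    ∫ x, C.G (Fq g a φ ψ) (Fq g a φ ψ) x ∂μ ≤ ε ∧
      ∫ x, (Fq g a φ ψ x * (1 - Fq g a φ ψ x)) ^ 2 ∂μ ≤ ε := by
  have sF := h.sF
  have i1 : Integrable (fun x => C.G (Fq g a φ ψ) (Fq g a φ ψ) x) μ :=
    integrable_sm (C.sm_G sF sF)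
  have i2 : Integrable (fun x => (Fq g a φ ψ x * (1 - Fq g a φ ψ x)) ^ 2) μ :=
    integrable_sm (sm_pow (sm_mul sF (sm_sub (sm_const 1) sF)) 2)
  have h1 := h.int
  rw [integral_add i1 i2] at h1
  have p1 : 0 ≤ ∫ x, C.G (Fq g a φ ψ) (Fq g a φ ψ) x ∂μ :=
    integral_nonneg fun x => G_self_nonneg _ x
  have p2 : 0 ≤ ∫ x, (Fq g a φ ψ x * (1 - Fq g a φ ψ x)) ^ 2 ∂μ :=
    integral_nonneg fun x => sq_nonneg _
  exact ⟨by linarith, by linarith⟩

theorem real_pos [μ.IsOpenPosMeasure] {U : Set X} (hU : IsOpen U) (hne : U.Nonempty) :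
    0 < μ.real U := by
  rw [measureReal_def]
  exact ENNReal.toReal_pos (hU.measure_pos μ hne).ne' (measure_ne_top _ _)

theorem lower {G : X → ℝ} (hg : Continuous G) (hn : ∀ x, 0 ≤ G x) {U : Set X} (hU : IsOpen U)
    {c : ℝ} (hc : ∀ x ∈ U, c ≤ G x) : c * μ.real U ≤ ∫ x, G x ∂μ := by
  have hgi : Integrable G μ := integrable_cont hg
  calc c * μ.real U = ∫ x in U, c ∂μ := by
        rw [setIntegral_const, smul_eq_mul, mul_comm]
    _ ≤ ∫ x in U, G x ∂μ :=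
        setIntegral_mono_on (integrable_const _).integrableOn hgi.integrableOn hU.measurableSet hc
    _ ≤ ∫ x, G x ∂μ := setIntegral_le_integral hgi (Eventually.of_forall hn)

theorem continuous_root (hF : Continuous F₁) : Continuous fun x => F₁ x ^ (1 / 6 : ℝ) :=
  hF.rpow_const fun x => Or.inr (by norm_num)

theorem alg_one {u v g t η : ℝ} {a : ℕ} (ha : 1 ≤ a) (hg0 : 0 ≤ g) (hg : g ≤ 1 / 2) (ht0 : 0 < t)
    (ht1 : t ≤ 1 / 2) (hη0 : 0 < η) (hη1 : η ≤ t ^ 2 / 16) (hu : 1 + 2 * t < u + η) (hug : g ≤ u)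
    (hv : g ≤ v) (hs : u + v ≤ 2 + η) :
    t ^ 2 / 8 ≤ 1 - ((u - g) * (v - g) / (1 - g) ^ 2) ^ a := by
  have h1g : 0 < 1 - g := by linarith
  have hg2 : 0 < (1 - g) ^ 2 := by positivity
  have ht2 : t ^ 2 ≤ t / 2 := by nlinarith
  have hηt : η ≤ t := by linarith
  have hu1 : 1 + t ≤ u := by linarith
  have h6 : t ≤ u - v := by linarith
  have hs0 : 0 ≤ u + v - 2 * g := by linarith
  have hs1 : u + v - 2 * g ≤ 2 * (1 - g) + η := by linarith
  have e : (u - g) * (v - g) = ((u + v - 2 * g) ^ 2 - (u - v) ^ 2) / 4 := by ring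
  have h7 : (u + v - 2 * g) ^ 2 ≤ (2 * (1 - g) + η) ^ 2 := pow_le_pow_left₀ hs0 hs1 2
  have h8 : t ^ 2 ≤ (u - v) ^ 2 := pow_le_pow_left₀ ht0.le h6 2
  have e7 : (2 * (1 - g) + η) ^ 2 = 4 * (1 - g) ^ 2 + 4 * η - 4 * (g * η) + η ^ 2 := by ring
  have h71 : 0 ≤ g * η := mul_nonneg hg0 hη0.le
  have h72 : η ^ 2 ≤ η := by nlinarith
  have h9 : (u - g) * (v - g) ≤ (1 - g) ^ 2 - t ^ 2 / 8 := by
    rw [e]
    rw [e7] at h7
    linarith [sq_nonneg t]
  have hb : 0 ≤ (u - g) * (v - g) / (1 - g) ^ 2 :=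
    div_nonneg (mul_nonneg (by linarith) (by linarith)) hg2.le
  have hb1 : (u - g) * (v - g) / (1 - g) ^ 2 ≤ 1 - t ^ 2 / 8 := by
    rw [div_le_iff₀ hg2]
    have h10 : (1 - g) ^ 2 ≤ 1 := by
      rw [sq]
      exact mul_le_one₀ (by linarith) h1g.le (by linarith)
    have h11 : t ^ 2 * (1 - g) ^ 2 ≤ t ^ 2 * 1 := mul_le_mul_of_nonneg_left h10 (sq_nonneg t)
    linarith
  have hra : ((u - g) * (v - g) / (1 - g) ^ 2) ^ a ≤ (u - g) * (v - g) / (1 - g) ^ 2 := by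
    calc ((u - g) * (v - g) / (1 - g) ^ 2) ^ a ≤ ((u - g) * (v - g) / (1 - g) ^ 2) ^ 1 :=
          pow_le_pow_of_le_one hb (by linarith [sq_nonneg t]) ha
      _ = _ := pow_one _
  linarith

/-- case `F → 1` -/
theorem le_one_of [μ.IsOpenPosMeasure] (hg0 : 0 ≤ g) (hg : g ≤ 1 / 2) (ha : 1 ≤ a)
    (H₁ : STC C F₁)
    (hQ : ∀ η : ℝ, 0 < η → ∃ φ ψ : X → ℝ, Appr C g F₁ F₂ a η φ ψ ∧
      ∫ x, (1 - Fq g a φ ψ x) ^ 2 ∂μ ≤ η) (x : X) : F₁ x ≤ 1 := by
  by_contra hcon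
  rw [not_le] at hcon
  have hF := C.sm_cont H₁.smooth
  have hroot := continuous_root hF
  have h1 : 1 < F₁ x ^ (1 / 6 : ℝ) := Real.one_lt_rpow hcon (by norm_num)
  obtain ⟨t, ht0, ht1, ht2⟩ : ∃ t : ℝ, 0 < t ∧ t ≤ 1 / 2 ∧ 1 + 2 * t < F₁ x ^ (1 / 6 : ℝ) := by
    refine ⟨min (1 / 2) ((F₁ x ^ (1 / 6 : ℝ) - 1) / 4), lt_min (by norm_num) (by linarith),
      min_le_left _ _, ?_⟩
    have := min_le_right (1 / 2 : ℝ) ((F₁ x ^ (1 / 6 : ℝ) - 1) / 4)
    linarith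
  set U : Set X := {y | 1 + 2 * t < F₁ y ^ (1 / 6 : ℝ)} with hU
  have hUo : IsOpen U := isOpen_lt continuous_const hroot
  have hUp : 0 < μ.real U := real_pos hUo ⟨x, ht2⟩
  obtain ⟨φ, ψ, hA, hI⟩ := hQ (min (t ^ 2 / 16) ((t ^ 2 / 8) ^ 2 * μ.real U / 2)) (by positivity)
  set η := min (t ^ 2 / 16) ((t ^ 2 / 8) ^ 2 * μ.real U / 2) with hη
  have hη1 : η ≤ t ^ 2 / 16 := min_le_left _ _
  have hη2 : η ≤ (t ^ 2 / 8) ^ 2 * μ.real U / 2 := min_le_right _ _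
  have hη0 : 0 < η := by positivity
  have key : ∀ y ∈ U, (t ^ 2 / 8) ^ 2 ≤ (1 - Fq g a φ ψ y) ^ 2 := by
    intro y hy
    have hy' : 1 + 2 * t < F₁ y ^ (1 / 6 : ℝ) := hy
    have h10 : t ^ 2 / 8 ≤ 1 - ((φ y - g) * (ψ y - g) / (1 - g) ^ 2) ^ a :=
      alg_one ha hg0 hg ht0 ht1 hη0 hη1 (lt_of_lt_of_le hy' (hA.lφ y)) (hA.gφ y) (hA.gψ y)
        (hA.sum y)
    exact pow_le_pow_left₀ (by positivity) h10 2
  have hc : Continuous fun y => (1 - Fq g a φ ψ y) ^ 2 :=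
    (continuous_const.sub (C.sm_cont hA.sF)).pow 2
  have h7 := lower (μ := μ) hc (fun y => sq_nonneg _) hUo key
  have h8 : 0 < (t ^ 2 / 8) ^ 2 * μ.real U := by positivity
  linarith

/-- case `F → 0` -/
theorem min_of [μ.IsOpenPosMeasure] (hg0 : 0 ≤ g) (hg : g ≤ 1 / 2)
    (H₁ : STC C F₁) (H₂ : STC C F₂)
    (hQ : ∀ η : ℝ, 0 < η → ∃ φ ψ : X → ℝ, Appr C g F₁ F₂ a η φ ψ ∧
      ∫ x, Fq g a φ ψ x ^ 2 ∂μ ≤ η) (x : X) : F₁ x ≤ 1 / 64 ∨ F₂ x ≤ 1 / 64 := by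
  by_contra hcon
  rw [not_or, not_le, not_le] at hcon
  have r₁ := continuous_root (C.sm_cont H₁.smooth)
  have r₂ := continuous_root (C.sm_cont H₂.smooth)
  have e64 : ((1 / 64 : ℝ)) ^ (1 / 6 : ℝ) = 1 / 2 := by
    have : (1 / 64 : ℝ) = (1 / 2) ^ (6 : ℝ) := by norm_num
    rw [this, ← Real.rpow_mul (by norm_num)]
    norm_num
  have q₁ : 1 / 2 < F₁ x ^ (1 / 6 : ℝ) := by
    rw [← e64]; exact Real.rpow_lt_rpow (by norm_num) hcon.1 (by norm_num)
  have q₂ : 1 / 2 < F₂ x ^ (1 / 6 : ℝ) := by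
    rw [← e64]; exact Real.rpow_lt_rpow (by norm_num) hcon.2 (by norm_num)
  obtain ⟨c, hc0, hc1, hc2⟩ : ∃ c : ℝ, 0 < c ∧ 1 / 2 + 2 * c < F₁ x ^ (1 / 6 : ℝ) ∧
      1 / 2 + 2 * c < F₂ x ^ (1 / 6 : ℝ) := by
    refine ⟨min (F₁ x ^ (1 / 6 : ℝ) - 1 / 2) (F₂ x ^ (1 / 6 : ℝ) - 1 / 2) / 3, ?_, ?_, ?_⟩
    · have : 0 < min (F₁ x ^ (1 / 6 : ℝ) - 1 / 2) (F₂ x ^ (1 / 6 : ℝ) - 1 / 2) :=
        lt_min (by linarith) (by linarith)
      linarith
    · have := min_le_left (F₁ x ^ (1 / 6 : ℝ) - 1 / 2) (F₂ x ^ (1 / 6 : ℝ) - 1 / 2)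
      linarith
    · have := min_le_right (F₁ x ^ (1 / 6 : ℝ) - 1 / 2) (F₂ x ^ (1 / 6 : ℝ) - 1 / 2)
      linarith
  set U : Set X := {y | 1 / 2 + 2 * c < F₁ y ^ (1 / 6 : ℝ)} ∩
    {y | 1 / 2 + 2 * c < F₂ y ^ (1 / 6 : ℝ)} with hU
  have hUo : IsOpen U := (isOpen_lt continuous_const r₁).inter (isOpen_lt continuous_const r₂)
  have hUp : 0 < μ.real U := real_pos hUo ⟨x, hc1, hc2⟩
  set κ : ℝ := ((c ^ 2) ^ a) ^ 2 with hκ
  have hκ0 : 0 < κ := by positivity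
  obtain ⟨φ, ψ, hA, hI⟩ := hQ (min c (κ * μ.real U / 2)) (by positivity)
  set η := min c (κ * μ.real U / 2) with hη
  have hη1 : η ≤ c := min_le_left _ _
  have hη2 : η ≤ κ * μ.real U / 2 := min_le_right _ _
  have key : ∀ y ∈ U, κ ≤ Fq g a φ ψ y ^ 2 := by
    intro y hy
    have y1 : 1 / 2 + 2 * c < F₁ y ^ (1 / 6 : ℝ) := hy.1
    have y2 : 1 / 2 + 2 * c < F₂ y ^ (1 / 6 : ℝ) := hy.2
    have h1 := hA.lφ y
    have h2 := hA.lψ y
    have h4 : c ≤ φ y - g := by linarith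
    have h5 : c ≤ ψ y - g := by linarith
    have h6 : c ^ 2 ≤ (φ y - g) * (ψ y - g) / (1 - g) ^ 2 := by
      rw [le_div_iff₀ (by nlinarith)]
      have a1 : c ^ 2 ≤ (φ y - g) * (ψ y - g) := by
        rw [sq]; exact mul_le_mul h4 h5 hc0.le (by linarith)
      have a2 : (1 - g) ^ 2 ≤ 1 := by nlinarith
      nlinarith [sq_nonneg c]
    have h7 : (c ^ 2) ^ a ≤ Fq g a φ ψ y := pow_le_pow_left₀ (by positivity) h6 a
    exact pow_le_pow_left₀ (by positivity) h7 2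
  have hc : Continuous fun y => Fq g a φ ψ y ^ 2 := (C.sm_cont hA.sF).pow 2
  have h7 := lower (μ := μ) hc (fun y => sq_nonneg _) hUo key
  have h8 : 0 < κ * μ.real U := by positivity
  linarith

/-- **the final deduction** (abstract calculus). -/
theorem final3 [μ.IsOpenPosMeasure] [Nonempty X] (hg0 : 0 ≤ g) (hg : g ≤ 1 / 2) (ha : 1 ≤ a)
    (H₁ : STC C F₁) (H₂ : STC C F₂)
    (hs : ∀ x, Real.sqrt (F₁ x) + Real.sqrt (F₂ x) ≤ 2)
    (happ : ∀ ε : ℝ, 0 < ε → ∃ φ ψ : X → ℝ, Appr C g F₁ F₂ a ε φ ψ) :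
    (∀ x, F₁ x < 1) ∨ (∀ x, F₂ x < 1) ∨ (∀ x, F₁ x ≤ 1 ∧ F₂ x ≤ 1) := by
  have V0 : 0 < μ.real univ := real_pos isOpen_univ univ_nonempty
  by_cases hZ : ∀ η : ℝ, 0 < η → ∃ φ ψ : X → ℝ, Appr C g F₁ F₂ a η φ ψ ∧
      ∫ x, Fq g a φ ψ x ^ 2 ∂μ ≤ η
  · rcases disjoint3 H₁ H₂ hs (min_of hg0 hg H₁ H₂ hZ) with h | h
    · exact Or.inl h
    · exact Or.inr (Or.inl h)
  · have hO : ∀ η : ℝ, 0 < η → ∃ φ ψ : X → ℝ, Appr C g F₁ F₂ a η φ ψ ∧
        ∫ x, (1 - Fq g a φ ψ x) ^ 2 ∂μ ≤ η := by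
      intro η hη
      rw [not_forall] at hZ
      obtain ⟨η', hZ⟩ := hZ
      rw [Classical.not_imp] at hZ
      obtain ⟨hη', hZ⟩ := hZ
      set K : ℝ := 2 + 8 * (2 + 2 * (1 + 2 * 4 ^ a) ^ 2) with hK
      have hK0 : 0 < K := by positivity
      set m := min η η' with hm
      have hm0 : 0 < m := lt_min hη hη'
      obtain ⟨φ, ψ, hA⟩ := happ (min 1 (min m (m / K))) (by positivity)
      set ε := min 1 (min m (m / K)) with hε
      have e1 : ε ≤ 1 := min_le_left _ _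
      have e2 : ε ≤ m := (min_le_right _ _).trans (min_le_left _ _)
      have e3 : K * ε ≤ m := by
        have : ε ≤ m / K := (min_le_right _ _).trans (min_le_right _ _)
        calc K * ε ≤ K * (m / K) := mul_le_mul_of_nonneg_left this hK0.le
          _ = m := by field_simp
      obtain ⟨j1, j2⟩ := hA.ints
      rcases dich (μ := μ) hA.sF hA.F0 (B := 4 ^ a) (by positivity) (hA.F4 hg e1) V0 j1 j2
        with h | h
      · exfalso
        exact hZ ⟨φ, ψ, hA.mono (e2.trans (min_le_right _ _)),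
          h.trans (e3.trans (min_le_right _ _))⟩
      · exact ⟨φ, ψ, hA.mono (e2.trans (min_le_left _ _)),
          h.trans (e3.trans (min_le_left _ _))⟩
    refine Or.inr (Or.inr fun x => ⟨le_one_of hg0 hg ha H₁ hO x, ?_⟩)
    refine le_one_of (F₂ := F₁) hg0 hg ha H₂ ?_ x
    intro η hη
    obtain ⟨φ, ψ, hA, hI⟩ := hO η hη
    refine ⟨ψ, φ, hA.symm, ?_⟩
    rw [Fq_symm]
    exact hI

end Crest.Agent.R249.StH_912
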