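import Crest.Agent.R249.Pen2_806
import Crest.Agent.R249.IntA_780
import Crest.Agent.R202.EllFinal
import Crest.Agent.R247.Ms11_322
import Crest.Agent.R247.Bo8_84
import Crest.Agent.R249.Calc_806
import Crest.Agent.R249.StFd_912
import Crest.Agent.R249.StHc_912

-- ▼ part R249/StGa_912
section

/-!
Row 249, part A2 (helper912), task A2-ASM, file 1: bounds which are UNIFORM in the regularisation
parameter `d` (only the subsolution property is used), in the abstract calculus `Calc X μ`: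

* `sub_trunc` : `∫_{u ≤ b} |du|² ≤ 3 b ∫ (7 + |g|)` if `L u ≥ fd d u - |g|`;
* `Rem` : the admissible remainder
    `Rem d u v P Q = d^(1/3) (1 + P + Q) + P min(1, d/u³) + Q min(1, d/v³)`;
* `int_Rem_le` : `∫ Rem ≤ eta d * ∫ (7 + |g₁| + |g₂|)`;
* `PenSol.int_Rem_le` : the same for a penalised pair.
-/

set_option autoImplicit false
set_option linter.unusedVariables false
set_option linter.unusedSectionVars false

open MeasureTheory Set Filter Topology Matrix
open scoped ContDiff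

noncomputable section

namespace Crest.Agent.R249.StG_912

open Calc_806 Calc_806.Calc Pen_806 IntA_780

variable {X : Type*} [TopologicalSpace X] [CompactSpace X] [MeasurableSpace X]
  [OpensMeasurableSpace X] {μ : Measure X} [IsFiniteMeasure μ] {C : Calc X μ}

/-- the nonlinearity is bounded below, uniformly in `d` -/
theorem neg_seven_le_fd {d u : ℝ} (hd : 0 < d) (hd8 : d ≤ 1 / 8) (hu : 0 < u) (hu2 : u ≤ 13 / 10)
    (hlow : d / 2 ≤ u ^ 3) : -7 ≤ fd d u := by
  unfold fd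
  have h6 : 0 < u ^ 6 := by positivity
  have h3 : u ^ 3 ≤ (13 / 10) ^ 3 := pow_le_pow_left₀ hu.le hu2 3
  have h1 : d ^ 2 / u ^ 6 ≤ 4 := by
    rw [div_le_iff₀ h6]
    have e : u ^ 6 = u ^ 3 * u ^ 3 := by ring
    rw [e]
    have h4 : 0 < u ^ 3 := by positivity
    nlinarith [mul_le_mul hlow hlow (by positivity) h4.le]
  have h5 : (2 / 3) * d ^ 2 / u ^ 6 ≤ 8 / 3 := by
    rw [mul_div_assoc]; linarith
  have h7 : (2 / 3) * (1 - u ^ 3) - (6 * d + (2 / 3) * d ^ 2 / u ^ 6) ≥ -5 := by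
    norm_num at h3
    linarith
  nlinarith

/-- **truncated energy of a subsolution**. -/
theorem sub_trunc {u g : X → ℝ} (su : C.Sm u) (sg : Continuous g) {d : ℝ} (hd : 0 < d)
    (hd8 : d ≤ 1 / 8) (hu : ∀ x, 0 < u x) (hu2 : ∀ x, u x ≤ 13 / 10) (hlow : ∀ x, d / 2 ≤ u x ^ 3)
    (hL : ∀ x, fd d (u x) - |g x| ≤ C.L u x) {b : ℝ} (hb : 0 < b) (s : Set X)
    (hs : MeasurableSet s) (hsb : ∀ x ∈ s, u x ≤ b) :
    ∫ x in s, C.G u u x ∂μ ≤ 3 * b * ∫ x, (7 + |g x|) ∂μ := by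
  have hc : 0 < (0:ℝ) + b := by linarith
  have hd' : ContDiff ℝ ∞ (deriv (th 0 (0 + b))) := (contDiff_infty_iff_deriv.1 (contDiff_th _ _)).2
  have hP := C.sm_G su su
  have i1 : Integrable (fun x => deriv (th 0 (0 + b)) (u x) * C.G u u x) μ :=
    integrable_sm (sm_mul (sm_comp' hd' su) hP)
  have h1 : ∫ x in s, C.G u u x ∂μ ≤ ∫ x in s, deriv (th 0 (0 + b)) (u x) * C.G u u x ∂μ := by
    refine setIntegral_mono_on (integrable_sm hP).integrableOn i1.integrableOn hs fun x hx => ?_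
    have := one_le_deriv_th hc (hsb x hx)
    have := G_self_nonneg (C := C) u x
    nlinarith
  have h2 : ∫ x in s, deriv (th 0 (0 + b)) (u x) * C.G u u x ∂μ ≤
      ∫ x, deriv (th 0 (0 + b)) (u x) * C.G u u x ∂μ :=
    setIntegral_le_integral i1 (Eventually.of_forall fun x =>
      mul_nonneg (deriv_th_nonneg 0 hc _) (G_self_nonneg u x))
  have h3 := int_two (C := C) (contDiff_th 0 (0 + b)) su
  have ig : Integrable (fun x => 7 + |g x|) μ :=
    integrable_cont (continuous_const.add sg.abs)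
  have h4 : - ∫ x, th 0 (0 + b) (u x) * C.L u x ∂μ ≤ ∫ x, 3 * b * (7 + |g x|) ∂μ := by
    rw [← integral_neg]
    refine integral_mono
      (integrable_sm (sm_mul (sm_comp' (contDiff_th 0 (0 + b)) su) (C.sm_L su))).neg
      (ig.const_mul _) fun x => ?_
    have h5 : th 0 (0 + b) (u x) ≤ 3 * (0 + b) := th_le hc
    have h6 : 0 ≤ th 0 (0 + b) (u x) := th_nonneg hc (by rw [neg_zero]; exact (hu x).le)
    have h7 := hL x
    have h8 := neg_seven_le_fd hd hd8 (hu x) (hu2 x) (hlow x)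
    have h9 : - C.L u x ≤ 7 + |g x| := by linarith
    have h10 : 0 ≤ 7 + |g x| := by positivity
    calc -(th 0 (0 + b) (u x) * C.L u x) = th 0 (0 + b) (u x) * (- C.L u x) := by ring
      _ ≤ th 0 (0 + b) (u x) * (7 + |g x|) := mul_le_mul_of_nonneg_left h9 h6
      _ ≤ 3 * (0 + b) * (7 + |g x|) := mul_le_mul_of_nonneg_right h5 h10
      _ = 3 * b * (7 + |g x|) := by ring
  rw [integral_const_mul] at h4
  linarith

/-- **total energy of a subsolution**. -/
theorem sub_energy {u g : X → ℝ} (su : C.Sm u) (sg : Continuous g) {d : ℝ} (hd : 0 < d)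
    (hd8 : d ≤ 1 / 8) (hu : ∀ x, 0 < u x) (hu2 : ∀ x, u x ≤ 13 / 10) (hlow : ∀ x, d / 2 ≤ u x ^ 3)
    (hL : ∀ x, fd d (u x) - |g x| ≤ C.L u x) :
    ∫ x, C.G u u x ∂μ ≤ 4 * ∫ x, (7 + |g x|) ∂μ := by
  have h1 := sub_trunc (μ := μ) su sg hd hd8 hu hu2 hlow hL (b := 13 / 10) (by norm_num) univ
    MeasurableSet.univ (fun x _ => hu2 x)
  rw [setIntegral_univ] at h1
  have h2 : 0 ≤ ∫ x, (7 + |g x|) ∂μ := integral_nonneg fun x => by positivity
  linarith

/-- the admissible remainder -/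
def Rem (d u v P Q : ℝ) : ℝ :=
  d ^ (1 / 3 : ℝ) * (1 + P + Q) + P * min 1 (d / u ^ 3) + Q * min 1 (d / v ^ 3)


/-- the weighted energy of a subsolution -/
theorem sub_weight {u g : X → ℝ} (su : C.Sm u) (sg : Continuous g) {d : ℝ} (hd : 0 < d)
    (hd8 : d ≤ 1 / 8) (hu : ∀ x, 0 < u x) (hu2 : ∀ x, u x ≤ 13 / 10) (hlow : ∀ x, d / 2 ≤ u x ^ 3)
    (hL : ∀ x, fd d (u x) - |g x| ≤ C.L u x) :
    ∫ x, C.G u u x * min 1 (d / u x ^ 3) ∂μ ≤ 7 * d ^ (1 / 4 : ℝ) * ∫ x, (7 + |g x|) ∂μ := by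
  set b : ℝ := d ^ (1 / 4 : ℝ) with hb
  have hb0 : 0 < b := Real.rpow_pos_of_pos hd _
  have hb4 : b ^ 4 = d := by
    rw [hb, ← Real.rpow_natCast, ← Real.rpow_mul hd.le]; norm_num
  have hP := C.sm_G su su
  have cu : Continuous u := C.sm_cont su
  have cG : Continuous (C.G u u) := C.sm_cont hP
  have cm : Continuous fun x => min 1 (d / u x ^ 3) :=
    continuous_const.min (continuous_const.div (cu.pow 3) fun x => (pow_pos (hu x) 3).ne')
  have hm0 : ∀ x, 0 ≤ min 1 (d / u x ^ 3) := fun x =>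
    le_min zero_le_one (div_nonneg hd.le (pow_pos (hu x) 3).le)
  have ii : Integrable (fun x => C.G u u x * min 1 (d / u x ^ 3)) μ := integrable_cont (cG.mul cm)
  have iG : Integrable (C.G u u) μ := integrable_cont cG
  set s : Set X := {x | u x ≤ b} with hs
  have ms : MeasurableSet s := (isClosed_le cu continuous_const).measurableSet
  have h1 := sub_trunc (μ := μ) su sg hd hd8 hu hu2 hlow hL hb0 s ms (fun x hx => hx)
  have h2 := sub_energy (μ := μ) su sg hd hd8 hu hu2 hlow hL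
  have h3 : ∫ x in s, C.G u u x * min 1 (d / u x ^ 3) ∂μ ≤ ∫ x in s, C.G u u x ∂μ := by
    refine setIntegral_mono_on ii.integrableOn iG.integrableOn ms fun x hx => ?_
    exact mul_le_of_le_one_right (G_self_nonneg u x) (min_le_left _ _)
  have h4 : ∫ x in sᶜ, C.G u u x * min 1 (d / u x ^ 3) ∂μ ≤ ∫ x in sᶜ, b * C.G u u x ∂μ := by
    refine setIntegral_mono_on ii.integrableOn (iG.const_mul b).integrableOn ms.compl
      fun x hx => ?_
    have hx' : b < u x := by
      have : ¬ (u x ≤ b) := hx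
      exact not_le.1 this
    have h5 : min 1 (d / u x ^ 3) ≤ b := by
      refine (min_le_right _ _).trans ?_
      rw [div_le_iff₀ (pow_pos (hu x) 3)]
      have h6 : b ^ 3 ≤ u x ^ 3 := pow_le_pow_left₀ hb0.le hx'.le 3
      calc d = b * b ^ 3 := by rw [← hb4]; ring
        _ ≤ b * u x ^ 3 := mul_le_mul_of_nonneg_left h6 hb0.le
    calc C.G u u x * min 1 (d / u x ^ 3) ≤ C.G u u x * b :=
          mul_le_mul_of_nonneg_left h5 (G_self_nonneg u x)
      _ = b * C.G u u x := by ring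
  have h5 : ∫ x in sᶜ, b * C.G u u x ∂μ ≤ ∫ x, b * C.G u u x ∂μ :=
    setIntegral_le_integral (iG.const_mul b) (Eventually.of_forall fun x =>
      mul_nonneg hb0.le (G_self_nonneg u x))
  have h8 : ∫ x, b * C.G u u x ∂μ = b * ∫ x, C.G u u x ∂μ := integral_const_mul _ _
  rw [h8] at h5
  rw [← integral_add_compl ms ii]
  have h6 : 0 ≤ ∫ x, (7 + |g x|) ∂μ := integral_nonneg fun x => by positivity
  have h7 : b * ∫ x, C.G u u x ∂μ ≤ b * (4 * ∫ x, (7 + |g x|) ∂μ) :=
    mul_le_mul_of_nonneg_left h2 hb0.le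
  nlinarith

/-- the modulus -/
def eta (d : ℝ) : ℝ := 24 * d ^ (1 / 4 : ℝ)

theorem tendsto_eta : Tendsto eta (𝓝[>] 0) (𝓝 0) := by
  have h1 : ContinuousAt (fun d : ℝ => 24 * d ^ (1 / 4 : ℝ)) 0 :=
    continuousAt_const.mul (Real.continuousAt_rpow_const 0 (1 / 4) (Or.inr (by norm_num)))
  have h2 := h1.tendsto
  rw [Real.zero_rpow (by norm_num), mul_zero] at h2
  exact h2.mono_left nhdsWithin_le_nhds

theorem eta_pos {d : ℝ} (hd : 0 < d) : 0 < eta d := by unfold eta; positivity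

/-- **the remainder of a pair of subsolutions**. -/
theorem int_Rem_le {u v g h : X → ℝ} (su : C.Sm u) (sv : C.Sm v) (sg : Continuous g)
    (sh : Continuous h) {d : ℝ} (hd : 0 < d) (hd8 : d ≤ 1 / 8)
    (hu : ∀ x, 0 < u x) (hu2 : ∀ x, u x ≤ 13 / 10) (hul : ∀ x, d / 2 ≤ u x ^ 3)
    (hv : ∀ x, 0 < v x) (hv2 : ∀ x, v x ≤ 13 / 10) (hvl : ∀ x, d / 2 ≤ v x ^ 3)
    (hLu : ∀ x, fd d (u x) - |g x| ≤ C.L u x) (hLv : ∀ x, fd d (v x) - |h x| ≤ C.L v x) :
    ∫ x, Rem d (u x) (v x) (C.G u u x) (C.G v v x) ∂μ ≤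
      eta d * ∫ x, (7 + |g x| + |h x|) ∂μ := by
  have a1 := sub_weight (μ := μ) su sg hd hd8 hu hu2 hul hLu
  have a2 := sub_weight (μ := μ) sv sh hd hd8 hv hv2 hvl hLv
  have a3 := sub_energy (μ := μ) su sg hd hd8 hu hu2 hul hLu
  have a4 := sub_energy (μ := μ) sv sh hd hd8 hv hv2 hvl hLv
  have cu : Continuous u := C.sm_cont su
  have cv : Continuous v := C.sm_cont sv
  have cG : Continuous (C.G u u) := C.sm_cont (C.sm_G su su)
  have cH : Continuous (C.G v v) := C.sm_cont (C.sm_G sv sv)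
  have cm : Continuous fun x => min 1 (d / u x ^ 3) :=
    continuous_const.min (continuous_const.div (cu.pow 3) fun x => (pow_pos (hu x) 3).ne')
  have cn : Continuous fun x => min 1 (d / v x ^ 3) :=
    continuous_const.min (continuous_const.div (cv.pow 3) fun x => (pow_pos (hv x) 3).ne')
  have iG : Integrable (C.G u u) μ := integrable_cont cG
  have iH : Integrable (C.G v v) μ := integrable_cont cH
  have i1 : Integrable (fun x => d ^ (1 / 3 : ℝ) * (1 + C.G u u x + C.G v v x)) μ :=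
    integrable_cont (continuous_const.mul ((continuous_const.add cG).add cH))
  have i2 : Integrable (fun x => C.G u u x * min 1 (d / u x ^ 3)) μ := integrable_cont (cG.mul cm)
  have i3 : Integrable (fun x => C.G v v x * min 1 (d / v x ^ 3)) μ := integrable_cont (cH.mul cn)
  have ig : Integrable (fun x => 7 + |g x|) μ := integrable_cont (continuous_const.add sg.abs)
  have ih : Integrable (fun x => 7 + |h x|) μ := integrable_cont (continuous_const.add sh.abs)
  have igh : Integrable (fun x => 7 + |g x| + |h x|) μ :=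
    integrable_cont ((continuous_const.add sg.abs).add sh.abs)
  set A := ∫ x, (7 + |g x| + |h x|) ∂μ with hA
  have b1 : ∫ x, (7 + |g x|) ∂μ ≤ A :=
    integral_mono ig igh fun x => by have := abs_nonneg (h x); simp only; linarith
  have b2 : ∫ x, (7 + |h x|) ∂μ ≤ A :=
    integral_mono ih igh fun x => by have := abs_nonneg (g x); simp only; linarith
  have b3 : ∫ x, (7:ℝ) ∂μ ≤ A :=
    integral_mono (integrable_const _) igh fun x => by
      have := abs_nonneg (g x); have := abs_nonneg (h x); simp only; linarith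
  have A0 : 0 ≤ A := integral_nonneg fun x => by positivity
  have b4 : ∫ x, (1:ℝ) ∂μ ≤ A / 7 := by
    rw [integral_const, smul_eq_mul] at b3 ⊢
    linarith
  have h1 : ∫ x, Rem d (u x) (v x) (C.G u u x) (C.G v v x) ∂μ =
      d ^ (1 / 3 : ℝ) * (∫ x, (1:ℝ) ∂μ + ∫ x, C.G u u x ∂μ + ∫ x, C.G v v x ∂μ) +
        ∫ x, C.G u u x * min 1 (d / u x ^ 3) ∂μ + ∫ x, C.G v v x * min 1 (d / v x ^ 3) ∂μ := by
    simp only [Rem]
    have j1 : Integrable (fun x => d ^ (1 / 3 : ℝ) * (1 + C.G u u x + C.G v v x) +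
        C.G u u x * min 1 (d / u x ^ 3)) μ := i1.add i2
    rw [integral_add j1 i3, integral_add i1 i2, integral_const_mul]
    have j2 : Integrable (fun x => 1 + C.G u u x) μ := (integrable_const (1:ℝ)).add iG
    rw [integral_add j2 iH, integral_add (integrable_const (1:ℝ)) iG]
  have hr : d ^ (1 / 3 : ℝ) ≤ d ^ (1 / 4 : ℝ) :=
    Real.rpow_le_rpow_of_exponent_ge hd (by linarith) (by norm_num)
  have hr0 : 0 ≤ d ^ (1 / 3 : ℝ) := by positivity
  have hr1 : 0 ≤ d ^ (1 / 4 : ℝ) := by positivity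
  rw [h1]
  have c1 : ∫ x, (1:ℝ) ∂μ + ∫ x, C.G u u x ∂μ + ∫ x, C.G v v x ∂μ ≤ 9 * A := by linarith
  have c0 : 0 ≤ ∫ x, (1:ℝ) ∂μ + ∫ x, C.G u u x ∂μ + ∫ x, C.G v v x ∂μ := by
    have e1 : 0 ≤ ∫ x, (1:ℝ) ∂μ := integral_nonneg fun x => zero_le_one
    have e2 : 0 ≤ ∫ x, C.G u u x ∂μ := integral_nonneg fun x => G_self_nonneg u x
    have e3 : 0 ≤ ∫ x, C.G v v x ∂μ := integral_nonneg fun x => G_self_nonneg v x
    linarith
  have c2 : d ^ (1 / 3 : ℝ) * (∫ x, (1:ℝ) ∂μ + ∫ x, C.G u u x ∂μ + ∫ x, C.G v v x ∂μ) ≤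
      d ^ (1 / 4 : ℝ) * (9 * A) := mul_le_mul hr c1 c0 hr1
  have c3 : 7 * d ^ (1 / 4 : ℝ) * ∫ x, (7 + |g x|) ∂μ ≤ 7 * d ^ (1 / 4 : ℝ) * A :=
    mul_le_mul_of_nonneg_left b1 (by positivity)
  have c4 : 7 * d ^ (1 / 4 : ℝ) * ∫ x, (7 + |h x|) ∂μ ≤ 7 * d ^ (1 / 4 : ℝ) * A :=
    mul_le_mul_of_nonneg_left b2 (by positivity)
  have c5 : 0 ≤ d ^ (1 / 4 : ℝ) * A := mul_nonneg hr1 A0
  unfold eta
  nlinarith

section Pen

variable {d K e ε : ℝ} {φ₀ ψ₀ : X → ℝ}

/-- **the remainder of a penalised pair** is small with `d`, uniformly in the other parameters. -/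
theorem PenSol_int_Rem_le (S : PenSol C φ₀ ψ₀ d K e ε) (D : Dat C d φ₀ ψ₀) (hd : 0 < d)
    (hd8 : d ≤ 1 / 8) (he : 0 < e) (he1 : e ≤ 1 / 320) (hKe : K * e ≤ 1) (hε : ε ≤ 1) :
    ∫ x, Rem d (S.φ x) (S.ψ x) (C.G S.φ S.φ x) (C.G S.ψ S.ψ x) ∂μ ≤
      eta d * (11 * μ.real univ + 2) := by
  have h1 := int_Rem_le (μ := μ) S.sφ S.sψ (C.sm_cont S.sg₁) (C.sm_cont S.sg₂) hd hd8
    (S.φpos D) (S.φu D he he1) (S.φlow D) (S.ψpos D) (S.ψu D he he1) (S.ψlow D)
    (fun x => by
      have := S.eqφ x; have := S.m₁nn x; have := neg_abs_le (S.g₁ x); linarith)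
    (fun x => by
      have := S.eqψ x; have := S.m₂nn x; have := neg_abs_le (S.g₂ x); linarith)
  refine h1.trans (mul_le_mul_of_nonneg_left ?_ (eta_pos hd).le)
  have k1 : ∀ r : ℝ, |r| ≤ 1 + r ^ 4 := by
    intro r
    have h2 : r ^ 4 = |r| ^ 4 := by rw [← abs_pow, abs_of_nonneg (by positivity)]
    rw [h2]
    have h3 := abs_nonneg r
    nlinarith [sq_nonneg (|r| ^ 2 - 1 / 2), sq_nonneg (|r| - 1)]
  have i1 : Integrable (fun x => S.r₁ x ^ 4) μ := integrable_sm (sm_pow S.sr₁ 4)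
  have i2 : Integrable (fun x => S.r₂ x ^ 4) μ := integrable_sm (sm_pow S.sr₂ 4)
  have i3 : Integrable (fun x => 7 + |S.g₁ x| + |S.g₂ x|) μ :=
    integrable_cont ((continuous_const.add (C.sm_cont S.sg₁).abs).add (C.sm_cont S.sg₂).abs)
  have i4 : Integrable (fun x => 11 + S.r₁ x ^ 4) μ := (integrable_const (11:ℝ)).add i1
  have i5 : Integrable (fun x => 11 + S.r₁ x ^ 4 + S.r₂ x ^ 4) μ := i4.add i2
  calc ∫ x, (7 + |S.g₁ x| + |S.g₂ x|) ∂μ ≤ ∫ x, (11 + S.r₁ x ^ 4 + S.r₂ x ^ 4) ∂μ := by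
        refine integral_mono i3 i5 fun x => ?_
        have a1 := S.g₁le x
        have a2 := S.g₂le x
        have a3 := k1 (S.r₁ x)
        have a4 := k1 (S.r₂ x)
        simp only
        linarith
    _ = 11 * μ.real univ + ∫ x, S.r₁ x ^ 4 ∂μ + ∫ x, S.r₂ x ^ 4 ∂μ := by
        rw [integral_add i4 i2, integral_add (integrable_const (11:ℝ)) i1, integral_const,
          smul_eq_mul, mul_comm]
    _ ≤ 11 * μ.real univ + 2 := by
        have := S.r₁int; have := S.r₂int; linarith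

end Pen

end Crest.Agent.R249.StG_912
end
end

-- ▼ part R249/PenA_255
section

/-!
Row 249, leaf A-PEN (helper255), part A: elliptic regularity with a zero order term.
`ell_reg_zero` : distributional solutions `u ∈ L¹_loc(U)` of `div(A∇u) - w u = f`, `A`, `w`, `f` smooth,
`w > 0`, are smooth.  (Apply `R202.Ell.ell_regularity (n+1)` to `u(x) cos t` and `div(A∇) + w ∂_t²`.)
-/

set_option autoImplicit false

open MeasureTheory Set Filter Topology
open scoped BigOperators ContDiff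
open Crest.GeometryTopology.CoordMetric
open Crest.Agent.R202.Ell

namespace Crest.Agent.R249.PenA_255

noncomputable section

variable {n : ℕ}

local notation "E" => EuclideanSpace ℝ (Fin n)
local notation "E'" => EuclideanSpace ℝ (Fin (n + 1))

/-- the linear identification `ℝ × ℝⁿ = ℝⁿ⁺¹` -/
def kL (n : ℕ) : (ℝ × EuclideanSpace ℝ (Fin n)) ≃ₗ[ℝ] EuclideanSpace ℝ (Fin (n + 1)) where
  toFun p := WithLp.toLp 2 (Fin.cons p.1 p.2.ofLp : Fin (n + 1) → ℝ)
  invFun y := (y 0, WithLp.toLp 2 fun i => y i.succ)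
  map_add' p q := by
    ext i
    refine Fin.cases ?_ (fun j => ?_) i <;> simp
  map_smul' c p := by
    ext i
    refine Fin.cases ?_ (fun j => ?_) i <;> simp
  left_inv p := by
    rcases p with ⟨t, x⟩
    simp
  right_inv y := by
    ext i
    refine Fin.cases ?_ (fun j => ?_) i <;> simp

/-- the continuous linear identification `ℝ × ℝⁿ = ℝⁿ⁺¹` -/
def kE (n : ℕ) : (ℝ × EuclideanSpace ℝ (Fin n)) ≃L[ℝ] EuclideanSpace ℝ (Fin (n + 1)) :=
  (kL n).toContinuousLinearEquiv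

/-- the last `n` coordinates -/
def tl (n : ℕ) : EuclideanSpace ℝ (Fin (n + 1)) →L[ℝ] EuclideanSpace ℝ (Fin n) :=
  (ContinuousLinearMap.snd ℝ ℝ (EuclideanSpace ℝ (Fin n))).comp
    ((kE n).symm : EuclideanSpace ℝ (Fin (n + 1)) →L[ℝ] (ℝ × EuclideanSpace ℝ (Fin n)))

theorem kE_zero (t : ℝ) (x : E) : (kE n (t, x)) 0 = t := rfl

theorem kE_succ (t : ℝ) (x : E) (i : Fin n) : (kE n (t, x)) i.succ = x i := rfl

theorem tl_kE (t : ℝ) (x : E) : tl n (kE n (t, x)) = x := by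
  simp [tl]

theorem kE_eta (y : E') : kE n (y 0, tl n y) = y := by
  have h : (kE n).symm y = (y 0, tl n y) := rfl
  rw [← h, ContinuousLinearEquiv.apply_symm_apply]

theorem kE_single_zero : kE n ((1 : ℝ), (0 : E)) = EuclideanSpace.single 0 1 := by
  ext i
  refine Fin.cases ?_ (fun j => ?_) i
  · rw [kE_zero]; simp
  · rw [kE_succ]; simp [Fin.succ_ne_zero]

theorem kE_single_succ (i : Fin n) :
    kE n ((0 : ℝ), (EuclideanSpace.single i (1 : ℝ) : E)) = EuclideanSpace.single i.succ 1 := by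
  ext j
  refine Fin.cases ?_ (fun j => ?_) j
  · rw [kE_zero]; simp [(Fin.succ_ne_zero i).symm]
  · rw [kE_succ]
    by_cases h : j = i
    · subst h; simp
    · have h' : j.succ ≠ i.succ := fun e => h (Fin.succ_injective _ e)
      simp [h, h']

theorem measurePreserving_kE :
    MeasurePreserving (kE n) (volume : Measure (ℝ × EuclideanSpace ℝ (Fin n))) volume := by
  have h1 : MeasurePreserving (fun p : ℝ × E => (p.1, p.2.ofLp)) volume volume :=
    (MeasurePreserving.id volume).prod (PiLp.volume_preserving_ofLp (Fin n))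
  have h2 := (volume_preserving_piFinSuccAbove (fun _ : Fin (n + 1) => ℝ) 0).symm
  have h3 := (PiLp.volume_preserving_toLp (Fin (n + 1)))
  have h4 := h3.comp (h2.comp h1)
  have e : (kE n : ℝ × E → E') = (WithLp.toLp 2) ∘ (MeasurableEquiv.piFinSuccAbove
      (fun _ : Fin (n + 1) => ℝ) 0).symm ∘ fun p : ℝ × E => (p.1, p.2.ofLp) := by
    funext p
    ext i
    refine Fin.cases ?_ (fun j => ?_) i
    · simp only [Function.comp, MeasurableEquiv.piFinSuccAbove_symm_apply, Fin.insertNthEquiv_zero]; rfl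
    · simp only [Function.comp, MeasurableEquiv.piFinSuccAbove_symm_apply, Fin.insertNthEquiv_zero]; rfl
  rw [e]
  exact h4

theorem measurableEmbedding_kE : MeasurableEmbedding (kE n) :=
  (kE n).toHomeomorph.measurableEmbedding

theorem integral_kE (G : E' → ℝ) : ∫ y, G y = ∫ p : ℝ × E, G (kE n p) :=
  (measurePreserving_kE.integral_comp measurableEmbedding_kE G).symm

/-! ### derivatives -/

theorem hasFDerivAt_line (t : ℝ) (x : E) :
    HasFDerivAt (fun s : ℝ => kE n (s, x))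
      (((kE n : (ℝ × E) →L[ℝ] E')).comp (ContinuousLinearMap.inl ℝ ℝ E)) t := by
  exact (kE n : (ℝ × E) →L[ℝ] E').hasFDerivAt.comp t (hasFDerivAt_prodMk_left t x)

theorem hasFDerivAt_slice (t : ℝ) (x : E) :
    HasFDerivAt (fun z : E => kE n (t, z))
      (((kE n : (ℝ × E) →L[ℝ] E')).comp (ContinuousLinearMap.inr ℝ ℝ E)) x := by
  exact (kE n : (ℝ × E) →L[ℝ] E').hasFDerivAt.comp x (hasFDerivAt_prodMk_right t x)

theorem hasDerivAt_line {G : E' → ℝ} {t : ℝ} {x : E}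
    (hG : DifferentiableAt ℝ G (kE n (t, x))) :
    HasDerivAt (fun s : ℝ => G (kE n (s, x))) (pderiv 0 G (kE n (t, x))) t := by
  have h := (hG.hasFDerivAt.comp t (hasFDerivAt_line t x)).hasDerivAt
  have e : (((fderiv ℝ G (kE n (t, x))).comp
      (((kE n : (ℝ × E) →L[ℝ] E')).comp (ContinuousLinearMap.inl ℝ ℝ E))) (1 : ℝ))
      = pderiv 0 G (kE n (t, x)) := by
    simp only [ContinuousLinearMap.comp_apply, ContinuousLinearMap.inl_apply, pderiv]
    rw [← kE_single_zero]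
    rfl
  rw [e] at h
  exact h

theorem pderiv_slice {G : E' → ℝ} {t : ℝ} {x : E} (i : Fin n)
    (hG : DifferentiableAt ℝ G (kE n (t, x))) :
    pderiv i (fun z : E => G (kE n (t, z))) x = pderiv i.succ G (kE n (t, x)) := by
  have h := (hG.hasFDerivAt.comp x (hasFDerivAt_slice t x)).fderiv
  unfold pderiv
  have e : (fun z : E => G (kE n (t, z))) = G ∘ fun z : E => kE n (t, z) := rfl
  rw [e, h]
  simp only [ContinuousLinearMap.comp_apply, ContinuousLinearMap.inr_apply]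
  rw [← kE_single_succ]
  rfl

/-- the matrix `diag(w, A)` -/
def ext (A : E → Matrix (Fin n) (Fin n) ℝ) (w : E → ℝ) (y : E') :
    Matrix (Fin (n + 1)) (Fin (n + 1)) ℝ :=
  Matrix.of (Fin.cons (Fin.cons (w (tl n y)) fun _ => 0)
    fun i => Fin.cons 0 fun j => A (tl n y) i j)

variable {A : EuclideanSpace ℝ (Fin n) → Matrix (Fin n) (Fin n) ℝ}
  {w f u : EuclideanSpace ℝ (Fin n) → ℝ} {U : Set (EuclideanSpace ℝ (Fin n))}

theorem ext_zero_zero (y : E') : ext A w y 0 0 = w (tl n y) := rfl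
theorem ext_zero_succ (y : E') (j : Fin n) : ext A w y 0 j.succ = 0 := rfl
theorem ext_succ_zero (y : E') (i : Fin n) : ext A w y i.succ 0 = 0 := rfl
theorem ext_succ_succ (y : E') (i j : Fin n) : ext A w y i.succ j.succ = A (tl n y) i j := rfl

theorem posDef_ext {y : E'} (hA : (A (tl n y)).PosDef) (hw : 0 < w (tl n y)) :
    (ext A w y).PosDef := by
  refine Matrix.PosDef.of_dotProduct_mulVec_pos ?_ ?_
  · ext i j
    refine Fin.cases ?_ (fun i => ?_) i <;> refine Fin.cases ?_ (fun j => ?_) j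
    · simp [ext_zero_zero]
    · simp [ext_zero_succ, ext_succ_zero]
    · simp [ext_zero_succ, ext_succ_zero]
    · simp only [Matrix.conjTranspose_apply, ext_succ_succ]
      exact hA.1.apply i j
  · intro v hv
    have h0 : star v ⬝ᵥ (ext A w y).mulVec v =
        w (tl n y) * v 0 ^ 2 + (star (fun i : Fin n => v i.succ)) ⬝ᵥ
          (A (tl n y)).mulVec (fun i : Fin n => v i.succ) := by
      simp only [dotProduct, Matrix.mulVec, Fin.sum_univ_succ, Pi.star_apply, star_trivial,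
        ext_zero_zero, ext_zero_succ, ext_succ_zero, ext_succ_succ]
      simp
      ring
    rw [h0]
    by_cases hs : (fun i : Fin n => v i.succ) = 0
    · have hv0 : v 0 ≠ 0 := by
        intro h
        apply hv
        funext i
        refine Fin.cases h (fun j => ?_) i
        exact congrFun hs j
      rw [hs]
      have : 0 < w (tl n y) * v 0 ^ 2 := by positivity
      simpa using this
    · have h1 := hA.dotProduct_mulVec_pos hs
      have : 0 ≤ w (tl n y) * v 0 ^ 2 := by positivity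
      linarith

theorem contDiffAt_entry (hU : IsOpen U) (hA : ∀ i j, ContDiffOn ℝ ∞ (fun x => A x i j) U)
    (i j : Fin n) {y : E'} (hy : tl n y ∈ U) : ContDiffAt ℝ ∞ (fun z => A (tl n z) i j) y :=
  ((hA i j).contDiffAt (hU.mem_nhds hy)).comp y (tl n).contDiff.contDiffAt

theorem contDiffAt_comp_tl (hU : IsOpen U) (hw : ContDiffOn ℝ ∞ w U) {y : E'} (hy : tl n y ∈ U) :
    ContDiffAt ℝ ∞ (fun z => w (tl n z)) y :=
  (hw.contDiffAt (hU.mem_nhds hy)).comp y (tl n).contDiff.contDiffAt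

theorem contDiffAt_pderiv {m : ℕ} {k : WithTop ℕ∞} (j : Fin m) {G : EuclideanSpace ℝ (Fin m) → ℝ}
    {y : EuclideanSpace ℝ (Fin m)} (hG : ContDiffAt ℝ (k + 1) G y) :
    ContDiffAt ℝ k (pderiv j G) y :=
  (hG.fderiv_right (m := k) le_rfl).clm_apply contDiffAt_const

/-- `div(diag(w,A) ∇G) = w ∂_t² G + div(A ∇ G(t,·))` -/
theorem divA_ext (hU : IsOpen U) (hA : ∀ i j, ContDiffOn ℝ ∞ (fun x => A x i j) U)
    (hw : ContDiffOn ℝ ∞ w U) {G : E' → ℝ} {t : ℝ} {x : E} (hx : x ∈ U)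
    (hG : ContDiffAt ℝ 2 G (kE n (t, x))) :
    divA (ext A w) G (kE n (t, x)) = w x * pderiv 0 (pderiv 0 G) (kE n (t, x)) +
      divA A (fun z => G (kE n (t, z))) x := by
  have htl : tl n (kE n (t, x)) = x := tl_kE t x
  have hyU : tl n (kE n (t, x)) ∈ U := by rw [htl]; exact hx
  have hp : ∀ j, ContDiffAt ℝ 1 (pderiv j G) (kE n (t, x)) := fun j => contDiffAt_pderiv j hG
  have hpd : ∀ j, DifferentiableAt ℝ (pderiv j G) (kE n (t, x)) := fun j =>
    (hp j).differentiableAt (by norm_num)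
  have hwd : DifferentiableAt ℝ (fun z => w (tl n z)) (kE n (t, x)) :=
    (contDiffAt_comp_tl hU hw hyU).differentiableAt (by simp)
  have hAd : ∀ i j, DifferentiableAt ℝ (fun z => A (tl n z) i j) (kE n (t, x)) := fun i j =>
    (contDiffAt_entry hU hA i j hyU).differentiableAt (by simp)
  unfold divA
  rw [Fin.sum_univ_succ]
  congr 1
  · -- time part
    have e1 : (fun y : E' => ∑ j, ext A w y 0 j * pderiv j G y) =
        fun y => w (tl n y) * pderiv 0 G y := by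
      funext y
      rw [Fin.sum_univ_succ]
      simp [ext_zero_zero, ext_zero_succ]
    rw [e1]
    have h1 := hasDerivAt_line (hwd.mul (hpd 0))
    have h2 := (hasDerivAt_line (hpd 0)).const_mul (w x)
    have e2 : (fun s : ℝ => ((fun z => w (tl n z)) * pderiv 0 G) (kE n (s, x))) =
        fun s => w x * pderiv 0 G (kE n (s, x)) := by
      funext s
      simp only [Pi.mul_apply, tl_kE]
    rw [e2] at h1
    exact h1.unique h2
  · refine Finset.sum_congr rfl fun i _ => ?_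
    have e1 : (fun y : E' => ∑ j, ext A w y i.succ j * pderiv j G y) =
        fun y => ∑ j : Fin n, A (tl n y) i j * pderiv j.succ G y := by
      funext y
      rw [Fin.sum_univ_succ]
      simp [ext_succ_zero, ext_succ_succ]
    rw [e1]
    have hd : DifferentiableAt ℝ (fun y => ∑ j : Fin n, A (tl n y) i j * pderiv j.succ G y)
        (kE n (t, x)) :=
      DifferentiableAt.fun_sum fun j _ => (hAd i j).mul (hpd j.succ)
    rw [← pderiv_slice i hd]
    have hev : ∀ᶠ z in 𝓝 x, DifferentiableAt ℝ G (kE n (t, z)) := by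
      have h1 : ∀ᶠ y in 𝓝 (kE n (t, x)), DifferentiableAt ℝ G y := by
        filter_upwards [hG.eventually (by simp)] with y hy using hy.differentiableAt (by norm_num)
      exact ((kE n).continuous.comp (continuous_const.prodMk continuous_id)).continuousAt.eventually h1
    have he : (fun z : E => ∑ j : Fin n, A (tl n (kE n (t, z))) i j *
        pderiv j.succ G (kE n (t, z))) =ᶠ[𝓝 x]
        fun z => ∑ j : Fin n, A z i j * pderiv j (fun z' => G (kE n (t, z'))) z := by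
      filter_upwards [hev] with z hz
      refine Finset.sum_congr rfl fun j _ => ?_
      rw [tl_kE, pderiv_slice j hz]
    unfold pderiv at he ⊢
    rw [he.fderiv_eq]

/-! ### integrability -/

theorem integrable_mul_of_locOn {m : ℕ} {V : Set (EuclideanSpace ℝ (Fin m))}
    {v G : EuclideanSpace ℝ (Fin m) → ℝ} (hv : LocallyIntegrableOn v V) (hG : Continuous G)
    (hc : HasCompactSupport G) (hs : tsupport G ⊆ V) : Integrable fun x => v x * G x := by
  have hI : Integrable ((tsupport G).indicator v) := by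
    rw [integrable_indicator_iff (isClosed_tsupport G).measurableSet]
    exact hv.integrableOn_compact_subset hs hc.isCompact
  obtain ⟨C, hC⟩ := hc.exists_bound_of_continuous hG
  refine (hI.mul_bdd hG.aestronglyMeasurable (Eventually.of_forall hC)).congr
    (Eventually.of_forall fun x => ?_)
  by_cases hx : x ∈ tsupport G
  · simp only [Set.indicator_of_mem hx]
  · simp only [Set.indicator_of_notMem hx, image_eq_zero_of_notMem_tsupport hx, mul_zero]

/-- `u(x) cos t` -/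
def uc (u : EuclideanSpace ℝ (Fin n) → ℝ) (y : EuclideanSpace ℝ (Fin (n + 1))) : ℝ :=
  Real.cos (y 0) * u (tl n y)

theorem uc_kE (t : ℝ) (x : E) : uc u (kE n (t, x)) = Real.cos t * u x := by
  rw [uc, kE_zero, tl_kE]

/-- the cylinder over `U` -/
def Uc (U : Set (EuclideanSpace ℝ (Fin n))) : Set (EuclideanSpace ℝ (Fin (n + 1))) :=
  (tl n) ⁻¹' U

theorem isOpen_Uc (hU : IsOpen U) : IsOpen (Uc U) := hU.preimage (tl n).continuous

theorem mem_Uc {t : ℝ} {x : E} : kE n (t, x) ∈ Uc U ↔ x ∈ U := by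
  rw [Uc, mem_preimage, tl_kE]

theorem locallyIntegrableOn_uc (hU : IsOpen U) (hu : LocallyIntegrableOn u U) :
    LocallyIntegrableOn (uc u) (Uc U) := by
  intro y hy
  have hx : tl n y ∈ U := hy
  obtain ⟨S, hS, hSi⟩ := hu (tl n y) hx
  rw [hU.nhdsWithin_eq hx] at hS
  set I : Set ℝ := Icc (y 0 - 1) (y 0 + 1) with hI
  refine ⟨kE n '' (I ×ˢ S), ?_, ?_⟩
  · refine mem_nhdsWithin_of_mem_nhds ?_
    have h1 : I ×ˢ S ∈ 𝓝 ((y 0, tl n y) : ℝ × E) :=
      prod_mem_nhds (Icc_mem_nhds (by linarith) (by linarith)) hS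
    have h2 := (kE n).toHomeomorph.isOpenMap.image_mem_nhds h1
    have h3 : (kE n).toHomeomorph (y 0, tl n y) = y := kE_eta y
    rw [h3] at h2
    exact h2
  · rw [measurePreserving_kE.integrableOn_image measurableEmbedding_kE]
    have e : uc u ∘ kE n = fun p : ℝ × E => Real.cos p.1 * u p.2 := by
      funext p
      exact uc_kE p.1 p.2
    rw [e]
    have h1 : Integrable (fun t : ℝ => Real.cos t) (volume.restrict I) :=
      (Real.continuous_cos.continuousOn).integrableOn_Icc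
    have h2 : Integrable u (volume.restrict S) := hSi
    have h3 := Integrable.mul_prod h1 h2
    rw [Measure.prod_restrict] at h3
    exact h3

/-! ### test functions on the cylinder -/

section Test

variable {φ : EuclideanSpace ℝ (Fin (n + 1)) → ℝ}

theorem contDiff_slice (hφ : ContDiff ℝ ∞ φ) (t : ℝ) : ContDiff ℝ ∞ fun x : E => φ (kE n (t, x)) :=
  hφ.comp ((kE n).contDiff.comp (contDiff_const.prodMk contDiff_id))

theorem contDiff_line (hφ : ContDiff ℝ ∞ φ) (x : E) : ContDiff ℝ ∞ fun t : ℝ => φ (kE n (t, x)) :=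
  hφ.comp ((kE n).contDiff.comp (contDiff_id.prodMk contDiff_const))

theorem tsupport_slice (t : ℝ) :
    tsupport (fun x : E => φ (kE n (t, x))) ⊆ (fun x : E => kE n (t, x)) ⁻¹' tsupport φ := by
  refine closure_minimal (fun x hx => subset_tsupport φ hx) ?_
  exact (isClosed_tsupport φ).preimage
    ((kE n).continuous.comp (continuous_const.prodMk continuous_id))

theorem tsupport_line (x : E) :
    tsupport (fun t : ℝ => φ (kE n (t, x))) ⊆ (fun t : ℝ => kE n (t, x)) ⁻¹' tsupport φ := by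
  refine closure_minimal (fun t ht => subset_tsupport φ ht) ?_
  exact (isClosed_tsupport φ).preimage
    ((kE n).continuous.comp (continuous_id.prodMk continuous_const))

theorem hasCompactSupport_slice (hc : HasCompactSupport φ) (t : ℝ) :
    HasCompactSupport fun x : E => φ (kE n (t, x)) := by
  have h1 : IsCompact (tl n '' tsupport φ) := hc.isCompact.image (tl n).continuous
  refine h1.of_isClosed_subset (isClosed_tsupport _) fun x hx => ?_
  exact ⟨_, tsupport_slice t hx, tl_kE t x⟩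

theorem hasCompactSupport_line (hc : HasCompactSupport φ) (x : E) :
    HasCompactSupport fun t : ℝ => φ (kE n (t, x)) := by
  have hcont : Continuous fun y : E' => y 0 :=
    (EuclideanSpace.proj (0 : Fin (n + 1)) : E' →L[ℝ] ℝ).continuous
  have h1 : IsCompact ((fun y : E' => y 0) '' tsupport φ) := hc.isCompact.image hcont
  refine h1.of_isClosed_subset (isClosed_tsupport _) fun t ht => ?_
  exact ⟨_, tsupport_line x ht, kE_zero t x⟩

theorem integral_line_zero (hφ : ContDiff ℝ ∞ φ) (hc : HasCompactSupport φ) (x : E) :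
    ∫ t : ℝ, Real.cos t * (pderiv 0 (pderiv 0 φ) (kE n (t, x)) + φ (kE n (t, x))) = 0 := by
  have hp : ContDiff ℝ ∞ (pderiv 0 φ) := contDiff_pderiv hφ 0
  have hpp : ContDiff ℝ ∞ (pderiv 0 (pderiv 0 φ)) := contDiff_pderiv hp 0
  have d1 : ∀ t : ℝ, HasDerivAt (fun s => φ (kE n (s, x))) (pderiv 0 φ (kE n (t, x))) t := fun t =>
    hasDerivAt_line ((hφ.differentiable (by simp)) _)
  have d2 : ∀ t : ℝ, HasDerivAt (fun s => pderiv 0 φ (kE n (s, x)))
      (pderiv 0 (pderiv 0 φ) (kE n (t, x))) t := fun t =>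
    hasDerivAt_line ((hp.differentiable (by simp)) _)
  have c1 := hasCompactSupport_line hc x
  have c2 := hasCompactSupport_line (hasCompactSupport_pderiv hc 0) x
  have c3 := hasCompactSupport_line (hasCompactSupport_pderiv (hasCompactSupport_pderiv hc 0) 0) x
  have k1 := (contDiff_line hφ x).continuous
  have k2 := (contDiff_line hp x).continuous
  have k3 := (contDiff_line hpp x).continuous
  refine integral_eq_zero_of_hasDerivAt_of_integrable
    (f := fun t => Real.cos t * pderiv 0 φ (kE n (t, x)) + Real.sin t * φ (kE n (t, x))) ?_ ?_ ?_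
  · intro t
    have h := ((Real.hasDerivAt_cos t).mul (d2 t)).add ((Real.hasDerivAt_sin t).mul (d1 t))
    convert h using 1
    · rfl
    · ring
  · have e : (fun t : ℝ => Real.cos t * (pderiv 0 (pderiv 0 φ) (kE n (t, x)) + φ (kE n (t, x)))) =
        fun t => Real.cos t * pderiv 0 (pderiv 0 φ) (kE n (t, x)) +
          Real.cos t * φ (kE n (t, x)) := by
      funext t; ring
    rw [e]
    exact ((Real.continuous_cos.mul k3).integrable_of_hasCompactSupport c3.mul_left).add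
      ((Real.continuous_cos.mul k1).integrable_of_hasCompactSupport c1.mul_left)
  · exact ((Real.continuous_cos.mul k2).integrable_of_hasCompactSupport c2.mul_left).add
      ((Real.continuous_sin.mul k1).integrable_of_hasCompactSupport c1.mul_left)

end Test

theorem contDiff_of_tsupport {m : ℕ} {V : Set (EuclideanSpace ℝ (Fin m))} (hV : IsOpen V)
    {G : EuclideanSpace ℝ (Fin m) → ℝ} (hG : ContDiffOn ℝ ∞ G V) (hs : tsupport G ⊆ V) :
    ContDiff ℝ ∞ G := by
  rw [contDiff_iff_contDiffAt]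
  intro x
  by_cases hx : x ∈ V
  · exact hG.contDiffAt (hV.mem_nhds hx)
  · have hx' : x ∉ tsupport G := fun h => hx (hs h)
    have : G =ᶠ[nhds x] fun _ => 0 := by
      filter_upwards [(isClosed_tsupport G).isOpen_compl.mem_nhds hx'] with y hy
      exact image_eq_zero_of_notMem_tsupport hy
    exact contDiffAt_const.congr_of_eventuallyEq this

theorem contDiffOn_divA {m : ℕ} {V : Set (EuclideanSpace ℝ (Fin m))} (hV : IsOpen V)
    {B : EuclideanSpace ℝ (Fin m) → Matrix (Fin m) (Fin m) ℝ}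
    (hB : ∀ i j, ContDiffOn ℝ ∞ (fun x => B x i j) V) {G : EuclideanSpace ℝ (Fin m) → ℝ}
    (hG : ContDiffOn ℝ ∞ G V) : ContDiffOn ℝ ∞ (divA B G) V := by
  unfold divA
  refine ContDiffOn.sum fun i _ => ?_
  refine contDiffOn_pd hV ?_ i
  exact ContDiffOn.sum fun j _ => (hB i j).mul (contDiffOn_pd hV hG j)

theorem contDiffOn_ext (hU : IsOpen U) (hA : ∀ i j, ContDiffOn ℝ ∞ (fun x => A x i j) U)
    (hw : ContDiffOn ℝ ∞ w U) (i j : Fin (n + 1)) :
    ContDiffOn ℝ ∞ (fun y => ext A w y i j) (Uc U) := by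
  intro y hy
  refine ContDiffAt.contDiffWithinAt ?_
  refine Fin.cases ?_ (fun i => ?_) i <;> refine Fin.cases ?_ (fun j => ?_) j
  · exact contDiffAt_comp_tl hU hw hy
  · exact contDiffAt_const
  · exact contDiffAt_const
  · exact contDiffAt_entry hU hA i j hy

/-- the equation of `u(x) cos t` on the cylinder -/
theorem weak_uc (hU : IsOpen U) (hA : ∀ i j, ContDiffOn ℝ ∞ (fun x => A x i j) U)
    (hw : ContDiffOn ℝ ∞ w U) (hf : ContDiffOn ℝ ∞ f U) (hu : LocallyIntegrableOn u U)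
    (h : ∀ φ : EuclideanSpace ℝ (Fin n) → ℝ, ContDiff ℝ ∞ φ → HasCompactSupport φ →
      tsupport φ ⊆ U → ∫ x, u x * (divA A φ x - w x * φ x) = ∫ x, f x * φ x)
    {φ : EuclideanSpace ℝ (Fin (n + 1)) → ℝ} (hφ : ContDiff ℝ ∞ φ) (hc : HasCompactSupport φ)
    (hs : tsupport φ ⊆ Uc U) :
    ∫ y, uc u y * divA (ext A w) φ y = ∫ y, uc f y * φ y := by
  have hUc := isOpen_Uc hU
  have hul := locallyIntegrableOn_uc hU hu
  -- the two test functions
  have hpp : ContDiff ℝ ∞ (pderiv 0 (pderiv 0 φ)) := contDiff_pderiv (contDiff_pderiv hφ 0) 0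
  have hppc : HasCompactSupport (pderiv 0 (pderiv 0 φ)) :=
    hasCompactSupport_pderiv (hasCompactSupport_pderiv hc 0) 0
  have hpps : tsupport (pderiv 0 (pderiv 0 φ)) ⊆ tsupport φ :=
    (tsupport_pderiv_subset _ 0).trans (tsupport_pderiv_subset _ 0)
  set W : E' → ℝ := fun y => w (tl n y) with hW
  have hWs : ContDiffOn ℝ ∞ W (Uc U) := fun y hy =>
    (contDiffAt_comp_tl hU hw hy).contDiffWithinAt
  set G2 : E' → ℝ := fun y => (pderiv 0 (pderiv 0 φ) y + φ y) * W y with hG2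
  have hq : ContDiff ℝ ∞ fun y => pderiv 0 (pderiv 0 φ) y + φ y := hpp.add hφ
  have hqs : tsupport (fun y => pderiv 0 (pderiv 0 φ) y + φ y) ⊆ tsupport φ :=
    (tsupport_add _ _).trans (union_subset hpps Subset.rfl)
  have hqc : HasCompactSupport fun y => pderiv 0 (pderiv 0 φ) y + φ y := hppc.add hc
  have hG2s : ContDiff ℝ ∞ G2 := contDiff_mul_of_tsupport hUc hq (hqs.trans hs) hWs
  have hG2c : HasCompactSupport G2 := hqc.mul_right
  have hG2t : tsupport G2 ⊆ Uc U := (tsupport_mul_subset_left.trans hqs).trans hs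
  have hD : ContDiff ℝ ∞ (divA (ext A w) φ) :=
    contDiff_of_tsupport hUc (contDiffOn_divA hUc (contDiffOn_ext hU hA hw) hφ.contDiffOn)
      ((tsupport_divA_subset _ _).trans hs)
  have hDc : HasCompactSupport (divA (ext A w) φ) :=
    hc.isCompact.of_isClosed_subset (isClosed_tsupport _) (tsupport_divA_subset _ _)
  set G1 : E' → ℝ := fun y => divA (ext A w) φ y - G2 y with hG1
  have hG1c : HasCompactSupport G1 := hDc.sub hG2c
  have hG1t : tsupport G1 ⊆ Uc U :=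
    (tsupport_sub _ _).trans (union_subset ((tsupport_divA_subset _ _).trans hs) hG2t)
  have i1 := integrable_mul_of_locOn hul (hD.sub hG2s).continuous hG1c hG1t
  have i2 := integrable_mul_of_locOn hul hG2s.continuous hG2c hG2t
  have e0 : ∫ y, uc u y * divA (ext A w) φ y =
      (∫ y, uc u y * G1 y) + ∫ y, uc u y * G2 y := by
    rw [← integral_add i1 i2]
    refine integral_congr_ae (Eventually.of_forall fun y => ?_)
    simp only [hG1]
    ring
  -- values of G1 on slices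
  have v1 : ∀ (t : ℝ) (x : E), G1 (kE n (t, x)) =
      divA A (fun z => φ (kE n (t, z))) x - w x * φ (kE n (t, x)) := by
    intro t x
    by_cases hx : x ∈ U
    · rw [hG1, hG2]
      simp only
      rw [divA_ext hU hA hw hx (hφ.contDiffAt.of_le (WithTop.coe_le_coe.2 le_top)), hW]
      simp only [tl_kE]
      ring
    · have h1 : kE n (t, x) ∉ tsupport φ := fun h' => hx (mem_Uc.1 (hs h'))
      have h2 : x ∉ tsupport (fun z : E => φ (kE n (t, z))) := fun h' => h1 (tsupport_slice t h')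
      have h3 : φ (kE n (t, x)) = 0 := image_eq_zero_of_notMem_tsupport h1
      have h4 : divA A (fun z => φ (kE n (t, z))) x = 0 :=
        image_eq_zero_of_notMem_tsupport fun h' => h2 (tsupport_divA_subset _ _ h')
      have h5 : G1 (kE n (t, x)) = 0 :=
        image_eq_zero_of_notMem_tsupport fun h' => hx (mem_Uc.1 (hG1t h'))
      rw [h5, h3, h4]
      ring
  have e1 : ∫ y, uc u y * G1 y = ∫ y, uc f y * φ y := by
    rw [integral_kE, integral_kE]
    have j1 : Integrable fun p : ℝ × E => uc u (kE n p) * G1 (kE n p) :=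
      (measurePreserving_kE.integrable_comp_emb measurableEmbedding_kE).2 i1
    have hff : ContDiff ℝ ∞ fun y => φ y * uc f y := by
      refine contDiff_mul_of_tsupport hUc hφ hs ?_
      intro y hy
      refine ContDiffAt.contDiffWithinAt ?_
      unfold uc
      exact ((Real.contDiff_cos.comp
        (EuclideanSpace.proj (0 : Fin (n + 1)) : E' →L[ℝ] ℝ).contDiff).contDiffAt).mul
        (contDiffAt_comp_tl hU hf hy)
    have i3 : Integrable fun y => uc f y * φ y :=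
      (hff.continuous.integrable_of_hasCompactSupport hc.mul_right).congr
        (Eventually.of_forall fun y => mul_comm _ _)
    have j3 : Integrable fun p : ℝ × E => uc f (kE n p) * φ (kE n p) :=
      (measurePreserving_kE.integrable_comp_emb measurableEmbedding_kE).2 i3
    rw [Measure.volume_eq_prod] at j1 j3 ⊢
    rw [integral_prod _ j1, integral_prod _ j3]
    refine integral_congr_ae (Eventually.of_forall fun t => ?_)
    simp only [uc_kE, v1]
    have h1 := h _ (contDiff_slice hφ t) (hasCompactSupport_slice hc t)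
      ((tsupport_slice t).trans fun x hx => mem_Uc.1 (hs hx))
    have e3 : ∀ x : E, Real.cos t * u x *
        (divA A (fun z => φ (kE n (t, z))) x - w x * φ (kE n (t, x))) =
        Real.cos t * (u x * (divA A (fun z => φ (kE n (t, z))) x - w x * φ (kE n (t, x)))) := by
      intro x; ring
    have e4 : ∀ x : E, Real.cos t * f x * φ (kE n (t, x)) =
        Real.cos t * (f x * φ (kE n (t, x))) := by
      intro x; ring
    simp_rw [e3, e4]
    rw [integral_const_mul, integral_const_mul, h1]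
  have e2 : ∫ y, uc u y * G2 y = 0 := by
    rw [integral_kE]
    have j2 : Integrable fun p : ℝ × E => uc u (kE n p) * G2 (kE n p) :=
      (measurePreserving_kE.integrable_comp_emb measurableEmbedding_kE).2 i2
    rw [Measure.volume_eq_prod] at j2 ⊢
    rw [integral_prod_symm _ j2]
    have hz : ∀ x : E, ∫ t : ℝ, uc u (kE n (t, x)) * G2 (kE n (t, x)) = 0 := by
      intro x
      have e3 : ∀ t : ℝ, uc u (kE n (t, x)) * G2 (kE n (t, x)) = (u x * w x) *
          (Real.cos t * (pderiv 0 (pderiv 0 φ) (kE n (t, x)) + φ (kE n (t, x)))) := by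
        intro t
        rw [uc_kE, hG2, hW]
        simp only [tl_kE]
        ring
      simp_rw [e3]
      rw [integral_const_mul, integral_line_zero hφ hc x, mul_zero]
    simp_rw [hz]
    simp
  rw [e0, e1, e2, add_zero]

/-- **Elliptic regularity with a positive zero order term.** -/
theorem ell_reg_zero (hU : IsOpen U) (hA : ∀ i j, ContDiffOn ℝ ∞ (fun x => A x i j) U)
    (hpos : ∀ x ∈ U, (A x).PosDef) (hw : ContDiffOn ℝ ∞ w U) (hw0 : ∀ x ∈ U, 0 < w x)
    (hf : ContDiffOn ℝ ∞ f U) (hu : LocallyIntegrableOn u U)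
    (h : ∀ φ : EuclideanSpace ℝ (Fin n) → ℝ, ContDiff ℝ ∞ φ → HasCompactSupport φ →
      tsupport φ ⊆ U → ∫ x, u x * (divA A φ x - w x * φ x) = ∫ x, f x * φ x) :
    ∃ v : EuclideanSpace ℝ (Fin n) → ℝ, ContDiffOn ℝ ∞ v U ∧ (∀ᵐ x, x ∈ U → v x = u x) ∧
      ∀ x ∈ U, divA A v x - w x * v x = f x := by
  have hUc := isOpen_Uc hU
  have hfc : ContDiffOn ℝ ∞ (uc f) (Uc U) := by
    intro y hy
    refine ContDiffAt.contDiffWithinAt ?_
    unfold uc
    exact ((Real.contDiff_cos.comp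
      (EuclideanSpace.proj (0 : Fin (n + 1)) : E' →L[ℝ] ℝ).contDiff).contDiffAt).mul
      (contDiffAt_comp_tl hU hf hy)
  obtain ⟨V, hV, hVu, hVe⟩ := ell_regularity (n + 1) (Uc U) hUc (ext A w)
    (contDiffOn_ext hU hA hw) (fun y hy => posDef_ext (hpos _ hy) (hw0 _ hy)) (uc f) hfc (uc u)
    (locallyIntegrableOn_uc hU hu) fun φ hφ hc hs => weak_uc hU hA hw hf hu h hφ hc hs
  -- the a.e. identity on `ℝ × ℝⁿ`
  have hae : ∀ᵐ p : ℝ × E, p.2 ∈ U → V (kE n p) = Real.cos p.1 * u p.2 := by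
    have h1 := measurePreserving_kE.quasiMeasurePreserving.ae hVu
    filter_upwards [h1] with p hp hpU
    have h2 : kE n p ∈ Uc U := by
      rcases p with ⟨t, x⟩
      exact mem_Uc.2 hpU
    rw [hp h2]
    exact uc_kE p.1 p.2
  have hae2 : ∀ᵐ t : ℝ, ∀ᵐ x : E, x ∈ U → V (kE n (t, x)) = Real.cos t * u x := by
    rw [Measure.volume_eq_prod] at hae
    exact Measure.ae_ae_of_ae_prod hae
  -- times in the good set, tending to `0`
  obtain ⟨τ, hτ0, hτ⟩ : ∃ τ : ℕ → ℝ, Tendsto τ atTop (𝓝 0) ∧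
      ∀ k, ∀ᵐ x : E, x ∈ U → V (kE n (τ k, x)) = Real.cos (τ k) * u x := by
    have hk : ∀ k : ℕ, ∃ t : ℝ, |t| < 1 / (k + 1) ∧
        ∀ᵐ x : E, x ∈ U → V (kE n (t, x)) = Real.cos t * u x := by
      intro k
      by_contra hcon
      simp only [not_exists, not_and] at hcon
      have h0 : (volume : Measure ℝ) (Ioo (-(1 / ((k : ℝ) + 1))) (1 / ((k : ℝ) + 1))) = 0 := by
        refine measure_mono_null (fun t ht => ?_) (ae_iff.1 hae2)
        exact hcon t (abs_lt.2 ht)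
      rw [Real.volume_Ioo] at h0
      have h2 : (0 : ℝ) < 1 / ((k : ℝ) + 1) := by positivity
      rw [ENNReal.ofReal_eq_zero] at h0
      linarith
    choose τ h1 h2 using hk
    refine ⟨τ, ?_, h2⟩
    refine squeeze_zero_norm (fun k => (h1 k).le) ?_
    exact tendsto_one_div_add_atTop_nhds_zero_nat
  have hVc : ∀ x ∈ U, ContinuousAt (fun t : ℝ => V (kE n (t, x))) 0 := by
    intro x hx
    have h1 : ContinuousAt V (kE n (0, x)) :=
      (hV.contDiffAt (hUc.mem_nhds (mem_Uc.2 hx))).continuousAt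
    exact ContinuousAt.comp (g := V) (f := fun t : ℝ => kE n (t, x)) h1
      ((kE n).continuous.comp (continuous_id.prodMk continuous_const)).continuousAt
  set v : E → ℝ := fun x => V (kE n (0, x)) with hv
  have hvu : ∀ᵐ x, x ∈ U → v x = u x := by
    filter_upwards [ae_all_iff.2 hτ] with x hx hxU
    have h1 : Tendsto (fun k => V (kE n (τ k, x))) atTop (𝓝 (v x)) :=
      (hVc x hxU).tendsto.comp hτ0
    have h2 : Tendsto (fun k => Real.cos (τ k) * u x) atTop (𝓝 (Real.cos 0 * u x)) :=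
      ((Real.continuous_cos.tendsto 0).comp hτ0).mul_const _
    have h3 : (fun k => V (kE n (τ k, x))) = fun k => Real.cos (τ k) * u x := by
      funext k
      exact hx k hxU
    rw [h3] at h1
    have := tendsto_nhds_unique h1 h2
    rw [this, Real.cos_zero, one_mul]
  have hvs : ContDiffOn ℝ ∞ v U := by
    intro x hx
    refine ContDiffAt.contDiffWithinAt ?_
    have h1 : ContDiffAt ℝ ∞ V (kE n (0, x)) := hV.contDiffAt (hUc.mem_nhds (mem_Uc.2 hx))
    exact h1.comp x ((kE n).contDiff.comp (contDiff_const.prodMk contDiff_id)).contDiffAt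
  refine ⟨v, hvs, hvu, ?_⟩
  -- `V = cos t v(x)` everywhere on the cylinder
  have hVv : EqOn V (uc v) (Uc U) := by
    refine Measure.eqOn_open_of_ae_eq (μ := volume) ?_ hUc hV.continuousOn ?_
    · rw [EventuallyEq, ae_restrict_iff' hUc.measurableSet]
      have h1 : ∀ᵐ p : ℝ × E, p.2 ∈ U → v p.2 = u p.2 := by
        rw [Measure.volume_eq_prod]
        exact Measure.quasiMeasurePreserving_snd.ae hvu
      have h2 : ∀ᵐ p : ℝ × E, kE n p ∈ Uc U → V (kE n p) = uc v (kE n p) := by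
        filter_upwards [hae, h1] with p hp hp1 hpU
        rcases p with ⟨t, x⟩
        have hx : x ∈ U := mem_Uc.1 hpU
        rw [hp hx, uc_kE, hp1 hx]
      have h3 := (measurePreserving_kE (n := n)).symm (kE n).toHomeomorph.toMeasurableEquiv
      have h4 := h3.quasiMeasurePreserving.ae h2
      filter_upwards [h4] with y hy
      have e : kE n ((kE n).toHomeomorph.toMeasurableEquiv.symm y) = y :=
        (kE n).apply_symm_apply y
      rw [e] at hy
      exact hy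
    · intro y hy
      refine ContinuousAt.continuousWithinAt ?_
      unfold uc
      exact (((Real.contDiff_cos (n := 0)).comp
        (EuclideanSpace.proj (0 : Fin (n + 1)) : E' →L[ℝ] ℝ).contDiff).continuous.continuousAt).mul
        (contDiffAt_comp_tl hU hvs hy).continuousAt
  intro x hx
  have hy0 : kE n ((0 : ℝ), x) ∈ Uc U := mem_Uc.2 hx
  have h1 := hVe _ hy0
  have h2 : divA (ext A w) V (kE n ((0 : ℝ), x)) = divA (ext A w) (uc v) (kE n ((0 : ℝ), x)) :=
    divA_congr_of_open hUc (fun _ _ _ _ => rfl) (fun y hy => hVv hy) hy0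
  have hucv : ContDiffOn ℝ ∞ (uc v) (Uc U) := by
    intro y hy
    refine ContDiffAt.contDiffWithinAt ?_
    unfold uc
    exact ((Real.contDiff_cos.comp
      (EuclideanSpace.proj (0 : Fin (n + 1)) : E' →L[ℝ] ℝ).contDiff).contDiffAt).mul
      (contDiffAt_comp_tl hU hvs hy)
  have hc2 : ContDiffAt ℝ 2 (uc v) (kE n ((0 : ℝ), x)) :=
    (hucv.contDiffAt (hUc.mem_nhds hy0)).of_le (WithTop.coe_le_coe.2 le_top)
  rw [h2, divA_ext hU hA hw hx hc2, uc_kE, Real.cos_zero, one_mul] at h1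
  -- time derivatives
  have hp1 : ∀ t : ℝ, pderiv 0 (uc v) (kE n (t, x)) = -Real.sin t * v x := by
    intro t
    have hd : DifferentiableAt ℝ (uc v) (kE n (t, x)) :=
      (hucv.contDiffAt (hUc.mem_nhds (mem_Uc.2 hx))).differentiableAt (by simp)
    have k1 := hasDerivAt_line hd
    have k2 : HasDerivAt (fun s : ℝ => uc v (kE n (s, x))) (-Real.sin t * v x) t := by
      have e : (fun s : ℝ => uc v (kE n (s, x))) = fun s => Real.cos s * v x := by
        funext s
        exact uc_kE s x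
      rw [e]
      exact (Real.hasDerivAt_cos t).mul_const _
    exact k1.unique k2
  have hp2 : pderiv 0 (pderiv 0 (uc v)) (kE n ((0 : ℝ), x)) = - v x := by
    have hd : DifferentiableAt ℝ (pderiv 0 (uc v)) (kE n ((0 : ℝ), x)) :=
      (contDiffAt_pderiv (k := 1) 0 hc2).differentiableAt (by norm_num)
    have k1 := hasDerivAt_line hd
    have k2 : HasDerivAt (fun s : ℝ => pderiv 0 (uc v) (kE n (s, x))) (-Real.cos 0 * v x) 0 := by
      have e : (fun s : ℝ => pderiv 0 (uc v) (kE n (s, x))) = fun s => -Real.sin s * v x := by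
        funext s
        exact hp1 s
      rw [e]
      exact ((Real.hasDerivAt_sin 0).neg).mul_const _
    rw [k1.unique k2, Real.cos_zero]
    ring
  have hp3 : (fun z : E => uc v (kE n ((0 : ℝ), z))) = v := by
    funext z
    rw [uc_kE, Real.cos_zero, one_mul]
  rw [hp2, hp3] at h1
  linarith

end

end Crest.Agent.R249.PenA_255
end

-- ▼ part R249/PenB_255
section

/-!
Row 249, leaf A-PEN (helper255), part B: integration by parts on a closed manifold; weak (`L²`)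
solutions of `Δu - cu = g` by duality.
-/

set_option autoImplicit false
set_option maxSynthPendingDepth 3
set_option linter.unusedSectionVars false
set_option linter.unusedVariables false

open Bundle Bornology Set MeasureTheory Manifold Filter Metric
open scoped ENNReal ContDiff Topology NNReal
open Crest.GeometryTopology.CoordMetric Crest.GeometryTopology.ChartCurvature
open Crest.GeometryTopology.Geodesic
open Crest.Agent.R226.ChartMet842

namespace Crest.Agent.R249.PenB_255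

open Crest.Agent.R247 Crest.Agent.R247.Ms322

noncomputable section

/-! ### abstract duality -/

/-- If `|ℓ s| ≤ C ‖T s‖` then `ℓ = ⟪h, T ·⟫`. -/
theorem exists_dual {S H : Type*} [AddCommGroup S] [Module ℝ S] [NormedAddCommGroup H]
    [InnerProductSpace ℝ H] [CompleteSpace H] (T : S →ₗ[ℝ] H) (ℓ : S →ₗ[ℝ] ℝ) (C : ℝ)
    (hC : ∀ s, |ℓ s| ≤ C * ‖T s‖) : ∃ h : H, ∀ s, inner ℝ h (T s) = ℓ s := by
  obtain ⟨σ, hσ⟩ := LinearMap.exists_rightInverse_of_surjective T.rangeRestrict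
    T.range_rangeRestrict
  have hσ' : ∀ y : LinearMap.range T, T (σ y) = y := fun y => by
    have := LinearMap.congr_fun hσ y
    exact congrArg Subtype.val this
  have hk : ∀ s, ℓ (σ (T.rangeRestrict s)) = ℓ s := by
    intro s
    have h1 : T (σ (T.rangeRestrict s) - s) = 0 := by
      rw [map_sub, hσ']
      simp
    have h2 := hC (σ (T.rangeRestrict s) - s)
    rw [h1, norm_zero, mul_zero] at h2
    have h3 : ℓ (σ (T.rangeRestrict s) - s) = 0 := abs_eq_zero.1 (le_antisymm h2 (abs_nonneg _))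
    rw [map_sub] at h3
    linarith
  let p : Submodule ℝ H := LinearMap.range T
  let f : p →L[ℝ] ℝ := (ℓ.comp σ).mkContinuous C fun y => by
    have := hC (σ y)
    rw [hσ' y] at this
    exact this
  obtain ⟨g, hg, -⟩ := exists_extension_norm_eq p f
  refine ⟨(InnerProductSpace.toDual ℝ H).symm g, fun s => ?_⟩
  rw [InnerProductSpace.toDual_symm_apply]
  have := hg (T.rangeRestrict s)
  have e : ((T.rangeRestrict s : p) : H) = T s := rfl
  rw [e] at this
  rw [this]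
  exact hk s

variable {n : ℕ} {M : Type*} [MetricSpace M] [ChartedSpace (EuclideanSpace ℝ (Fin n)) M]
  [IsManifold (𝓡 n) ∞ M]
  [RiemannianBundle (fun p : M => TangentSpace (𝓡 n) p)]
  [IsContMDiffRiemannianBundle (𝓡 n) ∞ (EuclideanSpace ℝ (Fin n)) (fun p : M => TangentSpace (𝓡 n) p)]

local notation "𝔼" => EuclideanSpace ℝ (Fin n)

/-- smooth functions -/
def Sm (n : ℕ) {M : Type*} [TopologicalSpace M] [ChartedSpace (EuclideanSpace ℝ (Fin n)) M]
    (f : M → ℝ) : Prop := ContMDiff (𝓡 n) 𝓘(ℝ, ℝ) ∞ f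

theorem Sm.at {f : M → ℝ} (hf : Sm n f) (z : M) : ContMDiffAt (𝓡 n) 𝓘(ℝ, ℝ) ∞ f z := hf z

theorem Sm.two {f : M → ℝ} (hf : Sm n f) (z : M) : ContMDiffAt (𝓡 n) 𝓘(ℝ, ℝ) 2 f z :=
  (hf z).of_le Bo84.two_le_infty

theorem Sm.continuous {f : M → ℝ} (hf : Sm n f) : Continuous f := ContMDiff.continuous hf

theorem Sm.mLap {f : M → ℝ} (hf : Sm n f) : Sm n (Bo84.mLap n f) := fun z =>
  Bo84.contMDiffAt_mLap (m := ∞) (hf z) (by norm_num) le_rfl

theorem Sm.mGam {f g : M → ℝ} (hf : Sm n f) (hg : Sm n g) : Sm n (Bo84.mGam n f g) := fun z =>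
  Bo84.contMDiffAt_mGam (m := ∞) (hf z) (hg z) (by norm_num) le_rfl

theorem Sm.loclip [IsRiemannianManifold (𝓡 n) M] {f : M → ℝ} (hf : Sm n f) : LocallyLipschitz f :=
  LLo.loc (LLo.of_contMDiffAt fun z _ => (hf z).of_le Bo84.one_le_infty)

section Int

variable [IsRiemannianManifold (𝓡 n) M] [CompactSpace M] [MeasurableSpace M] [BorelSpace M]

variable (n M) in
theorem isFiniteMeasure : IsFiniteMeasure (μHE[n] : Measure M) := by
  have := isLocallyFiniteMeasure n M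
  exact ⟨isCompact_univ.measure_lt_top⟩

theorem integrable_of_continuous {f : M → ℝ} (hf : Continuous f) :
    Integrable f (μHE[n] : Measure M) := by
  have := isLocallyFiniteMeasure n M
  exact hf.integrable_of_hasCompactSupport (HasCompactSupport.of_compactSpace f)

theorem memLp_of_continuous {f : M → ℝ} (hf : Continuous f) (p : ℝ≥0∞) :
    MemLp f p (μHE[n] : Measure M) := by
  have := isLocallyFiniteMeasure n M
  exact hf.memLp_of_hasCompactSupport (HasCompactSupport.of_compactSpace f)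

/-- **Green's formula** on a closed manifold. -/
theorem integral_mGam {f φ : M → ℝ} (hf : ∀ z, ContMDiffAt (𝓡 n) 𝓘(ℝ, ℝ) 2 f z)
    (hφ : LocallyLipschitz φ) :
    ∫ z, Bo84.mGam n f φ z ∂(μHE[n] : Measure M) =
      - ∫ z, φ z * Bo84.mLap n f z ∂(μHE[n] : Measure M) := by
  rcases isEmpty_or_nonempty M with hM | hM
  · have h0 : (μHE[n] : Measure M) = 0 := Measure.eq_zero_of_isEmpty _
    rw [h0]
    simp only [integral_zero_measure, neg_zero]
  · have : SecondCountableTopology M := inferInstance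
    have h := ibp_mLap (n := n) (U := univ) isOpen_univ (fun z _ => hf z) hφ
      (HasCompactSupport.of_compactSpace φ) (subset_univ _)
    rw [← h]
    exact integral_congr_ae (Eventually.of_forall fun z => (inner_Gr_eq_mGam f φ z).symm)

theorem integral_mul_mLap {f φ : M → ℝ} (hf : Sm n f) (hφ : Sm n φ) :
    ∫ z, φ z * Bo84.mLap n f z ∂(μHE[n] : Measure M) =
      - ∫ z, Bo84.mGam n f φ z ∂(μHE[n] : Measure M) := by
  rw [integral_mGam hf.two hφ.loclip, neg_neg]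



/-! ### the weak solution -/

end Int

/-- the space of smooth functions -/
abbrev SmS (n : ℕ) (M : Type*) [TopologicalSpace M] [ChartedSpace (EuclideanSpace ℝ (Fin n)) M] :=
  ContMDiffMap (𝓡 n) 𝓘(ℝ, ℝ) M ℝ ∞

/-- the operator `Δ - c` -/
def LC (n : ℕ) {M : Type*} [TopologicalSpace M] [ChartedSpace (EuclideanSpace ℝ (Fin n)) M]
    [IsManifold (𝓡 n) ∞ M]
    [RiemannianBundle (fun p : M => TangentSpace (𝓡 n) p)]
    [IsContMDiffRiemannianBundle (𝓡 n) ∞ (EuclideanSpace ℝ (Fin n)) (fun p : M => TangentSpace (𝓡 n) p)]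
    (c : ℝ) (φ : M → ℝ) (z : M) : ℝ := Bo84.mLap n φ z - c * φ z

theorem Sm.LC {φ : M → ℝ} (hφ : Sm n φ) (c : ℝ) : Sm n (LC n c φ) :=
  ContMDiff.sub hφ.mLap (contMDiff_const.mul hφ)

theorem LC_add (c : ℝ) {φ ψ : M → ℝ} (hφ : Sm n φ) (hψ : Sm n ψ) (z : M) :
    LC n c (fun y => φ y + ψ y) z = LC n c φ z + LC n c ψ z := by
  unfold LC
  rw [Bo84.mLap_add (hφ.two z) (hψ.two z)]
  ring


theorem LC_smul (c r : ℝ) {φ : M → ℝ} (hφ : Sm n φ) (z : M) :
    LC n c (fun y => r * φ y) z = r * LC n c φ z := by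
  unfold LC
  rw [Bo84.mLap_const_mul r (hφ.two z)]
  ring

section Int

variable [IsRiemannianManifold (𝓡 n) M] [CompactSpace M] [MeasurableSpace M] [BorelSpace M]

theorem memLp_LC (c : ℝ) {φ : M → ℝ} (hφ : Sm n φ) :
    MemLp (LC n c φ) 2 (μHE[n] : Measure M) :=
  memLp_of_continuous (Sm.continuous (Sm.LC (n := n) hφ c)) 2

variable (n M) in
/-- `Δ - c` as a linear map into `L²` -/
def opT (c : ℝ) : SmS n M →ₗ[ℝ] Lp ℝ 2 (μHE[n] : Measure M) where
  toFun φ := (memLp_LC (n := n) c φ.contMDiff).toLp _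
  map_add' φ ψ := by
    rw [← MemLp.toLp_add]
    congr 1
    funext z
    exact LC_add (n := n) c φ.contMDiff ψ.contMDiff z
  map_smul' r φ := by
    rw [RingHom.id_apply, ← MemLp.toLp_const_smul]
    congr 1
    funext z
    exact LC_smul (n := n) c r φ.contMDiff z

variable (n M) in
/-- `φ ↦ ∫ g φ` -/
def opL (g : C(M, ℝ)) : SmS n M →ₗ[ℝ] ℝ where
  toFun φ := ∫ z, g z * φ z ∂(μHE[n] : Measure M)
  map_add' φ ψ := by
    have h1 : Integrable (fun z => g z * φ z) (μHE[n] : Measure M) :=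
      integrable_of_continuous (n := n) (g.continuous.mul φ.contMDiff.continuous)
    have h2 : Integrable (fun z => g z * ψ z) (μHE[n] : Measure M) :=
      integrable_of_continuous (n := n) (g.continuous.mul ψ.contMDiff.continuous)
    have h3 := integral_add h1 h2
    rw [← h3]
    refine integral_congr_ae (Eventually.of_forall fun z => ?_)
    show g z * (φ z + ψ z) = g z * φ z + g z * ψ z
    ring
  map_smul' r φ := by
    have h3 := integral_const_mul (μ := (μHE[n] : Measure M)) r (fun z => g z * φ z)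
    rw [RingHom.id_apply, smul_eq_mul, ← h3]
    refine integral_congr_ae (Eventually.of_forall fun z => ?_)
    show g z * (r * φ z) = r * (g z * φ z)
    ring

theorem inner_toLp {f g : M → ℝ} (hf : MemLp f 2 (μHE[n] : Measure M))
    (hg : MemLp g 2 (μHE[n] : Measure M)) :
    inner ℝ (hf.toLp f) (hg.toLp g) = ∫ z, f z * g z ∂(μHE[n] : Measure M) := by
  rw [L2.inner_def]
  refine integral_congr_ae ?_
  filter_upwards [hf.coeFn_toLp, hg.coeFn_toLp] with z h1 h2
  rw [h1, h2]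
  simp only [RCLike.inner_apply, conj_trivial]
  ring

/-- the a priori estimate `c ‖φ‖ ≤ ‖(Δ - c) φ‖` -/
theorem norm_le_opT {c : ℝ} (hc : 0 < c) (φ : SmS n M) :
    c * ‖(memLp_of_continuous φ.contMDiff.continuous 2 :
      MemLp φ 2 (μHE[n] : Measure M)).toLp φ‖ ≤ ‖opT n M c φ‖ := by
  set F := (memLp_of_continuous φ.contMDiff.continuous 2 :
      MemLp φ 2 (μHE[n] : Measure M)).toLp φ with hF
  have hs : Sm n φ := φ.contMDiff
  have h1 : inner ℝ F (opT n M c φ) = ∫ z, φ z * LC n c φ z ∂(μHE[n] : Measure M) :=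
    inner_toLp _ (memLp_LC c hs)
  have h2 : inner ℝ F F = ∫ z, φ z * φ z ∂(μHE[n] : Measure M) := inner_toLp _ _
  have i1 : Integrable (fun z => φ z * Bo84.mLap n φ z) (μHE[n] : Measure M) :=
    integrable_of_continuous (n := n) (hs.continuous.mul hs.mLap.continuous)
  have i2 : Integrable (fun z => φ z * φ z) (μHE[n] : Measure M) :=
    integrable_of_continuous (n := n) (hs.continuous.mul hs.continuous)
  have h3 : ∫ z, φ z * LC n c φ z ∂(μHE[n] : Measure M) =
      - ∫ z, Bo84.mGam n φ φ z ∂(μHE[n] : Measure M) - c * ∫ z, φ z * φ z ∂(μHE[n] : Measure M) := by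
    rw [← integral_mul_mLap hs hs, ← integral_const_mul, ← integral_sub i1 (i2.const_mul c)]
    refine integral_congr_ae (Eventually.of_forall fun z => ?_)
    simp only [LC]
    ring
  have h4 : 0 ≤ ∫ z, Bo84.mGam n φ φ z ∂(μHE[n] : Measure M) :=
    integral_nonneg fun z => Bo84.mGam_self_nonneg φ z
  have h5 : c * ‖F‖ ^ 2 ≤ ‖F‖ * ‖opT n M c φ‖ := by
    have h6 := abs_real_inner_le_norm F (opT n M c φ)
    rw [← real_inner_self_eq_norm_sq, h2]
    rw [h1, h3] at h6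
    have h7 := neg_le_abs (- ∫ z, Bo84.mGam n φ φ z ∂(μHE[n] : Measure M) -
      c * ∫ z, φ z * φ z ∂(μHE[n] : Measure M))
    linarith
  rcases eq_or_lt_of_le (norm_nonneg F) with h0 | h0
  · rw [← h0, mul_zero]
    exact norm_nonneg _
  · have : ‖F‖ * (c * ‖F‖) ≤ ‖F‖ * ‖opT n M c φ‖ := by
      have e : ‖F‖ * (c * ‖F‖) = c * ‖F‖ ^ 2 := by ring
      rw [e]; exact h5
    exact le_of_mul_le_mul_left this h0

/-- **`L²` weak solutions** of `Δu - cu = g`. -/
theorem exists_weak {c : ℝ} (hc : 0 < c) {g : M → ℝ} (hg : Continuous g) :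
    ∃ u : M → ℝ, MemLp u 2 (μHE[n] : Measure M) ∧ ∀ φ : M → ℝ, Sm n φ →
      ∫ z, u z * LC n c φ z ∂(μHE[n] : Measure M) = ∫ z, g z * φ z ∂(μHE[n] : Measure M) := by
  have hgm := memLp_of_continuous (n := n) hg 2
  have hbd : ∀ φ : SmS n M, |opL n M ⟨g, hg⟩ φ| ≤ (c⁻¹ * ‖hgm.toLp g‖) * ‖opT n M c φ‖ := by
    intro φ
    have h1 : opL n M ⟨g, hg⟩ φ = inner ℝ (hgm.toLp g)
        ((memLp_of_continuous φ.contMDiff.continuous 2 :
          MemLp φ 2 (μHE[n] : Measure M)).toLp φ) := (inner_toLp _ _).symm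
    rw [h1]
    refine (abs_real_inner_le_norm _ _).trans ?_
    have h2 := norm_le_opT hc φ
    have h3 : ‖(memLp_of_continuous φ.contMDiff.continuous 2 :
        MemLp φ 2 (μHE[n] : Measure M)).toLp φ‖ ≤ c⁻¹ * ‖opT n M c φ‖ := by
      rw [inv_mul_eq_div, le_div_iff₀ hc]
      linarith
    calc ‖hgm.toLp g‖ * _ ≤ ‖hgm.toLp g‖ * (c⁻¹ * ‖opT n M c φ‖) :=
          mul_le_mul_of_nonneg_left h3 (norm_nonneg _)
      _ = _ := by ring
  obtain ⟨u, hu⟩ := exists_dual (opT n M c) (opL n M ⟨g, hg⟩) _ hbd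
  refine ⟨u, Lp.memLp u, fun φ hφ => ?_⟩
  have h1 := hu ⟨φ, hφ⟩
  have h2 : opL n M ⟨g, hg⟩ ⟨φ, hφ⟩ = ∫ z, g z * φ z ∂(μHE[n] : Measure M) := rfl
  rw [← h2, ← h1, L2.inner_def]
  refine integral_congr_ae ?_
  have h3 : (opT n M c ⟨φ, hφ⟩ : M → ℝ) =ᵐ[(μHE[n] : Measure M)] LC n c φ :=
    MemLp.coeFn_toLp (memLp_LC c hφ)
  filter_upwards [h3] with z hz
  rw [hz]
  simp only [RCLike.inner_apply, conj_trivial]
  ring

end Int

end

end Crest.Agent.R249.PenB_255
end

-- ▼ part R249/PenC_255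
section

/-!
Row 249, leaf A-PEN (helper255), part C: regularity of the weak solutions and existence:
`exists_solution` : `M` closed, `c > 0`, `G` smooth: there is a smooth `u` with `Δu - cu = G`.
-/

set_option autoImplicit false
set_option maxSynthPendingDepth 3
set_option linter.unusedSectionVars false
set_option linter.unusedVariables false

open Bundle Bornology Set MeasureTheory Manifold Filter Metric
open scoped ENNReal ContDiff Topology NNReal
open Crest.GeometryTopology.CoordMetric Crest.GeometryTopology.ChartCurvature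
open Crest.GeometryTopology.Geodesic
open Crest.Agent.R226.ChartMet842

namespace Crest.Agent.R249.PenC_255

open Crest.Agent.R247 Crest.Agent.R247.Ms322
open Crest.Agent.R202.Ell hiding LC
open Crest.Agent.R249.PenA_255 Crest.Agent.R249.PenB_255

noncomputable section

variable {n : ℕ} {M : Type*} [MetricSpace M] [ChartedSpace (EuclideanSpace ℝ (Fin n)) M]
  [IsManifold (𝓡 n) ∞ M]
  [RiemannianBundle (fun p : M => TangentSpace (𝓡 n) p)]
  [IsContMDiffRiemannianBundle (𝓡 n) ∞ (EuclideanSpace ℝ (Fin n)) (fun p : M => TangentSpace (𝓡 n) p)]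

local notation "𝔼" => EuclideanSpace ℝ (Fin n)

/-! ### the coefficients in a chart -/

/-- `√det g · g^{ij}` -/
def Ac (x₀ : M) (a : EuclideanSpace ℝ (Fin n)) : Matrix (Fin n) (Fin n) ℝ :=
  dens x₀ a • (chartMetric n M x₀ a)⁻¹

theorem Ac_apply (x₀ : M) (a : 𝔼) (i j : Fin n) :
    Ac x₀ a i j = dens x₀ a * (chartMetric n M x₀ a)⁻¹ i j := rfl

theorem contDiffOn_Ac (x₀ : M) (i j : Fin n) :
    ContDiffOn ℝ ∞ (fun a => Ac x₀ a i j) (chartAt 𝔼 x₀).target := by
  refine ContDiffOn.mul (contDiffOn_dens (n := n) x₀) fun a ha => ?_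
  exact (Bo84.contDiffAt_inv (isRiemannianOn_chartMetric (n := n) x₀) ha i j).contDiffWithinAt

theorem posDef_Ac (x₀ : M) {a : 𝔼} (ha : a ∈ (chartAt 𝔼 x₀).target) :
    (Ac (n := n) x₀ a).PosDef := by
  have h1 := ((isRiemannianOn_chartMetric (n := n) x₀).posDef a ha).inv
  have h2 := dens_pos (n := n) x₀ ha
  exact h1.smul h2

theorem divA_Ac (x₀ : M) {a : 𝔼} (ha : a ∈ (chartAt 𝔼 x₀).target) (φ : 𝔼 → ℝ) :
    divA (Ac (n := n) x₀) φ a =
      dens x₀ a * laplaceBeltrami (chartMetric n M x₀) φ a := by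
  have hd := (dens_pos (n := n) x₀ ha).ne'
  unfold divA laplaceBeltrami
  have e : ∀ i : Fin n, (fun y : 𝔼 => ∑ j, Ac (n := n) x₀ y i j * pderiv j φ y) =
      fun y => Real.sqrt (chartMetric n M x₀ y).det *
        ∑ j, inverseField (chartMetric n M x₀) y i j * pderiv j φ y := by
    intro i
    funext y
    rw [Finset.mul_sum]
    refine Finset.sum_congr rfl fun j _ => ?_
    rw [Ac_apply]
    show dens x₀ y * (chartMetric n M x₀ y)⁻¹ i j * pderiv j φ y =
      dens x₀ y * ((chartMetric n M x₀ y)⁻¹ i j * pderiv j φ y)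
    ring
  simp_rw [e]
  show _ = dens x₀ a * (1 / dens x₀ a * _)
  field_simp

/-! ### test functions -/

/-- extension by zero of a function in the chart at `x₀` -/
def ez (x₀ : M) (φ : EuclideanSpace ℝ (Fin n) → ℝ) (z : M) : ℝ :=
  (chartAt (EuclideanSpace ℝ (Fin n)) x₀).source.indicator
    (fun z => φ (chartAt (EuclideanSpace ℝ (Fin n)) x₀ z)) z

theorem ez_of_mem (x₀ : M) (φ : 𝔼 → ℝ) {z : M} (hz : z ∈ (chartAt 𝔼 x₀).source) :
    ez x₀ φ z = φ (chartAt 𝔼 x₀ z) := indicator_of_mem hz _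

theorem ez_symm (x₀ : M) (φ : 𝔼 → ℝ) {a : 𝔼} (ha : a ∈ (chartAt 𝔼 x₀).target) :
    ez x₀ φ ((chartAt 𝔼 x₀).symm a) = φ a := by
  rw [ez_of_mem x₀ φ ((chartAt 𝔼 x₀).map_target ha), (chartAt 𝔼 x₀).right_inv ha]

theorem ez_zero_near (x₀ : M) {φ : 𝔼 → ℝ} (hc : HasCompactSupport φ)
    (hs : tsupport φ ⊆ (chartAt 𝔼 x₀).target) {z : M} (hz : z ∉ (chartAt 𝔼 x₀).source) :
    ez x₀ φ =ᶠ[𝓝 z] fun _ => 0 := by
  have hK : IsCompact ((chartAt 𝔼 x₀).symm '' tsupport φ) :=
    hc.isCompact.image_of_continuousOn ((chartAt 𝔼 x₀).continuousOn_symm.mono hs)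
  have hzK : z ∉ (chartAt 𝔼 x₀).symm '' tsupport φ := by
    rintro ⟨a, ha, rfl⟩
    exact hz ((chartAt 𝔼 x₀).map_target (hs ha))
  filter_upwards [hK.isClosed.isOpen_compl.mem_nhds hzK] with y hy
  by_cases hys : y ∈ (chartAt 𝔼 x₀).source
  · rw [ez_of_mem x₀ φ hys]
    refine image_eq_zero_of_notMem_tsupport fun h => hy ?_
    exact ⟨_, h, (chartAt 𝔼 x₀).left_inv hys⟩
  · exact indicator_of_notMem hys _

theorem inCh_ez (x₀ : M) (φ : 𝔼 → ℝ) {a : 𝔼} (ha : a ∈ (chartAt 𝔼 x₀).target) :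
    Bo84.inCh n x₀ (ez x₀ φ) =ᶠ[𝓝 a] φ := by
  filter_upwards [(chartAt 𝔼 x₀).open_target.mem_nhds ha] with b hb
  exact ez_symm x₀ φ hb

theorem sm_ez (x₀ : M) {φ : 𝔼 → ℝ} (hφ : ContDiff ℝ ∞ φ) (hc : HasCompactSupport φ)
    (hs : tsupport φ ⊆ (chartAt 𝔼 x₀).target) : Sm n (ez x₀ φ) := by
  intro z
  by_cases hz : z ∈ (chartAt 𝔼 x₀).source
  · refine Bo84.contMDiffAt_of_inCh le_rfl hz ?_
    exact hφ.contDiffAt.congr_of_eventuallyEq (inCh_ez x₀ φ ((chartAt 𝔼 x₀).map_source hz))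
  · exact contMDiffAt_const.congr_of_eventuallyEq (ez_zero_near x₀ hc hs hz)

theorem LC_ez (c : ℝ) (x₀ : M) {φ : 𝔼 → ℝ} (hφ : ContDiff ℝ ∞ φ) (hc : HasCompactSupport φ)
    (hs : tsupport φ ⊆ (chartAt 𝔼 x₀).target) {a : 𝔼} (ha : a ∈ (chartAt 𝔼 x₀).target) :
    dens x₀ a * LC n c (ez x₀ φ) ((chartAt 𝔼 x₀).symm a) =
      divA (Ac (n := n) x₀) φ a - (c * dens (n := n) x₀ a) * φ a := by
  have h1 := (sm_ez x₀ hφ hc hs).two ((chartAt 𝔼 x₀).symm a)
  rw [LC, Bo84.mLap_chart ha h1, Bo84.lap_congr (inCh_ez x₀ φ ha), ez_symm x₀ φ ha,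
    divA_Ac x₀ ha]
  ring

theorem LC_zero (c : ℝ) {φ : M → ℝ} {z : M} (h : φ =ᶠ[𝓝 z] fun _ => 0) : LC n c φ z = 0 := by
  rw [LC, Bo84.mLap_congr h, Bo84.mLap_const, h.eq_of_nhds]
  ring

section Int

variable [IsRiemannianManifold (𝓡 n) M] [CompactSpace M] [MeasurableSpace M] [BorelSpace M]

theorem integral_chart (x₀ : M) {F : M → ℝ} {H : 𝔼 → ℝ}
    (h0 : ∀ z, z ∉ (chartAt 𝔼 x₀).source → F z = 0)
    (h1 : ∀ a ∈ (chartAt 𝔼 x₀).target, dens x₀ a * F ((chartAt 𝔼 x₀).symm a) = H a)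
    (h2 : ∀ a, a ∉ (chartAt 𝔼 x₀).target → H a = 0) :
    ∫ z, F z ∂(μHE[n] : Measure M) = ∫ a, H a := by
  rw [integral_eq_of_support x₀ F h0, ← setIntegral_eq_integral_of_forall_compl_eq_zero h2]
  exact setIntegral_congr_fun (chartAt 𝔼 x₀).open_target.measurableSet fun a ha => h1 a ha

theorem locallyIntegrableOn_symm (x₀ : M) {u : M → ℝ}
    (hu : Integrable u (μHE[n] : Measure M)) :
    LocallyIntegrableOn (fun a => u ((chartAt 𝔼 x₀).symm a)) (chartAt 𝔼 x₀).target := by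
  have h1 := (integrableOn_source_iff (n := n) x₀ u).1 hu.integrableOn
  have h2 := h1.locallyIntegrableOn
  have hc : ContinuousOn (fun a => (dens (n := n) x₀ a)⁻¹) (chartAt 𝔼 x₀).target :=
    (continuousOn_dens (n := n) x₀).inv₀ fun a ha => (dens_pos (n := n) x₀ ha).ne'
  have h3 := h2.continuousOn_mul hc (chartAt 𝔼 x₀).open_target.isLocallyClosed
  intro a ha
  obtain ⟨s, hs, hi⟩ := h3 a ha
  refine ⟨s ∩ (chartAt 𝔼 x₀).target, inter_mem hs self_mem_nhdsWithin, ?_⟩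
  have h4 := hi.mono_set (inter_subset_left (s := s) (t := (chartAt 𝔼 x₀).target))
  have hae : ∀ᵐ b ∂(volume.restrict (s ∩ (chartAt 𝔼 x₀).target)),
      b ∈ (chartAt 𝔼 x₀).target := by
    have h5 : ∀ᵐ b ∂(volume.restrict (chartAt 𝔼 x₀).target), b ∈ (chartAt 𝔼 x₀).target :=
      ae_restrict_mem (chartAt 𝔼 x₀).open_target.measurableSet
    exact ae_restrict_of_ae_restrict_of_subset inter_subset_right h5
  refine IntegrableOn.congr_fun_ae (f := fun b => (dens (n := n) x₀ b)⁻¹ *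
    (dens (n := n) x₀ b • u ((chartAt 𝔼 x₀).symm b))) h4 ?_
  filter_upwards [hae] with b hb
  have := (dens_pos (n := n) x₀ hb).ne'
  rw [smul_eq_mul]
  field_simp

/-- local regularity -/
theorem exists_local {c : ℝ} (hc : 0 < c) {G u : M → ℝ} (hG : Sm n G)
    (hu : Integrable u (μHE[n] : Measure M))
    (hw : ∀ φ : M → ℝ, Sm n φ →
      ∫ z, u z * LC n c φ z ∂(μHE[n] : Measure M) = ∫ z, G z * φ z ∂(μHE[n] : Measure M))
    (x₀ : M) : ∃ v : 𝔼 → ℝ, ContDiffOn ℝ ∞ v (chartAt 𝔼 x₀).target ∧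
      (∀ᵐ a, a ∈ (chartAt 𝔼 x₀).target → v a = u ((chartAt 𝔼 x₀).symm a)) ∧
      ∀ a ∈ (chartAt 𝔼 x₀).target,
        laplaceBeltrami (chartMetric n M x₀) v a - c * v a = G ((chartAt 𝔼 x₀).symm a) := by
  have hdc := contDiffOn_dens (n := n) x₀
  have hGc : ContDiffOn ℝ ∞ (Bo84.inCh n x₀ G) (chartAt 𝔼 x₀).target := fun a ha =>
    (Bo84.contDiffAt_inCh le_rfl ha (hG _)).contDiffWithinAt
  obtain ⟨v, hv, hvu, hve⟩ := ell_reg_zero (A := Ac (n := n) x₀)
    (w := fun a => c * dens (n := n) x₀ a)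
    (f := fun a => dens (n := n) x₀ a * Bo84.inCh n x₀ G a)
    (u := fun a => u ((chartAt 𝔼 x₀).symm a)) (chartAt 𝔼 x₀).open_target
    (contDiffOn_Ac x₀) (fun a ha => posDef_Ac x₀ ha) (contDiffOn_const.mul hdc)
    (fun a ha => mul_pos hc (dens_pos (n := n) x₀ ha)) (hdc.mul hGc)
    (locallyIntegrableOn_symm x₀ hu) (by
      intro φ hφ hφc hs
      have h1 := hw _ (sm_ez x₀ hφ hφc hs)
      rw [integral_chart x₀ (H := fun a => u ((chartAt 𝔼 x₀).symm a) *
          (divA (Ac (n := n) x₀) φ a - (c * dens (n := n) x₀ a) * φ a))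
          (fun z hz => by rw [LC_zero c (ez_zero_near x₀ hφc hs hz), mul_zero])
          (fun a ha => by rw [← LC_ez c x₀ hφ hφc hs ha]; ring)
          (fun a ha => by
            have h2 : a ∉ tsupport φ := fun h => ha (hs h)
            rw [image_eq_zero_of_notMem_tsupport h2,
              image_eq_zero_of_notMem_tsupport fun h => h2 (tsupport_divA_subset _ _ h)]
            ring),
        integral_chart x₀ (H := fun a => (dens (n := n) x₀ a * Bo84.inCh n x₀ G a) * φ a)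
          (fun z hz => by rw [(ez_zero_near x₀ hφc hs hz).eq_of_nhds, mul_zero])
          (fun a ha => by rw [ez_symm x₀ φ ha, Bo84.inCh]; ring)
          (fun a ha => by
            have h2 : a ∉ tsupport φ := fun h => ha (hs h)
            rw [image_eq_zero_of_notMem_tsupport h2, mul_zero])] at h1
      exact h1)
  refine ⟨v, hv, hvu, fun a ha => ?_⟩
  have h1 := hve a ha
  have hd := dens_pos (n := n) x₀ ha
  rw [divA_Ac x₀ ha] at h1
  have h2 : dens (n := n) x₀ a * (laplaceBeltrami (chartMetric n M x₀) v a - c * v a) =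
      dens (n := n) x₀ a * G ((chartAt 𝔼 x₀).symm a) := by
    rw [mul_sub]
    have h3 : dens (n := n) x₀ a * Bo84.inCh n x₀ G a =
      dens (n := n) x₀ a * G ((chartAt 𝔼 x₀).symm a) := rfl
    rw [← h3, ← h1]
    ring
  exact mul_left_cancel₀ hd.ne' h2

theorem ae_source (x₀ : M) {u : M → ℝ} {v : 𝔼 → ℝ}
    (h : ∀ᵐ a, a ∈ (chartAt 𝔼 x₀).target → v a = u ((chartAt 𝔼 x₀).symm a)) :
    ∀ᵐ z ∂(μHE[n] : Measure M), z ∈ (chartAt 𝔼 x₀).source → v (chartAt 𝔼 x₀ z) = u z := by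
  set B : Set 𝔼 := toMeasurable volume
    {a | ¬ (a ∈ (chartAt 𝔼 x₀).target → v a = u ((chartAt 𝔼 x₀).symm a))} ∩
      (chartAt 𝔼 x₀).target with hB
  have hBm : MeasurableSet B :=
    (measurableSet_toMeasurable _ _).inter (chartAt 𝔼 x₀).open_target.measurableSet
  have hB0 : volume B = 0 := by
    refine measure_mono_null inter_subset_left ?_
    rw [measure_toMeasurable]
    exact h
  have h1 := muHE_symm_image (n := n) x₀ (B := B) inter_subset_right hBm
  have h2 : ∫⁻ b in B, ENNReal.ofReal (dens (n := n) x₀ b) = 0 := by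
    rw [Measure.restrict_eq_zero.2 hB0]
    simp
  rw [h2] at h1
  rw [ae_iff]
  refine measure_mono_null (fun z hz => ?_) h1
  simp only [Classical.not_imp, mem_setOf_eq] at hz
  refine ⟨chartAt 𝔼 x₀ z, ⟨subset_toMeasurable _ _ ?_, (chartAt 𝔼 x₀).map_source hz.1⟩,
    (chartAt 𝔼 x₀).left_inv hz.1⟩
  intro hcon
  apply hz.2
  have := hcon ((chartAt 𝔼 x₀).map_source hz.1)
  rw [this, (chartAt 𝔼 x₀).left_inv hz.1]

/-- **Regularity**: a weak (`L¹`) solution of `Δu - cu = G`, `G` smooth, is smooth. -/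
theorem regularity {c : ℝ} (hc : 0 < c) {G u : M → ℝ} (hG : Sm n G)
    (hu : Integrable u (μHE[n] : Measure M))
    (hw : ∀ φ : M → ℝ, Sm n φ →
      ∫ z, u z * LC n c φ z ∂(μHE[n] : Measure M) = ∫ z, G z * φ z ∂(μHE[n] : Measure M)) :
    ∃ U : M → ℝ, Sm n U ∧ U =ᵐ[(μHE[n] : Measure M)] u ∧ ∀ z, LC n c U z = G z := by
  have := isOpenPosMeasure n M
  have hex := fun x₀ => exists_local hc hG hu hw x₀
  choose V hV hVu hVe using hex
  have hcomp : ∀ x₀ x₁ : M, EqOn (fun z => V x₀ (chartAt 𝔼 x₀ z)) (fun z => V x₁ (chartAt 𝔼 x₁ z))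
      ((chartAt 𝔼 x₀).source ∩ (chartAt 𝔼 x₁).source) := by
    intro x₀ x₁
    refine Measure.eqOn_open_of_ae_eq (μ := (μHE[n] : Measure M)) ?_
      ((chartAt 𝔼 x₀).open_source.inter (chartAt 𝔼 x₁).open_source) ?_ ?_
    · rw [EventuallyEq, ae_restrict_iff'
        ((chartAt 𝔼 x₀).open_source.inter (chartAt 𝔼 x₁).open_source).measurableSet]
      filter_upwards [ae_source (n := n) x₀ (hVu x₀), ae_source (n := n) x₁ (hVu x₁)]
        with z h0 h1 hz
      rw [h0 hz.1, h1 hz.2]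
    · exact ((hV x₀).continuousOn.comp (chartAt 𝔼 x₀).continuousOn
        (fun z hz => (chartAt 𝔼 x₀).map_source hz)).mono inter_subset_left
    · exact ((hV x₁).continuousOn.comp (chartAt 𝔼 x₁).continuousOn
        (fun z hz => (chartAt 𝔼 x₁).map_source hz)).mono inter_subset_right
  set U : M → ℝ := fun z => V z (chartAt 𝔼 z z) with hU
  have hUx : ∀ x₀ z : M, z ∈ (chartAt 𝔼 x₀).source → U z = V x₀ (chartAt 𝔼 x₀ z) := fun x₀ z hz =>
    hcomp z x₀ ⟨mem_chart_source 𝔼 z, hz⟩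
  have hin : ∀ x₀ : M, ∀ a ∈ (chartAt 𝔼 x₀).target, Bo84.inCh n x₀ U a = V x₀ a := by
    intro x₀ a ha
    rw [Bo84.inCh, hUx x₀ _ ((chartAt 𝔼 x₀).map_target ha), (chartAt 𝔼 x₀).right_inv ha]
  have hin' : ∀ x₀ : M, ∀ a ∈ (chartAt 𝔼 x₀).target, Bo84.inCh n x₀ U =ᶠ[𝓝 a] V x₀ := by
    intro x₀ a ha
    filter_upwards [(chartAt 𝔼 x₀).open_target.mem_nhds ha] with b hb using hin x₀ b hb
  have hUs : Sm n U := by
    intro z
    have hz := mem_chart_source 𝔼 z
    refine Bo84.contMDiffAt_of_inCh (x₀ := z) le_rfl hz ?_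
    have ha := (chartAt 𝔼 z).map_source hz
    exact ((hV z).contDiffAt ((chartAt 𝔼 z).open_target.mem_nhds ha)).congr_of_eventuallyEq
      (hin' z _ ha)
  refine ⟨U, hUs, ?_, fun z => ?_⟩
  · haveI : Nonempty M ∨ IsEmpty M := (isEmpty_or_nonempty M).symm
    have hcov : ∃ s : Finset M, (univ : Set M) ⊆ ⋃ x ∈ s, (chartAt 𝔼 x).source :=
      isCompact_univ.elim_finite_subcover (fun x : M => (chartAt 𝔼 x).source)
        (fun x => (chartAt 𝔼 x).open_source)
        (fun z _ => mem_iUnion.2 ⟨z, mem_chart_source 𝔼 z⟩)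
    obtain ⟨s, hs⟩ := hcov
    have h1 : ∀ᵐ z ∂(μHE[n] : Measure M), ∀ x ∈ s, z ∈ (chartAt 𝔼 x).source →
        V x (chartAt 𝔼 x z) = u z :=
      (Finset.eventually_all s).2 fun x _ => ae_source (n := n) x (hVu x)
    filter_upwards [h1] with z hz
    obtain ⟨x, hx, hzx⟩ := mem_iUnion₂.1 (hs (mem_univ z))
    rw [hUx x z hzx, hz x hx hzx]
  · have hz := mem_chart_source 𝔼 z
    have ha := (chartAt 𝔼 z).map_source hz
    rw [LC, Bo84.mLap_chart' hz (hUs.two z), Bo84.lap_congr (hin' z _ ha), hUx z z hz,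
      hVe z _ ha, (chartAt 𝔼 z).left_inv hz]

end Int

variable [IsRiemannianManifold (𝓡 n) M] [CompactSpace M]

/-- **Existence**: `Δu - cu = G` is solvable in smooth functions on a closed manifold. -/
theorem exists_solution {c : ℝ} (hc : 0 < c) {G : M → ℝ} (hG : Sm n G) :
    ∃ u : M → ℝ, Sm n u ∧ ∀ z, Bo84.mLap n u z - c * u z = G z := by
  borelize M
  obtain ⟨u, hu, hw⟩ := exists_weak (n := n) hc hG.continuous
  have := isFiniteMeasure n M
  have hui : Integrable u (μHE[n] : Measure M) := hu.integrable (by norm_num)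
  obtain ⟨U, hU, -, hUe⟩ := regularity hc hG hui hw
  exact ⟨U, hU, hUe⟩

end

end Crest.Agent.R249.PenC_255
end

-- ▼ part R249/PenD_255
section

/-!
Row 249, leaf A-PEN (helper255), part D: maximum principle, comparison, uniqueness for `Δ - c` on a
closed manifold.
-/

set_option autoImplicit false
set_option maxSynthPendingDepth 3
set_option linter.unusedSectionVars false
set_option linter.unusedVariables false

open Bundle Bornology Set MeasureTheory Manifold Filter Metric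
open scoped ENNReal ContDiff Topology NNReal
open Crest.GeometryTopology.CoordMetric Crest.GeometryTopology.ChartCurvature
open Crest.GeometryTopology.Geodesic
open Crest.Agent.R226.ChartMet842

namespace Crest.Agent.R249.PenD_255

open Crest.Agent.R247 Crest.Agent.R247.Ms322
open Crest.Agent.R249.PenB_255 Crest.Agent.R249.PenC_255

noncomputable section

/-- second order condition at a local maximum -/
theorem second_order_max {X : Type*} [NormedAddCommGroup X] [NormedSpace ℝ X] {f : X → ℝ} {x : X}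
    (hf : ContDiffAt ℝ 2 f x) (hmax : IsLocalMax f x) (v : X) :
    fderiv ℝ (fderiv ℝ f) x v v ≤ 0 := by
  set g : ℝ → ℝ := fun t => f (x + t • v) with hg
  have hline : ∀ t : ℝ, HasDerivAt (fun t : ℝ => x + t • v) v t := fun t => by
    simpa using ((hasDerivAt_id t).smul_const v).const_add x
  have htend : Tendsto (fun t : ℝ => x + t • v) (𝓝 0) (𝓝 x) := by
    have := (hline 0).continuousAt.tendsto
    simpa using this
  have hev : ∀ᶠ y in 𝓝 x, DifferentiableAt ℝ f y := by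
    have h := hf.eventually (by simp)
    filter_upwards [h] with y hy using hy.differentiableAt (by norm_num)
  have h1 : deriv g =ᶠ[𝓝 0] fun t => fderiv ℝ f (x + t • v) v := by
    filter_upwards [htend.eventually hev] with t ht
    exact (ht.hasFDerivAt.comp_hasDerivAt t (hline t)).deriv
  have h3 : ContDiffAt ℝ 1 (fderiv ℝ f) x := hf.fderiv_right (by norm_num)
  have h4 : HasFDerivAt (fderiv ℝ f) (fderiv ℝ (fderiv ℝ f) x) x :=
    (h3.differentiableAt (by norm_num)).hasFDerivAt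
  have h5 : HasDerivAt (fun t : ℝ => fderiv ℝ f (x + t • v)) (fderiv ℝ (fderiv ℝ f) x v) 0 := by
    have h6 : HasFDerivAt (fderiv ℝ f) (fderiv ℝ (fderiv ℝ f) x) (x + (0 : ℝ) • v) := by
      simpa using h4
    exact h6.comp_hasDerivAt 0 (hline 0)
  have h7 : HasDerivAt (fun t : ℝ => fderiv ℝ f (x + t • v) v) (fderiv ℝ (fderiv ℝ f) x v v) 0 := by
    have := h5.clm_apply (hasDerivAt_const (0 : ℝ) v)
    simpa using this
  have h8 : deriv (deriv g) 0 = fderiv ℝ (fderiv ℝ f) x v v := by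
    rw [h1.deriv_eq, h7.deriv]
  have hgc : ContinuousAt g 0 := by
    have h0 : ContinuousAt f (x + (0 : ℝ) • v) := by simpa using hf.continuousAt
    exact ContinuousAt.comp (g := f) (f := fun t : ℝ => x + t • v) h0 (hline 0).continuousAt
  have hgm : IsLocalMax g 0 := by
    have := htend.eventually hmax
    filter_upwards [this] with t ht
    simpa [hg] using ht
  have hle : deriv (deriv g) 0 ≤ 0 := by
    by_contra hneg
    push Not at hneg
    have hmin := isLocalMin_of_deriv_deriv_pos hneg hgm.deriv_eq_zero hgc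
    have hconst : g =ᶠ[𝓝 0] fun _ => g 0 := by
      filter_upwards [hmin, hgm] with y h1 h2 using le_antisymm h2 h1
    have h1 : deriv g =ᶠ[𝓝 0] fun _ => 0 := by
      have := hconst.deriv
      simpa using this
    have : deriv (deriv g) 0 = 0 := by
      rw [h1.deriv_eq]; simp
    linarith
  rwa [h8] at hle

variable {n : ℕ} {M : Type*} [MetricSpace M] [ChartedSpace (EuclideanSpace ℝ (Fin n)) M]
  [IsManifold (𝓡 n) ∞ M]
  [RiemannianBundle (fun p : M => TangentSpace (𝓡 n) p)]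
  [IsContMDiffRiemannianBundle (𝓡 n) ∞ (EuclideanSpace ℝ (Fin n)) (fun p : M => TangentSpace (𝓡 n) p)]

local notation "𝔼" => EuclideanSpace ℝ (Fin n)

theorem isLocalMax_inCh {f : M → ℝ} {z : M} (hm : IsLocalMax f z) :
    IsLocalMax (Bo84.inCh n z f) (chartAt 𝔼 z z) := by
  have hz := mem_chart_source 𝔼 z
  have hc : ContinuousAt (chartAt 𝔼 z).symm (chartAt 𝔼 z z) :=
    (chartAt 𝔼 z).continuousAt_symm ((chartAt 𝔼 z).map_source hz)
  have h1 := hc.tendsto
  rw [(chartAt 𝔼 z).left_inv hz] at h1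
  have h2 := h1.eventually hm
  filter_upwards [h2] with a ha
  show f ((chartAt 𝔼 z).symm a) ≤ f ((chartAt 𝔼 z).symm (chartAt 𝔼 z z))
  rw [(chartAt 𝔼 z).left_inv hz]
  exact ha

/-- the Laplacian at a local maximum -/
theorem mLap_nonpos_of_max {f : M → ℝ} {z : M} (hf : ContMDiffAt (𝓡 n) 𝓘(ℝ, ℝ) 2 f z)
    (hm : IsLocalMax f z) : Bo84.mLap n f z ≤ 0 := by
  have hz := mem_chart_source 𝔼 z
  have ha := (chartAt 𝔼 z).map_source hz
  have hg := isRiemannianOn_chartMetric (n := n) z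
  have hfc : ContDiffAt ℝ 2 (Bo84.inCh n z f) (chartAt 𝔼 z z) := by
    refine Bo84.contDiffAt_inCh Bo84.two_le_infty ha ?_
    rw [(chartAt 𝔼 z).left_inv hz]
    exact hf
  have hmc := isLocalMax_inCh (n := n) hm
  obtain ⟨ξ, hξ⟩ := Bo84.exists_frame hg ha
  rw [Bo84.mLap_chart' hz hf, Bo84.lap_frame hg ha hfc hξ]
  refine Finset.sum_nonpos fun j _ => ?_
  rw [Bo84.hess_apply, hmc.fderiv_eq_zero]
  have := second_order_max hfc hmc (ξ j)
  simpa using this



section Closed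

variable [CompactSpace M]

/-- **Maximum principle**: `Δu ≥ q u` with `q > 0` gives `u ≤ 0`. -/
theorem max_principle {u : M → ℝ} (hu : ∀ z, ContMDiffAt (𝓡 n) 𝓘(ℝ, ℝ) 2 u z) {q : M → ℝ}
    (hq : ∀ z, 0 < q z) (h : ∀ z, q z * u z ≤ Bo84.mLap n u z) : ∀ z, u z ≤ 0 := by
  intro z
  have hne : (univ : Set M).Nonempty := ⟨z, mem_univ z⟩
  have hc : Continuous u := continuous_iff_continuousAt.2 fun y => (hu y).continuousAt
  obtain ⟨p, -, hp⟩ := isCompact_univ.exists_isMaxOn hne hc.continuousOn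
  have h1 : IsLocalMax u p := hp.isLocalMax Filter.univ_mem
  have h2 := mLap_nonpos_of_max (hu p) h1
  have h3 := h p
  have h4 : u z ≤ u p := hp (mem_univ z)
  have h5 : u p ≤ 0 := by
    by_contra hcon
    push Not at hcon
    have := mul_pos (hq p) hcon
    linarith
  linarith




end Closed

variable [IsRiemannianManifold (𝓡 n) M] [CompactSpace M]

variable (n) in
/-- the resolvent `(Δ - c)⁻¹` on smooth functions (zero otherwise) -/
def Rs (c : ℝ) (G : M → ℝ) : M → ℝ := by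
  classical
  exact if h : ∃ u : M → ℝ, Sm n u ∧ ∀ z, Bo84.mLap n u z - c * u z = G z then h.choose
    else fun _ => 0


end

end Crest.Agent.R249.PenD_255
end

-- ▼ part R249/CalM_255
section

/-!
Row 249, part A2 (helper255): the instance of `Calc_806.Calc` on a closed Riemannian 4-manifold
`M` with `Ric ≥ lam > 0`:
`Sm f = ContMDiff`, `D f x i = (√lam)⁻¹ df(fr x i)`, `Hs f x i j = lam⁻¹ Hess f (fr x i) (fr x j)`,
so `L = lam⁻¹ mLap`, `G f g = lam⁻¹ mGam f g`, `Q = (lam ^ 2)⁻¹ mHessSq`.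
The first part is for general `n`.
-/

set_option autoImplicit false
set_option maxSynthPendingDepth 3
set_option linter.unusedSectionVars false
set_option linter.unusedVariables false

open Bundle Bornology Set MeasureTheory Manifold Filter Metric
open scoped ENNReal ContDiff Topology NNReal Matrix
open Crest.GeometryTopology.CoordMetric Crest.GeometryTopology.ChartCurvature
  Crest.GeometryTopology.PointedLimit
open Crest.Agent.R226.ChartMet842

namespace Crest.Agent.R249.CalM_255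

open Crest.Agent.R247 Crest.Agent.R247.Ms322
open Crest.Agent.R249.PenB_255 Crest.Agent.R249.PenC_255 Crest.Agent.R249.PenD_255

noncomputable section

section General

variable {n : ℕ} {M : Type*} [MetricSpace M] [ChartedSpace (EuclideanSpace ℝ (Fin n)) M]
  [IsManifold (𝓡 n) ∞ M]
  [RiemannianBundle (fun p : M => TangentSpace (𝓡 n) p)]
  [IsContMDiffRiemannianBundle (𝓡 n) ∞ (EuclideanSpace ℝ (Fin n)) (fun p : M => TangentSpace (𝓡 n) p)]

local notation "𝔼" => EuclideanSpace ℝ (Fin n)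

/-! ### composition with smooth functions of several variables -/

theorem contMDiffAt_pi {k : ℕ} {f : Fin k → M → ℝ} {x : M}
    (hf : ∀ i, ContMDiffAt (𝓡 n) 𝓘(ℝ, ℝ) ∞ (f i) x) :
    ContMDiffAt (𝓡 n) 𝓘(ℝ, Fin k → ℝ) ∞ (fun y => fun i => f i y) x :=
  contMDiffAt_pi_space.2 hf

theorem sm_comp {k : ℕ} {F : (Fin k → ℝ) → ℝ} {U : Set (Fin k → ℝ)} (hU : IsOpen U)
    (hF : ContDiffOn ℝ ∞ F U) {f : Fin k → M → ℝ} (hf : ∀ i, Sm n (f i))
    (hx : ∀ x, (fun i => f i x) ∈ U) : Sm n (fun x => F (fun i => f i x)) := by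
  intro x
  have h1 : ContMDiffAt 𝓘(ℝ, Fin k → ℝ) 𝓘(ℝ, ℝ) ∞ F (fun i => f i x) :=
    (hF.contDiffAt (hU.mem_nhds (hx x))).contMDiffAt
  exact ContMDiffAt.comp (g := F) (f := fun y => fun i => f i y) x h1
    (contMDiffAt_pi fun i => hf i x)

theorem mdiff {f : M → ℝ} (hf : Sm n f) (x : M) : MDifferentiableAt (𝓡 n) 𝓘(ℝ) f x :=
  (hf x).mdifferentiableAt (by simp)

/-- chain rule for the differential -/
theorem df_comp_pi {k : ℕ} {F : (Fin k → ℝ) → ℝ} {U : Set (Fin k → ℝ)} (hU : IsOpen U)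
    (hF : ContDiffOn ℝ ∞ F U) {f : Fin k → M → ℝ} (hf : ∀ i, Sm n (f i))
    (hx : ∀ x, (fun i => f i x) ∈ U) (x : M) (v : TangentSpace (𝓡 n) x) :
    df (fun x => F (fun i => f i x)) x v =
      ∑ i, fderiv ℝ F (fun j => f j x) (Pi.single i 1) * df (f i) x v := by
  have hs := mem_chart_source 𝔼 x
  have ha := (chartAt 𝔼 x).map_source hs
  rw [df_eq_fderiv x hs]
  have h1 : ∀ i, HasFDerivAt (fun a => f i ((chartAt 𝔼 x).symm a))
      (fderiv ℝ (fun a => f i ((chartAt 𝔼 x).symm a)) (chartAt 𝔼 x x)) (chartAt 𝔼 x x) := by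
    intro i
    have h2 : ContDiffAt ℝ ∞ (Bo84.inCh n x (f i)) (chartAt 𝔼 x x) :=
      Bo84.contDiffAt_inCh le_rfl ha (hf i _)
    exact (h2.differentiableAt (by simp)).hasFDerivAt
  have h3 : HasFDerivAt (fun a => fun i => f i ((chartAt 𝔼 x).symm a))
      (ContinuousLinearMap.pi fun i =>
        fderiv ℝ (fun a => f i ((chartAt 𝔼 x).symm a)) (chartAt 𝔼 x x)) (chartAt 𝔼 x x) :=
    hasFDerivAt_pi.2 h1
  have h4 : (fun i => f i ((chartAt 𝔼 x).symm (chartAt 𝔼 x x))) = fun i => f i x := by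
    rw [(chartAt 𝔼 x).left_inv hs]
  have h5 : HasFDerivAt F (fderiv ℝ F (fun i => f i x))
      ((fun a => fun i => f i ((chartAt 𝔼 x).symm a)) (chartAt 𝔼 x x)) := by
    show HasFDerivAt F (fderiv ℝ F (fun i => f i x))
      (fun i => f i ((chartAt 𝔼 x).symm (chartAt 𝔼 x x)))
    rw [h4]
    exact ((hF.contDiffAt (hU.mem_nhds (hx x))).differentiableAt (by simp)).hasFDerivAt
  have h6 := (h5.comp (chartAt 𝔼 x x) h3).fderiv
  have e : (fun a => F (fun i => f i ((chartAt 𝔼 x).symm a))) =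
      F ∘ fun a => fun i => f i ((chartAt 𝔼 x).symm a) := rfl
  rw [e, h6, ContinuousLinearMap.comp_apply]
  set w : Fin k → ℝ := (ContinuousLinearMap.pi fun i =>
        fderiv ℝ (fun a => f i ((chartAt 𝔼 x).symm a)) (chartAt 𝔼 x x)) (dC x x v) with hw
  have h7 : w = ∑ i, w i • (Pi.single i (1 : ℝ) : Fin k → ℝ) := by
    funext j
    simp [Finset.sum_apply, Pi.single_apply]
  have h8 : ∀ i, w i = df (f i) x v := by
    intro i
    rw [df_eq_fderiv x hs]
    rfl
  calc fderiv ℝ F (fun i => f i x) w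
      = fderiv ℝ F (fun i => f i x) (∑ i, w i • (Pi.single i (1 : ℝ) : Fin k → ℝ)) := by rw [← h7]
    _ = ∑ i, fderiv ℝ F (fun j => f j x) (Pi.single i 1) * df (f i) x v := by
        rw [map_sum]
        refine Finset.sum_congr rfl fun i _ => ?_
        rw [map_smul, smul_eq_mul, h8 i]
        ring

variable [SecondCountableTopology M] [Nonempty M]

theorem df_mGam {f g : M → ℝ} (hf : Sm n f) (hg : Sm n g) (x : M) (v : TangentSpace (𝓡 n) x) :
    df (Bo84.mGam n f g) x v = ∑ a, (Bo84.mHess n f x v (fr x a) * df g x (fr x a) +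
      Bo84.mHess n g x v (fr x a) * df f x (fr x a)) := by
  have h1 := Bo84.mfderiv_mGam (n := n) (hf.two x) (hg.two x) v
  have h2 : df (Bo84.mGam n f g) x v = mfderiv (𝓡 n) 𝓘(ℝ, ℝ) (Bo84.mGam n f g) x v := rfl
  rw [h2, h1, Finset.sum_add_distrib]
  have h3 : ∀ {f g : M → ℝ}, Sm n f → Bo84.mHess n f x v (Bo84.mgrad n g x) =
      ∑ a, Bo84.mHess n f x v (fr x a) * df g x (fr x a) := by
    intro f g hf
    rw [← Bo84.inner_mHessE (hf.two x), Bo84.inner_frame (fun a b => inner_fr (n := n) x a b)]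
    refine Finset.sum_congr rfl fun a _ => ?_
    rw [Bo84.inner_mHessE (hf.two x), Bo84.inner_mgrad']
    rfl
  rw [h3 hf, h3 hg]

end General

/-! ### the instance -/

section Inst

variable {M : Type*} [MetricSpace M] [ChartedSpace (EuclideanSpace ℝ (Fin 4)) M]
  [IsManifold (𝓡 4) ∞ M]
  [RiemannianBundle (fun p : M => TangentSpace (𝓡 4) p)]
  [IsContMDiffRiemannianBundle (𝓡 4) ∞ (EuclideanSpace ℝ (Fin 4)) (fun p : M => TangentSpace (𝓡 4) p)]

section C0

variable [SecondCountableTopology M] [Nonempty M]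

variable (M) in
/-- the operations -/
def calc0 (lam : ℝ) : Calc_806.Calc0 M where
  Sm f := Sm 4 f
  D f x i := (Real.sqrt lam)⁻¹ * df f x (fr x i)
  Hs f x := Matrix.of fun i j => lam⁻¹ * Bo84.mHess 4 f x (fr x i) (fr x j)

variable {lam : ℝ}



theorem calc0_Hs (f : M → ℝ) (x : M) (i j : Fin 4) :
    (calc0 M lam).Hs f x i j = lam⁻¹ * Bo84.mHess 4 f x (fr x i) (fr x j) := rfl

theorem calc0_L {f : M → ℝ} (hf : Sm 4 f) (x : M) :
    (calc0 M lam).L f x = lam⁻¹ * Bo84.mLap 4 f x := by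
  rw [Bo84.mLap_frame (hf.two x) (fun a b => inner_fr (n := 4) x a b), Finset.mul_sum]
  rfl

theorem calc0_G (h0 : 0 < lam) (f g : M → ℝ) (x : M) :
    (calc0 M lam).G f g x = lam⁻¹ * Bo84.mGam 4 f g x := by
  rw [← inner_Gr_eq_mGam, inner_Gr, Finset.mul_sum]
  show ∑ i, ((Real.sqrt lam)⁻¹ * df f x (fr x i)) * ((Real.sqrt lam)⁻¹ * df g x (fr x i)) = _
  refine Finset.sum_congr rfl fun i _ => ?_
  have h1 : (Real.sqrt lam)⁻¹ * (Real.sqrt lam)⁻¹ = lam⁻¹ := by
    rw [← mul_inv, Real.mul_self_sqrt h0.le]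
  calc _ = ((Real.sqrt lam)⁻¹ * (Real.sqrt lam)⁻¹) * (df f x (fr x i) * df g x (fr x i)) := by ring
    _ = _ := by rw [h1]

theorem calc0_G' (h0 : 0 < lam) (f g : M → ℝ) :
    (calc0 M lam).G f g = fun x => lam⁻¹ * Bo84.mGam 4 f g x :=
  funext fun x => calc0_G h0 f g x

theorem calc0_L' {f : M → ℝ} (hf : Sm 4 f) :
    (calc0 M lam).L f = fun x => lam⁻¹ * Bo84.mLap 4 f x :=
  funext fun x => calc0_L hf x

theorem calc0_Q {f : M → ℝ} (hf : Sm 4 f) (x : M) :
    (calc0 M lam).Q f x = (lam ^ 2)⁻¹ * Bo84.mHessSq 4 f x := by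
  rw [Bo84.mHessSq_frame (hf.two x) (fun a b => inner_fr (n := 4) x a b), Finset.mul_sum]
  show ∑ i, ∑ j, (lam⁻¹ * Bo84.mHess 4 f x (fr x i) (fr x j)) ^ 2 = _
  refine Finset.sum_congr rfl fun i _ => ?_
  rw [Finset.mul_sum]
  refine Finset.sum_congr rfl fun j _ => ?_
  rw [mul_pow, inv_pow]

theorem sm_smul (c : ℝ) {f : M → ℝ} (hf : Sm 4 f) : Sm 4 (fun x => c * f x) :=
  contMDiff_const.mul hf

end C0

variable [CompactSpace M] [ConnectedSpace M] [IsRiemannianManifold (𝓡 4) M]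

/-- the Poisson equation is solvable (helper324) -/
def PoissonStmt (M : Type*) [MetricSpace M] [ChartedSpace (EuclideanSpace ℝ (Fin 4)) M]
    [IsManifold (𝓡 4) ∞ M]
    [RiemannianBundle (fun p : M => TangentSpace (𝓡 4) p)]
    [IsContMDiffRiemannianBundle (𝓡 4) ∞ (EuclideanSpace ℝ (Fin 4))
      (fun p : M => TangentSpace (𝓡 4) p)] [MeasurableSpace M] [BorelSpace M] : Prop :=
  ∀ g : M → ℝ, Sm 4 g → ∫ x, g x ∂(μHE[4] : Measure M) = 0 →
    ∃ u : M → ℝ, Sm 4 u ∧ ∀ x, Bo84.mLap 4 u x = g x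

variable [MeasurableSpace M] [BorelSpace M]

/-- **The calculus of a closed 4-manifold with `Ric ≥ lam > 0`.** -/
def calcOf (lam : ℝ) (h0 : 0 < lam) (hR : HasRicciLowerBound 4 M lam) (hP : PoissonStmt M) :
    Calc_806.Calc M (μHE[4] : Measure M) where
  toCalc0 := calc0 M lam
  sm_cont hf := Sm.continuous hf
  sm_comp hU hF _ hf hx := sm_comp hU hF hf hx
  D_comp := by
    intro k F U hU hF f hf hx x
    funext i
    show (Real.sqrt lam)⁻¹ * df (fun x => F (fun i => f i x)) x (fr x i) = _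
    rw [df_comp_pi hU hF hf hx, Finset.mul_sum, Finset.sum_apply]
    refine Finset.sum_congr rfl fun j _ => ?_
    show _ = fderiv ℝ F (fun j => f j x) (Pi.single j 1) * ((Real.sqrt lam)⁻¹ * df (f j) x (fr x i))
    ring
  sm_G := by
    intro f g hf hg
    rw [calc0_G' h0]
    exact sm_smul _ (Sm.mGam hf hg)
  sm_L := by
    intro f hf
    rw [calc0_L' hf]
    exact sm_smul _ (Sm.mLap hf)
  hs_symm := by
    intro f hf x i j
    rw [calc0_Hs, calc0_Hs, Bo84.mHess_symm (Sm.two hf x)]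
  D_G := by
    intro f g hf hg x
    funext i
    rw [calc0_G' h0]
    show (Real.sqrt lam)⁻¹ * df (fun x => lam⁻¹ * Bo84.mGam 4 f g x) x (fr x i) =
      (∑ a, lam⁻¹ * Bo84.mHess 4 f x (fr x i) (fr x a) * ((Real.sqrt lam)⁻¹ * df g x (fr x a))) +
      (∑ a, lam⁻¹ * Bo84.mHess 4 g x (fr x i) (fr x a) * ((Real.sqrt lam)⁻¹ * df f x (fr x a)))
    have e : df (fun x => lam⁻¹ * Bo84.mGam 4 f g x) x (fr x i) =
        lam⁻¹ * df (Bo84.mGam 4 f g) x (fr x i) := by
      rw [df_const_mul _ (mdiff (Sm.mGam hf hg) x)]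
      rfl
    rw [e, df_mGam hf hg, ← Finset.sum_add_distrib, Finset.mul_sum, Finset.mul_sum]
    refine Finset.sum_congr rfl fun a _ => ?_
    ring
  L_const := by
    intro c x
    rw [calc0_L contMDiff_const, Bo84.mLap_const, mul_zero]
  L_add := by
    intro f g hf hg x
    have hs : Sm 4 (fun y => f y + g y) := ContMDiff.add hf hg
    rw [calc0_L hf, calc0_L hg, calc0_L hs, Bo84.mLap_add (Sm.two hf x)
      (Sm.two hg x), mul_add]
  L_mul := by
    intro f g hf hg x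
    have hs : Sm 4 (fun y => f y * g y) := ContMDiff.mul hf hg
    rw [calc0_L hf, calc0_L hg, calc0_L hs, Bo84.mLap_mul (Sm.two hf x)
      (Sm.two hg x), calc0_G h0]
    ring
  L_comp := by
    intro φ U hU hφ f hf hx x
    have h1 : ContDiffAt ℝ 2 φ (f x) :=
      (hφ.contDiffAt (hU.mem_nhds (hx x))).of_le Bo84.two_le_infty
    have h2 : Sm 4 (fun y => φ (f y)) := fun y =>
      ContMDiffAt.comp (g := φ) (f := f) y
        (hφ.contDiffAt (hU.mem_nhds (hx y))).contMDiffAt (hf y)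
    rw [calc0_L hf, calc0_L h2, Bo84.mLap_comp h1 (Sm.two hf x), calc0_G h0]
    ring
  int_parts := by
    intro u v hu hv
    rw [calc0_L' hv, calc0_G' h0]
    have h1 := integral_mul_mLap (n := 4) (M := M) hv hu
    have h2 : ∀ x, u x * (lam⁻¹ * Bo84.mLap 4 v x) = lam⁻¹ * (u x * Bo84.mLap 4 v x) := by
      intro x; ring
    simp_rw [h2]
    rw [integral_const_mul, integral_const_mul, h1]
    simp_rw [Bo84.mGam_comm v u]
    ring
  bochner := by
    intro f hf x
    have h1 := Bo84.mBochner_ineq hR ((hf x).of_le Bo84.three_le_infty)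
    have h2 : Sm 4 (fun x => lam⁻¹ * Bo84.mGam 4 f f x) := sm_smul _ (Sm.mGam hf hf)
    rw [calc0_Q hf, calc0_L' hf, calc0_G h0, calc0_G' h0, calc0_L h2,
      Bo84.mGam_const_mul_right _ (mdiff (Sm.mLap hf) x),
      Bo84.mLap_const_mul _ (Sm.two (Sm.mGam hf hf) x)]
    have h3 : 0 < (lam ^ 2)⁻¹ := by positivity
    have h4 := mul_le_mul_of_nonneg_left h1 h3.le
    have h5 : (lam ^ 2)⁻¹ = lam⁻¹ * lam⁻¹ := by rw [sq, mul_inv]
    have h6 : lam⁻¹ * lam = 1 := inv_mul_cancel₀ h0.ne'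
    calc (lam ^ 2)⁻¹ * Bo84.mHessSq 4 f x + lam⁻¹ * (lam⁻¹ * Bo84.mGam 4 f (Bo84.mLap 4 f) x) +
          lam⁻¹ * Bo84.mGam 4 f f x
        = (lam ^ 2)⁻¹ * (Bo84.mHessSq 4 f x + Bo84.mGam 4 f (Bo84.mLap 4 f) x +
            lam * Bo84.mGam 4 f f x) := by
          rw [h5]
          have h7 : lam⁻¹ * lam⁻¹ * (lam * Bo84.mGam 4 f f x) =
            lam⁻¹ * (lam⁻¹ * lam) * Bo84.mGam 4 f f x := by ring
          rw [mul_add, mul_add, h7, h6]
          ring
      _ ≤ (lam ^ 2)⁻¹ * (1 / 2 * Bo84.mLap 4 (Bo84.mGam 4 f f) x) := h4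
      _ = _ := by rw [h5]; ring
  resolvent := by
    intro c hc g hg
    obtain ⟨u, hu, hue⟩ := exists_solution (n := 4) (M := M) (c := lam * c) (mul_pos h0 hc)
      (G := fun x => lam * g x) (sm_smul _ hg)
    refine ⟨u, hu, fun x => ?_⟩
    rw [calc0_L hu]
    have h1 := hue x
    have h2 : Bo84.mLap 4 u x = lam * (g x + c * u x) := by linarith
    rw [h2, ← mul_assoc, inv_mul_cancel₀ h0.ne']
    ring
  max_pr := by
    intro c hc u hu h
    refine max_principle (n := 4) (fun z => Sm.two hu z) (q := fun _ => lam * c)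
      (fun _ => mul_pos h0 hc) (fun z => ?_)
    have h1 := h z
    rw [calc0_L hu] at h1
    have h2 : c * u z ≤ lam⁻¹ * Bo84.mLap 4 u z := by linarith
    have h3 := mul_le_mul_of_nonneg_left h2 h0.le
    rw [← mul_assoc lam lam⁻¹, mul_inv_cancel₀ h0.ne', one_mul] at h3
    linarith
  poisson := by
    intro g hg hi
    obtain ⟨u, hu, hue⟩ := hP (fun x => lam * g x) (sm_smul _ hg) (by
      rw [integral_const_mul, hi, mul_zero])
    refine ⟨u, hu, fun x => ?_⟩
    rw [calc0_L hu, hue x, ← mul_assoc, inv_mul_cancel₀ h0.ne', one_mul]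

end Inst

end

end Crest.Agent.R249.CalM_255
end

-- ▼ part R249/StGb_912
section

/-!
Row 249, part A2 (helper912), task A2-ASM, file 2: the assembly.

* `LimStmt C a` : the output of the limit passage (BP-A2, section 9) with the certificate, in the
  abstract calculus;
* `stc_of` : `STHyp M lam f` gives the normalised hypothesis `STC` for `F = f / k0²`;
* `app_of` : approximate pairs;
* `st_of_lim` : `PoissonAll → (LimStmt on all closed 4-manifolds) → ST`.
-/

set_option autoImplicit false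
set_option maxSynthPendingDepth 3
set_option linter.unusedSectionVars false
set_option linter.unusedVariables false

open Bundle Bornology Set MeasureTheory Manifold Filter Metric
open scoped ENNReal ContDiff Topology NNReal
open Crest.GeometryTopology.CoordMetric Crest.GeometryTopology.ChartCurvature
  Crest.GeometryTopology.PointedLimit
open Crest.Agent.R247.Bo84 Crest.Agent.R247.Bs84
open Crest.Agent.R249.Top49

noncomputable section

namespace Crest.Agent.R249.StG_912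

open Crest.Agent.R249.StF_912
open Calc_806 Calc_806.Calc Pen_806

section Abs

variable {X : Type*} [TopologicalSpace X] [MeasurableSpace X] {μ : Measure X}

/-- `F = (φ ψ)^a` -/
def Fp (a : ℕ) (φ ψ : X → ℝ) (x : X) : ℝ := (φ x * ψ x) ^ a

/-- **Input of the assembly** = output of the limit passage (section 9) combined with the
certificate: for all small `d` and all data there are penalised pairs, as accurate as we like, with
`∫ |dF|² + (F (1 - F))² ≤ K₀ ∫ Rem + t`. -/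
def LimStmt (C : Calc X μ) (a : ℕ) : Prop :=
  ∃ K₀ d₀ : ℝ, 0 < K₀ ∧ 0 < d₀ ∧ ∀ d : ℝ, 0 < d → d ≤ d₀ → ∀ φ₀ ψ₀ : X → ℝ, Dat C d φ₀ ψ₀ →
    ∀ t : ℝ, 0 < t → ∃ K e ε : ℝ, 0 < e ∧ e ≤ t ∧ K * e ≤ 1 ∧ ε ≤ 1 ∧
      ∃ S : PenSol C φ₀ ψ₀ d K e ε,
        ∫ x, (C.G (Fp a S.φ S.ψ) (Fp a S.φ S.ψ) x +
          (Fp a S.φ S.ψ x * (1 - Fp a S.φ S.ψ x)) ^ 2) ∂μ ≤
        K₀ * ∫ x, Rem d (S.φ x) (S.ψ x) (C.G S.φ S.φ x) (C.G S.ψ S.ψ x) ∂μ + t

end Abs

section Four

variable {M : Type*} [MetricSpace M] [ChartedSpace (EuclideanSpace ℝ (Fin 4)) M]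
  [IsManifold (𝓡 4) ∞ M]
  [RiemannianBundle (fun p : M => TangentSpace (𝓡 4) p)]
  [IsContMDiffRiemannianBundle (𝓡 4) ∞ (EuclideanSpace ℝ (Fin 4)) (fun p : M => TangentSpace (𝓡 4) p)]
  [IsRiemannianManifold (𝓡 4) M] [CompactSpace M] [ConnectedSpace M] [MeasurableSpace M]
  [BorelSpace M]

variable {lam : ℝ} {f f₁ f₂ : M → ℝ} {a : ℕ}

/-- the normalised function -/
def nf (lam : ℝ) (f : M → ℝ) (x : M) : ℝ := (k0 lam ^ 2)⁻¹ * f x

theorem sqrt_nf (hlam : 0 < lam) {f : M → ℝ} (x : M) :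
    Real.sqrt (nf lam f x) = Real.sqrt (f x) / k0 lam := by
  have hk := k0_pos hlam
  unfold nf
  rw [Real.sqrt_mul (by positivity), Real.sqrt_inv, Real.sqrt_sq hk.le]
  rw [div_eq_inv_mul]

theorem nf_nonneg (hlam : 0 < lam) (h : STHyp M lam f) (x : M) : 0 ≤ nf lam f x := by
  have hk := k0_pos hlam
  have := h.nonneg x
  unfold nf
  positivity

/-- **the normalised hypothesis**. -/
theorem stc_of (hlam : 0 < lam) (hR : HasRicciLowerBound 4 M lam) (hP : CalM_255.PoissonStmt M)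
    (h : STHyp M lam f) : STC (CalM_255.calcOf lam hlam hR hP) (nf lam f) := by
  have hk := k0_pos hlam
  have sf : ContMDiff (𝓡 4) 𝓘(ℝ, ℝ) ∞ f := h.smooth
  have snf : ContMDiff (𝓡 4) 𝓘(ℝ, ℝ) ∞ (nf lam f) := contMDiff_const.mul sf
  set C := CalM_255.calcOf lam hlam hR hP with hC
  have eG : ∀ x, C.G (nf lam f) (nf lam f) x = lam⁻¹ * ((k0 lam ^ 2)⁻¹ ^ 2 * mGam 4 f f x) := by
    intro x
    have h1 : C.G (nf lam f) (nf lam f) x = lam⁻¹ * mGam 4 (nf lam f) (nf lam f) x :=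
      CalM_255.calc0_G hlam _ _ x
    rw [h1]
    congr 1
    have hm : MDifferentiableAt (𝓡 4) 𝓘(ℝ, ℝ) f x := (sf x).mdifferentiableAt (by simp)
    have hm' : MDifferentiableAt (𝓡 4) 𝓘(ℝ, ℝ) (nf lam f) x := (snf x).mdifferentiableAt (by simp)
    have e1 : nf lam f = fun y => (k0 lam ^ 2)⁻¹ * f y := rfl
    rw [e1, mGam_const_mul_left _ hm, mGam_const_mul_right _ hm]
    ring
  have eL : ∀ x, C.L (nf lam f) x = lam⁻¹ * ((k0 lam ^ 2)⁻¹ * mLap 4 f x) := by
    intro x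
    have h1 : C.L (nf lam f) x = lam⁻¹ * mLap 4 (nf lam f) x := CalM_255.calc0_L snf x
    rw [h1]
    congr 1
    exact mLap_const_mul _ ((sf x).of_le two_le_infty)
  refine ⟨snf, nf_nonneg hlam h, fun x hx => ?_, fun x hx => ?_⟩
  · have hfx : 0 < f x := by
      unfold nf at hx
      exact pos_of_mul_pos_right hx (by positivity)
    have h1 := h.ineq x hfx
    rw [eG x, eL x, sqrt_nf hlam]
    have h2 : 0 < lam⁻¹ * (k0 lam ^ 2)⁻¹ := by positivity
    have h3 := mul_le_mul_of_nonneg_left h1 h2.le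
    have h4 := sqrt6_k0 lam
    have e1 : lam⁻¹ * (k0 lam ^ 2)⁻¹ * ((5 / 6) * (mGam 4 f f x / f x) + 4 * lam * f x -
        2 * Real.sqrt 6 * (f x * Real.sqrt (f x))) =
        5 / 6 * (lam⁻¹ * ((k0 lam ^ 2)⁻¹ ^ 2 * mGam 4 f f x) / nf lam f x) +
        4 * nf lam f x * (1 - Real.sqrt (f x) / k0 lam) := by
      have h6 : Real.sqrt 6 = 2 * lam / k0 lam := by
        rw [eq_div_iff hk.ne']; exact h4
      rw [h6]
      unfold nf
      field_simp
      ring
    rw [← e1]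
    refine h3.trans (le_of_eq ?_)
    ring
  · have hfx : f x = 0 := by
      unfold nf at hx
      have : (k0 lam ^ 2)⁻¹ ≠ 0 := by positivity
      exact (mul_eq_zero.1 hx).resolve_left this
    rw [eG x, eL x]
    have g0 : mGam 4 f f x = 0 := StF_912.STHyp.gam_zero h hfx f
    have l0 : 0 ≤ mLap 4 f x := StF_912.STHyp.lap_zero h hfx
    rw [g0]
    refine ⟨by ring, by positivity⟩

/-- **approximate pairs from the limit passage**. -/
theorem app_of (hlam : 0 < lam) (hR : HasRicciLowerBound 4 M lam) (hP : CalM_255.PoissonStmt M)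
    (h₁ : STHyp M lam f₁) (h₂ : STHyp M lam f₂)
    (hs : ∀ x, Real.sqrt (f₁ x) + Real.sqrt (f₂ x) ≤ 2 * lam * Real.sqrt (2 / 3))
    (hL : LimStmt (CalM_255.calcOf lam hlam hR hP) a) {ε : ℝ} (hε : 0 < ε) :
    ∃ φ ψ : M → ℝ, Approx lam f₁ f₂ a ε φ ψ := by
  have hfin : IsFiniteMeasure (μHE[4] : Measure M) := finMeas (n := 4)
  have hk := k0_pos hlam
  have c₁ := stc_of hlam hR hP h₁
  have c₂ := stc_of hlam hR hP h₂
  have eG : ∀ f g x, (CalM_255.calcOf (M := M) lam hlam hR hP).G f g x = lam⁻¹ * mGam 4 f g x :=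
    fun f g x => CalM_255.calc0_G hlam _ _ x
  set C := CalM_255.calcOf (M := M) lam hlam hR hP with hC
  have hs2 : ∀ x, Real.sqrt (nf lam f₁ x) + Real.sqrt (nf lam f₂ x) ≤ 2 := by
    intro x
    rw [sqrt_nf hlam, sqrt_nf hlam, ← add_div, div_le_iff₀ hk]
    refine (hs x).trans (le_of_eq ?_)
    unfold k0; ring
  obtain ⟨K₀, d₀, hK₀, hd₀, hLim⟩ := hL
  set V := (μHE[4] : Measure M).real univ with hV
  have V0 : 0 ≤ V := measureReal_nonneg
  -- choice of `d`
  set t : ℝ := min (ε / 11) (min (ε / 2) (ε / (2 * lam))) with ht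
  have ht0 : 0 < t := by positivity
  have ht1 : 11 * t ≤ ε := by
    have : t ≤ ε / 11 := min_le_left _ _
    linarith
  have ht2 : t ≤ ε / 2 := (min_le_right _ _).trans (min_le_left _ _)
  have ht3 : t ≤ ε / (2 * lam) := (min_le_right _ _).trans (min_le_right _ _)
  have hη : Tendsto (fun d => K₀ * (eta d * (11 * V + 2))) (𝓝[>] 0) (𝓝 0) := by
    have := (tendsto_eta.mul_const (11 * V + 2)).const_mul K₀
    simpa using this
  have ev1 : ∀ᶠ d in 𝓝[>] (0:ℝ), K₀ * (eta d * (11 * V + 2)) < t := (tendsto_order.1 hη).2 t ht0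
  have ev2 : ∀ᶠ d in 𝓝[>] (0:ℝ), d < min d₀ (min (1 / 8) (ε / 6)) :=
    nhdsWithin_le_nhds (Iio_mem_nhds (by positivity))
  have ev3 : ∀ᶠ d in 𝓝[>] (0:ℝ), 0 < d := self_mem_nhdsWithin
  obtain ⟨d, hd1, hd2, hd⟩ := (ev1.and (ev2.and ev3)).exists
  have hdd : d ≤ d₀ := (hd2.le).trans (min_le_left _ _)
  have hd8 : d ≤ 1 / 8 := (hd2.le).trans ((min_le_right _ _).trans (min_le_left _ _))
  have hd6 : d ≤ ε / 6 := (hd2.le).trans ((min_le_right _ _).trans (min_le_right _ _))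
  have D := dat_of_STC hd hd8 c₁ c₂ hs2
  obtain ⟨K, e, ε', he, het, hKe, hε', S, hI⟩ := hLim d hd hdd _ _ D (min t (1 / 320))
    (by positivity)
  have he1 : e ≤ 1 / 320 := het.trans (min_le_right _ _)
  have het' : e ≤ t := het.trans (min_le_left _ _)
  have hRem := PenSol_int_Rem_le S D hd hd8 he he1 hKe hε'
  have sφ : ContMDiff (𝓡 4) 𝓘(ℝ, ℝ) ∞ S.φ := S.sφ
  have sψ : ContMDiff (𝓡 4) 𝓘(ℝ, ℝ) ∞ S.ψ := S.sψ
  have sF : ContMDiff (𝓡 4) 𝓘(ℝ, ℝ) ∞ (Fp a S.φ S.ψ) := (sφ.mul sψ).pow a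
  set I₁ := ∫ x, C.G (Fp a S.φ S.ψ) (Fp a S.φ S.ψ) x ∂(μHE[4] : Measure M) with hI₁
  set I₂ := ∫ x, (Fp a S.φ S.ψ x * (1 - Fp a S.φ S.ψ x)) ^ 2 ∂(μHE[4] : Measure M) with hI₂
  have sFC : C.Sm (Fp a S.φ S.ψ) := sF
  have j1 : Integrable (fun x => C.G (Fp a S.φ S.ψ) (Fp a S.φ S.ψ) x) (μHE[4] : Measure M) :=
    integrable_sm (C.sm_G sFC sFC)
  have j2 : Integrable (fun x => (Fp a S.φ S.ψ x * (1 - Fp a S.φ S.ψ x)) ^ 2)
      (μHE[4] : Measure M) :=
    integrable_sm (sm_pow (sm_mul sFC (sm_sub (sm_const 1) sFC)) 2)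
  have hsum : I₁ + I₂ ≤ 2 * t := by
    have e1 : ∫ x, (C.G (Fp a S.φ S.ψ) (Fp a S.φ S.ψ) x +
          (Fp a S.φ S.ψ x * (1 - Fp a S.φ S.ψ x)) ^ 2) ∂(μHE[4] : Measure M) = I₁ + I₂ :=
      integral_add j1 j2
    rw [e1] at hI
    have e2 := mul_le_mul_of_nonneg_left hRem hK₀.le
    have e3 : min t (1 / 320) ≤ t := min_le_left _ _
    linarith
  have I₁0 : 0 ≤ I₁ := integral_nonneg fun x => G_self_nonneg _ x
  have I₂0 : 0 ≤ I₂ := integral_nonneg fun x => sq_nonneg _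
  -- the lower bounds
  have low : ∀ (f : M → ℝ) (u : M → ℝ), STHyp M lam f → (∀ x, Real.sqrt (nf lam f x) ≤ 2) →
      (∀ x, reg d (nf lam f) x ≤ u x) → ∀ x, Real.sqrt (f x) ≤ k0 lam * (u x ^ 3 + ε) := by
    intro f u hf hf2 hu x
    have hn := nf_nonneg hlam hf
    have r1 := reg_cube hd hd8 hn x
    have r2 : reg d (nf lam f) x ^ 3 ≤ u x ^ 3 :=
      pow_le_pow_left₀ (reg_pos hd hd8 hn x).le (hu x) 3
    have r3 : Real.sqrt (nf lam f x) ≤ Real.sqrt (nf lam f x + d ^ 2) :=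
      Real.sqrt_le_sqrt (by nlinarith [sq_nonneg d])
    have r4 := one_sub_th3 hd
    have r5 := th3_ge hd hd8
    have r6 := hf2 x
    have r7 := Real.sqrt_nonneg (nf lam f x)
    have r8 : th3 d * Real.sqrt (nf lam f x) ≤ u x ^ 3 := by
      refine le_trans ?_ r2
      rw [r1]
      exact mul_le_mul_of_nonneg_left r3 (by linarith)
    have r9 : Real.sqrt (nf lam f x) ≤ u x ^ 3 + 6 * d := by
      have : (1 - th3 d) * Real.sqrt (nf lam f x) ≤ 3 * d * 2 :=
        mul_le_mul r4 r6 r7 (by positivity)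
      linarith
    rw [sqrt_nf hlam, div_le_iff₀ hk] at r9
    have r10 : u x ^ 3 + 6 * d ≤ u x ^ 3 + ε := by linarith
    calc Real.sqrt (f x) ≤ (u x ^ 3 + 6 * d) * k0 lam := r9
      _ ≤ (u x ^ 3 + ε) * k0 lam := mul_le_mul_of_nonneg_right r10 hk.le
      _ = k0 lam * (u x ^ 3 + ε) := mul_comm _ _
  refine ⟨S.φ, S.ψ, sφ, sψ, fun x => (S.φpos D x).le, fun x => (S.ψpos D x).le, fun x => ?_,
    low f₁ S.φ h₁ (fun x => ?_) S.φge, low f₂ S.ψ h₂ (fun x => ?_) S.ψge, ?_, ?_⟩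
  · have := S.kap_ge D he he1 x
    linarith
  · have := hs2 x; have := Real.sqrt_nonneg (nf lam f₂ x); linarith
  · have := hs2 x; have := Real.sqrt_nonneg (nf lam f₁ x); linarith
  · have e1 : I₁ = lam⁻¹ * ∫ x, mGam 4 (Fp a S.φ S.ψ) (Fp a S.φ S.ψ) x ∂(μHE[4] : Measure M) := by
      rw [hI₁]
      simp only [eG]
      exact integral_const_mul _ _
    have e2 : ∫ x, mGam 4 (Fp a S.φ S.ψ) (Fp a S.φ S.ψ) x ∂(μHE[4] : Measure M) = lam * I₁ := by
      rw [e1]; field_simp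
    have e3 : ∫ x, mGam 4 (fun y => (S.φ y * S.ψ y) ^ a) (fun y => (S.φ y * S.ψ y) ^ a) x
        ∂(μHE[4] : Measure M) = lam * I₁ := e2
    rw [e3]
    have e4 : I₁ ≤ 2 * (ε / (2 * lam)) := by linarith
    calc lam * I₁ ≤ lam * (2 * (ε / (2 * lam))) := mul_le_mul_of_nonneg_left e4 hlam.le
      _ = ε := by field_simp
  · have e3 : ∫ x, ((S.φ x * S.ψ x) ^ a * (1 - (S.φ x * S.ψ x) ^ a)) ^ 2
        ∂(μHE[4] : Measure M) = I₂ := rfl
    rw [e3]
    linarith

end Four

/-- the limit passage on all closed 4-manifolds. -/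
def LimAll.{u} : Prop :=
  ∃ a : ℕ, 1 ≤ a ∧ ∀ (M : Type u) [MetricSpace M] [ChartedSpace (EuclideanSpace ℝ (Fin 4)) M]
    [IsManifold (𝓡 4) ∞ M] [CompactSpace M] [ConnectedSpace M]
    [RiemannianBundle (fun x : M => TangentSpace (𝓡 4) x)]
    [IsContMDiffRiemannianBundle (𝓡 4) ∞ (EuclideanSpace ℝ (Fin 4))
      (fun x : M => TangentSpace (𝓡 4) x)]
    [IsRiemannianManifold (𝓡 4) M] [MeasurableSpace M] [BorelSpace M]
    (lam : ℝ) (hlam : 0 < lam) (hR : HasRicciLowerBound 4 M lam) (hP : CalM_255.PoissonStmt M),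
    LimStmt (CalM_255.calcOf lam hlam hR hP) a

/-- the same, for abstract calculi: the form which the limit passage proves. -/
def LimAbs.{u} : Prop :=
  ∃ a : ℕ, 1 ≤ a ∧ ∀ (X : Type u) [TopologicalSpace X] [CompactSpace X] [MeasurableSpace X]
    [OpensMeasurableSpace X] (μ : Measure X) [IsFiniteMeasure μ] (C : Calc X μ), LimStmt C a

theorem limAll_of_limAbs.{u} (h : LimAbs.{u}) : LimAll.{u} := by
  obtain ⟨a, ha, h⟩ := h
  refine ⟨a, ha, ?_⟩
  intro M _ _ _ _ _ _ _ _ _ _ lam hlam hR hP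
  have hfin : IsFiniteMeasure (μHE[4] : Measure M) := finMeas (n := 4)
  exact h M _ _

/-- **ST from the Poisson equation and the limit passage with the certificate.** -/
theorem st_of_lim.{u} (hP : PoissonAll.{u}) (hL : LimAll.{u}) :
    Crest.Agent.R249.Top49.ST.{u} := by
  refine st_of hP ?_
  intro M _ _ _ _ _ _ _ _ _ _ lam hlam hR f₁ f₂ h₁ h₂ hs
  obtain ⟨a, ha, hL⟩ := hL
  have hP' : CalM_255.PoissonStmt M := hP M
  exact ⟨a, ha, fun ε hε => app_of hlam hR hP' h₁ h₂ hs (hL M lam hlam hR hP') hε⟩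

end Crest.Agent.R249.StG_912

end
end

-- ▼ part R249/StHd_912
section

/-!
Row 249, part A2 (helper912), task A2-FIN3, file 4: (ST) from the limit passage for the truncated /
relaxed pair.

* `LimAbs3` : for fixed `g ∈ [0, 1/2]`, `a ≥ 1`, all abstract calculi, all data and every `ε > 0`
  there is a pair with `Appr C g F₁ F₂ a ε φ ψ`;
* `st_of_lim3 : PoissonAll → LimAbs3 → Top49.ST`.
-/

set_option autoImplicit false
set_option maxSynthPendingDepth 3
set_option linter.unusedSectionVars false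
set_option linter.unusedVariables false

open Bundle Bornology Set MeasureTheory Manifold Filter Metric
open scoped ENNReal ContDiff Topology NNReal
open Crest.GeometryTopology.CoordMetric Crest.GeometryTopology.ChartCurvature
  Crest.GeometryTopology.PointedLimit
open Crest.Agent.R247.Bo84 Crest.Agent.R247.Bs84
open Crest.Agent.R249.Top49

noncomputable section

namespace Crest.Agent.R249.StH_912

open Crest.Agent.R249.StF_912 (k0 k0_pos k0_sq PoissonAll const_of_le finMeas)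
open Crest.Agent.R249.StG_912 (nf sqrt_nf nf_nonneg stc_of)
open Calc_806 Pen_806

/-- **Frozen input of the assembly**: the limit passage with the certificate, for all abstract
calculi. -/
def LimAbs3.{u} : Prop :=
  ∃ (g : ℝ) (a : ℕ), 0 ≤ g ∧ g ≤ 1 / 2 ∧ 1 ≤ a ∧
    ∀ (X : Type u) [TopologicalSpace X] [CompactSpace X] [Nonempty X] [MeasurableSpace X]
      [OpensMeasurableSpace X] (μ : Measure X) [IsFiniteMeasure μ] [μ.IsOpenPosMeasure]
      (C : Calc X μ) (F₁ F₂ : X → ℝ), STC C F₁ → STC C F₂ →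
      (∀ x, Real.sqrt (F₁ x) + Real.sqrt (F₂ x) ≤ 2) →
      ∀ ε : ℝ, 0 < ε → ∃ φ ψ : X → ℝ, Appr C g F₁ F₂ a ε φ ψ

section Four

variable {M : Type*} [MetricSpace M] [ChartedSpace (EuclideanSpace ℝ (Fin 4)) M]
  [IsManifold (𝓡 4) ∞ M]
  [RiemannianBundle (fun p : M => TangentSpace (𝓡 4) p)]
  [IsContMDiffRiemannianBundle (𝓡 4) ∞ (EuclideanSpace ℝ (Fin 4)) (fun p : M => TangentSpace (𝓡 4) p)]
  [IsRiemannianManifold (𝓡 4) M] [CompactSpace M] [ConnectedSpace M] [MeasurableSpace M]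
  [BorelSpace M]

variable {lam : ℝ} {f f₁ f₂ : M → ℝ} {a : ℕ} {g : ℝ}

theorem sqrt_le_of_nf (hlam : 0 < lam) {x : M} (h : nf lam f x ≤ 1) :
    Real.sqrt (f x) ≤ k0 lam := by
  have hk := k0_pos hlam
  have h1 : Real.sqrt (nf lam f x) ≤ 1 := by
    rw [Real.sqrt_le_left zero_le_one]; simpa using h
  rw [sqrt_nf hlam, div_le_iff₀ hk] at h1
  linarith

theorem zero_of_lt (hlam : 0 < lam) (h : STHyp M lam f) (hn : ∀ x, nf lam f x < 1) :
    ∀ x, f x = 0 := by
  have hk := k0_pos hlam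
  rcases const_of_le hlam h (fun x => sqrt_le_of_nf hlam (hn x).le) with h' | h'
  · exact h'
  · exfalso
    obtain ⟨x⟩ : Nonempty M := inferInstance
    have h1 := hn x
    unfold nf at h1
    rw [h' x, k0_sq] at h1
    have : (2 / 3 * lam ^ 2)⁻¹ * (2 / 3 * lam ^ 2) = 1 := by field_simp
    linarith

/-- **the conclusion of (ST) from approximate pairs** -/
theorem st3 (hlam : 0 < lam) (hR : HasRicciLowerBound 4 M lam) (hP : CalM_255.PoissonStmt M)
    (h₁ : STHyp M lam f₁) (h₂ : STHyp M lam f₂)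
    (hs : ∀ x, Real.sqrt (f₁ x) + Real.sqrt (f₂ x) ≤ 2 * lam * Real.sqrt (2 / 3))
    (hg0 : 0 ≤ g) (hg : g ≤ 1 / 2) (ha : 1 ≤ a)
    (happ : (∀ x, Real.sqrt (nf lam f₁ x) + Real.sqrt (nf lam f₂ x) ≤ 2) →
      ∀ ε : ℝ, 0 < ε → ∃ φ ψ : M → ℝ,
      Appr (CalM_255.calcOf lam hlam hR hP) g (nf lam f₁) (nf lam f₂) a ε φ ψ) :
    (∀ x, f₁ x = 0) ∨ (∀ x, f₂ x = 0) ∨
        (∀ x, f₁ x = 2 / 3 * lam ^ 2 ∧ f₂ x = 2 / 3 * lam ^ 2) := by
  have hfin : IsFiniteMeasure (μHE[4] : Measure M) := finMeas (n := 4)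
  have hopen : (μHE[4] : Measure M).IsOpenPosMeasure := Crest.Agent.R247.Ms322.isOpenPosMeasure 4 M
  have hk := k0_pos hlam
  have c₁ := stc_of hlam hR hP h₁
  have c₂ := stc_of hlam hR hP h₂
  have hs2 : ∀ x, Real.sqrt (nf lam f₁ x) + Real.sqrt (nf lam f₂ x) ≤ 2 := by
    intro x
    rw [sqrt_nf hlam, sqrt_nf hlam, ← add_div, div_le_iff₀ hk]
    refine (hs x).trans (le_of_eq ?_)
    unfold k0; ring
  rcases final3 hg0 hg ha c₁ c₂ hs2 (happ hs2) with h | h | h
  · exact Or.inl (zero_of_lt hlam h₁ h)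
  · exact Or.inr (Or.inl (zero_of_lt hlam h₂ h))
  · rcases const_of_le hlam h₁ (fun x => sqrt_le_of_nf hlam (h x).1) with h' | h'
    · exact Or.inl h'
    · rcases const_of_le hlam h₂ (fun x => sqrt_le_of_nf hlam (h x).2) with h'' | h''
      · exact Or.inr (Or.inl h'')
      · exact Or.inr (Or.inr fun x => ⟨h' x, h'' x⟩)

end Four

/-- **ST from the Poisson equation and the limit passage for the truncated/relaxed pair.** -/
theorem st_of_lim3.{u} (hP : PoissonAll.{u}) (hL : LimAbs3.{u}) :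
    Crest.Agent.R249.Top49.ST.{u} := by
  intro M _ _ _ _ _ _ _ _ lam hlam hR f₁ f₂ h₁ h₂ hs
  let _ : MeasurableSpace M := borel M
  have hb : BorelSpace M := ⟨rfl⟩
  have hfin : IsFiniteMeasure (μHE[4] : Measure M) := finMeas (n := 4)
  have hopen : (μHE[4] : Measure M).IsOpenPosMeasure := Crest.Agent.R247.Ms322.isOpenPosMeasure 4 M
  have hP' : CalM_255.PoissonStmt M := hP M
  obtain ⟨g, a, hg0, hg, ha, hL⟩ := hL
  refine st3 hlam hR hP' h₁ h₂ hs hg0 hg ha fun hs2 ε hε => ?_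
  exact hL M (μHE[4] : Measure M) (CalM_255.calcOf lam hlam hR hP') (nf lam f₁) (nf lam f₂)
    (stc_of hlam hR hP' h₁) (stc_of hlam hR hP' h₂) hs2 ε hε

end Crest.Agent.R249.StH_912

end
end

-- ▼ part R249/StHe_912

/-!
Row 249, part A2 (helper912), task A2-FIN3, file 5: the ansatz-independent target for the
certificate:

`OmS g N u v P Q = ((u - g)(v - g))^N (P + Q + (u - 1)² + (v - 1)²)`  (`P = |dφ|²`, `Q = |dψ|²`).

* `Fq_le` : pointwise `|dF|² + (F (1 - F))² ≤ KS N * OmS`, `F = Fq g (N + 1) φ ψ`;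
* `LimOm` : approximate pairs with `∫ OmS → 0`, for all abstract calculi;
* `st_of_limOm : PoissonAll → LimOm → Top49.ST`.
-/

set_option autoImplicit false
set_option linter.unusedVariables false
set_option linter.unusedSectionVars false

open MeasureTheory Set Filter Topology Matrix
open scoped ContDiff

noncomputable section

namespace Crest.Agent.R249.StH_912

open Calc_806 Calc_806.Calc Pen_806

/-- the target of the certificate -/
def OmS (g : ℝ) (N : ℕ) (u v P Q : ℝ) : ℝ :=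
  ((u - g) * (v - g)) ^ N * (P + Q + (u - 1) ^ 2 + (v - 1) ^ 2)

/-- the constant -/
def KS (N : ℕ) : ℝ := ((N : ℝ) + 1) ^ 2 * 64 ^ N * 128 + 256 * 64 ^ N * (((N : ℝ) + 1) * 16 ^ N) ^ 2 * 128

theorem KS_pos (N : ℕ) : 0 < KS N := by unfold KS; positivity


/-- `|1 - b^(n+1)| ≤ (n+1) 16^n |1 - b|` for `0 ≤ b ≤ 16` -/
theorem one_sub_pow_le {b : ℝ} (hb : 0 ≤ b) (hb2 : b ≤ 16) (n : ℕ) :
    |1 - b ^ (n + 1)| ≤ ((n : ℝ) + 1) * 16 ^ n * |1 - b| := by
  have h1 : 1 - b ^ (n + 1) = (1 - b) * ∑ i ∈ Finset.range (n + 1), b ^ i := by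
    have := mul_neg_geom_sum b (n + 1)
    linarith
  rw [h1, abs_mul, mul_comm]
  refine mul_le_mul_of_nonneg_right ?_ (abs_nonneg _)
  rw [abs_of_nonneg (Finset.sum_nonneg fun i _ => pow_nonneg hb i)]
  calc ∑ i ∈ Finset.range (n + 1), b ^ i ≤ ∑ _i ∈ Finset.range (n + 1), (16:ℝ) ^ n := by
        refine Finset.sum_le_sum fun i hi => ?_
        have hi' : i ≤ n := Nat.lt_succ_iff.1 (Finset.mem_range.1 hi)
        calc b ^ i ≤ 16 ^ i := pow_le_pow_left₀ hb hb2 i
          _ ≤ 16 ^ n := pow_le_pow_right₀ (by norm_num) hi'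
    _ = ((n : ℝ) + 1) * 16 ^ n := by
        rw [Finset.sum_const, Finset.card_range, nsmul_eq_mul]
        push_cast; ring

/-- the scalar part -/
theorem scal_le {g u v : ℝ} (hg0 : 0 ≤ g) (hg : g ≤ 1 / 2) (hu : g ≤ u) (hv : g ≤ v) (hu2 : u ≤ 2)
    (hv2 : v ≤ 2) (N : ℕ) :
    (((u - g) * (v - g) / (1 - g) ^ 2) ^ (N + 1) *
      (1 - ((u - g) * (v - g) / (1 - g) ^ 2) ^ (N + 1))) ^ 2 ≤
      256 * 64 ^ N * (((N : ℝ) + 1) * 16 ^ N) ^ 2 * 128 *
        (((u - g) * (v - g)) ^ N * ((u - 1) ^ 2 + (v - 1) ^ 2)) := by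
  set w := (u - g) * (v - g) with hw
  have hw0 : 0 ≤ w := mul_nonneg (by linarith) (by linarith)
  have hw4 : w ≤ 4 := by
    have h1 : u - g ≤ 2 := by linarith
    have h2 : v - g ≤ 2 := by linarith
    calc w ≤ 2 * 2 := mul_le_mul h1 h2 (by linarith) (by norm_num)
      _ = 4 := by norm_num
  have h1g : (1 / 2 : ℝ) ≤ 1 - g := by linarith
  have hg2 : (1 / 4 : ℝ) ≤ (1 - g) ^ 2 := by nlinarith
  have hg2' : 0 < (1 - g) ^ 2 := by positivity
  set b := w / (1 - g) ^ 2 with hb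
  have hb0 : 0 ≤ b := div_nonneg hw0 hg2'.le
  have hb4 : b ≤ 4 * w := by
    rw [hb, div_le_iff₀ hg2']; nlinarith
  have hb16 : b ≤ 16 := by linarith
  have e1 : |1 - b| ≤ 4 * |w - (1 - g) ^ 2| := by
    have : 1 - b = -((w - (1 - g) ^ 2) / (1 - g) ^ 2) := by
      rw [hb]; field_simp; ring
    rw [this, abs_neg, abs_div, abs_of_pos hg2', div_le_iff₀ hg2']
    nlinarith [abs_nonneg (w - (1 - g) ^ 2)]
  have e2 : (w - (1 - g) ^ 2) ^ 2 ≤ 8 * ((u - 1) ^ 2 + (v - 1) ^ 2) := by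
    have e : w - (1 - g) ^ 2 = (u - 1) * (v - g) + (1 - g) * (v - 1) := by rw [hw]; ring
    rw [e]
    have h1 : (v - g) ^ 2 ≤ 4 := by nlinarith
    have h2 : (1 - g) ^ 2 ≤ 1 := by nlinarith
    nlinarith [sq_nonneg ((u - 1) * (v - g) - (1 - g) * (v - 1)),
      mul_le_mul_of_nonneg_left h1 (sq_nonneg (u - 1)),
      mul_le_mul_of_nonneg_left h2 (sq_nonneg (v - 1)), sq_nonneg (u - 1), sq_nonneg (v - 1)]
  have e3 := one_sub_pow_le hb0 hb16 N
  set A : ℝ := ((N : ℝ) + 1) * 16 ^ N with hA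
  have hA0 : 0 ≤ A := by positivity
  have e4 : (1 - b ^ (N + 1)) ^ 2 ≤ A ^ 2 * (128 * ((u - 1) ^ 2 + (v - 1) ^ 2)) := by
    have h1 : (1 - b ^ (N + 1)) ^ 2 ≤ (A * |1 - b|) ^ 2 := by
      rw [← sq_abs (1 - b ^ (N + 1))]
      exact pow_le_pow_left₀ (abs_nonneg _) e3 2
    have h2 : |1 - b| ^ 2 ≤ 16 * (w - (1 - g) ^ 2) ^ 2 := by
      calc |1 - b| ^ 2 ≤ (4 * |w - (1 - g) ^ 2|) ^ 2 := pow_le_pow_left₀ (abs_nonneg _) e1 2
        _ = 16 * (w - (1 - g) ^ 2) ^ 2 := by rw [mul_pow, sq_abs]; norm_num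
    have h3 : (A * |1 - b|) ^ 2 ≤ A ^ 2 * (128 * ((u - 1) ^ 2 + (v - 1) ^ 2)) := by
      rw [mul_pow]
      exact mul_le_mul_of_nonneg_left (by linarith) (sq_nonneg A)
    exact h1.trans h3
  have e5 : (b ^ (N + 1)) ^ 2 ≤ 256 * 64 ^ N * w ^ N := by
    have h1 : (b ^ (N + 1)) ^ 2 = b ^ 2 * (b ^ N * b ^ N) := by ring
    have h2 : b ^ N ≤ 16 ^ N := pow_le_pow_left₀ hb0 hb16 N
    have h3 : b ^ N ≤ 4 ^ N * w ^ N := by
      rw [← mul_pow]; exact pow_le_pow_left₀ hb0 hb4 N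
    have h4 : b ^ 2 ≤ 256 := by nlinarith
    rw [h1]
    calc b ^ 2 * (b ^ N * b ^ N) ≤ 256 * (16 ^ N * (4 ^ N * w ^ N)) :=
          mul_le_mul h4 (mul_le_mul h2 h3 (pow_nonneg hb0 N) (by positivity)) (by positivity)
            (by norm_num)
      _ = 256 * 64 ^ N * w ^ N := by
          have : (64:ℝ) ^ N = 16 ^ N * 4 ^ N := by rw [← mul_pow]; norm_num
          rw [this]; ring
  rw [mul_pow]
  calc (b ^ (N + 1)) ^ 2 * (1 - b ^ (N + 1)) ^ 2
      ≤ (256 * 64 ^ N * w ^ N) * (A ^ 2 * (128 * ((u - 1) ^ 2 + (v - 1) ^ 2))) :=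
        mul_le_mul e5 e4 (sq_nonneg _) (by positivity)
    _ = _ := by ring

variable {X : Type*} [TopologicalSpace X] [MeasurableSpace X] {μ : Measure X} {C : Calc X μ}

/-- the gradient part -/
theorem grad_le {g : ℝ} {φ ψ : X → ℝ} (sφ : C.Sm φ) (sψ : C.Sm ψ) (hg0 : 0 ≤ g) (hg : g ≤ 1 / 2)
    (hu : ∀ x, g ≤ φ x) (hv : ∀ x, g ≤ ψ x) (hu2 : ∀ x, φ x ≤ 2) (hv2 : ∀ x, ψ x ≤ 2) (N : ℕ)
    (x : X) : C.G (Fq g (N + 1) φ ψ) (Fq g (N + 1) φ ψ) x ≤
      ((N : ℝ) + 1) ^ 2 * 64 ^ N * 128 *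
        (((φ x - g) * (ψ x - g)) ^ N * (C.G φ φ x + C.G ψ ψ x)) := by
  set w : X → ℝ := fun y => (φ y - g) * (ψ y - g) with hw
  set cg : ℝ := ((1 - g) ^ 2)⁻¹ with hcg
  have su : C.Sm (fun y => φ y - g) := sm_sub sφ (sm_const g)
  have sv : C.Sm (fun y => ψ y - g) := sm_sub sψ (sm_const g)
  have sw : C.Sm w := sm_mul su sv
  have sb : C.Sm (fun y => cg * w y) := sm_smul cg sw
  have eF : Fq g (N + 1) φ ψ = fun y => (cg * w y) ^ (N + 1) := by
    funext y; simp only [Fq, hw, hcg, div_eq_inv_mul]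
  have h1g : (1 / 2 : ℝ) ≤ 1 - g := by linarith
  have hg2 : (1 / 4 : ℝ) ≤ (1 - g) ^ 2 := by nlinarith
  have hg2' : 0 < (1 - g) ^ 2 := by positivity
  have hcg0 : 0 < cg := by positivity
  have hcg4 : cg ≤ 4 := by
    rw [hcg, inv_le_comm₀ hg2' (by norm_num)]; linarith
  have hw0 : 0 ≤ w x := mul_nonneg (by linarith [hu x]) (by linarith [hv x])
  have hw4 : w x ≤ 4 := by
    have h1 : φ x - g ≤ 2 := by linarith [hu2 x]
    have h2 : ψ x - g ≤ 2 := by linarith [hv2 x]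
    calc w x ≤ 2 * 2 := mul_le_mul h1 h2 (by linarith [hv x]) (by norm_num)
      _ = 4 := by norm_num
  have hG : C.G (Fq g (N + 1) φ ψ) (Fq g (N + 1) φ ψ) x =
      (((N:ℝ) + 1) * (cg * w x) ^ N) ^ 2 * (cg ^ 2 * C.G w w x) := by
    have hD : C.D (Fq g (N + 1) φ ψ) x =
        (((N:ℝ) + 1) * (cg * w x) ^ N * cg) • C.D w x := by
      rw [eF, D_pow sb, D_smul cg sw, smul_smul]
      congr 1
      push_cast
      simp
    show C.D (Fq g (N + 1) φ ψ) x ⬝ᵥ C.D (Fq g (N + 1) φ ψ) x = _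
    rw [hD, smul_dotProduct, dotProduct_smul]
    show _ = (((N:ℝ) + 1) * (cg * w x) ^ N) ^ 2 * (cg ^ 2 * (C.D w x ⬝ᵥ C.D w x))
    simp only [smul_eq_mul]
    ring
  have hGw : C.G w w x ≤ 8 * (C.G φ φ x + C.G ψ ψ x) := by
    have e1 : C.G w w x = (ψ x - g) ^ 2 * C.G φ φ x + 2 * ((φ x - g) * (ψ x - g)) * C.G φ ψ x +
        (φ x - g) ^ 2 * C.G ψ ψ x := by
      have hDu : C.D (fun y => φ y - g) x = C.D φ x := by
        rw [D_sub sφ (sm_const g), D_const, sub_zero]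
      have hDv : C.D (fun y => ψ y - g) x = C.D ψ x := by
        rw [D_sub sψ (sm_const g), D_const, sub_zero]
      have hDw : C.D w x = (ψ x - g) • C.D φ x + (φ x - g) • C.D ψ x := by
        rw [hw, D_mul su sv, hDu, hDv]
      show C.D w x ⬝ᵥ C.D w x = (ψ x - g) ^ 2 * (C.D φ x ⬝ᵥ C.D φ x) +
        2 * ((φ x - g) * (ψ x - g)) * (C.D φ x ⬝ᵥ C.D ψ x) + (φ x - g) ^ 2 * (C.D ψ x ⬝ᵥ C.D ψ x)
      rw [hDw]
      simp only [add_dotProduct, dotProduct_add, smul_dotProduct, dotProduct_smul, smul_eq_mul,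
        dotProduct_comm (C.D ψ x) (C.D φ x)]
      ring
    have h2 := two_G_le (C := C) φ ψ x one_pos
    have h3 := le_abs_self (C.G φ ψ x)
    have p1 := G_self_nonneg (C := C) φ x
    have p2 := G_self_nonneg (C := C) ψ x
    have q1 : (φ x - g) ^ 2 ≤ 4 := by nlinarith [hu x, hu2 x]
    have q2 : (ψ x - g) ^ 2 ≤ 4 := by nlinarith [hv x, hv2 x]
    have q3 : (φ x - g) * (ψ x - g) ≤ 4 := hw4
    have q4 : 0 ≤ (φ x - g) * (ψ x - g) := hw0
    rw [e1]
    have r1 : 2 * ((φ x - g) * (ψ x - g)) * C.G φ ψ x ≤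
        ((φ x - g) * (ψ x - g)) * (C.G φ φ x + C.G ψ ψ x) := by
      have : 2 * C.G φ ψ x ≤ C.G φ φ x + C.G ψ ψ x := by
        norm_num at h2; linarith
      calc 2 * ((φ x - g) * (ψ x - g)) * C.G φ ψ x =
            ((φ x - g) * (ψ x - g)) * (2 * C.G φ ψ x) := by ring
        _ ≤ _ := mul_le_mul_of_nonneg_left this q4
    have r2 : ((φ x - g) * (ψ x - g)) * (C.G φ φ x + C.G ψ ψ x) ≤
        4 * (C.G φ φ x + C.G ψ ψ x) := mul_le_mul_of_nonneg_right q3 (by linarith)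
    have r3 : (ψ x - g) ^ 2 * C.G φ φ x ≤ 4 * C.G φ φ x := mul_le_mul_of_nonneg_right q2 p1
    have r4 : (φ x - g) ^ 2 * C.G ψ ψ x ≤ 4 * C.G ψ ψ x := mul_le_mul_of_nonneg_right q1 p2
    linarith
  have hb : ((cg * w x) ^ N) ^ 2 ≤ 64 ^ N * w x ^ N := by
    have h0 : 0 ≤ cg * w x := mul_nonneg hcg0.le hw0
    have h1 : cg * w x ≤ 16 := by
      calc cg * w x ≤ 4 * 4 := mul_le_mul hcg4 hw4 hw0 (by norm_num)
        _ = 16 := by norm_num
    have h2 : cg * w x ≤ 4 * w x := mul_le_mul_of_nonneg_right hcg4 hw0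
    have h3 : (cg * w x) ^ N ≤ 16 ^ N := pow_le_pow_left₀ h0 h1 N
    have h4 : (cg * w x) ^ N ≤ 4 ^ N * w x ^ N := by
      rw [← mul_pow 4]; exact pow_le_pow_left₀ h0 h2 N
    calc ((cg * w x) ^ N) ^ 2 = (cg * w x) ^ N * (cg * w x) ^ N := sq _
      _ ≤ 16 ^ N * (4 ^ N * w x ^ N) := mul_le_mul h3 h4 (pow_nonneg h0 N) (by positivity)
      _ = 64 ^ N * w x ^ N := by
          have : (64:ℝ) ^ N = 16 ^ N * 4 ^ N := by rw [← mul_pow]; norm_num
          rw [this]; ring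
  have hc2 : cg ^ 2 ≤ 16 := by nlinarith
  have hS : 0 ≤ C.G φ φ x + C.G ψ ψ x := by
    have p1 := G_self_nonneg (C := C) φ x
    have p2 := G_self_nonneg (C := C) ψ x
    linarith
  have hGw0 := G_self_nonneg (C := C) w x
  rw [hG, mul_pow]
  calc ((N:ℝ) + 1) ^ 2 * ((cg * w x) ^ N) ^ 2 * (cg ^ 2 * C.G w w x)
      ≤ ((N:ℝ) + 1) ^ 2 * (64 ^ N * w x ^ N) * (16 * (8 * (C.G φ φ x + C.G ψ ψ x))) := by
        refine mul_le_mul (mul_le_mul_of_nonneg_left hb (by positivity)) ?_ ?_ ?_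
        · exact mul_le_mul hc2 hGw hGw0 (by norm_num)
        · exact mul_nonneg (sq_nonneg _) hGw0
        · exact mul_nonneg (by positivity) (mul_nonneg (by positivity) (pow_nonneg hw0 N))
    _ = _ := by ring

/-- **pointwise bound by the target** -/
theorem Fq_le {g : ℝ} {φ ψ : X → ℝ} (sφ : C.Sm φ) (sψ : C.Sm ψ) (hg0 : 0 ≤ g) (hg : g ≤ 1 / 2)
    (hu : ∀ x, g ≤ φ x) (hv : ∀ x, g ≤ ψ x) (hu2 : ∀ x, φ x ≤ 2) (hv2 : ∀ x, ψ x ≤ 2) (N : ℕ)
    (x : X) : C.G (Fq g (N + 1) φ ψ) (Fq g (N + 1) φ ψ) x +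
      (Fq g (N + 1) φ ψ x * (1 - Fq g (N + 1) φ ψ x)) ^ 2 ≤
      KS N * OmS g N (φ x) (ψ x) (C.G φ φ x) (C.G ψ ψ x) := by
  have h1 := grad_le sφ sψ hg0 hg hu hv hu2 hv2 N x
  have h2 := scal_le hg0 hg (hu x) (hv x) (hu2 x) (hv2 x) N
  have hw0 : 0 ≤ ((φ x - g) * (ψ x - g)) ^ N :=
    pow_nonneg (mul_nonneg (by linarith [hu x]) (by linarith [hv x])) N
  have p1 := G_self_nonneg (C := C) φ x
  have p2 := G_self_nonneg (C := C) ψ x
  have e : (Fq g (N + 1) φ ψ x * (1 - Fq g (N + 1) φ ψ x)) ^ 2 =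
    (((φ x - g) * (ψ x - g) / (1 - g) ^ 2) ^ (N + 1) *
      (1 - ((φ x - g) * (ψ x - g) / (1 - g) ^ 2) ^ (N + 1))) ^ 2 := rfl
  rw [e]
  set W := ((φ x - g) * (ψ x - g)) ^ N with hW
  set a1 : ℝ := ((N : ℝ) + 1) ^ 2 * 64 ^ N * 128 with ha1
  set a2 : ℝ := 256 * 64 ^ N * (((N : ℝ) + 1) * 16 ^ N) ^ 2 * 128 with ha2
  have a10 : 0 ≤ a1 := by positivity
  have a20 : 0 ≤ a2 := by positivity
  have s0 : 0 ≤ (φ x - 1) ^ 2 + (ψ x - 1) ^ 2 := by positivity
  have t0 : 0 ≤ C.G φ φ x + C.G ψ ψ x := by linarith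
  have eK : KS N * OmS g N (φ x) (ψ x) (C.G φ φ x) (C.G ψ ψ x) =
      a1 * (W * (C.G φ φ x + C.G ψ ψ x)) + a2 * (W * ((φ x - 1) ^ 2 + (ψ x - 1) ^ 2)) +
      (a1 * (W * ((φ x - 1) ^ 2 + (ψ x - 1) ^ 2)) + a2 * (W * (C.G φ φ x + C.G ψ ψ x))) := by
    rw [KS, OmS, ← ha1, ← ha2, ← hW]; ring
  have r : 0 ≤ a1 * (W * ((φ x - 1) ^ 2 + (ψ x - 1) ^ 2)) + a2 * (W * (C.G φ φ x + C.G ψ ψ x)) :=
    add_nonneg (mul_nonneg a10 (mul_nonneg hw0 s0)) (mul_nonneg a20 (mul_nonneg hw0 t0))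
  rw [eK]
  linarith

/-- **Frozen input of the assembly, target form**: approximate pairs with `∫ OmS → 0`. -/
def LimOm.{u} : Prop :=
  ∃ (g : ℝ) (N : ℕ), 0 ≤ g ∧ g ≤ 1 / 2 ∧
    ∀ (X : Type u) [TopologicalSpace X] [CompactSpace X] [Nonempty X] [MeasurableSpace X]
      [OpensMeasurableSpace X] (μ : Measure X) [IsFiniteMeasure μ] [μ.IsOpenPosMeasure]
      (C : Calc X μ) (F₁ F₂ : X → ℝ), STC C F₁ → STC C F₂ →
      (∀ x, Real.sqrt (F₁ x) + Real.sqrt (F₂ x) ≤ 2) →
      ∀ ε : ℝ, 0 < ε → ∃ φ ψ : X → ℝ, C.Sm φ ∧ C.Sm ψ ∧ (∀ x, g ≤ φ x) ∧ (∀ x, g ≤ ψ x) ∧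
        (∀ x, φ x ≤ 2) ∧ (∀ x, ψ x ≤ 2) ∧ (∀ x, φ x + ψ x ≤ 2 + ε) ∧
        (∀ x, F₁ x ^ (1 / 6 : ℝ) ≤ φ x + ε) ∧ (∀ x, F₂ x ^ (1 / 6 : ℝ) ≤ ψ x + ε) ∧
        ∫ x, OmS g N (φ x) (ψ x) (C.G φ φ x) (C.G ψ ψ x) ∂μ ≤ ε

theorem limAbs3_of_limOm.{u} (h : LimOm.{u}) : LimAbs3.{u} := by
  obtain ⟨g, N, hg0, hg, h⟩ := h
  refine ⟨g, N + 1, hg0, hg, Nat.le_add_left 1 N, ?_⟩
  intro X _ _ _ _ _ μ _ _ C F₁ F₂ H₁ H₂ hs ε hε
  have hK := KS_pos N
  obtain ⟨φ, ψ, sφ, sψ, gφ, gψ, uφ, uψ, hsum, l1, l2, hI⟩ :=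
    h X μ C F₁ F₂ H₁ H₂ hs (min ε (ε / KS N)) (by positivity)
  have e1 : min ε (ε / KS N) ≤ ε := min_le_left _ _
  have e2 : KS N * min ε (ε / KS N) ≤ ε := by
    calc KS N * min ε (ε / KS N) ≤ KS N * (ε / KS N) :=
          mul_le_mul_of_nonneg_left (min_le_right _ _) hK.le
      _ = ε := by field_simp
  refine ⟨φ, ψ, sφ, sψ, gφ, gψ, fun x => (hsum x).trans (by linarith),
    fun x => (l1 x).trans (by linarith), fun x => (l2 x).trans (by linarith), ?_⟩
  have c1 : Continuous φ := C.sm_cont sφ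
  have c2 : Continuous ψ := C.sm_cont sψ
  have c3 : Continuous (C.G φ φ) := C.sm_cont (C.sm_G sφ sφ)
  have c4 : Continuous (C.G ψ ψ) := C.sm_cont (C.sm_G sψ sψ)
  have i1 : Integrable (fun x => OmS g N (φ x) (ψ x) (C.G φ φ x) (C.G ψ ψ x)) μ := by
    refine integrable_cont ?_
    unfold OmS
    exact (((c1.sub continuous_const).mul (c2.sub continuous_const)).pow N).mul
      (((c3.add c4).add ((c1.sub continuous_const).pow 2)).add ((c2.sub continuous_const).pow 2))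
  have sF : C.Sm (Fq g (N + 1) φ ψ) := by
    have h1 := sm_pow (C := C) (sm_smul (((1 - g) ^ 2)⁻¹)
      (sm_mul (sm_sub sφ (sm_const g)) (sm_sub sψ (sm_const g)))) (N + 1)
    have e : Fq g (N + 1) φ ψ = fun x => (((1 - g) ^ 2)⁻¹ * ((φ x - g) * (ψ x - g))) ^ (N + 1) := by
      funext x; rw [Fq, div_eq_inv_mul]
    rw [e]; exact h1
  have i2 : Integrable (fun x => C.G (Fq g (N + 1) φ ψ) (Fq g (N + 1) φ ψ) x +
      (Fq g (N + 1) φ ψ x * (1 - Fq g (N + 1) φ ψ x)) ^ 2) μ :=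
    integrable_sm (sm_add (C.sm_G sF sF) (sm_pow (sm_mul sF (sm_sub (sm_const 1) sF)) 2))
  calc ∫ x, (C.G (Fq g (N + 1) φ ψ) (Fq g (N + 1) φ ψ) x +
      (Fq g (N + 1) φ ψ x * (1 - Fq g (N + 1) φ ψ x)) ^ 2) ∂μ
      ≤ ∫ x, KS N * OmS g N (φ x) (ψ x) (C.G φ φ x) (C.G ψ ψ x) ∂μ :=
        integral_mono i2 (i1.const_mul _) fun x => Fq_le sφ sψ hg0 hg gφ gψ uφ uψ N x
    _ = KS N * ∫ x, OmS g N (φ x) (ψ x) (C.G φ φ x) (C.G ψ ψ x) ∂μ := integral_const_mul _ _
    _ ≤ KS N * min ε (ε / KS N) := mul_le_mul_of_nonneg_left hI hK.le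
    _ ≤ ε := e2

/-- **ST from the Poisson equation and the limit passage in target form.** -/
theorem st_of_limOm.{u} (hP : StF_912.PoissonAll.{u}) (hL : LimOm.{u}) :
    Crest.Agent.R249.Top49.ST.{u} := st_of_lim3 hP (limAbs3_of_limOm hL)

end Crest.Agent.R249.StH_912

end
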