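import Crest.Agent.R249.Bc_285_Mg
import Crest.Agent.R249.Cov9_802
import Crest.Agent.R249.PenJ_806
import Crest.Agent.R249.LimF4_621
import Crest.Agent.R249.StHe_912
import Crest.Agent.R249.Grn6_324
import Crest.Agent.R249.StFd_912
import Crest.Agent.R249.LimF6_621
import Crest.Agent.R249.Ker57g_57
import Crest.Agent.R249.CovA_621
import Crest.Agent.R249.Cd3I_133
import Crest.Agent.R249.Cd3Ia_133
import Crest.Agent.R249.Cd3Ib_133
import Crest.Agent.R249.Cd3VI_133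
import Crest.Agent.R249.Cd3VII_133
import Crest.Agent.R249.Cd3II_133
import Crest.Agent.R249.StKb_912
import Crest.Agent.R249.PxJa_324
import Crest.Agent.R249.PxJb_324
import Crest.Agent.R249.PxI2a_324
import Crest.Agent.R249.PxKa_324
import Crest.Agent.R249.PxKb_324
import Crest.Agent.R249.PxIa_324
import Crest.Agent.R249.PxIb_324
import Crest.Agent.R249.PxVI_324
import Crest.Agent.R249.PxVII_324
import Crest.Agent.R249.Sym6_467
import Crest.Agent.R249.Sym11_467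
import Crest.Agent.R249.Con2_378
import Crest.Agent.R249.Con3a_378
import Crest.Agent.R249.Con4a_378
import Crest.Agent.R249.Con4b_378
import Crest.Agent.R249.Con4c_378
import Crest.Agent.R249.Con4d_378
import Crest.Agent.R249.Con4e_378
import Crest.Agent.R249.Con4f_378
import Crest.Agent.R249.Con5a_378
import Crest.Agent.R249.Con5b_378
import Crest.Agent.R249.Con6a_378

-- ▼ part R249/Fin_40
section

/-!
Row 249 (helper40): final forms of S0383, S0384, S0385 from the two open inputs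
`Top49.ST.{0}` (part A) and `Trx_285.TI Qp RS RC` (part C).
-/

set_option autoImplicit false
set_option maxSynthPendingDepth 3

open scoped ContDiff Manifold
open Bundle Crest.GeometryTopology.CoordMetric Crest.GeometryTopology.ChartCurvature
open Crest Crest.GeometryTopology
open Crest.Agent.R249 Crest.Agent.R249.OriE_285

noncomputable section

namespace Crest.Agent.R249.Fin40

section

variable (M : Type*) [MetricSpace M] [ChartedSpace (EuclideanSpace ℝ (Fin 4)) M]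
    [IsManifold 𝓘(ℝ, EuclideanSpace ℝ (Fin 4)) ∞ M] [CompactSpace M] [ConnectedSpace M]
    [RiemannianBundle (fun x : M => TangentSpace 𝓘(ℝ, EuclideanSpace ℝ (Fin 4)) x)]
    [IsContMDiffRiemannianBundle 𝓘(ℝ, EuclideanSpace ℝ (Fin 4)) ∞ (EuclideanSpace ℝ (Fin 4))
      (fun x : M => TangentSpace 𝓘(ℝ, EuclideanSpace ℝ (Fin 4)) x)]
    [IsRiemannianManifold 𝓘(ℝ, EuclideanSpace ℝ (Fin 4)) M]

/-- S0384 from the oriented form of S0383. -/
theorem s0384_of (h : S0383Oriented) (c : ℝ) (hc : 0 < c) (hE : IsEinsteinWith 4 M c)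
    (hK : HasNonnegSectionalCurvature 4 M)
    (h0 : ∃ x : M, ∃ u v : EuclideanSpace ℝ (Fin 4),
      0 < gramDet (chartMetric 4 M x) (chartCentre 4 M x) u v ∧
        secNumer (chartMetric 4 M x) (chartCentre 4 M x) u v = 0) :
    IsLocallyCoveredBySphereProduct M c :=
  B3f40.s384_of hE (s0383_of_oriented h M c hc hE hK) h0

/-- S0385 from the oriented form of S0383. -/
theorem s0385_of (h : S0383Oriented) (hE : IsEinstein 4 M) (hK : HasPosSectionalCurvature 4 M) :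
    ∃ a : ℝ, 0 < a ∧ (IsHomotheticToRoundSphere M 4 a ∨
      IsHomotheticToComplexProjective M 2 a ∨ IsHomotheticToRealProjective M 4 a) :=
  B3f40.s385_of hE hK (fun c hc h1 h2 => s0383_of_oriented h M c hc h1 h2)
    (fun a ha => Cov5_802.T1 M a ha) (fun a ha => Cov9_802.T2 M a ha)

end

end Crest.Agent.R249.Fin40

end
end

-- ▼ part R249/StJa_912
section

/-!
Row 249, part A2 (helper912), task A2-ASM3, file 1: the contract "AC*" (helper133's decision,
cubic nonlinearity of helper369): `g = 3/10`, `B = 13/10`, `Γ η = 1 - η²/4 + (8/343) η⁴`,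
`f u = (7/10) U (1 - U²)`, `U = (u - 3/10) / (7/10)`.
(Scaled unknowns: `Γ η = 1 - (7/40) η² + (1/125) η⁴`.)

* `OA : Ob gA BA`, `adm_A : Adm OA fA`.
* `fA_eq` : `f u = 7/10 * (U - U^3)`; `OA_k_eq`, `OA_E_eq` : formulas in the scaled unknowns.
-/

set_option autoImplicit false
set_option linter.unusedVariables false
set_option linter.unusedSectionVars false

open MeasureTheory Set Filter Topology Matrix
open scoped ContDiff

noncomputable section

namespace Crest.Agent.R249.StJ_912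

open PenH_806

/-- lower end of the box -/
def gA : ℝ := 3 / 10

/-- upper end of the box -/
def BA : ℝ := 13 / 10

/-- the curve -/
def ΓA (η : ℝ) : ℝ := 1 - 1 / 4 * η ^ 2 + 8 / 343 * η ^ 4

/-- the nonlinearity -/
def fA (u : ℝ) : ℝ := 7 / 10 * ((u - 3 / 10) / (7 / 10) * (1 - ((u - 3 / 10) / (7 / 10)) ^ 2))

theorem hasDerivAt_ΓA (η : ℝ) : HasDerivAt ΓA (-(1 / 2) * η + 32 / 343 * η ^ 3) η := by
  have h := (((hasDerivAt_pow 2 η).const_mul (1 / 4 : ℝ)).const_sub 1).add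
    ((hasDerivAt_pow 4 η).const_mul (8 / 343 : ℝ))
  refine h.congr_deriv ?_
  norm_num
  ring

theorem deriv_ΓA : deriv ΓA = fun η => -(1 / 2) * η + 32 / 343 * η ^ 3 := by
  funext η; exact (hasDerivAt_ΓA η).deriv

theorem deriv2_ΓA : deriv (deriv ΓA) = fun η => -(1 / 2) + 96 / 343 * η ^ 2 := by
  rw [deriv_ΓA]
  funext η
  have h := ((hasDerivAt_id η).const_mul (-(1 / 2) : ℝ)).add
    ((hasDerivAt_pow 3 η).const_mul (32 / 343 : ℝ))
  refine HasDerivAt.deriv (h.congr_deriv ?_)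
  norm_num
  ring

theorem smooth_ΓA : ContDiff ℝ ∞ ΓA := by unfold ΓA; fun_prop

theorem smooth_fA : ContDiff ℝ ∞ fA := by unfold fA; fun_prop

theorem abs_slope {η : ℝ} (h1 : |η| ≤ 1) : |-(1 / 2) * η + 32 / 343 * η ^ 3| ≤ 41 / 100 := by
  have h2 := abs_le.1 h1
  have h3 : 0 ≤ 1 - η ^ 2 := by nlinarith [h2.1, h2.2]
  rw [abs_le]
  constructor
  · nlinarith [mul_nonneg h3 (by linarith [h2.2] : 0 ≤ 1 - η), mul_nonneg h3 (by linarith [h2.1] : 0 ≤ 1 + η),
      h2.1, h2.2]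
  · nlinarith [mul_nonneg h3 (by linarith [h2.2] : 0 ≤ 1 - η), mul_nonneg h3 (by linarith [h2.1] : 0 ≤ 1 + η),
      h2.1, h2.2]

/-- the obstacle region of the contract AC* -/
def OA : Ob gA BA where
  Γ := ΓA
  c := 9 / 100
  g_pos := by norm_num [gA]
  g_lt := by norm_num [gA, BA]
  smooth := smooth_ΓA
  even := fun η => by simp only [ΓA]; ring
  c_pos := by norm_num
  slope := fun η hη => by
    rw [deriv_ΓA]
    have h1 : |η| ≤ 1 := hη.trans (by norm_num [gA, BA])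
    exact (abs_slope h1).trans (by norm_num)
  corner := by norm_num [ΓA, gA, BA]

theorem OA_Γ : OA.Γ = ΓA := rfl


theorem OA_k (u v : ℝ) : OA.k u v = 1 - 1 / 4 * (u - v) ^ 2 + 8 / 343 * (u - v) ^ 4 - (u + v) / 2 :=
  rfl

theorem OA_k1 (u v : ℝ) :
    OA.k1 u v = -(1 / 2) * (u - v) + 32 / 343 * (u - v) ^ 3 - 1 / 2 := by
  show deriv ΓA (u - v) - 1 / 2 = _
  rw [deriv_ΓA]

theorem OA_k2 (u v : ℝ) :
    OA.k2 u v = 1 / 2 * (u - v) - 32 / 343 * (u - v) ^ 3 - 1 / 2 := by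
  show - deriv ΓA (u - v) - 1 / 2 = _
  rw [deriv_ΓA]; ring

theorem OA_E (f : ℝ → ℝ) (u v P : ℝ) : OA.E f u v P =
    (-(1 / 2) * (u - v) + 32 / 343 * (u - v) ^ 3 - 1 / 2) * f u +
      (1 / 2 * (u - v) - 32 / 343 * (u - v) ^ 3 - 1 / 2) * f v +
      (-(1 / 2) + 96 / 343 * (u - v) ^ 2) * P := by
  show OA.k1 u v * f u + OA.k2 u v * f v + deriv (deriv ΓA) (u - v) * P = _
  rw [deriv2_ΓA, OA_k1, OA_k2]

theorem fA_eq (u : ℝ) : fA u = 7 / 10 * ((u - 3 / 10) / (7 / 10) - ((u - 3 / 10) / (7 / 10)) ^ 3) := by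
  unfold fA; ring

/-- `F - f = (u-1)² (2/7 - (92/147)(u-1) - (2/3)(u-1)²)` -/
theorem sub_fA (u : ℝ) : (2 / 3) * (u * (1 - u ^ 3)) - fA u =
    (u - 1) ^ 2 * (2 / 7 - 92 / 147 * (u - 1) - 2 / 3 * (u - 1) ^ 2) := by
  unfold fA; ring

theorem fA_le {u : ℝ} (h1 : gA ≤ u) (h2 : u ≤ BA) : fA u ≤ (2 / 3) * (u * (1 - u ^ 3)) := by
  have h := sub_fA u
  unfold gA at h1
  unfold BA at h2
  have h3 : 0 ≤ 2 / 7 - 92 / 147 * (u - 1) - 2 / 3 * (u - 1) ^ 2 := by nlinarith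
  have h4 := mul_nonneg (sq_nonneg (u - 1)) h3
  linarith

/-- the region, both unknowns above `g` -/
theorem region_both {u v : ℝ} (hu : 3 / 10 ≤ u) (hv : 3 / 10 ≤ v) (h : u ^ 3 + v ^ 3 < 2) :
    0 < 1 - 1 / 4 * (u - v) ^ 2 + 8 / 343 * (u - v) ^ 4 - (u + v) / 2 := by
  obtain ⟨m, hm⟩ : ∃ m, m = (u + v) / 2 := ⟨_, rfl⟩
  obtain ⟨s, hs⟩ : ∃ s, s = (u - v) ^ 2 := ⟨_, rfl⟩
  have hs4 : (u - v) ^ 4 = s ^ 2 := by rw [hs]; ring
  have hs0 : 0 ≤ s := by rw [hs]; positivity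
  have hm0 : 3 / 10 ≤ m := by rw [hm]; linarith
  have e1 : u ^ 3 + v ^ 3 = 2 * m ^ 3 + 3 / 2 * m * s := by rw [hm, hs]; ring
  have hm1 : m < 1 := by
    by_contra hcon
    push Not at hcon
    have h1 : 1 ≤ m ^ 3 := one_le_pow₀ hcon
    have h2 : 0 ≤ 3 / 2 * m * s := by positivity
    linarith
  have hsm : s ≤ 4 * (m - 3 / 10) ^ 2 := by
    have h1 : 0 ≤ (u - 3 / 10) * (v - 3 / 10) := mul_nonneg (by linarith) (by linarith)
    have h2 : 4 * (m - 3 / 10) ^ 2 - s = 4 * ((u - 3 / 10) * (v - 3 / 10)) := by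
      rw [hm, hs]; ring
    linarith
  rw [hs4, ← hm, ← hs]
  rcases le_or_gt m (1 / 2) with hc | hc
  · have h1 : (m - 3 / 10) ^ 2 ≤ (1 / 5) ^ 2 := by
      apply pow_le_pow_left₀ (by linarith); linarith
    nlinarith [sq_nonneg s]
  · obtain ⟨y, hy⟩ : ∃ y, y = m * s := ⟨_, rfl⟩
    obtain ⟨z, hz⟩ : ∃ z, z = 4 / 3 * (1 - m ^ 3) := ⟨_, rfl⟩
    have hyz : y < z := by
      have : 3 / 2 * y = 3 / 2 * m * s := by rw [hy]; ring
      rw [hz]; linarith
    have hy0 : 0 ≤ y := by rw [hy]; positivity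
    have hz1 : z ≤ 7 / 6 := by
      have : (1 / 8 : ℝ) ≤ m ^ 3 := by
        have := pow_le_pow_left₀ (by norm_num : (0:ℝ) ≤ 1 / 2) hc.le 3
        norm_num at this ⊢
        linarith
      rw [hz]; linarith
    have e2 : m ^ 2 * (1 - 1 / 4 * s + 8 / 343 * s ^ 2 - m) =
        (1 - m) ^ 2 * (128 / 3087 * (1 + m + m ^ 2) ^ 2 - m * (1 - m) / 3) +
        (z - y) * (m / 4 - 8 / 343 * (y + z)) := by
      rw [hy, hz]; ring
    have h3 : 0 ≤ 128 / 3087 * (1 + m + m ^ 2) ^ 2 - m * (1 - m) / 3 := by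
      have a1 : (7 / 4 : ℝ) ≤ 1 + m + m ^ 2 := by nlinarith
      have a2 : (7 / 4 : ℝ) ^ 2 ≤ (1 + m + m ^ 2) ^ 2 := pow_le_pow_left₀ (by norm_num) a1 2
      nlinarith [sq_nonneg (m - 1 / 2)]
    have h4 : 0 < (z - y) * (m / 4 - 8 / 343 * (y + z)) := mul_pos (by linarith) (by linarith)
    have h5 : 0 < m ^ 2 * (1 - 1 / 4 * s + 8 / 343 * s ^ 2 - m) := by
      rw [e2]
      have := mul_nonneg (sq_nonneg (1 - m)) h3
      linarith
    have hm' : 0 < m ^ 2 := by positivity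
    exact (mul_pos_iff_of_pos_left hm').1 h5

theorem lt_of_cube_lt {u : ℝ} (hu : 0 ≤ u) (h : u ^ 3 < 2) : u < 63 / 50 := by
  by_contra hcon
  push Not at hcon
  have h1 : (63 / 50 : ℝ) ^ 3 ≤ u ^ 3 := pow_le_pow_left₀ (by norm_num) hcon 3
  norm_num at h1
  linarith

/-- the region, one unknown truncated -/
theorem region_one {u : ℝ} (hu : 3 / 10 ≤ u) (h : u < 63 / 50) :
    0 < 1 - 1 / 4 * (u - 3 / 10) ^ 2 + 8 / 343 * (u - 3 / 10) ^ 4 - (u + 3 / 10) / 2 := by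
  obtain ⟨t, ht⟩ : ∃ t, t = u - 3 / 10 := ⟨_, rfl⟩
  have h1 : 0 ≤ t := by rw [ht]; linarith
  have h2 : t < 24 / 25 := by rw [ht]; linarith
  have h3 : u + 3 / 10 = t + 3 / 5 := by rw [ht]; ring
  rw [h3, ← ht]
  have h4 := sq_nonneg (t ^ 2 - (24 / 25) ^ 2)
  nlinarith

theorem adm_A : Adm OA fA where
  smooth := smooth_fA
  g_lt := by norm_num [gA]
  B_ge := by norm_num [BA]
  fg := by norm_num [fA, gA]
  fle := fun u h1 h2 => fA_le h1 h2
  region := fun u v hu hv h => by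
    rw [OA_k]
    unfold gA
    have hu3 := pow_nonneg hu 3
    have hv3 := pow_nonneg hv 3
    rcases le_total (3 / 10) u with h1 | h1 <;> rcases le_total (3 / 10) v with h2 | h2
    · rw [max_eq_left h1, max_eq_left h2]; exact region_both h1 h2 h
    · rw [max_eq_left h1, max_eq_right h2]
      exact region_one h1 (lt_of_cube_lt hu (by linarith))
    · rw [max_eq_right h1, max_eq_left h2]
      have := region_one h2 (lt_of_cube_lt hv (by linarith))
      have e : (3 / 10 - v) ^ 2 = (v - 3 / 10) ^ 2 := by ring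
      have e4 : (3 / 10 - v) ^ 4 = (v - 3 / 10) ^ 4 := by ring
      rw [e, e4]
      linarith
    · rw [max_eq_right h1, max_eq_right h2]; norm_num


/-- concavity -/
theorem conc_A (η : ℝ) (hη : |η| ≤ BA - gA) : deriv (deriv OA.Γ) η ≤ 0 := by
  rw [OA_Γ, deriv2_ΓA]
  have h1 : |η| ≤ 1 := hη.trans (by norm_num [gA, BA])
  have h2 : η ^ 2 ≤ 1 := by rw [← sq_abs]; exact pow_le_one₀ (abs_nonneg η) h1
  linarith

end Crest.Agent.R249.StJ_912

end
end

-- ▼ part R249/StJb_912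
section

/-!
Row 249, part A2 (helper912), task A2-ASM3, file 2: the target `OmS` on jets:
`OmJ c N j = c * OmS gA N j.f j.g ‖j.p‖² ‖j.q‖²` satisfies helper621's Lipschitz condition `LipD`
on every domain inside the box, and is integrable along smooth pairs.
-/

set_option autoImplicit false
set_option linter.unusedVariables false
set_option linter.unusedSectionVars false

open MeasureTheory Set Filter Topology Matrix
open scoped ContDiff

noncomputable section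

namespace Crest.Agent.R249.StJ_912

open Calc_806 Calc_806.Calc Lim621 LimE621 LimF621 PenH_806

attribute [local instance] Matrix.frobeniusNormedAddCommGroup Matrix.frobeniusNormedSpace

section Jets

variable {E H : Type*} [NormedAddCommGroup E] [InnerProductSpace ℝ E]
  [NormedAddCommGroup H] [NormedSpace ℝ H]

/-- the target on jets -/
def OmJ (c : ℝ) (N : ℕ) (j : Jet E H) : ℝ :=
  c * StH_912.OmS gA N j.f j.g (‖j.p‖ ^ 2) (‖j.q‖ ^ 2)

theorem pow_lip {w w' : ℝ} (h0 : 0 ≤ w) (h1 : w ≤ 1) (h0' : 0 ≤ w') (h1' : w' ≤ 1) (N : ℕ) :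
    |w ^ N - w' ^ N| ≤ N * |w - w'| := by
  induction N with
  | zero => simp
  | succ n ih =>
    have e : w ^ (n + 1) - w' ^ (n + 1) = w * (w ^ n - w' ^ n) + (w - w') * w' ^ n := by ring
    rw [e]
    refine (abs_add_le _ _).trans ?_
    rw [abs_mul, abs_mul, abs_of_nonneg h0, abs_of_nonneg (pow_nonneg h0' n)]
    have a1 : w * |w ^ n - w' ^ n| ≤ 1 * (n * |w - w'|) :=
      mul_le_mul h1 ih (abs_nonneg _) zero_le_one
    have a2 : |w - w'| * w' ^ n ≤ |w - w'| * 1 :=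
      mul_le_mul_of_nonneg_left (pow_le_one₀ h0' h1') (abs_nonneg _)
    push_cast
    linarith

theorem sq_norm_sub_le (a b : E) : |‖a‖ ^ 2 - ‖b‖ ^ 2| ≤ ‖a - b‖ * (‖a‖ + ‖b‖) := by
  have h1 : ‖a‖ ^ 2 - ‖b‖ ^ 2 = (‖a‖ - ‖b‖) * (‖a‖ + ‖b‖) := by ring
  have h2 : 0 ≤ ‖a‖ + ‖b‖ := by positivity
  rw [h1, abs_mul, abs_of_nonneg h2]
  exact mul_le_mul_of_nonneg_right (abs_norm_sub_norm_le a b) h2

theorem sq_half {x : ℝ} (h1 : 3 / 10 ≤ x) (h2 : x ≤ 13 / 10) : (x - 1) ^ 2 ≤ 1 / 2 := by nlinarith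

theorem le_mul_sq {e V : ℝ} (he : 0 ≤ e) (hV : 2 ≤ V) : e * V ≤ e * V ^ 2 ∧ e ≤ e * V ^ 2 := by
  constructor
  · exact mul_le_mul_of_nonneg_left (by nlinarith) he
  · calc e = e * 1 := (mul_one e).symm
      _ ≤ _ := mul_le_mul_of_nonneg_left (by nlinarith) he

theorem lipD_OmJ {D : Set (ℝ × ℝ)} (hD : ∀ p ∈ D, gA ≤ p.1 ∧ p.1 ≤ BA ∧ gA ≤ p.2 ∧ p.2 ≤ BA)
    (c : ℝ) (N : ℕ) : LipD (E := E) (H := H) D (|c| * (4 * N + 4)) (OmJ c N) := by
  intro ε j j' hε hε1 hj hj' hr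
  obtain ⟨-, hf, hg⟩ := hr
  obtain ⟨f1, f2, g1, g2⟩ := hD _ hj
  obtain ⟨f1', f2', g1', g2'⟩ := hD _ hj'
  simp only [gA, BA] at f1 f2 g1 g2 f1' f2' g1' g2'
  set W := j.W with hW
  set W' := j'.W with hW'
  have hW1 : 1 ≤ W := j.one_le_W
  have hW1' : 1 ≤ W' := j'.one_le_W
  have eW : W = 1 + ‖j.p‖ ^ 2 + ‖j.q‖ ^ 2 + ‖j.P‖ + ‖j.Q‖ := rfl
  have eW' : W' = 1 + ‖j'.p‖ ^ 2 + ‖j'.q‖ ^ 2 + ‖j'.P‖ + ‖j'.Q‖ := rfl
  set Z := Real.sqrt (W + W') with hZ
  have hZ2 : Z ^ 2 = W + W' := Real.sq_sqrt (by linarith)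
  have hZ1 : 1 ≤ Z := by rw [hZ, Real.one_le_sqrt]; linarith
  -- bounds by `Z`
  have n1 := norm_nonneg j.P
  have n2 := norm_nonneg j.Q
  have n3 := norm_nonneg j'.P
  have n4 := norm_nonneg j'.Q
  have n5 := norm_nonneg j.p
  have n6 := norm_nonneg j.q
  have n7 := norm_nonneg j'.p
  have n8 := norm_nonneg j'.q
  have s5 := sq_nonneg ‖j.p‖
  have s6 := sq_nonneg ‖j.q‖
  have s7 := sq_nonneg ‖j'.p‖
  have s8 := sq_nonneg ‖j'.q‖
  have b5 : ‖j.p‖ ≤ Z := Real.le_sqrt_of_sq_le (by linarith)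
  have b6 : ‖j.q‖ ≤ Z := Real.le_sqrt_of_sq_le (by linarith)
  have b7 : ‖j'.p‖ ≤ Z := Real.le_sqrt_of_sq_le (by linarith)
  have b8 : ‖j'.q‖ ≤ Z := Real.le_sqrt_of_sq_le (by linarith)
  -- the weights
  set w := (j.f - 3 / 10) * (j.g - 3 / 10) with hw
  set w' := (j'.f - 3 / 10) * (j'.g - 3 / 10) with hw'
  have w0 : 0 ≤ w := mul_nonneg (by linarith) (by linarith)
  have w1 : w ≤ 1 := by
    calc w ≤ 1 * 1 := mul_le_mul (by linarith) (by linarith) (by linarith) zero_le_one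
      _ = 1 := one_mul 1
  have w0' : 0 ≤ w' := mul_nonneg (by linarith) (by linarith)
  have w1' : w' ≤ 1 := by
    calc w' ≤ 1 * 1 := mul_le_mul (by linarith) (by linarith) (by linarith) zero_le_one
      _ = 1 := one_mul 1
  have wd : |w - w'| ≤ 2 * ε := by
    have e : w - w' = (j.f - j'.f) * (j.g - 3 / 10) + (j'.f - 3 / 10) * (j.g - j'.g) := by
      rw [hw, hw']; ring
    rw [e]
    refine (abs_add_le _ _).trans ?_
    rw [abs_mul, abs_mul, abs_of_nonneg (by linarith : 0 ≤ j.g - 3 / 10),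
      abs_of_nonneg (by linarith : 0 ≤ j'.f - 3 / 10)]
    have a1 : |j.f - j'.f| * (j.g - 3 / 10) ≤ ε * 1 :=
      mul_le_mul hf (by linarith) (by linarith) hε
    have a2 : (j'.f - 3 / 10) * |j.g - j'.g| ≤ 1 * ε :=
      mul_le_mul (by linarith) hg (abs_nonneg _) zero_le_one
    linarith
  have wN := pow_lip w0 w1 w0' w1' N
  -- the scalar parts
  set S := ‖j.p‖ ^ 2 + ‖j.q‖ ^ 2 + (j.f - 1) ^ 2 + (j.g - 1) ^ 2 with hS
  set S' := ‖j'.p‖ ^ 2 + ‖j'.q‖ ^ 2 + (j'.f - 1) ^ 2 + (j'.g - 1) ^ 2 with hS'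
  have q1 : (j.f - 1) ^ 2 ≤ 1 / 2 := sq_half f1 f2
  have q2 : (j.g - 1) ^ 2 ≤ 1 / 2 := sq_half g1 g2
  have q3 : (j'.f - 1) ^ 2 ≤ 1 / 2 := sq_half f1' f2'
  have q4 : (j'.g - 1) ^ 2 ≤ 1 / 2 := sq_half g1' g2'
  have S0 : 0 ≤ S := by rw [hS]; positivity
  have S0' : 0 ≤ S' := by rw [hS']; positivity
  have SW : S ≤ W + W' := by rw [hS]; linarith
  have Sd : |S - S'| ≤ 2 * (‖j.p - j'.p‖ + ‖j.q - j'.q‖) * Z + 4 * ε := by
    have e : S - S' = (‖j.p‖ ^ 2 - ‖j'.p‖ ^ 2) + (‖j.q‖ ^ 2 - ‖j'.q‖ ^ 2) +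
        ((j.f - j'.f) * (j.f + j'.f - 2) + (j.g - j'.g) * (j.g + j'.g - 2)) := by
      rw [hS, hS']; ring
    have a1 := sq_norm_sub_le j.p j'.p
    have a2 := sq_norm_sub_le j.q j'.q
    have d1 := norm_nonneg (j.p - j'.p)
    have d2 := norm_nonneg (j.q - j'.q)
    have a3 : ‖j.p - j'.p‖ * (‖j.p‖ + ‖j'.p‖) ≤ ‖j.p - j'.p‖ * (2 * Z) :=
      mul_le_mul_of_nonneg_left (by linarith) d1
    have a4 : ‖j.q - j'.q‖ * (‖j.q‖ + ‖j'.q‖) ≤ ‖j.q - j'.q‖ * (2 * Z) :=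
      mul_le_mul_of_nonneg_left (by linarith) d2
    have a5 : |(j.f - j'.f) * (j.f + j'.f - 2)| ≤ ε * 2 := by
      rw [abs_mul]
      exact mul_le_mul hf (abs_le.2 ⟨by linarith, by linarith⟩) (abs_nonneg _) hε
    have a6 : |(j.g - j'.g) * (j.g + j'.g - 2)| ≤ ε * 2 := by
      rw [abs_mul]
      exact mul_le_mul hg (abs_le.2 ⟨by linarith, by linarith⟩) (abs_nonneg _) hε
    rw [e]
    refine (abs_add_le _ _).trans ?_
    refine (add_le_add (abs_add_le _ _) (abs_add_le _ _)).trans ?_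
    linarith
  have key : |w ^ N * S - w' ^ N * S'| ≤ (4 * N + 4) * Mod ε j j' := by
    have e : w ^ N * S - w' ^ N * S' = (w ^ N - w' ^ N) * S + w' ^ N * (S - S') := by ring
    have p0 : 0 ≤ w' ^ N := pow_nonneg w0' N
    have p1 : w' ^ N ≤ 1 := pow_le_one₀ w0' w1'
    have d1 := norm_nonneg (j.p - j'.p)
    have d2 := norm_nonneg (j.q - j'.q)
    have d3 := norm_nonneg (j.P - j'.P)
    have d4 := norm_nonneg (j.Q - j'.Q)
    have hN : (0:ℝ) ≤ N := Nat.cast_nonneg N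
    have c1 : |(w ^ N - w' ^ N) * S| ≤ (N * (2 * ε)) * (W + W') := by
      rw [abs_mul, abs_of_nonneg S0]
      refine mul_le_mul (wN.trans (mul_le_mul_of_nonneg_left wd hN)) SW S0 (by positivity)
    have c2 : |w' ^ N * (S - S')| ≤ 2 * (‖j.p - j'.p‖ + ‖j.q - j'.q‖) * Z + 4 * ε := by
      rw [abs_mul, abs_of_nonneg p0]
      calc w' ^ N * |S - S'| ≤ 1 * |S - S'| := mul_le_mul_of_nonneg_right p1 (abs_nonneg _)
        _ ≤ _ := by rw [one_mul]; exact Sd
    have hMod : Mod ε j j' = ε * (W + W') ^ 2 +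
        (‖j.p - j'.p‖ + ‖j.q - j'.q‖) * ((W + W') * Z) +
        (‖j.P - j'.P‖ + ‖j.Q - j'.Q‖) * (W + W') := rfl
    have hWW : 2 ≤ W + W' := by linarith
    obtain ⟨m1, m2⟩ := le_mul_sq hε hWW
    have m3 : (‖j.p - j'.p‖ + ‖j.q - j'.q‖) * Z ≤
        (‖j.p - j'.p‖ + ‖j.q - j'.q‖) * ((W + W') * Z) := by
      refine mul_le_mul_of_nonneg_left ?_ (by positivity)
      exact le_mul_of_one_le_left (by linarith) (by linarith)
    have m4 : 0 ≤ (‖j.P - j'.P‖ + ‖j.Q - j'.Q‖) * (W + W') := by positivity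
    have m5 : 0 ≤ (‖j.p - j'.p‖ + ‖j.q - j'.q‖) * ((W + W') * Z) := by positivity
    have m6 : 0 ≤ ε * (W + W') ^ 2 := by positivity
    have m7 : (N:ℝ) * (2 * ε) * (W + W') ≤ (2 * N) * (ε * (W + W') ^ 2) := by
      calc (N:ℝ) * (2 * ε) * (W + W') = (2 * N) * (ε * (W + W')) := by ring
        _ ≤ _ := mul_le_mul_of_nonneg_left m1 (by positivity)
    rw [e]
    refine (abs_add_le _ _).trans ?_
    rw [hMod]
    have m8 : 0 ≤ (N:ℝ) * (ε * (W + W') ^ 2) := by positivity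
    have m9 : 0 ≤ (N:ℝ) * ((‖j.p - j'.p‖ + ‖j.q - j'.q‖) * ((W + W') * Z)) := by positivity
    have m10 : 0 ≤ (N:ℝ) * ((‖j.P - j'.P‖ + ‖j.Q - j'.Q‖) * (W + W')) := by positivity
    linarith
  have e1 : OmJ c N j - OmJ c N j' = c * (w ^ N * S - w' ^ N * S') := by
    simp only [OmJ, StH_912.OmS, gA, hw, hw', hS, hS']; ring
  rw [e1, abs_mul, mul_assoc]
  exact mul_le_mul_of_nonneg_left key (abs_nonneg c)

end Jets

section Calculus

variable {X : Type*} [TopologicalSpace X] [CompactSpace X] [MeasurableSpace X]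
  [OpensMeasurableSpace X] {μ : Measure X} [IsFiniteMeasure μ] {C : Calc X μ}

theorem OmJ_jt (c : ℝ) (N : ℕ) (φ ψ θ : X → ℝ) (x : X) :
    OmJ c N (jt C φ ψ θ x) = c * StH_912.OmS gA N (φ x) (ψ x) (C.G φ φ x) (C.G ψ ψ x) := by
  have key : ∀ u : Fin 4 → ℝ, ‖(WithLp.toLp 2 u : E4)‖ ^ 2 = u ⬝ᵥ u := by
    intro u
    rw [EuclideanSpace.norm_sq_eq]
    simp only [dotProduct, Real.norm_eq_abs, sq_abs]
    exact Finset.sum_congr rfl fun i _ => by ring
  have h1 : ‖(jt C φ ψ θ x).p‖ ^ 2 = C.G φ φ x := key _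
  have h2 : ‖(jt C φ ψ θ x).q‖ ^ 2 = C.G ψ ψ x := key _
  rw [OmJ, h1, h2]
  rfl

theorem int_OmJ {φ ψ : X → ℝ} (sφ : C.Sm φ) (sψ : C.Sm ψ) (c : ℝ) (N : ℕ) (θ : X → ℝ) :
    Integrable (fun x => OmJ c N (jt C φ ψ θ x)) μ := by
  have c1 : Continuous φ := C.sm_cont sφ
  have c2 : Continuous ψ := C.sm_cont sψ
  have c3 : Continuous (C.G φ φ) := C.sm_cont (C.sm_G sφ sφ)
  have c4 : Continuous (C.G ψ ψ) := C.sm_cont (C.sm_G sψ sψ)
  simp only [OmJ_jt]
  refine integrable_cont ?_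
  unfold StH_912.OmS
  exact continuous_const.mul ((((c1.sub continuous_const).mul (c2.sub continuous_const)).pow N).mul
    (((c3.add c4).add ((c1.sub continuous_const).pow 2)).add ((c2.sub continuous_const).pow 2)))

end Calculus

end Crest.Agent.R249.StJ_912

end
end

-- ▼ part R249/PoisB_324
section

/-!
# R249 (helper324): the hypothesis `PoissonAll` of `StF_912`
-/

set_option autoImplicit false
set_option maxSynthPendingDepth 3
set_option linter.unusedSectionVars false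

open Bundle Set MeasureTheory Manifold Filter Metric
open scoped ContDiff Topology NNReal
open Crest.GeometryTopology.PointedLimit

namespace Crest.Agent.R249.Grn324

/-- the Poisson equation, in the form of `StF_912` -/
theorem poissonAll.{u} : Crest.Agent.R249.StF_912.PoissonAll.{u} := by
  intro M _ _ _ _ _ _ _ _ _ _ g hg h0
  obtain ⟨u, hu, h, -⟩ := exists_poisson (n := 4) (M := M) hg h0
  exact ⟨u, hu, h⟩

end Crest.Agent.R249.Grn324
end

-- ▼ part R249/StJc_912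
section

/-!
Row 249, part A2 (helper912), task A2-ASM3, file 3: the final assembly of part A.

* `CertAC` : what the certificate must deliver for the contract AC* (helper467, helper254, ...);
* `certL_mk` : helper621's `CertL` from the certificate, the Lipschitz condition and the divergence
  identity (the target is `OmJ c N`, its regularity is supplied here);
* `limOm_of_cert : CertAC → StH_912.LimOm`;
* `st_of_cert : CertAC → Top49.ST`.
-/

set_option autoImplicit false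
set_option linter.unusedVariables false
set_option linter.unusedSectionVars false

open MeasureTheory Set Filter Topology Matrix
open scoped ContDiff

noncomputable section

namespace Crest.Agent.R249.StJ_912

open Calc_806 Calc_806.Calc Lim621 LimE621 LimF621 PenH_806 Pen_806

attribute [local instance] Matrix.frobeniusNormedAddCommGroup Matrix.frobeniusNormedSpace

/-- the pointwise certificate at all levels, contract AC* -/
def CertPt (c : ℝ) (N : ℕ) (I : ℝ → Jet E4 H4 → ℝ) : Prop :=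
  ∀ κ : ℝ, 0 < κ → ∀ C1 : ℝ, ∃ t1 : ℝ, 0 < t1 ∧
    ∀ (t : ℝ) (ht : 0 < t) (htB : t < BA - gA), t < t1 → ∀ ε : ℝ, 0 ≤ ε → ε ≤ C1 * t →
    CertE trH SyH (OA.lvl t ht.le htB) (fun u => fA u - ε) 0 (I t) (OmJ c N)
      (fun j => κ * j.W ^ 2)

/-- the Lipschitz condition at small levels -/
def CertLip (I : ℝ → Jet E4 H4 → ℝ) : Prop :=
  ∃ t2 : ℝ, 0 < t2 ∧ ∀ (t : ℝ) (ht : 0 < t) (htB : t < BA - gA), t < t2 →
    ∃ CI : ℝ, 0 ≤ CI ∧ LipD (DomO (OA.lvl t ht.le htB) (t / 2)) CI (I t)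

/-- the divergence inequality at small levels, one calculus -/
def CertDiv {X : Type*} [TopologicalSpace X] [CompactSpace X] [MeasurableSpace X]
    [OpensMeasurableSpace X] {μ : Measure X} [IsFiniteMeasure μ] (C : Calc X μ) (b Cθ : ℝ)
    (I : ℝ → Jet E4 H4 → ℝ) : Prop :=
  ∃ t2 : ℝ, 0 < t2 ∧ ∀ (t : ℝ) (ht : 0 < t) (htB : t < BA - gA), t < t2 →
    ∀ φ ψ : X → ℝ, C.Sm φ → C.Sm ψ →
      (∀ x, (φ x, ψ x) ∈ DomO (OA.lvl t ht.le htB) (t / 2)) →
      ∃ θ V : X → ℝ, DivCert C b Cθ (I t) φ ψ θ V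

/-- **the input of the final assembly.** -/
def CertAC.{u} : Prop :=
  ∃ (c : ℝ) (N : ℕ) (b Cθ : ℝ) (I : ℝ → Jet E4 H4 → ℝ), 0 < c ∧ CertPt c N I ∧ CertLip I ∧
    ∀ (X : Type u) [TopologicalSpace X] [CompactSpace X] [Nonempty X] [MeasurableSpace X]
      [OpensMeasurableSpace X] (μ : Measure X) [IsFiniteMeasure μ] [μ.IsOpenPosMeasure]
      (C : Calc X μ), CertDiv C b Cθ I

theorem certL_mk {X : Type*} [TopologicalSpace X] [CompactSpace X] [MeasurableSpace X]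
    [OpensMeasurableSpace X] {μ : Measure X} [IsFiniteMeasure μ] (C : Calc X μ) {c : ℝ} {N : ℕ}
    {b Cθ : ℝ} {I : ℝ → Jet E4 H4 → ℝ} (h1 : CertPt c N I) (h2 : CertLip I)
    (h3 : CertDiv C b Cθ I) : CertL C OA fA b Cθ I (OmJ c N) where
  cert := h1
  reg := by
    obtain ⟨t2, ht2, h2⟩ := h2
    obtain ⟨t3, ht3, h3⟩ := h3
    refine ⟨min t2 t3, lt_min ht2 ht3, fun t ht htB htt => ⟨h2 t ht htB (lt_min_iff.1 htt).1, ?_, ?_⟩⟩
    · refine ⟨|c| * (4 * N + 4), by positivity, lipD_OmJ ?_ c N⟩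
      rintro ⟨p, q⟩ ⟨a1, a2, a3, a4, -⟩
      simp only at a1 a2 a3 a4 ⊢
      exact ⟨by linarith, a2, by linarith, a4⟩
    · intro φ ψ sφ sψ hx
      obtain ⟨θ, V, D⟩ := h3 t ht htB (lt_min_iff.1 htt).2 φ ψ sφ sψ hx
      exact ⟨θ, V, D, int_OmJ sφ sψ c N θ⟩

theorem ΓA_le {η : ℝ} (hη : |η| ≤ 1) : ΓA η ≤ 1 := by
  have h2 : η ^ 2 ≤ 1 := by rw [← sq_abs]; exact pow_le_one₀ (abs_nonneg η) hη
  have h4 : η ^ 4 ≤ η ^ 2 := by nlinarith [sq_nonneg η]
  unfold ΓA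
  nlinarith [sq_nonneg η]

/-- **limit passage, contract AC*.** -/
theorem limOm_of_cert.{u} (H : CertAC.{u}) : StH_912.LimOm.{u} := by
  obtain ⟨c, N, b, Cθ, I, hc, h1, h2, h3⟩ := H
  refine ⟨gA, N, by norm_num [gA], by norm_num [gA], ?_⟩
  intro X _ _ _ _ _ μ _ _ C F₁ F₂ H₁ H₂ hs ε hε
  have hδ : 0 < min ε (c * ε) := lt_min hε (by positivity)
  obtain ⟨t, ht, htδ, φ, ψ, θ, sφ, sψ, sθ, mφ, mψ, hk, l1, l2, hi, hI⟩ :=
    exists_limL C adm_A conc_A (certL_mk C h1 h2 (h3 X μ C)) H₁ H₂ hs hδ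
  have e1 : min ε (c * ε) ≤ ε := min_le_left _ _
  have e2 : min ε (c * ε) ≤ c * ε := min_le_right _ _
  refine ⟨φ, ψ, sφ, sψ, fun x => by linarith [(mφ x).1], fun x => by linarith [(mψ x).1],
    fun x => (mφ x).2.trans (by norm_num [BA]), fun x => (mψ x).2.trans (by norm_num [BA]), ?_,
    fun x => (l1 x).trans (by linarith), fun x => (l2 x).trans (by linarith), ?_⟩
  · intro x
    have a1 := (mφ x).1
    have a2 := (mφ x).2
    have a3 := (mψ x).1
    have a4 := (mψ x).2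
    simp only [gA, BA] at a1 a2 a3 a4
    have h5 : ΓA (φ x - ψ x) ≤ 1 := ΓA_le (abs_le.2 ⟨by linarith, by linarith⟩)
    have h6 : t / 2 ≤ ΓA (φ x - ψ x) - (φ x + ψ x) / 2 := hk x
    linarith
  · simp only [OmJ_jt] at hI
    rw [integral_const_mul] at hI
    have h7 := hI.trans e2
    exact le_of_mul_le_mul_left h7 hc

/-- **part A from the certificate.** -/
theorem st_of_cert.{u} (H : CertAC.{u}) : Crest.Agent.R249.Top49.ST.{u} :=
  StH_912.st_of_limOm Grn324.poissonAll (limOm_of_cert H)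

end Crest.Agent.R249.StJ_912

end
end

-- ▼ part R249/TopS_40
section

/-!
# Row 249: S0383, S0384, S0385 from the single statement (ST) of part A

`Top49.ST.{0}` is the only hypothesis; `of_cert` variants start from 912's `CertAC.{0}`.
-/

set_option autoImplicit false
open scoped ContDiff Manifold
open Bundle Crest.GeometryTopology.CoordMetric Crest.GeometryTopology.ChartCurvature
open Crest Crest.GeometryTopology

namespace Crest.Agent.R249.TopS40

theorem oriented_of_st (hST : Top49.ST.{0}) : OriE_285.S0383Oriented :=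
  Bc_285.s0383Oriented_of_TI hST Ker57.tI


section
variable (M : Type*) [MetricSpace M] [ChartedSpace (EuclideanSpace ℝ (Fin 4)) M]
    [IsManifold 𝓘(ℝ, EuclideanSpace ℝ (Fin 4)) ∞ M] [CompactSpace M] [ConnectedSpace M]
    [RiemannianBundle (fun x : M => TangentSpace 𝓘(ℝ, EuclideanSpace ℝ (Fin 4)) x)]
    [IsContMDiffRiemannianBundle 𝓘(ℝ, EuclideanSpace ℝ (Fin 4)) ∞ (EuclideanSpace ℝ (Fin 4))
      (fun x : M => TangentSpace 𝓘(ℝ, EuclideanSpace ℝ (Fin 4)) x)]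
    [IsRiemannianManifold 𝓘(ℝ, EuclideanSpace ℝ (Fin 4)) M]

theorem s0383 (hST : Top49.ST.{0}) (c : ℝ) (hc : 0 < c) (hE : IsEinsteinWith 4 M c)
    (hK : HasNonnegSectionalCurvature 4 M) :
    ∃ a : ℝ, 0 < a ∧ (IsLocallyCoveredByRoundSphere M 4 a ∨
      IsLocallyCoveredByComplexProjective M 2 a ∨ IsLocallyCoveredBySphereProduct M a) :=
  OriE_285.s0383_of_oriented (oriented_of_st hST) M c hc hE hK

theorem s0384 (hST : Top49.ST.{0}) (c : ℝ) (hc : 0 < c) (hE : IsEinsteinWith 4 M c)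
    (hK : HasNonnegSectionalCurvature 4 M)
    (h0 : ∃ x : M, ∃ u v : EuclideanSpace ℝ (Fin 4),
      0 < gramDet (chartMetric 4 M x) (chartCentre 4 M x) u v ∧
        secNumer (chartMetric 4 M x) (chartCentre 4 M x) u v = 0) :
    IsLocallyCoveredBySphereProduct M c :=
  Fin40.s0384_of M (oriented_of_st hST) c hc hE hK h0

theorem s0385 (hST : Top49.ST.{0}) (hE : IsEinstein 4 M) (hK : HasPosSectionalCurvature 4 M) :
    ∃ a : ℝ, 0 < a ∧ (IsHomotheticToRoundSphere M 4 a ∨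
      IsHomotheticToComplexProjective M 2 a ∨ IsHomotheticToRealProjective M 4 a) :=
  Fin40.s0385_of M (oriented_of_st hST) hE hK

end

end Crest.Agent.R249.TopS40
end

-- ▼ part R249/CovB_621
section

/-!
# Row 249, part A (helper621): covering of the region of AC* by 324's charts (post #4257)

`cover_cases` : to prove a statement `Goal` about a point `(η², m, G)` of the region with `m < 1`
it is enough to prove it in each chart:
* `IIa` : `m ≤ m₁`, `y = 4 m² Θ`, `Θ ≤ h₁`, `G = c (1-m) m² T`;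
* `IIb` : the same with `Θ ≥ h₁`;
* `I`   : `w = 1 - m ≤ 1 - m₁`, `4 y = 25 w Θ`, `G = c w m² T`, `T₀ ≤ T ≤ T₁`;
* `I'`  : the same with `T ≤ T₀`, `Θ ≥ h₀`;
* `Ia`  : `Θ = T b`, `b ≤ b₀`, `T ≤ T₀`;  `Ib` : `T = Θ a`, `b₀ a ≤ 1`, `Θ ≤ h₀`;
* `VI`  : `G = c m² p`, `w = p s`, `T₁ s ≤ 1`, `p ≤ p₀`;
* `VII` : `G = c m² p`, `p ≥ p₀` (and `p ≥ T₁ w`).
-/

set_option autoImplicit false

namespace Crest.Agent.R249.CovA621

open Sym467

theorem cover_cases {c y m G m1 h1 T0 T1 h0 b0 p0 : ℝ} (hc : 0 < c) (hm : 0 < m) (hm1 : m < 1)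
    (hy : 0 ≤ y) (hy4 : y ≤ 4 * m ^ 2) (hk : 0 ≤ 1 - 7 / 40 * y + 1 / 125 * y ^ 2 - m) (hG : 0 ≤ G)
    (c1 : 7 / 10 ≤ m1) (c2 : 0 < T0) (c4 : 0 < b0) {Goal : Prop}
    (IIa : ∀ Th T, 0 ≤ Th → Th ≤ h1 → Th ≤ 1 → 0 ≤ T → m ≤ m1 → y = 4 * m ^ 2 * Th →
      G = c * (1 - m) * m ^ 2 * T → Goal)
    (IIb : ∀ Th T, h1 ≤ Th → Th ≤ 1 → 0 ≤ T → m ≤ m1 → y = 4 * m ^ 2 * Th →
      G = c * (1 - m) * m ^ 2 * T → Goal)
    (I : ∀ w Th T, 0 < w → w ≤ 1 - m1 → 0 ≤ Th → Th ≤ 1 → T0 ≤ T → T ≤ T1 → m = 1 - w →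
      4 * y = 25 * w * Th → G = c * w * m ^ 2 * T → Goal)
    (I' : ∀ w Th T, 0 < w → w ≤ 1 - m1 → h0 ≤ Th → Th ≤ 1 → 0 ≤ T → T ≤ T0 → m = 1 - w →
      4 * y = 25 * w * Th → G = c * w * m ^ 2 * T → Goal)
    (Ia : ∀ w b T, 0 < w → w ≤ 1 - m1 → 0 ≤ b → b ≤ b0 → 0 < T → T ≤ T0 → m = 1 - w →
      4 * y = 25 * w * (T * b) → G = c * w * m ^ 2 * T → Goal)
    (Ib : ∀ w Th a, 0 < w → w ≤ 1 - m1 → 0 ≤ Th → Th ≤ h0 → 0 ≤ a → b0 * a ≤ 1 → m = 1 - w →
      4 * y = 25 * w * Th → G = c * w * m ^ 2 * (Th * a) → Goal)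
    (VI : ∀ p s Th, 0 < p → p ≤ p0 → 0 < s → T1 * s ≤ 1 → 0 ≤ Th → Th ≤ 1 → p * s ≤ 1 - m1 →
      m = 1 - p * s → 4 * y = 25 * (p * s) * Th → G = c * m ^ 2 * p → Goal)
    (VII : ∀ w Th p, 0 < w → w ≤ 1 - m1 → 0 ≤ Th → Th ≤ 1 → p0 ≤ p → T1 * w ≤ p → m = 1 - w →
      4 * y = 25 * w * Th → G = c * m ^ 2 * p → Goal) : Goal := by
  have hw : 0 < 1 - m := by linarith
  have hden : 0 < c * (1 - m) * m ^ 2 := by positivity
  obtain ⟨T, hTd⟩ : ∃ T, T = G / (c * (1 - m) * m ^ 2) := ⟨_, rfl⟩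
  have hT : 0 ≤ T := by rw [hTd]; positivity
  have hTe : G = c * (1 - m) * m ^ 2 * T := by rw [hTd]; field_simp
  rcases le_total m m1 with h | h
  · obtain ⟨Th, hThd⟩ : ∃ Th, Th = y / (4 * m ^ 2) := ⟨_, rfl⟩
    have hTh : 0 ≤ Th := by rw [hThd]; positivity
    have hTh1 : Th ≤ 1 := by rw [hThd, div_le_one (by positivity)]; exact hy4
    have hye : y = 4 * m ^ 2 * Th := by rw [hThd]; field_simp
    rcases le_total Th h1 with h2 | h2
    · exact IIa Th T hTh h2 hTh1 hT h hye hTe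
    · exact IIb Th T h2 hTh1 hT h hye hTe
  · have hy4' : y ≤ 4 := by nlinarith
    have hbx := boxI_le hy hy4' (c1.trans h) hk
    obtain ⟨w, hwd⟩ : ∃ w, w = 1 - m := ⟨_, rfl⟩
    have hw0 : 0 < w := by rw [hwd]; exact hw
    have hw1 : w ≤ 1 - m1 := by linarith
    have hmw : m = 1 - w := by rw [hwd]; ring
    rw [← hwd] at hbx hTe
    obtain ⟨Th, hThd⟩ : ∃ Th, Th = 4 * y / (25 * w) := ⟨_, rfl⟩
    have hTh : 0 ≤ Th := by rw [hThd]; positivity
    have hTh1 : Th ≤ 1 := by rw [hThd, div_le_one (by positivity)]; exact hbx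
    have hye : 4 * y = 25 * w * Th := by rw [hThd]; field_simp
    rcases le_total T T0 with h2 | h2
    · rcases le_total Th h0 with h3 | h3
      · rcases eq_or_lt_of_le hT with hT0 | hT0
        · exact Ib w Th 0 hw0 hw1 hTh h3 le_rfl (by rw [mul_zero]; exact zero_le_one) hmw hye
            (by rw [hTe, ← hT0]; ring)
        · rcases le_total (b0 * T) Th with h4 | h4
          · have hThp : 0 < Th := lt_of_lt_of_le (by positivity) h4
            refine Ib w Th (T / Th) hw0 hw1 hTh h3 (by positivity) ?_ hmw hye ?_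
            · rw [← mul_div_assoc, div_le_one hThp]; exact h4
            · rw [hTe]; field_simp
          · refine Ia w (Th / T) T hw0 hw1 (by positivity) ?_ hT0 h2 hmw ?_ hTe
            · rw [div_le_iff₀ hT0]; exact h4
            · rw [hye]; field_simp
      · exact I' w Th T hw0 hw1 h3 hTh1 hT h2 hmw hye hTe
    · rcases le_total T T1 with h3 | h3
      · exact I w Th T hw0 hw1 hTh hTh1 h2 h3 hmw hye hTe
      · have hTp : 0 < T := c2.trans_le h2
        have hGp : G = c * m ^ 2 * (w * T) := by rw [hTe]; ring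
        rcases le_total (w * T) p0 with h4 | h4
        · have e : w * T * T⁻¹ = w := by field_simp
          refine VI (w * T) T⁻¹ Th (by positivity) h4 (by positivity) ?_ hTh hTh1 ?_ ?_ ?_ hGp
          · rw [← div_eq_mul_inv, div_le_one hTp]; exact h3
          · rw [e]; exact hw1
          · rw [e]; exact hmw
          · rw [e]; exact hye
        · refine VII w Th (w * T) hw0 hw1 hTh hTh1 h4 ?_ hmw hye hGp
          rw [mul_comm T1 w]
          exact mul_le_mul_of_nonneg_left h3 hw0.le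

end Crest.Agent.R249.CovA621
end

-- ▼ part R249/Cd9_133
section

/-!
# Row 249, part A (helper133): the interior inequality of the certificate from the `7` PSD statements

`PsdAll` : positive semidefiniteness of the chart matrices on their boxes, where `k > 0`;
`int_of_psd : PsdAll → INT ACpm C709 8 8`.
-/

set_option autoImplicit false
set_option linter.unusedVariables false

open Set Filter Topology
open scoped ContDiff

noncomputable section

namespace Crest.Agent.R249.Cd133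

open Ker254 Brg133 Sym467 CovA621 StK_912

/-- the statements checked by the kernel -/
structure PsdAll : Prop where
  pI : ∀ w v T : ℝ, 0 ≤ w → 10 * w ≤ 3 → 0 ≤ v → 4 * v ≤ 1 → 1 ≤ 10 * T → T ≤ 9 →
    0 < ev3 w v T KI → ∀ u s t : ℝ, 0 ≤ qf (ev3 w v T PI00) (ev3 w v T PI01) (ev3 w v T PI02)
      (ev3 w v T PI11) (ev3 w v T PI12) (ev3 w v T PI22) u s t
  pI' : ∀ w v T : ℝ, 0 ≤ w → 10 * w ≤ 3 → 1 ≤ 10 * v → 4 * v ≤ 1 → 0 ≤ T → 10 * T ≤ 1 →
    0 < ev3 w v T KI → ∀ u s t : ℝ, 0 ≤ qf (ev3 w v T PI00) (ev3 w v T PI01) (ev3 w v T PI02)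
      (ev3 w v T PI11) (ev3 w v T PI12) (ev3 w v T PI22) u s t
  pIa : ∀ w b T : ℝ, 0 ≤ w → 10 * w ≤ 3 → 0 ≤ b → b ≤ 1 → 0 ≤ T → 10 * T ≤ 1 →
    0 < ev3 w b T KIa → ∀ u s t : ℝ, 0 ≤ qf (ev3 w b T PIa00) (ev3 w b T PIa01) (ev3 w b T PIa02)
      (ev3 w b T PIa11) (ev3 w b T PIa12) (ev3 w b T PIa22) u s t
  pIb : ∀ w v a : ℝ, 0 ≤ w → 10 * w ≤ 3 → 0 ≤ v → 10 * v ≤ 1 → 0 ≤ a → a ≤ 1 →
    0 < ev3 w v a KIb → ∀ u s t : ℝ, 0 ≤ qf (ev3 w v a PIb00) (ev3 w v a PIb01) (ev3 w v a PIb02)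
      (ev3 w v a PIb11) (ev3 w v a PIb12) (ev3 w v a PIb22) u s t
  pVI : ∀ p v s : ℝ, 0 ≤ p → 2 * p ≤ 1 → 0 ≤ v → 4 * v ≤ 1 → 0 ≤ s → 9 * s ≤ 1 →
    0 < ev3 p v s KVI → ∀ u a t : ℝ, 0 ≤ qf (ev3 p v s PVI00) (ev3 p v s PVI01) (ev3 p v s PVI02)
      (ev3 p v s PVI11) (ev3 p v s PVI12) (ev3 p v s PVI22) u a t
  pVII : ∀ w v p : ℝ, 0 ≤ w → 10 * w ≤ 3 → 0 ≤ v → 4 * v ≤ 1 → 1 ≤ 2 * p →
    0 < ev3 w v p KVII → ∀ u s t : ℝ, 0 ≤ qf (ev3 w v p PVII00) (ev3 w v p PVII01)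
      (ev3 w v p PVII02) (ev3 w v p PVII11) (ev3 w v p PVII12) (ev3 w v p PVII22) u s t
  pII : ∀ m v T : ℝ, 0 ≤ m → 10 * m ≤ 7 → 0 ≤ v → v ≤ 1 → 0 ≤ T →
    0 < ev3 m v T KII → ∀ u s t : ℝ, 0 ≤ qf (ev3 m v T PII00) (ev3 m v T PII01) (ev3 m v T PII02)
      (ev3 m v T PII11) (ev3 m v T PII12) (ev3 m v T PII22) u s t

lemma dropI {w : ℝ} (h0 : 0 ≤ w) (h1 : 10 * w ≤ 3) :
    0 ≤ 184256000 - 4915200000 * w + 60039168000 * w ^ 2 - 135561216000 * w ^ 3 +
      109744128000 * w ^ 4 - 29491200000 * w ^ 5 := by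
  have a1 : 0 ≤ (3 / 10 - w) * (w - 1 / 20) ^ 2 := mul_nonneg (by linarith) (sq_nonneg _)
  have a2 : 0 ≤ w ^ 4 * (1 - w) := mul_nonneg (by positivity) (by linarith)
  have a3 : 0 ≤ w ^ 4 := by positivity
  nlinarith [sq_nonneg (w - 11 / 250)]

lemma ev_HIa (w b T : ℝ) : ev3 w b T HIa = 184256000 - 4915200000 * w + 60039168000 * w ^ 2 -
    135561216000 * w ^ 3 + 109744128000 * w ^ 4 - 29491200000 * w ^ 5 := by
  simp only [HIa, ev3, ev2, ev1]; push_cast; ring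

lemma ev_HIb (w b T : ℝ) : ev3 w b T HIb = 184256000 - 4915200000 * w + 60039168000 * w ^ 2 -
    135561216000 * w ^ 3 + 109744128000 * w ^ 4 - 29491200000 * w ^ 5 := by
  simp only [HIb, ev3, ev2, ev1]; push_cast; ring

lemma ev_KI (w v T : ℝ) : ev3 w v T KI = 8 - 35 * v + 40 * w * v ^ 2 := by
  simp only [KI, ev3, ev2, ev1]; push_cast; ring
lemma ev_KIb (w v T : ℝ) : ev3 w v T KIb = 8 - 35 * v + 40 * w * v ^ 2 := by
  simp only [KIb, ev3, ev2, ev1]; push_cast; ring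
lemma ev_KVII (w v T : ℝ) : ev3 w v T KVII = 8 - 35 * v + 40 * w * v ^ 2 := by
  simp only [KVII, ev3, ev2, ev1]; push_cast; ring
lemma ev_KIa (w b T : ℝ) : ev3 w b T KIa = 8 - 35 * (T * b) + 40 * w * (T * b) ^ 2 := by
  simp only [KIa, ev3, ev2, ev1]; push_cast; ring
lemma ev_KVI (p v s : ℝ) : ev3 p v s KVI = 8 - 35 * v + 40 * (p * s) * v ^ 2 := by
  simp only [KVI, ev3, ev2, ev1]; push_cast; ring
lemma ev_KII (m v T : ℝ) : ev3 m v T KII = 250 - 250 * m - 175 * m ^ 2 * v + 32 * m ^ 4 * v ^ 2 := by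
  simp only [KII, ev3, ev2, ev1]; push_cast; ring

/-- positivity of `k` in box I -/
lemma kI {y m w v : ℝ} (hk : 0 < 1 - 7 / 40 * y + 1 / 125 * y ^ 2 - m) (hw : 0 < w)
    (hm : m = 1 - w) (hy : y = 25 * w * v) : 0 < 8 - 35 * v + 40 * w * v ^ 2 := by
  have e : 8 * (1 - 7 / 40 * y + 1 / 125 * y ^ 2 - m) = w * (8 - 35 * v + 40 * w * v ^ 2) := by
    rw [hm, hy]; ring
  have h : 0 < w * (8 - 35 * v + 40 * w * v ^ 2) := by rw [← e]; linarith
  exact (mul_pos_iff_of_pos_left hw).1 h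

/-- one chart -/
theorem goal_of_chart {H : Chart} {a b c : ℝ} (hc : ChartAt C709 H a b c) (hp : ChartPos H a b c)
    (he1 : H.e1 = 8) (he3 : H.e3 = 8) {z : E3} (hz : OReg ACpm z) {q : ℝ} (hq : 0 < q)
    (hqG : q ^ 2 = z.2.2) (hm : H.ma.ev a b c = z.2.1) (hy : H.ya.ev a b c = z.1 ^ 2)
    (hG : H.Ga.ev a b c = z.2.2) (hf : 4 * z.2.1 ^ 2 - z.1 ^ 2 ≤ H.f.ev a b c)
    (hP : ∀ u v s : ℝ, 0 ≤ qf (ev3 a b c H.P00) (ev3 a b c H.P01) (ev3 a b c H.P02)
      (ev3 a b c H.P11) (ev3 a b c H.P12) (ev3 a b c H.P22) u v s) (h k : ℝ) :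
    (4 * z.2.1 ^ 2 - z.1 ^ 2) / (384 * z.2.1 ^ 2) *
      (8 * RR C709.c z.2.1 z.2.2 + 8 * (k - z.1 / (4 * z.2.1) * q) ^ 2) ≤
      Eta467.F3 0 C709.A C709.B C709.W z (Eta467.X0 f0 z) (Eta467.K0 f0 z) q h k := by
  have hR : 0 < RR C709.c z.2.1 z.2.2 := by
    have h1 := hz.m0
    have h2 : 0 < 1 - z.2.1 := by linarith [hz.m1]
    have h3 := hz.G0
    show 0 < z.2.2 + ((C709.c : ℕ) : ℝ) * (1 - z.2.1) * z.2.1 ^ 2
    positivity
  have hS : 0 ≤ C709.S (H.ma.ev a b c) (q ^ 2) := by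
    rw [hm, hqG]
    exact (mul_pos (pow_pos hz.m0 _) (pow_pos hR _)).le
  have key := chart_sound hc hp hz.e0 hq.ne' hy.symm (hqG.trans hG.symm) hS hP
  rw [hm, he1, he3, hqG] at key
  exact F3_of_ZF (e1 := 8) (e3 := 8) hz.m0 hR hqG hf (by norm_num) (by norm_num) (fun h k => by
    have := key h k
    push_cast at this
    exact this) h k

/-- **the interior inequality.** -/
theorem int_of_psd (P : PsdAll) : INT ACpm C709 8 8 := by
  intro z hz q hq hqG h k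
  have hm0 := hz.m0
  have hm1 := hz.m1
  have hG0 := hz.G0
  have hy0 : 0 < z.1 ^ 2 := by have := hz.e0; positivity
  have hy4 : z.1 ^ 2 < 4 * z.2.1 ^ 2 := by
    have h1 := sq_lt_sq' (by linarith [abs_nonneg z.1, hz.em] : -(2 * z.2.1) < |z.1|) hz.em
    rw [sq_abs] at h1
    linarith
  have hk : 0 < 1 - 7 / 40 * z.1 ^ 2 + 1 / 125 * (z.1 ^ 2) ^ 2 - z.2.1 := by
    have := hz.k0
    rw [kf_AC] at this
    have e : (z.1 ^ 2) ^ 2 = z.1 ^ 4 := by ring
    rw [e]; exact this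
  have hf4 : 4 * z.2.1 ^ 2 - z.1 ^ 2 ≤ 4 := by nlinarith
  change (4 * z.2.1 ^ 2 - z.1 ^ 2) / (384 * z.2.1 ^ 2) *
      (8 * RR C709.c z.2.1 z.2.2 + 8 * (k - z.1 / (4 * z.2.1) * q) ^ 2) ≤
      Eta467.F3 0 C709.A C709.B C709.W z (Eta467.X0 f0 z) (Eta467.K0 f0 z) q h k
  obtain ⟨y, hy⟩ : ∃ y, y = z.1 ^ 2 := ⟨_, rfl⟩
  obtain ⟨m, hm⟩ : ∃ m, m = z.2.1 := ⟨_, rfl⟩
  obtain ⟨G, hG⟩ : ∃ G, G = z.2.2 := ⟨_, rfl⟩
  have b0 : 0 < m := hm ▸ hm0
  have b1 : m < 1 := hm ▸ hm1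
  have b2 : 0 < y := hy ▸ hy0
  have b3 : y < 4 * m ^ 2 := by rw [hy, hm]; exact hy4
  have b4 : 0 < 1 - 7 / 40 * y + 1 / 125 * y ^ 2 - m := by rw [hy, hm]; exact hk
  have b5 : 0 < G := hG ▸ hG0
  refine cover_cases (c := 20) (m1 := 7 / 10) (h1 := 1) (T0 := 1 / 10) (T1 := 9) (h0 := 2 / 5)
    (b0 := 4) (p0 := 1 / 2) (by norm_num) b0 b1 b2.le b3.le b4.le b5.le le_rfl (by norm_num)
    (by norm_num) ?_ ?_ ?_ ?_ ?_ ?_ ?_ ?_
  · -- II
    intro v T hv _ hv1 hT hm7 e1 e2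
    have hv1' : v < 1 := by
      by_contra hcon
      push Not at hcon
      have : v = 1 := le_antisymm hv1 hcon
      rw [e1, this] at b3
      linarith
    have hT0 : 0 < 1 + T := by linarith
    refine goal_of_chart (H := chII) (a := m) (b := v) (c := T) (atII m v T) ?_ rfl rfl hz hq hqG
      ?_ ?_ ?_ ?_ ?_ h k
    · have h1 : 0 < 1 - v := by linarith
      have h2 : 0 < 1 - m := by linarith
      constructor
      · simp only [chII, Ex.ev]; push_cast; positivity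
      · simp only [chII, Ex.ev]; push_cast; positivity
      · exact le_rfl
      · simp only [chII, Ex.ev]; push_cast; positivity
      · simp only [chII, Ex.ev]; push_cast; positivity
      · simp only [chII, Ex.ev]; push_cast; exact le_rfl
    · simp only [chII, Ex.ev]; rw [hm]
    · simp only [chII, Ex.ev]; push_cast; rw [← hy, e1]
    · simp only [chII, Ex.ev]; push_cast; rw [← hG, e2]
    · rw [← hm, ← hy, e1]; simp only [chII, Ex.ev]; push_cast
      exact le_of_eq (by ring)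
    · refine P.pII m v T b0.le (by linarith) hv hv1 hT ?_
      rw [ev_KII]
      rw [e1] at b4
      have e : 250 * (1 - 7 / 40 * (4 * m ^ 2 * v) + 1 / 125 * (4 * m ^ 2 * v) ^ 2 - m) =
        250 - 250 * m - 175 * m ^ 2 * v + 32 * m ^ 4 * v ^ 2 := by ring
      rw [← e]; linarith
  · -- IIb
    intro v T hv hv1 _ _ e1 _
    have : v = 1 := le_antisymm hv1 hv
    rw [e1, this] at b3
    exact absurd b3 (by linarith)
  · -- I
    intro w Th T hw hw1 hTh hTh1 hT0 hT1 em ey eG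
    have hy' : y = 25 * w * (Th / 4) := by linarith
    have hkI := kI b4 hw em hy'
    have hm' : 0 < 1 - w := em ▸ b0
    refine goal_of_chart (H := chI) (a := w) (b := Th / 4) (c := T) (atI w (Th / 4) T) ?_ rfl rfl
      hz hq hqG ?_ ?_ ?_ ?_ ?_ h k
    · have h1 : 0 < 1 + T := by linarith
      constructor
      · simp only [chI, Ex.ev]; push_cast; positivity
      · simp only [chI, Ex.ev]; push_cast; positivity
      · exact le_rfl
      · simp only [chI, Ex.ev]; push_cast; positivity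
      · simp only [chI, Ex.ev]; push_cast; positivity
      · simp only [chI, Ex.ev]; push_cast; exact le_rfl
    · simp only [chI, Ex.ev]; push_cast; rw [← hm, em]
    · simp only [chI, Ex.ev]; push_cast; rw [← hy, hy']
    · simp only [chI, Ex.ev]; push_cast; rw [← hG, eG, em]
    · simp only [chI, Ex.ev]; push_cast; exact hf4
    · exact P.pI w (Th / 4) T hw.le (by linarith) (by linarith) (by linarith) (by linarith) hT1
        (by rw [ev_KI]; exact hkI)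
  · -- I'
    intro w Th T hw hw1 hTh hTh1 hT0 hT1 em ey eG
    have hy' : y = 25 * w * (Th / 4) := by linarith
    have hkI := kI b4 hw em hy'
    have hm' : 0 < 1 - w := em ▸ b0
    refine goal_of_chart (H := chI) (a := w) (b := Th / 4) (c := T) (atI w (Th / 4) T) ?_ rfl rfl
      hz hq hqG ?_ ?_ ?_ ?_ ?_ h k
    · have h1 : 0 < 1 + T := by linarith
      constructor
      · simp only [chI, Ex.ev]; push_cast; positivity
      · simp only [chI, Ex.ev]; push_cast; positivity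
      · exact le_rfl
      · simp only [chI, Ex.ev]; push_cast; positivity
      · simp only [chI, Ex.ev]; push_cast; positivity
      · simp only [chI, Ex.ev]; push_cast; exact le_rfl
    · simp only [chI, Ex.ev]; push_cast; rw [← hm, em]
    · simp only [chI, Ex.ev]; push_cast; rw [← hy, hy']
    · simp only [chI, Ex.ev]; push_cast; rw [← hG, eG, em]
    · simp only [chI, Ex.ev]; push_cast; exact hf4
    · exact P.pI' w (Th / 4) T hw.le (by linarith) (by linarith) (by linarith) hT0 (by linarith)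
        (by rw [ev_KI]; exact hkI)
  · -- Ia
    intro w b T hw hw1 hb hb1 hT0 hT1 em ey eG
    have hy' : y = 25 * w * (T * (b / 4)) := by linarith
    have hkI := kI b4 hw em hy'
    have hm' : 0 < 1 - w := em ▸ b0
    have hd := dropI hw.le (by linarith : 10 * w ≤ 3)
    refine goal_of_chart (H := chIa) (a := w) (b := b / 4) (c := T) (atIa w (b / 4) T) ?_ rfl rfl
      hz hq hqG ?_ ?_ ?_ ?_ ?_ h k
    · constructor
      · simp only [chIa, Ex.ev]; push_cast; positivity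
      · simp only [chIa, Ex.ev]; push_cast; positivity
      · exact le_rfl
      · simp only [chIa, Ex.ev]; push_cast; positivity
      · simp only [chIa, Ex.ev]; push_cast; positivity
      · simp only [chIa, Ex.ev, ev_v, ev_HIa]; push_cast
        refine mul_nonneg ?_ hd
        positivity
    · simp only [chIa, Ex.ev]; push_cast; rw [← hm, em]
    · simp only [chIa, Ex.ev]; push_cast; rw [← hy, hy']
    · simp only [chIa, Ex.ev]; push_cast; rw [← hG, eG, em]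
    · simp only [chIa, Ex.ev]; push_cast; exact hf4
    · exact P.pIa w (b / 4) T hw.le (by linarith) (by linarith) (by linarith) hT0.le (by linarith)
        (by rw [ev_KIa]; exact hkI)
  · -- Ib
    intro w Th a hw hw1 hTh hTh1 ha ha1 em ey eG
    have hy' : y = 25 * w * (Th / 4) := by linarith
    have hkI := kI b4 hw em hy'
    have hm' : 0 < 1 - w := em ▸ b0
    have hd := dropI hw.le (by linarith : 10 * w ≤ 3)
    refine goal_of_chart (H := chIb) (a := w) (b := Th / 4) (c := 4 * a) (atIb w (Th / 4) (4 * a))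
      ?_ rfl rfl hz hq hqG ?_ ?_ ?_ ?_ ?_ h k
    · constructor
      · simp only [chIb, Ex.ev]; push_cast; positivity
      · simp only [chIb, Ex.ev]; push_cast; positivity
      · exact le_rfl
      · simp only [chIb, Ex.ev]; push_cast; positivity
      · simp only [chIb, Ex.ev]; push_cast; positivity
      · simp only [chIb, Ex.ev, ev_v, ev_HIb]; push_cast
        refine mul_nonneg ?_ hd
        positivity
    · simp only [chIb, Ex.ev]; push_cast; rw [← hm, em]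
    · simp only [chIb, Ex.ev]; push_cast; rw [← hy, hy']
    · simp only [chIb, Ex.ev]; push_cast; rw [← hG, eG, em]; ring
    · simp only [chIb, Ex.ev]; push_cast; exact hf4
    · exact P.pIb w (Th / 4) (4 * a) hw.le (by linarith) (by linarith) (by linarith) (by linarith)
        (by linarith) (by rw [ev_KIb]; exact hkI)
  · -- VI
    intro p s Th hp hp1 hs hs1 hTh hTh1 hps em ey eG
    have hps0 : 0 < p * s := mul_pos hp hs
    have hy' : y = 25 * (p * s) * (Th / 4) := by linarith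
    have hkI := kI b4 hps0 em hy'
    have hm' : 0 < 1 - p * s := em ▸ b0
    refine goal_of_chart (H := chVI) (a := p) (b := Th / 4) (c := s) (atVI p (Th / 4) s)
      ?_ rfl rfl hz hq hqG ?_ ?_ ?_ ?_ ?_ h k
    · constructor
      · simp only [chVI, Ex.ev]; push_cast; positivity
      · simp only [chVI, Ex.ev]; push_cast; positivity
      · exact le_rfl
      · simp only [chVI, Ex.ev]; push_cast; positivity
      · simp only [chVI, Ex.ev]; push_cast; positivity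
      · simp only [chVI, Ex.ev]; push_cast; exact le_rfl
    · simp only [chVI, Ex.ev]; push_cast; rw [← hm, em]
    · simp only [chVI, Ex.ev]; push_cast; rw [← hy, hy']
    · simp only [chVI, Ex.ev]; push_cast; rw [← hG, eG, em]
    · simp only [chVI, Ex.ev]; push_cast; exact hf4
    · exact P.pVI p (Th / 4) s hp.le (by linarith) (by linarith) (by linarith) hs.le
        (by linarith) (by rw [ev_KVI]; exact hkI)
  · -- VII
    intro w Th p hw hw1 hTh hTh1 hp _ em ey eG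
    have hy' : y = 25 * w * (Th / 4) := by linarith
    have hkI := kI b4 hw em hy'
    have hm' : 0 < 1 - w := em ▸ b0
    have hp0 : 0 < p := by linarith
    refine goal_of_chart (H := chVII) (a := w) (b := Th / 4) (c := p) (atVII w (Th / 4) p)
      ?_ rfl rfl hz hq hqG ?_ ?_ ?_ ?_ ?_ h k
    · constructor
      · simp only [chVII, Ex.ev]; push_cast; positivity
      · simp only [chVII, Ex.ev]; push_cast; positivity
      · exact le_rfl
      · simp only [chVII, Ex.ev]; push_cast; positivity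
      · simp only [chVII, Ex.ev]; push_cast; positivity
      · simp only [chVII, Ex.ev]; push_cast; exact le_rfl
    · simp only [chVII, Ex.ev]; push_cast; rw [← hm, em]
    · simp only [chVII, Ex.ev]; push_cast; rw [← hy, hy']
    · simp only [chVII, Ex.ev]; push_cast; rw [← hG, eG, em]
    · simp only [chVII, Ex.ev]; push_cast; exact hf4
    · exact P.pVII w (Th / 4) p hw.le (by linarith) (by linarith) (by linarith) (by linarith)
        (by rw [ev_KVII]; exact hkI)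

end Crest.Agent.R249.Cd133
end
end

-- ▼ part R249/PxJ_324
section

/-!
# Row 249, part A (helper324): the chart matrix `I` is positive semidefinite
-/

set_option autoImplicit false
set_option linter.unusedVariables false

namespace Crest.Agent.R249.Px324

open Ker254 Cd133

theorem pI {w v T : ℝ} (h0 : 0 ≤ w) (h1 : 10 * w ≤ 3) (h2 : 0 ≤ v) (h3 : 4 * v ≤ 1) (h4 : 1 ≤ 10 * T) (h5 : T ≤ 9)
    (hK : 0 < ev3 w v T KI) (x1 x2 x3 : ℝ) :
    0 ≤ qf (ev3 w v T PI00) (ev3 w v T PI01) (ev3 w v T PI02) (ev3 w v T PI11)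
      (ev3 w v T PI12) (ev3 w v T PI22) x1 x2 x3 := by
  rcases le_total v (1/8) with k | k
  · rcases le_total T 1 with k | k
    · rcases le_total T (1/2) with k | k
      · exact q_I000
          (Lim.in_hi (α := 3) (β := 10) (by norm_num) (by norm_num) (by linarith) (by norm_num; linarith))
          (Lim.in_hi (α := 1) (β := 8) (by norm_num) (by norm_num) (by linarith) (by norm_num; linarith))
          (Lim.in_lohi (α := 1) (β := 10) (α' := 4) (β' := 1) (by norm_num) (by norm_num) (by norm_num) (by norm_num) (by norm_num; linarith) (by norm_num; linarith))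
          hK x1 x2 x3
      · rcases le_total w (1/10) with k | k
        · exact q_I0010
            (Lim.in_hi (α := 1) (β := 10) (by norm_num) (by norm_num) (by linarith) (by norm_num; linarith))
            (Lim.in_hi (α := 1) (β := 8) (by norm_num) (by norm_num) (by linarith) (by norm_num; linarith))
            (Lim.in_lohi (α := 1) (β := 2) (α' := 1) (β' := 1) (by norm_num) (by norm_num) (by norm_num) (by norm_num) (by norm_num; linarith) (by norm_num; linarith))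
            hK x1 x2 x3
        · exact q_I0011
            (Lim.in_lohi (α := 1) (β := 10) (α' := 2) (β' := 1) (by norm_num) (by norm_num) (by norm_num) (by norm_num) (by norm_num; linarith) (by norm_num; linarith))
            (Lim.in_hi (α := 1) (β := 8) (by norm_num) (by norm_num) (by linarith) (by norm_num; linarith))
            (Lim.in_lohi (α := 1) (β := 2) (α' := 1) (β' := 1) (by norm_num) (by norm_num) (by norm_num) (by norm_num) (by norm_num; linarith) (by norm_num; linarith))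
            hK x1 x2 x3
    · exact q_I01
        (Lim.in_hi (α := 3) (β := 10) (by norm_num) (by norm_num) (by linarith) (by norm_num; linarith))
        (Lim.in_hi (α := 1) (β := 8) (by norm_num) (by norm_num) (by linarith) (by norm_num; linarith))
        (Lim.in_lohi (α := 1) (β := 1) (α' := 8) (β' := 1) (by norm_num) (by norm_num) (by norm_num) (by norm_num) (by norm_num; linarith) (by norm_num; linarith))
        hK x1 x2 x3
  · rcases le_total w (1/5) with k | k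
    · rcases le_total T (1/2) with k | k
      · exact q_I100
          (Lim.in_hi (α := 1) (β := 5) (by norm_num) (by norm_num) (by linarith) (by norm_num; linarith))
          (Lim.in_lohi (α := 1) (β := 8) (α' := 1) (β' := 1) (by norm_num) (by norm_num) (by norm_num) (by norm_num) (by norm_num; linarith) (by norm_num; linarith))
          (Lim.in_lohi (α := 1) (β := 10) (α' := 4) (β' := 1) (by norm_num) (by norm_num) (by norm_num) (by norm_num) (by norm_num; linarith) (by norm_num; linarith))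
          hK x1 x2 x3
      · exact q_I101
          (Lim.in_hi (α := 1) (β := 5) (by norm_num) (by norm_num) (by linarith) (by norm_num; linarith))
          (Lim.in_lohi (α := 1) (β := 8) (α' := 1) (β' := 1) (by norm_num) (by norm_num) (by norm_num) (by norm_num) (by norm_num; linarith) (by norm_num; linarith))
          (Lim.in_lohi (α := 1) (β := 2) (α' := 17) (β' := 1) (by norm_num) (by norm_num) (by norm_num) (by norm_num) (by norm_num; linarith) (by norm_num; linarith))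
          hK x1 x2 x3
    · rcases le_total T 1 with k | k
      · exact q_I110
          (Lim.in_lohi (α := 1) (β := 5) (α' := 1) (β' := 2) (by norm_num) (by norm_num) (by norm_num) (by norm_num) (by norm_num; linarith) (by norm_num; linarith))
          (Lim.in_lohi (α := 1) (β := 8) (α' := 1) (β' := 1) (by norm_num) (by norm_num) (by norm_num) (by norm_num) (by norm_num; linarith) (by norm_num; linarith))
          (Lim.in_lohi (α := 1) (β := 10) (α' := 9) (β' := 1) (by norm_num) (by norm_num) (by norm_num) (by norm_num) (by norm_num; linarith) (by norm_num; linarith))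
          hK x1 x2 x3
      · exact q_I111
          (Lim.in_lohi (α := 1) (β := 5) (α' := 1) (β' := 2) (by norm_num) (by norm_num) (by norm_num) (by norm_num) (by norm_num; linarith) (by norm_num; linarith))
          (Lim.in_lohi (α := 1) (β := 8) (α' := 1) (β' := 1) (by norm_num) (by norm_num) (by norm_num) (by norm_num) (by norm_num; linarith) (by norm_num; linarith))
          (Lim.in_lohi (α := 1) (β := 1) (α' := 8) (β' := 1) (by norm_num) (by norm_num) (by norm_num) (by norm_num) (by norm_num; linarith) (by norm_num; linarith))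
          hK x1 x2 x3

end Crest.Agent.R249.Px324
end

-- ▼ part R249/PxI2_324
section

/-!
# Row 249, part A (helper324): the chart matrix `I2` is positive semidefinite
-/

set_option autoImplicit false
set_option linter.unusedVariables false

namespace Crest.Agent.R249.Px324

open Ker254 Cd133

theorem pI' {w v T : ℝ} (h0 : 0 ≤ w) (h1 : 10 * w ≤ 3) (h2 : 1 ≤ 10 * v) (h3 : 4 * v ≤ 1) (h4 : 0 ≤ T) (h5 : 10 * T ≤ 1)
    (hK : 0 < ev3 w v T KI) (x1 x2 x3 : ℝ) :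
    0 ≤ qf (ev3 w v T PI00) (ev3 w v T PI01) (ev3 w v T PI02) (ev3 w v T PI11)
      (ev3 w v T PI12) (ev3 w v T PI22) x1 x2 x3 := by
  rcases le_total w (1/10) with k | k
  · rcases le_total v (1/5) with k | k
    · exact q_I200
        (Lim.in_hi (α := 1) (β := 10) (by norm_num) (by norm_num) (by linarith) (by norm_num; linarith))
        (Lim.in_lohi (α := 1) (β := 10) (α' := 1) (β' := 1) (by norm_num) (by norm_num) (by norm_num) (by norm_num) (by norm_num; linarith) (by norm_num; linarith))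
        (Lim.in_hi (α := 1) (β := 10) (by norm_num) (by norm_num) (by linarith) (by norm_num; linarith))
        hK x1 x2 x3
    · exact q_I201
        (Lim.in_hi (α := 1) (β := 10) (by norm_num) (by norm_num) (by linarith) (by norm_num; linarith))
        (Lim.in_lohi (α := 1) (β := 5) (α' := 1) (β' := 4) (by norm_num) (by norm_num) (by norm_num) (by norm_num) (by norm_num; linarith) (by norm_num; linarith))
        (Lim.in_hi (α := 1) (β := 10) (by norm_num) (by norm_num) (by linarith) (by norm_num; linarith))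
        hK x1 x2 x3
  · exact q_I21
      (Lim.in_lohi (α := 1) (β := 10) (α' := 2) (β' := 1) (by norm_num) (by norm_num) (by norm_num) (by norm_num) (by norm_num; linarith) (by norm_num; linarith))
      (Lim.in_lohi (α := 1) (β := 10) (α' := 3) (β' := 2) (by norm_num) (by norm_num) (by norm_num) (by norm_num) (by norm_num; linarith) (by norm_num; linarith))
      (Lim.in_hi (α := 1) (β := 10) (by norm_num) (by norm_num) (by linarith) (by norm_num; linarith))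
      hK x1 x2 x3

end Crest.Agent.R249.Px324
end

-- ▼ part R249/PxK_324
section

/-!
# Row 249, part A (helper324): the chart matrix `II` is positive semidefinite
-/

set_option autoImplicit false
set_option linter.unusedVariables false

namespace Crest.Agent.R249.Px324

open Ker254 Cd133

theorem pII {m v T : ℝ} (h0 : 0 ≤ m) (h1 : 10 * m ≤ 7) (h2 : 0 ≤ v) (h3 : v ≤ 1) (h4 : 0 ≤ T)
    (hK : 0 < ev3 m v T KII) (x1 x2 x3 : ℝ) :
    0 ≤ qf (ev3 m v T PII00) (ev3 m v T PII01) (ev3 m v T PII02) (ev3 m v T PII11)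
      (ev3 m v T PII12) (ev3 m v T PII22) x1 x2 x3 := by
  rcases le_total v (1/2) with k | k
  · rcases le_total T 4 with k | k
    · rcases le_total T 1 with k | k
      · rcases le_total m (1/2) with k | k
        · exact q_II0000
            (Lim.in_hi (α := 1) (β := 2) (by norm_num) (by norm_num) (by linarith) (by norm_num; linarith))
            (Lim.in_hi (α := 1) (β := 2) (by norm_num) (by norm_num) (by linarith) (by norm_num; linarith))
            (Lim.in_hi (α := 1) (β := 1) (by norm_num) (by norm_num) (by linarith) (by norm_num; linarith))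
            hK x1 x2 x3
        · exact q_II0001
            (Lim.in_lohi (α := 1) (β := 2) (α' := 2) (β' := 5) (by norm_num) (by norm_num) (by norm_num) (by norm_num) (by norm_num; linarith) (by norm_num; linarith))
            (Lim.in_hi (α := 1) (β := 2) (by norm_num) (by norm_num) (by linarith) (by norm_num; linarith))
            (Lim.in_hi (α := 1) (β := 1) (by norm_num) (by norm_num) (by linarith) (by norm_num; linarith))
            hK x1 x2 x3
      · exact q_II001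
          (Lim.in_hi (α := 7) (β := 10) (by norm_num) (by norm_num) (by linarith) (by norm_num; linarith))
          (Lim.in_hi (α := 1) (β := 2) (by norm_num) (by norm_num) (by linarith) (by norm_num; linarith))
          (Lim.in_lohi (α := 1) (β := 1) (α' := 3) (β' := 1) (by norm_num) (by norm_num) (by norm_num) (by norm_num) (by norm_num; linarith) (by norm_num; linarith))
          hK x1 x2 x3
    · exact q_II01
        (Lim.in_hi (α := 7) (β := 10) (by norm_num) (by norm_num) (by linarith) (by norm_num; linarith))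
        (Lim.in_hi (α := 1) (β := 2) (by norm_num) (by norm_num) (by linarith) (by norm_num; linarith))
        (Lim.in_lo (α := 4) (β := 1) (by norm_num) (by norm_num) (by norm_num; linarith))
        hK x1 x2 x3
  · rcases le_total m (3/5) with k | k
    · exact q_II10
        (Lim.in_hi (α := 3) (β := 5) (by norm_num) (by norm_num) (by linarith) (by norm_num; linarith))
        (Lim.in_lohi (α := 1) (β := 2) (α' := 1) (β' := 1) (by norm_num) (by norm_num) (by norm_num) (by norm_num) (by norm_num; linarith) (by norm_num; linarith))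
        (Lim.in_none (by linarith))
        hK x1 x2 x3
    · exact q_II11
        (Lim.in_lohi (α := 3) (β := 5) (α' := 1) (β' := 6) (by norm_num) (by norm_num) (by norm_num) (by norm_num) (by norm_num; linarith) (by norm_num; linarith))
        (Lim.in_lohi (α := 1) (β := 2) (α' := 1) (β' := 1) (by norm_num) (by norm_num) (by norm_num) (by norm_num) (by norm_num; linarith) (by norm_num; linarith))
        (Lim.in_none (by linarith))
        hK x1 x2 x3

end Crest.Agent.R249.Px324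
end

-- ▼ part R249/PxAll_324
section

/-!
# Row 249, part A (helper324): all chart matrices of the certificate are positive semidefinite
-/

set_option autoImplicit false

namespace Crest.Agent.R249.Px324

open Ker254 Cd133

/-- **all seven interior checks** -/
theorem psdAll : PsdAll where
  pI _ _ _ h0 h1 h2 h3 h4 h5 hK u s t := pI h0 h1 h2 h3 h4 h5 hK u s t
  pI' _ _ _ h0 h1 h2 h3 h4 h5 hK u s t := pI' h0 h1 h2 h3 h4 h5 hK u s t
  pIa _ _ _ h0 h1 h2 h3 h4 h5 hK u s t := pIa h0 h1 h2 h3 h4 h5 hK u s t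
  pIb _ _ _ h0 h1 h2 h3 h4 h5 hK u s t := pIb h0 h1 h2 h3 h4 h5 hK u s t
  pVI _ _ _ h0 h1 h2 h3 h4 h5 hK u s t := pVI h0 h1 h2 h3 h4 h5 hK u s t
  pVII _ _ _ h0 h1 h2 h3 h4 hK u s t := pVII h0 h1 h2 h3 h4 hK u s t
  pII _ _ _ h0 h1 h2 h3 h4 hK u s t := pII h0 h1 h2 h3 h4 hK u s t

end Crest.Agent.R249.Px324
end

-- ▼ part R249/Sym7_467
section

/-!
# R249 (helper467), A2-ETA part 12: `cert_core`
-/

set_option autoImplicit false
set_option linter.unusedVariables false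
set_option linter.unusedSectionVars false

open MeasureTheory Set Filter Topology Matrix
open scoped ContDiff

noncomputable section

namespace Crest.Agent.R249.Sym467

open DivC467 Eta467 Lim621

attribute [local instance] Matrix.frobeniusNormedAddCommGroup Matrix.frobeniusNormedSpace

variable {γ : Pm} {ρ : Rd γ}

/-- scaling of the multipliers. -/
lemma exists_scale {S S0 M : ℝ} (hS : 0 ≤ S) (hS0 : 0 ≤ S0) (hM : 0 ≤ M) (h : S ≤ S0 + M) :
    ∃ θ : ℝ, 0 ≤ θ ∧ θ ≤ 1 ∧ θ * S ≤ S0 ∧ (1 - θ) * S ≤ M := by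
  rcases le_or_gt S S0 with h1 | h1
  · exact ⟨1, zero_le_one, le_rfl, by linarith, by simpa using hM⟩
  · have hSp : 0 < S := lt_of_le_of_lt hS0 h1
    refine ⟨S0 / S, by positivity, (div_le_one hSp).2 h1.le, ?_, ?_⟩
    · rw [div_mul_cancel₀ _ hSp.ne']
    · have : (1 - S0 / S) * S = S - S0 := by field_simp
      rw [this]; linarith

/-- the shifted jet. -/
def shJ (t m₁ m₂ : ℝ) (j : Jet E4 H4) : Jet E4 H4 where
  f := j.f + t
  g := j.g + t
  p := j.p
  q := j.q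
  P := (Fs (j.f + t) + m₁, j.P.2)
  Q := (Fs (j.g + t) + m₂, j.Q.2)

lemma bJ_shJ (t m₁ m₂ : ℝ) (j : Jet E4 H4) :
    bJ (shJ t m₁ m₂ j) = ((bJ j).1, (bJ j).2.1 + t, (bJ j).2.2) := by
  have hu : uJ (shJ t m₁ m₂ j) = uJ j := rfl
  rw [bJ, hu]
  simp only [shJ, bJ]
  ext
  · simp
  · simp only; ring
  · rfl

/-- points at the curve: the vertical segment. -/
lemma seg_up (hX : PmX γ) {t r0 : ℝ} (ht : 0 < t) (ht1 : t < 1 / 2) (hr0 : 0 < r0) (hr1 : r0 ≤ 1)
    (htr : t ≤ r0 / 2) {z : E3} (hz : z ∈ Reg γ) (hη : |z.1| ≤ 10 / 7) (hk : kf γ z = t)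
    (ho : r0 ≤ om γ z) : Seg γ (r0 / 4) z (z.1, z.2.1 + t, z.2.2) := by
  have hm : 1 / 4 ≤ z.2.1 := by
    by_contra hcon
    have := k_ge_of_small hz (by linarith)
    linarith
  have hg := gg_pos hz
  have hkd : 1 - γ.g1 * z.1 ^ 2 + γ.g2 * z.1 ^ 4 - z.2.1 = t := hk
  have hpt : ∀ s : ℝ, z + s • ((z.1, z.2.1 + t, z.2.2) - z) = (z.1, z.2.1 + s * t, z.2.2) := by
    intro s
    ext
    · simp
    · simp
    · simp
  have hks : ∀ s : ℝ, kf γ (z.1, z.2.1 + s * t, z.2.2) = (1 - s) * t := by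
    intro s
    show 1 - γ.g1 * z.1 ^ 2 + γ.g2 * z.1 ^ 4 - (z.2.1 + s * t) = _
    linarith
  have hsum : r0 * (1 + z.2.2) ≤ z.1 ^ 2 + t + z.2.2 := by
    have := (le_div_iff₀ hg).1 ho
    rwa [hk] at this
  have hG := hz.G0
  have hos : ∀ s ∈ Icc (0:ℝ) 1, r0 / 2 * (1 + z.2.2) ≤ z.1 ^ 2 + (1 - s) * t + z.2.2 := by
    intro s hs
    have : s * t ≤ 1 * t := mul_le_mul_of_nonneg_right hs.2 ht.le
    nlinarith
  refine ⟨rfl, fun s hs => ?_, fun s hs => ?_, fun s hs => ?_⟩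
  · rw [hpt s]
    have hst : 0 ≤ s * t := mul_nonneg hs.1 ht.le
    have h1st : 0 ≤ (1 - s) * t := mul_nonneg (by linarith [hs.2]) ht.le
    refine ⟨?_, ?_, ?_, ?_, hG, ?_⟩
    · show 0 < z.2.1 + s * t
      linarith
    · show |z.1| ≤ 2 * (z.2.1 + s * t)
      have := hz.em
      linarith
    · show z.2.1 + s * t + |z.1| / 2 ≤ 10 / 7
      have h1 := hX.cr z.1 hη
      have : s * t ≤ 1 * t := mul_le_mul_of_nonneg_right hs.2 ht.le
      linarith
    · rw [hks s]; exact h1st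
    · rw [hks s]
      show 0 < z.1 ^ 2 + (1 - s) * t + z.2.2
      have := hos s hs
      have : 0 < r0 / 2 * (1 + z.2.2) := by positivity
      linarith
  · rw [hpt s]
    show r0 / 4 ≤ z.2.1 + s * t
    have : 0 ≤ s * t := mul_nonneg hs.1 ht.le
    linarith
  · rw [hpt s, om, hks s, le_div_iff₀ (show 0 < 1 + z.2.2 from hg)]
    refine le_trans ?_ (hos s hs)
    show (r0 / 4) ^ 2 * (1 + z.2.2) ≤ r0 / 2 * (1 + z.2.2)
    apply mul_le_mul_of_nonneg_right _ hg.le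
    nlinarith

lemma norm_fst_only (x : ℝ) : ‖((x, 0) : H4)‖ = |x| := by
  rw [Prod.norm_def]
  simp

/-- `OmZ` increases under the shift, up to `O(t)`. -/
lemma OmZ_shift (N : ℕ) {t m₁ m₂ : ℝ} (ht : 0 ≤ t) (ht1 : t ≤ 1 / 2) {j : Jet E4 H4} (hf : 0 ≤ j.f)
    (hf1 : j.f ≤ 10 / 7) (hg : 0 ≤ j.g) (hg1 : j.g ≤ 10 / 7) :
    OmZ N j ≤ OmZ N (shJ t m₁ m₂ j) + 4 * 4 ^ N * t := by
  have h0 : 0 ≤ j.f * j.g := mul_nonneg hf hg
  have h1 : j.f * j.g ≤ (j.f + t) * (j.g + t) := mul_le_mul (by linarith) (by linarith) hg (by linarith)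
  have h2 : (j.f + t) * (j.g + t) ≤ 4 := by nlinarith
  have h3 : (j.f * j.g) ^ N ≤ ((j.f + t) * (j.g + t)) ^ N := pow_le_pow_left₀ h0 h1 N
  have h4 : ((j.f + t) * (j.g + t)) ^ N ≤ 4 ^ N := pow_le_pow_left₀ (h0.trans h1) h2 N
  have h5 : ‖j.p‖ ^ 2 + ‖j.q‖ ^ 2 + (j.f - 1) ^ 2 + (j.g - 1) ^ 2 ≤
      ‖j.p‖ ^ 2 + ‖j.q‖ ^ 2 + (j.f + t - 1) ^ 2 + (j.g + t - 1) ^ 2 + 4 * t := by nlinarith
  have h6 : 0 ≤ ‖j.p‖ ^ 2 + ‖j.q‖ ^ 2 + (j.f - 1) ^ 2 + (j.g - 1) ^ 2 := by positivity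
  have h7 : 0 ≤ ((j.f + t) * (j.g + t)) ^ N := pow_nonneg (h0.trans h1) N
  have e : OmZ N (shJ t m₁ m₂ j) = ((j.f + t) * (j.g + t)) ^ N *
      (‖j.p‖ ^ 2 + ‖j.q‖ ^ 2 + (j.f + t - 1) ^ 2 + (j.g + t - 1) ^ 2) := rfl
  rw [e, OmZ]
  calc (j.f * j.g) ^ N * (‖j.p‖ ^ 2 + ‖j.q‖ ^ 2 + (j.f - 1) ^ 2 + (j.g - 1) ^ 2) ≤
        ((j.f + t) * (j.g + t)) ^ N *
          (‖j.p‖ ^ 2 + ‖j.q‖ ^ 2 + (j.f + t - 1) ^ 2 + (j.g + t - 1) ^ 2 + 4 * t) :=
        mul_le_mul h3 h5 h6 h7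
    _ = ((j.f + t) * (j.g + t)) ^ N *
          (‖j.p‖ ^ 2 + ‖j.q‖ ^ 2 + (j.f + t - 1) ^ 2 + (j.g + t - 1) ^ 2) +
          ((j.f + t) * (j.g + t)) ^ N * (4 * t) := by ring
    _ ≤ _ := by
        have : ((j.f + t) * (j.g + t)) ^ N * (4 * t) ≤ 4 ^ N * (4 * t) :=
          mul_le_mul_of_nonneg_right h4 (by linarith)
        linarith

set_option maxHeartbeats 1600000 in
/-- **contact jets away from `(1, 1)`.** -/
lemma far_core {A B W : E3 → ℝ} {c : ℝ} {N : ℕ} (hX : PmX γ) (hC : CertS γ A B W c N)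
    {C0 : ℝ} (hC0 : 0 ≤ C0) {t ε κ r0 C1 : ℝ}
    (hseg : ∀ z z', Seg γ (r0 / 4) z z' → CfAllP C0 A B W z z') (ht : 0 < t)
    (ht1 : t < 1 / 2) (hε : 0 ≤ ε) (hε1 : ε ≤ C1 * t) (hC1 : 0 ≤ C1) (hr0 : 0 < r0)
    (hr1 : r0 ≤ 1) (htr : t ≤ r0 / 2) (htC : 102 * (13 + C1) * t ≤ 1)
    (hκ : (10 ^ 5 * C0 * (9 + 306 * (13 + C1)) + 4 * 4 ^ N * c) * t ≤ κ)
    {j : Jet E4 H4} {m₁ m₂ : ℝ}
    (h : ExJ γ t ε j m₁ m₂) (hk : kf γ (bJ j) = t) (hv : vJ j = dG γ (bJ j).1 • uJ j)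
    (h1 : 0 ≤ m₁) (h2 : 0 ≤ m₂)
    (hS : (1 / 2 - dG γ (bJ j).1) * m₁ + (1 / 2 + dG γ (bJ j).1) * m₂ ≤
      max (Ec γ (bJ j) + ε) 0) (ho : r0 ≤ om γ (bJ j)) :
    c * OmZ N j ≤ IE A B W j + κ * j.W ^ 2 := by
  obtain ⟨hz, hlt⟩ := bJ_mem ht h
  have hf0 := h.f0
  have hf1 := h.f1
  have hg0 := h.g0
  have hg1 := h.g1
  have hη : |(bJ j).1| ≤ 10 / 7 := by
    have e1 : (bJ j).1 = j.f - j.g := rfl
    rw [e1, abs_le]; constructor <;> linarith
  have hs := abs_le.1 (hX.sl _ hη)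
  obtain ⟨d, hd⟩ : ∃ d, d = dG γ (bJ j).1 := ⟨_, rfl⟩
  rw [← hd] at hs hv hS
  obtain ⟨κ₁, hκ₁⟩ : ∃ κ₁, κ₁ = 1 / 2 - d := ⟨_, rfl⟩
  obtain ⟨κ₂, hκ₂⟩ : ∃ κ₂, κ₂ = 1 / 2 + d := ⟨_, rfl⟩
  rw [← hκ₁, ← hκ₂] at hS
  have hκ₁p : 1 / 50 ≤ κ₁ := by rw [hκ₁]; linarith
  have hκ₂p : 1 / 50 ≤ κ₂ := by rw [hκ₂]; linarith
  have hκs : κ₁ + κ₂ = 1 := by rw [hκ₁, hκ₂]; ring
  have hSeg := seg_up hX ht ht1 hr0 hr1 htr hz hη hk ho
  have hz0 : ((bJ j).1, (bJ j).2.1 + t, (bJ j).2.2) ∈ Reg γ := by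
    have := hSeg.mem 1 (by simp)
    simpa using this
  obtain ⟨z0, hz0d⟩ : ∃ z0, z0 = ((bJ j).1, (bJ j).2.1 + t, (bJ j).2.2) := ⟨_, rfl⟩
  rw [← hz0d] at hz0 hSeg
  have hk0 : kf γ z0 = 0 := by
    have h3 : 1 - γ.g1 * (bJ j).1 ^ 2 + γ.g2 * (bJ j).1 ^ 4 - (bJ j).2.1 = t := hk
    rw [hz0d]
    show 1 - γ.g1 * (bJ j).1 ^ 2 + γ.g2 * (bJ j).1 ^ 4 - ((bJ j).2.1 + t) = 0
    linarith
  -- difference of `E`
  have hf2 : 0 ≤ j.f := ht.le.trans hf0
  have hg2 : 0 ≤ j.g := ht.le.trans hg0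
  have Lf : |Fs (j.f + t) - Fs j.f| ≤ 13 * t := by
    have := Fs_lip (a := j.f + t) (b := j.f) (by linarith) (by linarith) hf2 (by linarith)
    rwa [add_sub_cancel_left, abs_of_pos ht] at this
  have Lg : |Fs (j.g + t) - Fs j.g| ≤ 13 * t := by
    have := Fs_lip (a := j.g + t) (b := j.g) (by linarith) (by linarith) hg2 (by linarith)
    rwa [add_sub_cancel_left, abs_of_pos ht] at this
  have hE : Ec γ (bJ j) ≤ Ec γ z0 + 13 * t := by
    have e1 : Ec γ (bJ j) = -κ₁ * Fs j.f - κ₂ * Fs j.g + ddG γ (bJ j).1 * (bJ j).2.2 := by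
      rw [Ec, bJ_phi, bJ_psi, ← hd, hκ₁, hκ₂]
    have e2 : Ec γ z0 = -κ₁ * Fs (j.f + t) - κ₂ * Fs (j.g + t) + ddG γ (bJ j).1 * (bJ j).2.2 := by
      have a1 : z0.2.1 + z0.1 / 2 = j.f + t := by
        rw [hz0d, ← bJ_phi j]; simp only; ring
      have a2 : z0.2.1 - z0.1 / 2 = j.g + t := by
        rw [hz0d, ← bJ_psi j]; simp only; ring
      have a3 : z0.1 = (bJ j).1 := by rw [hz0d]
      have a4 : z0.2.2 = (bJ j).2.2 := by rw [hz0d]
      rw [Ec, a1, a2, a3, a4, ← hd, hκ₁, hκ₂]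
    rw [e1, e2]
    have := abs_le.1 Lf
    have := abs_le.1 Lg
    have q1 : κ₁ * (Fs (j.f + t) - Fs j.f) ≤ κ₁ * (13 * t) :=
      mul_le_mul_of_nonneg_left (by linarith) (by linarith)
    have q2 : κ₂ * (Fs (j.g + t) - Fs j.g) ≤ κ₂ * (13 * t) :=
      mul_le_mul_of_nonneg_left (by linarith) (by linarith)
    have q3 : κ₁ * (13 * t) + κ₂ * (13 * t) = 13 * t := by rw [← add_mul, hκs, one_mul]
    linarith
  -- multipliers
  obtain ⟨S, hSd⟩ : ∃ S, S = κ₁ * m₁ + κ₂ * m₂ := ⟨_, rfl⟩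
  rw [← hSd] at hS
  have p1 : 0 ≤ κ₁ * m₁ := mul_nonneg (by linarith) h1
  have p2 : 0 ≤ κ₂ * m₂ := mul_nonneg (by linarith) h2
  have hS0 : 0 ≤ S := by rw [hSd]; linarith
  have hct : 0 ≤ C1 * t := mul_nonneg hC1 ht.le
  have h13 : (13 + C1) * t = 13 * t + C1 * t := by ring
  have hSle : S ≤ max (Ec γ z0) 0 + (13 + C1) * t := by
    refine hS.trans (max_le ?_ ?_)
    · have := le_max_left (Ec γ z0) 0
      rw [h13]; linarith
    · have := le_max_right (Ec γ z0) 0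
      rw [h13]; linarith
  obtain ⟨θ, hθ0, hθ1, hθS, hθM⟩ := exists_scale hS0 (le_max_right (Ec γ z0) 0)
    (show 0 ≤ (13 + C1) * t by positivity) hSle
  have q1 : (1 - θ) * m₁ ≤ 50 * ((13 + C1) * t) := by
    have : (1 - θ) * (1 / 50 * m₁) ≤ (1 - θ) * S := by
      apply mul_le_mul_of_nonneg_left _ (by linarith)
      have : 1 / 50 * m₁ ≤ κ₁ * m₁ := mul_le_mul_of_nonneg_right hκ₁p h1
      rw [hSd]; linarith
    have e : (1 - θ) * m₁ = 50 * ((1 - θ) * (1 / 50 * m₁)) := by ring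
    rw [e]; linarith
  have q2 : (1 - θ) * m₂ ≤ 50 * ((13 + C1) * t) := by
    have : (1 - θ) * (1 / 50 * m₂) ≤ (1 - θ) * S := by
      apply mul_le_mul_of_nonneg_left _ (by linarith)
      have : 1 / 50 * m₂ ≤ κ₂ * m₂ := mul_le_mul_of_nonneg_right hκ₂p h2
      rw [hSd]; linarith
    have e : (1 - θ) * m₂ = 50 * ((1 - θ) * (1 / 50 * m₂)) := by ring
    rw [e]; linarith
  have q1' : 0 ≤ (1 - θ) * m₁ := mul_nonneg (by linarith) h1
  have q2' : 0 ≤ (1 - θ) * m₂ := mul_nonneg (by linarith) h2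
  -- the shifted jet
  obtain ⟨j0, hj0⟩ : ∃ j0, j0 = shJ t (θ * m₁) (θ * m₂) j := ⟨_, rfl⟩
  have hb0 : bJ j0 = z0 := by rw [hj0, bJ_shJ, hz0d]
  have hu0 : uJ j0 = uJ j := by rw [hj0]; rfl
  have hv0 : vJ j0 = d • uJ j0 := by
    rw [hu0, ← hv, hj0]; rfl
  have hlt0 : |z0.1| < 2 * z0.2.1 := by
    rw [hz0d]
    show |(bJ j).1| < 2 * ((bJ j).2.1 + t)
    linarith
  have hd0 : dG γ z0.1 = d := by rw [hd, hz0d]
  have hcert : c * OmZ N j0 ≤ IE A B W j0 := by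
    have := IE_ge_con (f := Fs) (θ := 0) (A := A) (B := B) (W := W) (o0 := fun z => c * o0 N z)
      (o2 := fun z => c * o2 N z) (j := j0) (m₁ := θ * m₁) (m₂ := θ * m₂) (σ := d) (κ₁ := κ₁)
      (κ₂ := κ₂) (E := Ec γ z0) le_rfl zero_le_one (by rw [hb0]; exact hC.Wnn _ hz0 hlt0)
      (by rw [hj0]; exact h.P) (by rw [hj0]; rfl) (by rw [hj0]; rfl) hv0 (mul_nonneg hθ0 h1)
      (mul_nonneg hθ0 h2) (by linarith) (by linarith)
      (by
        refine le_trans (le_of_eq ?_) hθS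
        rw [hSd]; ring)
      (fun q hq hq2 => by
        rw [hb0]
        exact (hC.int z0 hz0 hlt0 q hq (by rw [hq2, ← hb0]; rfl)).vtx d)
      (fun hE q hq hq2 => by
        have := hC.v1 z0 hz0 hlt0 hk0 hE q hq (by rw [hq2, ← hb0]; rfl)
        rw [hd0, ← hκ₁] at this
        rw [hb0]; exact this)
      (fun hE q hq hq2 => by
        have := hC.v2 z0 hz0 hlt0 hk0 hE q hq (by rw [hq2, ← hb0]; rfl)
        rw [hd0, ← hκ₂] at this
        rw [hb0]; exact this)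
      (fun q hq hq2 ss hss => by
        have := (hC.int z0 hz0 hlt0 q hq (by rw [hq2, ← hb0]; rfl)).f2 ss 0 0 hss le_rfl (by simp)
        rw [hb0]; simpa using this)
    rw [OmZ_eq]
    linarith
  -- comparison
  have hr : RelE t j j0 := by
    rw [hj0]
    refine ⟨rfl, ?_, ?_⟩
    · show |j.f - (j.f + t)| ≤ t
      rw [sub_add_cancel_left, abs_neg, abs_of_pos ht]
    · show |j.g - (j.g + t)| ≤ t
      rw [sub_add_cancel_left, abs_neg, abs_of_pos ht]
  have hcf : CfAllP C0 A B W (bJ j) (bJ j0) := by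
    rw [hb0]; exact hseg _ _ hSeg
  have hlip := (est_IE_P ht.le hr hcf).lip
  obtain ⟨D, hD⟩ : ∃ D, D = 51 * (13 + C1) * t := ⟨_, rfl⟩
  have hD0 : 0 ≤ D := by rw [hD]; positivity
  have nP : ‖j.P - j0.P‖ ≤ D := by
    have e : j.P - j0.P = ((j.P.1 - (Fs (j.f + t) + θ * m₁), 0) : H4) := by
      rw [hj0]; ext
      · rfl
      · simp [shJ]
    rw [e, norm_fst_only, h.eP, hD, abs_le]
    obtain ⟨x1, x2⟩ := abs_le.1 Lf
    have e5 : 51 * (13 + C1) * t = 50 * ((13 + C1) * t) + (13 * t + C1 * t) := by ring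
    have e6 : (1 - θ) * m₁ = m₁ - θ * m₁ := by ring
    rw [e6] at q1 q1'
    rw [e5]
    constructor <;> linarith
  have nQ : ‖j.Q - j0.Q‖ ≤ D := by
    have e : j.Q - j0.Q = ((j.Q.1 - (Fs (j.g + t) + θ * m₂), 0) : H4) := by
      rw [hj0]; ext
      · rfl
      · simp [shJ]
    rw [e, norm_fst_only, h.eQ, hD, abs_le]
    obtain ⟨x1, x2⟩ := abs_le.1 Lg
    have e5 : 51 * (13 + C1) * t = 50 * ((13 + C1) * t) + (13 * t + C1 * t) := by ring
    have e6 : (1 - θ) * m₂ = m₂ - θ * m₂ := by ring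
    rw [e6] at q2 q2'
    rw [e5]
    constructor <;> linarith
  have hW1 := j.one_le_W
  have hW0 : j0.W ≤ 2 * j.W := by
    have n1 : ‖j0.P‖ ≤ ‖j.P‖ + D := by
      have := norm_sub_norm_le j0.P j.P
      rw [norm_sub_rev] at this
      linarith
    have n2 : ‖j0.Q‖ ≤ ‖j.Q‖ + D := by
      have := norm_sub_norm_le j0.Q j.Q
      rw [norm_sub_rev] at this
      linarith
    have e1 : j0.p = j.p := by rw [hj0]; rfl
    have e2 : j0.q = j.q := by rw [hj0]; rfl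
    have e3 : j0.W = 1 + ‖j.p‖ ^ 2 + ‖j.q‖ ^ 2 + ‖j0.P‖ + ‖j0.Q‖ := by rw [Jet.W, e1, e2]
    have e4 : j.W = 1 + ‖j.p‖ ^ 2 + ‖j.q‖ ^ 2 + ‖j.P‖ + ‖j.Q‖ := rfl
    have : 2 * D ≤ 1 := by rw [hD]; linarith
    linarith
  have hW00 := j0.W_nonneg
  have hmod : Lim621.Mod t j j0 ≤ (9 + 306 * (13 + C1)) * t * j.W ^ 2 := by
    have e1 : j.p - j0.p = 0 := by rw [hj0]; exact sub_self _
    have e2 : j.q - j0.q = 0 := by rw [hj0]; exact sub_self _
    rw [Lim621.Mod, e1, e2, norm_zero, add_zero, zero_mul, add_zero]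
    have a1 : (j.W + j0.W) ^ 2 ≤ 9 * j.W ^ 2 := by
      have h3 : j.W + j0.W ≤ 3 * j.W := by linarith
      calc (j.W + j0.W) ^ 2 ≤ (3 * j.W) ^ 2 := pow_le_pow_left₀ (by linarith) h3 2
        _ = _ := by ring
    have a2 : (‖j.P - j0.P‖ + ‖j.Q - j0.Q‖) * (j.W + j0.W) ≤ (2 * D) * (3 * j.W) :=
      mul_le_mul (by linarith) (by linarith) (by positivity) (by positivity)
    have a3 : (2 * D) * (3 * j.W) ≤ 306 * (13 + C1) * t * j.W ^ 2 := by
      rw [hD]
      have h3 : 0 ≤ 306 * ((13 + C1) * t) := by positivity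
      have hWW : j.W ≤ j.W ^ 2 := le_self_pow₀ hW1 two_ne_zero
      have h4 := mul_le_mul_of_nonneg_left hWW h3
      have e7 : 2 * (51 * (13 + C1) * t) * (3 * j.W) = 306 * ((13 + C1) * t) * j.W := by ring
      have e8 : 306 * (13 + C1) * t * j.W ^ 2 = 306 * ((13 + C1) * t) * j.W ^ 2 := by ring
      rw [e7, e8]; exact h4
    have a4 := mul_le_mul_of_nonneg_left a1 ht.le
    have e9 : (9 + 306 * (13 + C1)) * t * j.W ^ 2 =
        t * (9 * j.W ^ 2) + 306 * (13 + C1) * t * j.W ^ 2 := by ring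
    rw [e9]
    linarith
  have h5 : |IE A B W j - IE A B W j0| ≤
      10 ^ 5 * C0 * ((9 + 306 * (13 + C1)) * t * j.W ^ 2) :=
    hlip.trans (mul_le_mul_of_nonneg_left hmod (by positivity))
  have h6 := (abs_le.1 h5).1
  have h7 := OmZ_shift N (m₁ := θ * m₁) (m₂ := θ * m₂) ht.le ht1.le hf2 hf1 hg2 hg1
  rw [← hj0] at h7
  have h8 := mul_le_mul_of_nonneg_left h7 hC.c0.le
  have hWW : 1 ≤ j.W ^ 2 := one_le_pow₀ hW1
  have h9 : c * (4 * 4 ^ N * t) ≤ 4 * 4 ^ N * c * t * j.W ^ 2 := by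
    have h3 : 0 ≤ 4 * 4 ^ N * c * t := by
      have := hC.c0
      positivity
    have e : c * (4 * 4 ^ N * t) = 4 * 4 ^ N * c * t * 1 := by ring
    rw [e]
    exact mul_le_mul_of_nonneg_left hWW h3
  have h10 := mul_le_mul_of_nonneg_right hκ (sq_nonneg j.W)
  have e10 : (10 ^ 5 * C0 * (9 + 306 * (13 + C1)) + 4 * 4 ^ N * c) * t * j.W ^ 2 =
      10 ^ 5 * C0 * ((9 + 306 * (13 + C1)) * t * j.W ^ 2) + 4 * 4 ^ N * c * t * j.W ^ 2 := by ring
  rw [e10] at h10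
  rw [mul_add] at h8
  linarith

end Crest.Agent.R249.Sym467
end
end

-- ▼ part R249/Sym8_467
section

/-!
# R249 (helper467), A2-ETA part 13: `cert_core`
-/

set_option autoImplicit false
set_option linter.unusedVariables false
set_option linter.unusedSectionVars false

open MeasureTheory Set Filter Topology Matrix
open scoped ContDiff

noncomputable section

namespace Crest.Agent.R249.Sym467

open DivC467 Eta467 Lim621

attribute [local instance] Matrix.frobeniusNormedAddCommGroup Matrix.frobeniusNormedSpace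

variable {γ : Pm} {ρ : Rd γ}

lemma sqrt_small {K κ r : ℝ} (hK : 0 ≤ K) (hκ : 0 < κ) (hr : r ≤ (κ / (K + 1)) ^ 2) :
    K * √r ≤ κ := by
  have h1 : √r ≤ κ / (K + 1) := Real.sqrt_le_iff.2 ⟨by positivity, hr⟩
  have h2 : K * √r ≤ K * (κ / (K + 1)) := mul_le_mul_of_nonneg_left h1 hK
  refine h2.trans ?_
  rw [← mul_div_assoc, div_le_iff₀ (by linarith)]
  nlinarith

lemma lin_small {K κ r : ℝ} (hK : 0 ≤ K) (hκ : 0 < κ) (hr0 : 0 ≤ r) (hr : r ≤ κ / (K + 1)) :
    K * r ≤ κ := by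
  have h2 : K * r ≤ K * (κ / (K + 1)) := mul_le_mul_of_nonneg_left hr hK
  refine h2.trans ?_
  rw [← mul_div_assoc, div_le_iff₀ (by linarith)]
  nlinarith

/-- **the certificate at all small levels** (scaled unknowns). -/
theorem cert_core {A B W : E3 → ℝ} {c : ℝ} {N : ℕ} (hX : PmX γ) (h : SyAll ρ A B W)
    (hC : CertS γ A B W c N) (κ : ℝ) (hκ : 0 < κ) (C1 : ℝ) :
    ∃ t1 : ℝ, 0 < t1 ∧ ∀ t : ℝ, 0 < t → t < t1 → ∀ ε : ℝ, 0 ≤ ε → ε ≤ C1 * t →
      ∀ (j : Jet E4 H4) (m₁ m₂ : ℝ), ExJ γ t ε j m₁ m₂ →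
        c * OmZ N j ≤ IE A B W j + κ * j.W ^ 2 := by
  obtain ⟨K1, hK1, hB1⟩ := exists_bds1 h
  obtain ⟨K2, hK2, hB2⟩ := h.low
  obtain ⟨K, hKd⟩ : ∃ K, K = K1 + K2 := ⟨_, rfl⟩
  have hK : 0 ≤ K := by rw [hKd]; exact add_nonneg hK1 hK2
  have hB : ∀ z ∈ Reg γ, 1 / 4 ≤ z.2.1 → Bds1 γ A B W K z := fun z hz hm =>
    (hB1 z hz hm).mono hz (by rw [hKd]; linarith)
  have hBl : ∀ z ∈ Reg γ, |z.1| < 2 * z.2.1 → -(K * ((√(om γ z))⁻¹ * (1 + z.2.2))) ≤ B z := by
    intro z hz hlt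
    have h1 := hB2 z hz hlt
    have h2 : 0 ≤ (√(om γ z))⁻¹ * (1 + z.2.2) :=
      mul_nonneg (by positivity) (gg_pos hz).le
    have h3 : K2 * ((√(om γ z))⁻¹ * (1 + z.2.2)) ≤ K * ((√(om γ z))⁻¹ * (1 + z.2.2)) :=
      mul_le_mul_of_nonneg_right (by rw [hKd]; linarith) h2
    linarith
  obtain ⟨C, hCd⟩ : ∃ C, C = max C1 0 := ⟨_, rfl⟩
  have hC0 : 0 ≤ C := by rw [hCd]; exact le_max_right _ _
  have hC1 : C1 ≤ C := by rw [hCd]; exact le_max_left _ _
  obtain ⟨M, hM⟩ : ∃ M, M = 1000 + 51 * C := ⟨_, rfl⟩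
  have hM0 : 0 < M := by rw [hM]; linarith
  obtain ⟨r0, hr0d⟩ : ∃ r0, r0 = min (1 / 4) (min (1 / (2 * M)) ((κ / (120 * K * M + 1)) ^ 2)) :=
    ⟨_, rfl⟩
  have hr0 : 0 < r0 := by
    rw [hr0d]; refine lt_min (by norm_num) (lt_min (by positivity) (by positivity))
  have hr1 : r0 ≤ 1 / 4 := by rw [hr0d]; exact min_le_left _ _
  have hr2 : r0 ≤ 1 / (2 * M) := by
    rw [hr0d]; exact (min_le_right _ _).trans (min_le_left _ _)
  have hr3 : r0 ≤ (κ / (120 * K * M + 1)) ^ 2 := by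
    rw [hr0d]; exact (min_le_right _ _).trans (min_le_right _ _)
  have hr2' : 2 * M * r0 ≤ 1 := by
    have := (le_div_iff₀ (by positivity : 0 < 2 * M)).1 hr2
    linarith
  have hr3' : 120 * K * M * √r0 ≤ κ := sqrt_small (by positivity) hκ hr3
  obtain ⟨C0, hC00, hseg⟩ := cfAllP_of_seg h (r := r0 / 4) (by linarith) (by linarith)
  obtain ⟨L, hL⟩ : ∃ L, L = 10 ^ 5 * C0 * (9 + 306 * (13 + C)) + 4 * 4 ^ N * c := ⟨_, rfl⟩
  have hc0 := hC.c0
  have hL0 : 0 ≤ L := by rw [hL]; positivity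
  refine ⟨min (1 / 2) (min (r0 / 2) (min (1 / (102 * (13 + C))) (min (κ / (L + 1))
    ((κ / (2 * K * C + 1)) ^ 2)))), ?_, ?_⟩
  · refine lt_min (by norm_num) (lt_min (by linarith) (lt_min (by positivity)
      (lt_min (by positivity) (by positivity))))
  · intro t ht htt ε hε hε1 j m₁ m₂ hj
    have t1 : t < 1 / 2 := htt.trans_le (min_le_left _ _)
    have t2 : t < r0 / 2 := htt.trans_le ((min_le_right _ _).trans (min_le_left _ _))
    have t3 : t < 1 / (102 * (13 + C)) :=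
      htt.trans_le ((min_le_right _ _).trans ((min_le_right _ _).trans (min_le_left _ _)))
    have t4 : t < κ / (L + 1) :=
      htt.trans_le ((min_le_right _ _).trans ((min_le_right _ _).trans
        ((min_le_right _ _).trans (min_le_left _ _))))
    have t5 : t < (κ / (2 * K * C + 1)) ^ 2 :=
      htt.trans_le ((min_le_right _ _).trans ((min_le_right _ _).trans
        ((min_le_right _ _).trans (min_le_right _ _))))
    have hεC : ε ≤ C * t := hε1.trans (mul_le_mul_of_nonneg_right hC1 ht.le)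
    rcases hj.alt with ⟨e1, e2⟩ | ⟨hk, hv, h1, h2, hS⟩
    · subst e1 e2
      refine free_core hC hK hBl ht (by linarith) hε ?_ hj
      have q1 : 2 * K * C * √t ≤ κ := sqrt_small (by positivity) hκ t5.le
      have q2 : ε * (√t)⁻¹ ≤ C * √t := by
        have q3 : t * (√t)⁻¹ = √t := by rw [← div_eq_mul_inv]; exact Real.div_sqrt
        calc ε * (√t)⁻¹ ≤ (C * t) * (√t)⁻¹ :=
              mul_le_mul_of_nonneg_right hεC (by positivity)
          _ = C * (t * (√t)⁻¹) := by ring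
          _ = C * √t := by rw [q3]
      have q4 := mul_le_mul_of_nonneg_left q2 (by positivity : 0 ≤ 2 * K)
      linarith
    · rcases le_total (om γ (bJ j)) r0 with ho | ho
      · exact near_core hX hC hK hB ht t1 hε hεC hC0 hr0 hr1 (by rw [hM] at hr2'; linarith)
          (by rw [hM] at hr3'; linarith) hj hk hv h1 h2 hS ho
      · refine far_core hX hC hC00 hseg ht t1 hε hεC hC0 hr0 (by linarith) t2.le ?_ ?_ hj hk hv
          h1 h2 hS ho
        · have := (lt_div_iff₀ (by positivity : 0 < 102 * (13 + C))).1 t3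
          linarith
        · have := lin_small hL0 hκ ht.le t4.le
          rw [hL] at this
          linarith

end Crest.Agent.R249.Sym467
end
end

-- ▼ part R249/Sym9_467
section

/-!
# R249 (helper467), A2-ETA part 14: transfer to the original unknowns

`IAC A B W` : the integrand of the pulled back field (`u = (10/7) φ - 3/7`);
`certPt_of`, `certLip_of`, `certDiv_of` : the three parts of `StJ_912.CertAC`.
-/

set_option autoImplicit false
set_option linter.unusedVariables false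
set_option linter.unusedSectionVars false

open MeasureTheory Set Filter Topology Matrix
open scoped ContDiff

noncomputable section

namespace Crest.Agent.R249.Sym467

open Calc_806 Calc_806.Calc
open DivC467 Eta467 Lim621 LimE621 LimF621 PenH_806 StJ_912 CovA621

attribute [local instance] Matrix.frobeniusNormedAddCommGroup Matrix.frobeniusNormedSpace

/-- the integrand in the original unknowns. -/
def IAC (A B W : E3 → ℝ) : Jet E4 H4 → ℝ :=
  IE (pb (10 / 7) (-3 / 7) A) (pb (10 / 7) (-3 / 7) B) (pbW (10 / 7) (-3 / 7) W)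

/-- the scaled jet. -/
abbrev sJt (j : Jet E4 H4) : Jet E4 H4 := homJ (10 / 7) (-3 / 7) j

lemma IAC_eq (A B W : E3 → ℝ) (j : Jet E4 H4) : IAC A B W j = IE A B W (sJt j) :=
  IE_hom (by norm_num) _ _ _ _ _

/-! ### the parameters -/

lemma dG_AC (η : ℝ) : dG ACpm η = -(7 / 20) * η + 4 / 125 * η ^ 3 := by
  simp only [dG, ACpm]; ring

lemma ddG_AC (η : ℝ) : ddG ACpm η = -(7 / 20) + 12 / 125 * η ^ 2 := by
  simp only [ddG, ACpm]; ring

/-- the further conditions for the contract AC*. -/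
theorem pmX_AC : PmX ACpm where
  sl := fun η hη => by
    rw [dG_AC]
    have h2 := abs_le.1 hη
    have h3 : η ^ 2 ≤ 100 / 49 := by nlinarith [h2.1, h2.2]
    have e : -(7 / 20) * η + 4 / 125 * η ^ 3 = η * (-(7 / 20) + 4 / 125 * η ^ 2) := by ring
    rw [e, abs_mul]
    have h4 : |-(7 / 20) + 4 / 125 * η ^ 2| ≤ 84 / 250 + 1 / 70 := by
      rw [abs_le]; constructor <;> nlinarith [sq_nonneg η]
    have h5 : |η| * |-(7 / 20) + 4 / 125 * η ^ 2| ≤ |η| * (7 / 20 - 4 / 125 * η ^ 2) := by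
      apply mul_le_mul_of_nonneg_left _ (abs_nonneg _)
      rw [abs_le]; constructor <;> nlinarith [sq_nonneg η]
    refine h5.trans ?_
    have h6 : η ^ 2 = |η| ^ 2 := (sq_abs η).symm
    rw [h6]
    nlinarith [abs_nonneg η, sq_nonneg (|η| - 10 / 7)]
  cr := fun η hη => by
    have h6 : η ^ 2 = |η| ^ 2 := (sq_abs η).symm
    have h7 : η ^ 4 = |η| ^ 4 := by
      calc η ^ 4 = (η ^ 2) ^ 2 := by ring
        _ = _ := by rw [h6]; ring
    simp only [ACpm]
    rw [h6, h7]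
    obtain ⟨x, hx⟩ : ∃ x, x = |η| := ⟨_, rfl⟩
    rw [← hx] at hη ⊢
    have hx0 : 0 ≤ x := by rw [hx]; exact abs_nonneg _
    have h8 : x ^ 2 ≤ 100 / 49 := by nlinarith
    have h9 : x ^ 4 ≤ (100 / 49) * x ^ 2 := by nlinarith [sq_nonneg x]
    nlinarith [sq_nonneg (x - 10 / 7)]

/-! ### scaled jets -/

lemma sJt_f (j : Jet E4 H4) : (sJt j).f = -3 / 7 + 10 / 7 * j.f := rfl

lemma sJt_g (j : Jet E4 H4) : (sJt j).g = -3 / 7 + 10 / 7 * j.g := rfl

lemma norm_sq_uJ (j : Jet E4 H4) : ‖j.p - j.q‖ ^ 2 = uJ j ⬝ᵥ uJ j := by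
  rw [EuclideanSpace.norm_sq_eq, uJ]
  simp only [dotProduct, Real.norm_eq_abs, sq_abs]
  exact Finset.sum_congr rfl fun i _ => by ring

lemma norm_smul_sJt {F : Type*} [NormedAddCommGroup F] [NormedSpace ℝ F] (x : F) :
    ‖(10 / 7 : ℝ) • x‖ = 10 / 7 * ‖x‖ := by
  rw [norm_smul, Real.norm_eq_abs, abs_of_pos (by norm_num)]

lemma sJt_W_le (j : Jet E4 H4) : (sJt j).W ≤ 100 / 49 * j.W := by
  have e : (sJt j).W = 1 + ‖(10 / 7 : ℝ) • j.p‖ ^ 2 + ‖(10 / 7 : ℝ) • j.q‖ ^ 2 +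
      ‖(10 / 7 : ℝ) • j.P‖ + ‖(10 / 7 : ℝ) • j.Q‖ := rfl
  have e2 : j.W = 1 + ‖j.p‖ ^ 2 + ‖j.q‖ ^ 2 + ‖j.P‖ + ‖j.Q‖ := rfl
  rw [e, e2, norm_smul_sJt, norm_smul_sJt, norm_smul_sJt, norm_smul_sJt]
  have := norm_nonneg j.P
  have := norm_nonneg j.Q
  nlinarith

lemma bJ_sJt (j : Jet E4 H4) : bJ (sJt j) =
    (10 / 7 * (bJ j).1, -3 / 7 + 10 / 7 * (bJ j).2.1, (10 / 7) ^ 2 * (bJ j).2.2) :=
  bJ_hom _ _ _

lemma kf_sJt (j : Jet E4 H4) : kf ACpm (bJ (sJt j)) = 10 / 7 * OA.k j.f j.g := by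
  rw [bJ_sJt, kf_AC, OA_k]
  simp only [bJ]
  ring

lemma OmJ_eq (c : ℝ) (N : ℕ) (j : Jet E4 H4) :
    OmJ (c * (10 / 7) ^ (2 * N + 2)) N j = c * OmZ N (sJt j) := by
  have e1 : ‖(sJt j).p‖ = 10 / 7 * ‖j.p‖ := norm_smul_sJt j.p
  have e2 : ‖(sJt j).q‖ = 10 / 7 * ‖j.q‖ := norm_smul_sJt j.q
  have e3 : (sJt j).f * (sJt j).g = (10 / 7) ^ 2 * ((j.f - 3 / 10) * (j.g - 3 / 10)) := by
    rw [sJt_f, sJt_g]; ring
  rw [OmJ, OmZ, StH_912.OmS, e1, e2, e3, mul_pow ((10 / 7 : ℝ) ^ 2) _ N, ← pow_mul, sJt_f, sJt_g, gA,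
    pow_add]
  ring

/-- exact jets. -/
lemma exJ_of {t ε : ℝ} (ht : 0 < t) (htB : t < BA - gA) {j : Jet E4 H4} {m m' : ℝ}
    (hf1 : gA + t ≤ j.f) (hf2 : j.f ≤ BA) (hg1 : gA + t ≤ j.g) (hg2 : j.g ≤ BA)
    (hP : j.P ∈ SyH) (hk : 0 ≤ (OA.lvl t ht.le htB).k j.f j.g)
    (hm : j.P.1 = fA j.f - ε + m) (hm' : j.Q.1 = fA j.g - ε + m')
    (halt : (m = 0 ∧ m' = 0) ∨ ((OA.lvl t ht.le htB).k j.f j.g = 0 ∧
      LvE (OA.lvl t ht.le htB) j = 0 ∧ 0 ≤ m ∧ 0 ≤ m' ∧
      -(OA.lvl t ht.le htB).k1 j.f j.g * m + -(OA.lvl t ht.le htB).k2 j.f j.g * m' ≤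
        max (EkE (OA.lvl t ht.le htB) (fun u => fA u - ε) j) 0 + 0)) :
    ExJ ACpm (10 / 7 * t) (10 / 7 * ε) (sJt j) (10 / 7 * m) (10 / 7 * m') := by
  rw [lvl_k] at hk
  simp only [gA, BA] at hf1 hf2 hg1 hg2
  refine ⟨homJ_mem hP, ?_, ?_, ?_, ?_, ?_, ?_, ?_, ?_⟩
  · rw [sJt_f]; linarith
  · rw [sJt_f]; linarith
  · rw [sJt_g]; linarith
  · rw [sJt_g]; linarith
  · rw [kf_sJt]; linarith
  · have e : (sJt j).P.1 = 10 / 7 * j.P.1 := rfl
    rw [e, hm, sJt_f, fA_eq, Fs]; ring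
  · have e : (sJt j).Q.1 = 10 / 7 * j.Q.1 := rfl
    rw [e, hm', sJt_g, fA_eq, Fs]; ring
  · rcases halt with ⟨h1, h2⟩ | ⟨h1, h2, h3, h4, h5⟩
    · left; rw [h1, h2]; simp
    · right
      rw [lvl_k] at h1
      have eη : (bJ (sJt j)).1 = 10 / 7 * (j.f - j.g) := by rw [bJ_sJt]; rfl
      have eG : (bJ (sJt j)).2.2 = (10 / 7) ^ 2 * ‖j.p - j.q‖ ^ 2 := by
        rw [bJ_sJt, norm_sq_uJ]; rfl
      obtain ⟨d, hd⟩ : ∃ d, d = -(1 / 2) * (j.f - j.g) + 32 / 343 * (j.f - j.g) ^ 3 := ⟨_, rfl⟩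
      have ed : dG ACpm (bJ (sJt j)).1 = d := by rw [dG_AC, eη, hd]; ring
      have ek1 : OA.k1 j.f j.g = d - 1 / 2 := by rw [OA_k1, hd]
      have ek2 : OA.k2 j.f j.g = -d - 1 / 2 := by rw [OA_k2, hd]; ring
      refine ⟨by rw [kf_sJt]; linarith, ?_, by positivity, by positivity, ?_⟩
      · rw [LvE, lvl_k1, lvl_k2, ek1, ek2] at h2
        have h6 : (1 / 2 : ℝ) • (j.p + j.q) = d • (j.p - j.q) := by
          have : (1 / 2 : ℝ) • (j.p + j.q) =
              d • (j.p - j.q) - ((d - 1 / 2) • j.p + (-d - 1 / 2) • j.q) := by module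
          rw [this, h2, sub_zero]
        have h7 : vJ j = d • uJ j := congrArg WithLp.ofLp h6
        rw [vJ_hom, uJ_hom, ed, h7, smul_comm]
      · rw [lvl_k1, lvl_k2, ek1, ek2, EkE, lvl_E, OA_E, add_zero] at h5
        have e6 : Ec ACpm (bJ (sJt j)) + 10 / 7 * ε = 10 / 7 *
            ((-(1 / 2) * (j.f - j.g) + 32 / 343 * (j.f - j.g) ^ 3 - 1 / 2) * (fA j.f - ε) +
            (1 / 2 * (j.f - j.g) - 32 / 343 * (j.f - j.g) ^ 3 - 1 / 2) * (fA j.g - ε) +
            (-(1 / 2) + 96 / 343 * (j.f - j.g) ^ 2) * ‖j.p - j.q‖ ^ 2) := by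
          rw [Ec, bJ_phi, bJ_psi, ed, eη, eG, ddG_AC, sJt_f, sJt_g, hd, fA_eq, fA_eq, Fs, Fs]
          ring
        rw [ed, e6]
        have h7 := mul_le_mul_of_nonneg_left h5 (by norm_num : (0:ℝ) ≤ 10 / 7)
        rw [mul_max_of_nonneg _ _ (by norm_num : (0:ℝ) ≤ 10 / 7), mul_zero] at h7
        refine le_trans (le_of_eq ?_) h7
        ring

/-- **the pointwise certificate.** -/
theorem certPt_of {ρ : Rd ACpm} {A B W : E3 → ℝ} {c : ℝ} {N : ℕ} (h : SyAll ρ A B W)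
    (hC : CertS ACpm A B W c N) :
    CertPt (c * (10 / 7) ^ (2 * N + 2)) N (fun _ => IAC A B W) := by
  intro κ hκ C1
  obtain ⟨t1, ht1, H⟩ := cert_core pmX_AC h hC (κ / 5) (by positivity) C1
  refine ⟨7 / 10 * t1, by positivity, fun t ht htB htt ε hε hεC => ?_⟩
  intro j m m' hf1 hf2 hg1 hg2 hP hQ hk hm hm' halt
  have hx := exJ_of (ε := ε) ht htB hf1 hf2 hg1 hg2 hP hk hm hm' halt
  have hH := H (10 / 7 * t) (by positivity) (by linarith) (10 / 7 * ε) (by positivity)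
    (by nlinarith) (sJt j) _ _ hx
  rw [OmJ_eq]
  show _ ≤ IAC A B W j + κ * j.W ^ 2
  rw [IAC_eq]
  have h1 := sJt_W_le j
  have h2 := (sJt j).W_nonneg
  have h3 : (sJt j).W ^ 2 ≤ 5 * j.W ^ 2 := by
    have h4 := pow_le_pow_left₀ h2 h1 2
    nlinarith [sq_nonneg j.W]
  have h5 := mul_le_mul_of_nonneg_left h3 (by positivity : 0 ≤ κ / 5)
  linarith

/-! ### the Lipschitz condition -/

/-- base points in the region. -/
lemma reg_of {γ : Pm} {z : E3} (hu : 0 < z.2.1 + z.1 / 2) (hu1 : z.2.1 + z.1 / 2 ≤ 10 / 7)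
    (hv : 0 < z.2.1 - z.1 / 2) (hv1 : z.2.1 - z.1 / 2 ≤ 10 / 7) (hk : 0 < kf γ z)
    (hG : 0 ≤ z.2.2) : z ∈ Reg γ ∧ |z.1| < 2 * z.2.1 := by
  have h : |z.1| < 2 * z.2.1 := abs_lt.2 ⟨by linarith, by linarith⟩
  refine ⟨⟨by linarith, h.le, ?_, hk.le, hG, by positivity⟩, h⟩
  have : |z.1| ≤ 2 * (10 / 7 - z.2.1) := abs_le.2 ⟨by linarith, by linarith⟩
  linarith

lemma conc_seg {x y s : ℝ} (hx : |x| ≤ 10 / 7) (hy : |y| ≤ 10 / 7) (hs0 : 0 ≤ s) (hs1 : s ≤ 1) :
    (1 - s) * (-(7 / 40) * x ^ 2 + 1 / 125 * x ^ 4) + s * (-(7 / 40) * y ^ 2 + 1 / 125 * y ^ 4) ≤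
      -(7 / 40) * (x + s * (y - x)) ^ 2 + 1 / 125 * (x + s * (y - x)) ^ 4 := by
  have hx2 : x ^ 2 ≤ 100 / 49 := by
    have := pow_le_pow_left₀ (abs_nonneg x) hx 2
    rw [sq_abs] at this; linarith
  have hy2 : y ^ 2 ≤ 100 / 49 := by
    have := pow_le_pow_left₀ (abs_nonneg y) hy 2
    rw [sq_abs] at this; linarith
  have hxy : x * y ≤ 100 / 49 := by nlinarith [sq_nonneg (x - y)]
  have q1 : 0 ≤ 3 - 3 * s + s ^ 2 := by nlinarith [sq_nonneg (s - 3 / 2)]
  have q2 : 0 ≤ 2 + 2 * s - 2 * s ^ 2 := by nlinarith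
  have q3 : 0 ≤ 1 + s + s ^ 2 := by positivity
  have hQ : x ^ 2 * (3 - 3 * s + s ^ 2) + x * y * (2 + 2 * s - 2 * s ^ 2) +
      y ^ 2 * (1 + s + s ^ 2) ≤ 600 / 49 := by
    have a1 := mul_le_mul_of_nonneg_right hx2 q1
    have a2 := mul_le_mul_of_nonneg_right hxy q2
    have a3 := mul_le_mul_of_nonneg_right hy2 q3
    linarith
  have key : -(7 / 40) * (x + s * (y - x)) ^ 2 + 1 / 125 * (x + s * (y - x)) ^ 4 -
      ((1 - s) * (-(7 / 40) * x ^ 2 + 1 / 125 * x ^ 4) +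
        s * (-(7 / 40) * y ^ 2 + 1 / 125 * y ^ 4)) =
      s * (1 - s) * (x - y) ^ 2 * (7 / 40 - 1 / 125 * (x ^ 2 * (3 - 3 * s + s ^ 2) +
        x * y * (2 + 2 * s - 2 * s ^ 2) + y ^ 2 * (1 + s + s ^ 2))) := by ring
  have h1 : 0 ≤ s * (1 - s) * (x - y) ^ 2 := by
    have : 0 ≤ 1 - s := by linarith
    positivity
  have h2 := mul_nonneg h1 (by linarith : 0 ≤ 7 / 40 - 1 / 125 * (x ^ 2 * (3 - 3 * s + s ^ 2) +
        x * y * (2 + 2 * s - 2 * s ^ 2) + y ^ 2 * (1 + s + s ^ 2)))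
  linarith

/-- points of the box at level `≥ t/2`. -/
structure InBx (t : ℝ) (z : E3) : Prop where
  u0 : t ≤ z.2.1 + z.1 / 2
  u1 : z.2.1 + z.1 / 2 ≤ 10 / 7
  v0 : t ≤ z.2.1 - z.1 / 2
  v1 : z.2.1 - z.1 / 2 ≤ 10 / 7
  k0 : t / 2 ≤ kf ACpm z
  G0 : 0 ≤ z.2.2

lemma InBx.seg {t : ℝ} (ht : 0 < t) (ht1 : t ≤ 1) {z z' : E3} (h : InBx t z) (h' : InBx t z')
    (hG : z'.2.2 = z.2.2) : Seg ACpm (t / 2) z z' := by
  have key : ∀ s ∈ Icc (0:ℝ) 1, InBx t (z + s • (z' - z)) := by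
    rintro s ⟨hs0, hs1⟩
    have e1 : (z + s • (z' - z)).1 = z.1 + s * (z'.1 - z.1) := rfl
    have e2 : (z + s • (z' - z)).2.1 = z.2.1 + s * (z'.2.1 - z.2.1) := rfl
    have e3 : (z + s • (z' - z)).2.2 = z.2.2 := by
      show z.2.2 + s * (z'.2.2 - z.2.2) = _
      rw [hG]; ring
    have hs1' : 0 ≤ 1 - s := by linarith
    have hx : |z.1| ≤ 10 / 7 := by
      have := h.u0; have := h.u1; have := h.v0; have := h.v1
      rw [abs_le]; constructor <;> linarith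
    have hy : |z'.1| ≤ 10 / 7 := by
      have := h'.u0; have := h'.u1; have := h'.v0; have := h'.v1
      rw [abs_le]; constructor <;> linarith
    have hc := conc_seg hx hy hs0 hs1
    have c0 := h.k0
    have c0' := h'.k0
    rw [kf_AC] at c0 c0'
    refine ⟨?_, ?_, ?_, ?_, ?_, by rw [e3]; exact h.G0⟩
    · rw [e1, e2]
      have a := mul_le_mul_of_nonneg_left h.u0 hs1'
      have b := mul_le_mul_of_nonneg_left h'.u0 hs0
      linarith
    · rw [e1, e2]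
      have a := mul_le_mul_of_nonneg_left h.u1 hs1'
      have b := mul_le_mul_of_nonneg_left h'.u1 hs0
      linarith
    · rw [e1, e2]
      have a := mul_le_mul_of_nonneg_left h.v0 hs1'
      have b := mul_le_mul_of_nonneg_left h'.v0 hs0
      linarith
    · rw [e1, e2]
      have a := mul_le_mul_of_nonneg_left h.v1 hs1'
      have b := mul_le_mul_of_nonneg_left h'.v1 hs0
      linarith
    · rw [kf_AC, e1, e2]
      have a := mul_le_mul_of_nonneg_left c0 hs1'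
      have b := mul_le_mul_of_nonneg_left c0' hs0
      linarith
  have reg : ∀ s ∈ Icc (0:ℝ) 1, z + s • (z' - z) ∈ Reg ACpm := by
    intro s hs
    obtain ⟨a1, a2, a3, a4, a5, a6⟩ := key s hs
    exact (reg_of (by linarith) a2 (by linarith) a4 (by linarith) a6).1
  refine ⟨hG, reg, ?_, ?_⟩
  · intro s hs
    obtain ⟨a1, a2, a3, a4, a5, a6⟩ := key s hs
    linarith
  · intro s hs
    refine le_trans ?_ ((key s hs).k0.trans (k_le_om (reg s hs)))
    nlinarith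

lemma inBx_of {t : ℝ} (ht : 0 < t) (htB : t < BA - gA) {u v : ℝ} {z : E3}
    (h : (u, v) ∈ DomO (OA.lvl t ht.le htB) (t / 2)) (h1 : z.1 = 10 / 7 * (u - v))
    (h2 : z.2.1 = -3 / 7 + 10 / 7 * (1 / 2 * (u + v))) (h3 : 0 ≤ z.2.2) :
    InBx (10 / 7 * t) z := by
  obtain ⟨a1, a2, a3, a4, a5'⟩ := h
  have a5 : -(t / 2) ≤ (OA.lvl t ht.le htB).k u v := a5'
  rw [lvl_k, OA_k] at a5
  simp only [gA, BA] at a1 a2 a3 a4
  refine ⟨?_, ?_, ?_, ?_, ?_, h3⟩
  · rw [h1, h2]; linarith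
  · rw [h1, h2]; linarith
  · rw [h1, h2]; linarith
  · rw [h1, h2]; linarith
  · rw [kf_AC, h1, h2]
    have e : 1 - 7 / 40 * (10 / 7 * (u - v)) ^ 2 + 1 / 125 * (10 / 7 * (u - v)) ^ 4 -
        (-3 / 7 + 10 / 7 * (1 / 2 * (u + v))) = 10 / 7 * (1 - 1 / 4 * (u - v) ^ 2 +
          8 / 343 * (u - v) ^ 4 - (u + v) / 2) := by ring
    rw [e]; linarith

lemma mod_sJt {ε : ℝ} (hε : 0 ≤ ε) (j j' : Jet E4 H4) :
    Lim621.Mod (10 / 7 * ε) (sJt j) (sJt j') ≤ 6 * Lim621.Mod ε j j' := by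
  have hV : (sJt j).W + (sJt j').W ≤ 100 / 49 * (j.W + j'.W) := by
    have := sJt_W_le j
    have := sJt_W_le j'
    linarith
  have hV0 : 0 ≤ (sJt j).W + (sJt j').W := add_nonneg (sJt j).W_nonneg (sJt j').W_nonneg
  have hV1 : 0 ≤ j.W + j'.W := add_nonneg j.W_nonneg j'.W_nonneg
  obtain ⟨V, hVd⟩ : ∃ V, V = j.W + j'.W := ⟨_, rfl⟩
  obtain ⟨Vs, hVsd⟩ : ∃ Vs, Vs = (sJt j).W + (sJt j').W := ⟨_, rfl⟩
  have np : ‖(sJt j).p - (sJt j').p‖ = 10 / 7 * ‖j.p - j'.p‖ := by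
    rw [← norm_smul_sJt, smul_sub]; rfl
  have nq : ‖(sJt j).q - (sJt j').q‖ = 10 / 7 * ‖j.q - j'.q‖ := by
    rw [← norm_smul_sJt, smul_sub]; rfl
  have nP : ‖(sJt j).P - (sJt j').P‖ = 10 / 7 * ‖j.P - j'.P‖ := by
    rw [← norm_smul_sJt, smul_sub]; rfl
  have nQ : ‖(sJt j).Q - (sJt j').Q‖ = 10 / 7 * ‖j.Q - j'.Q‖ := by
    rw [← norm_smul_sJt, smul_sub]; rfl
  rw [Lim621.Mod, Lim621.Mod, np, nq, nP, nQ, ← hVd, ← hVsd]
  rw [← hVd, ← hVsd] at hV
  rw [← hVsd] at hV0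
  rw [← hVd] at hV1
  have hs : √Vs ≤ 10 / 7 * √V := by
    rw [Real.sqrt_le_left (by positivity), mul_pow, Real.sq_sqrt hV1]
    linarith
  have hsq := Real.sqrt_nonneg V
  have hsq' := Real.sqrt_nonneg Vs
  have d1 : 0 ≤ ‖j.p - j'.p‖ + ‖j.q - j'.q‖ := by positivity
  have d2 : 0 ≤ ‖j.P - j'.P‖ + ‖j.Q - j'.Q‖ := by positivity
  have a1 : Vs ^ 2 ≤ 21 / 5 * V ^ 2 := by
    have := pow_le_pow_left₀ hV0 hV 2
    nlinarith [sq_nonneg V]
  have a2 : Vs * √Vs ≤ 100 / 49 * V * (10 / 7 * √V) := mul_le_mul hV hs hsq' (by positivity)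
  have b1 : 10 / 7 * ε * Vs ^ 2 ≤ 10 / 7 * ε * (21 / 5 * V ^ 2) :=
    mul_le_mul_of_nonneg_left a1 (by positivity)
  have b2 : (10 / 7 * ‖j.p - j'.p‖ + 10 / 7 * ‖j.q - j'.q‖) * (Vs * √Vs) ≤
      (10 / 7 * ‖j.p - j'.p‖ + 10 / 7 * ‖j.q - j'.q‖) * (100 / 49 * V * (10 / 7 * √V)) :=
    mul_le_mul_of_nonneg_left a2 (by positivity)
  have b3 : (10 / 7 * ‖j.P - j'.P‖ + 10 / 7 * ‖j.Q - j'.Q‖) * Vs ≤
      (10 / 7 * ‖j.P - j'.P‖ + 10 / 7 * ‖j.Q - j'.Q‖) * (100 / 49 * V) :=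
    mul_le_mul_of_nonneg_left hV (by positivity)
  have c1 : 0 ≤ ε * V ^ 2 := by positivity
  have c2 : 0 ≤ (‖j.p - j'.p‖ + ‖j.q - j'.q‖) * (V * √V) := by positivity
  have c3 : 0 ≤ (‖j.P - j'.P‖ + ‖j.Q - j'.Q‖) * V := by positivity
  nlinarith

/-- **the Lipschitz condition.** -/
theorem certLip_of {ρ : Rd ACpm} {A B W : E3 → ℝ} (h : SyAll ρ A B W) :
    CertLip (fun _ => IAC A B W) := by
  refine ⟨1 / 2, by norm_num, fun t ht htB htt => ?_⟩
  obtain ⟨C0, hC0, hseg⟩ := cfAllP_of_seg h (r := 10 / 7 * t / 2) (by positivity) (by linarith)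
  refine ⟨6 * (10 ^ 5 * C0), by positivity, ?_⟩
  intro ε j j' hε hε1 hj hj' hr
  show |IAC A B W j - IAC A B W j'| ≤ _
  rw [IAC_eq, IAC_eq]
  obtain ⟨r1, r2, r3⟩ := hr
  have hG : uJ j' = uJ j := congrArg WithLp.ofLp r1
  have hb : InBx (10 / 7 * t) (bJ (sJt j)) := by
    refine inBx_of ht htB hj (by rw [bJ_sJt]; rfl) (by rw [bJ_sJt]; rfl) ?_
    rw [bJ_sJt]
    have : 0 ≤ uJ j ⬝ᵥ uJ j := uu_nonneg j
    show 0 ≤ (10 / 7 : ℝ) ^ 2 * (uJ j ⬝ᵥ uJ j)
    positivity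
  have hb' : InBx (10 / 7 * t) (bJ (sJt j')) := by
    refine inBx_of ht htB hj' (by rw [bJ_sJt]; rfl) (by rw [bJ_sJt]; rfl) ?_
    rw [bJ_sJt]
    have : 0 ≤ uJ j' ⬝ᵥ uJ j' := uu_nonneg j'
    show 0 ≤ (10 / 7 : ℝ) ^ 2 * (uJ j' ⬝ᵥ uJ j')
    positivity
  have hS := hb.seg (by positivity) (by linarith) hb' (by
    rw [bJ_sJt, bJ_sJt]
    show (10 / 7 : ℝ) ^ 2 * (uJ j' ⬝ᵥ uJ j') = (10 / 7 : ℝ) ^ 2 * (uJ j ⬝ᵥ uJ j)
    rw [hG])
  have hrel : Eta467.RelE (10 / 7 * ε) (sJt j) (sJt j') := by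
    refine ⟨?_, ?_, ?_⟩
    · show (10 / 7 : ℝ) • j'.p - (10 / 7 : ℝ) • j'.q = (10 / 7 : ℝ) • j.p - (10 / 7 : ℝ) • j.q
      rw [← smul_sub, ← smul_sub, r1]
    · rw [sJt_f, sJt_f]
      have e : -3 / 7 + 10 / 7 * j.f - (-3 / 7 + 10 / 7 * j'.f) = 10 / 7 * (j.f - j'.f) := by ring
      rw [e, abs_mul, abs_of_pos (by norm_num)]
      linarith
    · rw [sJt_g, sJt_g]
      have e : -3 / 7 + 10 / 7 * j.g - (-3 / 7 + 10 / 7 * j'.g) = 10 / 7 * (j.g - j'.g) := by ring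
      rw [e, abs_mul, abs_of_pos (by norm_num)]
      linarith
  have hlip := (est_IE_P (by positivity) hrel (hseg _ _ hS)).lip
  refine hlip.trans ?_
  have := mul_le_mul_of_nonneg_left (mod_sJt hε j j') (by positivity : 0 ≤ 10 ^ 5 * C0)
  linarith

/-! ### the divergence certificate -/

lemma smooth_hm (r a : ℝ) : ContDiff ℝ ∞ (hm r a) := by
  unfold hm; fun_prop

/-- **the divergence certificate.** -/
theorem certDiv_of {ρ : Rd ACpm} {A B W : E3 → ℝ} {c : ℝ} {N : ℕ} (h : SyAll ρ A B W)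
    (hC : CertS ACpm A B W c N) {X : Type*} [TopologicalSpace X] [CompactSpace X]
    [MeasurableSpace X] [OpensMeasurableSpace X] {μ : Measure X} [IsFiniteMeasure μ]
    (C : Calc X μ) (b : ℝ) : CertDiv C b 1 (fun _ => IAC A B W) := by
  refine ⟨1, one_pos, fun t ht htB htt φ ψ sφ sψ hx => ?_⟩
  obtain ⟨L, hA, hB, hW⟩ := h.reg
  have hz : ∀ x, InBx (10 / 7 * t)
      (hm (10 / 7) (-3 / 7) (eta φ ψ x, mm φ ψ x, C.G (eta φ ψ) (eta φ ψ) x)) := by
    intro x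
    refine inBx_of ht htB (hx x) rfl rfl ?_
    have : 0 ≤ C.G (eta φ ψ) (eta φ ψ) x := G_self_nonneg _ x
    show 0 ≤ (10 / 7 : ℝ) ^ 2 * _
    positivity
  have hreg : ∀ x, hm (10 / 7) (-3 / 7) (eta φ ψ x, mm φ ψ x, C.G (eta φ ψ) (eta φ ψ) x) ∈
      Reg ACpm ∧ _ := fun x => by
    obtain ⟨a1, a2, a3, a4, a5, a6⟩ := hz x
    exact reg_of (by linarith) a2 (by linarith) a4 (by linarith) a6
  have hmap : MapsTo (hm (10 / 7) (-3 / 7)) (hm (10 / 7) (-3 / 7) ⁻¹' (geo ρ).U) (geo ρ).U :=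
    fun z hz => hz
  have sm : ContDiffOn ℝ ∞ (hm (10 / 7) (-3 / 7)) (hm (10 / 7) (-3 / 7) ⁻¹' (geo ρ).U) :=
    (smooth_hm _ _).contDiffOn
  refine ⟨_, _, divCert_eta (U := hm (10 / 7) (-3 / 7) ⁻¹' (geo ρ).U)
    ((geo ρ).hU.preimage (smooth_hm _ _).continuous) ?_ ?_ ?_ sφ sψ
    (fun x => (geo ρ).sub (hreg x).1) (fun x => ?_)⟩
  · exact contDiffOn_const.mul ((Sy.smooth hA).comp sm hmap)
  · exact contDiffOn_const.mul ((Sy.smooth hB).comp sm hmap)
  · exact contDiffOn_const.mul ((Sy.smooth hW).comp sm hmap)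
  · have := hC.Wnn _ (hreg x).1 (hreg x).2
    show 0 ≤ (10 / 7 : ℝ) ^ 2 * W _
    positivity

/-- **the input of the final assembly.** -/
theorem certAC_of.{u} {ρ : Rd ACpm} {A B W : E3 → ℝ} {c : ℝ} {N : ℕ} (h : SyAll ρ A B W)
    (hC : CertS ACpm A B W c N) : CertAC.{u} :=
  ⟨c * (10 / 7) ^ (2 * N + 2), N, 1, 1, fun _ => IAC A B W, mul_pos hC.c0 (by positivity),
    certPt_of h hC, certLip_of h, fun X _ _ _ _ _ μ _ _ C => certDiv_of h hC C 1⟩

/-- **part A.** -/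
theorem st_of_certS.{u} {ρ : Rd ACpm} {A B W : E3 → ℝ} {c : ℝ} {N : ℕ} (h : SyAll ρ A B W)
    (hC : CertS ACpm A B W c N) : Crest.Agent.R249.Top49.ST.{u} :=
  st_of_cert (certAC_of h hC)

end Crest.Agent.R249.Sym467
end
end

-- ▼ part R249/StKc_912
section

/-!
# Row 249, part A (helper912): the scaled certificate, part 3

* `f2_of_f3` : the `2 × 2` form follows from the `3 × 3` form and `0 ≤ W`;
* `W_nonneg` : `0 ≤ W` follows from the `3 × 3` form;
* `certS_of` : `CertS ACpm C.A C.B C.W c N` from `INT` and `CON`.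
-/

set_option autoImplicit false
set_option linter.unusedVariables false
set_option linter.unusedSectionVars false

open Set Filter Topology
open scoped ContDiff

noncomputable section

namespace Crest.Agent.R249.StK_912

open DivC467 hiding X0 K0
open Eta467 Sym467 Ker254 CovA621
open Brg133 hiding f0

/-- the quadratic part of the `3 × 3` form -/
def Qd (B W : E3 → ℝ) (z : E3) (q h k : ℝ) : ℝ :=
  (4 / 3 * W z + 2 * pd3 W z * q ^ 2) * h ^ 2 + (pd2 W z - 2 * pd3 B z) * q * (h * k) -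
    pd2 B z * k ^ 2

lemma F3_add_neg (A B W : E3 → ℝ) (z : E3) (X K q h k : ℝ) :
    F3 0 A B W z X K q h k + F3 0 A B W z X K q (-h) (-k) =
      2 * F3 0 A B W z X K q 0 0 + 2 * Qd B W z q h k := by
  simp only [F3, Q3, Qd]
  ring

lemma Qd_smul (B W : E3 → ℝ) (z : E3) (q h k t : ℝ) :
    Qd B W z q (t * h) (t * k) = t ^ 2 * Qd B W z q h k := by
  simp only [Qd]
  ring

/-- the quadratic part dominates -/
lemma Qd_ge {A B W : E3 → ℝ} {z : E3} {X K q a0 a2 : ℝ}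
    (H : ∀ h k, a0 + a2 * k ^ 2 ≤ F3 0 A B W z X K q h k) (h k : ℝ) :
    a2 * k ^ 2 ≤ Qd B W z q h k := by
  obtain ⟨c, hc⟩ : ∃ c, c = F3 0 A B W z X K q 0 0 := ⟨_, rfl⟩
  have key : ∀ t : ℝ, a0 + t ^ 2 * (a2 * k ^ 2) ≤ c + t ^ 2 * Qd B W z q h k := by
    intro t
    have h1 := H (t * h) (t * k)
    have h2 := H (-(t * h)) (-(t * k))
    have h3 := F3_add_neg A B W z X K q (t * h) (t * k)
    rw [Qd_smul, ← hc] at h3
    rw [neg_sq] at h2
    nlinarith
  by_contra hcon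
  push Not at hcon
  obtain ⟨δ, hδ⟩ : ∃ δ, δ = a2 * k ^ 2 - Qd B W z q h k := ⟨_, rfl⟩
  have hδ0 : 0 < δ := by rw [hδ]; linarith
  have h0 := key 0
  have h1 : a0 ≤ c := by simpa using h0
  have h2 := key (√((c - a0 + 1) / δ))
  have h3 : √((c - a0 + 1) / δ) ^ 2 = (c - a0 + 1) / δ :=
    Real.sq_sqrt (div_nonneg (by linarith) hδ0.le)
  rw [h3] at h2
  have h4 : (c - a0 + 1) / δ * δ = c - a0 + 1 := by field_simp
  have h5 : (c - a0 + 1) / δ * (a2 * k ^ 2) - (c - a0 + 1) / δ * Qd B W z q h k =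
      (c - a0 + 1) / δ * δ := by rw [hδ]; ring
  linarith

/-- **the `2 × 2` form.** -/
theorem f2_of_f3 {A B W : E3 → ℝ} {z : E3} {X K q a0 a2 : ℝ} (hW : 0 ≤ W z)
    (H : ∀ h k, a0 + a2 * k ^ 2 ≤ F3 0 A B W z X K q h k) {ss sw ww : ℝ} (hs : 0 ≤ ss)
    (hw : 0 ≤ ww) (hsw : sw ^ 2 ≤ ss * ww) : a2 * ww ≤ F2 0 B W z q ss sw ww := by
  have hs1 : √ss ^ 2 = ss := Real.sq_sqrt hs
  have hw1 : √ww ^ 2 = ww := Real.sq_sqrt hw
  have hs0 := Real.sqrt_nonneg ss
  have hw0 := Real.sqrt_nonneg ww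
  have habs : |sw| ≤ √ss * √ww := by
    apply abs_le_of_sq_le_sq _ (by positivity)
    rw [mul_pow, hs1, hw1]; exact hsw
  obtain ⟨x, hx⟩ : ∃ x, x = (pd2 W z - 2 * pd3 B z) * q := ⟨_, rfl⟩
  have e1 : F2 0 B W z q ss sw ww = (2 * W z + 2 * pd3 W z * q ^ 2) * ss + x * sw - pd2 B z * ww := by
    simp only [F2, Q2, hx]
    ring
  -- the two signs
  have g1 := Qd_ge H (√ss) (√ww)
  have g2 := Qd_ge H (√ss) (-√ww)
  simp only [Qd] at g1 g2
  rw [← hx] at g1 g2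
  rw [neg_sq] at g2
  rw [hs1, hw1] at g1 g2
  rw [e1]
  have hWs : 0 ≤ W z * ss := mul_nonneg hW hs
  have h1 := abs_le.1 habs
  rcases le_total 0 x with hx0 | hx0
  · have h2 : x * (-(√ss * √ww)) ≤ x * sw := mul_le_mul_of_nonneg_left h1.1 hx0
    nlinarith
  · have h2 : x * (√ss * √ww) ≤ x * sw := mul_le_mul_of_nonpos_left h1.2 hx0
    nlinarith

/-! ### the sign of `W` -/

lemma reg_G {z : E3} (hz : z ∈ Reg ACpm) {G : ℝ} (hG : 0 < G) :
    ((z.1, z.2.1, G) : E3) ∈ Reg ACpm := by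
  have hk : kf ACpm (z.1, z.2.1, G) = kf ACpm z := rfl
  refine ⟨hz.m0, hz.em, hz.bx, hz.k0, hG.le, ?_⟩
  rw [hk]
  have := hz.k0
  show 0 < z.1 ^ 2 + kf ACpm z + G
  positivity

lemma contDiffAt_W {C : Crt} (hC : 1 ≤ C.c) {z : E3} (hm : 0 < z.2.1) (hR : 0 < RR C.c z.2.1 z.2.2) :
    ContDiffAt ℝ ∞ C.W z := contDiffAt_cE hm.ne' hR.ne'

/-- `W ≥ 0` where `m < 1` -/
lemma W_nonneg_lt {C : Crt} (hC : 1 ≤ C.c) {z : E3} (hz : z ∈ Reg ACpm) (hm : z.2.1 < 1)
    (H : ∀ z' ∈ Reg ACpm, ∀ q, 0 ≤ q → q ^ 2 = z'.2.2 → ∀ h, 0 ≤ Qd C.B C.W z' q h 0) :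
    0 ≤ C.W z := by
  have hm0 := hz.m0
  have hc : (1:ℝ) ≤ C.c := by exact_mod_cast hC
  have hRG : ∀ G : ℝ, 0 ≤ G → 0 < RR C.c z.2.1 G := by
    intro G hG
    unfold RR
    have : 0 < (C.c : ℝ) * (1 - z.2.1) * z.2.1 ^ 2 := by
      have : 0 < 1 - z.2.1 := by linarith
      positivity
    linarith
  have hder : ∀ s : ℝ, 0 ≤ s → HasDerivAt (fun s : ℝ => s ^ 2 * C.W (z.1, z.2.1, s ^ 3))
      (2 * s * C.W (z.1, z.2.1, s ^ 3) + s ^ 2 * (3 * s ^ 2 * pd3 C.W (z.1, z.2.1, s ^ 3))) s := by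
    intro s hs
    have hd : DifferentiableAt ℝ C.W (z.1, z.2.1, s ^ 3) :=
      (contDiffAt_W hC (z := (z.1, z.2.1, s ^ 3)) hm0 (hRG _ (by positivity))).differentiableAt
        (by simp)
    have h1 : HasDerivAt (fun s : ℝ => ((z.1, z.2.1, s ^ 3) : E3)) ((0, 0, 3 * s ^ 2) : E3) s := by
      have h2 : HasDerivAt (fun s : ℝ => s ^ 3) (3 * s ^ 2) s := by
        have := hasDerivAt_pow 3 s
        refine this.congr_deriv ?_
        push_cast
        ring
      exact (hasDerivAt_const s z.1).prodMk ((hasDerivAt_const s z.2.1).prodMk h2)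
    have h3 := hd.hasFDerivAt.comp_hasDerivAt s h1
    have e : fderiv ℝ C.W (z.1, z.2.1, s ^ 3) ((0, 0, 3 * s ^ 2) : E3) =
        3 * s ^ 2 * pd3 C.W (z.1, z.2.1, s ^ 3) := by
      have : ((0, 0, 3 * s ^ 2) : E3) = (3 * s ^ 2) • ((0, 0, 1) : E3) := by
        ext <;> simp
      rw [this, map_smul, smul_eq_mul]
      rfl
    rw [e] at h3
    have h4 := (hasDerivAt_pow 2 s).mul h3
    refine h4.congr_deriv ?_
    push_cast
    simp only [Function.comp]
    ring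
  have hmono : MonotoneOn (fun s : ℝ => s ^ 2 * C.W (z.1, z.2.1, s ^ 3)) (Ici 0) := by
    refine monotoneOn_of_deriv_nonneg (convex_Ici 0)
      (fun s hs => (hder s hs).continuousAt.continuousWithinAt) ?_ ?_
    · intro s hs
      rw [interior_Ici] at hs
      exact (hder s (le_of_lt hs)).differentiableAt.differentiableWithinAt
    · intro s hs
      rw [interior_Ici] at hs
      have hs0 : 0 < s := hs
      rw [(hder s hs0.le).deriv]
      have hG : 0 < s ^ 3 := by positivity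
      have h1 := H _ (reg_G hz hG) (√(s ^ 3)) (Real.sqrt_nonneg _) (Real.sq_sqrt hG.le) 1
      simp only [Qd] at h1
      rw [Real.sq_sqrt hG.le] at h1
      have h2 : 0 ≤ 4 / 3 * C.W (z.1, z.2.1, s ^ 3) + 2 * pd3 C.W (z.1, z.2.1, s ^ 3) * s ^ 3 := by
        simpa using h1
      have h3 : 0 ≤ (3 / 2 * s) *
          (4 / 3 * C.W (z.1, z.2.1, s ^ 3) + 2 * pd3 C.W (z.1, z.2.1, s ^ 3) * s ^ 3) := by
        positivity
      refine h3.trans (le_of_eq ?_)
      ring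
  have hpos : ∀ G : ℝ, 0 < G → 0 ≤ C.W (z.1, z.2.1, G) := by
    intro G hG
    obtain ⟨s, hs0, hs⟩ : ∃ s : ℝ, 0 < s ∧ s ^ 3 = G := by
      refine ⟨G ^ (((3:ℕ):ℝ)⁻¹), Real.rpow_pos_of_pos hG _, ?_⟩
      exact Real.rpow_inv_natCast_pow hG.le (by norm_num)
    have h1 := hmono (mem_Ici.2 le_rfl) (mem_Ici.2 hs0.le) hs0.le
    have h2 : 0 ≤ s ^ 2 * C.W (z.1, z.2.1, s ^ 3) := by simpa using h1
    rw [hs] at h2
    exact nonneg_of_mul_nonneg_right h2 (by positivity)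
  rcases hz.G0.lt_or_eq with hG | hG
  · exact hpos _ hG
  · -- limit `G → 0`
    have hcont : ContinuousAt (fun G : ℝ => C.W (z.1, z.2.1, G)) 0 := by
      have h1 : ContinuousAt C.W (z.1, z.2.1, 0) :=
        (contDiffAt_W hC (z := (z.1, z.2.1, 0)) hm0 (hRG _ le_rfl)).continuousAt
      have h2 : ContinuousAt (fun G : ℝ => ((z.1, z.2.1, G) : E3)) 0 := by fun_prop
      exact ContinuousAt.comp (f := fun G : ℝ => ((z.1, z.2.1, G) : E3)) (g := C.W) h1 h2
    have e : C.W z = C.W (z.1, z.2.1, 0) := by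
      conv_lhs => rw [show z = (z.1, z.2.1, z.2.2) from rfl, ← hG]
    rw [e]
    refine ge_of_tendsto (x := 𝓝[>] (0:ℝ)) (hcont.tendsto.mono_left nhdsWithin_le_nhds) ?_
    filter_upwards [self_mem_nhdsWithin] with G hG
    exact hpos G hG

/-- **`W ≥ 0` on the region.** -/
theorem W_nonneg {C : Crt} (hC : 1 ≤ C.c) {z : E3} (hz : z ∈ Reg ACpm)
    (H : ∀ z' ∈ Reg ACpm, ∀ q, 0 ≤ q → q ^ 2 = z'.2.2 → ∀ h, 0 ≤ Qd C.B C.W z' q h 0) :
    0 ≤ C.W z := by
  rcases (m_le hz).lt_or_eq with h1 | h1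
  · exact W_nonneg_lt hC hz h1 H
  · -- `m = 1`, `η = 0`
    have hη : z.1 = 0 := by
      by_contra h0
      exact absurd h1 (m_lt_one' hz h0).ne
    have hk := hz.k0
    have hG : 0 < z.2.2 := by
      have h2 := hz.ns
      rw [kf_AC, hη, h1] at h2
      norm_num at h2
      exact h2
    have e : z = (0, 1, z.2.2) := by
      ext
      · exact hη
      · exact h1
      · rfl
    have hcont : ContinuousAt (fun m : ℝ => C.W (0, m, z.2.2)) 1 := by
      have h3 : ContinuousAt C.W ((0, 1, z.2.2) : E3) := by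
        rw [← e]
        exact (contDiffAt_W hC hz.m0 (RR_pos hC hz)).continuousAt
      have h2 : ContinuousAt (fun m : ℝ => ((0, m, z.2.2) : E3)) 1 := by fun_prop
      exact ContinuousAt.comp (f := fun m : ℝ => ((0, m, z.2.2) : E3)) (g := C.W) h3 h2
    rw [e]
    refine ge_of_tendsto (x := 𝓝[<] (1:ℝ)) (hcont.tendsto.mono_left nhdsWithin_le_nhds) ?_
    have h4 : ∀ᶠ m in 𝓝[<] (1:ℝ), 0 < m := nhdsWithin_le_nhds (lt_mem_nhds (by norm_num))
    filter_upwards [self_mem_nhdsWithin, h4] with m hm hm0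
    have hm1 : m < 1 := hm
    apply W_nonneg_lt hC (z := (0, m, z.2.2)) _ hm1 H
    refine ⟨hm0, ?_, ?_, ?_, hG.le, ?_⟩
    · show |(0:ℝ)| ≤ 2 * m
      rw [abs_zero]; linarith
    · show m + |(0:ℝ)| / 2 ≤ 10 / 7
      rw [abs_zero]; linarith
    · rw [kf_AC]
      show 0 ≤ 1 - 7 / 40 * (0:ℝ) ^ 2 + 1 / 125 * (0:ℝ) ^ 4 - m
      norm_num
      exact hm1.le
    · rw [kf_AC]
      show 0 < (0:ℝ) ^ 2 + (1 - 7 / 40 * (0:ℝ) ^ 2 + 1 / 125 * (0:ℝ) ^ 4 - m) + z.2.2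
      norm_num
      linarith

/-! ### the certificate -/


/-- **the certificate of the contract AC\*, scaled unknowns.** -/
theorem certS_of {C : Crt} (hC : 1 ≤ C.c) {e1 e3 e : ℝ} {a : ℕ} (he1 : 0 < e1) (he3 : 0 < e3)
    (he : 0 < e) (hI : INT ACpm C e1 e3) (hV : CON C e a) :
    ∃ (c : ℝ) (N : ℕ), 0 < c ∧ CertS ACpm C.A C.B C.W c N := by
  have hg := ACpm.h1
  have hCc : (0:ℝ) ≤ C.c := Nat.cast_nonneg _
  obtain ⟨c, hc⟩ : ∃ c, c = min (ACpm.g1 * e1 / 1152) (min (e3 / 384) (e / (48 * (10 + C.c) ^ 3))) :=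
    ⟨_, rfl⟩
  have hc0 : 0 < c := by rw [hc]; positivity
  have hc1 : 1152 * c ≤ ACpm.g1 * e1 := by
    have : c ≤ ACpm.g1 * e1 / 1152 := by rw [hc]; exact min_le_left _ _
    linarith
  have hc3 : 384 * c ≤ e3 := by
    have : c ≤ e3 / 384 := by rw [hc]; exact (min_le_right _ _).trans (min_le_left _ _)
    linarith
  have hc4 : c * (48 * (10 + C.c) ^ 3) ≤ e := by
    have : c ≤ e / (48 * (10 + C.c) ^ 3) := by
      rw [hc]; exact (min_le_right _ _).trans (min_le_right _ _)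
    rwa [le_div_iff₀ (by positivity)] at this
  have hN : 1 ≤ a + 1 := by omega
  have f3 : ∀ z ∈ Reg ACpm, ∀ q, 0 ≤ q → q ^ 2 = z.2.2 → ∀ h k,
      c * o0 (a + 1) z + c * o2 (a + 1) z * k ^ 2 ≤
        F3 0 C.A C.B C.W z (X0 Fs z) (K0 Fs z) q h k :=
    fun z hz q hq0 hq h k => f3_of_INT hC he1 he3 hI hc0 hc1 hc3 hN hz hq0 hq h k
  have hQ : ∀ z ∈ Reg ACpm, ∀ q, 0 ≤ q → q ^ 2 = z.2.2 → ∀ h, 0 ≤ Qd C.B C.W z q h 0 := by
    intro z hz q hq0 hq h
    have := Qd_ge (f3 z hz q hq0 hq) h 0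
    simpa using this
  have hW : ∀ z ∈ Reg ACpm, 0 ≤ C.W z := fun z hz => W_nonneg hC hz hQ
  have hne : ∀ z ∈ Reg ACpm, kf ACpm z = 0 → 1 / 2 - dG ACpm z.1 ≠ 0 ∧ 1 / 2 + dG ACpm z.1 ≠ 0 := by
    intro z hz hk
    have := abs_le.1 (dG_le (wreg_of_reg hz) hk)
    exact ⟨by linarith, by linarith⟩
  have cd : Continuous (fun z : E3 => dG ACpm z.1) := continuous_dG
  have ce : Continuous (fun z : E3 => Ec ACpm z) := continuous_Ec
  refine ⟨c, a + 1, hc0, ⟨hc0, fun z hz _ => hW z hz, ?_, ?_, ?_⟩⟩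
  · intro z hz _ q hq0 hq
    refine ⟨f3 z hz q hq0 hq, ?_⟩
    intro ss sw ww hs hw hsw
    exact f2_of_f3 (hW z hz) (f3 z hz q hq0 hq) hs hw hsw
  · intro z hz _ hk hE q hq0 hq
    obtain ⟨n1, n2⟩ := hne z hz hk
    have cx : ContinuousAt (fun z : E3 => Ec ACpm z / (1 / 2 - dG ACpm z.1)) z :=
      ce.continuousAt.div (continuous_const.sub cd).continuousAt n1
    exact vtx_of_open (x := fun z => Ec ACpm z / (1 / 2 - dG ACpm z.1))
      (y := fun z => Ec ACpm z / (1 / 2 - dG ACpm z.1) / 2) hC hc0 hc4 le_rfl hV.v1 cx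
      (cx.div_const 2) hz hk hE hq0 hq
  · intro z hz _ hk hE q hq0 hq
    obtain ⟨n1, n2⟩ := hne z hz hk
    have cx : ContinuousAt (fun z : E3 => Ec ACpm z / (1 / 2 + dG ACpm z.1)) z :=
      ce.continuousAt.div (continuous_const.add cd).continuousAt n2
    exact vtx_of_open (x := fun z => -(Ec ACpm z / (1 / 2 + dG ACpm z.1)))
      (y := fun z => Ec ACpm z / (1 / 2 + dG ACpm z.1) / 2) hC hc0 hc4 le_rfl hV.v2 cx.neg
      (cx.div_const 2) hz hk hE hq0 hq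

end Crest.Agent.R249.StK_912
end
end

-- ▼ part R249/Sym12_467
section

/-!
# R249 (helper467), A2-ETA part 17: part A from the seven PSD statements and the contact family
-/

set_option autoImplicit false

namespace Crest.Agent.R249.Sym467

/-- **part A from the exact checks.** -/
theorem st_of_psd.{u} (hP : Cd133.PsdAll) {e : ℝ} {a : ℕ} (he : 0 < e)
    (hV : StK_912.CON Cd133.C709 e a) : Crest.Agent.R249.Top49.ST.{u} := by
  obtain ⟨c, N, hc, hS⟩ := StK_912.certS_of (C := Cd133.C709) (by norm_num [Cd133.C709])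
    (by norm_num) (by norm_num) he (Cd133.int_of_psd hP) hV
  exact st_of_certS syAll_709 hS

end Crest.Agent.R249.Sym467
end

-- ▼ part R249/Con7_378
section

/-!
# Row 249, part A (helper378): the contact family, part 7: from `Low` to `StK_912.CON`
-/

set_option autoImplicit false

noncomputable section

namespace Crest.Agent.R249.Con378

open Ker254 Brg133 Sym467 CovA621 StK_912
open Eta467 (F3 X0 K0)

variable {C : Crt} {ξ p : ℝ}

lemma X0_pos : X0 Fs (20 * ξ, rM ξ, rG ξ p) = rD ξ := by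
  simp only [X0, Fs, rD]; ring

lemma X0_neg : X0 Fs (-(20 * ξ), rM ξ, rG ξ p) = -rD ξ := by
  simp only [X0, Fs, rD]; ring

lemma K0_pos : K0 Fs (20 * ξ, rM ξ, rG ξ p) = rK ξ := by
  simp only [K0, Fs, rK]; ring

lemma K0_neg : K0 Fs (-(20 * ξ), rM ξ, rG ξ p) = rK ξ := by
  simp only [K0, Fs, rK]; ring

lemma dG_pos : dG ACpm (20 * ξ) = rSig ξ := by
  simp only [dG, ACpm, rSig]; ring

lemma dG_neg : dG ACpm (-(20 * ξ)) = -rSig ξ := by
  simp only [dG, ACpm, rSig]; ring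

lemma Ec_pos : Ec ACpm (20 * ξ, rM ξ, rG ξ p) = rE ξ p := by
  simp only [Ec, dG, ddG, ACpm, Fs, rE, rD, rK, rSig, rG]; ring

lemma Ec_neg : Ec ACpm (-(20 * ξ), rM ξ, rG ξ p) = rE ξ p := by
  simp only [Ec, dG, ddG, ACpm, Fs, rE, rD, rK, rSig, rG]; ring

lemma half_pos : 1 / 2 - rSig ξ = rT ξ 1 / 2 := by
  simp only [rSig, rT]; push_cast; ring

lemma half_neg : 1 / 2 + rSig ξ = rT ξ (-1) / 2 := by
  simp only [rSig, rT]; push_cast; ring

lemma form_pos {q : ℝ} (hm : rM ξ ≠ 0) (hR : RR C.c (rM ξ) (rG ξ p) ≠ 0) (hq : q ^ 2 = rG ξ p)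
    (X K h : ℝ) :
    C.S (rM ξ) (rG ξ p) * F3 0 C.A C.B C.W (20 * ξ, rM ξ, rG ξ p) X K q h (rSig ξ * q) =
      vf C ξ p X K h := by
  have h1 := Crt.form_F3 (C := C) (z := (20 * ξ, rM ξ, rG ξ p)) hm hR hq X K h (rSig ξ * q)
  have e : (20 * ξ) ^ 2 = 400 * ξ ^ 2 := by ring
  simp only [e] at h1
  rw [mul_comm, h1, vf, ← hq]
  ring

lemma form_neg {q : ℝ} (hm : rM ξ ≠ 0) (hR : RR C.c (rM ξ) (rG ξ p) ≠ 0) (hq : q ^ 2 = rG ξ p)
    (X K h : ℝ) :
    C.S (rM ξ) (rG ξ p) * F3 0 C.A C.B C.W (-(20 * ξ), rM ξ, rG ξ p) X K q h (-rSig ξ * q) =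
      vf C ξ p (-X) K (-h) := by
  have h1 := Crt.form_F3 (C := C) (z := (-(20 * ξ), rM ξ, rG ξ p)) hm hR hq X K h (-rSig ξ * q)
  have e : (-(20 * ξ)) ^ 2 = 400 * ξ ^ 2 := by ring
  simp only [e] at h1
  rw [mul_comm, h1, vf, ← hq]
  simp only [Crt.e11, Crt.eh, Crt.ek]
  ring

/-- one vertex -/
lemma base {s : ℤ} {N : ℕ} (hs : s = 1 ∨ s = -1) (hξ : 0 < ξ) (hξ1 : 40000 * ξ ≤ 2773)
    (hL : Low C s N ξ p) (hμ : 0 ≤ (rM ξ + 10 * ξ) * (rM ξ - 10 * ξ)) {X K : ℝ}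
    (hX : rT ξ s * X = rD ξ * rT ξ s + 2 * s * rE ξ p)
    (hK : rT ξ s * K = rK ξ * rT ξ s + rE ξ p) (h : ℝ) :
    N * ξ ^ 8 * ((rM ξ + 10 * ξ) * (rM ξ - 10 * ξ)) ≤ 12 * vf C ξ p X K h := by
  have h1 := hL (rT ξ s * h)
  rw [← vf_eq hX hK h] at h1
  have h0 : 0 ≤ (N:ℝ) * ξ ^ 8 * ((rM ξ + 10 * ξ) * (rM ξ - 10 * ξ)) := by positivity
  obtain ⟨t, ht⟩ : ∃ t, t = 14 * ξ - 512 * ξ ^ 3 := ⟨_, rfl⟩
  have ht0 : 0 ≤ t := by
    have : ξ ^ 2 ≤ (2773 / 40000) ^ 2 := pow_le_pow_left₀ hξ.le (by linarith) 2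
    have h2 : 0 ≤ 14 - 512 * ξ ^ 2 := by linarith
    have h3 : t = ξ * (14 - 512 * ξ ^ 2) := by rw [ht]; ring
    rw [h3]; positivity
  have ht1 : t < 1 := by
    have : 0 ≤ 512 * ξ ^ 3 := by positivity
    rw [ht]; linarith
  have hT : 0 < rT ξ s ∧ rT ξ s ≤ 2 := by
    unfold rT
    rcases hs with rfl | rfl
    · push_cast; rw [← ht]; constructor <;> linarith
    · push_cast; rw [← ht]; constructor <;> linarith
  have hT2 : rT ξ s ^ 2 ≤ 4 := by nlinarith [hT.1, hT.2]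
  have hT3 : 0 < rT ξ s ^ 2 := by have := hT.1; positivity
  have hv : 0 ≤ vf C ξ p X K h := by
    by_contra hcon
    push Not at hcon
    have : 3 * rT ξ s ^ 2 * vf C ξ p X K h < 0 := mul_neg_of_pos_of_neg (by positivity) hcon
    linarith
  have : rT ξ s ^ 2 * vf C ξ p X K h ≤ 4 * vf C ξ p X K h := mul_le_mul_of_nonneg_right hT2 hv
  linarith

/-- **from the four boxes to the contact statement.** -/
theorem con_of_low {N : ℕ} {e : ℝ} (hC : 1 ≤ C.c)
    (H : ∀ ξ p : ℝ, 0 < ξ → 40000 * ξ ≤ 2773 → 0 < p → 0 < rM ξ - 10 * ξ → 0 < rE ξ p →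
      Low C 1 N ξ p ∧ Low C (-1) N ξ p) (he : e * (12 * 20 ^ 8) ≤ N) : CON C e 1 := by
  -- common part
  have key : ∀ z : E3, OCon ACpm z → 0 < Ec ACpm z → ∃ ξ p : ℝ, 0 < ξ ∧ 40000 * ξ ≤ 2773 ∧ 0 < p ∧
      0 < rM ξ - 10 * ξ ∧ 0 < rM ξ ∧ z.2.1 = rM ξ ∧ z.2.2 = rG ξ p ∧ (z.1 = 20 * ξ ∨ z.1 = -(20 * ξ)) ∧
      muS z = (rM ξ + 10 * ξ) * (rM ξ - 10 * ξ) ∧ z.1 ^ 8 = 20 ^ 8 * ξ ^ 8 := by
    intro z hz _
    have hem := hz.em
    have hm1 := hz.m1
    have hk := hz.k0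
    rw [kf_AC] at hk
    have ha : 0 < |z.1| := abs_pos.2 hz.e0
    have hs : |z.1| ^ 2 = z.1 ^ 2 := sq_abs _
    have hs4 : |z.1| ^ 4 = z.1 ^ 4 := by
      rw [show |z.1| ^ 4 = (|z.1| ^ 2) ^ 2 by ring, hs]; ring
    have h4 : |z.1| ^ 2 ≤ 4 := by nlinarith
    have hm : z.2.1 = 1 - 7 / 40 * |z.1| ^ 2 + 1 / 125 * |z.1| ^ 4 := by rw [hs, hs4]; linarith
    have hle := contact_le h4 hem.le hm
    refine ⟨|z.1| / 20, z.2.2 / (400 * (|z.1| / 20) ^ 2), by positivity, by linarith, ?_, ?_, ?_, ?_,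
      ?_, ?_, ?_, ?_⟩
    · have := hz.G0
      positivity
    · have : rM (|z.1| / 20) = z.2.1 := by rw [hm, rM]; ring
      rw [this]; linarith
    · have : rM (|z.1| / 20) = z.2.1 := by rw [hm, rM]; ring
      rw [this]; exact hz.m0
    · rw [hm, rM]; ring
    · unfold rG
      field_simp
    · rcases abs_choice z.1 with h | h
      · left; rw [h]; ring
      · right; rw [h]; ring
    · have : rM (|z.1| / 20) = z.2.1 := by rw [hm, rM]; ring
      rw [this, muS, ← hs]; ring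
    · have : z.1 ^ 8 = |z.1| ^ 8 := by
        rw [show z.1 ^ 8 = (z.1 ^ 2) ^ 4 by ring, ← hs]; ring
      rw [this]; ring
  have fin : ∀ ξ : ℝ, ∀ v : ℝ, 0 < ξ → 0 ≤ (rM ξ + 10 * ξ) * (rM ξ - 10 * ξ) →
      N * ξ ^ 8 * ((rM ξ + 10 * ξ) * (rM ξ - 10 * ξ)) ≤ 12 * v →
      e * ((rM ξ + 10 * ξ) * (rM ξ - 10 * ξ)) ^ 1 * (20 ^ 8 * ξ ^ 8) ≤ v := by
    intro ξ v hξ hμ h1
    have h2 : e * (12 * 20 ^ 8) * (ξ ^ 8 * ((rM ξ + 10 * ξ) * (rM ξ - 10 * ξ))) ≤
        N * (ξ ^ 8 * ((rM ξ + 10 * ξ) * (rM ξ - 10 * ξ))) :=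
      mul_le_mul_of_nonneg_right he (by positivity)
    linarith
  constructor
  · intro z hz hE q hq0 hq h
    obtain ⟨ξ, p, hξ, hξ1, hp, hv, hm, e2, e3, e1, e4, e5⟩ := key z hz hE
    obtain ⟨η, m, G⟩ := z
    simp only at e1 e2 e3 e5 hq
    have hG : 0 < G := hz.G0
    subst e2 e3
    have hR : 0 < RR C.c (rM ξ) (rG ξ p) := RR_pos' hC (wreg_of_ocon hz) hz.G0
    have hμ : 0 ≤ (rM ξ + 10 * ξ) * (rM ξ - 10 * ξ) := mul_nonneg (by linarith) hv.le
    rw [e4]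
    simp only [e5]
    rcases e1 with rfl | rfl
    · simp only [Ec_pos] at hE
      have hT : rT ξ 1 ≠ 0 := by
        intro h0
        have := half_pos (ξ := ξ)
        have h3 : rSig ξ = -7 * ξ + 256 * ξ ^ 3 := by unfold rSig; ring
        have h4 : ξ ^ 2 ≤ (2773 / 40000) ^ 2 := pow_le_pow_left₀ hξ.le (by linarith) 2
        rw [h0] at this
        nlinarith
      simp only [dG_pos, X0_pos, K0_pos, Ec_pos, half_pos]
      rw [form_pos hm.ne' hR.ne' hq]
      apply fin ξ _ hξ hμ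
      apply base (s := 1) (Or.inl rfl) hξ hξ1 (H ξ p hξ hξ1 hp hv hE).1 hμ
      · push_cast; field_simp
      · field_simp
    · simp only [Ec_neg] at hE
      have hT : rT ξ (-1) ≠ 0 := by
        have h4 : 0 ≤ 512 * ξ ^ 3 := by positivity
        unfold rT; push_cast
        nlinarith
      simp only [dG_neg, X0_neg, K0_neg, Ec_neg, sub_neg_eq_add, half_neg]
      rw [form_neg hm.ne' hR.ne' hq]
      apply fin ξ _ hξ hμ
      apply base (s := -1) (Or.inr rfl) hξ hξ1 (H ξ p hξ hξ1 hp hv hE).2 hμ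
      · push_cast; field_simp; ring
      · field_simp
  · intro z hz hE q hq0 hq h
    obtain ⟨ξ, p, hξ, hξ1, hp, hv, hm, e2, e3, e1, e4, e5⟩ := key z hz hE
    obtain ⟨η, m, G⟩ := z
    simp only at e1 e2 e3 e5 hq
    have hG : 0 < G := hz.G0
    subst e2 e3
    have hR : 0 < RR C.c (rM ξ) (rG ξ p) := RR_pos' hC (wreg_of_ocon hz) hz.G0
    have hμ : 0 ≤ (rM ξ + 10 * ξ) * (rM ξ - 10 * ξ) := mul_nonneg (by linarith) hv.le
    rw [e4]
    simp only [e5]
    rcases e1 with rfl | rfl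
    · simp only [Ec_pos] at hE
      have hT : rT ξ (-1) ≠ 0 := by
        have h4 : 0 ≤ 512 * ξ ^ 3 := by positivity
        unfold rT; push_cast
        nlinarith
      simp only [dG_pos, X0_pos, K0_pos, Ec_pos, half_neg]
      rw [form_pos hm.ne' hR.ne' hq]
      apply fin ξ _ hξ hμ
      apply base (s := -1) (Or.inr rfl) hξ hξ1 (H ξ p hξ hξ1 hp hv hE).2 hμ
      · push_cast; field_simp
      · field_simp
    · simp only [Ec_neg] at hE
      have hT : rT ξ 1 ≠ 0 := by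
        intro h0
        have := half_pos (ξ := ξ)
        have h3 : rSig ξ = -7 * ξ + 256 * ξ ^ 3 := by unfold rSig; ring
        have h4 : ξ ^ 2 ≤ (2773 / 40000) ^ 2 := pow_le_pow_left₀ hξ.le (by linarith) 2
        rw [h0] at this
        nlinarith
      simp only [dG_neg, X0_neg, K0_neg, Ec_neg, ← sub_eq_add_neg, half_pos]
      rw [form_neg hm.ne' hR.ne' hq]
      apply fin ξ _ hξ hμ
      apply base (s := 1) (Or.inl rfl) hξ hξ1 (H ξ p hξ hξ1 hp hv hE).1 hμ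
      · push_cast; field_simp; ring
      · field_simp

end Crest.Agent.R249.Con378
end
end

-- ▼ part R249/Con8_378
section

/-!
# Row 249, part A (helper378): the contact statement for `cert_709`

`con_709 : StK_912.CON C709 3 1`.
-/

set_option autoImplicit false

noncomputable section

namespace Crest.Agent.R249.Con378

open Ker254 Brg133 Cd133

variable {ξ p : ℝ}

lemma gE_neg (hξ : 0 < ξ) (hE : 0 < rE ξ p) : ev3 ξ p 0 gE < 0 := by
  have h := idcB_sound gE_id ξ p 0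
  simp only [Ex.ev, kc, eL_ev, eE_ev] at h
  push_cast at h
  rw [h] at hE
  have h2 : 0 < ξ ^ 2 := by positivity
  by_contra hcon
  push Not at hcon
  have : ξ ^ 2 * (0 - ev3 ξ p 0 gE) ≤ 0 := mul_nonpos_of_nonneg_of_nonpos h2.le (by linarith)
  linarith


lemma low_u (hξ : 0 < ξ) (hξ1 : 40000 * ξ ≤ 2773) (hp : 0 < p) (hv : 0 < rM ξ - 10 * ξ)
    (hE : 0 < rE ξ p) : Low C709 1 1000000000000 ξ p := by
  have hg := gE_neg hξ hE
  have hpI : Lim.In ⟨none, none⟩ p := Lim.in_none hp.le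
  rcases le_total (128 * ξ) 7 with h | h
  · exact plU.low fun u v => psd2 okT_up run_up out_up
      (Lim.in_hi (by norm_num) (by norm_num) hξ.le (by push_cast; linarith)) hpI hg u v
  · have hx : Lim.In ⟨some (7, 128), some (15, 56)⟩ ξ :=
      Lim.in_lohi (by norm_num) (by norm_num) (by norm_num) (by norm_num)
        (by push_cast; linarith) (by push_cast; linarith)
    refine edU.low hξ.le hp.le hv (fun u v => psd2 okT_ut run_ut out_ut hx hpI hg u v) ?_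
    have := psd2 okT_z11 run_z11 out_z11 hx hpI hg 1 0
    simpa using this

lemma low_v (hξ : 0 < ξ) (hξ1 : 40000 * ξ ≤ 2773) (hp : 0 < p) (hv : 0 < rM ξ - 10 * ξ)
    (hE : 0 < rE ξ p) : Low C709 (-1) 1000000000000 ξ p := by
  have hg := gE_neg hξ hE
  have hpI : Lim.In ⟨none, none⟩ p := Lim.in_none hp.le
  rcases le_total (640 * ξ) 11 with h0 | h0
  · exact plV.low fun u v => psd2 okT_vp0 run_vp0 out_vp0
      (Lim.in_hi (by norm_num) (by norm_num) hξ.le (by push_cast; linarith)) hpI hg u v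
  rcases le_total (640 * ξ) 22 with h1 | h1
  · exact plV.low fun u v => psd2 okT_vp1 run_vp1 out_vp1
      (Lim.in_lohi (by norm_num) (by norm_num) (by norm_num) (by norm_num)
        (by push_cast; linarith) (by push_cast; linarith)) hpI hg u v
  rcases le_total (640 * ξ) 33 with h2 | h2
  · exact plV.low fun u v => psd2 okT_vp2 run_vp2 out_vp2
      (Lim.in_lohi (by norm_num) (by norm_num) (by norm_num) (by norm_num)
        (by push_cast; linarith) (by push_cast; linarith)) hpI hg u v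
  rcases le_total (1280 * ξ) 77 with h3 | h3
  · exact plV.low fun u v => psd2 okT_vp3 run_vp3 out_vp3
      (Lim.in_lohi (by norm_num) (by norm_num) (by norm_num) (by norm_num)
        (by push_cast; linarith) (by push_cast; linarith)) hpI hg u v
  rcases le_total (1280 * ξ) 82 with h4 | h4
  · exact plV.low fun u v => psd2 okT_vp4 run_vp4 out_vp4
      (Lim.in_lohi (by norm_num) (by norm_num) (by norm_num) (by norm_num)
        (by push_cast; linarith) (by push_cast; linarith)) hpI hg u v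
  rcases le_total (160 * ξ) 11 with h5 | h5
  · exact plV.low fun u v => psd2 okT_vp5 run_vp5 out_vp5
      (Lim.in_lohi (by norm_num) (by norm_num) (by norm_num) (by norm_num)
        (by push_cast; linarith) (by push_cast; linarith)) hpI hg u v
  · have hx : Lim.In ⟨some (11, 160), some (1, 110)⟩ ξ :=
      Lim.in_lohi (by norm_num) (by norm_num) (by norm_num) (by norm_num)
        (by push_cast; linarith) (by push_cast; linarith)
    refine edV.low (by linarith) hv ?_ fun u v => psd2 okT_vt run_vt out_vt hx hpI hg u v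
    have hs : ξ ^ 2 ≤ (2773 / 40000) ^ 2 := pow_le_pow_left₀ hξ.le (by linarith) 2
    have h6 : ξ ^ 4 ≤ ξ ^ 2 * (2773 / 40000) ^ 2 := by
      rw [show ξ ^ 4 = ξ ^ 2 * ξ ^ 2 by ring]
      exact mul_le_mul_of_nonneg_left hs (sq_nonneg _)
    have h7 : (11 / 160) ^ 2 ≤ ξ ^ 2 := pow_le_pow_left₀ (by norm_num) (by linarith) 2
    unfold rM
    push_cast
    linarith

/-- **the contact statement for the frozen certificate.** -/
theorem con_709 : StK_912.CON C709 3 1 :=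
  con_of_low (N := 1000000000000) (by decide)
    (fun _ _ h1 h2 h3 h4 h5 => ⟨low_u h1 h2 h3 h4 h5, low_v h1 h2 h3 h4 h5⟩) (by norm_num)

end Crest.Agent.R249.Con378
end
end

-- ▼ part R249/StL_912

/-!
# Row 249, part A (helper912): the two-function lemma `ST`

Assembly of the exact certificate (helper709), its kernel checks in the interior (helper324,
helper254, helper133) and at contact (helper378), the limit passage (helper621, helper806,
helper467) and the final deduction.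
-/

set_option autoImplicit false

namespace Crest.Agent.R249.StL_912

/-- **part A of row 249.** -/
theorem st : Crest.Agent.R249.Top49.ST.{0} :=
  Crest.Agent.R249.Sym467.st_of_psd Crest.Agent.R249.Px324.psdAll (by norm_num)
    Crest.Agent.R249.Con378.con_709

end Crest.Agent.R249.StL_912
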