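import Crest.Agent.R249.Eta4_467

-- ▼ part R249/Sym0_467
section

/-!
# R249 (helper467), A2-ETA part 5: affine change of the unknowns

`homJ r a j` : the jet of `(a + r φ, a + r ψ)`; `hm r a` : the base map;
`IE_hom` : the integrand of the pulled back field is the pulled back integrand.
-/

set_option autoImplicit false
set_option linter.unusedVariables false
set_option linter.unusedSectionVars false

open MeasureTheory Set Filter Topology Matrix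
open scoped ContDiff

noncomputable section

namespace Crest.Agent.R249.Eta467

open Calc_806 Calc_806.Calc DivC467 Lim621 PenH_806

attribute [local instance] Matrix.frobeniusNormedAddCommGroup Matrix.frobeniusNormedSpace

/-- the jet of `(a + r φ, a + r ψ)`. -/
def homJ (r a : ℝ) (j : Jet E4 H4) : Jet E4 H4 where
  f := a + r * j.f
  g := a + r * j.g
  p := r • j.p
  q := r • j.q
  P := r • j.P
  Q := r • j.Q

/-- the base map. -/
def hm (r a : ℝ) (z : ℝ × ℝ × ℝ) : ℝ × ℝ × ℝ := (r * z.1, a + r * z.2.1, r ^ 2 * z.2.2)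

/-- the coefficients `A`, `B` of the pulled back field. -/
def pb (r a : ℝ) (A : ℝ × ℝ × ℝ → ℝ) (z : ℝ × ℝ × ℝ) : ℝ := r * A (hm r a z)

/-- the coefficient `W` of the pulled back field. -/
def pbW (r a : ℝ) (W : ℝ × ℝ × ℝ → ℝ) (z : ℝ × ℝ × ℝ) : ℝ := r ^ 2 * W (hm r a z)

/-- the linear part of the base map. -/
def hmL (r : ℝ) (hr : r ≠ 0) : (ℝ × ℝ × ℝ) ≃L[ℝ] (ℝ × ℝ × ℝ) :=
  (ContinuousLinearEquiv.smulLeft (Units.mk0 r hr)).prodCongr
    ((ContinuousLinearEquiv.smulLeft (Units.mk0 r hr)).prodCongr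
      (ContinuousLinearEquiv.smulLeft (Units.mk0 (r ^ 2) (pow_ne_zero 2 hr))))

lemma hmL_apply (r : ℝ) (hr : r ≠ 0) (z : ℝ × ℝ × ℝ) :
    hmL r hr z = (r * z.1, r * z.2.1, r ^ 2 * z.2.2) := rfl

lemma hm_eq {r : ℝ} (hr : r ≠ 0) (a : ℝ) (z : ℝ × ℝ × ℝ) : hm r a z = hmL r hr z + (0, a, 0) := by
  rw [hmL_apply, hm]
  ext <;> simp [add_comm]

lemma fderiv_hm {r : ℝ} (hr : r ≠ 0) (a : ℝ) (A : ℝ × ℝ × ℝ → ℝ) (z v : ℝ × ℝ × ℝ) :
    fderiv ℝ (fun z => A (hm r a z)) z v = fderiv ℝ A (hm r a z) (hmL r hr v) := by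
  have h1 : (fun z => A (hm r a z)) = (fun y => A (y + (0, a, 0))) ∘ hmL r hr := by
    funext z; rw [Function.comp_apply, hm_eq hr]
  rw [h1, ContinuousLinearEquiv.comp_right_fderiv, ContinuousLinearMap.comp_apply,
    fderiv_comp_add_right, ← hm_eq hr]
  rfl

lemma fderiv_smul_hm {r : ℝ} (hr : r ≠ 0) (a c : ℝ) (hc : c ≠ 0) (A : ℝ × ℝ × ℝ → ℝ)
    (z v : ℝ × ℝ × ℝ) :
    fderiv ℝ (fun z => c * A (hm r a z)) z v = c * fderiv ℝ A (hm r a z) (hmL r hr v) := by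
  rw [← fderiv_hm hr]
  have h2 := (ContinuousLinearEquiv.smulLeft (R₁ := ℝ) (M₁ := ℝ) (Units.mk0 c hc)).comp_fderiv
    (f := fun z => A (hm r a z)) (x := z)
  have h3 : (fun z => c * A (hm r a z)) =
      (ContinuousLinearEquiv.smulLeft (R₁ := ℝ) (M₁ := ℝ) (Units.mk0 c hc)) ∘
        (fun z => A (hm r a z)) := by
    funext z; rfl
  rw [h3, h2]
  rfl

lemma hmL_1 (r : ℝ) (hr : r ≠ 0) : hmL r hr (1, 0, 0) = r • ((1, 0, 0) : ℝ × ℝ × ℝ) := by
  rw [hmL_apply]; ext <;> simp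

lemma hmL_2 (r : ℝ) (hr : r ≠ 0) : hmL r hr (0, 1, 0) = r • ((0, 1, 0) : ℝ × ℝ × ℝ) := by
  rw [hmL_apply]; ext <;> simp

lemma hmL_3 (r : ℝ) (hr : r ≠ 0) : hmL r hr (0, 0, 1) = r ^ 2 • ((0, 0, 1) : ℝ × ℝ × ℝ) := by
  rw [hmL_apply]; ext <;> simp

section

variable {r : ℝ} (hr : r ≠ 0) (a : ℝ) (A : ℝ × ℝ × ℝ → ℝ) (z : ℝ × ℝ × ℝ)

include hr

lemma pd1_pb : pd1 (pb r a A) z = r ^ 2 * pd1 A (hm r a z) := by
  have := fderiv_smul_hm hr a r hr A z (1, 0, 0)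
  rw [hmL_1, map_smul, smul_eq_mul] at this
  exact this.trans (by rw [pd1]; ring)

lemma pd2_pb : pd2 (pb r a A) z = r ^ 2 * pd2 A (hm r a z) := by
  have := fderiv_smul_hm hr a r hr A z (0, 1, 0)
  rw [hmL_2, map_smul, smul_eq_mul] at this
  exact this.trans (by rw [pd2]; ring)

lemma pd3_pb : pd3 (pb r a A) z = r ^ 3 * pd3 A (hm r a z) := by
  have := fderiv_smul_hm hr a r hr A z (0, 0, 1)
  rw [hmL_3, map_smul, smul_eq_mul] at this
  exact this.trans (by rw [pd3]; ring)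

lemma pd1_pbW : pd1 (pbW r a A) z = r ^ 3 * pd1 A (hm r a z) := by
  have := fderiv_smul_hm hr a (r ^ 2) (pow_ne_zero 2 hr) A z (1, 0, 0)
  rw [hmL_1, map_smul, smul_eq_mul] at this
  exact this.trans (by rw [pd1]; ring)

lemma pd2_pbW : pd2 (pbW r a A) z = r ^ 3 * pd2 A (hm r a z) := by
  have := fderiv_smul_hm hr a (r ^ 2) (pow_ne_zero 2 hr) A z (0, 1, 0)
  rw [hmL_2, map_smul, smul_eq_mul] at this
  exact this.trans (by rw [pd2]; ring)

lemma pd3_pbW : pd3 (pbW r a A) z = r ^ 4 * pd3 A (hm r a z) := by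
  have := fderiv_smul_hm hr a (r ^ 2) (pow_ne_zero 2 hr) A z (0, 0, 1)
  rw [hmL_3, map_smul, smul_eq_mul] at this
  exact this.trans (by rw [pd3]; ring)

end

/-! ### jets -/

lemma uJ_hom (r a : ℝ) (j : Jet E4 H4) : uJ (homJ r a j) = r • uJ j := by
  simp only [uJ, homJ, ← smul_sub, WithLp.ofLp_smul]

lemma vJ_hom (r a : ℝ) (j : Jet E4 H4) : vJ (homJ r a j) = r • vJ j := by
  simp only [vJ, homJ, ← smul_add, WithLp.ofLp_smul, smul_comm r]

lemma xJ_hom (r a : ℝ) (j : Jet E4 H4) : xJ (homJ r a j) = r * xJ j := by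
  simp only [xJ, homJ, Prod.smul_fst, smul_eq_mul]; ring

lemma kJ_hom (r a : ℝ) (j : Jet E4 H4) : kJ (homJ r a j) = r * kJ j := by
  simp only [kJ, homJ, Prod.smul_fst, smul_eq_mul]; ring

lemma sJ_hom (r a : ℝ) (j : Jet E4 H4) : sJ (homJ r a j) = r • sJ j := by
  have h : (homJ r a j).P.2 = r • j.P.2 := rfl
  rw [sJ, sJ, xJ_hom, h, Matrix.trace_smul, smul_add, smul_smul, smul_eq_mul]
  congr 2
  ring

lemma bJ_hom (r a : ℝ) (j : Jet E4 H4) : bJ (homJ r a j) = hm r a (bJ j) := by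
  have hf : (homJ r a j).f = a + r * j.f := rfl
  have hg : (homJ r a j).g = a + r * j.g := rfl
  rw [bJ, hm, bJ, uJ_hom, hf, hg]
  simp only [smul_dotProduct, dotProduct_smul, smul_eq_mul]
  ext
  · show _ = _
    simp only; ring
  · show _ = _
    simp only; ring
  · show _ = _
    simp only; ring

/-- **the integrand of the pulled back field.** -/
theorem IE_hom {r : ℝ} (hr : r ≠ 0) (a : ℝ) (A B W : ℝ × ℝ × ℝ → ℝ) (j : Jet E4 H4) :
    IE (pb r a A) (pb r a B) (pbW r a W) j = IE A B W (homJ r a j) := by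
  have e : ∑ i, ∑ b, (r • sJ j) i b ^ 2 = r ^ 2 * ∑ i, ∑ b, sJ j i b ^ 2 := by
    simp only [Finset.mul_sum, Matrix.smul_apply, smul_eq_mul]
    exact Finset.sum_congr rfl fun i _ => Finset.sum_congr rfl fun b _ => by ring
  rw [IE_eq, IE_eq, pd1_pb hr, pd2_pb hr, pd3_pb hr, pd1_pb hr, pd2_pb hr, pd3_pb hr,
    pd1_pbW hr, pd2_pbW hr, pd3_pbW hr, uJ_hom, vJ_hom, xJ_hom, kJ_hom, sJ_hom, bJ_hom, e]
  simp only [smul_dotProduct, dotProduct_smul, Matrix.smul_mulVec, Matrix.mulVec_smul, smul_eq_mul,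
    pb, pbW]
  ring

lemma homJ_mem {r a : ℝ} {j : Jet E4 H4} (hP : j.P ∈ SyH) : (homJ r a j).P ∈ SyH :=
  SyH.smul_mem r hP


end Crest.Agent.R249.Eta467
end
end

-- ▼ part R249/Sym1_467
section

/-!
# R249 (helper467), A2-ETA part 6: a symbol class

`Geo` : an open set `U`, a subset `Dm`, weights `wt i` for the three partial derivatives;
`Sy Γ n w c` : `c` smooth on `U`, `|∂^α c| ≤ C w / wt^α` on `Dm` for `|α| ≤ n`.
Closed under sums, products, inverses, square roots.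
-/

set_option autoImplicit false
set_option linter.unusedVariables false
set_option linter.unusedSectionVars false

open MeasureTheory Set Filter Topology Matrix
open scoped ContDiff

noncomputable section

namespace Crest.Agent.R249.Sym467

open DivC467 Eta467

/-- `ℝ³`. -/
abbrev E3 := ℝ × ℝ × ℝ

/-- basis vectors. -/
def bv : Fin 3 → E3 := ![(1, 0, 0), (0, 1, 0), (0, 0, 1)]

/-- partial derivatives. -/
def pdi (i : Fin 3) (F : E3 → ℝ) (x : E3) : ℝ := fderiv ℝ F x (bv i)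


/-- the geometry: open set, domain, weights of the derivatives. -/
structure Geo where
  U : Set E3
  Dm : Set E3
  wt : Fin 3 → E3 → ℝ
  hU : IsOpen U
  sub : Dm ⊆ U
  wt_pos : ∀ i, ∀ z ∈ Dm, 0 < wt i z

variable {Γ : Geo}

/-- order zero. -/
def Sy0 (Γ : Geo) (w c : E3 → ℝ) : Prop :=
  ContDiffOn ℝ ∞ c Γ.U ∧ ∃ C : ℝ, 0 ≤ C ∧ ∀ z ∈ Γ.Dm, |c z| ≤ C * w z

/-- the symbol class. -/
def Sy (Γ : Geo) : ℕ → (E3 → ℝ) → (E3 → ℝ) → Prop
  | 0, w, c => Sy0 Γ w c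
  | n + 1, w, c => Sy0 Γ w c ∧ ∀ i, Sy Γ n (fun z => w z / Γ.wt i z) (pdi i c)

lemma Sy.zero' {n : ℕ} {w c : E3 → ℝ} (h : Sy Γ n w c) : Sy0 Γ w c := by
  cases n with
  | zero => exact h
  | succ n => exact h.1

lemma Sy.smooth {n : ℕ} {w c : E3 → ℝ} (h : Sy Γ n w c) : ContDiffOn ℝ ∞ c Γ.U := h.zero'.1

lemma Sy.bd {n : ℕ} {w c : E3 → ℝ} (h : Sy Γ n w c) :
    ∃ C : ℝ, 0 ≤ C ∧ ∀ z ∈ Γ.Dm, |c z| ≤ C * w z := h.zero'.2

lemma Sy.diffAt {n : ℕ} {w c : E3 → ℝ} (h : Sy Γ n w c) {z : E3} (hz : z ∈ Γ.U) :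
    DifferentiableAt ℝ c z :=
  (h.smooth.contDiffAt (Γ.hU.mem_nhds hz)).differentiableAt (by simp)


lemma pdi_congr {c d : E3 → ℝ} (h : ∀ z ∈ Γ.U, c z = d z) (i : Fin 3) :
    ∀ z ∈ Γ.U, pdi i c z = pdi i d z := by
  intro z hz
  have : c =ᶠ[𝓝 z] d := by
    filter_upwards [Γ.hU.mem_nhds hz] with y hy using h y hy
  rw [pdi, pdi, this.fderiv_eq]

lemma Sy.congr {n : ℕ} {w c d : E3 → ℝ} (h : Sy Γ n w c) (hcd : ∀ z ∈ Γ.U, c z = d z) :
    Sy Γ n w d := by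
  induction n generalizing w c d with
  | zero =>
    refine ⟨h.smooth.congr fun z hz => (hcd z hz).symm, ?_⟩
    obtain ⟨C, hC, hb⟩ := h.bd
    exact ⟨C, hC, fun z hz => by rw [← hcd z (Γ.sub hz)]; exact hb z hz⟩
  | succ n ih =>
    refine ⟨⟨h.smooth.congr fun z hz => (hcd z hz).symm, ?_⟩, fun i => ?_⟩
    · obtain ⟨C, hC, hb⟩ := h.bd
      exact ⟨C, hC, fun z hz => by rw [← hcd z (Γ.sub hz)]; exact hb z hz⟩
    · exact ih (h.2 i) (pdi_congr hcd i)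

lemma Sy.mono {n : ℕ} {w w' c : E3 → ℝ} (h : Sy Γ n w c) {K : ℝ} (hK : 0 ≤ K)
    (hw : ∀ z ∈ Γ.Dm, w z ≤ K * w' z) : Sy Γ n w' c := by
  induction n generalizing w w' c with
  | zero =>
    obtain ⟨C, hC, hb⟩ := h.bd
    refine ⟨h.smooth, C * K, mul_nonneg hC hK, fun z hz => (hb z hz).trans ?_⟩
    rw [mul_assoc]
    exact mul_le_mul_of_nonneg_left (hw z hz) hC
  | succ n ih =>
    refine ⟨?_, fun i => ?_⟩
    · obtain ⟨C, hC, hb⟩ := h.bd
      refine ⟨h.smooth, C * K, mul_nonneg hC hK, fun z hz => (hb z hz).trans ?_⟩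
      rw [mul_assoc]
      exact mul_le_mul_of_nonneg_left (hw z hz) hC
    · refine ih (h.2 i) (fun z hz => ?_)
      have := Γ.wt_pos i z hz
      rw [← mul_div_assoc]
      exact div_le_div_of_nonneg_right (hw z hz) this.le

lemma Sy.of_le {m n : ℕ} {w c : E3 → ℝ} (h : Sy Γ n w c) (hmn : m ≤ n) : Sy Γ m w c := by
  induction m generalizing n w c with
  | zero => exact h.zero'
  | succ m ih =>
    obtain ⟨n, rfl⟩ : ∃ k, n = k + 1 := ⟨n - 1, by omega⟩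
    exact ⟨h.zero', fun i => ih (h.2 i) (by omega)⟩

/-- equal weights on `Dm`. -/
lemma Sy.weq {n : ℕ} {w w' c : E3 → ℝ} (h : Sy Γ n w c) (hw : ∀ z ∈ Γ.Dm, w z = w' z) :
    Sy Γ n w' c :=
  h.mono (K := 1) zero_le_one fun z hz => by rw [hw z hz, one_mul]

lemma Sy0.add {w c d : E3 → ℝ} (h : Sy0 Γ w c) (g : Sy0 Γ w d) :
    Sy0 Γ w (fun z => c z + d z) := by
  obtain ⟨C, hC, hb⟩ := h.2
  obtain ⟨C', hC', hb'⟩ := g.2
  refine ⟨h.1.add g.1, C + C', add_nonneg hC hC', fun z hz => ?_⟩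
  rw [add_mul]
  exact (abs_add_le _ _).trans (add_le_add (hb z hz) (hb' z hz))

lemma Sy.add {n : ℕ} {w c d : E3 → ℝ} (h : Sy Γ n w c) (g : Sy Γ n w d) :
    Sy Γ n w (fun z => c z + d z) := by
  induction n generalizing w c d with
  | zero => exact Sy0.add h g
  | succ n ih =>
    refine ⟨Sy0.add h.1 g.1, fun i => ?_⟩
    refine (ih (h.2 i) (g.2 i)).congr fun z hz => ?_
    have h1 := h.diffAt hz
    have h2 := g.diffAt hz
    show fderiv ℝ c z (bv i) + fderiv ℝ d z (bv i) = fderiv ℝ (fun z => c z + d z) z (bv i)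
    rw [fderiv_fun_add h1 h2]
    rfl

lemma Sy0.mul {w w' c d : E3 → ℝ} (h : Sy0 Γ w c) (g : Sy0 Γ w' d) (hw : ∀ z ∈ Γ.Dm, 0 ≤ w z) :
    Sy0 Γ (fun z => w z * w' z) (fun z => c z * d z) := by
  obtain ⟨C, hC, hb⟩ := h.2
  obtain ⟨C', hC', hb'⟩ := g.2
  refine ⟨h.1.mul g.1, C * C', mul_nonneg hC hC', fun z hz => ?_⟩
  rw [abs_mul]
  refine (mul_le_mul (hb z hz) (hb' z hz) (abs_nonneg _) (mul_nonneg hC (hw z hz))).trans
    (le_of_eq ?_)
  ring

lemma Sy.mul {n : ℕ} {w w' c d : E3 → ℝ} (h : Sy Γ n w c) (g : Sy Γ n w' d)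
    (hw : ∀ z ∈ Γ.Dm, 0 ≤ w z) : Sy Γ n (fun z => w z * w' z) (fun z => c z * d z) := by
  induction n generalizing w w' c d with
  | zero => exact Sy0.mul h g hw
  | succ n ih =>
    refine ⟨Sy0.mul h.1 g.1 hw, fun i => ?_⟩
    have hw1 : ∀ z ∈ Γ.Dm, 0 ≤ w z / Γ.wt i z := fun z hz =>
      div_nonneg (hw z hz) (Γ.wt_pos i z hz).le
    have a1 := ih (h.2 i) (g.of_le (Nat.le_succ n)) hw1
    have a2 := ih (h.of_le (Nat.le_succ n)) (g.2 i) hw
    have a1' := a1.weq (w' := fun z => w z * w' z / Γ.wt i z) fun z hz => by ring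
    have a2' := a2.weq (w' := fun z => w z * w' z / Γ.wt i z) fun z hz => by ring
    refine (a2'.add a1').congr fun z hz => ?_
    have h1 := h.diffAt hz
    have h2 := g.diffAt hz
    show c z * fderiv ℝ d z (bv i) + fderiv ℝ c z (bv i) * d z =
      fderiv ℝ (fun z => c z * d z) z (bv i)
    rw [fderiv_fun_mul h1 h2]
    simp only [_root_.add_apply, _root_.smul_apply, smul_eq_mul]
    ring

lemma pdi_const (i : Fin 3) (a : ℝ) (z : E3) : pdi i (fun _ => a) z = 0 := by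
  rw [pdi, fderiv_fun_const]; rfl

lemma Sy.zero_fun (n : ℕ) {w : E3 → ℝ} (hw : ∀ z ∈ Γ.Dm, 0 ≤ w z) : Sy Γ n w (fun _ => 0) := by
  induction n generalizing w with
  | zero => exact ⟨contDiffOn_const, 0, le_rfl, fun z hz => by simp⟩
  | succ n ih =>
    refine ⟨⟨contDiffOn_const, 0, le_rfl, fun z hz => by simp⟩, fun i => ?_⟩
    have := ih (w := fun z => w z / Γ.wt i z) fun z hz => div_nonneg (hw z hz) (Γ.wt_pos i z hz).le
    exact this.congr fun z hz => (pdi_const i 0 z).symm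

lemma Sy.const (n : ℕ) (a : ℝ) : Sy Γ n (fun _ => 1) (fun _ => a) := by
  cases n with
  | zero => exact ⟨contDiffOn_const, |a|, abs_nonneg a, fun z hz => by simp⟩
  | succ n =>
    refine ⟨⟨contDiffOn_const, |a|, abs_nonneg a, fun z hz => by simp⟩, fun i => ?_⟩
    have := Sy.zero_fun (Γ := Γ) n (w := fun z => 1 / Γ.wt i z)
      fun z hz => div_nonneg zero_le_one (Γ.wt_pos i z hz).le
    exact this.congr fun z hz => (pdi_const i a z).symm

lemma Sy.smul {n : ℕ} {w c : E3 → ℝ} (a : ℝ) (h : Sy Γ n w c) :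
    Sy Γ n w (fun z => a * c z) := by
  have := (Sy.const (Γ := Γ) n a).mul h fun z hz => zero_le_one
  exact this.weq fun z hz => by ring

lemma Sy.neg {n : ℕ} {w c : E3 → ℝ} (h : Sy Γ n w c) : Sy Γ n w (fun z => - c z) :=
  (h.smul (-1)).congr fun z hz => by ring

lemma Sy.sub {n : ℕ} {w c d : E3 → ℝ} (h : Sy Γ n w c) (g : Sy Γ n w d) :
    Sy Γ n w (fun z => c z - d z) :=
  (h.add g.neg).congr fun z hz => by ring

/-- inverse. -/
lemma Sy.inv {n : ℕ} {w c : E3 → ℝ} (h : Sy Γ n w c) (hw : ∀ z ∈ Γ.Dm, 0 < w z)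
    (hc : ∀ z ∈ Γ.U, 0 < c z) {ε : ℝ} (hε : 0 < ε) (hlow : ∀ z ∈ Γ.Dm, ε * w z ≤ c z) :
    Sy Γ n (fun z => (w z)⁻¹) (fun z => (c z)⁻¹) := by
  induction n with
  | zero =>
    refine ⟨h.smooth.inv fun z hz => (hc z hz).ne', ε⁻¹, by positivity, fun z hz => ?_⟩
    have h1 := hw z hz
    have h2 := hc z (Γ.sub hz)
    rw [abs_of_pos (inv_pos.2 h2), ← mul_inv]
    exact inv_anti₀ (mul_pos hε h1) (hlow z hz)
  | succ n ih =>
    refine ⟨⟨h.smooth.inv fun z hz => (hc z hz).ne', ε⁻¹, by positivity, fun z hz => ?_⟩,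
      fun i => ?_⟩
    · have h1 := hw z hz
      have h2 := hc z (Γ.sub hz)
      rw [abs_of_pos (inv_pos.2 h2), ← mul_inv]
      exact inv_anti₀ (mul_pos hε h1) (hlow z hz)
    · have a := ih (h.of_le (Nat.le_succ n))
      have hwi : ∀ z ∈ Γ.Dm, 0 ≤ (w z)⁻¹ := fun z hz => (inv_pos.2 (hw z hz)).le
      have b := ((a.mul a hwi).mul (h.2 i) fun z hz => mul_nonneg (hwi z hz) (hwi z hz)).neg
      refine (b.weq (w' := fun z => (w z)⁻¹ / Γ.wt i z) fun z hz => ?_).congr fun z hz => ?_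
      · have := (hw z hz).ne'
        have := (Γ.wt_pos i z hz).ne'
        field_simp
      · have h1 := h.diffAt hz
        have h2 : HasFDerivAt (fun z => (c z)⁻¹) (-((c z) ^ 2)⁻¹ • fderiv ℝ c z) z := by
          have := (hasDerivAt_inv (hc z hz).ne').comp_hasFDerivAt z h1.hasFDerivAt
          exact this
        rw [pdi, pdi, h2.fderiv]
        simp only [_root_.smul_apply, smul_eq_mul]
        have := (hc z hz).ne'
        field_simp

/-- square root. -/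
lemma Sy.sqrt {n : ℕ} {w c : E3 → ℝ} (h : Sy Γ n w c) (hw : ∀ z ∈ Γ.Dm, 0 < w z)
    (hc : ∀ z ∈ Γ.U, 0 < c z) {ε : ℝ} (hε : 0 < ε) (hlow : ∀ z ∈ Γ.Dm, ε * w z ≤ c z) :
    Sy Γ n (fun z => √(w z)) (fun z => √(c z)) := by
  have h0 : Sy0 Γ (fun z => √(w z)) (fun z => √(c z)) := by
    obtain ⟨C, hC, hb⟩ := h.bd
    refine ⟨h.smooth.sqrt fun z hz => (hc z hz).ne', √C, Real.sqrt_nonneg _, fun z hz => ?_⟩
    rw [abs_of_nonneg (Real.sqrt_nonneg _), ← Real.sqrt_mul hC]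
    exact Real.sqrt_le_sqrt ((le_abs_self _).trans (hb z hz))
  induction n with
  | zero => exact h0
  | succ n ih =>
    refine ⟨h0, fun i => ?_⟩
    have a := ih (h.of_le (Nat.le_succ n))
    have b := a.inv (fun z hz => Real.sqrt_pos.2 (hw z hz)) (fun z hz => Real.sqrt_pos.2 (hc z hz))
      (ε := √ε) (Real.sqrt_pos.2 hε) fun z hz => by
        rw [← Real.sqrt_mul hε.le]
        exact Real.sqrt_le_sqrt (hlow z hz)
    have d := (b.mul (h.2 i) fun z hz => (inv_pos.2 (Real.sqrt_pos.2 (hw z hz))).le).smul (1 / 2)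
    refine (d.weq (w' := fun z => √(w z) / Γ.wt i z) fun z hz => ?_).congr fun z hz => ?_
    · have h1 := (hw z hz)
      have h2 := (Real.sqrt_pos.2 h1).ne'
      have h3 := (Γ.wt_pos i z hz).ne'
      have h4 := Real.mul_self_sqrt h1.le
      field_simp
      nlinarith
    · have h1 := h.diffAt hz
      have h2 := h1.hasFDerivAt.sqrt (hc z hz).ne'
      rw [pdi, pdi, h2.fderiv]
      simp only [_root_.smul_apply, smul_eq_mul]
      have := (Real.sqrt_pos.2 (hc z hz)).ne'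
      field_simp

end Crest.Agent.R249.Sym467
end
end

-- ▼ part R249/Sym2_467

/-!
# R249 (helper467), A2-ETA part 7: the weights on the region `k = 1 - g₁ η² + g₂ η⁴ - m ≥ 0`

`Pm` : the parameters `g₁, g₂`; `Reg γ` : the region in `(η, m, G)`; `om`, `ss` : the basic weights;
`wm a b c e = m^a √ω^b √(m²+G)^c √(1+G)^e`; `wm_dom` : domination by three integer inequalities;
`geo γ R` : the geometry, atoms `sy_eta`, `sy_m`, `sy_k`, `sy_G`.
-/

set_option autoImplicit false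
set_option linter.unusedVariables false
set_option linter.unusedSectionVars false

open MeasureTheory Set Filter Topology Matrix
open scoped ContDiff

noncomputable section

namespace Crest.Agent.R249.Sym467

open DivC467 Eta467

/-- the parameters of the obstacle curve. -/
structure Pm where
  g1 : ℝ
  g2 : ℝ
  h1 : 0 < g1
  h2 : g1 ≤ 1 / 4
  h3 : 0 ≤ g2
  h4 : 8 * g2 ≤ g1

/-- `k = 1 - g₁ η² + g₂ η⁴ - m`. -/
def kf (γ : Pm) (z : E3) : ℝ := 1 - γ.g1 * z.1 ^ 2 + γ.g2 * z.1 ^ 4 - z.2.1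

/-- the region (scaled unknowns `0 ≤ u, v ≤ 10/7`). -/
structure InReg (γ : Pm) (z : E3) : Prop where
  m0 : 0 < z.2.1
  em : |z.1| ≤ 2 * z.2.1
  bx : z.2.1 + |z.1| / 2 ≤ 10 / 7
  k0 : 0 ≤ kf γ z
  G0 : 0 ≤ z.2.2
  ns : 0 < z.1 ^ 2 + kf γ z + z.2.2

/-- the region. -/
def Reg (γ : Pm) : Set E3 := {z | InReg γ z}

/-- `ω`, the distance to `(1, 1)` with zero gradient. -/
def om (γ : Pm) (z : E3) : ℝ := (z.1 ^ 2 + kf γ z + z.2.2) / (1 + z.2.2)

/-- `m² + G`. -/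
def ss (z : E3) : ℝ := z.2.1 ^ 2 + z.2.2

section ineq

variable {γ : Pm} {z : E3} (hz : z ∈ Reg γ)

include hz

lemma eta_sq_le : z.1 ^ 2 ≤ 4 := by
  have h1 := hz.em
  have h2 := hz.bx
  have h3 := abs_nonneg z.1
  rw [← sq_abs]
  nlinarith

lemma kf_le : kf γ z ≤ 1 - γ.g1 / 2 * z.1 ^ 2 - z.2.1 := by
  have h1 := eta_sq_le hz
  have h2 := γ.h1
  have h3 := γ.h3
  have h4 := γ.h4
  have h5 : γ.g2 * z.1 ^ 2 ≤ γ.g1 / 2 := by nlinarith
  have h6 : γ.g2 * z.1 ^ 4 ≤ γ.g1 / 2 * z.1 ^ 2 := by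
    have : γ.g2 * z.1 ^ 4 = γ.g2 * z.1 ^ 2 * z.1 ^ 2 := by ring
    rw [this]
    exact mul_le_mul_of_nonneg_right h5 (sq_nonneg _)
  unfold kf
  linarith

lemma m_le : z.2.1 ≤ 1 := by
  have h1 := kf_le hz
  have h2 := hz.k0
  have h3 := γ.h1
  nlinarith [sq_nonneg z.1]

lemma gg_pos : 0 < 1 + z.2.2 := by
  have := hz.G0
  linarith

lemma om_pos : 0 < om γ z := div_pos hz.ns (gg_pos hz)

lemma ss_pos : 0 < ss z := by
  have := hz.m0
  have := hz.G0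
  unfold ss
  positivity

lemma eta_sq_le_m : z.1 ^ 2 ≤ 4 * z.2.1 ^ 2 := by
  have := abs_le.1 hz.em
  nlinarith

lemma kf_le_one : kf γ z ≤ 1 := by
  have h1 := kf_le hz
  have h2 := hz.m0
  have h3 := γ.h1
  nlinarith [sq_nonneg z.1]

/-- `1 - m ≤ k + g₁ η²`, `k + g₁/2 η² ≤ 1 - m`. -/
lemma n_ge : kf γ z + γ.g1 / 2 * z.1 ^ 2 ≤ 1 - z.2.1 := by
  have h1 := kf_le hz
  linarith

lemma om_le : om γ z ≤ 5 := by
  rw [om, div_le_iff₀ (gg_pos hz)]
  have h1 := eta_sq_le hz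
  have h2 := kf_le_one hz
  have h4 := hz.G0
  linarith

lemma k_le_om : kf γ z ≤ om γ z := by
  rw [om, le_div_iff₀ (gg_pos hz)]
  have h2 := kf_le_one hz
  have h4 := hz.G0
  nlinarith [sq_nonneg z.1]

lemma eta_le_om : z.1 ^ 2 / 4 ≤ om γ z := by
  rw [om, le_div_iff₀ (gg_pos hz)]
  have h1 := eta_sq_le hz
  have h3 := hz.k0
  have h4 := hz.G0
  nlinarith [sq_nonneg z.1]

lemma k_ge_of_small (hm : z.2.1 < 1 / 4) : 1 / 2 ≤ kf γ z := by
  have h1 := eta_sq_le_m hz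
  have h0 := hz.m0
  have h2 := γ.h1
  have h3 := γ.h2
  have h4 := γ.h3
  have h5 : z.1 ^ 2 ≤ 1 / 4 := by nlinarith
  have h6 : 0 ≤ γ.g2 * z.1 ^ 4 := by positivity
  have h7 : γ.g1 * z.1 ^ 2 ≤ 1 / 4 * (1 / 4) := mul_le_mul h3 h5 (sq_nonneg _) (by norm_num)
  unfold kf
  linarith

lemma om_ge_of_small (hm : z.2.1 < 1 / 4) : 1 / 2 ≤ om γ z := by
  rw [om, le_div_iff₀ (gg_pos hz)]
  have h1 := k_ge_of_small hz hm
  have h4 := hz.G0
  nlinarith [sq_nonneg z.1]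

/-- `η² ≤ 64 m² ω`. -/
lemma eta_sq_le_wt : z.1 ^ 2 ≤ 64 * (z.2.1 ^ 2 * om γ z) := by
  have h0 := hz.m0
  have ho := om_pos hz
  rcases lt_or_ge z.2.1 (1 / 4) with hm | hm
  · have h1 := om_ge_of_small hz hm
    have h2 := eta_sq_le_m hz
    have h3 : z.2.1 ^ 2 * (1 / 2) ≤ z.2.1 ^ 2 * om γ z := mul_le_mul_of_nonneg_left h1 (sq_nonneg _)
    nlinarith [sq_nonneg z.2.1]
  · have h1 := eta_le_om hz
    have h2 : (1 / 16 : ℝ) ≤ z.2.1 ^ 2 := by nlinarith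
    have h3 : 1 / 16 * (z.1 ^ 2 / 4) ≤ z.2.1 ^ 2 * om γ z :=
      mul_le_mul h2 h1 (by positivity) (sq_nonneg _)
    linarith

/-- `G ≤ 16 ω (m² + G)`. -/
lemma G_le_wt : z.2.2 ≤ 16 * (om γ z * ss z) := by
  have h0 := hz.m0
  have h4 := hz.G0
  have ho := om_pos hz
  rcases lt_or_ge z.2.1 (1 / 4) with hm | hm
  · have h1 := om_ge_of_small hz hm
    have h2 : z.2.2 ≤ ss z := by unfold ss; nlinarith
    have h3 : 1 / 2 * z.2.2 ≤ om γ z * ss z := mul_le_mul h1 h2 h4 ho.le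
    linarith
  · have hg := gg_pos hz
    have h1 : z.2.2 / (1 + z.2.2) ≤ om γ z := by
      rw [om]
      apply div_le_div_of_nonneg_right _ hg.le
      have := hz.k0
      nlinarith [sq_nonneg z.1]
    have h2 : 1 / 16 * (1 + z.2.2) ≤ ss z := by unfold ss; nlinarith
    have h3 : z.2.2 / (1 + z.2.2) * (1 / 16 * (1 + z.2.2)) ≤ om γ z * ss z :=
      mul_le_mul h1 h2 (by positivity) ho.le
    have h5 : z.2.2 / (1 + z.2.2) * (1 / 16 * (1 + z.2.2)) = z.2.2 / 16 := by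
      field_simp
    linarith

/-- `ω (m² + G) ≤ (η² + k) m² + 6 G`. -/
lemma wt_le : om γ z * ss z ≤ (z.1 ^ 2 + kf γ z) * z.2.1 ^ 2 + 6 * z.2.2 := by
  have hg := gg_pos hz
  have h1 := eta_sq_le hz
  have h2 := kf_le_one hz
  have h3 := hz.k0
  have h4 := hz.G0
  have hm := m_le hz
  have h0 := hz.m0
  rw [om, ss, div_mul_eq_mul_div, div_le_iff₀ hg]
  have hm2 : z.2.1 ^ 2 ≤ 1 := by nlinarith
  have a : 0 ≤ z.1 ^ 2 + kf γ z := by positivity
  have b : z.1 ^ 2 + kf γ z ≤ 5 := by linarith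
  have e1 : (z.1 ^ 2 + kf γ z) * z.2.2 ≤ 5 * z.2.2 := mul_le_mul_of_nonneg_right b h4
  have e2 : z.2.2 * z.2.1 ^ 2 ≤ z.2.2 := by nlinarith
  have e3 : 0 ≤ (z.1 ^ 2 + kf γ z) * z.2.1 ^ 2 * z.2.2 := by positivity
  nlinarith [sq_nonneg z.2.2]

lemma ss_le_gg : ss z ≤ 1 + z.2.2 := by
  have hm := m_le hz
  have h0 := hz.m0
  unfold ss
  nlinarith

lemma m_gg_le_ss : z.2.1 ^ 2 * (1 + z.2.2) ≤ ss z := by
  have hm := m_le hz
  have h0 := hz.m0
  have h4 := hz.G0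
  have hm2 : z.2.1 ^ 2 ≤ 1 := by nlinarith
  unfold ss
  nlinarith

end ineq

/-! ### monomial weights -/

/-- monomial weights. -/
def wm (γ : Pm) (a b c e : ℤ) (z : E3) : ℝ :=
  z.2.1 ^ a * √(om γ z) ^ b * √(ss z) ^ c * √(1 + z.2.2) ^ e

section wm

variable {γ : Pm} {z : E3} (hz : z ∈ Reg γ)

include hz

lemma wm_pos (a b c e : ℤ) : 0 < wm γ a b c e z := by
  have h1 := hz.m0
  have h2 := Real.sqrt_pos.2 (om_pos hz)
  have h3 := Real.sqrt_pos.2 (ss_pos hz)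
  have h4 := Real.sqrt_pos.2 (gg_pos hz)
  unfold wm
  positivity

lemma wm_mul (a b c e a' b' c' e' : ℤ) :
    wm γ a b c e z * wm γ a' b' c' e' z = wm γ (a + a') (b + b') (c + c') (e + e') z := by
  have h1 := hz.m0.ne'
  have h2 := (Real.sqrt_pos.2 (om_pos hz)).ne'
  have h3 := (Real.sqrt_pos.2 (ss_pos hz)).ne'
  have h4 := (Real.sqrt_pos.2 (gg_pos hz)).ne'
  unfold wm
  rw [zpow_add₀ h1, zpow_add₀ h2, zpow_add₀ h3, zpow_add₀ h4]
  ring

lemma wm_div (a b c e a' b' c' e' : ℤ) :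
    wm γ a b c e z / wm γ a' b' c' e' z = wm γ (a - a') (b - b') (c - c') (e - e') z := by
  rw [div_eq_iff (wm_pos hz _ _ _ _).ne', wm_mul hz]
  congr 1 <;> ring

lemma wm_inv (a b c e : ℤ) : (wm γ a b c e z)⁻¹ = wm γ (-a) (-b) (-c) (-e) z := by
  rw [inv_eq_one_div, div_eq_iff (wm_pos hz _ _ _ _).ne', wm_mul hz]
  simp [wm]


/-- boundedness. -/
lemma wm_le (a b c e : ℤ) (hb : 0 ≤ b) (h1 : c + e ≤ 0) (h2 : 0 ≤ a + min 0 c) :
    wm γ a b c e z ≤ 3 ^ b.toNat := by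
  have hm0 := hz.m0
  have hm1 := m_le hz
  have ho := Real.sqrt_pos.2 (om_pos hz)
  have hs := Real.sqrt_pos.2 (ss_pos hz)
  have hg := Real.sqrt_pos.2 (gg_pos hz)
  have hg1 : 1 ≤ √(1 + z.2.2) := by
    rw [Real.one_le_sqrt]; have := hz.G0; linarith
  have ho3 : √(om γ z) ≤ 3 := by
    rw [Real.sqrt_le_left (by norm_num)]
    have := om_le hz
    linarith
  have e1 : √(om γ z) ^ b ≤ 3 ^ b.toNat := by
    obtain ⟨n, rfl⟩ := Int.eq_ofNat_of_zero_le hb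
    simp only [Int.toNat_natCast, zpow_natCast]
    exact pow_le_pow_left₀ ho.le ho3 n
  have key : z.2.1 ^ a * √(ss z) ^ c * √(1 + z.2.2) ^ e ≤ 1 := by
    rcases le_or_gt 0 c with hc | hc
    · rw [min_eq_left hc, add_zero] at h2
      have k1 : z.2.1 ^ a ≤ 1 := by
        obtain ⟨n, rfl⟩ := Int.eq_ofNat_of_zero_le h2
        rw [zpow_natCast]; exact pow_le_one₀ hm0.le hm1
      have k2 : √(ss z) ^ c ≤ √(1 + z.2.2) ^ c := by
        obtain ⟨n, rfl⟩ := Int.eq_ofNat_of_zero_le hc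
        rw [zpow_natCast, zpow_natCast]
        exact pow_le_pow_left₀ hs.le (Real.sqrt_le_sqrt (ss_le_gg hz)) n
      have k3 : √(1 + z.2.2) ^ c * √(1 + z.2.2) ^ e ≤ 1 := by
        rw [← zpow_add₀ hg.ne']
        exact zpow_le_one_of_nonpos₀ hg1 h1
      calc z.2.1 ^ a * √(ss z) ^ c * √(1 + z.2.2) ^ e
          = z.2.1 ^ a * (√(ss z) ^ c * √(1 + z.2.2) ^ e) := by ring
        _ ≤ 1 * (√(1 + z.2.2) ^ c * √(1 + z.2.2) ^ e) := by
            apply mul_le_mul k1 _ (by positivity) zero_le_one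
            exact mul_le_mul_of_nonneg_right k2 (by positivity)
        _ ≤ 1 := by rw [one_mul]; exact k3
    · rw [min_eq_right hc.le] at h2
      obtain ⟨n, hn⟩ := Int.eq_ofNat_of_zero_le (show 0 ≤ -c by omega)
      have hc' : c = -(n : ℤ) := by omega
      subst hc'
      have k2 : √(ss z) ^ (-(n : ℤ)) ≤ (z.2.1 * √(1 + z.2.2)) ^ (-(n : ℤ)) := by
        rw [_root_.zpow_neg, _root_.zpow_neg, zpow_natCast, zpow_natCast]
        apply inv_anti₀ (by positivity)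
        apply pow_le_pow_left₀ (by positivity)
        rw [Real.le_sqrt (by positivity) (ss_pos hz).le, mul_pow, Real.sq_sqrt (gg_pos hz).le]
        exact m_gg_le_ss hz
      have k3 : √(1 + z.2.2) ^ (-(n : ℤ)) * √(1 + z.2.2) ^ e ≤ 1 := by
        rw [← zpow_add₀ hg.ne']
        exact zpow_le_one_of_nonpos₀ hg1 h1
      have k1 : z.2.1 ^ a * z.2.1 ^ (-(n : ℤ)) ≤ 1 := by
        rw [← zpow_add₀ hm0.ne']
        obtain ⟨l, hl⟩ := Int.eq_ofNat_of_zero_le h2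
        rw [hl, zpow_natCast]; exact pow_le_one₀ hm0.le hm1
      calc z.2.1 ^ a * √(ss z) ^ (-(n : ℤ)) * √(1 + z.2.2) ^ e
          ≤ z.2.1 ^ a * (z.2.1 * √(1 + z.2.2)) ^ (-(n : ℤ)) * √(1 + z.2.2) ^ e := by
            apply mul_le_mul_of_nonneg_right _ (by positivity)
            exact mul_le_mul_of_nonneg_left k2 (by positivity)
        _ = (z.2.1 ^ a * z.2.1 ^ (-(n : ℤ))) *
              (√(1 + z.2.2) ^ (-(n : ℤ)) * √(1 + z.2.2) ^ e) := by
            rw [mul_zpow]; ring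
        _ ≤ 1 * 1 := mul_le_mul k1 k3 (by positivity) zero_le_one
        _ = 1 := one_mul 1
  calc wm γ a b c e z = √(om γ z) ^ b * (z.2.1 ^ a * √(ss z) ^ c * √(1 + z.2.2) ^ e) := by
        unfold wm; ring
    _ ≤ 3 ^ b.toNat * 1 := mul_le_mul e1 key (by positivity) (by positivity)
    _ = _ := mul_one _

/-- **domination.** -/
lemma wm_dom {a b c e a' b' c' e' : ℤ} (hb : b' ≤ b) (h1 : c + e ≤ c' + e')
    (h2 : 0 ≤ a - a' + min 0 (c - c')) :
    wm γ a b c e z ≤ 3 ^ (b - b').toNat * wm γ a' b' c' e' z := by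
  have h3 := wm_le hz (a - a') (b - b') (c - c') (e - e') (by omega) (by omega) h2
  have h4 := wm_div hz a b c e a' b' c' e'
  rw [← h4, div_le_iff₀ (wm_pos hz _ _ _ _)] at h3
  exact h3

end wm

end Crest.Agent.R249.Sym467
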