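import Crest.Agent.R249.Sym2_467

-- ▼ part R249/Sym3_467
section

/-!
# R249 (helper467), A2-ETA part 8: the atoms of the symbol class

`geo γ R` : open set `{m > 0, G > -1, R > 0}`, domain `Reg γ`;
`SY n a b c e f` : `f` is a symbol of weight `m^a √ω^b √(m²+G)^c √(1+G)^e` (order `n`).
Atoms: `η (1,1,0,0)`, `m (1,0,0,0)`, `m⁻¹ (-1,0,0,0)`, `k (0,2,0,0)`, `1 - m (0,2,0,0)`, `G (0,2,2,0)`,
`√R (0,1,1,0)`, `1/√R (0,-1,-1,0)` if `R ≥ ε ω (m²+G)`.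
-/

set_option autoImplicit false
set_option linter.unusedVariables false
set_option linter.unusedSectionVars false

open MeasureTheory Set Filter Topology Matrix
open scoped ContDiff

noncomputable section

namespace Crest.Agent.R249.Sym467

open DivC467 Eta467

/-- a radicand. -/
structure Rd (γ : Pm) where
  R : E3 → ℝ
  smooth : ContDiff ℝ ∞ R
  pos : ∀ z ∈ Reg γ, 0 < R z

variable {γ : Pm}

/-- the geometry. -/
def geo (ρ : Rd γ) : Geo where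
  U := {z | 0 < z.2.1 ∧ 0 < 1 + z.2.2 ∧ 0 < ρ.R z}
  Dm := Reg γ
  wt := ![wm γ 1 1 0 0, wm γ 1 2 0 0, wm γ 0 2 2 0]
  hU := by
    have h1 : IsOpen {z : E3 | 0 < z.2.1} := isOpen_lt continuous_const (by fun_prop)
    have h2 : IsOpen {z : E3 | 0 < 1 + z.2.2} := isOpen_lt continuous_const (by fun_prop)
    have h3 : IsOpen {z : E3 | 0 < ρ.R z} := isOpen_lt continuous_const ρ.smooth.continuous
    exact h1.inter (h2.inter h3)
  sub := fun z hz => ⟨hz.m0, gg_pos hz, ρ.pos z hz⟩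
  wt_pos := fun i z hz => by
    fin_cases i <;> exact wm_pos hz _ _ _ _

/-- symbols of monomial weight. -/
def SY (ρ : Rd γ) (n : ℕ) (a b c e : ℤ) (f : E3 → ℝ) : Prop := Sy (geo ρ) n (wm γ a b c e) f

variable {ρ : Rd γ} {n : ℕ} {a b c e a' b' c' e' : ℤ} {f g : E3 → ℝ}


lemma SY.congr (h : SY ρ n a b c e f) (hfg : ∀ z ∈ (geo ρ).U, f z = g z) : SY ρ n a b c e g :=
  Sy.congr h hfg

lemma SY.congr' (h : SY ρ n a b c e f) (hfg : ∀ z, f z = g z) : SY ρ n a b c e g :=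
  Sy.congr h fun z _ => hfg z

lemma SY.add (h : SY ρ n a b c e f) (h' : SY ρ n a b c e g) :
    SY ρ n a b c e (fun z => f z + g z) := Sy.add h h'

lemma SY.sub (h : SY ρ n a b c e f) (h' : SY ρ n a b c e g) :
    SY ρ n a b c e (fun z => f z - g z) := Sy.sub h h'

lemma SY.neg (h : SY ρ n a b c e f) : SY ρ n a b c e (fun z => - f z) := Sy.neg h

lemma SY.smul (t : ℝ) (h : SY ρ n a b c e f) : SY ρ n a b c e (fun z => t * f z) := Sy.smul t h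

lemma SY.mul (h : SY ρ n a b c e f) (h' : SY ρ n a' b' c' e' g) :
    SY ρ n (a + a') (b + b') (c + c') (e + e') (fun z => f z * g z) :=
  (Sy.mul h h' fun z hz => (wm_pos hz _ _ _ _).le).weq fun z hz => wm_mul hz _ _ _ _ _ _ _ _

/-- domination. -/
lemma SY.dom (h : SY ρ n a b c e f) (hb : b' ≤ b) (h1 : c + e ≤ c' + e')
    (h2 : 0 ≤ a - a' + min 0 (c - c')) : SY ρ n a' b' c' e' f :=
  Sy.mono h (K := 3 ^ (b - b').toNat) (by positivity) fun z hz => wm_dom hz hb h1 h2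

lemma SY.cast (h : SY ρ n a b c e f) (ha : a = a') (hb : b = b') (hc : c = c') (he : e = e') :
    SY ρ n a' b' c' e' f := by
  subst ha hb hc he; exact h

lemma wm_zero {z : E3} : wm γ 0 0 0 0 z = 1 := by simp [wm]

lemma SY.const (t : ℝ) : SY ρ n 0 0 0 0 (fun _ => t) :=
  (Sy.const (Γ := geo ρ) n t).weq fun z _ => wm_zero.symm

lemma SY.zero : SY ρ n a b c e (fun _ => 0) :=
  Sy.zero_fun n fun z hz => (wm_pos hz _ _ _ _).le

/-- recursion for atoms. -/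
lemma SY.succ (h0 : ContDiff ℝ ∞ f) {C : ℝ} (hC : 0 ≤ C) (hb : ∀ z ∈ Reg γ, |f z| ≤ C * wm γ a b c e z)
    (h1 : SY ρ n (a - 1) (b - 1) c e (pdi 0 f)) (h2 : SY ρ n (a - 1) (b - 2) c e (pdi 1 f))
    (h3 : SY ρ n a (b - 2) (c - 2) e (pdi 2 f)) : SY ρ (n + 1) a b c e f := by
  refine ⟨⟨h0.contDiffOn, C, hC, hb⟩, fun i => ?_⟩
  fin_cases i
  · exact (Sy.weq h1 fun z hz => ((wm_div hz a b c e 1 1 0 0).trans (by simp)).symm)
  · exact (Sy.weq h2 fun z hz => ((wm_div hz a b c e 1 2 0 0).trans (by simp)).symm)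
  · exact (Sy.weq h3 fun z hz => ((wm_div hz a b c e 0 2 2 0).trans (by simp)).symm)

lemma SY.all {f : E3 → ℝ} (h0 : ContDiff ℝ ∞ f) {C : ℝ} (hC : 0 ≤ C)
    (hb : ∀ z ∈ Reg γ, |f z| ≤ C * wm γ a b c e z)
    (h1 : ∀ n, SY ρ n (a - 1) (b - 1) c e (pdi 0 f)) (h2 : ∀ n, SY ρ n (a - 1) (b - 2) c e (pdi 1 f))
    (h3 : ∀ n, SY ρ n a (b - 2) (c - 2) e (pdi 2 f)) (n : ℕ) : SY ρ n a b c e f := by
  cases n with
  | zero => exact ⟨h0.contDiffOn, C, hC, hb⟩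
  | succ n => exact SY.succ h0 hC hb (h1 n) (h2 n) (h3 n)

/-! ### the atoms -/

lemma fderiv_fst (z v : E3) : fderiv ℝ (fun z : E3 => z.1) z v = v.1 := by
  have : fderiv ℝ (fun z : E3 => z.1) z = ContinuousLinearMap.fst ℝ ℝ (ℝ × ℝ) :=
    (ContinuousLinearMap.fst ℝ ℝ (ℝ × ℝ)).fderiv
  rw [this]; rfl

lemma fderiv_snd1 (z v : E3) : fderiv ℝ (fun z : E3 => z.2.1) z v = v.2.1 := by
  have : fderiv ℝ (fun z : E3 => z.2.1) z =
      (ContinuousLinearMap.fst ℝ ℝ ℝ).comp (ContinuousLinearMap.snd ℝ ℝ (ℝ × ℝ)) :=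
    ((ContinuousLinearMap.fst ℝ ℝ ℝ).comp (ContinuousLinearMap.snd ℝ ℝ (ℝ × ℝ))).fderiv
  rw [this]; rfl

lemma fderiv_snd2 (z v : E3) : fderiv ℝ (fun z : E3 => z.2.2) z v = v.2.2 := by
  have : fderiv ℝ (fun z : E3 => z.2.2) z =
      (ContinuousLinearMap.snd ℝ ℝ ℝ).comp (ContinuousLinearMap.snd ℝ ℝ (ℝ × ℝ)) :=
    ((ContinuousLinearMap.snd ℝ ℝ ℝ).comp (ContinuousLinearMap.snd ℝ ℝ (ℝ × ℝ))).fderiv
  rw [this]; rfl

lemma abs_eta_le {z : E3} (hz : z ∈ Reg γ) : |z.1| ≤ 8 * wm γ 1 1 0 0 z := by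
  have h := eta_sq_le_wt hz
  have hm := hz.m0
  have ho := om_pos hz
  have e : wm γ 1 1 0 0 z = z.2.1 * √(om γ z) := by simp [wm]
  rw [e]
  apply abs_le_of_sq_le_sq _ (by positivity)
  rw [mul_pow, mul_pow, Real.sq_sqrt ho.le]
  linarith

/-- `η`. -/
theorem sy_eta (n : ℕ) : SY ρ n 1 1 0 0 (fun z => z.1) := by
  refine SY.all contDiff_fst (C := 8) (by norm_num) (fun z hz => abs_eta_le hz) ?_ ?_ ?_ n
  · intro n
    exact (SY.const (ρ := ρ) (n := n) 1).congr' fun z => by rw [pdi, fderiv_fst]; simp [bv]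
  · intro n
    exact SY.zero.congr' fun z => by rw [pdi, fderiv_fst]; simp [bv]
  · intro n
    exact SY.zero.congr' fun z => by rw [pdi, fderiv_fst]; simp [bv]

/-- `m`. -/
theorem sy_m (n : ℕ) : SY ρ n 1 0 0 0 (fun z => z.2.1) := by
  refine SY.all (by fun_prop) (C := 1) (by norm_num) (fun z hz => ?_) ?_ ?_ ?_ n
  · rw [abs_of_pos hz.m0]; simp [wm]
  · intro n
    exact SY.zero.congr' fun z => by rw [pdi, fderiv_snd1]; simp [bv]
  · intro n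
    have h1 : SY ρ n 0 0 0 0 (fun _ => (1:ℝ)) := SY.const 1
    have h2 : SY ρ n (1 - 1) (0 - 2) 0 0 (fun _ => (1:ℝ)) :=
      h1.dom (by norm_num) (by norm_num) (by norm_num)
    exact h2.congr' fun z => by rw [pdi, fderiv_snd1]; simp [bv]
  · intro n
    exact SY.zero.congr' fun z => by rw [pdi, fderiv_snd1]; simp [bv]

/-- `G`. -/
theorem sy_G (n : ℕ) : SY ρ n 0 2 2 0 (fun z => z.2.2) := by
  refine SY.all (by fun_prop) (C := 16) (by norm_num) (fun z hz => ?_) ?_ ?_ ?_ n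
  · rw [abs_of_nonneg hz.G0]
    have h1 := G_le_wt hz
    have ho := om_pos hz
    have hs := ss_pos hz
    have e : wm γ 0 2 2 0 z = om γ z * ss z := by
      have e1 : √(om γ z) ^ (2:ℤ) = om γ z := by
        rw [show (2:ℤ) = ((2:ℕ):ℤ) from rfl, zpow_natCast, Real.sq_sqrt ho.le]
      have e2 : √(ss z) ^ (2:ℤ) = ss z := by
        rw [show (2:ℤ) = ((2:ℕ):ℤ) from rfl, zpow_natCast, Real.sq_sqrt hs.le]
      rw [wm, e1, e2]; simp
    rw [e]; exact h1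
  · intro n
    exact SY.zero.congr' fun z => by rw [pdi, fderiv_snd2]; simp [bv]
  · intro n
    exact SY.zero.congr' fun z => by rw [pdi, fderiv_snd2]; simp [bv]
  · intro n
    have h1 : SY ρ n 0 0 0 0 (fun _ => (1:ℝ)) := SY.const 1
    exact (h1.cast rfl (by norm_num) (by norm_num) rfl).congr' fun z => by
      rw [pdi, fderiv_snd2]; simp [bv]

/-- `1/m`. -/
theorem sy_minv (n : ℕ) : SY ρ n (-1) 0 0 0 (fun z => (z.2.1)⁻¹) := by
  have h := Sy.inv (sy_m (ρ := ρ) n) (fun z hz => wm_pos hz _ _ _ _) (fun z hz => hz.1)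
    (ε := 1) zero_lt_one (fun z hz => by simp [wm])
  exact h.weq fun z hz => (wm_inv hz _ _ _ _).trans (by simp)

/-- powers. -/
theorem SY.pow (h : SY ρ n a b c e f) (N : ℕ) :
    SY ρ n (N * a) (N * b) (N * c) (N * e) (fun z => f z ^ N) := by
  induction N with
  | zero =>
    refine ((SY.const (ρ := ρ) (n := n) 1).cast ?_ ?_ ?_ ?_).congr' fun z => by simp
    all_goals simp
  | succ N ih =>
    refine ((ih.mul h).cast ?_ ?_ ?_ ?_).congr' fun z => by ring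
    all_goals push_cast; ring

/-- `η²`. -/
theorem sy_eta2 (n : ℕ) : SY ρ n 2 2 0 0 (fun z => z.1 ^ 2) :=
  ((sy_eta n).pow 2).cast (by norm_num) (by norm_num) (by norm_num) (by norm_num)

/-- `k`. -/
theorem sy_k (n : ℕ) : SY ρ n 0 2 0 0 (kf γ) := by
  have hsm : ContDiff ℝ ∞ (kf γ) := by unfold kf; fun_prop
  have hd : ∀ z v : E3, fderiv ℝ (kf γ) z v =
      (-2 * γ.g1 * z.1 + 4 * γ.g2 * z.1 ^ 3) * v.1 - v.2.1 := by
    intro z v
    have h1 : HasFDerivAt (fun z : E3 => z.1) (ContinuousLinearMap.fst ℝ ℝ (ℝ × ℝ)) z :=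
      (ContinuousLinearMap.fst ℝ ℝ (ℝ × ℝ)).hasFDerivAt
    have h2 : HasFDerivAt (fun z : E3 => z.2.1)
        ((ContinuousLinearMap.fst ℝ ℝ ℝ).comp (ContinuousLinearMap.snd ℝ ℝ (ℝ × ℝ))) z :=
      ((ContinuousLinearMap.fst ℝ ℝ ℝ).comp (ContinuousLinearMap.snd ℝ ℝ (ℝ × ℝ))).hasFDerivAt
    have h3 := ((((h1.pow 2).const_mul γ.g1).const_sub 1).add ((h1.pow 4).const_mul γ.g2)).sub h2
    have h4 : HasFDerivAt (kf γ) _ z := h3
    rw [h4.fderiv]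
    simp
    ring
  refine SY.all hsm (C := 1) (by norm_num) (fun z hz => ?_) ?_ ?_ ?_ n
  · rw [abs_of_nonneg hz.k0, one_mul]
    have h1 := k_le_om hz
    have ho := om_pos hz
    have e : wm γ 0 2 0 0 z = om γ z := by
      have e1 : √(om γ z) ^ (2:ℤ) = om γ z := by
        rw [show (2:ℤ) = ((2:ℕ):ℤ) from rfl, zpow_natCast, Real.sq_sqrt ho.le]
      rw [wm, e1]; simp
    rw [e]; exact h1
  · intro n
    have h1 := ((sy_eta (ρ := ρ) n).smul (-2 * γ.g1))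
    have h2 := (((sy_eta (ρ := ρ) n).pow 3).smul (4 * γ.g2))
    have h1' : SY ρ n (-1) 1 0 0 _ := h1.dom (by norm_num) (by norm_num) (by norm_num)
    have h2' : SY ρ n (-1) 1 0 0 _ := h2.dom (by norm_num) (by norm_num) (by norm_num)
    refine ((h1'.add h2').cast (by norm_num) (by norm_num) rfl rfl).congr' fun z => ?_
    rw [pdi, hd]; simp [bv]
  · intro n
    have h1 : SY ρ n 0 0 0 0 (fun _ => (-1:ℝ)) := SY.const (-1)
    have h2 : SY ρ n (0 - 1) (2 - 2) 0 0 (fun _ => (-1:ℝ)) :=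
      h1.dom (by norm_num) (by norm_num) (by norm_num)
    exact h2.congr' fun z => by rw [pdi, hd]; simp [bv]
  · intro n
    exact SY.zero.congr' fun z => by rw [pdi, hd]; simp [bv]

/-- `1 - m`. -/
theorem sy_n (n : ℕ) : SY ρ n 0 2 0 0 (fun z => 1 - z.2.1) := by
  have h1 := sy_k (ρ := ρ) n
  have h2 := ((sy_eta (ρ := ρ) n).pow 2).smul γ.g1
  have h3 := ((sy_eta (ρ := ρ) n).pow 4).smul γ.g2
  have h2' : SY ρ n 0 2 0 0 _ := h2.dom (by norm_num) (by norm_num) (by norm_num)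
  have h3' : SY ρ n 0 2 0 0 _ := h3.dom (by norm_num) (by norm_num) (by norm_num)
  refine ((h1.add h2').sub h3').congr' fun z => ?_
  unfold kf
  ring



end Crest.Agent.R249.Sym467
end
end

-- ▼ part R249/Sym4_467
section

/-!
# R249 (helper467), A2-ETA part 9: bounds away from the singular points

`SyAll ρ A B W` : the regularity hypothesis on the field;
`cfAllP_of_seg` : the weight bounds (`CfAllP`) for pairs of points joined by a segment on which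
`m ≥ r`, `ω ≥ r²`.
-/

set_option autoImplicit false
set_option linter.unusedVariables false
set_option linter.unusedSectionVars false

open MeasureTheory Set Filter Topology Matrix
open scoped ContDiff

noncomputable section

namespace Crest.Agent.R249.Sym467

open DivC467 Eta467

variable {γ : Pm} {ρ : Rd γ} {n : ℕ} {a b c e : ℤ} {f g : E3 → ℝ}

/-- the regularity hypothesis on the field. (Near the corner `m → 0` any loss `m^{-L}` is allowed,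
plus the one sided bound of `B`.) -/
structure SyAll (ρ : Rd γ) (A B W : E3 → ℝ) : Prop where
  reg : ∃ L : ℕ, SY ρ 2 (-(L : ℤ)) (-1) 0 2 A ∧ SY ρ 2 (-(L : ℤ)) (-1) 0 2 B ∧
    SY ρ 2 (-(L : ℤ)) (-1) 0 0 W
  low : ∃ C : ℝ, 0 ≤ C ∧ ∀ z ∈ Reg γ, |z.1| < 2 * z.2.1 →
    -(C * ((√(om γ z))⁻¹ * (1 + z.2.2))) ≤ B z

lemma SY.d0 (h : SY ρ (n + 1) a b c e f) : SY ρ n (a - 1) (b - 1) c e (pd1 f) :=
  (h.2 0).weq fun z hz => (wm_div hz a b c e 1 1 0 0).trans (by simp)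

lemma SY.d1 (h : SY ρ (n + 1) a b c e f) : SY ρ n (a - 1) (b - 2) c e (pd2 f) :=
  (h.2 1).weq fun z hz => (wm_div hz a b c e 1 2 0 0).trans (by simp)

lemma SY.d2 (h : SY ρ (n + 1) a b c e f) : SY ρ n a (b - 2) (c - 2) e (pd3 f) :=
  (h.2 2).weq fun z hz => (wm_div hz a b c e 0 2 2 0).trans (by simp)

lemma zpow_bd {x r : ℝ} (hr : 0 < r) (hr1 : r ≤ 1) (hrx : r ≤ x) (hx : x ≤ 3) (a : ℤ) :
    x ^ a ≤ (3 / r) ^ a.natAbs := by
  have hx0 : 0 < x := hr.trans_le hrx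
  rcases le_total 0 a with ha | ha
  · obtain ⟨n, rfl⟩ := Int.eq_ofNat_of_zero_le ha
    rw [zpow_natCast, Int.natAbs_natCast]
    apply pow_le_pow_left₀ hx0.le
    rw [le_div_iff₀ hr]
    nlinarith
  · obtain ⟨n, hn⟩ := Int.eq_ofNat_of_zero_le (show 0 ≤ -a by omega)
    have ha' : a = -(n : ℤ) := by omega
    subst ha'
    rw [_root_.zpow_neg, zpow_natCast, Int.natAbs_neg, Int.natAbs_natCast, ← inv_pow]
    apply pow_le_pow_left₀ (inv_pos.2 hx0).le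
    rw [inv_eq_one_div]
    exact div_le_div₀ (by norm_num) (by norm_num) hr hrx


/-- weights away from the singular points. -/
lemma wm_bd {r : ℝ} (hr : 0 < r) (hr1 : r ≤ 1) {z : E3} (hz : z ∈ Reg γ) (hm : r ≤ z.2.1)
    (ho : r ^ 2 ≤ om γ z) (a b c e : ℤ) :
    wm γ a b c e z ≤ (3 / r) ^ (a.natAbs + b.natAbs + c.natAbs) * √(1 + z.2.2) ^ (c + e) := by
  have hg := Real.sqrt_pos.2 (gg_pos hz)
  have hs := Real.sqrt_pos.2 (ss_pos hz)
  have hop := Real.sqrt_pos.2 (om_pos hz)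
  have e1 := zpow_bd hr hr1 hm ((m_le hz).trans (by norm_num)) a
  have e2 : √(om γ z) ^ b ≤ (3 / r) ^ b.natAbs := by
    refine zpow_bd hr hr1 (Real.le_sqrt_of_sq_le ho) ?_ b
    rw [Real.sqrt_le_left (by norm_num)]
    have := om_le hz
    linarith
  have e3 : √(ss z) ^ c ≤ (3 / r) ^ c.natAbs * √(1 + z.2.2) ^ c := by
    have h1 : (√(ss z) / √(1 + z.2.2)) ^ c ≤ (3 / r) ^ c.natAbs := by
      refine zpow_bd hr hr1 ?_ ?_ c
      · rw [le_div_iff₀ hg, Real.le_sqrt (by positivity) (ss_pos hz).le, mul_pow,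
          Real.sq_sqrt (gg_pos hz).le]
        refine le_trans ?_ (m_gg_le_ss hz)
        exact mul_le_mul_of_nonneg_right (pow_le_pow_left₀ hr.le hm 2) (gg_pos hz).le
      · rw [div_le_iff₀ hg]
        have := Real.sqrt_le_sqrt (ss_le_gg hz)
        linarith
    rw [div_zpow, div_le_iff₀ (by positivity)] at h1
    exact h1
  have hr3 : 0 < 3 / r := by positivity
  have hm0 := hz.m0
  calc wm γ a b c e z = (z.2.1 ^ a * √(om γ z) ^ b) * (√(ss z) ^ c * √(1 + z.2.2) ^ e) := by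
        unfold wm; ring
    _ ≤ ((3 / r) ^ a.natAbs * (3 / r) ^ b.natAbs) *
        ((3 / r) ^ c.natAbs * √(1 + z.2.2) ^ c * √(1 + z.2.2) ^ e) := by
        apply mul_le_mul
        · exact mul_le_mul e1 e2 (by positivity) (by positivity)
        · exact mul_le_mul_of_nonneg_right e3 (by positivity)
        · positivity
        · positivity
    _ = _ := by rw [zpow_add₀ hg.ne', pow_add, pow_add]; ring

/-- bound of a symbol away from the singular points. -/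
lemma SY.bdd (h : SY ρ n a b c e f) {r : ℝ} (hr : 0 < r) (hr1 : r ≤ 1) {i k : ℕ}
    (hl : c + e + 2 * i = 2 * k) : ∃ C : ℝ, 0 ≤ C ∧ ∀ z ∈ Reg γ, r ≤ z.2.1 → r ^ 2 ≤ om γ z →
      |f z| * (1 + z.2.2) ^ i ≤ C * (1 + z.2.2) ^ k := by
  obtain ⟨C, hC, hb⟩ := h.bd
  refine ⟨C * (3 / r) ^ (a.natAbs + b.natAbs + c.natAbs), by positivity, fun z hz hm ho => ?_⟩
  have h1 := hb z hz
  have h2 := wm_bd hr hr1 hz hm ho a b c e
  have hg := gg_pos hz
  have hgs := Real.sqrt_pos.2 hg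
  have e1 : ∀ N : ℕ, (1 + z.2.2) ^ N = √(1 + z.2.2) ^ (2 * (N : ℤ)) := by
    intro N
    have e2 : √(1 + z.2.2) ^ (2:ℤ) = 1 + z.2.2 := by
      rw [show (2:ℤ) = ((2:ℕ):ℤ) from rfl, zpow_natCast, Real.sq_sqrt hg.le]
    rw [_root_.zpow_mul, e2, zpow_natCast]
  calc |f z| * (1 + z.2.2) ^ i ≤ (C * wm γ a b c e z) * (1 + z.2.2) ^ i :=
        mul_le_mul_of_nonneg_right h1 (by positivity)
    _ ≤ (C * ((3 / r) ^ (a.natAbs + b.natAbs + c.natAbs) * √(1 + z.2.2) ^ (c + e))) *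
          (1 + z.2.2) ^ i := by
        apply mul_le_mul_of_nonneg_right _ (by positivity)
        exact mul_le_mul_of_nonneg_left h2 hC
    _ = C * (3 / r) ^ (a.natAbs + b.natAbs + c.natAbs) *
          (√(1 + z.2.2) ^ (c + e) * √(1 + z.2.2) ^ (2 * (i : ℤ))) := by rw [e1 i]; ring
    _ = _ := by
        rw [← zpow_add₀ hgs.ne', hl, ← e1 k]

/-- the two points are joined by a horizontal segment in the region, away from the singularities. -/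
structure Seg (γ : Pm) (r : ℝ) (z z' : E3) : Prop where
  G : z'.2.2 = z.2.2
  mem : ∀ s ∈ Icc (0:ℝ) 1, z + s • (z' - z) ∈ Reg γ
  m : ∀ s ∈ Icc (0:ℝ) 1, r ≤ (z + s • (z' - z)).2.1
  o : ∀ s ∈ Icc (0:ℝ) 1, r ^ 2 ≤ om γ (z + s • (z' - z))

lemma SY.cfp (h : SY ρ (n + 1) a b c e f) {r : ℝ} (hr : 0 < r) (hr1 : r ≤ 1) {i k : ℕ}
    (hl : c + e + 2 * i = 2 * k) :
    ∃ C : ℝ, 0 ≤ C ∧ ∀ z z', Seg γ r z z' → ∀ C', C ≤ C' → CfP C' i k f z z' := by
  obtain ⟨C0, hC0, hb0⟩ := h.bdd hr hr1 hl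
  obtain ⟨C1, hC1, hb1⟩ := h.d0.bdd hr hr1 hl
  obtain ⟨C2, hC2, hb2⟩ := h.d1.bdd hr hr1 hl
  refine ⟨C0 + C1 + C2, by positivity, fun z z' hS C' hC' => ?_⟩
  have hz : z ∈ Reg γ := by simpa using hS.mem 0 (by simp)
  have hz' : z' ∈ Reg γ := by simpa using hS.mem 1 (by simp)
  have hg := gg_pos hz
  have hgk : 0 ≤ (1 + z.2.2) ^ k := by positivity
  have hmz : r ≤ z.2.1 := by simpa using hS.m 0 (by simp)
  have hmz' : r ≤ z'.2.1 := by simpa using hS.m 1 (by simp)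
  have hoz : r ^ 2 ≤ om γ z := by simpa using hS.o 0 (by simp)
  have hoz' : r ^ 2 ≤ om γ z' := by simpa using hS.o 1 (by simp)
  have h0 := hb0 z hz hmz hoz
  have h0' := hb0 z' hz' hmz' hoz'
  rw [hS.G] at h0'
  refine ⟨by linarith, h0.trans ?_, h0'.trans ?_, ?_⟩
  · exact mul_le_mul_of_nonneg_right (by linarith) hgk
  · exact mul_le_mul_of_nonneg_right (by linarith) hgk
  · -- mean value inequality
    set M : ℝ := (C1 + C2) * (1 + z.2.2) ^ k / (1 + z.2.2) ^ i with hM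
    have hgi : 0 < (1 + z.2.2) ^ i := by positivity
    have key : |f z' - f z| ≤ M * (|z.1 - z'.1| + |z.2.1 - z'.2.1|) := by
      have hder : ∀ s ∈ Icc (0:ℝ) 1, HasDerivWithinAt (fun s : ℝ => f (z + s • (z' - z)))
          (fderiv ℝ f (z + s • (z' - z)) (z' - z)) (Icc 0 1) s := by
        intro s hs
        have h1 := (Sy.diffAt h ((geo ρ).sub (hS.mem s hs))).hasFDerivAt
        have h2 : HasDerivAt (fun s : ℝ => z + s • (z' - z)) (z' - z) s := by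
          have := ((hasDerivAt_id s).smul_const (z' - z)).const_add z
          simpa using this
        exact (h1.comp_hasDerivAt s h2).hasDerivWithinAt
      have hbd : ∀ s ∈ Ico (0:ℝ) 1, ‖fderiv ℝ f (z + s • (z' - z)) (z' - z)‖ ≤
          M * (|z.1 - z'.1| + |z.2.1 - z'.2.1|) := by
        intro s hs
        have hs' : s ∈ Icc (0:ℝ) 1 := ⟨hs.1, hs.2.le⟩
        have hm := hS.mem s hs'
        have hG : (z + s • (z' - z)).2.2 = z.2.2 := by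
          simp [hS.G]
        have b1 := hb1 _ hm (hS.m s hs') (hS.o s hs')
        have b2 := hb2 _ hm (hS.m s hs') (hS.o s hs')
        rw [hG, ← le_div_iff₀ hgi] at b1 b2
        have ev : z' - z = (z'.1 - z.1) • bv 0 + (z'.2.1 - z.2.1) • bv 1 := by
          ext <;> simp [bv, hS.G]
        rw [Real.norm_eq_abs]
        have e2 : fderiv ℝ f (z + s • (z' - z)) (z' - z) =
            (z'.1 - z.1) * pd1 f (z + s • (z' - z)) + (z'.2.1 - z.2.1) * pd2 f (z + s • (z' - z)) := by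
          conv_lhs => rw [show (fderiv ℝ f (z + s • (z' - z))) (z' - z) =
            (fderiv ℝ f (z + s • (z' - z))) ((z'.1 - z.1) • bv 0 + (z'.2.1 - z.2.1) • bv 1) by
              rw [← ev]]
          rw [map_add, map_smul, map_smul]
          rfl
        rw [e2]
        have t1 : |(z'.1 - z.1) * pd1 f (z + s • (z' - z))| ≤
            |z.1 - z'.1| * (C1 * (1 + z.2.2) ^ k / (1 + z.2.2) ^ i) := by
          rw [abs_mul, abs_sub_comm]
          exact mul_le_mul_of_nonneg_left b1 (abs_nonneg _)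
        have t2 : |(z'.2.1 - z.2.1) * pd2 f (z + s • (z' - z))| ≤
            |z.2.1 - z'.2.1| * (C2 * (1 + z.2.2) ^ k / (1 + z.2.2) ^ i) := by
          rw [abs_mul, abs_sub_comm]
          exact mul_le_mul_of_nonneg_left b2 (abs_nonneg _)
        have p1 : C1 * (1 + z.2.2) ^ k / (1 + z.2.2) ^ i ≤ M := by
          rw [hM]
          apply div_le_div_of_nonneg_right _ hgi.le
          exact mul_le_mul_of_nonneg_right (by linarith) hgk
        have p2 : C2 * (1 + z.2.2) ^ k / (1 + z.2.2) ^ i ≤ M := by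
          rw [hM]
          apply div_le_div_of_nonneg_right _ hgi.le
          exact mul_le_mul_of_nonneg_right (by linarith) hgk
        have q1 := mul_le_mul_of_nonneg_left p1 (abs_nonneg (z.1 - z'.1))
        have q2 := mul_le_mul_of_nonneg_left p2 (abs_nonneg (z.2.1 - z'.2.1))
        refine (abs_add_le _ _).trans ?_
        linarith
      have := norm_image_sub_le_of_norm_deriv_le_segment_01' hder hbd
      simpa using this
    rw [abs_sub_comm] at key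
    have h5 : |f z - f z'| * (1 + z.2.2) ^ i ≤
        (M * (|z.1 - z'.1| + |z.2.1 - z'.2.1|)) * (1 + z.2.2) ^ i :=
      mul_le_mul_of_nonneg_right key hgi.le
    refine h5.trans ?_
    have h6 : M * (|z.1 - z'.1| + |z.2.1 - z'.2.1|) * (1 + z.2.2) ^ i =
        (C1 + C2) * (|z.1 - z'.1| + |z.2.1 - z'.2.1|) * (1 + z.2.2) ^ k := by
      rw [hM]; field_simp
    rw [h6]
    apply mul_le_mul_of_nonneg_right _ hgk
    apply mul_le_mul_of_nonneg_right (by linarith) (by positivity)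

/-- **weight bounds on segments.** -/
theorem cfAllP_of_seg {A B W : E3 → ℝ} (h : SyAll ρ A B W) {r : ℝ} (hr : 0 < r) (hr1 : r ≤ 1) :
    ∃ C : ℝ, 0 ≤ C ∧ ∀ z z', Seg γ r z z' → CfAllP C A B W z z' := by
  obtain ⟨L, hA, hB, hW⟩ := h.reg
  obtain ⟨c1, p1, q1⟩ := hA.cfp hr hr1 (i := 0) (k := 1) (by norm_num)
  obtain ⟨c2, p2, q2⟩ := hA.d0.cfp hr hr1 (i := 0) (k := 1) (by norm_num)
  obtain ⟨c3, p3, q3⟩ := hA.d1.cfp hr hr1 (i := 0) (k := 1) (by norm_num)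
  obtain ⟨c4, p4, q4⟩ := hA.d2.cfp hr hr1 (i := 0) (k := 0) (by norm_num)
  obtain ⟨c5, p5, q5⟩ := hB.cfp hr hr1 (i := 0) (k := 1) (by norm_num)
  obtain ⟨c6, p6, q6⟩ := hB.d0.cfp hr hr1 (i := 0) (k := 1) (by norm_num)
  obtain ⟨c7, p7, q7⟩ := hB.d1.cfp hr hr1 (i := 0) (k := 1) (by norm_num)
  obtain ⟨c8, p8, q8⟩ := hB.d2.cfp hr hr1 (i := 0) (k := 0) (by norm_num)
  obtain ⟨c9, p9, q9⟩ := hW.cfp hr hr1 (i := 0) (k := 0) (by norm_num)
  obtain ⟨c10, p10, q10⟩ := hW.d0.cfp hr hr1 (i := 0) (k := 0) (by norm_num)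
  obtain ⟨c11, p11, q11⟩ := hW.d1.cfp hr hr1 (i := 0) (k := 0) (by norm_num)
  obtain ⟨c12, p12, q12⟩ := hW.d2.cfp hr hr1 (i := 1) (k := 0) (by norm_num)
  refine ⟨c1 + c2 + c3 + c4 + c5 + c6 + c7 + c8 + c9 + c10 + c11 + c12, by positivity,
    fun z z' hS => ?_⟩
  exact ⟨q1 z z' hS _ (by linarith), q2 z z' hS _ (by linarith), q3 z z' hS _ (by linarith),
    q4 z z' hS _ (by linarith), q5 z z' hS _ (by linarith), q6 z z' hS _ (by linarith),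
    q7 z z' hS _ (by linarith), q8 z z' hS _ (by linarith), q9 z z' hS _ (by linarith),
    q10 z z' hS _ (by linarith), q11 z z' hS _ (by linarith), q12 z z' hS _ (by linarith)⟩

end Crest.Agent.R249.Sym467
end
end

-- ▼ part R249/Sym5_467

/-!
# R249 (helper467), A2-ETA part 10: change of the traces near the singular points

`free_bd` : equal change of both traces, any jet over the region;
`tr_bd` : arbitrary small change of the traces, jets with `dm = σ dη`, `|σ| ≤ |η|`.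
-/

set_option autoImplicit false
set_option linter.unusedVariables false
set_option linter.unusedSectionVars false

open MeasureTheory Set Filter Topology Matrix
open scoped ContDiff

noncomputable section

namespace Crest.Agent.R249.Sym467

open DivC467 Eta467 Lim621

attribute [local instance] Matrix.frobeniusNormedAddCommGroup Matrix.frobeniusNormedSpace

variable {γ : Pm} {ρ : Rd γ} {n : ℕ} {a b c e : ℤ} {f g : E3 → ℝ}

lemma wm_B {z : E3} (hz : z ∈ Reg γ) : wm γ 0 (-1) 0 2 z = (√(om γ z))⁻¹ * (1 + z.2.2) := by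
  have e2 : √(1 + z.2.2) ^ (2:ℤ) = 1 + z.2.2 := by
    rw [show (2:ℤ) = ((2:ℕ):ℤ) from rfl, zpow_natCast, Real.sq_sqrt (gg_pos hz).le]
  rw [wm, e2]; simp

lemma wm_W {z : E3} : wm γ 0 (-1) 0 0 z = (√(om γ z))⁻¹ := by simp [wm]

lemma Nj_le_W (j : Jet E4 H4) : Nj j ≤ j.W := by
  have h1 := fst_le j.P
  have h2 := fst_le j.Q
  unfold Nj Jet.W
  linarith

lemma G_le_W (j : Jet E4 H4) : 1 + uJ j ⬝ᵥ uJ j ≤ 2 * j.W :=
  (uu_le_Nj j).trans (by linarith [Nj_le_W j])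

lemma abs_uSu_le (j : Jet E4 H4) :
    |uJ j ⬝ᵥ (sJ j *ᵥ uJ j)| ≤ 12 * (‖j.P‖ + ‖j.Q‖) * (uJ j ⬝ᵥ uJ j) := by
  have e : uJ j ⬝ᵥ (sJ j *ᵥ uJ j) = ∑ a, ∑ b, uJ j a * (sJ j a b * uJ j b) := by
    simp only [dotProduct, Matrix.mulVec, Finset.mul_sum]
  have hs : ∀ a b, |sJ j a b| ≤ 3 * (‖j.P‖ + ‖j.Q‖) := by
    intro a b
    have e : sJ j a b =
        j.P.2 a b + ((j.P.1 - j.Q.1 - j.P.2.trace) / 4) * (1 : Matrix (Fin 4) (Fin 4) ℝ) a b := by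
      rw [sJ, Matrix.add_apply, Matrix.smul_apply, smul_eq_mul]; rfl
    rw [e]; exact sJ_bound _ _ a b
  have hN : 0 ≤ ‖j.P‖ + ‖j.Q‖ := by positivity
  have h1 : ∀ a b, |uJ j a * (sJ j a b * uJ j b)| ≤
      3 * (‖j.P‖ + ‖j.Q‖) * ((uJ j a * uJ j a + uJ j b * uJ j b) / 2) := by
    intro a b
    have h2 : |uJ j a * (sJ j a b * uJ j b)| = |sJ j a b| * |uJ j a * uJ j b| := by
      rw [← abs_mul]; congr 1; ring
    rw [h2]
    apply mul_le_mul (hs a b) _ (abs_nonneg _) (by positivity)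
    rw [abs_le]
    constructor <;> nlinarith [sq_nonneg (uJ j a + uJ j b), sq_nonneg (uJ j a - uJ j b)]
  rw [e]
  refine (Finset.abs_sum_le_sum_abs _ _).trans ?_
  have h3 : ∑ a, |∑ b, uJ j a * (sJ j a b * uJ j b)| ≤
      ∑ a : Fin 4, ∑ b : Fin 4, 3 * (‖j.P‖ + ‖j.Q‖) * ((uJ j a * uJ j a + uJ j b * uJ j b) / 2) :=
    Finset.sum_le_sum fun a _ => (Finset.abs_sum_le_sum_abs _ _).trans
      (Finset.sum_le_sum fun b _ => h1 a b)
  refine h3.trans (le_of_eq ?_)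
  simp only [dotProduct, Fin.sum_univ_four]
  ring

/-- the first order bounds. -/
structure Bds1 (γ : Pm) (A B W : E3 → ℝ) (K : ℝ) (z : E3) : Prop where
  bA : |A z| ≤ K * ((√(om γ z))⁻¹ * (1 + z.2.2))
  bAG : |pd3 A z * z.2.2| ≤ K * ((√(om γ z))⁻¹ * (1 + z.2.2))
  bB : |B z| ≤ K * ((√(om γ z))⁻¹ * (1 + z.2.2))
  bBG : |pd3 B z * (z.1 * z.2.2)| ≤ K * ((√(om γ z))⁻¹ * (1 + z.2.2))
  bW : |W z| ≤ K * (√(om γ z))⁻¹
  bW1 : |pd1 W z * (z.2.1 * z.2.2)| ≤ K * ((√(om γ z))⁻¹ * (1 + z.2.2))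
  bW2 : |pd2 W z * (z.1 * z.2.2)| ≤ K * ((√(om γ z))⁻¹ * (1 + z.2.2))
  bW3 : |pd3 W z * z.2.2| ≤ K * (√(om γ z))⁻¹

lemma Bds1.mono {A B W : E3 → ℝ} {K K' : ℝ} {z : E3} (h : Bds1 γ A B W K z) (hz : z ∈ Reg γ)
    (hK : K ≤ K') : Bds1 γ A B W K' z := by
  have hs : 0 ≤ (√(om γ z))⁻¹ := by positivity
  have hsg : 0 ≤ (√(om γ z))⁻¹ * (1 + z.2.2) := mul_nonneg hs (gg_pos hz).le
  have m1 := mul_le_mul_of_nonneg_right hK hs
  have m2 := mul_le_mul_of_nonneg_right hK hsg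
  exact ⟨h.bA.trans m2, h.bAG.trans m2, h.bB.trans m2, h.bBG.trans m2, h.bW.trans m1,
    h.bW1.trans m2, h.bW2.trans m2, h.bW3.trans m1⟩

/-- bounds with loss `m^{-L}` where `m ≥ 1/4`. -/
lemma SY.bdm {L : ℕ} (h : SY ρ n (-(L : ℤ)) b c e f) : ∃ C : ℝ, 0 ≤ C ∧ ∀ z ∈ Reg γ,
    1 / 4 ≤ z.2.1 → |f z| ≤ C * wm γ 0 b c e z := by
  obtain ⟨C, hC, hb⟩ := Sy.bd h
  refine ⟨C * 4 ^ L, by positivity, fun z hz hm => (hb z hz).trans ?_⟩
  have h1 : z.2.1 ^ (-(L : ℤ)) ≤ 4 ^ L := by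
    rw [_root_.zpow_neg, zpow_natCast, ← inv_pow]
    apply pow_le_pow_left₀ (inv_pos.2 hz.m0).le
    rw [inv_le_comm₀ hz.m0 (by norm_num)]
    linarith
  have h2 : wm γ (-(L : ℤ)) b c e z ≤ 4 ^ L * wm γ 0 b c e z := by
    have e1 : wm γ (-(L : ℤ)) b c e z = z.2.1 ^ (-(L : ℤ)) * wm γ 0 b c e z := by
      simp only [wm, zpow_zero, one_mul]; ring
    rw [e1]
    exact mul_le_mul_of_nonneg_right h1 (wm_pos hz _ _ _ _).le
  rw [mul_assoc]
  exact mul_le_mul_of_nonneg_left h2 hC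

theorem exists_bds1 {A B W : E3 → ℝ} (h : SyAll ρ A B W) :
    ∃ K : ℝ, 0 ≤ K ∧ ∀ z ∈ Reg γ, 1 / 4 ≤ z.2.1 → Bds1 γ A B W K z := by
  obtain ⟨L, hA, hB, hW⟩ := h.reg
  obtain ⟨c1, p1, q1⟩ := SY.bdm hA
  obtain ⟨c2, p2, q2⟩ := SY.bdm (((hA.d2.mul (sy_G 1)).dom (a' := -(L : ℤ)) (b' := -1) (c' := 0)
    (e' := 2) (by norm_num) (by norm_num) (by simp)) :
      SY ρ 1 (-(L : ℤ)) (-1) 0 2 (fun z => pd3 A z * z.2.2))
  obtain ⟨c3, p3, q3⟩ := SY.bdm hB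
  obtain ⟨c4, p4, q4⟩ := SY.bdm (((hB.d2.mul ((sy_eta 1).mul (sy_G 1))).dom (a' := -(L : ℤ))
    (b' := -1) (c' := 0) (e' := 2) (by norm_num) (by norm_num) (by simp)) :
      SY ρ 1 (-(L : ℤ)) (-1) 0 2 (fun z => pd3 B z * (z.1 * z.2.2)))
  obtain ⟨c5, p5, q5⟩ := SY.bdm hW
  obtain ⟨c6, p6, q6⟩ := SY.bdm (((hW.d0.mul ((sy_m 1).mul (sy_G 1))).dom (a' := -(L : ℤ))
    (b' := -1) (c' := 0) (e' := 2) (by norm_num) (by norm_num) (by simp)) :
      SY ρ 1 (-(L : ℤ)) (-1) 0 2 (fun z => pd1 W z * (z.2.1 * z.2.2)))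
  obtain ⟨c7, p7, q7⟩ := SY.bdm (((hW.d1.mul ((sy_eta 1).mul (sy_G 1))).dom (a' := -(L : ℤ))
    (b' := -1) (c' := 0) (e' := 2) (by norm_num) (by norm_num) (by simp)) :
      SY ρ 1 (-(L : ℤ)) (-1) 0 2 (fun z => pd2 W z * (z.1 * z.2.2)))
  obtain ⟨c8, p8, q8⟩ := SY.bdm (((hW.d2.mul (sy_G 1)).dom (a' := -(L : ℤ)) (b' := -1) (c' := 0)
    (e' := 0) (by norm_num) (by norm_num) (by simp)) :
      SY ρ 1 (-(L : ℤ)) (-1) 0 0 (fun z => pd3 W z * z.2.2))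
  refine ⟨c1 + c2 + c3 + c4 + c5 + c6 + c7 + c8, by positivity, fun z hz hm => ?_⟩
  have hs : 0 ≤ (√(om γ z))⁻¹ := by positivity
  have hsg : 0 ≤ (√(om γ z))⁻¹ * (1 + z.2.2) := mul_nonneg hs (gg_pos hz).le
  have q1 := q1 z hz hm
  have q2 := q2 z hz hm
  have q3 := q3 z hz hm
  have q4 := q4 z hz hm
  have q5 := q5 z hz hm
  have q6 := q6 z hz hm
  have q7 := q7 z hz hm
  have q8 := q8 z hz hm
  rw [wm_B hz] at q1 q2 q3 q4 q6 q7
  rw [wm_W] at q5 q8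
  obtain ⟨S, hS⟩ : ∃ S, S = c1 + c2 + c3 + c4 + c5 + c6 + c7 + c8 := ⟨_, rfl⟩
  rw [← hS]
  have r1 : c1 ≤ S := by linarith
  have r2 : c2 ≤ S := by linarith
  have r3 : c3 ≤ S := by linarith
  have r4 : c4 ≤ S := by linarith
  have r5 : c5 ≤ S := by linarith
  have r6 : c6 ≤ S := by linarith
  have r7 : c7 ≤ S := by linarith
  have r8 : c8 ≤ S := by linarith
  exact ⟨q1.trans (mul_le_mul_of_nonneg_right r1 hsg),
    q2.trans (mul_le_mul_of_nonneg_right r2 hsg),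
    q3.trans (mul_le_mul_of_nonneg_right r3 hsg),
    q4.trans (mul_le_mul_of_nonneg_right r4 hsg),
    q5.trans (mul_le_mul_of_nonneg_right r5 hs),
    q6.trans (mul_le_mul_of_nonneg_right r6 hsg),
    q7.trans (mul_le_mul_of_nonneg_right r7 hsg),
    q8.trans (mul_le_mul_of_nonneg_right r8 hs)⟩

/-- **equal change of both traces** (one sided). -/
theorem free_bd {A B W : E3 → ℝ} {C : ℝ} {j : Jet E4 H4}
    (hB : -(C * ((√(om γ (bJ j)))⁻¹ * (1 + (bJ j).2.2))) ≤ B (bJ j)) (hC : 0 ≤ C)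
    {ε : ℝ} (hε : 0 ≤ ε) :
    IE A B W (shT ε ε j) ≤ IE A B W j + 2 * C * (ε * (√(om γ (bJ j)))⁻¹ * j.W ^ 2) := by
  rw [IE_shT, sub_self, zero_div, zero_mul, add_zero]
  have hG : 1 + (bJ j).2.2 ≤ 2 * j.W := G_le_W j
  have hs : 0 ≤ (√(om γ (bJ j)))⁻¹ := by positivity
  have hW := j.one_le_W
  have h2 : (√(om γ (bJ j)))⁻¹ * (1 + (bJ j).2.2) ≤ (√(om γ (bJ j)))⁻¹ * (2 * j.W ^ 2) :=
    mul_le_mul_of_nonneg_left (hG.trans (by nlinarith)) hs
  have h3 := mul_le_mul_of_nonneg_left h2 hC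
  have h4 : -(C * ((√(om γ (bJ j)))⁻¹ * (2 * j.W ^ 2))) * ε ≤ B (bJ j) * ε :=
    mul_le_mul_of_nonneg_right (by linarith) hε
  have e : (ε + ε) / 2 = ε := by ring
  rw [e]
  have e2 : 2 * C * (ε * (√(om γ (bJ j)))⁻¹ * j.W ^ 2) =
      C * ((√(om γ (bJ j)))⁻¹ * (2 * j.W ^ 2)) * ε := by ring
  rw [e2]
  linarith

/-- **small change of the traces at jets with `dm = σ dη`.** -/
theorem tr_bd {A B W : E3 → ℝ} {K : ℝ} {j : Jet E4 H4} (hB : Bds1 γ A B W K (bJ j)) (hK : 0 ≤ K)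
    (hm : 1 / 4 ≤ (bJ j).2.1) {σ α β a : ℝ} (hv : vJ j = σ • uJ j) (hσ : |σ| ≤ |(bJ j).1|)
    (hα : |α| ≤ a) (hβ : |β| ≤ a) (ha : a ≤ 1) :
    |IE A B W (shT α β j) - IE A B W j| ≤ 60 * K * (a * (√(om γ (bJ j)))⁻¹ * j.W ^ 2) := by
  have ha0 : 0 ≤ a := (abs_nonneg α).trans hα
  obtain ⟨D, hD⟩ : ∃ D, D = j.W := ⟨_, rfl⟩
  obtain ⟨s, hs⟩ : ∃ s, s = (√(om γ (bJ j)))⁻¹ := ⟨_, rfl⟩
  have hs0 : 0 ≤ s := by rw [hs]; positivity
  have hD1 : 1 ≤ D := by rw [hD]; exact j.one_le_W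
  have hG0 : 0 ≤ uJ j ⬝ᵥ uJ j := uu_nonneg j
  have hG : 1 + uJ j ⬝ᵥ uJ j ≤ 2 * D := by rw [hD]; exact G_le_W j
  have hx : |xJ j| ≤ D := by rw [hD]; exact (abs_xJ_le_Nj j).trans (Nj_le_W j)
  have hPQ : ‖j.P‖ + ‖j.Q‖ ≤ D := by
    rw [hD, Jet.W]; nlinarith [sq_nonneg ‖j.p‖, sq_nonneg ‖j.q‖]
  have huSu := abs_uSu_le j
  have hvu : vJ j ⬝ᵥ uJ j = σ * (uJ j ⬝ᵥ uJ j) := by
    rw [hv, smul_dotProduct, smul_eq_mul]
  have ht : |(α - β) / 4| ≤ a / 2 := by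
    rw [abs_div, abs_of_pos (by norm_num : (0:ℝ) < 4)]
    have := abs_sub α β
    linarith
  have hab : |(α + β) / 2| ≤ a := by
    rw [abs_div, abs_of_pos (by norm_num : (0:ℝ) < 2)]
    have := abs_add_le α β
    linarith
  have hsG : s * (1 + uJ j ⬝ᵥ uJ j) ≤ s * (2 * D) := mul_le_mul_of_nonneg_left hG hs0
  have bA : |A (bJ j)| ≤ K * (s * (2 * D)) := by
    have := hB.bA
    rw [← hs] at this
    exact this.trans (mul_le_mul_of_nonneg_left hsG hK)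
  have bAG : |pd3 A (bJ j) * (uJ j ⬝ᵥ uJ j)| ≤ K * (s * (2 * D)) := by
    have := hB.bAG
    rw [← hs] at this
    exact this.trans (mul_le_mul_of_nonneg_left hsG hK)
  have bB : |B (bJ j)| ≤ K * (s * (2 * D)) := by
    have := hB.bB
    rw [← hs] at this
    exact this.trans (mul_le_mul_of_nonneg_left hsG hK)
  have bW : |W (bJ j)| ≤ K * s := by
    have := hB.bW
    rwa [← hs] at this
  have bWG : |pd3 W (bJ j) * (uJ j ⬝ᵥ uJ j)| ≤ K * s := by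
    have := hB.bW3
    rwa [← hs] at this
  have small : ∀ y : ℝ, |y * ((bJ j).1 * (uJ j ⬝ᵥ uJ j))| ≤ K * (s * (2 * D)) →
      |y * (vJ j ⬝ᵥ uJ j)| ≤ K * (s * (2 * D)) := by
    intro y hy
    rw [hvu]
    refine le_trans ?_ hy
    rw [abs_mul, abs_mul, abs_mul, abs_mul]
    exact mul_le_mul_of_nonneg_left (mul_le_mul_of_nonneg_right hσ (abs_nonneg _)) (abs_nonneg _)
  have bBG : |pd3 B (bJ j) * (vJ j ⬝ᵥ uJ j)| ≤ K * (s * (2 * D)) := by
    apply small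
    have := hB.bBG
    rw [← hs] at this
    exact this.trans (mul_le_mul_of_nonneg_left hsG hK)
  have bW2 : |pd2 W (bJ j) * (vJ j ⬝ᵥ uJ j)| ≤ K * (s * (2 * D)) := by
    apply small
    have := hB.bW2
    rw [← hs] at this
    exact this.trans (mul_le_mul_of_nonneg_left hsG hK)
  have bW1 : |pd1 W (bJ j) * (uJ j ⬝ᵥ uJ j)| ≤ 4 * (K * (s * (2 * D))) := by
    have h1 := hB.bW1
    rw [← hs] at h1
    have h2 : |pd1 W (bJ j) * ((bJ j).2.1 * (uJ j ⬝ᵥ uJ j))| ≤ K * (s * (2 * D)) :=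
      h1.trans (mul_le_mul_of_nonneg_left hsG hK)
    have e : |pd1 W (bJ j) * ((bJ j).2.1 * (uJ j ⬝ᵥ uJ j))| =
        (bJ j).2.1 * |pd1 W (bJ j) * (uJ j ⬝ᵥ uJ j)| := by
      rw [show pd1 W (bJ j) * ((bJ j).2.1 * (uJ j ⬝ᵥ uJ j)) =
        (bJ j).2.1 * (pd1 W (bJ j) * (uJ j ⬝ᵥ uJ j)) by ring, abs_mul, abs_of_pos (by linarith)]
    rw [e] at h2
    nlinarith [abs_nonneg (pd1 W (bJ j) * (uJ j ⬝ᵥ uJ j))]
  have bWS : |pd3 W (bJ j) * (uJ j ⬝ᵥ (sJ j *ᵥ uJ j))| ≤ 12 * (K * s * D) := by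
    have h1 : |pd3 W (bJ j) * (uJ j ⬝ᵥ (sJ j *ᵥ uJ j))| ≤
        12 * (‖j.P‖ + ‖j.Q‖) * |pd3 W (bJ j) * (uJ j ⬝ᵥ uJ j)| := by
      rw [abs_mul, abs_mul, abs_of_nonneg hG0]
      calc |pd3 W (bJ j)| * |uJ j ⬝ᵥ (sJ j *ᵥ uJ j)| ≤
            |pd3 W (bJ j)| * (12 * (‖j.P‖ + ‖j.Q‖) * (uJ j ⬝ᵥ uJ j)) :=
            mul_le_mul_of_nonneg_left huSu (abs_nonneg _)
        _ = _ := by ring
    have h2 : 12 * (‖j.P‖ + ‖j.Q‖) * |pd3 W (bJ j) * (uJ j ⬝ᵥ uJ j)| ≤ 12 * D * (K * s) :=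
      mul_le_mul (by linarith) bWG (abs_nonneg _) (by positivity)
    linarith
  rw [IE_shT, ← hs, ← hD]
  have prod : ∀ {x y p q : ℝ}, |x| ≤ p → |y| ≤ q → |x * y| ≤ p * q := by
    intro x y p q hx hy
    rw [abs_mul]
    exact mul_le_mul hx hy (abs_nonneg _) ((abs_nonneg _).trans hx)
  obtain ⟨t, htd⟩ : ∃ t, t = (α - β) / 4 := ⟨_, rfl⟩
  rw [← htd] at ht ⊢
  have p1 := prod bB hab
  have p2 := prod bW hx
  have p3 := prod bW ht
  have p4 : |xJ j + 3 * t| ≤ D + 3 * (a / 2) := by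
    have := abs_add_le (xJ j) (3 * t)
    rw [abs_mul, abs_of_pos (by norm_num : (0:ℝ) < 3)] at this
    linarith
  have p5 := prod bWG p4
  have hKs : 0 ≤ K * s := mul_nonneg hK hs0
  have hKsD : 0 ≤ K * s * D := mul_nonneg hKs (by linarith)
  have hKsa : K * s * a ≤ K * s * D := mul_le_mul_of_nonneg_left (by linarith) hKs
  have q : |4 * A (bJ j) + 2 * (pd3 A (bJ j) * (uJ j ⬝ᵥ uJ j)) + 2 * (pd3 B (bJ j) * (vJ j ⬝ᵥ uJ j)) +
        6 * (W (bJ j) * xJ j) + 12 * (W (bJ j) * t) +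
        3 * (pd1 W (bJ j) * (uJ j ⬝ᵥ uJ j) + pd2 W (bJ j) * (vJ j ⬝ᵥ uJ j)) +
        2 * (pd3 W (bJ j) * (uJ j ⬝ᵥ uJ j) * (xJ j + 3 * t)) +
        4 * (pd3 W (bJ j) * (uJ j ⬝ᵥ (sJ j *ᵥ uJ j)))| ≤ 114 * (K * s * D) := by
    rw [abs_le] at bA bAG bBG p2 p3 bW1 bW2 p5 bWS ⊢
    obtain ⟨x1, y1⟩ := bA
    obtain ⟨x2, y2⟩ := bAG
    obtain ⟨x3, y3⟩ := bBG
    obtain ⟨x4, y4⟩ := p2
    obtain ⟨x5, y5⟩ := p3
    obtain ⟨x6, y6⟩ := bW1
    obtain ⟨x7, y7⟩ := bW2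
    obtain ⟨x8, y8⟩ := p5
    obtain ⟨x9, y9⟩ := bWS
    clear bB bW bWG p1 p4 prod small huSu hσ hα hβ hx hab hv hvu hsG
    constructor <;> linarith
  have p6 := prod ht q
  generalize (4 * A (bJ j) + 2 * (pd3 A (bJ j) * (uJ j ⬝ᵥ uJ j)) +
        2 * (pd3 B (bJ j) * (vJ j ⬝ᵥ uJ j)) +
        6 * (W (bJ j) * xJ j) + 12 * (W (bJ j) * t) +
        3 * (pd1 W (bJ j) * (uJ j ⬝ᵥ uJ j) + pd2 W (bJ j) * (vJ j ⬝ᵥ uJ j)) +
        2 * (pd3 W (bJ j) * (uJ j ⬝ᵥ uJ j) * (xJ j + 3 * t)) +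
        4 * (pd3 W (bJ j) * (uJ j ⬝ᵥ (sJ j *ᵥ uJ j)))) = Y at *
  have e1 : IE A B W j - (B (bJ j) * ((α + β) / 2) + t * Y) - IE A B W j =
      -(B (bJ j) * ((α + β) / 2) + t * Y) := by ring
  rw [e1, abs_neg]
  refine (abs_add_le _ _).trans ?_
  have hKsDa : K * s * D * a ≤ K * s * D ^ 2 * a := by
    have : K * s * D ≤ K * s * D ^ 2 := by nlinarith
    exact mul_le_mul_of_nonneg_right this ha0
  clear bA bAG bBG bB bW bWG bW1 bW2 bWS p2 p3 p4 p5 prod small huSu hv hvu hsG q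
  nlinarith

end Crest.Agent.R249.Sym467
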